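import Mathlib

-- ▼ part R204/Ex_837
section

/-!
# Row 204, block H, leaf H-EX (helper837)

Exactness and gluing for idempotent matrices over rings (pure algebra part).
-/

set_option autoImplicit false
set_option linter.unusedSectionVars false
set_option linter.unusedSimpArgs false

namespace Crest.Agent.R204.Ex837

open Matrix

universe u

section Whitehead

variable {A B : Type*} [Ring A] [Ring B] {I J : Type*} [Fintype I] [Fintype J]
  [DecidableEq I] [DecidableEq J]

/-- elementary block matrices -/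
def E12 (x : Matrix I J A) : Matrix (I ⊕ J) (I ⊕ J) A := fromBlocks 1 x 0 1
/-- elementary block matrices -/
def E21 (x : Matrix J I A) : Matrix (I ⊕ J) (I ⊕ J) A := fromBlocks 1 0 x 1

theorem E12_mul (x y : Matrix I J A) : E12 x * E12 y = E12 (x + y) := by
  simp [E12, fromBlocks_multiply, add_comm]

theorem E21_mul (x y : Matrix J I A) : E21 x * E21 y = E21 (x + y) := by
  simp [E21, fromBlocks_multiply, add_comm]

theorem E12_zero : E12 (0 : Matrix I J A) = 1 := by simp [E12, fromBlocks_one]
theorem E21_zero : E21 (0 : Matrix J I A) = 1 := by simp [E21, fromBlocks_one]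

theorem E12_neg_mul (x : Matrix I J A) : E12 (-x) * E12 x = 1 := by
  rw [E12_mul, neg_add_cancel, E12_zero]
theorem E12_mul_neg (x : Matrix I J A) : E12 x * E12 (-x) = 1 := by
  rw [E12_mul, add_neg_cancel, E12_zero]
theorem E21_neg_mul (x : Matrix J I A) : E21 (-x) * E21 x = 1 := by
  rw [E21_mul, neg_add_cancel, E21_zero]
theorem E21_mul_neg (x : Matrix J I A) : E21 x * E21 (-x) = 1 := by
  rw [E21_mul, add_neg_cancel, E21_zero]

theorem E12_map (φ : A →+* B) (x : Matrix I J A) : (E12 x).map φ = E12 (x.map φ) := by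
  simp [E12, fromBlocks_map]
theorem E21_map (φ : A →+* B) (x : Matrix J I A) : (E21 x).map φ = E21 (x.map φ) := by
  simp [E21, fromBlocks_map]

/-- the Whitehead matrix of a pair `(u, v)`; equals `diag(u, v)` if `u v = 1 = v u`. -/
def Wh (u v : Matrix I I A) : Matrix (I ⊕ I) (I ⊕ I) A :=
  E12 u * E21 (-v) * E12 u * (E12 (-1) * E21 1 * E12 (-1))

/-- its inverse -/
def WhInv (u v : Matrix I I A) : Matrix (I ⊕ I) (I ⊕ I) A :=
  (E12 1 * E21 (-1) * E12 1) * (E12 (-u) * E21 v * E12 (-u))

theorem Wh_mul_inv (u v : Matrix I I A) : Wh u v * WhInv u v = 1 := by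
  have h1 : (E12 (-1) * E21 1 * E12 (-1) : Matrix (I ⊕ I) (I ⊕ I) A) *
      (E12 1 * E21 (-1) * E12 1) = 1 := by
    calc (E12 (-1) * E21 1 * E12 (-1) : Matrix (I ⊕ I) (I ⊕ I) A) *
      (E12 1 * E21 (-1) * E12 1) = E12 (-1) * (E21 1 * (E12 (-1) * E12 1) * E21 (-1)) * E12 1 := by
          simp only [Matrix.mul_assoc]
      _ = 1 := by rw [E12_neg_mul, Matrix.mul_one, E21_mul_neg, Matrix.mul_one, E12_neg_mul]
  calc Wh u v * WhInv u v = E12 u * E21 (-v) * E12 u * ((E12 (-1) * E21 1 * E12 (-1)) *
      (E12 1 * E21 (-1) * E12 1)) * (E12 (-u) * E21 v * E12 (-u)) := by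
        simp only [Wh, WhInv, Matrix.mul_assoc]
    _ = E12 u * (E21 (-v) * (E12 u * E12 (-u)) * E21 v) * E12 (-u) := by
        rw [h1]; simp only [Matrix.mul_assoc, Matrix.mul_one, Matrix.one_mul]
    _ = 1 := by rw [E12_mul_neg, Matrix.mul_one, E21_neg_mul, Matrix.mul_one, E12_mul_neg]

theorem Wh_inv_mul (u v : Matrix I I A) : WhInv u v * Wh u v = 1 := by
  have h1 : (E12 (-u) * E21 v * E12 (-u)) * (E12 u * E21 (-v) * E12 u) = 1 := by
    calc (E12 (-u) * E21 v * E12 (-u)) * (E12 u * E21 (-v) * E12 u)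
        = E12 (-u) * (E21 v * (E12 (-u) * E12 u) * E21 (-v)) * E12 u := by
          simp only [Matrix.mul_assoc]
      _ = 1 := by rw [E12_neg_mul, Matrix.mul_one, E21_mul_neg, Matrix.mul_one, E12_neg_mul]
  calc WhInv u v * Wh u v = (E12 1 * E21 (-1) * E12 1) * ((E12 (-u) * E21 v * E12 (-u)) *
        (E12 u * E21 (-v) * E12 u)) * (E12 (-1) * E21 1 * E12 (-1)) := by
        simp only [Wh, WhInv, Matrix.mul_assoc]
    _ = E12 1 * (E21 (-1) * (E12 1 * E12 (-1)) * E21 1) * E12 (-1) := by
        rw [h1]; simp only [Matrix.mul_assoc, Matrix.mul_one, Matrix.one_mul]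
    _ = 1 := by rw [E12_mul_neg, Matrix.mul_one, E21_neg_mul, Matrix.mul_one, E12_mul_neg]

theorem Wh_eq {u v : Matrix I I A} (h1 : u * v = 1) (h2 : v * u = 1) :
    Wh u v = fromBlocks u 0 0 v := by
  simp [Wh, E12, E21, fromBlocks_multiply, h1, h2]

theorem WhInv_eq {u v : Matrix I I A} (h1 : u * v = 1) (h2 : v * u = 1) :
    WhInv u v = fromBlocks v 0 0 u := by
  have e1 := Wh_inv_mul u v
  rw [Wh_eq h1 h2] at e1
  calc WhInv u v = WhInv u v * (fromBlocks u 0 0 v * fromBlocks v 0 0 u) := by
        simp [fromBlocks_multiply, h1, h2, fromBlocks_one]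
    _ = fromBlocks v 0 0 u := by rw [← Matrix.mul_assoc, e1, Matrix.one_mul]

theorem Wh_map (φ : A →+* B) (u v : Matrix I I A) : (Wh u v).map φ = Wh (u.map φ) (v.map φ) := by
  have hn : ∀ x : Matrix I I A, (-x).map φ = -(x.map φ) := fun x => by
    ext; simp
  simp [Wh, Matrix.map_mul, E12_map, E21_map, hn]

theorem WhInv_map (φ : A →+* B) (u v : Matrix I I A) :
    (WhInv u v).map φ = WhInv (u.map φ) (v.map φ) := by
  have hn : ∀ x : Matrix I I A, (-x).map φ = -(x.map φ) := fun x => by
    ext; simp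
  simp [WhInv, Matrix.map_mul, E12_map, E21_map, hn]

/-- a matrix over `B` lifts along a surjection. -/
theorem exists_map {φ : A →+* B} (hφ : Function.Surjective φ) (x : Matrix I J B) :
    ∃ y : Matrix I J A, y.map φ = x := by
  choose g hg using hφ
  exact ⟨x.map g, by ext; simp [hg]⟩

/-- **Whitehead lemma**: `diag(u, u⁻¹)` lifts to an invertible matrix. -/
theorem lift_diag {φ : A →+* B} (hφ : Function.Surjective φ) {u v : Matrix I I B}
    (h1 : u * v = 1) (h2 : v * u = 1) :
    ∃ U V : Matrix (I ⊕ I) (I ⊕ I) A, U * V = 1 ∧ V * U = 1 ∧ U.map φ = fromBlocks u 0 0 v ∧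
      V.map φ = fromBlocks v 0 0 u := by
  obtain ⟨u', hu⟩ := exists_map hφ u
  obtain ⟨v', hv⟩ := exists_map hφ v
  exact ⟨Wh u' v', WhInv u' v', Wh_mul_inv _ _, Wh_inv_mul _ _,
    by rw [Wh_map, hu, hv, Wh_eq h1 h2], by rw [WhInv_map, hu, hv, WhInv_eq h1 h2]⟩

end Whitehead

section MvN

variable {A B : Type*} [Ring A] [Ring B] {I J K : Type*} [Fintype I] [Fintype J] [Fintype K]
  [DecidableEq I] [DecidableEq J] [DecidableEq K]

/-- `(v, w)` is a Murray-von Neumann equivalence from `e` to `f`. -/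
structure IsMvN (e : Matrix I I A) (f : Matrix J J A) (v : Matrix I J A) (w : Matrix J I A) :
    Prop where
  vw : v * w = e
  wv : w * v = f
  ev : e * v = v
  vf : v * f = v
  we : w * e = w
  fw : f * w = w

/-- Murray-von Neumann equivalence of idempotent matrices -/
def MvN (e : Matrix I I A) (f : Matrix J J A) : Prop :=
  ∃ (v : Matrix I J A) (w : Matrix J I A), v * w = e ∧ w * v = f

theorem MvN.norm {e : Matrix I I A} {f : Matrix J J A} (he : e * e = e) (hf : f * f = f)
    {v : Matrix I J A} {w : Matrix J I A} (h1 : v * w = e) (h2 : w * v = f) :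
    IsMvN e f (e * v * f) (f * w * e) := by
  have hev : e * v = v * f := by rw [← h1, ← h2, Matrix.mul_assoc]
  have hwe : w * e = f * w := by rw [← h1, ← h2, Matrix.mul_assoc]
  have h3 : e * v * f = e * v := by
    rw [Matrix.mul_assoc, ← hev, ← Matrix.mul_assoc, he]
  have h4 : f * w * e = f * w := by
    rw [Matrix.mul_assoc, hwe, ← Matrix.mul_assoc, hf]
  rw [h3, h4]
  refine ⟨?_, ?_, ?_, ?_, ?_, ?_⟩
  · calc e * v * (f * w) = e * (v * f) * w := by simp only [Matrix.mul_assoc]
      _ = e := by rw [← hev, ← Matrix.mul_assoc e e v, he, Matrix.mul_assoc, h1, he]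
  · calc f * w * (e * v) = f * (w * e) * v := by simp only [Matrix.mul_assoc]
      _ = f := by rw [hwe, ← Matrix.mul_assoc f f w, hf, Matrix.mul_assoc, h2, hf]
  · rw [← Matrix.mul_assoc, he]
  · rw [Matrix.mul_assoc, ← hev, ← Matrix.mul_assoc, he]
  · rw [Matrix.mul_assoc, hwe, ← Matrix.mul_assoc, hf]
  · rw [← Matrix.mul_assoc, hf]

/-- the symmetry which exchanges `e ⊕ 0` and `0 ⊕ f` -/
def sym (e : Matrix I I A) (f : Matrix J J A) (v : Matrix I J A) (w : Matrix J I A) :
    Matrix (I ⊕ J) (I ⊕ J) A := fromBlocks (1 - e) v w (1 - f)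

theorem IsMvN.idem_left {e : Matrix I I A} {f : Matrix J J A} {v : Matrix I J A}
    {w : Matrix J I A} (h : IsMvN e f v w) : e * e = e := by
  calc e * e = e * v * w := by rw [Matrix.mul_assoc, h.vw]
    _ = e := by rw [h.ev, h.vw]

theorem IsMvN.idem_right {e : Matrix I I A} {f : Matrix J J A} {v : Matrix I J A}
    {w : Matrix J I A} (h : IsMvN e f v w) : f * f = f := by
  calc f * f = f * w * v := by rw [Matrix.mul_assoc, h.wv]
    _ = f := by rw [h.fw, h.wv]

theorem sym_sq {e : Matrix I I A} {f : Matrix J J A} {v : Matrix I J A} {w : Matrix J I A}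
    (h : IsMvN e f v w) : sym e f v w * sym e f v w = 1 := by
  have he := h.idem_left
  have hf := h.idem_right
  simp only [sym, fromBlocks_multiply, Matrix.sub_mul, Matrix.mul_sub, Matrix.one_mul,
    Matrix.mul_one, he, hf, h.vw, h.wv, h.ev, h.vf, h.we, h.fw, sub_self, sub_zero, zero_add,
    add_zero, sub_add_cancel, add_sub_cancel, fromBlocks_one]

theorem sym_conj {e : Matrix I I A} {f : Matrix J J A} {v : Matrix I J A} {w : Matrix J I A}
    (h : IsMvN e f v w) :
    sym e f v w * fromBlocks e 0 0 0 * sym e f v w = fromBlocks 0 0 0 f := by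
  have he := h.idem_left
  have hf := h.idem_right
  simp only [sym, fromBlocks_multiply, Matrix.sub_mul, Matrix.mul_sub, Matrix.one_mul,
    Matrix.mul_one, Matrix.mul_zero, Matrix.zero_mul, he, hf, h.vw, h.wv, h.ev, h.vf, h.we, h.fw,
    sub_self, sub_zero, zero_add, add_zero]



end MvN

end Crest.Agent.R204.Ex837
end

-- ▼ part R204/Ex2_837

/-!
# Row 204, block H, leaf H-EX (helper837): lifting of invertible matrices connected to `1`
-/

set_option autoImplicit false
set_option linter.unusedSectionVars false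

namespace Crest.Agent.R204.Ex837

open Matrix Topology

section Norms
open scoped Matrix.Norms.Operator

theorem hasSummableGeomSeries_matrix (n : Type*) [Fintype n] [DecidableEq n] (A : Type*)
    [NormedRing A] [CompleteSpace A] : HasSummableGeomSeries (Matrix n n A) := by
  have h1 : @CompleteSpace (Matrix n n A) (PseudoMetricSpace.toUniformSpace) :=
    (inferInstance : @CompleteSpace (Matrix n n A) (Matrix.instUniformSpace n n A))
  infer_instance

theorem isOpen_isUnit_matrix' (n : Type*) [Fintype n] [DecidableEq n] (A : Type*)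
    [NormedRing A] [CompleteSpace A] : IsOpen {x : Matrix n n A | IsUnit x} := by
  have := hasSummableGeomSeries_matrix n A
  exact Units.isOpen

theorem isOpenEmbedding_val_matrix' (n : Type*) [Fintype n] [DecidableEq n] (A : Type*)
    [NormedRing A] [CompleteSpace A] :
    IsOpenEmbedding (Units.val : (Matrix n n A)ˣ → Matrix n n A) := by
  have := hasSummableGeomSeries_matrix n A
  exact Units.isOpenEmbedding_val

end Norms

section

variable {n : Type*} [Fintype n] [DecidableEq n] {A B : Type*} [NormedRing A] [CompleteSpace A]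
  [NormedRing B] [CompleteSpace B]

/-- invertible matrices over a Banach algebra form an open set (product topology). -/
theorem isOpen_isUnit_matrix (n : Type*) [Fintype n] [DecidableEq n] (A : Type*)
    [NormedRing A] [CompleteSpace A] : IsOpen {x : Matrix n n A | IsUnit x} :=
  isOpen_isUnit_matrix' n A

/-- the units embed as an open set (product topology). -/
theorem isOpenEmbedding_val_matrix (n : Type*) [Fintype n] [DecidableEq n] (A : Type*)
    [NormedRing A] [CompleteSpace A] :
    IsOpenEmbedding (Units.val : (Matrix n n A)ˣ → Matrix n n A) :=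
  isOpenEmbedding_val_matrix' n A

theorem isOpenMap_matrix_map {φ : A →+* B} (h : IsOpenMap φ) :
    IsOpenMap (fun M : Matrix n n A => M.map φ) := by
  have h1 : IsOpenMap (Pi.map (fun _ : n => (φ : A → B)) : (n → A) → (n → B)) :=
    IsOpenMap.piMap (fun _ => h) (by simp [Filter.cofinite_eq_bot])
  have h2 : IsOpenMap (Pi.map (fun _ : n => (Pi.map (fun _ : n => (φ : A → B)) :
      (n → A) → (n → B))) : (n → n → A) → (n → n → B)) :=
    IsOpenMap.piMap (fun _ => h1) (by simp [Filter.cofinite_eq_bot])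
  exact h2

/-- the units which lift form an open subgroup -/
theorem isOpen_range_units {φ : A →+* B} (h : IsOpenMap φ) :
    IsOpen ((Units.map (φ.mapMatrix (m := n) : Matrix n n A →* Matrix n n B)).range :
      Set (Matrix n n B)ˣ) := by
  apply Subgroup.isOpen_of_mem_nhds (g := 1)
  have h1 : IsOpen ((fun M : Matrix n n A => M.map φ) '' {x : Matrix n n A | IsUnit x}) :=
    isOpenMap_matrix_map h _ (isOpen_isUnit_matrix n A)
  have h2 := h1.preimage (Units.continuous_val (M := Matrix n n B))
  refine Filter.mem_of_superset (h2.mem_nhds ?_) ?_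
  · exact ⟨1, isUnit_one, by simp⟩
  · rintro u ⟨x, ⟨y, rfl⟩, hx⟩
    exact ⟨y, Units.ext hx⟩

/-- **lifting of invertible matrices in the identity component** -/
theorem lift_of_mem_connectedComponent {φ : A →+* B} (h : IsOpenMap φ) {u : (Matrix n n B)ˣ}
    (hu : u ∈ connectedComponent (1 : (Matrix n n B)ˣ)) :
    ∃ U : (Matrix n n A)ˣ, (U : Matrix n n A).map φ = u := by
  have h1 := isOpen_range_units (n := n) h
  have h2 : IsClopen ((Units.map (φ.mapMatrix (m := n) : Matrix n n A →* Matrix n n B)).range :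
      Set (Matrix n n B)ˣ) := ⟨Subgroup.isClosed_of_isOpen _ h1, h1⟩
  obtain ⟨U, hU⟩ := h2.connectedComponent_subset (Subgroup.one_mem _) hu
  exact ⟨U, congrArg Units.val hU⟩

/-- a path of invertible matrices -/
theorem mem_connectedComponent_of_path (H : unitInterval → Matrix n n B) (hH : Continuous H)
    (hu : ∀ t, IsUnit (H t)) (u : (Matrix n n B)ˣ) (h0 : H 0 = 1) (h1 : H 1 = u) :
    u ∈ connectedComponent (1 : (Matrix n n B)ˣ) := by
  choose G hG using hu
  have hGc : Continuous G := by
    rw [(isOpenEmbedding_val_matrix n B).isEmbedding.continuous_iff]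
    have : Units.val ∘ G = H := funext hG
    rw [this]; exact hH
  have h2 : IsPreconnected (Set.range G) := isPreconnected_range hGc
  have h3 : G 0 = 1 := Units.ext (by rw [hG, h0]; rfl)
  have h4 : G 1 = u := Units.ext (by rw [hG, h1])
  exact h2.subset_connectedComponent ⟨0, h3⟩ ⟨1, h4⟩

/-- **lifting along a path** -/
theorem lift_of_path {φ : A →+* B} (h : IsOpenMap φ) (H : unitInterval → Matrix n n B)
    (hH : Continuous H) (hu : ∀ t, IsUnit (H t)) (h0 : H 0 = 1) {u v : Matrix n n B}
    (huv : u * v = 1) (hvu : v * u = 1) (h1 : H 1 = u) :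
    ∃ U V : Matrix n n A, U * V = 1 ∧ V * U = 1 ∧ U.map φ = u ∧ V.map φ = v := by
  obtain ⟨U, hU⟩ := lift_of_mem_connectedComponent h
    (mem_connectedComponent_of_path H hH hu ⟨u, v, huv, hvu⟩ h0 h1)
  refine ⟨U, ↑U⁻¹, U.mul_inv, U.inv_mul, hU, ?_⟩
  have h2 : (U : Matrix n n A).map φ * (↑U⁻¹ : Matrix n n A).map φ = 1 := by
    rw [← Matrix.map_mul, U.mul_inv, Matrix.map_one _ (map_zero φ) (map_one φ)]
  have h3 : (U : Matrix n n A).map φ = u := hU
  calc (↑U⁻¹ : Matrix n n A).map φ = v * (u * (↑U⁻¹ : Matrix n n A).map φ) := by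
        rw [← Matrix.mul_assoc, hvu, Matrix.one_mul]
    _ = v := by rw [← h3, h2, Matrix.mul_one]

end

section Tietze

variable {X Y : Type*} [TopologicalSpace X] [TopologicalSpace Y] [CompactSpace X] [CompactSpace Y]
  [NormalSpace X]

/-- restriction along a closed embedding is a surjective ring hom -/
theorem restrict_surjective {i : C(Y, X)} (hi : IsClosedEmbedding i) :
    Function.Surjective (ContinuousMap.compRightAlgHom ℂ ℂ i) := fun f => by
  obtain ⟨g, hg⟩ := f.exists_extension hi
  exact ⟨g, hg⟩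

/-- restriction along a closed embedding is open -/
theorem restrict_isOpenMap {i : C(Y, X)} (hi : IsClosedEmbedding i) :
    IsOpenMap (ContinuousMap.compRightAlgHom ℂ ℂ i) := by
  let f : C(X, ℂ) →L[ℂ] C(Y, ℂ) :=
    ⟨(ContinuousMap.compRightAlgHom ℂ ℂ i).toLinearMap,
      ContinuousMap.compRightAlgHom_continuous ℂ ℂ i⟩
  exact f.isOpenMap (restrict_surjective hi)

end Tietze

end Crest.Agent.R204.Ex837
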