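import Mathlib

/-!
# Algebraic `K₀` by idempotent matrices (row 204, block H, leaf H1) -- definitions

* `Groth S`: Grothendieck group of an additive commutative monoid; a commutative ring if `S` is a
  commutative semiring.
* `MvN e f`: `∃ u v, u * v = e ∧ v * u = f` (rectangular matrices).
* `V A`: classes of idempotent matrices over a ring `A`; a commutative semiring if `A` is
  commutative; `cl e : V A` for `e : Matrix I I A`, any `Fintype I` (junk `0` if not idempotent).
* `K0 A := Groth (V A)`, `K0.cls e`, `K0.map φ`, `K0.mapRing φ`.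
-/

open Matrix
open scoped Kronecker

namespace Crest.Agent.R204.K357

universe u v w

/-! ## Grothendieck group -/

/-- the Grothendieck relation on `S × S`. -/
def Groth.setoid (S : Type u) [AddCommMonoid S] : Setoid (S × S) where
  r x y := ∃ k, x.1 + y.2 + k = y.1 + x.2 + k
  iseqv := by
    refine ⟨fun x => ⟨0, rfl⟩, fun {x y} ⟨k, h⟩ => ⟨k, h.symm⟩, ?_⟩
    rintro ⟨a, b⟩ ⟨c, d⟩ ⟨e, f⟩ ⟨k, h⟩ ⟨l, h'⟩
    refine ⟨c + d + k + l, ?_⟩
    simp only at h h' ⊢
    calc a + f + (c + d + k + l) = (a + d + k) + (c + f + l) := by abel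
      _ = (c + b + k) + (e + d + l) := by rw [h, h']
      _ = e + b + (c + d + k + l) := by abel

/-- The Grothendieck group of a commutative additive monoid (a ring for commutative semirings). -/
def Groth (S : Type u) [AddCommMonoid S] : Type u := Quotient (Groth.setoid S)

namespace Groth

section add

variable {S : Type u} [AddCommMonoid S] {T : Type v} [AddCommMonoid T]

/-- formal difference -/
def mk (a b : S) : Groth S := Quotient.mk _ (a, b)

theorem mk_eq_iff {a b c d : S} : mk a b = mk c d ↔ ∃ k, a + d + k = c + b + k :=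
  ⟨fun h => Quotient.exact h, fun h => Quotient.sound h⟩

theorem ind {P : Groth S → Prop} (h : ∀ a b, P (mk a b)) (x : Groth S) : P x := by
  induction x using Quotient.ind with
  | _ x => exact h x.1 x.2

/-- addition -/
def add (x y : Groth S) : Groth S :=
  Quotient.liftOn₂ x y (fun x y => mk (x.1 + y.1) (x.2 + y.2)) (by
    rintro ⟨a, b⟩ ⟨c, d⟩ ⟨a', b'⟩ ⟨c', d'⟩ ⟨k, h⟩ ⟨l, h'⟩
    simp only at h h' ⊢
    rw [mk_eq_iff]
    refine ⟨k + l, ?_⟩
    calc a + c + (b' + d') + (k + l) = (a + b' + k) + (c + d' + l) := by abel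
      _ = (a' + b + k) + (c' + d + l) := by rw [h, h']
      _ = _ := by abel)

/-- negation -/
def neg (x : Groth S) : Groth S :=
  Quotient.liftOn x (fun x => mk x.2 x.1) (by
    rintro ⟨a, b⟩ ⟨c, d⟩ ⟨k, h⟩
    simp only at h ⊢
    rw [mk_eq_iff]
    refine ⟨k, ?_⟩
    calc b + c + k = c + b + k := by abel
      _ = a + d + k := h.symm
      _ = d + a + k := by abel)

instance : Add (Groth S) := ⟨add⟩
instance : Neg (Groth S) := ⟨neg⟩
instance : Zero (Groth S) := ⟨mk 0 0⟩

theorem mk_add (a b c d : S) : mk a b + mk c d = mk (a + c) (b + d) := rfl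
theorem mk_neg (a b : S) : -mk a b = mk b a := rfl
theorem mk_zero : (0 : Groth S) = mk 0 0 := rfl

theorem mk_eq_of_eq {a b c d : S} (h : a + d = c + b) : mk a b = mk c d :=
  mk_eq_iff.2 ⟨0, by rw [h]⟩

instance : AddCommGroup (Groth S) where
  add_assoc x y z := by
    induction x using ind; induction y using ind; induction z using ind
    simp only [mk_add, add_assoc]
  zero_add x := by
    induction x using ind
    simp only [mk_zero, mk_add, zero_add]
  add_zero x := by
    induction x using ind
    simp only [mk_zero, mk_add, add_zero]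
  add_comm x y := by
    induction x using ind; induction y using ind
    simp only [mk_add]
    congr 1 <;> exact add_comm _ _
  nsmul := nsmulRec
  zsmul := zsmulRec
  neg_add_cancel x := by
    induction x using ind with
    | _ a b =>
      rw [mk_neg, mk_add, mk_zero]
      exact mk_eq_of_eq (by abel)

/-- the canonical map, additive version -/
def ofAdd : S →+ Groth S where
  toFun a := mk a 0
  map_zero' := rfl
  map_add' a b := by rw [mk_add, add_zero]

theorem ofAdd_apply (a : S) : ofAdd a = mk a 0 := rfl

theorem mk_eq_sub (a b : S) : mk a b = ofAdd a - ofAdd b := by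
  rw [sub_eq_add_neg, ofAdd_apply, ofAdd_apply, mk_neg, mk_add, add_zero, zero_add]

theorem ofAdd_eq_iff {a b : S} : ofAdd a = ofAdd b ↔ ∃ k, a + k = b + k := by
  rw [ofAdd_apply, ofAdd_apply, mk_eq_iff]
  simp

theorem exists_rep (x : Groth S) : ∃ a b : S, x = ofAdd a - ofAdd b := by
  induction x using ind with
  | _ a b => exact ⟨a, b, mk_eq_sub a b⟩


/-- induction: elements are differences -/
theorem ind_sub {P : Groth S → Prop} (h : ∀ a b, P (ofAdd a - ofAdd b)) (x : Groth S) : P x := by
  obtain ⟨a, b, rfl⟩ := exists_rep x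
  exact h a b

/-- universal property, additive version -/
def lift {G : Type w} [AddCommGroup G] (f : S →+ G) : Groth S →+ G where
  toFun x := Quotient.liftOn x (fun x => f x.1 - f x.2) (by
    rintro ⟨a, b⟩ ⟨c, d⟩ ⟨k, h⟩
    simp only at h ⊢
    have := congrArg f h
    simp only [map_add] at this
    rw [sub_eq_sub_iff_add_eq_add]
    exact add_right_cancel this)
  map_zero' := by
    change f 0 - f 0 = 0
    simp
  map_add' x y := by
    induction x using ind with
    | _ a b =>
    induction y using ind with
    | _ c d =>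
    change f (a + c) - f (b + d) = (f a - f b) + (f c - f d)
    rw [map_add, map_add]
    abel

theorem lift_mk {G : Type w} [AddCommGroup G] (f : S →+ G) (a b : S) :
    lift f (mk a b) = f a - f b := rfl

@[simp] theorem lift_ofAdd {G : Type w} [AddCommGroup G] (f : S →+ G) (a : S) :
    lift f (ofAdd a) = f a := by
  rw [ofAdd_apply, lift_mk, map_zero, sub_zero]

/-- functoriality, additive version -/
def mapAdd (f : S →+ T) : Groth S →+ Groth T := lift (ofAdd.comp f)

@[simp] theorem mapAdd_ofAdd (f : S →+ T) (a : S) : mapAdd f (ofAdd a) = ofAdd (f a) :=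
  lift_ofAdd _ a

theorem addHom_ext {G : Type w} [AddCommGroup G] {f g : Groth S →+ G}
    (h : ∀ a, f (ofAdd a) = g (ofAdd a)) : f = g := by
  ext x
  induction x using ind_sub with
  | _ a b => rw [map_sub, map_sub, h, h]

end add

section mul

variable {S : Type u} [CommSemiring S] {T : Type v} [CommSemiring T]

/-- multiplication -/
def mul (x y : Groth S) : Groth S :=
  Quotient.liftOn₂ x y (fun x y => mk (x.1 * y.1 + x.2 * y.2) (x.1 * y.2 + x.2 * y.1)) (by
    rintro ⟨a, b⟩ ⟨c, d⟩ ⟨a', b'⟩ ⟨c', d'⟩ ⟨k, h⟩ ⟨l, h'⟩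
    simp only at h h' ⊢
    rw [mk_eq_iff]
    refine ⟨k * c + k * d + l * a' + l * b' + a' * d' + b' * c' + a' * c + b' * d
      + a' * c' + b' * d' + a' * d + b' * c, ?_⟩
    have e1 : (a + b' + k) * c = (a' + b + k) * c := by rw [h]
    have e2 : (a' + b + k) * d = (a + b' + k) * d := by rw [h]
    have e3 : a' * (c + d' + l) = a' * (c' + d + l) := by rw [h']
    have e4 : b' * (c' + d + l) = b' * (c + d' + l) := by rw [h']
    calc a * c + b * d + (a' * d' + b' * c') + (k * c + k * d + l * a' + l * b' + a' * d' + b' * c'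
          + a' * c + b' * d + a' * c' + b' * d' + a' * d + b' * c)
        = (a + b' + k) * c + (a' + b + k) * d + a' * (c + d' + l) + b' * (c' + d + l)
          + (a' * d' + b' * c' + a' * c' + b' * d') := by ring
      _ = (a' + b + k) * c + (a + b' + k) * d + a' * (c' + d + l) + b' * (c + d' + l)
          + (a' * d' + b' * c' + a' * c' + b' * d') := by rw [e1, e2, e3, e4]
      _ = a' * c' + b' * d' + (a * d + b * c) + (k * c + k * d + l * a' + l * b' + a' * d' + b' * c'
          + a' * c + b' * d + a' * c' + b' * d' + a' * d + b' * c) := by ring)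

instance : Mul (Groth S) := ⟨mul⟩
instance : One (Groth S) := ⟨mk 1 0⟩

theorem mk_mul (a b c d : S) : mk a b * mk c d = mk (a * c + b * d) (a * d + b * c) := rfl
theorem mk_one : (1 : Groth S) = mk 1 0 := rfl

instance : CommRing (Groth S) where
  mul_assoc x y z := by
    induction x using ind; induction y using ind; induction z using ind
    simp only [mk_mul]
    exact mk_eq_of_eq (by ring)
  one_mul x := by
    induction x using ind
    simp only [mk_one, mk_mul, one_mul, zero_mul, add_zero]
  mul_one x := by
    induction x using ind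
    simp only [mk_one, mk_mul, mul_one, mul_zero, add_zero, zero_add]
  left_distrib x y z := by
    induction x using ind; induction y using ind; induction z using ind
    simp only [mk_mul, mk_add]
    exact mk_eq_of_eq (by ring)
  right_distrib x y z := by
    induction x using ind; induction y using ind; induction z using ind
    simp only [mk_mul, mk_add]
    exact mk_eq_of_eq (by ring)
  zero_mul x := by
    induction x using ind
    simp only [mk_zero, mk_mul, zero_mul, add_zero]
  mul_zero x := by
    induction x using ind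
    simp only [mk_zero, mk_mul, mul_zero, add_zero]
  mul_comm x y := by
    induction x using ind; induction y using ind
    simp only [mk_mul]
    exact mk_eq_of_eq (by ring)
  zsmul := zsmulRec
  neg_add_cancel := neg_add_cancel

/-- the canonical map -/
def of : S →+* Groth S where
  toFun a := mk a 0
  map_one' := rfl
  map_zero' := rfl
  map_add' a b := by rw [mk_add, add_zero]
  map_mul' a b := by rw [mk_mul]; simp

theorem of_apply (a : S) : of a = mk a 0 := rfl


/-- universal property, multiplicative version -/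
def liftRing {R : Type w} [CommRing R] (f : S →+* R) : Groth S →+* R where
  toFun := lift f.toAddMonoidHom
  map_zero' := map_zero _
  map_add' := map_add _
  map_one' := by
    rw [mk_one, lift_mk]
    simp
  map_mul' x y := by
    induction x using ind with
    | _ a b =>
    induction y using ind with
    | _ c d =>
    rw [mk_mul, lift_mk, lift_mk, lift_mk]
    simp only [RingHom.toAddMonoidHom_eq_coe, AddMonoidHom.coe_coe, map_add, map_mul]
    ring

@[simp] theorem liftRing_ofAdd {R : Type w} [CommRing R] (f : S →+* R) (a : S) :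
    liftRing f (ofAdd a) = f a := lift_ofAdd f.toAddMonoidHom a



/-- functoriality -/
def map (f : S →+* T) : Groth S →+* Groth T := liftRing (of.comp f)

@[simp] theorem map_ofAdd (f : S →+* T) (a : S) : map f (ofAdd a) = ofAdd (f a) :=
  liftRing_ofAdd _ a


end mul

end Groth

section MvN

variable {A : Type*} [Ring A]
variable {I J K L : Type*} [Fintype I] [Fintype J] [Fintype K] [Fintype L]

/-- Murray–von Neumann equivalence of (idempotent) matrices, possibly of different sizes. -/
def MvN (e : Matrix I I A) (f : Matrix J J A) : Prop :=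
  ∃ (u : Matrix I J A) (v : Matrix J I A), u * v = e ∧ v * u = f

theorem MvN.refl {e : Matrix I I A} (he : e * e = e) : MvN e e := ⟨e, e, he, he⟩

theorem MvN.symm {e : Matrix I I A} {f : Matrix J J A} (h : MvN e f) : MvN f e := by
  obtain ⟨u, v, h1, h2⟩ := h
  exact ⟨v, u, h2, h1⟩

theorem MvN.trans {e : Matrix I I A} {f : Matrix J J A} {g : Matrix K K A}
    (he : e * e = e) (hg : g * g = g)
    (h : MvN e f) (h' : MvN f g) : MvN e g := by
  obtain ⟨u, v, h1, h2⟩ := h
  obtain ⟨u', v', h3, h4⟩ := h'
  refine ⟨u * u', v' * v, ?_, ?_⟩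
  · calc u * u' * (v' * v) = u * (u' * v') * v := by simp only [Matrix.mul_assoc]
      _ = (u * v) * (u * v) := by rw [h3, ← h2]; simp only [Matrix.mul_assoc]
      _ = e := by rw [h1, he]
  · calc v' * v * (u * u') = v' * (v * u) * u' := by simp only [Matrix.mul_assoc]
      _ = (v' * u') * (v' * u') := by rw [h2, ← h3]; simp only [Matrix.mul_assoc]
      _ = g := by rw [h4, hg]

/-- Two idempotents which are related by a reindexing are equivalent. -/
theorem MvN.of_equiv {e : Matrix I I A} {f : Matrix J J A} (he : e * e = e) (φ : I ≃ J)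
    (h : ∀ i j, f (φ i) (φ j) = e i j) : MvN e f := by
  have hf : f = e.submatrix φ.symm φ.symm := by
    ext i j
    simp [← h]
  refine ⟨e.submatrix id φ.symm, e.submatrix φ.symm id, ?_, ?_⟩
  · rw [Matrix.submatrix_mul_equiv, he]; rfl
  · rw [hf]
    have : e.submatrix φ.symm id * e.submatrix id φ.symm = (e * e).submatrix φ.symm φ.symm := by
      ext i j
      simp [Matrix.mul_apply]
    rw [this, he]

theorem idem_of_equiv {e : Matrix I I A} {f : Matrix J J A} (he : e * e = e) (φ : I ≃ J)
    (h : ∀ i j, f (φ i) (φ j) = e i j) : f * f = f := by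
  have hf : f = e.submatrix φ.symm φ.symm := by
    ext i j
    simp [← h]
  rw [hf, Matrix.submatrix_mul_equiv, he]

end MvN

/-- Idempotent matrices of arbitrary size. -/
structure Idem (A : Type u) [Ring A] where
  n : ℕ
  e : Matrix (Fin n) (Fin n) A
  idem : e * e = e

section ring

variable {A : Type u} [Ring A]

instance Idem.setoid (A : Type u) [Ring A] : Setoid (Idem A) where
  r x y := MvN x.e y.e
  iseqv := ⟨fun x => MvN.refl x.idem, fun h => h.symm, fun {x _ z} h h' => h.trans x.idem z.idem h'⟩

/-- Isomorphism classes of idempotent matrices. -/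
def V (A : Type u) [Ring A] : Type u := Quotient (Idem.setoid A)

/-- The class of an idempotent. -/
def V.mk (x : Idem A) : V A := Quotient.mk _ x

theorem V.mk_eq_iff {x y : Idem A} : V.mk x = V.mk y ↔ MvN x.e y.e :=
  ⟨fun h => Quotient.exact h, fun h => Quotient.sound h⟩

section cl

variable {I J K L : Type*} [Fintype I] [Fintype J] [Fintype K] [Fintype L]

theorem idem_reindex {e : Matrix I I A} (he : e * e = e) (φ : I ≃ J) :
    (e.submatrix φ.symm φ.symm) * (e.submatrix φ.symm φ.symm) = e.submatrix φ.symm φ.symm := by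
  rw [Matrix.submatrix_mul_equiv, he]

/-- The class of a matrix in `V A` (junk `0 × 0` if the matrix is not idempotent). -/
noncomputable def cl (e : Matrix I I A) : V A :=
  open Classical in
  if h : e * e = e then
    V.mk ⟨Fintype.card I, e.submatrix (Fintype.equivFin I).symm (Fintype.equivFin I).symm,
      idem_reindex h _⟩
  else V.mk ⟨0, 0, by simp⟩

theorem cl_eq {e : Matrix I I A} {f : Matrix J J A} (he : e * e = e) (hf : f * f = f)
    (h : MvN e f) : cl e = cl f := by
  unfold cl
  rw [dif_pos he, dif_pos hf, V.mk_eq_iff]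
  have h1 : MvN (e.submatrix (Fintype.equivFin I).symm (Fintype.equivFin I).symm) e :=
    (MvN.of_equiv he (Fintype.equivFin I) (by intro i j; simp)).symm
  have h2 : MvN f (f.submatrix (Fintype.equivFin J).symm (Fintype.equivFin J).symm) :=
    MvN.of_equiv hf (Fintype.equivFin J) (by intro i j; simp)
  exact (h1.trans (idem_reindex he _) hf h).trans (idem_reindex he _) (idem_reindex hf _) h2

theorem cl_eq_iff {e : Matrix I I A} {f : Matrix J J A} (he : e * e = e) (hf : f * f = f) :
    cl e = cl f ↔ MvN e f := by
  refine ⟨fun h => ?_, cl_eq he hf⟩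
  unfold cl at h
  rw [dif_pos he, dif_pos hf, V.mk_eq_iff] at h
  have h3 := h
  have h1 : MvN (e.submatrix (Fintype.equivFin I).symm (Fintype.equivFin I).symm) e :=
    (MvN.of_equiv he (Fintype.equivFin I) (by intro i j; simp)).symm
  have h2 : MvN f (f.submatrix (Fintype.equivFin J).symm (Fintype.equivFin J).symm) :=
    MvN.of_equiv hf (Fintype.equivFin J) (by intro i j; simp)
  exact (h1.symm.trans he (idem_reindex hf _) h3).trans he hf h2.symm

theorem cl_mk (x : Idem A) : cl x.e = V.mk x := by
  unfold cl
  rw [dif_pos x.idem, V.mk_eq_iff]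
  exact (MvN.of_equiv x.idem (Fintype.equivFin _) (by intro i j; simp)).symm

theorem V.ind {P : V A → Prop} (h : ∀ (n : ℕ) (e : Matrix (Fin n) (Fin n) A), e * e = e → P (cl e))
    (x : V A) : P x := by
  induction x using Quotient.ind with
  | _ x =>
    have := h x.n x.e x.idem
    rw [cl_mk] at this
    exact this

theorem V.exists_rep (x : V A) : ∃ (n : ℕ) (e : Matrix (Fin n) (Fin n) A), e * e = e ∧ cl e = x := by
  induction x using V.ind with
  | _ n e he => exact ⟨n, e, he, rfl⟩

theorem cl_of_equiv {e : Matrix I I A} {f : Matrix J J A} (he : e * e = e) (φ : I ≃ J)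
    (h : ∀ i j, f (φ i) (φ j) = e i j) : cl e = cl f :=
  cl_eq he (idem_of_equiv he φ h) (MvN.of_equiv he φ h)

/-! ### operations on idempotents -/

theorem idem_sum {e : Matrix I I A} {f : Matrix J J A} (he : e * e = e) (hf : f * f = f) :
    (fromBlocks e 0 0 f) * (fromBlocks e 0 0 f) = fromBlocks e 0 0 f := by
  simp [fromBlocks_multiply, he, hf]

theorem MvN.sum {e : Matrix I I A} {f : Matrix J J A} {e' : Matrix K K A} {f' : Matrix L L A}
    (h : MvN e e') (h' : MvN f f') : MvN (fromBlocks e 0 0 f) (fromBlocks e' 0 0 f') := by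
  obtain ⟨u, v, h1, h2⟩ := h
  obtain ⟨u', v', h3, h4⟩ := h'
  exact ⟨fromBlocks u 0 0 u', fromBlocks v 0 0 v', by simp [fromBlocks_multiply, h1, h3],
    by simp [fromBlocks_multiply, h2, h4]⟩

end cl

/-- sum of classes -/
noncomputable def V.add (x y : V A) : V A :=
  Quotient.liftOn₂ x y (fun e f => cl (fromBlocks e.e 0 0 f.e)) (by
    intro a b a' b' h h'
    exact cl_eq (idem_sum a.idem b.idem) (idem_sum a'.idem b'.idem) (MvN.sum h h'))

noncomputable instance : Add (V A) := ⟨V.add⟩
noncomputable instance : Zero (V A) := ⟨cl (0 : Matrix Empty Empty A)⟩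

section cl2

variable {I J K L : Type*} [Fintype I] [Fintype J] [Fintype K] [Fintype L]

theorem cl_sum {e : Matrix I I A} {f : Matrix J J A} (he : e * e = e) (hf : f * f = f) :
    cl (fromBlocks e 0 0 f) = cl e + cl f := by
  obtain ⟨n, e', he', h1⟩ := V.exists_rep (cl e)
  obtain ⟨m, f', hf', h2⟩ := V.exists_rep (cl f)
  have h3 : cl e + cl f = cl (fromBlocks e' 0 0 f') := by
    rw [← h1, ← h2]
    have := cl_mk ⟨n, e', he'⟩
    have h' := cl_mk ⟨m, f', hf'⟩
    simp only at this h'
    rw [this, h']
    rfl
  rw [h3]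
  exact cl_eq (idem_sum he hf) (idem_sum he' hf')
    (MvN.sum ((cl_eq_iff he he').1 h1.symm) ((cl_eq_iff hf hf').1 h2.symm))

theorem cl_zero_def : (0 : V A) = cl (0 : Matrix Empty Empty A) := rfl

theorem cl_zero : cl (0 : Matrix I I A) = 0 := by
  rw [cl_zero_def]
  exact cl_eq (by simp) (by simp) ⟨0, 0, by simp, by ext i; exact i.elim⟩

/-- additivity for orthogonal idempotents in the same matrix algebra -/
theorem cl_add {e f : Matrix I I A} (he : e * e = e) (hf : f * f = f) (hef : e * f = 0)
    (hfe : f * e = 0) : cl (e + f) = cl e + cl f := by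
  rw [← cl_sum he hf]
  refine cl_eq (by simp [Matrix.add_mul, Matrix.mul_add, he, hf, hef, hfe]) (idem_sum he hf) ?_
  refine ⟨fromCols e f, fromRows e f, ?_, ?_⟩
  · rw [fromCols_mul_fromRows, he, hf]
  · rw [fromRows_mul_fromCols, he, hf, hef, hfe]

theorem idem_finset_sum {ι : Type*} (s : Finset ι) (E : ι → Matrix I I A)
    (hE : ∀ i ∈ s, E i * E i = E i) (ho : ∀ i ∈ s, ∀ j ∈ s, i ≠ j → E i * E j = 0) :
    (∑ i ∈ s, E i) * (∑ i ∈ s, E i) = ∑ i ∈ s, E i := by
  classical
  rw [Finset.sum_mul]
  refine Finset.sum_congr rfl fun i hi => ?_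
  rw [Finset.mul_sum, Finset.sum_eq_single_of_mem i hi (fun j hj hji => ho i hi j hj (Ne.symm hji)),
    hE i hi]

end cl2

section semiring

private theorem zadd (x : V A) : 0 + x = x := by
  induction x using V.ind with
  | _ n e he =>
    rw [cl_zero_def, ← cl_sum (by simp) he]
    refine (cl_of_equiv he (Equiv.emptySum Empty (Fin n)).symm ?_).symm
    intro i j
    simp

private theorem aadd (x y z : V A) : x + y + z = x + (y + z) := by
  induction x using V.ind with
  | _ n e he =>
  induction y using V.ind with
  | _ m f hf =>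
  induction z using V.ind with
  | _ k g hg =>
    rw [← cl_sum he hf, ← cl_sum hf hg, ← cl_sum (idem_sum he hf) hg, ← cl_sum he (idem_sum hf hg)]
    refine cl_of_equiv (idem_sum (idem_sum he hf) hg) (Equiv.sumAssoc _ _ _) ?_
    rintro ((i | i) | i) ((j | j) | j) <;> simp

private theorem cadd (x y : V A) : x + y = y + x := by
  induction x using V.ind with
  | _ n e he =>
  induction y using V.ind with
  | _ m f hf =>
    rw [← cl_sum he hf, ← cl_sum hf he]
    refine cl_of_equiv (idem_sum he hf) (Equiv.sumComm _ _) ?_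
    rintro (i | i) (j | j) <;> simp

noncomputable instance : AddCommMonoid (V A) where
  add_assoc := aadd
  zero_add := zadd
  add_zero := fun x => by rw [cadd, zadd]
  add_comm := cadd
  nsmul := nsmulRec

end semiring

section cl3

variable {I J K L : Type*} [Fintype I] [Fintype J] [Fintype K] [Fintype L]

theorem cl_finset_sum {ι : Type*} (s : Finset ι) (E : ι → Matrix I I A)
    (hE : ∀ i ∈ s, E i * E i = E i) (ho : ∀ i ∈ s, ∀ j ∈ s, i ≠ j → E i * E j = 0) :
    cl (∑ i ∈ s, E i) = ∑ i ∈ s, cl (E i) := by
  classical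
  induction s using Finset.induction_on with
  | empty => simp [cl_zero]
  | insert a s ha ih =>
    rw [Finset.sum_insert ha, Finset.sum_insert ha,
      ← ih (fun i hi => hE i (Finset.mem_insert_of_mem hi))
        (fun i hi j hj => ho i (Finset.mem_insert_of_mem hi) j (Finset.mem_insert_of_mem hj))]
    refine cl_add (hE a (Finset.mem_insert_self _ _))
      (idem_finset_sum s E (fun i hi => hE i (Finset.mem_insert_of_mem hi))
        (fun i hi j hj => ho i (Finset.mem_insert_of_mem hi) j (Finset.mem_insert_of_mem hj))) ?_ ?_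
    · rw [Finset.mul_sum]
      refine Finset.sum_eq_zero fun i hi => ho a (Finset.mem_insert_self _ _) i
        (Finset.mem_insert_of_mem hi) ?_
      rintro rfl
      exact ha hi
    · rw [Finset.sum_mul]
      refine Finset.sum_eq_zero fun i hi => ho i (Finset.mem_insert_of_mem hi) a
        (Finset.mem_insert_self _ _) ?_
      rintro rfl
      exact ha hi

end cl3

end ring

section comm

variable {A : Type u} [CommRing A]
variable {I J K L : Type*} [Fintype I] [Fintype J] [Fintype K] [Fintype L]

theorem idem_kron {e : Matrix I I A} {f : Matrix J J A} (he : e * e = e) (hf : f * f = f) :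
    (e ⊗ₖ f) * (e ⊗ₖ f) = e ⊗ₖ f := by
  rw [← mul_kronecker_mul, he, hf]

theorem MvN.kron {e : Matrix I I A} {f : Matrix J J A} {e' : Matrix K K A} {f' : Matrix L L A}
    (h : MvN e e') (h' : MvN f f') : MvN (e ⊗ₖ f) (e' ⊗ₖ f') := by
  obtain ⟨u, v, h1, h2⟩ := h
  obtain ⟨u', v', h3, h4⟩ := h'
  exact ⟨u ⊗ₖ u', v ⊗ₖ v', by rw [← mul_kronecker_mul, h1, h3],
    by rw [← mul_kronecker_mul, h2, h4]⟩

/-- product of classes -/
noncomputable def V.mul (x y : V A) : V A :=
  Quotient.liftOn₂ x y (fun e f => cl (e.e ⊗ₖ f.e)) (by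
    intro a b a' b' h h'
    exact cl_eq (idem_kron a.idem b.idem) (idem_kron a'.idem b'.idem) (MvN.kron h h'))

noncomputable instance : Mul (V A) := ⟨V.mul⟩
noncomputable instance : One (V A) := ⟨cl (1 : Matrix Unit Unit A)⟩

theorem cl_kron {e : Matrix I I A} {f : Matrix J J A} (he : e * e = e) (hf : f * f = f) :
    cl (e ⊗ₖ f) = cl e * cl f := by
  obtain ⟨n, e', he', h1⟩ := V.exists_rep (cl e)
  obtain ⟨m, f', hf', h2⟩ := V.exists_rep (cl f)
  have h3 : cl e * cl f = cl (e' ⊗ₖ f') := by
    rw [← h1, ← h2]
    have := cl_mk ⟨n, e', he'⟩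
    have h' := cl_mk ⟨m, f', hf'⟩
    simp only at this h'
    rw [this, h']
    rfl
  rw [h3]
  exact cl_eq (idem_kron he hf) (idem_kron he' hf')
    (MvN.kron ((cl_eq_iff he he').1 h1.symm) ((cl_eq_iff hf hf').1 h2.symm))

theorem cl_one_def : (1 : V A) = cl (1 : Matrix Unit Unit A) := rfl

private theorem cmul (x y : V A) : x * y = y * x := by
  induction x using V.ind with
  | _ n e he =>
  induction y using V.ind with
  | _ m f hf =>
    rw [← cl_kron he hf, ← cl_kron hf he]
    refine cl_of_equiv (idem_kron he hf) (Equiv.prodComm _ _) ?_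
    rintro ⟨i, i'⟩ ⟨j, j'⟩
    simp [mul_comm]

private theorem amul (x y z : V A) : x * y * z = x * (y * z) := by
  induction x using V.ind with
  | _ n e he =>
  induction y using V.ind with
  | _ m f hf =>
  induction z using V.ind with
  | _ k g hg =>
    rw [← cl_kron he hf, ← cl_kron hf hg, ← cl_kron (idem_kron he hf) hg,
      ← cl_kron he (idem_kron hf hg)]
    refine cl_of_equiv (idem_kron (idem_kron he hf) hg) (Equiv.prodAssoc _ _ _) ?_
    rintro ⟨⟨i, i'⟩, i''⟩ ⟨⟨j, j'⟩, j''⟩
    simp [mul_assoc]

private theorem omul (x : V A) : 1 * x = x := by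
  induction x using V.ind with
  | _ n e he =>
    rw [cl_one_def, ← cl_kron (by simp) he]
    refine (cl_of_equiv he (Equiv.punitProd (Fin n)).symm ?_).symm
    intro i j
    simp [Equiv.punitProd]

private theorem zmul (x : V A) : 0 * x = 0 := by
  induction x using V.ind with
  | _ n e he =>
    rw [cl_zero_def, ← cl_kron (by simp) he, zero_kronecker, cl_zero, cl_zero]

private theorem dmul (x y z : V A) : (x + y) * z = x * z + y * z := by
  induction x using V.ind with
  | _ n e he =>
  induction y using V.ind with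
  | _ m f hf =>
  induction z using V.ind with
  | _ k g hg =>
    rw [← cl_kron he hg, ← cl_kron hf hg, ← cl_sum he hf, ← cl_kron (idem_sum he hf) hg,
      ← cl_sum (idem_kron he hg) (idem_kron hf hg)]
    refine cl_of_equiv (idem_kron (idem_sum he hf) hg) (Equiv.sumProdDistrib _ _ _) ?_
    rintro ⟨i | i, i'⟩ ⟨j | j, j'⟩ <;> simp

noncomputable instance : CommSemiring (V A) where
  mul_assoc := amul
  one_mul := omul
  mul_one := fun x => by rw [cmul, omul]
  left_distrib := fun x y z => by rw [cmul, dmul, cmul y, cmul z]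
  right_distrib := dmul
  zero_mul := zmul
  mul_zero := fun x => by rw [cmul, zmul]
  mul_comm := cmul

end comm

/-! ### functoriality -/

section map

variable {A : Type u} [Ring A] {B : Type v} [Ring B] {C : Type w} [Ring C]

/-- image of an idempotent matrix under a ring homomorphism -/
noncomputable def V.mapFun (φ : A →+* B) (x : V A) : V B :=
  Quotient.liftOn x (fun e => cl (e.e.map φ)) (by
    intro a b h
    obtain ⟨u, v, h1, h2⟩ := h
    have key : ∀ (c : Idem A), c.e.map φ * c.e.map φ = c.e.map φ := by
      intro c; rw [← Matrix.map_mul, c.idem]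
    refine cl_eq (key a) (key b) ⟨u.map φ, v.map φ, ?_, ?_⟩
    · rw [← Matrix.map_mul, h1]
    · rw [← Matrix.map_mul, h2])

variable {I J : Type*} [Fintype I] [Fintype J]

theorem idem_map (φ : A →+* B) {e : Matrix I I A} (he : e * e = e) :
    e.map φ * e.map φ = e.map φ := by rw [← Matrix.map_mul, he]

theorem MvN.map (φ : A →+* B) {e : Matrix I I A} {f : Matrix J J A} (h : MvN e f) :
    MvN (e.map φ) (f.map φ) := by
  obtain ⟨u, v, h1, h2⟩ := h
  exact ⟨u.map φ, v.map φ, by rw [← Matrix.map_mul, h1], by rw [← Matrix.map_mul, h2]⟩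

theorem V.mapFun_cl (φ : A →+* B) {e : Matrix I I A} (he : e * e = e) :
    V.mapFun φ (cl e) = cl (e.map φ) := by
  obtain ⟨n, e', he', h1⟩ := V.exists_rep (cl e)
  have h3 : V.mapFun φ (cl e) = cl (e'.map φ) := by
    rw [← h1]
    have := cl_mk ⟨n, e', he'⟩
    simp only at this
    rw [this]
    rfl
  rw [h3]
  exact cl_eq (idem_map φ he') (idem_map φ he) (((cl_eq_iff he' he).1 h1).map φ)

/-- functoriality of `V`, additive version -/
noncomputable def V.mapAdd (φ : A →+* B) : V A →+ V B where
  toFun := V.mapFun φ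
  map_zero' := by
    rw [cl_zero_def, V.mapFun_cl φ (by simp), cl_zero_def]
    congr 1
    ext i j
    simp
  map_add' x y := by
    induction x using V.ind with
    | _ n e he =>
    induction y using V.ind with
    | _ m f hf =>
      rw [← cl_sum he hf, V.mapFun_cl φ (idem_sum he hf), V.mapFun_cl φ he, V.mapFun_cl φ hf,
        ← cl_sum (idem_map φ he) (idem_map φ hf)]
      congr 1
      simp [fromBlocks_map]

theorem V.mapAdd_cl (φ : A →+* B) {e : Matrix I I A} (he : e * e = e) :
    V.mapAdd φ (cl e) = cl (e.map φ) := V.mapFun_cl φ he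



end map

section mapComm

variable {A : Type u} [CommRing A] {B : Type v} [CommRing B] {C : Type w} [CommRing C]
variable {I J : Type*} [Fintype I] [Fintype J]

/-- functoriality of `V` for commutative rings -/
noncomputable def V.map (φ : A →+* B) : V A →+* V B where
  toFun := V.mapFun φ
  map_one' := by
    rw [cl_one_def, V.mapFun_cl φ (by simp), cl_one_def]
    congr 1
    ext i j
    simp
  map_zero' := (V.mapAdd φ).map_zero'
  map_add' := (V.mapAdd φ).map_add'
  map_mul' x y := by
    induction x using V.ind with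
    | _ n e he =>
    induction y using V.ind with
    | _ m f hf =>
      rw [← cl_kron he hf, V.mapFun_cl φ (idem_kron he hf), V.mapFun_cl φ he, V.mapFun_cl φ hf,
        ← cl_kron (idem_map φ he) (idem_map φ hf)]
      congr 1
      ext ⟨i, i'⟩ ⟨j, j'⟩
      simp


theorem V.map_apply (φ : A →+* B) (x : V A) : V.map φ x = V.mapAdd φ x := rfl

end mapComm

/-! ## The group `K0 A` -/

section K0

/-- `K₀` of a ring, by idempotent matrices -/
def K0 (A : Type u) [Ring A] : Type u := Groth (V A)

noncomputable instance (A : Type u) [Ring A] : AddCommGroup (K0 A) :=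
  inferInstanceAs (AddCommGroup (Groth (V A)))

noncomputable instance (A : Type u) [CommRing A] : CommRing (K0 A) :=
  inferInstanceAs (CommRing (Groth (V A)))


namespace K0

variable {A : Type u} [Ring A] {B : Type v} [Ring B] {C : Type w} [Ring C]
variable {I J K L : Type*} [Fintype I] [Fintype J] [Fintype K] [Fintype L]

/-- the class of an element of `V A` -/
noncomputable def of : V A →+ K0 A := Groth.ofAdd

/-- the class of an idempotent matrix over any finite index type (junk `0` if not idempotent) -/
noncomputable def cls (e : Matrix I I A) : K0 A := of (cl e)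

theorem cls_def (e : Matrix I I A) : cls e = of (cl e) := rfl

theorem cls_eq {e : Matrix I I A} {f : Matrix J J A} (he : e * e = e) (hf : f * f = f)
    (h : MvN e f) : cls e = cls f := by rw [cls_def, cls_def, cl_eq he hf h]

theorem cls_of_equiv {e : Matrix I I A} {f : Matrix J J A} (he : e * e = e) (φ : I ≃ J)
    (h : ∀ i j, f (φ i) (φ j) = e i j) : cls e = cls f := by
  rw [cls_def, cls_def, cl_of_equiv he φ h]

theorem cls_zero : cls (0 : Matrix I I A) = 0 := by rw [cls_def, cl_zero, map_zero]

theorem cls_sum {e : Matrix I I A} {f : Matrix J J A} (he : e * e = e) (hf : f * f = f) :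
    cls (fromBlocks e 0 0 f) = cls e + cls f := by
  rw [cls_def, cl_sum he hf, map_add]; rfl

theorem cls_add {e f : Matrix I I A} (he : e * e = e) (hf : f * f = f) (hef : e * f = 0)
    (hfe : f * e = 0) : cls (e + f) = cls e + cls f := by
  rw [cls_def, cl_add he hf hef hfe, map_add]; rfl

/-- conjugate idempotents have the same class -/
theorem cls_conj [DecidableEq I] [DecidableEq J] {e : Matrix I I A} (he : e * e = e)
    (g : Matrix J I A) (g' : Matrix I J A)
    (h : g' * g = 1) : cls (g * e * g') = cls e := by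
  have h1 : (g * e * g') * (g * e * g') = g * e * g' := by
    calc (g * e * g') * (g * e * g') = g * e * (g' * g) * (e * g') := by
          simp only [Matrix.mul_assoc]
      _ = g * (e * e) * g' := by rw [h]; simp only [Matrix.mul_assoc, Matrix.one_mul]
      _ = _ := by rw [he]
  refine cls_eq h1 he ⟨g * e, e * g', ?_, ?_⟩
  · calc g * e * (e * g') = g * (e * e) * g' := by simp only [Matrix.mul_assoc]
      _ = _ := by rw [he]
  · calc e * g' * (g * e) = e * (g' * g) * e := by simp only [Matrix.mul_assoc]
      _ = e := by rw [h, Matrix.mul_one, he]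

/-- every element is a difference of two classes -/
theorem exists_rep (x : K0 A) : ∃ (n m : ℕ) (e : Matrix (Fin n) (Fin n) A)
    (f : Matrix (Fin m) (Fin m) A), e * e = e ∧ f * f = f ∧ x = cls e - cls f := by
  obtain ⟨a, b, h⟩ := Groth.exists_rep (S := V A) x
  obtain ⟨n, e, he, rfl⟩ := V.exists_rep a
  obtain ⟨m, f, hf, rfl⟩ := V.exists_rep b
  exact ⟨n, m, e, f, he, hf, h⟩

/-- induction principle -/
theorem ind {P : K0 A → Prop} (h : ∀ (n m : ℕ) (e : Matrix (Fin n) (Fin n) A)
    (f : Matrix (Fin m) (Fin m) A), e * e = e → f * f = f → P (cls e - cls f)) (x : K0 A) :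
    P x := by
  obtain ⟨n, m, e, f, he, hf, rfl⟩ := exists_rep x
  exact h n m e f he hf

/-- additive homomorphisms out of `K0 A` are determined by the classes of idempotents -/
theorem addHom_ext {G : Type*} [AddCommGroup G] {f g : K0 A →+ G}
    (h : ∀ (n : ℕ) (e : Matrix (Fin n) (Fin n) A), e * e = e → f (cls e) = g (cls e)) : f = g := by
  ext x
  induction x using ind with
  | _ n m e e' he he' => rw [map_sub, map_sub, h n e he, h m e' he']

/-- the complement trick -/
theorem idem_compl [DecidableEq I] {e : Matrix I I A} (he : e * e = e) :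
    (1 - e) * (1 - e) = 1 - e := by
  simp [Matrix.sub_mul, Matrix.mul_sub, he]

theorem cls_compl [DecidableEq I] {e : Matrix I I A} (he : e * e = e) :
    cls e + cls (1 - e) = cls (1 : Matrix I I A) := by
  rw [← cls_add he (idem_compl he) (by simp [Matrix.mul_sub, he]) (by simp [Matrix.sub_mul, he])]
  congr 1
  simp

theorem cl_compl [DecidableEq I] {e : Matrix I I A} (he : e * e = e) :
    cl e + cl (1 - e) = cl (1 : Matrix I I A) := by
  rw [← cl_add he (idem_compl he) (by simp [Matrix.mul_sub, he]) (by simp [Matrix.sub_mul, he])]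
  congr 1
  simp

/-- every element is a difference of a class and the class of an identity matrix -/
theorem exists_rep_one (x : K0 A) : ∃ (n m : ℕ) (e : Matrix (Fin n) (Fin n) A),
    e * e = e ∧ x = cls e - cls (1 : Matrix (Fin m) (Fin m) A) := by
  obtain ⟨n, m, e, f, he, hf, rfl⟩ := exists_rep x
  have h := cls_compl hf
  refine ⟨n + m, m, (fromBlocks e 0 0 (1 - f)).submatrix finSumFinEquiv.symm finSumFinEquiv.symm,
    idem_reindex (idem_sum he (idem_compl hf)) finSumFinEquiv, ?_⟩
  rw [← cls_of_equiv (idem_sum he (idem_compl hf)) finSumFinEquiv (by intro i j; simp),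
    cls_sum he (idem_compl hf), ← h]
  abel

/-- equality of classes: stable equivalence -/
theorem cls_eq_iff {e : Matrix I I A} {f : Matrix J J A} (he : e * e = e) (hf : f * f = f) :
    cls e = cls f ↔ ∃ n : ℕ, MvN (fromBlocks e 0 0 (1 : Matrix (Fin n) (Fin n) A))
      (fromBlocks f 0 0 (1 : Matrix (Fin n) (Fin n) A)) := by
  have h1 : ∀ n : ℕ, (1 : Matrix (Fin n) (Fin n) A) * 1 = 1 := fun n => by simp
  constructor
  · intro h
    obtain ⟨k, hk⟩ := (Groth.ofAdd_eq_iff (S := V A)).1 h
    obtain ⟨n, g, hg, rfl⟩ := V.exists_rep k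
    refine ⟨n, (cl_eq_iff (idem_sum he (h1 n)) (idem_sum hf (h1 n))).1 ?_⟩
    rw [cl_sum he (h1 n), cl_sum hf (h1 n), ← cl_compl hg, ← add_assoc, ← add_assoc, hk]
  · rintro ⟨n, hn⟩
    have h2 := cls_eq (idem_sum he (h1 n)) (idem_sum hf (h1 n)) hn
    rw [cls_sum he (h1 n), cls_sum hf (h1 n)] at h2
    exact add_right_cancel h2

/-- functoriality -/
noncomputable def map (φ : A →+* B) : K0 A →+ K0 B := Groth.mapAdd (V.mapAdd φ)

theorem map_of (φ : A →+* B) (x : V A) : map φ (of x) = of (V.mapAdd φ x) :=
  Groth.mapAdd_ofAdd _ _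

theorem map_cls (φ : A →+* B) {e : Matrix I I A} (he : e * e = e) :
    map φ (cls e) = cls (e.map φ) := by
  rw [cls_def, map_of, V.mapAdd_cl φ he]; rfl

theorem map_id (x : K0 A) : map (RingHom.id A) x = x := by
  induction x using ind with
  | _ n m e f he hf => rw [map_sub, map_cls _ he, map_cls _ hf]; simp

theorem map_comp (ψ : B →+* C) (φ : A →+* B) (x : K0 A) :
    map (ψ.comp φ) x = map ψ (map φ x) := by
  induction x using ind with
  | _ n m e f he hf =>
    rw [map_sub, map_sub, map_sub, map_cls _ he, map_cls _ hf, map_cls _ he, map_cls _ hf,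
      map_cls _ (idem_map φ he), map_cls _ (idem_map φ hf)]
    simp [Matrix.map_map]

end K0

end K0

namespace K0

/-! ### the commutative case -/

section comm

variable {A : Type u} [CommRing A] {B : Type v} [CommRing B] {C : Type w} [CommRing C]
variable {I J K L : Type*} [Fintype I] [Fintype J] [Fintype K] [Fintype L]

/-- the class of an element of `V A`, as a homomorphism of semirings -/
noncomputable def ofRing : V A →+* K0 A := Groth.of

theorem ofRing_apply (x : V A) : ofRing x = of x := rfl

theorem of_mul (x y : V A) : of (x * y) = of x * of y := map_mul (ofRing (A := A)) x y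

theorem of_one : of (1 : V A) = 1 := map_one (ofRing (A := A))

theorem cls_kron {e : Matrix I I A} {f : Matrix J J A} (he : e * e = e) (hf : f * f = f) :
    cls (e ⊗ₖ f) = cls e * cls f := by
  rw [cls_def, cl_kron he hf, of_mul]; rfl

theorem cls_one_unit : cls (1 : Matrix Unit Unit A) = 1 := by
  rw [cls_def, ← cl_one_def, of_one]

theorem cl_one_fin (n : ℕ) : cl (1 : Matrix (Fin n) (Fin n) A) = n := by
  induction n with
  | zero =>
    have : (1 : Matrix (Fin 0) (Fin 0) A) = 0 := by ext i; exact i.elim0
    rw [this, cl_zero, Nat.cast_zero]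
  | succ n ih =>
    have h : (1 : Matrix (Fin n) (Fin n) A) * 1 = 1 := by simp
    have h' : (1 : Matrix Unit Unit A) * 1 = 1 := by simp
    rw [Nat.cast_succ, ← ih, cl_one_def, ← cl_sum h h']
    refine cl_of_equiv (by simp) ((Fintype.equivOfCardEq (by simp)) : Fin (n+1) ≃ Fin n ⊕ Unit) ?_
    intro i j
    rw [fromBlocks_one]
    simp [Matrix.one_apply]

theorem cls_one_fin (n : ℕ) : cls (1 : Matrix (Fin n) (Fin n) A) = n := by
  rw [cls_def, cl_one_fin, ← ofRing_apply, map_natCast]

theorem cls_one [DecidableEq I] : cls (1 : Matrix I I A) = Fintype.card I := by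
  rw [← cls_one_fin]
  refine cls_of_equiv (by simp) (Fintype.equivFin I) ?_
  intro i j
  simp [Matrix.one_apply]

/-- functoriality for commutative rings -/
noncomputable def mapRing (φ : A →+* B) : K0 A →+* K0 B := Groth.map (V.map φ)

theorem mapRing_apply (φ : A →+* B) (x : K0 A) : mapRing φ x = map φ x := rfl

theorem map_mul' (φ : A →+* B) (x y : K0 A) : map φ (x * y) = map φ x * map φ y :=
  map_mul (mapRing φ) x y

theorem map_one' (φ : A →+* B) : map φ (1 : K0 A) = 1 := map_one (mapRing φ)

theorem mapRing_cls (φ : A →+* B) {e : Matrix I I A} (he : e * e = e) :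
    mapRing φ (cls e) = cls (e.map φ) := map_cls φ he

/-- lift a semiring homomorphism from `V A` -/
noncomputable def liftRing {R : Type w} [CommRing R] (f : V A →+* R) : K0 A →+* R :=
  Groth.liftRing f

@[simp] theorem liftRing_of {R : Type w} [CommRing R] (f : V A →+* R) (x : V A) :
    liftRing f (of x) = f x := Groth.liftRing_ofAdd f x

end comm

end K0

end Crest.Agent.R204.K357
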