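import Mathlib
import Crest.Agent.R204.KDefs_357
import Crest.Agent.R204.Banach_313

/-!
# Row 204, block H, leaf H2 (helper313): homotopy invariance of `K0`
-/

set_option autoImplicit false

open Set Topology Filter
open scoped unitInterval

namespace Crest.Agent.R204.HInv313

open Crest.Agent.R204.K357 Crest.Agent.R204.Banach313

universe u v

variable {A : Type u} {B : Type v} [Ring A] [NormedRing B] [CompleteSpace B]

/-- Homotopy invariance on the level of idempotents (source an arbitrary ring). -/
theorem mvn_homotopy {n : Type*} [Fintype n] [DecidableEq n] (φ : I → A →+* B)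
    (hφ : ∀ a, Continuous fun t => φ t a) {e : Matrix n n A} (he : e * e = e) :
    MvN (e.map (φ 1)) (e.map (φ 0)) := by
  refine mvn_of_path (fun t => e.map (φ t)) ?_ fun t => ?_
  · exact continuous_matrix fun i j => hφ (e i j)
  · rw [← Matrix.map_mul, he]

/-- **Homotopy invariance of `K0`**. -/
theorem map_eq_of_homotopy (φ : I → A →+* B) (hφ : ∀ a, Continuous fun t => φ t a) :
    K0.map (φ 0) = K0.map (φ 1) := by
  refine K0.addHom_ext fun n e he => ?_
  rw [K0.map_cls _ he, K0.map_cls _ he]
  exact K0.cls_eq (idem_map _ he) (idem_map _ he) (mvn_homotopy φ hφ he).symm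

/-- Homotopy invariance, relation form: any two ring homs joined by a pointwise continuous family
indexed by a real interval `[0,1]`. -/
theorem map_apply_eq_of_homotopy (φ : I → A →+* B) (hφ : ∀ a, Continuous fun t => φ t a)
    (x : K0 A) : K0.map (φ 0) x = K0.map (φ 1) x := by
  rw [map_eq_of_homotopy φ hφ]

/-- (H2b) evaluation at the two ends of an idempotent matrix over `C(I, B)`. -/
theorem cls_of_path {n : Type*} [Fintype n] [DecidableEq n] (e : I → Matrix n n B)
    (hc : Continuous e) (he : ∀ t, e t * e t = e t) : K0.cls (e 0) = K0.cls (e 1) :=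
  K0.cls_eq (he 0) (he 1) (MvN.symm (mvn_of_path e hc he))

/-- the evaluation homomorphism `C(X, B) → B` -/
def evHom {X : Type*} [TopologicalSpace X] (B : Type*) [TopologicalSpace B] [Ring B]
    [IsTopologicalRing B] (x : X) : C(X, B) →+* B where
  toFun f := f x
  map_one' := rfl
  map_mul' _ _ := rfl
  map_zero' := rfl
  map_add' _ _ := rfl

@[simp] theorem evHom_apply {X : Type*} [TopologicalSpace X] (B : Type*) [TopologicalSpace B]
    [Ring B] [IsTopologicalRing B] (x : X) (f : C(X, B)) : evHom B x f = f x := rfl


/-- the constant functions -/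
def constHom (X : Type*) [TopologicalSpace X] (B : Type*) [TopologicalSpace B] [Ring B]
    [IsTopologicalRing B] : B →+* C(X, B) where
  toFun b := ContinuousMap.const X b
  map_one' := rfl
  map_mul' _ _ := rfl
  map_zero' := rfl
  map_add' _ _ := rfl

@[simp] theorem constHom_apply (X : Type*) [TopologicalSpace X] (B : Type*) [TopologicalSpace B]
    [Ring B] [IsTopologicalRing B] (b : B) (x : X) : constHom X B b x = b := rfl

/-- pull back along a continuous map -/
def compHom {X Y : Type*} [TopologicalSpace X] [TopologicalSpace Y] (B : Type*)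
    [TopologicalSpace B] [Ring B] [IsTopologicalRing B] (g : C(X, Y)) : C(Y, B) →+* C(X, B) where
  toFun f := f.comp g
  map_one' := rfl
  map_mul' _ _ := rfl
  map_zero' := rfl
  map_add' _ _ := rfl

@[simp] theorem compHom_apply {X Y : Type*} [TopologicalSpace X] [TopologicalSpace Y] (B : Type*)
    [TopologicalSpace B] [Ring B] [IsTopologicalRing B] (g : C(X, Y)) (f : C(Y, B)) (x : X) :
    compHom B g f x = f (g x) := rfl

/-- homotopic maps of compact spaces induce the same map on `K0 C(-, B)` -/
theorem map_compHom_eq {X Y : Type*} [TopologicalSpace X] [CompactSpace X] [TopologicalSpace Y]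
    {g₀ g₁ : C(X, Y)} (H : g₀.Homotopy g₁) :
    K0.map (compHom B g₀) = K0.map (compHom B g₁) := by
  have key := map_eq_of_homotopy (A := C(Y, B)) (B := C(X, B))
    (fun t => compHom B (H.curry t)) (fun f => by
      have h1 : Continuous fun t : I => (f.comp (H.curry t) : C(X, B)) :=
        (ContinuousMap.continuous_postcomp f).comp (H.curry).continuous
      exact h1)
  have e0 : H.curry 0 = g₀ := by
    ext x
    simp
  have e1 : H.curry 1 = g₁ := by
    ext x
    simp
  rw [e0, e1] at key
  exact key


end Crest.Agent.R204.HInv313
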