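import Mathlib
import Crest.Agent.R204.Ex3_837
import Crest.Agent.R204.KDefs_357

/-!
# Row 204, block H, leaf H-EX (helper837): Mayer-Vietoris for `K0`

For a pullback square `S : Sq P A B C` with `al : A → C` surjective:

* `Sq.K0_mid`: `a`, `b` with the same image in `K0 C` come from `K0 P`;
* `Sq.K0_inj`: `x ∈ K0 P` which is zero in `K0 A` and `K0 B` is zero, if every invertible matrix
  over `C` lifts stably to `A`;
* relative form (`Rel`): for `φ : P → B` surjective and `R0 = {x | φ x scalar}`: exactness of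
  `K~0(R0) → K~0(P) → K~0(B)`.
-/

set_option autoImplicit false
set_option linter.unusedSectionVars false
set_option linter.unusedSimpArgs false

namespace Crest.Agent.R204.Ex837

open Matrix
open K357 (K0)


theorem mapOne {A B : Type*} [Ring A] [Ring B] (φ : A →+* B) (I : Type*) [Fintype I]
    [DecidableEq I] : (1 : Matrix I I A).map φ = 1 := Matrix.map_one _ (map_zero _) (map_one _)

theorem idemOne {A : Type*} [Ring A] (I : Type*) [Fintype I]
    [DecidableEq I] : (1 : Matrix I I A) * 1 = 1 := by simp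

theorem idemZero {A : Type*} [Ring A] (I : Type*) [Fintype I]
    [DecidableEq I] : (0 : Matrix I I A) * 0 = 0 := by simp

theorem one_mvN (A : Type*) [Ring A] {I J : Type*} [Fintype I] [Fintype J] [DecidableEq I]
    [DecidableEq J] (φ : I ≃ J) : K357.MvN (1 : Matrix I I A) (1 : Matrix J J A) :=
  K357.MvN.of_equiv (idemOne _) φ (by intro i j; simp [Matrix.one_apply, φ.injective.eq_iff])

theorem cls_dsum_zero {A : Type*} [Ring A] {I J : Type*} [Fintype I] [Fintype J] [DecidableEq I]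
    [DecidableEq J] {e : Matrix I I A} (he : e * e = e) :
    K0.cls (dsum e (0 : Matrix J J A)) = K0.cls e := by
  rw [dsum, K0.cls_sum he (idemZero J), K0.cls_zero, add_zero]

theorem cls_zero_dsum {A : Type*} [Ring A] {I J : Type*} [Fintype I] [Fintype J] [DecidableEq I]
    [DecidableEq J] {e : Matrix I I A} (he : e * e = e) :
    K0.cls (dsum (0 : Matrix J J A) e) = K0.cls e := by
  rw [dsum, K0.cls_sum (idemZero J) he, K0.cls_zero, zero_add]

/-- an idempotent stably equivalent to a free one, in normal form. -/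
theorem exists_free {A : Type*} [Ring A] {I : Type*} [Fintype I] [DecidableEq I]
    {e : Matrix I I A} (he : e * e = e) {m : ℕ}
    (h : K0.cls e = K0.cls (1 : Matrix (Fin m) (Fin m) A)) :
    ∃ l : ℕ, MvN (dsum e (1 : Matrix (Fin l) (Fin l) A)) (1 : Matrix (Fin m ⊕ Fin l) _ A) := by
  obtain ⟨l, hl⟩ := (K0.cls_eq_iff he (idemOne (Fin m))).1 h
  refine ⟨l, ?_⟩
  rw [fromBlocks_one] at hl
  exact hl

namespace Sq

variable {P A B C : Type*} [Ring P] [Ring A] [Ring B] [Ring C] (S : Sq P A B C)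

/-- **Mayer-Vietoris, exactness in the middle** -/
theorem K0_mid (hal : Function.Surjective S.al) {a : K0 A} {b : K0 B}
    (h : K0.map S.al a = K0.map S.be b) : ∃ x : K0 P, K0.map S.p1 x = a ∧ K0.map S.p2 x = b := by
  obtain ⟨n1, m, f, hf, rfl⟩ := K0.exists_rep_one a
  obtain ⟨n2, k, e, he, rfl⟩ := K0.exists_rep_one b
  have h1m := idemOne (A := A) (Fin m)
  rw [map_sub, map_sub, K0.map_cls _ hf, K0.map_cls _ (idemOne _), K0.map_cls _ he,
    K0.map_cls _ (idemOne _), mapOne, mapOne] at h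
  have hfC : f.map S.al * f.map S.al = f.map S.al := K357.idem_map _ hf
  have heC : e.map S.be * e.map S.be = e.map S.be := K357.idem_map _ he
  have h2 : K0.cls (dsum (e.map S.be) (1 : Matrix (Fin m) (Fin m) C)) =
      K0.cls (dsum (f.map S.al) (1 : Matrix (Fin k) (Fin k) C)) := by
    rw [dsum, dsum, K0.cls_sum heC (idemOne _), K0.cls_sum hfC (idemOne _)]
    have := sub_eq_sub_iff_add_eq_add.1 h
    rw [← this]
  obtain ⟨l, hl⟩ := (K0.cls_eq_iff (idem_dsum heC (idemOne _)) (idem_dsum hfC (idemOne _))).1 h2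
  have he' : dsum (dsum e (1 : Matrix (Fin m) (Fin m) B)) (1 : Matrix (Fin l) (Fin l) B) *
      dsum (dsum e (1 : Matrix (Fin m) (Fin m) B)) (1 : Matrix (Fin l) (Fin l) B) =
      dsum (dsum e 1) 1 := idem_dsum (idem_dsum he (idemOne _)) (idemOne _)
  have hf' : dsum (dsum f (1 : Matrix (Fin k) (Fin k) A)) (1 : Matrix (Fin l) (Fin l) A) *
      dsum (dsum f (1 : Matrix (Fin k) (Fin k) A)) (1 : Matrix (Fin l) (Fin l) A) =
      dsum (dsum f 1) 1 := idem_dsum (idem_dsum hf (idemOne _)) (idemOne _)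
  obtain ⟨x, hx, hx2, U, V, hUV, hVU, hx1⟩ := S.mid hal he' hf' (by
    rw [dsum_map, dsum_map, dsum_map, dsum_map, mapOne, mapOne, mapOne, mapOne]
    exact hl)
  have e1 : K0.map S.p2 (K0.cls x) = K0.cls e + K0.cls (1 : Matrix (Fin m) (Fin m) B) +
      K0.cls (1 : Matrix (Fin l) (Fin l) B) := by
    rw [K0.map_cls _ hx, hx2, cls_dsum_zero (idem_dsum he' (idemZero _)), cls_dsum_zero he',
      dsum, K0.cls_sum (idem_dsum he (idemOne _)) (idemOne _), dsum, K0.cls_sum he (idemOne _)]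
  have e2 : K0.map S.p1 (K0.cls x) = K0.cls f + K0.cls (1 : Matrix (Fin k) (Fin k) A) +
      K0.cls (1 : Matrix (Fin l) (Fin l) A) := by
    rw [K0.map_cls _ hx, hx1, K0.cls_conj (idem_dsum (idem_dsum (idemZero _) hf') (idemZero _)) U V
      hVU, cls_dsum_zero (idem_dsum (idemZero _) hf'), cls_zero_dsum hf',
      dsum, K0.cls_sum (idem_dsum hf (idemOne _)) (idemOne _), dsum, K0.cls_sum hf (idemOne _)]
  refine ⟨K0.cls x - K0.cls (1 : Matrix (Fin m) (Fin m) P) -
    K0.cls (1 : Matrix (Fin k) (Fin k) P) - K0.cls (1 : Matrix (Fin l) (Fin l) P), ?_, ?_⟩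
  · rw [map_sub, map_sub, map_sub, e2, K0.map_cls _ (idemOne _), K0.map_cls _ (idemOne _),
      K0.map_cls _ (idemOne _), mapOne, mapOne, mapOne]
    abel
  · rw [map_sub, map_sub, map_sub, e1, K0.map_cls _ (idemOne _), K0.map_cls _ (idemOne _),
      K0.map_cls _ (idemOne _), mapOne, mapOne, mapOne]
    abel

/-- **Mayer-Vietoris, injectivity** -/
theorem K0_inj (hst : StLift S.al) {x : K0 P} (h1 : K0.map S.p1 x = 0) (h2 : K0.map S.p2 x = 0) :
    x = 0 := by
  obtain ⟨n, m, q, hq, rfl⟩ := K0.exists_rep_one x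
  rw [map_sub, K0.map_cls _ hq, K0.map_cls _ (idemOne _), mapOne, sub_eq_zero] at h1 h2
  obtain ⟨l1, hl1⟩ := exists_free (K357.idem_map _ hq) h1
  obtain ⟨l2, hl2⟩ := exists_free (K357.idem_map _ hq) h2
  have hqA : q.map S.p1 * q.map S.p1 = q.map S.p1 := K357.idem_map _ hq
  have hqB : q.map S.p2 * q.map S.p2 = q.map S.p2 := K357.idem_map _ hq
  -- common stabilisation
  let q' := dsum (dsum q (1 : Matrix (Fin l1) (Fin l1) P)) (1 : Matrix (Fin l2) (Fin l2) P)
  have hq' : q' * q' = q' := idem_dsum (idem_dsum hq (idemOne _)) (idemOne _)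
  have eqv : (Fin m ⊕ Fin l1) ⊕ Fin l2 ≃ Fin (m + l1 + l2) :=
    (Equiv.sumCongr finSumFinEquiv (Equiv.refl _)).trans finSumFinEquiv
  have hA : MvN (q'.map S.p1) (1 : Matrix (Fin (m + l1 + l2)) (Fin (m + l1 + l2)) A) := by
    have e1 : MvN (q'.map S.p1)
        (1 : Matrix ((Fin m ⊕ Fin l1) ⊕ Fin l2) ((Fin m ⊕ Fin l1) ⊕ Fin l2) A) := by
      have := hl1.dsum (MvN.refl (idemOne (A := A) (Fin l2)))
      rw [dsum_one] at this
      simp only [q', dsum_map, mapOne]
      exact this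
    exact K357.MvN.trans (K357.idem_map _ hq') (idemOne _) e1 (one_mvN A eqv)
  have hB : MvN (q'.map S.p2) (1 : Matrix (Fin (m + l1 + l2)) (Fin (m + l1 + l2)) B) := by
    have e0 : K357.MvN (q'.map S.p2) (dsum (dsum (q.map S.p2) (1 : Matrix (Fin l2) (Fin l2) B))
        (1 : Matrix (Fin l1) (Fin l1) B)) := by
      refine K357.MvN.of_equiv (K357.idem_map _ hq')
        (((Equiv.sumAssoc _ _ _).trans (Equiv.sumCongr (Equiv.refl _) (Equiv.sumComm _ _))).trans
          (Equiv.sumAssoc _ _ _).symm) ?_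
      rintro ((i | i) | i) ((j | j) | j) <;> simp [q', dsum_map, mapOne, dsum, Matrix.one_apply, apply_ite S.p2]
    have e1 := hl2.dsum (MvN.refl (idemOne (A := B) (Fin l1)))
    rw [dsum_one] at e1
    have e2 : K357.MvN
        (1 : Matrix ((Fin m ⊕ Fin l2) ⊕ Fin l1) ((Fin m ⊕ Fin l2) ⊕ Fin l1) B)
        (1 : Matrix (Fin (m + l1 + l2)) (Fin (m + l1 + l2)) B) :=
      one_mvN B ((((Equiv.sumAssoc _ _ _).trans
        (Equiv.sumCongr (Equiv.refl _) (Equiv.sumComm _ _))).trans
          (Equiv.sumAssoc _ _ _).symm).trans eqv)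
    exact K357.MvN.trans (K357.idem_map _ hq') (idemOne _)
      (K357.MvN.trans (K357.idem_map _ hq') (idemOne _) e0 e1) e2
  obtain ⟨l, hl⟩ := S.inj_stable hst hA hB
  have e3 : K0.cls (dsum q' (1 : Matrix (Fin l) (Fin l) P)) =
      K0.cls (1 : Matrix (Fin (m + l1 + l2) ⊕ Fin l) _ P) :=
    K0.cls_eq (idem_dsum hq' (idemOne _)) (idemOne _) hl
  have e4 : K0.cls q' = K0.cls q + K0.cls (1 : Matrix (Fin l1) (Fin l1) P) +
      K0.cls (1 : Matrix (Fin l2) (Fin l2) P) := by
    simp only [q', dsum]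
    rw [K0.cls_sum (idem_dsum hq (idemOne _)) (idemOne _), K0.cls_sum hq (idemOne _)]
  have e5 : K0.cls (1 : Matrix (Fin (m + l1 + l2)) (Fin (m + l1 + l2)) P) =
      K0.cls (1 : Matrix (Fin m) (Fin m) P) + K0.cls (1 : Matrix (Fin l1) (Fin l1) P) +
      K0.cls (1 : Matrix (Fin l2) (Fin l2) P) := by
    rw [← K0.cls_eq (idemOne _) (idemOne _) (one_mvN P eqv), ← dsum_one, dsum,
      K0.cls_sum (idemOne _) (idemOne _), ← dsum_one, dsum, K0.cls_sum (idemOne _) (idemOne _)]
  rw [← dsum_one, dsum, dsum, K0.cls_sum hq' (idemOne _), K0.cls_sum (idemOne _) (idemOne _),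
    e4, e5] at e3
  have e6 := add_right_cancel e3
  have e7 := add_right_cancel e6
  have e8 := add_right_cancel e7
  rw [e8, sub_self]

end Sq

end Crest.Agent.R204.Ex837
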