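import Mathlib
import Crest.Agent.R204.Ex4_837

/-!
# Row 204, block H, leaf H-EX (helper837): `K1Triv` and consequences for `K0`
-/

set_option autoImplicit false
set_option linter.unusedSectionVars false

namespace Crest.Agent.R204.Ex837

open Matrix
open K357 (K0)

/-- every invertible matrix over the Banach algebra `B` is stably joined to `1` by a path of
invertible matrices (i.e. `K₁^top B = 0`). -/
def K1Triv (B : Type*) [NormedRing B] : Prop :=
  ∀ (n : ℕ) (g g' : Matrix (Fin n) (Fin n) B), g * g' = 1 → g' * g = 1 →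
    ∃ (l : ℕ) (H : unitInterval → Matrix (Fin n ⊕ Fin l) (Fin n ⊕ Fin l) B),
      Continuous H ∧ (∀ t, IsUnit (H t)) ∧ H 0 = 1 ∧ H 1 = dsum g 1

theorem stLift_of_k1Triv {A B : Type*} [NormedRing A] [CompleteSpace A] [NormedRing B]
    [CompleteSpace B] {φ : A →+* B} (hφ : IsOpenMap φ) (h : K1Triv B) : StLift φ := by
  intro n g g' h1 h2
  obtain ⟨l, H, hH, hu, h0, h3⟩ := h n g g' h1 h2
  obtain ⟨U, V, hUV, hVU, hU, _⟩ := lift_of_path hφ H hH hu h0
    (u := dsum g 1) (v := dsum g' 1) (by rw [dsum_mul, h1, Matrix.one_mul, dsum_one])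
    (by rw [dsum_mul, h2, Matrix.one_mul, dsum_one]) h3
  exact ⟨l, U, V, hUV, hVU, hU⟩

/-- `K1Triv` and `StLift` are inherited by isomorphic targets; here: transport of `K1Triv` along a
continuous ring isomorphism. -/
theorem K1Triv.of_equiv {B B' : Type*} [NormedRing B] [NormedRing B'] (h : K1Triv B)
    (φ : B ≃+* B') (hc : Continuous φ) : K1Triv B' := by
  intro n g g' h1 h2
  have e1 : (g.map φ.symm) * (g'.map φ.symm) = 1 := by
    rw [← Matrix.map_mul, h1, Matrix.map_one _ (map_zero _) (map_one _)]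
  have e2 : (g'.map φ.symm) * (g.map φ.symm) = 1 := by
    rw [← Matrix.map_mul, h2, Matrix.map_one _ (map_zero _) (map_one _)]
  obtain ⟨l, H, hH, hu, h0, h3⟩ := h n _ _ e1 e2
  refine ⟨l, fun t => (H t).map φ, ?_, ?_, ?_, ?_⟩
  · exact hH.matrix_map hc
  · intro t
    exact (hu t).map (φ.toRingHom.mapMatrix)
  · simp [h0]
  · simp only [h3, dsum_map]
    ext (i | i) (j | j) <;> simp [dsum, Matrix.one_apply, apply_ite φ]

namespace Sq

variable {P A B C : Type*} [Ring P] [Ring A] [Ring B] [Ring C] (S : Sq P A B C)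


/-- (E5) relative exactness: `Sq R0 P k B` with `P → B` onto. -/
theorem exists_rel (hal : Function.Surjective S.al) {x : K0 A} (hx : K0.map S.al x = 0) :
    ∃ z : K0 P, K0.map S.p1 z = x ∧ K0.map S.p2 z = 0 :=
  S.K0_mid hal (by rw [hx, map_zero])


end Sq

end Crest.Agent.R204.Ex837
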