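import Mathlib
import Crest.Agent.R204.Ex5_837

/-!
# Row 204, block H (helper837): external products of reduced `K0` classes, formal version

`PD k B B' Pr` : formal product of two augmented algebras `B`, `B'` (`Pr` = functions on the product
of the two pointed spaces, `i1`, `i2` = pullbacks along the projections, `r1`, `r2` = restrictions to
the axes).  `PD.W` = functions on the wedge.  A `PD.Sm S` is an algebra of functions on the smash
product.

* `PD.wedge_inj`     : `K0 W → K0 B × K0 B'` is injective;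
* `PD.Sm.inj`        : `K0 S → K0 Pr × K0 k` is injective (E2);
* `PD.Sm.exists_ext` : reduced classes `x`, `y` have an external product in `K0 S`, reduced and unique;
* `PD.Sm.ext`        : the external product, biadditive on reduced classes, natural.
-/

set_option autoImplicit false
set_option linter.unusedSectionVars false

namespace Crest.Agent.R204.Ex837

open Matrix
open K357 (K0)

/-- formal product of two augmented algebras -/
structure PD (k B B' Pr : Type*) [CommRing k] [CommRing B] [CommRing B'] [CommRing Pr]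
    [Algebra k B] [Algebra k B'] [Algebra k Pr] where
  e : B →ₐ[k] k
  e' : B' →ₐ[k] k
  i1 : B →ₐ[k] Pr
  i2 : B' →ₐ[k] Pr
  r1 : Pr →ₐ[k] B
  r2 : Pr →ₐ[k] B'
  r1_i1 : ∀ b, r1 (i1 b) = b
  r2_i2 : ∀ b, r2 (i2 b) = b
  r1_i2 : ∀ b, r1 (i2 b) = algebraMap k B (e' b)
  r2_i1 : ∀ b, r2 (i1 b) = algebraMap k B' (e b)
  e_r : ∀ F, e (r1 F) = e' (r2 F)

theorem stLift_of_section {A C : Type*} [Ring A] [Ring C] (φ : A →+* C) (s : C →+* A)
    (h : ∀ c, φ (s c) = c) : StLift φ := by
  intro n g g' h1 h2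
  refine ⟨0, dsum (g.map s) 1, dsum (g'.map s) 1, ?_, ?_, ?_⟩
  · rw [dsum_mul, ← Matrix.map_mul, h1, mapOne, Matrix.one_mul, dsum_one]
  · rw [dsum_mul, ← Matrix.map_mul, h2, mapOne, Matrix.one_mul, dsum_one]
  · rw [dsum_map, mapOne]
    congr 1
    ext i j
    simp [h]

namespace PD

variable {k B B' Pr : Type*} [CommRing k] [CommRing B] [CommRing B'] [CommRing Pr]
    [Algebra k B] [Algebra k B'] [Algebra k Pr] (D : PD k B B' Pr)

/-- functions on the wedge -/
def W : Subalgebra k (B × B') where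
  carrier := {p | D.e p.1 = D.e' p.2}
  mul_mem' := by
    intro a b ha hb
    simp only [Set.mem_ofPred_eq, Prod.fst_mul, Prod.snd_mul, map_mul] at ha hb ⊢
    rw [ha, hb]
  add_mem' := by
    intro a b ha hb
    simp only [Set.mem_ofPred_eq, Prod.fst_add, Prod.snd_add, map_add] at ha hb ⊢
    rw [ha, hb]
  algebraMap_mem' := by
    intro r
    simp [Prod.algebraMap_apply]


/-- restriction from the wedge to the first axis -/
def w1 : D.W →ₐ[k] B := (AlgHom.fst k B B').comp D.W.val
/-- restriction from the wedge to the second axis -/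
def w2 : D.W →ₐ[k] B' := (AlgHom.snd k B B').comp D.W.val

@[simp] theorem w1_apply (p : D.W) : D.w1 p = (p : B × B').1 := rfl
@[simp] theorem w2_apply (p : D.W) : D.w2 p = (p : B × B').2 := rfl

/-- restriction from the product to the wedge -/
def toW : Pr →ₐ[k] D.W := (D.r1.prod D.r2).codRestrict D.W (fun F => D.e_r F)

@[simp] theorem toW_fst (F : Pr) : ((D.toW F : D.W) : B × B').1 = D.r1 F := rfl
@[simp] theorem toW_snd (F : Pr) : ((D.toW F : D.W) : B × B').2 = D.r2 F := rfl

/-- the wedge square -/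
def sqW : Sq D.W B B' k where
  p1 := D.w1.toRingHom
  p2 := D.w2.toRingHom
  al := D.e.toRingHom
  be := D.e'.toRingHom
  comm p := p.2
  lift a b h := ⟨⟨(a, b), h⟩, rfl, rfl⟩
  inj _ _ h1 h2 := Subtype.ext (Prod.ext h1 h2)

theorem e_alg (c : k) : D.e (algebraMap k B c) = c := by simp

/-- **wedge**: a class on the wedge is determined by its restrictions to the two axes -/
theorem wedge_inj {x : K0 D.W} (h1 : K0.map D.w1.toRingHom x = 0)
    (h2 : K0.map D.w2.toRingHom x = 0) : x = 0 :=
  D.sqW.K0_inj (stLift_of_section D.e.toRingHom (algebraMap k B) D.e_alg) h1 h2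

theorem toW_surjective : Function.Surjective D.toW := by
  rintro ⟨⟨b, b'⟩, h⟩
  refine ⟨D.i1 b + D.i2 b' - algebraMap k Pr (D.e b), Subtype.ext (Prod.ext ?_ ?_)⟩
  · have h' : D.e b = D.e' b' := h
    simp [D.r1_i1, D.r1_i2, h']
  · simp [D.r2_i2, D.r2_i1]

theorem toW_stLift : StLift D.toW.toRingHom := by
  intro n g g' h1 h2
  -- `G = i1(g.1) * (e g.1)⁻¹ * i2(g.2)`
  let a : Matrix (Fin n) (Fin n) B := g.map D.w1.toRingHom
  let a' : Matrix (Fin n) (Fin n) B := g'.map D.w1.toRingHom
  let b : Matrix (Fin n) (Fin n) B' := g.map D.w2.toRingHom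
  let b' : Matrix (Fin n) (Fin n) B' := g'.map D.w2.toRingHom
  have ha1 : a * a' = 1 := by
    simp only [a, a', ← Matrix.map_mul, h1, mapOne]
  have ha2 : a' * a = 1 := by
    simp only [a, a', ← Matrix.map_mul, h2, mapOne]
  have hb1 : b * b' = 1 := by
    simp only [b, b', ← Matrix.map_mul, h1, mapOne]
  have hb2 : b' * b = 1 := by
    simp only [b, b', ← Matrix.map_mul, h2, mapOne]
  let c : Matrix (Fin n) (Fin n) k := a.map D.e.toRingHom
  let c' : Matrix (Fin n) (Fin n) k := a'.map D.e.toRingHom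
  have hc1 : c * c' = 1 := by simp only [c, c', ← Matrix.map_mul, ha1, mapOne]
  have hc2 : c' * c = 1 := by simp only [c, c', ← Matrix.map_mul, ha2, mapOne]
  have hcb : b.map D.e'.toRingHom = c := by
    ext i j
    exact ((g i j).2).symm
  have hcb' : b'.map D.e'.toRingHom = c' := by
    ext i j
    exact ((g' i j).2).symm
  let G : Matrix (Fin n) (Fin n) Pr :=
    a.map D.i1.toRingHom * c'.map (algebraMap k Pr) * b.map D.i2.toRingHom
  let G' : Matrix (Fin n) (Fin n) Pr :=
    b'.map D.i2.toRingHom * c.map (algebraMap k Pr) * a'.map D.i1.toRingHom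
  have hGG' : G * G' = 1 := by
    calc G * G' = a.map D.i1.toRingHom * (c'.map (algebraMap k Pr) *
          (b.map D.i2.toRingHom * b'.map D.i2.toRingHom) * c.map (algebraMap k Pr)) *
          a'.map D.i1.toRingHom := by simp only [G, G', Matrix.mul_assoc]
      _ = 1 := by
          rw [← Matrix.map_mul, hb1, mapOne, Matrix.mul_one, ← Matrix.map_mul, hc2, mapOne,
            Matrix.mul_one, ← Matrix.map_mul, ha1, mapOne]
  have hG'G : G' * G = 1 := by
    calc G' * G = b'.map D.i2.toRingHom * (c.map (algebraMap k Pr) *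
          (a'.map D.i1.toRingHom * a.map D.i1.toRingHom) * c'.map (algebraMap k Pr)) *
          b.map D.i2.toRingHom := by simp only [G, G', Matrix.mul_assoc]
      _ = 1 := by
          rw [← Matrix.map_mul, ha2, mapOne, Matrix.mul_one, ← Matrix.map_mul, hc1, mapOne,
            Matrix.mul_one, ← Matrix.map_mul, hb2, mapOne]
  refine ⟨0, dsum G 1, dsum G' 1, ?_, ?_, ?_⟩
  · rw [dsum_mul, hGG', Matrix.one_mul, dsum_one]
  · rw [dsum_mul, hG'G, Matrix.one_mul, dsum_one]
  · rw [dsum_map, mapOne]
    congr 1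
    have e1 : (G.map D.r1.toRingHom) = a := by
      have f1 : (a.map D.i1.toRingHom).map D.r1.toRingHom = a := by
        ext i j; simp [D.r1_i1]
      have f2 : (c'.map (algebraMap k Pr)).map D.r1.toRingHom = c'.map (algebraMap k B) := by
        ext i j; simp
      have f3 : (b.map D.i2.toRingHom).map D.r1.toRingHom = c.map (algebraMap k B) := by
        rw [← hcb]; ext i j; simp [D.r1_i2]
      simp only [G]
      rw [Matrix.map_mul, Matrix.map_mul, f1, f2, f3, Matrix.mul_assoc, ← Matrix.map_mul, hc2,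
        mapOne, Matrix.mul_one]
    have e2 : (G.map D.r2.toRingHom) = b := by
      have f1 : (a.map D.i1.toRingHom).map D.r2.toRingHom = c.map (algebraMap k B') := by
        ext i j; simp [D.r2_i1, c]
      have f2 : (c'.map (algebraMap k Pr)).map D.r2.toRingHom = c'.map (algebraMap k B') := by
        ext i j; simp
      have f3 : (b.map D.i2.toRingHom).map D.r2.toRingHom = b := by
        ext i j; simp [D.r2_i2]
      simp only [G]
      rw [Matrix.map_mul, Matrix.map_mul, f1, f2, f3, ← Matrix.map_mul, hc1,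
        mapOne, Matrix.one_mul]
    refine Matrix.ext fun i j => Subtype.ext (Prod.ext ?_ ?_)
    · exact congrFun (congrFun e1 i) j
    · exact congrFun (congrFun e2 i) j

/-- `S` is an algebra of functions on the smash product -/
structure Sm (S : Type*) [CommRing S] [Algebra k S] where
  inc : S →ₐ[k] Pr
  ev : S →ₐ[k] k
  r1_inc : ∀ s, D.r1 (inc s) = algebraMap k B (ev s)
  r2_inc : ∀ s, D.r2 (inc s) = algebraMap k B' (ev s)
  inj' : Function.Injective inc
  lift' : ∀ (F : Pr) (c : k), D.r1 F = algebraMap k B c → D.r2 F = algebraMap k B' c →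
    ∃ s, inc s = F

namespace Sm

variable {D} {S : Type*} [CommRing S] [Algebra k S] (Z : D.Sm S)

theorem ev_eq (s : S) : Z.ev s = D.e (D.r1 (Z.inc s)) := by
  rw [Z.r1_inc]; simp

/-- the smash square -/
def sqS : Sq S Pr k D.W where
  p1 := Z.inc.toRingHom
  p2 := Z.ev.toRingHom
  al := D.toW.toRingHom
  be := algebraMap k D.W
  comm s := Subtype.ext (Prod.ext (Z.r1_inc s) (Z.r2_inc s))
  lift F c h := by
    have h1 : D.r1 F = algebraMap k B c := congrArg (fun p : D.W => (p : B × B').1) h
    have h2 : D.r2 F = algebraMap k B' c := congrArg (fun p : D.W => (p : B × B').2) h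
    obtain ⟨s, hs⟩ := Z.lift' F c h1 h2
    refine ⟨s, hs, ?_⟩
    change Z.ev s = c
    rw [Z.ev_eq, hs, h1]; simp
  inj x y h1 _ := Z.inj' h1

/-- **(E2)** -/
theorem inj {z : K0 S} (h1 : K0.map Z.inc.toRingHom z = 0) (h2 : K0.map Z.ev.toRingHom z = 0) :
    z = 0 := Z.sqS.K0_inj D.toW_stLift h1 h2

theorem eq_of {z z' : K0 S} (h1 : K0.map Z.inc.toRingHom z = K0.map Z.inc.toRingHom z')
    (h2 : K0.map Z.ev.toRingHom z = K0.map Z.ev.toRingHom z') : z = z' := by
  rw [← sub_eq_zero]
  apply Z.inj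
  · rw [map_sub, h1, sub_self]
  · rw [map_sub, h2, sub_self]

/-- a class on the product which vanishes on both axes comes from the smash product -/
theorem exists_of_axes {z : K0 Pr} (h1 : K0.map D.r1.toRingHom z = 0)
    (h2 : K0.map D.r2.toRingHom z = 0) :
    ∃ s : K0 S, K0.map Z.inc.toRingHom s = z ∧ K0.map Z.ev.toRingHom s = 0 := by
  refine Z.sqS.exists_rel D.toW_surjective ?_
  apply D.wedge_inj
  · rw [← h1, ← K0.map_comp]
    rfl
  · rw [← h2, ← K0.map_comp]
    rfl

/-- **(P2)** external product of reduced classes -/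
theorem exists_ext {x : K0 B} {y : K0 B'} (hx : K0.map D.e.toRingHom x = 0)
    (hy : K0.map D.e'.toRingHom y = 0) :
    ∃ s : K0 S, K0.map Z.inc.toRingHom s =
        K0.map D.i1.toRingHom x * K0.map D.i2.toRingHom y ∧ K0.map Z.ev.toRingHom s = 0 := by
  apply Z.exists_of_axes
  · have e1 : K0.map D.r1.toRingHom (K0.map D.i2.toRingHom y) = 0 := by
      rw [← K0.map_comp]
      have : D.r1.toRingHom.comp D.i2.toRingHom = (algebraMap k B).comp D.e'.toRingHom :=
        RingHom.ext D.r1_i2
      rw [this, K0.map_comp, hy, map_zero]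
    rw [← K0.mapRing_apply, map_mul, K0.mapRing_apply, K0.mapRing_apply, e1, mul_zero]
  · have e1 : K0.map D.r2.toRingHom (K0.map D.i1.toRingHom x) = 0 := by
      rw [← K0.map_comp]
      have : D.r2.toRingHom.comp D.i1.toRingHom = (algebraMap k B').comp D.e.toRingHom :=
        RingHom.ext D.r2_i1
      rw [this, K0.map_comp, hx, map_zero]
    rw [← K0.mapRing_apply, map_mul, K0.mapRing_apply, K0.mapRing_apply, e1, zero_mul]

open Classical in
/-- the external product of reduced classes (junk `0` if one of them is not reduced) -/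
noncomputable def ext (x : K0 B) (y : K0 B') : K0 S :=
  if h : K0.map D.e.toRingHom x = 0 ∧ K0.map D.e'.toRingHom y = 0 then
    (Z.exists_ext h.1 h.2).choose else 0

theorem inc_ext {x : K0 B} {y : K0 B'} (hx : K0.map D.e.toRingHom x = 0)
    (hy : K0.map D.e'.toRingHom y = 0) : K0.map Z.inc.toRingHom (Z.ext x y) =
      K0.map D.i1.toRingHom x * K0.map D.i2.toRingHom y := by
  unfold ext
  rw [dif_pos ⟨hx, hy⟩]
  exact (Z.exists_ext hx hy).choose_spec.1

theorem ev_ext {x : K0 B} {y : K0 B'} (hx : K0.map D.e.toRingHom x = 0)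
    (hy : K0.map D.e'.toRingHom y = 0) : K0.map Z.ev.toRingHom (Z.ext x y) = 0 := by
  unfold ext
  rw [dif_pos ⟨hx, hy⟩]
  exact (Z.exists_ext hx hy).choose_spec.2

/-- characterisation of the external product -/
theorem eq_ext {x : K0 B} {y : K0 B'} (hx : K0.map D.e.toRingHom x = 0)
    (hy : K0.map D.e'.toRingHom y = 0) {s : K0 S} (h1 : K0.map Z.inc.toRingHom s =
      K0.map D.i1.toRingHom x * K0.map D.i2.toRingHom y) (h2 : K0.map Z.ev.toRingHom s = 0) :
    s = Z.ext x y :=
  Z.eq_of (by rw [h1, Z.inc_ext hx hy]) (by rw [h2, Z.ev_ext hx hy])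



theorem ext_zsmul_left {x : K0 B} {y : K0 B'} (hx : K0.map D.e.toRingHom x = 0)
    (hy : K0.map D.e'.toRingHom y = 0) (n : ℤ) : Z.ext (n • x) y = n • Z.ext x y := by
  refine (Z.eq_ext (by rw [map_zsmul, hx, smul_zero]) hy ?_ ?_).symm
  · rw [map_zsmul, Z.inc_ext hx hy, map_zsmul, smul_mul_assoc]
  · rw [map_zsmul, Z.ev_ext hx hy, smul_zero]

theorem ext_zsmul_right {x : K0 B} {y : K0 B'} (hx : K0.map D.e.toRingHom x = 0)
    (hy : K0.map D.e'.toRingHom y = 0) (n : ℤ) : Z.ext x (n • y) = n • Z.ext x y := by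
  refine (Z.eq_ext hx (by rw [map_zsmul, hy, smul_zero]) ?_ ?_).symm
  · rw [map_zsmul, Z.inc_ext hx hy, map_zsmul, mul_smul_comm]
  · rw [map_zsmul, Z.ev_ext hx hy, smul_zero]

end Sm

end PD

end Crest.Agent.R204.Ex837
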