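import Mathlib

-- ▼ part R204/BottCoef_671
section

/-!
# Fourier coefficients of continuous Banach-space valued functions on the circle

`coef F k` is the coefficient of `z ^ k` of `F : C(Circle, E)`.
-/

set_option autoImplicit false
set_option linter.unusedSectionVars false

open MeasureTheory Filter Topology Set
open scoped FourierTransform Real

namespace Crest.Agent.R204.Bott671

section vector

variable {E E' : Type*} [NormedAddCommGroup E] [NormedSpace ℂ E]
  [NormedAddCommGroup E'] [NormedSpace ℂ E']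

/-- The coefficient of `z ^ k`. -/
noncomputable def coef (F : C(Circle, E)) (k : ℤ) : E :=
  ∫ t in (0:ℝ)..1, (((𝐞 t) ^ (-k) : Circle)) • F (𝐞 t)

theorem continuous_integrand (F : C(Circle, E)) (k : ℤ) :
    Continuous fun t : ℝ => (((𝐞 t) ^ (-k) : Circle)) • F (𝐞 t) := by
  have h1 : Continuous fun t : ℝ => (𝐞 t : Circle) := Real.continuous_fourierChar
  exact (h1.zpow (-k)).smul (F.continuous.comp h1)

theorem intervalIntegrable_integrand (F : C(Circle, E)) (k : ℤ) :
    IntervalIntegrable (fun t : ℝ => (((𝐞 t) ^ (-k) : Circle)) • F (𝐞 t)) volume 0 1 :=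
  (continuous_integrand F k).intervalIntegrable _ _

@[simp] theorem coef_zero (k : ℤ) : coef (0 : C(Circle, E)) k = 0 := by
  simp [coef]

theorem coef_add (F G : C(Circle, E)) (k : ℤ) : coef (F + G) k = coef F k + coef G k := by
  rw [coef, coef, coef, ← intervalIntegral.integral_add (intervalIntegrable_integrand F k)
    (intervalIntegrable_integrand G k)]
  refine intervalIntegral.integral_congr fun t _ => ?_
  simp

theorem coef_neg (F : C(Circle, E)) (k : ℤ) : coef (-F) k = -coef F k := by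
  rw [coef, coef, ← intervalIntegral.integral_neg]
  refine intervalIntegral.integral_congr fun t _ => ?_
  simp

theorem coef_sub (F G : C(Circle, E)) (k : ℤ) : coef (F - G) k = coef F k - coef G k := by
  rw [sub_eq_add_neg, coef_add, coef_neg, sub_eq_add_neg]

theorem coef_clm [CompleteSpace E] [CompleteSpace E'] (L : E →L[ℂ] E') (F : C(Circle, E))
    (G : C(Circle, E')) (h : ∀ z, G z = L (F z)) (k : ℤ) : coef G k = L (coef F k) := by
  rw [coef, coef, ← ContinuousLinearMap.intervalIntegral_comp_comm L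
    (intervalIntegrable_integrand F k)]
  refine intervalIntegral.integral_congr fun t _ => ?_
  simp only [h, Circle.smul_def, map_smul]

theorem coef_zpow_smul (F G : C(Circle, E)) (j : ℤ) (h : ∀ z : Circle, G z = (z ^ j : Circle) • F z)
    (k : ℤ) : coef G k = coef F (k - j) := by
  rw [coef, coef]
  refine intervalIntegral.integral_congr fun t _ => ?_
  simp only [h, smul_smul, ← zpow_add]
  congr 2
  ring

theorem coef_const [CompleteSpace E] (a : E) (k : ℤ) :
    coef (ContinuousMap.const Circle a) k = if k = 0 then a else 0 := by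
  rw [coef]
  have h0 : ∀ t : ℝ, (((𝐞 t) ^ (-k) : Circle)) • (ContinuousMap.const Circle a) (𝐞 t)
      = Complex.exp ((2 * π * Complex.I * (-k : ℤ)) * t) • a := by
    intro t
    simp only [ContinuousMap.const_apply, Circle.smul_def]
    congr 1
    rw [Circle.coe_zpow, Real.fourierChar_apply', Circle.coe_exp, ← Complex.exp_int_mul]
    congr 1
    push_cast
    ring
  simp only [h0]
  rw [intervalIntegral.integral_smul_const]
  split_ifs with hk
  · subst hk
    simp
  · have hne : (2 * π * Complex.I * (-k : ℤ) : ℂ) ≠ 0 := by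
      have : ((-k : ℤ) : ℂ) ≠ 0 := by
        simpa using hk
      have h2 : (2 * π * Complex.I : ℂ) ≠ 0 := Complex.two_pi_I_ne_zero
      exact mul_ne_zero h2 this
    rw [integral_exp_mul_complex hne]
    have h3 : Complex.exp (2 * π * Complex.I * (-k : ℤ) * (1 : ℝ)) = 1 := by
      have := Complex.exp_int_mul_two_pi_mul_I (-k)
      rw [← this]
      congr 1
      push_cast
      ring
    rw [h3]
    simp


theorem tendsto_coef_cofinite (F : C(Circle, E)) : Tendsto (coef F) cofinite (𝓝 0) := by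
  have h := Real.tendsto_integral_exp_smul_cocompact
    (f := (Ioc (0:ℝ) 1).indicator fun t => F (𝐞 t))
  have hk : Tendsto (fun k : ℤ => (k : ℝ)) cofinite (cocompact ℝ) := by
    exact Int.tendsto_coe_cofinite
  have h2 := h.comp hk
  refine h2.congr fun k => ?_
  rw [coef, intervalIntegral.integral_of_le zero_le_one, ← integral_indicator measurableSet_Ioc]
  refine integral_congr_ae (Eventually.of_forall fun t => ?_)
  beta_reduce
  by_cases ht : t ∈ Ioc (0:ℝ) 1
  · rw [indicator_of_mem ht, indicator_of_mem ht]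
    congr 1
    rw [zpow_neg, ← AddChar.map_zsmul_eq_zpow, ← AddChar.map_neg_eq_inv]
    congr 1
    simp [mul_comm]
  · rw [indicator_of_notMem ht, indicator_of_notMem ht, smul_zero]

theorem tendsto_coef_atTop (F : C(Circle, E)) :
    Tendsto (fun n : ℕ => coef F (n : ℤ)) atTop (𝓝 0) := by
  refine (tendsto_coef_cofinite F).comp ?_
  rw [← Nat.cofinite_eq_atTop]
  exact Nat.cast_injective.tendsto_cofinite


end vector

section alg

variable {R : Type*} [NormedCommRing R] [NormedAlgebra ℂ R] [CompleteSpace R]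

/-- The coordinate `z` as an element of `C(Circle, R)`. -/
noncomputable def zc : C(Circle, R) :=
  ⟨fun z => algebraMap ℂ R (z : ℂ), (algebraMapCLM ℂ R).continuous.comp continuous_subtype_val⟩

@[simp] theorem zc_apply (z : Circle) : (zc : C(Circle, R)) z = algebraMap ℂ R (z : ℂ) := rfl

/-- The loop attached to a polynomial. -/
noncomputable def loop : Polynomial R →+* C(Circle, R) :=
  Polynomial.eval₂RingHom (ContinuousMap.C (α := Circle)) zc

@[simp] theorem loop_C (r : R) : loop (Polynomial.C r) = ContinuousMap.C r := by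
  simp [loop]

@[simp] theorem loop_X : loop (Polynomial.X : Polynomial R) = zc := by
  simp [loop]

theorem loop_apply (p : Polynomial R) (z : Circle) :
    loop p z = p.eval (algebraMap ℂ R (z : ℂ)) := by
  have h : (((Pi.evalRingHom (fun _ : Circle => R) z).comp ContinuousMap.coeFnRingHom).comp loop)
      = Polynomial.evalRingHom (algebraMap ℂ R (z : ℂ)) := by
    ext
    · simp
    · simp
  exact congrArg (fun f => f p) h

theorem coef_C_mul (r : R) (F : C(Circle, R)) (k : ℤ) :
    coef (ContinuousMap.C r * F) k = r * coef F k :=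
  coef_clm ((ContinuousLinearMap.mul ℂ R) r) F _ (fun z => by simp) k

theorem coef_mul_C (r : R) (F : C(Circle, R)) (k : ℤ) :
    coef (F * ContinuousMap.C r) k = coef F k * r := by
  rw [mul_comm, coef_C_mul, mul_comm]

theorem coef_zc_mul (F : C(Circle, R)) (k : ℤ) : coef (zc * F) k = coef F (k - 1) :=
  coef_zpow_smul F _ 1 (fun z => by simp [Circle.smul_def, Algebra.smul_def]) k

theorem coef_zc_pow_mul (F : C(Circle, R)) (n : ℕ) (k : ℤ) :
    coef (zc ^ n * F) k = coef F (k - n) :=
  coef_zpow_smul F _ n (fun z => by simp [Circle.smul_def, Algebra.smul_def]) k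

theorem coef_one (k : ℤ) : coef (1 : C(Circle, R)) k = if k = 0 then 1 else 0 :=
  coef_const (1 : R) k

theorem coef_finsetSum {α : Type*} (s : Finset α) (F : α → C(Circle, R)) (k : ℤ) :
    coef (∑ i ∈ s, F i) k = ∑ i ∈ s, coef (F i) k := by
  classical
  induction s using Finset.induction_on with
  | empty => simp
  | insert a s ha ih => rw [Finset.sum_insert ha, Finset.sum_insert ha, coef_add, ih]

theorem coef_mul_loop (F : C(Circle, R)) (p : Polynomial R) (N : ℕ) (hN : p.natDegree < N)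
    (k : ℤ) : coef (F * loop p) k = ∑ j ∈ Finset.range N, coef F (k - j) * p.coeff j := by
  conv_lhs => rw [p.as_sum_range' N hN, map_sum, Finset.mul_sum, coef_finsetSum]
  refine Finset.sum_congr rfl fun j _ => ?_
  rw [← Polynomial.C_mul_X_pow_eq_monomial, map_mul, map_pow, loop_C, loop_X]
  rw [show F * (ContinuousMap.C (p.coeff j) * zc ^ j) = zc ^ j * (F * ContinuousMap.C (p.coeff j))
    by ring, coef_zc_pow_mul, coef_mul_C]

/-- Functions with nonnegative frequencies only. -/
def Hol (F : C(Circle, R)) : Prop := ∀ k : ℤ, k < 0 → coef F k = 0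

theorem Hol.mul_loop {F : C(Circle, R)} (hF : Hol F) (p : Polynomial R) : Hol (F * loop p) := by
  intro k hk
  rw [coef_mul_loop F p _ (Nat.lt_succ_self _)]
  refine Finset.sum_eq_zero fun j _ => ?_
  rw [hF _ (by omega), zero_mul]

theorem Hol.add {F G : C(Circle, R)} (hF : Hol F) (hG : Hol G) : Hol (F + G) := by
  intro k hk
  rw [coef_add, hF k hk, hG k hk, add_zero]

theorem Hol.sum {α : Type*} (s : Finset α) (F : α → C(Circle, R)) (h : ∀ i ∈ s, Hol (F i)) :
    Hol (∑ i ∈ s, F i) := by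
  intro k hk
  rw [coef_finsetSum]
  exact Finset.sum_eq_zero fun i hi => h i hi k hk

end alg

section mat

variable {R : Type*} [NormedCommRing R] [NormedAlgebra ℂ R] [CompleteSpace R]
  {ι κ l m : Type*} [Fintype ι] [Fintype κ] [Fintype l] [DecidableEq ι] [DecidableEq κ]

/-- Entrywise Fourier coefficient. -/
noncomputable def coefM (G : Matrix ι κ C(Circle, R)) (k : ℤ) : Matrix ι κ R :=
  G.map fun F => coef F k

@[simp] theorem coefM_apply (G : Matrix ι κ C(Circle, R)) (k : ℤ) (i : ι) (j : κ) :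
    coefM G k i j = coef (G i j) k := rfl

/-- The matrix of constant loops. -/
noncomputable def cM (a : Matrix ι κ R) : Matrix ι κ C(Circle, R) :=
  a.map (ContinuousMap.C (α := Circle))

/-- The matrix of loops attached to a matrix of polynomials. -/
noncomputable def loopM (p : Matrix ι κ (Polynomial R)) : Matrix ι κ C(Circle, R) :=
  p.map loop

theorem coefM_add (F G : Matrix ι κ C(Circle, R)) (k : ℤ) :
    coefM (F + G) k = coefM F k + coefM G k := by
  ext i j; simp [coef_add]

theorem coefM_sub (F G : Matrix ι κ C(Circle, R)) (k : ℤ) :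
    coefM (F - G) k = coefM F k - coefM G k := by
  ext i j; simp [coef_sub]

theorem coefM_cM_mul (a : Matrix m ι R) (G : Matrix ι κ C(Circle, R)) (k : ℤ) :
    coefM (cM a * G) k = a * coefM G k := by
  ext i j
  simp only [coefM_apply, Matrix.mul_apply, cM, Matrix.map_apply, coef_finsetSum, coef_C_mul]

theorem coefM_mul_cM (G : Matrix ι κ C(Circle, R)) (a : Matrix κ m R) (k : ℤ) :
    coefM (G * cM a) k = coefM G k * a := by
  ext i j
  simp only [coefM_apply, Matrix.mul_apply, cM, Matrix.map_apply, coef_finsetSum, coef_mul_C]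

theorem coefM_zc_smul (G : Matrix ι κ C(Circle, R)) (k : ℤ) :
    coefM ((zc : C(Circle, R)) • G) k = coefM G (k - 1) := by
  ext i j
  simp only [coefM_apply, Matrix.smul_apply, smul_eq_mul, coef_zc_mul]

theorem coefM_one (k : ℤ) : coefM (1 : Matrix ι ι C(Circle, R)) k = if k = 0 then 1 else 0 := by
  ext i j
  rw [coefM_apply]
  by_cases hij : i = j
  · subst hij
    rw [Matrix.one_apply_eq, coef_one]
    split_ifs <;> simp
  · rw [Matrix.one_apply_ne hij, coef_zero]
    split_ifs <;> simp [hij]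

theorem coefM_mul_loopM (G : Matrix ι κ C(Circle, R)) (p : Matrix κ m (Polynomial R)) (N : ℕ)
    (hN : ∀ i j, (p i j).natDegree < N) (k : ℤ) :
    coefM (G * loopM p) k =
      ∑ j ∈ Finset.range N, coefM G (k - j) * (p.map fun q => q.coeff j) := by
  ext i l
  simp only [coefM_apply, Matrix.mul_apply, loopM, Matrix.map_apply, coef_finsetSum,
    Matrix.sum_apply]
  rw [Finset.sum_comm]
  refine Finset.sum_congr rfl fun j _ => ?_
  exact coef_mul_loop _ _ N (hN _ _) k

/-- Matrices of functions with nonnegative frequencies. -/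
def HolM (G : Matrix ι κ C(Circle, R)) : Prop := ∀ k : ℤ, k < 0 → coefM G k = 0


theorem HolM.loopM_mul {G : Matrix ι κ C(Circle, R)} (hG : HolM G)
    (p : Matrix m ι (Polynomial R)) : HolM (loopM p * G) := by
  intro k hk
  ext i j
  simp only [coefM_apply, Matrix.mul_apply, loopM, Matrix.map_apply, Matrix.zero_apply]
  refine Hol.sum _ _ (fun l _ => ?_) k hk
  rw [mul_comm]
  refine Hol.mul_loop (fun k' hk' => ?_) _
  exact congrFun (congrFun (hG k' hk') l) j

end mat

end Crest.Agent.R204.Bott671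
end

-- ▼ part R204/BottPencil_671

/-!
# Linear pencils `a + z b` invertible on the circle: spectral idempotent, Birkhoff factorisation
-/

set_option autoImplicit false
set_option linter.unusedSectionVars false

open Filter Topology

namespace Crest.Agent.R204.Bott671

variable {R : Type*} [NormedCommRing R] [NormedAlgebra ℂ R] [CompleteSpace R]

/-- The coordinate `z⁻¹`. -/
noncomputable def zi : C(Circle, R) :=
  ⟨fun z => algebraMap ℂ R ((z⁻¹ : Circle) : ℂ),
    (algebraMapCLM ℂ R).continuous.comp (continuous_subtype_val.comp continuous_inv)⟩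

@[simp] theorem zi_apply (z : Circle) : (zi : C(Circle, R)) z = algebraMap ℂ R ((z⁻¹ : Circle) : ℂ) :=
  rfl

theorem zi_mul_zc : (zi : C(Circle, R)) * zc = 1 := by
  ext z
  simp only [ContinuousMap.mul_apply, zi_apply, zc_apply, ContinuousMap.one_apply]
  rw [← map_mul, ← Circle.coe_mul]
  simp

theorem zc_mul_zi : (zc : C(Circle, R)) * zi = 1 := by rw [mul_comm, zi_mul_zc]

section

variable {ι : Type*} [Fintype ι] [DecidableEq ι]

theorem cM_mul {κ l : Type*} [Fintype κ] (x : Matrix l κ R) {m : Type*} (y : Matrix κ m R) :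
    cM (x * y) = cM x * cM y := by
  ext i j : 2
  simp [cM, Matrix.mul_apply]

theorem cM_add {κ l : Type*} (x y : Matrix l κ R) : cM (x + y) = cM x + cM y := by
  ext i j : 2
  simp [cM]

theorem cM_sub {κ l : Type*} (x y : Matrix l κ R) : cM (x - y) = cM x - cM y := by
  ext i j : 2
  simp [cM]

theorem cM_one : cM (1 : Matrix ι ι R) = 1 := by
  simp [cM]

theorem cM_zero {κ l : Type*} : cM (0 : Matrix l κ R) = 0 := by
  ext i j : 2
  simp [cM]

/-- The pencil `a + z b` as a matrix of loops. -/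
noncomputable def pl (a b : Matrix ι ι R) : Matrix ι ι C(Circle, R) :=
  cM a + (zc : C(Circle, R)) • cM b

variable (R ι) in
/-- A linear pencil invertible on the circle, together with its inverse. -/
structure Pen where
  a : Matrix ι ι R
  b : Matrix ι ι R
  G : Matrix ι ι C(Circle, R)
  fG : pl a b * G = 1
  Gf : G * pl a b = 1

namespace Pen

variable (p : Pen R ι)

/-- The Fourier coefficients of the inverse. -/
noncomputable def c (k : ℤ) : Matrix ι ι R := coefM p.G k

theorem rel1 (k : ℤ) : p.a * p.c k + p.b * p.c (k - 1) = if k = 0 then 1 else 0 := by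
  have h := congrArg (fun F => coefM F k) p.fG
  simp only [pl, add_mul, smul_mul_assoc, coefM_add, coefM_cM_mul, coefM_zc_smul, coefM_one] at h
  exact h

theorem rel2 (k : ℤ) : p.c k * p.a + p.c (k - 1) * p.b = if k = 0 then 1 else 0 := by
  have h := congrArg (fun F => coefM F k) p.Gf
  simp only [pl, mul_add, mul_smul_comm, coefM_add, coefM_mul_cM, coefM_zc_smul, coefM_one] at h
  exact h

theorem rel1_zero : p.a * p.c 0 + p.b * p.c (-1) = 1 := by
  simpa using p.rel1 0

theorem rel2_zero : p.c 0 * p.a + p.c (-1) * p.b = 1 := by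
  simpa using p.rel2 0

theorem b_mul {k : ℤ} (hk : k ≠ 0) : p.b * p.c (k - 1) = -(p.a * p.c k) := by
  have := p.rel1 k
  rw [if_neg hk] at this
  exact eq_neg_of_add_eq_zero_right this

theorem mul_b {k : ℤ} (hk : k ≠ 0) : p.c (k - 1) * p.b = -(p.c k * p.a) := by
  have := p.rel2 k
  rw [if_neg hk] at this
  exact eq_neg_of_add_eq_zero_right this

theorem tendsto_c_atTop : Tendsto (fun n : ℕ => p.c (n : ℤ)) atTop (𝓝 0) := by
  refine tendsto_pi_nhds.2 fun i => tendsto_pi_nhds.2 fun j => ?_
  exact tendsto_coef_atTop (p.G i j)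


theorem tendsto_c_atTop' (i : ℤ) : Tendsto (fun n : ℕ => p.c (i + n)) atTop (𝓝 0) := by
  refine tendsto_pi_nhds.2 fun j => tendsto_pi_nhds.2 fun k => ?_
  refine (tendsto_coef_cofinite (p.G j k)).comp ?_
  rw [← Nat.cofinite_eq_atTop]
  exact Function.Injective.tendsto_cofinite fun a b h => by simpa using h

theorem tendsto_c_atBot' (i : ℤ) : Tendsto (fun n : ℕ => p.c (i - n)) atTop (𝓝 0) := by
  refine tendsto_pi_nhds.2 fun j => tendsto_pi_nhds.2 fun k => ?_
  refine (tendsto_coef_cofinite (p.G j k)).comp ?_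
  rw [← Nat.cofinite_eq_atTop]
  exact Function.Injective.tendsto_cofinite fun a b h => by simpa using h

/-- nonneg · a · neg = 0 -/
theorem Z1 (i j : ℕ) : p.c i * p.a * p.c (-1 - j) = 0 := by
  have hD : ∀ m : ℕ, p.c i * p.a * p.c (-1 - j) = p.c (i + m) * p.a * p.c ((-1 - j) - m) := by
    intro m
    induction m with
    | zero => simp
    | succ m ih =>
      rw [ih]
      have h1 : p.a * p.c ((-1 - j) - m) = -(p.b * p.c ((-1 - j) - m - 1)) := by
        rw [p.b_mul (by omega), neg_neg]
      have h2 : p.c (i + m) * p.b = -(p.c (i + m + 1) * p.a) := by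
        have := p.mul_b (k := i + m + 1) (by omega)
        rwa [add_sub_cancel_right] at this
      rw [mul_assoc, h1, mul_neg, ← mul_assoc, h2, neg_mul, neg_neg]
      push_cast
      rw [show (i : ℤ) + (m + 1) = i + m + 1 by ring,
        show (-1 - (j : ℤ)) - (m + 1) = -1 - j - m - 1 by ring]
  have ht : Tendsto (fun m : ℕ => p.c (i + m) * p.a * p.c ((-1 - j) - m)) atTop (𝓝 (0 * p.a * 0)) :=
    ((p.tendsto_c_atTop' i).mul tendsto_const_nhds).mul (p.tendsto_c_atBot' (-1 - j))
  rw [mul_zero] at ht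
  exact tendsto_nhds_unique (tendsto_const_nhds.congr hD) ht

/-- neg · b · nonneg = 0 -/
theorem Z2 (i j : ℕ) : p.c (-1 - j) * p.b * p.c i = 0 := by
  have hD : ∀ m : ℕ, p.c (-1 - j) * p.b * p.c i = p.c ((-1 - j) - m) * p.b * p.c (i + m) := by
    intro m
    induction m with
    | zero => simp
    | succ m ih =>
      rw [ih]
      have h1 : p.b * p.c (i + m) = -(p.a * p.c (i + m + 1)) := by
        have := p.b_mul (k := i + m + 1) (by omega)
        rwa [add_sub_cancel_right] at this
      have h2 : p.c ((-1 - j) - m) * p.a = -(p.c ((-1 - j) - m - 1) * p.b) := by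
        rw [p.mul_b (by omega), neg_neg]
      rw [mul_assoc, h1, mul_neg, ← mul_assoc, h2, neg_mul, neg_neg]
      push_cast
      rw [show (i : ℤ) + (m + 1) = i + m + 1 by ring,
        show (-1 - (j : ℤ)) - (m + 1) = -1 - j - m - 1 by ring]
  have ht : Tendsto (fun m : ℕ => p.c ((-1 - j) - m) * p.b * p.c (i + m)) atTop (𝓝 (0 * p.b * 0)) :=
    ((p.tendsto_c_atBot' (-1 - j)).mul tendsto_const_nhds).mul (p.tendsto_c_atTop' i)
  rw [mul_zero] at ht
  exact tendsto_nhds_unique (tendsto_const_nhds.congr hD) ht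


/-- neg · a · nonneg = 0 -/
theorem Z4 (i j : ℕ) : p.c (-1 - j) * p.a * p.c i = 0 := by
  have h2 : p.c (-1 - j) * p.a = -(p.c (-1 - j - 1) * p.b) := by
    rw [p.mul_b (by omega), neg_neg]
  have := p.Z2 i (j + 1)
  rw [show (-1 - ((j + 1 : ℕ) : ℤ)) = -1 - j - 1 by push_cast; ring] at this
  rw [h2, neg_mul, this, neg_zero]

/-- The spectral idempotent. -/
noncomputable def P : Matrix ι ι R := p.c (-1) * p.b

/-- The spectral idempotent of the target. -/
noncomputable def Q : Matrix ι ι R := p.b * p.c (-1)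

theorem P_mul_c_neg (j : ℕ) : p.P * p.c (-1 - j) = p.c (-1 - j) := by
  have h1 : p.c (-1) * p.b = 1 - p.c 0 * p.a := by rw [← p.rel2_zero]; abel
  have h2 := p.Z1 0 j
  rw [Nat.cast_zero] at h2
  rw [P, h1, sub_mul, one_mul, h2, sub_zero]

theorem c_neg_mul_Q (j : ℕ) : p.c (-1 - j) * p.Q = p.c (-1 - j) := by
  have h1 : p.b * p.c (-1) = 1 - p.a * p.c 0 := by rw [← p.rel1_zero]; abel
  have h2 := p.Z4 0 j
  rw [Nat.cast_zero, mul_assoc] at h2
  rw [Q, h1, mul_sub, mul_one, h2, sub_zero]

theorem P_mul_c : p.P * p.c (-1) = p.c (-1) := by simpa using p.P_mul_c_neg 0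

theorem c_mul_Q : p.c (-1) * p.Q = p.c (-1) := by simpa using p.c_neg_mul_Q 0

theorem P_mul_P : p.P * p.P = p.P := by
  conv_lhs => rw [P, ← mul_assoc]
  change p.P * p.c (-1) * p.b = _
  rw [P_mul_c]; rfl



theorem P_mul_c_zero : p.P * p.c 0 = 0 := by
  have h := p.Z2 0 0
  rw [Nat.cast_zero, sub_zero] at h
  exact h


theorem a_mul_P : p.a * p.P = p.Q * p.a := by
  have h1 : p.a * p.c (-1) = -(p.b * p.c (-1 - 1)) := by rw [p.b_mul (by norm_num), neg_neg]
  have h2 : p.c (-1 - 1) * p.b = -(p.c (-1) * p.a) := p.mul_b (by norm_num)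
  rw [P, ← mul_assoc, h1, neg_mul, mul_assoc, h2, mul_neg, neg_neg, ← mul_assoc, Q]

theorem b_mul_P : p.b * p.P = p.Q * p.b := by rw [P, Q, mul_assoc]

theorem c_neg_succ (j : ℕ) : p.c (-1 - (j + 1 : ℕ)) = -(p.c (-1) * p.a) * p.c (-1 - j) := by
  rw [← p.P_mul_c_neg (j + 1), P, mul_assoc,
    show (-1 - ((j + 1 : ℕ) : ℤ)) = -1 - j - 1 by push_cast; ring, p.b_mul (by omega)]
  simp [mul_assoc]

theorem c_neg_eq_pow (j : ℕ) : p.c (-1 - j) = (-(p.c (-1) * p.a)) ^ j * p.c (-1) := by
  induction j with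
  | zero => simp
  | succ j ih => rw [c_neg_succ, ih, pow_succ', mul_assoc]

/-- `M = c₋₁ a`, `M ^ j → 0`. -/
noncomputable def M : Matrix ι ι R := p.c (-1) * p.a

/-- `N = c₀ b`, `N ^ j → 0`. -/
noncomputable def N : Matrix ι ι R := p.c 0 * p.b

theorem c_pos_succ (j : ℕ) : p.c ((j + 1 : ℕ) : ℤ) = -p.N * p.c j := by
  have h1 : p.c 0 * p.a = 1 - p.c (-1) * p.b := by rw [← p.rel2_zero]; abel
  have h3 : p.c 0 * p.a * p.c ((j + 1 : ℕ) : ℤ) = p.c ((j + 1 : ℕ) : ℤ) := by
    have h2 := p.Z2 (j + 1) 0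
    rw [Nat.cast_zero, sub_zero] at h2
    rw [h1, sub_mul, one_mul, h2, sub_zero]
  have h4 : p.a * p.c ((j + 1 : ℕ) : ℤ) = -(p.b * p.c j) := by
    have := p.b_mul (k := ((j + 1 : ℕ) : ℤ)) (by omega)
    rw [show (((j + 1 : ℕ) : ℤ)) - 1 = j by push_cast; ring] at this
    rw [this, neg_neg]
  rw [← h3, mul_assoc, h4, N]
  simp [mul_assoc]

theorem c_pos_eq_pow (j : ℕ) : p.c j = (-p.N) ^ j * p.c 0 := by
  induction j with
  | zero => simp
  | succ j ih => rw [c_pos_succ, ih, pow_succ', mul_assoc]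

theorem tendsto_M_pow : Tendsto (fun j : ℕ => (-p.M) ^ j) atTop (𝓝 0) := by
  have h1 : ∀ j : ℕ, (-p.M) ^ (j + 1) = -(p.c (-1 - j) * p.a) := by
    intro j
    rw [c_neg_eq_pow, pow_succ, M, mul_neg, mul_assoc]
  refine (tendsto_add_atTop_iff_nat 1).1 ?_
  refine Tendsto.congr (fun j => (h1 j).symm) ?_
  have := ((p.tendsto_c_atBot' (-1)).mul (tendsto_const_nhds (x := p.a))).neg
  simpa using this

theorem tendsto_N_pow : Tendsto (fun j : ℕ => (-p.N) ^ j) atTop (𝓝 0) := by
  have h1 : ∀ j : ℕ, (-p.N) ^ (j + 1) = -(p.c j * p.b) := by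
    intro j
    have h : p.N = p.c 0 * p.b := rfl
    rw [c_pos_eq_pow, pow_succ, mul_neg, mul_assoc, ← h]
  refine (tendsto_add_atTop_iff_nat 1).1 ?_
  refine Tendsto.congr (fun j => (h1 j).symm) ?_
  have := ((p.tendsto_c_atTop).mul (tendsto_const_nhds (x := p.b))).neg
  simpa using this

theorem P_mul_M : p.P * p.M = p.M := by rw [M, ← mul_assoc, P_mul_c]

theorem M_mul_P : p.M * p.P = p.M := by
  rw [M, mul_assoc, a_mul_P, ← mul_assoc, c_mul_Q]

theorem P_mul_N : p.P * p.N = 0 := by rw [N, ← mul_assoc, P_mul_c_zero, zero_mul]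


theorem M_mul_N : p.M * p.N = 0 := by
  rw [← M_mul_P, mul_assoc, P_mul_N, mul_zero]

/-- The constant factor. -/
noncomputable def u : Matrix ι ι R := p.b * p.P + p.a * (1 - p.P)

theorem u_mul : p.u * (p.c (-1) + p.c 0) = 1 := by
  have h1 : p.u * (p.c (-1) + p.c 0)
      = p.b * (p.P * p.c (-1)) + p.b * (p.P * p.c 0) + p.a * (p.c (-1) - p.P * p.c (-1))
        + p.a * (p.c 0 - p.P * p.c 0) := by
    rw [u]; noncomm_ring
  rw [h1, P_mul_c, P_mul_c_zero, sub_self, mul_zero, mul_zero, sub_zero, ← p.rel1_zero]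
  abel

theorem mul_u : (p.c (-1) + p.c 0) * p.u = 1 := by
  have h := p.u_mul
  exact mul_eq_one_comm.1 h

theorem isUnit_u : IsUnit p.u :=
  ⟨⟨p.u, p.c (-1) + p.c 0, p.u_mul, p.mul_u⟩, rfl⟩

theorem u_mul_P : p.u * p.P = p.b * p.P := by
  rw [u, add_mul, mul_assoc, mul_assoc, sub_mul, one_mul, P_mul_P, sub_self, mul_zero, add_zero]

theorem u_mul_M : p.u * p.M = p.a * p.P := by
  rw [M, u]
  have h1 : (p.b * p.P + p.a * (1 - p.P)) * (p.c (-1) * p.a)
      = p.b * (p.P * p.c (-1)) * p.a + p.a * (p.c (-1) - p.P * p.c (-1)) * p.a := by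
    noncomm_ring
  rw [h1, P_mul_c, sub_self, mul_zero, zero_mul, add_zero, a_mul_P, Q]

theorem u_mul_N : p.u * p.N = p.b * (1 - p.P) := by
  rw [N, u]
  have h1 : (p.b * p.P + p.a * (1 - p.P)) * (p.c 0 * p.b)
      = p.b * (p.P * p.c 0) * p.b + p.a * (p.c 0 - p.P * p.c 0) * p.b := by
    noncomm_ring
  rw [h1, P_mul_c_zero, mul_zero, zero_mul, zero_add, sub_zero]
  have h2 : p.a * p.c 0 = 1 - p.b * p.c (-1) := by rw [← p.rel1_zero]; abel
  rw [h2, mul_sub, mul_one, sub_mul, one_mul, b_mul_P, Q]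

theorem u_mul_one_sub_P : p.u * (1 - p.P) = p.a * (1 - p.P) := by
  rw [mul_sub, mul_one, u_mul_P, u]; abel

/-- the basic decomposition `a + z b = u (z P + (1 - P) + M + z N)`. -/
theorem decomp {S : Type*} [CommRing S] [Algebra S (Matrix ι ι R)] (z : S) :
    p.a + z • p.b = p.u * (z • p.P + (1 - p.P) + p.M + z • p.N) := by
  rw [mul_add, mul_add, mul_add, mul_smul_comm, mul_smul_comm, u_mul_P, u_mul_M, u_mul_N,
    u_mul_one_sub_P, mul_sub, mul_sub, mul_one, smul_sub, mul_one]
  abel

end Pen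

end

/-- `z P + (1 - P)` as a matrix of loops. -/
noncomputable def Lam {ι : Type*} [Fintype ι] [DecidableEq ι] (P : Matrix ι ι R) :
    Matrix ι ι C(Circle, R) :=
  (zc : C(Circle, R)) • cM P + cM (1 - P)

section

variable {ι : Type*} [Fintype ι] [DecidableEq ι] (p : Pen R ι)

/-- Birkhoff factorisation of the pencil. -/
theorem Pen.birkhoff :
    pl p.a p.b = cM p.u * Lam p.P * (1 + (zi : C(Circle, R)) • cM p.M)
      * (1 + (zc : C(Circle, R)) • cM p.N) := by
  have hPM : cM p.P * cM p.M = cM p.M := by rw [← cM_mul, p.P_mul_M]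
  have hPN : cM p.P * cM p.N = 0 := by rw [← cM_mul, p.P_mul_N, cM_zero]
  have hMN : cM p.M * cM p.N = 0 := by rw [← cM_mul, p.M_mul_N, cM_zero]
  have huP : cM p.u * cM p.P = cM p.b * cM p.P := by rw [← cM_mul, p.u_mul_P, cM_mul]
  have huM : cM p.u * cM p.M = cM p.a * cM p.P := by rw [← cM_mul, p.u_mul_M, cM_mul]
  have huN : cM p.u * cM p.N = cM p.b - cM p.b * cM p.P := by
    rw [← cM_mul, p.u_mul_N, cM_mul, cM_sub, cM_one, mul_sub, mul_one]
  have hu1 : cM p.u = cM p.b * cM p.P + cM p.a - cM p.a * cM p.P := by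
    rw [Pen.u, cM_add, cM_mul, cM_mul, cM_sub, cM_one, mul_sub, mul_one]; abel
  have e1 : Lam p.P * (1 + (zi : C(Circle, R)) • cM p.M) = Lam p.P + cM p.M := by
    rw [Lam, mul_add, mul_one]
    congr 1
    rw [cM_sub, cM_one, add_mul, sub_mul, one_mul, smul_mul_smul_comm, zc_mul_zi, one_smul,
      hPM, mul_smul_comm, hPM, sub_self, add_zero]
  have e2 : (Lam p.P + cM p.M) * (1 + (zc : C(Circle, R)) • cM p.N)
      = Lam p.P + cM p.M + (zc : C(Circle, R)) • cM p.N := by
    rw [Lam, cM_sub, cM_one, mul_add, mul_one, add_mul, add_mul, sub_mul, one_mul,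
      smul_mul_smul_comm, hPN, smul_zero, mul_smul_comm, hPN, smul_zero, sub_zero, mul_smul_comm,
      hMN, smul_zero]
    abel
  rw [mul_assoc, mul_assoc, ← mul_assoc (Lam p.P), e1, e2, Lam, pl, cM_sub, cM_one]
  rw [mul_add, mul_add, mul_add, mul_smul_comm, mul_smul_comm, huP, huM, huN, mul_sub, mul_one,
    huP, hu1, smul_sub]
  abel

end

end Crest.Agent.R204.Bott671
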