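import Mathlib
import Crest.Agent.R204.BottPencil_671

/-!
# Row 204, block H (helper313): loops over `[0,1]` versus loops over the circle

`LoopAlg A = {a ∈ C(I, A) | a 0 = a 1}` is isometrically isomorphic with `C(Circle, A)`.
-/

set_option autoImplicit false

open Set Topology Filter
open scoped unitInterval

namespace Crest.Agent.R204.BottLoop313

noncomputable section

section general

variable (A : Type*) [NormedRing A] [NormedAlgebra ℂ A]

/-- The algebra of free loops `{a ∈ C(I, A) | a 0 = a 1}`. -/
def LoopAlg : Subalgebra ℂ C(I, A) where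
  carrier := {a | a 0 = a 1}
  mul_mem' := by
    intro a b ha hb
    simp only [mem_setOf_eq] at ha hb ⊢
    simp [ha, hb]
  add_mem' := by
    intro a b ha hb
    simp only [mem_setOf_eq] at ha hb ⊢
    simp [ha, hb]
  algebraMap_mem' := by
    intro r
    rfl

variable {A}

theorem mem_LoopAlg {a : C(I, A)} : a ∈ LoopAlg A ↔ a 0 = a 1 := Iff.rfl

theorem isClosed_LoopAlg : IsClosed ((LoopAlg A : Subalgebra ℂ C(I, A)) : Set C(I, A)) :=
  isClosed_eq (continuous_eval_const _) (continuous_eval_const _)

instance [CompleteSpace A] : CompleteSpace (LoopAlg A) := isClosed_LoopAlg.completeSpace_coe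

/-- The point `e^{2 π i t}` of the circle. -/
def circPt (t : I) : Circle := Circle.exp (2 * Real.pi * t)

theorem continuous_circPt : Continuous circPt := by
  unfold circPt
  fun_prop

theorem circPt_zero : circPt 0 = 1 := by simp [circPt]

theorem circPt_one : circPt 1 = 1 := by simp [circPt]

/-- the circle point as a continuous map -/
def circPtC : C(I, Circle) := ⟨circPt, continuous_circPt⟩

@[simp] theorem circPtC_apply (t : I) : circPtC t = circPt t := rfl

/-- the inverse image of a point of the circle -/
def lift01 (f : I → A) : Circle → A := fun z =>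
  AddCircle.liftIco (1 : ℝ) 0 (fun t => f (projIcc 0 1 zero_le_one t))
    ((AddCircle.homeomorphCircle (one_ne_zero : (1 : ℝ) ≠ 0)).symm z)

theorem continuous_lift01 {f : I → A} (hf : Continuous f) (h01 : f 0 = f 1) :
    Continuous (lift01 f) := by
  refine Continuous.comp ?_ (Homeomorph.continuous _)
  refine AddCircle.liftIco_zero_continuous ?_ ?_
  · simpa [projIcc_left, projIcc_right] using h01
  · exact (hf.comp continuous_projIcc).continuousOn

theorem circPt_eq (t : I) : circPt t = AddCircle.homeomorphCircle (one_ne_zero : (1 : ℝ) ≠ 0)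
    ((t : ℝ) : AddCircle (1 : ℝ)) := by
  simp [circPt, AddCircle.homeomorphCircle_apply, AddCircle.toCircle_apply_mk]

theorem lift01_circPt {f : I → A} (h01 : f 0 = f 1) (t : I) : lift01 f (circPt t) = f t := by
  unfold lift01
  rw [circPt_eq, Homeomorph.symm_apply_apply]
  rcases eq_or_lt_of_le t.2.2 with h | h
  · have ht : t = 1 := Subtype.ext h
    subst ht
    have e : (((1 : I) : ℝ) : AddCircle (1 : ℝ)) = ((0 : ℝ) : AddCircle (1 : ℝ)) := by
      simp
    rw [e, AddCircle.liftIco_zero_coe_apply ⟨le_rfl, zero_lt_one⟩]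
    simpa using h01
  · rw [AddCircle.liftIco_zero_coe_apply ⟨t.2.1, h⟩]
    simp

theorem surjective_circPt : Function.Surjective circPt := by
  intro z
  obtain ⟨x, rfl⟩ := (AddCircle.homeomorphCircle (one_ne_zero : (1 : ℝ) ≠ 0)).surjective z
  obtain ⟨t, ht, rfl⟩ : ∃ t ∈ Ico (0 : ℝ) 1, (t : AddCircle (1 : ℝ)) = x := by
    have := (AddCircle.coe_image_Ico_eq (1 : ℝ) 0)
    have hx : x ∈ ((↑) : ℝ → AddCircle (1 : ℝ)) '' Ico 0 (0 + 1) := by
      rw [this]
      trivial
    simpa using hx
  exact ⟨⟨t, ht.1, ht.2.le⟩, circPt_eq _⟩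

variable (A)

/-- `C(Circle, A) ≃ LoopAlg A`. -/
def theta : C(Circle, A) ≃ₐ[ℂ] LoopAlg A :=
  { toFun := fun F => ⟨F.comp circPtC, by
      rw [mem_LoopAlg]
      simp [circPt_zero, circPt_one]⟩
    invFun := fun a => ⟨lift01 (a : C(I, A)), continuous_lift01 (a : C(I, A)).continuous a.2⟩
    left_inv := by
      intro F
      ext z
      obtain ⟨t, rfl⟩ := surjective_circPt z
      show lift01 (fun t => F (circPt t)) (circPt t) = F (circPt t)
      rw [lift01_circPt]
      simp [circPt_zero, circPt_one]
    right_inv := by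
      intro a
      ext t
      show lift01 (a : C(I, A)) (circPt t) = (a : C(I, A)) t
      rw [lift01_circPt a.2]
    map_mul' := fun _ _ => rfl
    map_add' := fun _ _ => rfl
    commutes' := fun _ => rfl }

variable {A}

@[simp] theorem theta_apply (F : C(Circle, A)) (t : I) :
    ((theta A F : LoopAlg A) : C(I, A)) t = F (circPt t) := rfl

@[simp] theorem theta_symm_apply (a : LoopAlg A) (t : I) :
    (theta A).symm a (circPt t) = (a : C(I, A)) t := lift01_circPt a.2 t

theorem norm_theta (F : C(Circle, A)) : ‖theta A F‖ = ‖F‖ := by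
  apply le_antisymm
  · show ‖((theta A F : LoopAlg A) : C(I, A))‖ ≤ ‖F‖
    rw [ContinuousMap.norm_le _ (norm_nonneg _)]
    intro t
    exact F.norm_coe_le_norm _
  · have h0 : (0 : ℝ) ≤ ‖theta A F‖ := norm_nonneg (theta A F)
    refine (ContinuousMap.norm_le F h0).mpr fun z => ?_
    obtain ⟨t, rfl⟩ := surjective_circPt z
    exact ((theta A F : LoopAlg A) : C(I, A)).norm_coe_le_norm t

theorem isometry_theta : Isometry (theta A) :=
  AddMonoidHomClass.isometry_of_norm (theta A) norm_theta

theorem continuous_theta : Continuous (theta A) := isometry_theta.continuous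

theorem continuous_theta_symm : Continuous (theta A).symm := by
  have : Isometry (theta A).symm :=
    AddMonoidHomClass.isometry_of_norm (theta A).symm (fun a => by
      rw [← norm_theta, AlgEquiv.apply_symm_apply])
  exact this.continuous

/-- constant loops -/
def cst : A →ₐ[ℂ] LoopAlg A where
  toFun a := ⟨ContinuousMap.const I a, rfl⟩
  map_one' := rfl
  map_mul' _ _ := rfl
  map_zero' := rfl
  map_add' _ _ := rfl
  commutes' _ := rfl

@[simp] theorem cst_apply (a : A) (t : I) : ((cst a : LoopAlg A) : C(I, A)) t = a := rfl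



/-- evaluation -/
def evL (t : I) : LoopAlg A →ₐ[ℂ] A where
  toFun a := (a : C(I, A)) t
  map_one' := rfl
  map_mul' _ _ := rfl
  map_zero' := rfl
  map_add' _ _ := rfl
  commutes' _ := rfl

@[simp] theorem evL_apply (t : I) (a : LoopAlg A) : evL t a = (a : C(I, A)) t := rfl


/-- the coordinate `z` on the circle -/
def zG : C(Circle, A) :=
  ⟨fun z => algebraMap ℂ A (z : ℂ), (algebraMapCLM ℂ A).continuous.comp continuous_subtype_val⟩

@[simp] theorem zG_apply (z : Circle) : (zG : C(Circle, A)) z = algebraMap ℂ A (z : ℂ) := rfl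

/-- the coordinate `z⁻¹` on the circle -/
def ziG : C(Circle, A) :=
  ⟨fun z => algebraMap ℂ A ((z⁻¹ : Circle) : ℂ),
    (algebraMapCLM ℂ A).continuous.comp (continuous_subtype_val.comp continuous_inv)⟩

@[simp] theorem ziG_apply (z : Circle) :
    (ziG : C(Circle, A)) z = algebraMap ℂ A ((z⁻¹ : Circle) : ℂ) := rfl

theorem zG_mul_ziG : (zG : C(Circle, A)) * ziG = 1 := by
  ext z
  simp only [ContinuousMap.mul_apply, zG_apply, ziG_apply, ContinuousMap.one_apply]
  rw [← map_mul, ← Circle.coe_mul]
  simp

theorem ziG_mul_zG : (ziG : C(Circle, A)) * zG = 1 := by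
  ext z
  simp only [ContinuousMap.mul_apply, zG_apply, ziG_apply, ContinuousMap.one_apply]
  rw [← map_mul, ← Circle.coe_mul]
  simp

/-- the loop `z` -/
def zL : LoopAlg A := theta A zG

@[simp] theorem zL_apply (t : I) :
    ((zL : LoopAlg A) : C(I, A)) t = algebraMap ℂ A (circPt t : ℂ) := rfl

/-- the loop `z⁻¹` -/
def ziL : LoopAlg A := theta A ziG

@[simp] theorem ziL_apply (t : I) :
    ((ziL : LoopAlg A) : C(I, A)) t = algebraMap ℂ A (((circPt t)⁻¹ : Circle) : ℂ) := rfl

theorem zL_mul_ziL : (zL : LoopAlg A) * ziL = 1 := by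
  rw [zL, ziL, ← map_mul, zG_mul_ziG, map_one]

theorem ziL_mul_zL : (ziL : LoopAlg A) * zL = 1 := by
  rw [zL, ziL, ← map_mul, ziG_mul_zG, map_one]




/-- Joined through units, transported by a continuous ring isomorphism. -/
theorem joinedIn_map {R S : Type*} [Ring R] [TopologicalSpace R] [Ring S] [TopologicalSpace S]
    (φ : R →+* S) (hφ : Continuous φ) {ι : Type*} [Fintype ι] [DecidableEq ι]
    {x y : Matrix ι ι R} (h : JoinedIn {M | IsUnit M} x y) :
    JoinedIn {M | IsUnit M} (x.map φ) (y.map φ) := by
  obtain ⟨γ, hγ⟩ := h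
  have hc : Continuous (fun M : Matrix ι ι R => M.map φ) :=
    continuous_matrix fun i j => hφ.comp (continuous_apply_apply i j)
  refine ⟨γ.map hc, fun t => ?_⟩
  have := (hγ t).map (φ.mapMatrix : Matrix ι ι R →+* Matrix ι ι S)
  exact this

variable (A) in
/-- `theta` as a ring homomorphism -/
def thetaR : C(Circle, A) →+* LoopAlg A where
  toFun := theta A
  map_one' := map_one _
  map_mul' := map_mul _
  map_zero' := map_zero _
  map_add' := map_add _

variable (A) in
/-- the inverse of `theta` as a ring homomorphism -/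
def thetaS : LoopAlg A →+* C(Circle, A) where
  toFun := (theta A).symm
  map_one' := map_one _
  map_mul' := map_mul _
  map_zero' := map_zero _
  map_add' := map_add _

@[simp] theorem thetaR_thetaS (a : LoopAlg A) : thetaR A (thetaS A a) = a :=
  (theta A).apply_symm_apply a

@[simp] theorem thetaS_thetaR (a : C(Circle, A)) : thetaS A (thetaR A a) = a :=
  (theta A).symm_apply_apply a

theorem continuous_thetaR : Continuous (thetaR A) := continuous_theta

theorem continuous_thetaS : Continuous (thetaS A) := continuous_theta_symm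

@[simp] theorem thetaR_apply (F : C(Circle, A)) (t : I) :
    ((thetaR A F : LoopAlg A) : C(I, A)) t = F (circPt t) := rfl





section mat

variable {ι κ : Type*}

@[simp] theorem map_thetaS_thetaR (x : Matrix ι κ C(Circle, A)) :
    (x.map (thetaR A)).map (thetaS A) = x := by
  ext i j : 2
  simp

@[simp] theorem map_thetaR_thetaS (x : Matrix ι κ (LoopAlg A)) :
    (x.map (thetaS A)).map (thetaR A) = x := by
  ext i j : 2
  simp

variable [Fintype ι] [DecidableEq ι]

/-- Joining through units over `C(Circle, A)` and over `LoopAlg A` is the same thing. -/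
theorem joinedIn_theta_iff {x y : Matrix ι ι C(Circle, A)} :
    JoinedIn {M | IsUnit M} (x.map (thetaR A)) (y.map (thetaR A))
      ↔ JoinedIn {M | IsUnit M} x y := by
  constructor
  · intro h
    have := joinedIn_map (R := LoopAlg A) (S := C(Circle, A)) (thetaS A) continuous_thetaS h
    rwa [map_thetaS_thetaR, map_thetaS_thetaR] at this
  · intro h
    exact joinedIn_map (R := C(Circle, A)) (S := LoopAlg A) (thetaR A) continuous_thetaR h

theorem isUnit_map_thetaR {y : Matrix ι ι C(Circle, A)} :
    IsUnit (y.map (thetaR A)) ↔ IsUnit y := by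
  constructor
  · intro h
    have := h.map (thetaS A).mapMatrix
    rw [RingHom.mapMatrix_apply, map_thetaS_thetaR] at this
    exact this
  · intro h
    exact h.map (thetaR A).mapMatrix

theorem isUnit_map_thetaS {y : Matrix ι ι (LoopAlg A)} :
    IsUnit (y.map (thetaS A)) ↔ IsUnit y := by
  rw [← isUnit_map_thetaR, map_thetaR_thetaS]

end mat

end general

end

end Crest.Agent.R204.BottLoop313
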