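import Crest.Agent.R204.BottEqv_671
import Crest.Agent.R204.Banach_313

-- ▼ part R204/BottLin_671
section

/-!
# Stable equivalence and linearisation of polynomial matrices
-/

set_option autoImplicit false
set_option linter.unusedSectionVars false

open Filter Topology Polynomial Matrix

namespace Crest.Agent.R204.Bott671

section stable

variable {S : Type*} [CommRing S] {ι κ l m : Type} [Fintype ι] [Fintype κ] [Fintype l] [Fintype m]
  [DecidableEq ι] [DecidableEq κ] [DecidableEq l] [DecidableEq m]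

theorem Eqv.of_submatrix (e : ι ≃ κ) {p : Matrix ι ι S} {q : Matrix κ κ S}
    (h : ∀ i j, q i j = p (e.symm i) (e.symm j)) : Eqv p q := by
  have : q = p.submatrix e.symm e.symm := by ext i j; exact h i j
  rw [this]
  exact Eqv.reindex e p

theorem Eqv.assoc (p : Matrix ι ι S) (q : Matrix κ κ S) (r : Matrix l l S) :
    Eqv (fromBlocks (fromBlocks p 0 0 q) 0 0 r) (fromBlocks p 0 0 (fromBlocks q 0 0 r)) := by
  refine Eqv.of_submatrix (Equiv.sumAssoc ι κ l) fun i j => ?_
  rcases i with i | i | i <;> rcases j with j | j | j <;> rfl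

theorem Eqv.comm (p : Matrix ι ι S) (q : Matrix κ κ S) :
    Eqv (fromBlocks p 0 0 q) (fromBlocks q 0 0 p) := by
  refine Eqv.of_submatrix (Equiv.sumComm ι κ) fun i j => ?_
  rcases i with i | i <;> rcases j with j | j <;> rfl

theorem Eqv.empty (p : Matrix ι ι S) (q : Matrix Empty Empty S) :
    Eqv (fromBlocks p 0 0 q) p := by
  refine Eqv.of_submatrix (Equiv.sumEmpty ι Empty) fun i j => ?_
  rfl

/-- Stable equivalence. -/
def SEqv (p : Matrix ι ι S) (q : Matrix κ κ S) : Prop :=
  ∃ (α β : Type) (_ : Fintype α) (_ : DecidableEq α) (_ : Fintype β) (_ : DecidableEq β),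
    Eqv (fromBlocks p 0 0 (1 : Matrix α α S)) (fromBlocks q 0 0 (1 : Matrix β β S))

theorem Eqv.seqv {p : Matrix ι ι S} {q : Matrix κ κ S} (h : Eqv p q) : SEqv p q :=
  ⟨Empty, Empty, inferInstance, inferInstance, inferInstance, inferInstance,
    (Eqv.empty p 1).trans (h.trans (Eqv.empty q 1).symm)⟩

theorem SEqv.refl (p : Matrix ι ι S) : SEqv p p := (Eqv.refl p).seqv

theorem SEqv.symm {p : Matrix ι ι S} {q : Matrix κ κ S} (h : SEqv p q) : SEqv q p := by
  obtain ⟨α, β, _, _, _, _, h⟩ := h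
  exact ⟨β, α, inferInstance, inferInstance, inferInstance, inferInstance, h.symm⟩

theorem SEqv.trans {p : Matrix ι ι S} {q : Matrix κ κ S} {r : Matrix l l S} (h : SEqv p q)
    (h' : SEqv q r) : SEqv p r := by
  obtain ⟨α, β, _, _, _, _, h⟩ := h
  obtain ⟨α', β', _, _, _, _, h'⟩ := h'
  refine ⟨α ⊕ α', β' ⊕ β, inferInstance, inferInstance, inferInstance, inferInstance, ?_⟩
  rw [← fromBlocks_one (l := α), ← fromBlocks_one (l := β')]
  have h1 := (Eqv.assoc p (1 : Matrix α α S) (1 : Matrix α' α' S)).symm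
  have h2 := h.blocks (Eqv.refl (1 : Matrix α' α' S))
  have h3 := Eqv.assoc q (1 : Matrix β β S) (1 : Matrix α' α' S)
  have h4 := (Eqv.refl q).blocks (Eqv.comm (1 : Matrix β β S) (1 : Matrix α' α' S))
  have h5 := (Eqv.assoc q (1 : Matrix α' α' S) (1 : Matrix β β S)).symm
  have h6 := h'.blocks (Eqv.refl (1 : Matrix β β S))
  have h7 := Eqv.assoc r (1 : Matrix β' β' S) (1 : Matrix β β S)
  exact h1.trans (h2.trans (h3.trans (h4.trans (h5.trans (h6.trans h7)))))

theorem SEqv.of_stab {p : Matrix ι ι S} {q : Matrix κ κ S}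
    (h : Eqv (fromBlocks p 0 0 (1 : Matrix l l S)) q) : SEqv p q :=
  ⟨l, Empty, inferInstance, inferInstance, inferInstance, inferInstance,
    h.trans (Eqv.empty q 1).symm⟩

theorem SEqv.blocks {p : Matrix ι ι S} {q : Matrix κ κ S} {p' : Matrix l l S} {q' : Matrix m m S}
    (h : SEqv p q) (h' : SEqv p' q') :
    SEqv (fromBlocks p 0 0 p') (fromBlocks q 0 0 q') := by
  obtain ⟨α, β, _, _, _, _, h⟩ := h
  obtain ⟨α', β', _, _, _, _, h'⟩ := h'
  have key : ∀ {ι l : Type} [Fintype ι] [DecidableEq ι] [Fintype l] [DecidableEq l]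
      (α α' : Type) [Fintype α] [DecidableEq α] [Fintype α'] [DecidableEq α']
      (p : Matrix ι ι S) (p' : Matrix l l S),
      Eqv (fromBlocks (fromBlocks p 0 0 p') 0 0 (1 : Matrix (α ⊕ α') (α ⊕ α') S))
        (fromBlocks (fromBlocks p 0 0 (1 : Matrix α α S)) 0 0
          (fromBlocks p' 0 0 (1 : Matrix α' α' S))) := by
    intro ι l _ _ _ _ α α' _ _ _ _ p p'
    refine Eqv.of_submatrix (Equiv.sumSumSumComm ι l α α') fun i j => ?_
    rcases i with (i | i) | (i | i) <;> rcases j with (j | j) | (j | j) <;>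
      simp [Equiv.sumSumSumComm, Matrix.one_apply]
  refine ⟨α ⊕ α', β ⊕ β', inferInstance, inferInstance, inferInstance, inferInstance, ?_⟩
  exact (key α α' p p').trans ((h.blocks h').trans (key β β' q q').symm)

theorem SEqv.map {T : Type*} [CommRing T] (φ : S →+* T) {p : Matrix ι ι S} {q : Matrix κ κ S}
    (h : SEqv p q) : SEqv (p.map φ) (q.map φ) := by
  obtain ⟨α, β, _, _, _, _, h⟩ := h
  refine ⟨α, β, inferInstance, inferInstance, inferInstance, inferInstance, ?_⟩
  have := h.map φ
  simpa [fromBlocks_map] using this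

theorem SEqv.isUnit {p : Matrix ι ι S} {q : Matrix κ κ S} (h : SEqv p q) (hp : IsUnit p) :
    IsUnit q := by
  obtain ⟨α, β, _, _, _, _, h⟩ := h
  rw [Matrix.isUnit_iff_isUnit_det] at hp ⊢
  have h1 : IsUnit (fromBlocks p 0 0 (1 : Matrix α α S)) := by
    rw [Matrix.isUnit_iff_isUnit_det, det_fromBlocks_zero₂₁]
    simpa using hp
  have h2 := h.isUnit h1
  rw [Matrix.isUnit_iff_isUnit_det, det_fromBlocks_zero₂₁] at h2
  simpa using h2

/-- The basic linearisation step: `a + z q ~ [[a, q], [-z, 1]]`. -/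
theorem seqv_step (z : S) (a q : Matrix ι ι S) :
    SEqv (a + z • q) (fromBlocks a q (-(z • (1 : Matrix ι ι S))) 1) := by
  refine SEqv.of_stab (l := ι) ?_
  refine ⟨fromBlocks 1 q 0 1, fromBlocks 1 0 (z • (1 : Matrix ι ι S)) 1, fromBlocks 1 (-q) 0 1,
    fromBlocks 1 0 (-(z • (1 : Matrix ι ι S))) 1, ?_, ?_, ?_, ?_, ?_⟩ <;>
    simp [fromBlocks_multiply]

/-- The shift step: `[[p, 0], [1, -z]] ~ z p`. -/
theorem seqv_shift (z : S) (p : Matrix ι ι S) :
    SEqv (z • p) (fromBlocks p 0 (1 : Matrix ι ι S) (-(z • (1 : Matrix ι ι S)))) := by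
  refine SEqv.of_stab (l := ι) ?_
  -- `E (z p ⊕ 1) = L F`
  refine ⟨fromBlocks 1 p 0 1, fromBlocks (z • (1 : Matrix ι ι S)) 1 1 0,
    fromBlocks 1 (-p) 0 1, fromBlocks 0 1 1 (-(z • (1 : Matrix ι ι S))), ?_, ?_, ?_, ?_, ?_⟩ <;>
    simp [fromBlocks_multiply]

end stable

section lin

variable {R : Type*} [CommRing R]

/-- The pencil as a polynomial matrix (general version). -/
noncomputable def gpl {ι : Type*} (a b : Matrix ι ι R) : Matrix ι ι R[X] :=
  a.map (C : R →+* R[X]) + (X : R[X]) • b.map (C : R →+* R[X])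

theorem exists_pencil_aux (N : ℕ) : ∀ {ι : Type} [Fintype ι] [DecidableEq ι] (p : Matrix ι ι R[X]),
    (∀ i j, (p i j).natDegree ≤ N + 1) →
    ∃ (κ : Type) (_ : Fintype κ) (_ : DecidableEq κ) (a b : Matrix κ κ R), SEqv p (gpl a b) := by
  induction N with
  | zero =>
    intro ι _ _ p hp
    refine ⟨ι, inferInstance, inferInstance, p.map fun q => q.coeff 0, p.map fun q => q.coeff 1, ?_⟩
    have : p = gpl (p.map fun q => q.coeff 0) (p.map fun q => q.coeff 1) := by
      ext i j : 2
      simp only [gpl, Matrix.add_apply, Matrix.smul_apply, Matrix.map_apply, smul_eq_mul]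
      conv_lhs => rw [Polynomial.eq_X_add_C_of_natDegree_le_one (hp i j)]
      rw [add_comm, mul_comm]
    rw [← this]
    exact SEqv.refl p
  | succ N ih =>
    intro ι _ _ p hp
    have h1 : p = p.map (fun q => C (q.coeff 0)) + (X : R[X]) • p.map (fun q => q.divX) := by
      ext i j : 2
      simp only [Matrix.add_apply, Matrix.smul_apply, Matrix.map_apply, smul_eq_mul]
      conv_lhs => rw [← Polynomial.divX_mul_X_add (p i j)]
      rw [add_comm, mul_comm]
    have h2 := seqv_step (X : R[X]) (p.map fun q => C (q.coeff 0)) (p.map fun q => q.divX)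
    rw [← h1] at h2
    obtain ⟨κ, i1, i2, a, b, h3⟩ := ih (fromBlocks (p.map fun q => C (q.coeff 0))
      (p.map fun q => q.divX) (-((X : R[X]) • (1 : Matrix ι ι R[X]))) 1) (by
        intro i j
        rcases i with i | i <;> rcases j with j | j
        · simp
        · simp only [fromBlocks_apply₁₂, Matrix.map_apply]
          rw [Polynomial.natDegree_divX_eq_natDegree_tsub_one]
          have := hp i j
          omega
        · simp only [fromBlocks_apply₂₁, Matrix.neg_apply, Matrix.smul_apply, natDegree_neg,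
            smul_eq_mul]
          by_cases hij : i = j
          · subst hij
            rw [Matrix.one_apply_eq, mul_one]
            exact natDegree_X_le.trans (by omega)
          · rw [Matrix.one_apply_ne hij]
            simp
        · simp only [fromBlocks_apply₂₂]
          by_cases hij : i = j
          · subst hij
            simp
          · rw [Matrix.one_apply_ne hij]
            simp)
    exact ⟨κ, i1, i2, a, b, h2.trans h3⟩

/-- **Linearisation.** -/
theorem exists_pencil {ι : Type} [Fintype ι] [DecidableEq ι] (p : Matrix ι ι R[X]) :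
    ∃ (κ : Type) (_ : Fintype κ) (_ : DecidableEq κ) (a b : Matrix κ κ R), SEqv p (gpl a b) := by
  refine exists_pencil_aux (Finset.univ.sup fun i => Finset.univ.sup fun j => (p i j).natDegree) p
    fun i j => ?_
  refine le_trans ?_ (Nat.le_succ _)
  exact (Finset.le_sup (f := fun j => (p i j).natDegree) (Finset.mem_univ j)).trans
    (Finset.le_sup (f := fun i => Finset.univ.sup fun j => (p i j).natDegree) (Finset.mem_univ i))

end lin

end Crest.Agent.R204.Bott671
end

-- ▼ part R204/BottNu_671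
section

/-!
# The index `ν` of a polynomial loop
-/

set_option autoImplicit false
set_option linter.unusedSectionVars false

open Filter Topology Polynomial Matrix

namespace Crest.Agent.R204.Bott671

section

variable {R : Type*} [NormedCommRing R] [NormedAlgebra ℂ R] [CompleteSpace R]
  {R' : Type*} [NormedCommRing R'] [NormedAlgebra ℂ R'] [CompleteSpace R']
  {ι κ l m : Type} [Fintype ι] [Fintype κ] [Fintype l] [Fintype m]
  [DecidableEq ι] [DecidableEq κ] [DecidableEq l] [DecidableEq m]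


namespace Pen

/-- A pencil whose value in `C(Circle, R)` is a unit. -/
noncomputable def ofUnit (a b : Matrix ι ι R) (h : IsUnit (pl a b)) : Pen R ι where
  a := a
  b := b
  G := (h.unit⁻¹ : (Matrix ι ι C(Circle, R))ˣ)
  fG := h.mul_val_inv
  Gf := h.val_inv_mul

/-- Block sum. -/
noncomputable def sum (p : Pen R ι) (q : Pen R κ) : Pen R (ι ⊕ κ) where
  a := fromBlocks p.a 0 0 q.a
  b := fromBlocks p.b 0 0 q.b
  G := fromBlocks p.G 0 0 q.G
  fG := by
    have : pl (fromBlocks p.a 0 0 q.a) (fromBlocks p.b 0 0 q.b)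
        = fromBlocks (pl p.a p.b) 0 0 (pl q.a q.b) := by
      simp only [pl, cM, fromBlocks_map, fromBlocks_smul, fromBlocks_add]
      simp
    rw [this, fromBlocks_multiply, p.fG, q.fG]
    simp
  Gf := by
    have : pl (fromBlocks p.a 0 0 q.a) (fromBlocks p.b 0 0 q.b)
        = fromBlocks (pl p.a p.b) 0 0 (pl q.a q.b) := by
      simp only [pl, cM, fromBlocks_map, fromBlocks_smul, fromBlocks_add]
      simp
    rw [this, fromBlocks_multiply, p.Gf, q.Gf]
    simp

theorem ppl_sum (p : Pen R ι) (q : Pen R κ) :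
    ppl (p.sum q).a (p.sum q).b = fromBlocks (ppl p.a p.b) 0 0 (ppl q.a q.b) := by
  simp only [sum, ppl, fromBlocks_map, fromBlocks_smul, fromBlocks_add]
  simp

theorem c_sum (p : Pen R ι) (q : Pen R κ) (k : ℤ) :
    (p.sum q).c k = fromBlocks (p.c k) 0 0 (q.c k) := by
  ext i j
  rcases i with i | i <;> rcases j with j | j <;> simp [sum, c]

theorem P_sum (p : Pen R ι) (q : Pen R κ) :
    (p.sum q).P = fromBlocks p.P 0 0 q.P := by
  rw [P, c_sum]
  simp only [sum]
  rw [fromBlocks_multiply]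
  simp [P]

variable (R ι) in
/-- The trivial pencil. -/
noncomputable def one : Pen R ι where
  a := 1
  b := 0
  G := 1
  fG := by simp [pl, cM_one, cM_zero]
  Gf := by simp [pl, cM_one, cM_zero]

theorem P_one : (one R ι).P = 0 := by simp [P, one]

theorem ppl_one : ppl (one R ι).a (one R ι).b = 1 := by
  simp [ppl, one]

/-- The pencil `z e + (1 - e)` of an idempotent. -/
noncomputable def idem (e : Matrix ι ι R) (he : e * e = e) : Pen R ι where
  a := 1 - e
  b := e
  G := (zi : C(Circle, R)) • cM e + cM (1 - e)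
  fG := by
    have := Lam_mul_inv he
    rw [Lam, add_comm] at this
    exact this
  Gf := by
    have := Lam_mul_inv he
    rw [Lam, add_comm] at this
    exact mul_eq_one_comm.1 this

theorem coef_zi (k : ℤ) : coef (zi : C(Circle, R)) k = if k = -1 then 1 else 0 := by
  have h := coef_zc_mul (zi : C(Circle, R)) (k + 1)
  rw [zc_mul_zi, coef_one, add_sub_cancel_right] at h
  rw [← h]
  congr 1
  simp only [eq_iff_iff]
  omega

theorem coefM_zi_smul_cM (x : Matrix ι κ R) (k : ℤ) :
    coefM ((zi : C(Circle, R)) • cM x) k = if k = -1 then x else 0 := by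
  ext i j
  simp only [coefM_apply, Matrix.smul_apply, cM, Matrix.map_apply, smul_eq_mul, coef_mul_C,
    coef_zi]
  split_ifs <;> simp

theorem coefM_cM (x : Matrix ι κ R) (k : ℤ) :
    coefM (cM x) k = if k = 0 then x else 0 := by
  have h := coefM_cM_mul x (1 : Matrix κ κ C(Circle, R)) k
  rw [Matrix.mul_one, coefM_one] at h
  rw [h]
  split_ifs <;> simp

theorem P_idem (e : Matrix ι ι R) (he : e * e = e) : (idem e he).P = e := by
  have h1 : (idem e he).c (-1) = e := by
    rw [c]
    simp only [idem]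
    rw [coefM_add, coefM_zi_smul_cM, coefM_cM]
    simp
  rw [P, h1]
  exact he

theorem pl_map (φ : R' →A[ℂ] R) (a b : Matrix ι ι R') :
    pl (a.map φ) (b.map φ)
        = (pl a b).map ((φ : R' →+* R).compLeftContinuous Circle φ.continuous) := by
  ext i j z
  have h1 : ((pl a b).map ((φ : R' →+* R).compLeftContinuous Circle φ.continuous)) i j z
      = φ (a i j + algebraMap ℂ R' (z : ℂ) * b i j) := rfl
  have h2 : (pl (a.map φ) (b.map φ)) i j z = φ (a i j) + algebraMap ℂ R (z : ℂ) * φ (b i j) := rfl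
  rw [h1, h2, map_add, map_mul, AlgHomClass.commutes]

/-- Functoriality. -/
noncomputable def map (φ : R' →A[ℂ] R) (p : Pen R' ι) : Pen R ι where
  a := p.a.map φ
  b := p.b.map φ
  G := p.G.map ((φ : R' →+* R).compLeftContinuous Circle φ.continuous)
  fG := by
    rw [pl_map, ← Matrix.map_mul, p.fG]
    simp
  Gf := by
    rw [pl_map, ← Matrix.map_mul, p.Gf]
    simp

theorem c_map (φ : R' →A[ℂ] R) (p : Pen R' ι) (k : ℤ) : (p.map φ).c k = (p.c k).map φ := by
  ext i j
  simp only [c, map, coefM_apply, Matrix.map_apply]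
  exact coef_clm (φ.toContinuousLinearMap) _ _ (fun z => rfl) k

theorem P_map (φ : R' →A[ℂ] R) (p : Pen R' ι) : (p.map φ).P = (p.P).map φ := by
  rw [P, c_map, P]
  simp only [map]
  exact (Matrix.map_mul (f := (φ : R' →+* R))).symm

end Pen

/-- `NuRel p e`: the index of the polynomial loop `p` is the class of the idempotent `e`. -/
def NuRel (p : Matrix ι ι R[X]) (e : Matrix κ κ R) : Prop :=
  ∃ (l : Type) (_ : Fintype l) (_ : DecidableEq l) (q : Pen R l),
    SEqv p (ppl q.a q.b) ∧ MvN q.P e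

theorem nu_exists (p : Matrix ι ι R[X]) (hp : IsUnit (loopM p)) :
    ∃ (κ : Type) (_ : Fintype κ) (_ : DecidableEq κ) (e : Matrix κ κ R), e * e = e ∧ NuRel p e := by
  obtain ⟨κ, _, _, a, b, h⟩ := exists_pencil p
  have h1 : IsUnit (loopM (ppl a b)) :=
    (h.map (loop : R[X] →+* C(Circle, R))).isUnit (show IsUnit (p.map loop) from hp)
  rw [loopM_ppl] at h1
  refine ⟨κ, inferInstance, inferInstance, (Pen.ofUnit a b h1).P, Pen.P_mul_P _, κ, inferInstance,
    inferInstance, Pen.ofUnit a b h1, h, MvN.refl (Pen.P_mul_P _)⟩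

theorem nu_seqv {p : Matrix ι ι R[X]} {p' : Matrix m m R[X]} (h : SEqv p p') {e : Matrix κ κ R}
    (hp : NuRel p e) : NuRel p' e := by
  obtain ⟨l, _, _, q, h1, h2⟩ := hp
  exact ⟨l, inferInstance, inferInstance, q, h.symm.trans h1, h2⟩

theorem nu_mvn {p : Matrix ι ι R[X]} {e : Matrix κ κ R} {e' : Matrix m m R} (he' : e' * e' = e')
    (h : MvN e e') (hp : NuRel p e) : NuRel p e' := by
  obtain ⟨l, _, _, q, h1, h2⟩ := hp
  exact ⟨l, inferInstance, inferInstance, q, h1, MvN.trans q.P_mul_P he' h2 h⟩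

theorem Pen.mvn_of_seqv {p : Pen R ι} {q : Pen R κ} (h : SEqv (ppl p.a p.b) (ppl q.a q.b)) :
    MvN p.P q.P := by
  obtain ⟨α, β, _, _, _, _, h⟩ := h
  have h1 : Eqv (ppl (p.sum (Pen.one R α)).a (p.sum (Pen.one R α)).b)
      (ppl (q.sum (Pen.one R β)).a (q.sum (Pen.one R β)).b) := by
    rw [Pen.ppl_sum, Pen.ppl_sum, Pen.ppl_one, Pen.ppl_one]
    exact h
  have h2 := Pen.mvn_of_eqv h1
  rw [Pen.P_sum, Pen.P_sum, Pen.P_one, Pen.P_one] at h2
  have h3 := MvN.add_zero (κ := α) p.P p.P_mul_P
  have h4 := MvN.add_zero (κ := β) q.P q.P_mul_P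
  have h5 : fromBlocks q.P 0 0 (0 : Matrix β β R) * fromBlocks q.P 0 0 0
      = fromBlocks q.P 0 0 0 := by
    rw [fromBlocks_multiply]; simp [q.P_mul_P]
  exact (h3.symm.trans p.P_mul_P h5 h2).trans p.P_mul_P q.P_mul_P h4

theorem nu_unique {p : Matrix ι ι R[X]} {e : Matrix κ κ R} {e' : Matrix m m R} (he : e * e = e)
    (he' : e' * e' = e') (hp : NuRel p e) (hp' : NuRel p e') : MvN e e' := by
  obtain ⟨l, _, _, q, h1, h2⟩ := hp
  obtain ⟨l', _, _, q', h1', h2'⟩ := hp'
  have h3 := Pen.mvn_of_seqv (h1.symm.trans h1')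
  exact (h2.symm.trans he q'.P_mul_P h3).trans he he' h2'

theorem nu_blocks {p : Matrix ι ι R[X]} {p' : Matrix κ κ R[X]} {e : Matrix l l R}
    {e' : Matrix m m R} (hp : NuRel p e) (hp' : NuRel p' e') :
    NuRel (fromBlocks p 0 0 p') (fromBlocks e 0 0 e') := by
  obtain ⟨α, _, _, q, h1, h2⟩ := hp
  obtain ⟨β, _, _, q', h1', h2'⟩ := hp'
  refine ⟨α ⊕ β, inferInstance, inferInstance, q.sum q', ?_, ?_⟩
  · rw [Pen.ppl_sum]
    exact h1.blocks h1'
  · rw [Pen.P_sum]
    exact h2.blocks h2'

theorem nu_idem {e : Matrix ι ι R} (he : e * e = e) : NuRel (ppl (1 - e) e) e := by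
  refine ⟨ι, inferInstance, inferInstance, Pen.idem e he, SEqv.refl _, ?_⟩
  rw [Pen.P_idem]
  exact MvN.refl he


theorem ppl_map (φ : R' →A[ℂ] R) (a b : Matrix ι ι R') :
    (ppl a b).map (Polynomial.mapRingHom (φ : R' →+* R)) = ppl (a.map φ) (b.map φ) := by
  ext i j : 2
  simp [ppl]

theorem nu_map (φ : R' →A[ℂ] R) {p : Matrix ι ι R'[X]} {e : Matrix κ κ R'} (hp : NuRel p e) :
    NuRel (p.map (Polynomial.mapRingHom (φ : R' →+* R))) (e.map φ) := by
  obtain ⟨l, _, _, q, h1, h2⟩ := hp
  refine ⟨l, inferInstance, inferInstance, q.map φ, ?_, ?_⟩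
  · have := h1.map (Polynomial.mapRingHom (φ : R' →+* R))
    rw [ppl_map] at this
    exact this
  · rw [Pen.P_map]
    exact h2.map (φ : R' →+* R)

theorem loop_map (φ : R' →A[ℂ] R) (p : R'[X]) :
    loop (p.map (φ : R' →+* R)) = (φ : R' →+* R).compLeftContinuous Circle φ.continuous (loop p) := by
  have h : (loop : R[X] →+* C(Circle, R)).comp (Polynomial.mapRingHom (φ : R' →+* R))
      = ((φ : R' →+* R).compLeftContinuous Circle φ.continuous).comp loop := by
    refine Polynomial.ringHom_ext (fun a => ?_) ?_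
    · simp only [RingHom.comp_apply, Polynomial.coe_mapRingHom, Polynomial.map_C, loop_C]
      ext z
      rfl
    · simp only [RingHom.comp_apply, Polynomial.coe_mapRingHom, Polynomial.map_X, loop_X]
      ext z
      have h2 : ((φ : R' →+* R).compLeftContinuous Circle φ.continuous (zc : C(Circle, R'))) z
        = φ (algebraMap ℂ R' (z : ℂ)) := rfl
      rw [h2, AlgHomClass.commutes]
      rfl
  exact congrArg (fun f => f p) h

theorem loopM_map' (φ : R' →A[ℂ] R) (p : Matrix ι κ R'[X]) :
    loopM (p.map (Polynomial.mapRingHom (φ : R' →+* R)))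
      = (loopM p).map ((φ : R' →+* R).compLeftContinuous Circle φ.continuous) := by
  ext i j : 2
  simp only [loopM, Matrix.map_apply, Polynomial.coe_mapRingHom, loop_map]

theorem isUnit_loopM_map (φ : R' →A[ℂ] R) (p : Matrix ι ι R'[X]) (h : IsUnit (loopM p)) :
    IsUnit (loopM (p.map (Polynomial.mapRingHom (φ : R' →+* R)))) := by
  rw [loopM_map']
  exact h.map ((φ : R' →+* R).compLeftContinuous Circle φ.continuous).mapMatrix

/-- An "algebra of paths" over `R`: two evaluations, constants, a parameter. -/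
structure PathAlg (R : Type*) [NormedCommRing R] [NormedAlgebra ℂ R] (R' : Type*)
    [NormedCommRing R'] [NormedAlgebra ℂ R'] where
  φ0 : R' →A[ℂ] R
  φ1 : R' →A[ℂ] R
  cst : R →A[ℂ] R'
  h0 : ∀ r, φ0 (cst r) = r
  h1 : ∀ r, φ1 (cst r) = r
  tI : R'
  ht0 : φ0 tI = 0
  ht1 : φ1 tI = 1
  mvn : ∀ {κ : Type} [Fintype κ] [DecidableEq κ] (e : Matrix κ κ R'), e * e = e →
    MvN (e.map φ0) (e.map φ1)

theorem map_idem (φ : R' →A[ℂ] R) {e : Matrix κ κ R'} (he : e * e = e) :
    e.map φ * e.map φ = e.map φ := by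
  have := congrArg (fun M => M.map (φ : R' →+* R)) he
  simp only [Matrix.map_mul] at this
  exact this

/-- **Homotopy invariance** of the index along polynomial paths. -/
theorem nu_path (A : PathAlg R R') {P : Matrix ι ι R'[X]} (hP : IsUnit (loopM P))
    {e : Matrix κ κ R} {e' : Matrix l l R} (he : e * e = e) (he' : e' * e' = e')
    (h : NuRel (P.map (Polynomial.mapRingHom (A.φ0 : R' →+* R))) e)
    (h' : NuRel (P.map (Polynomial.mapRingHom (A.φ1 : R' →+* R))) e') :
    MvN e e' := by
  obtain ⟨α, _, _, E, hE, hPE⟩ := nu_exists P hP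
  have hEs := map_idem A.φ0 hE
  have hEt := map_idem A.φ1 hE
  have h1 := nu_unique he hEs h (nu_map A.φ0 hPE)
  have h2 := nu_unique hEt he' (nu_map A.φ1 hPE) h'
  have h3 := A.mvn E hE
  exact (h1.trans he hEt h3).trans he he' h2

theorem nu_X_one : NuRel ((X : R[X]) • (1 : Matrix ι ι R[X])) (1 : Matrix ι ι R) := by
  have h := nu_idem (R := R) (e := (1 : Matrix ι ι R)) (Matrix.one_mul 1)
  have h1 : ppl (1 - 1) (1 : Matrix ι ι R) = (X : R[X]) • (1 : Matrix ι ι R[X]) := by
    simp [ppl]
  rwa [h1] at h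

theorem nu_neg_X_one : NuRel (-((X : R[X]) • (1 : Matrix ι ι R[X]))) (1 : Matrix ι ι R) := by
  refine nu_seqv ?_ (nu_X_one (R := R) (ι := ι))
  have h : Eqv ((-1) * ((X : R[X]) • (1 : Matrix ι ι R[X])) * 1) ((X : R[X]) • (1 : Matrix ι ι R[X])) :=
    Eqv.of_mul (isUnit_one.neg) isUnit_one
  have h2 : (-1) * ((X : R[X]) • (1 : Matrix ι ι R[X])) * 1 = -((X : R[X]) • (1 : Matrix ι ι R[X])) := by
    simp
  rw [h2] at h
  exact h.symm.seqv

theorem loopM_blocks (A : Matrix ι ι R[X]) (B : Matrix ι κ R[X]) (C' : Matrix κ ι R[X])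
    (D : Matrix κ κ R[X]) :
    loopM (fromBlocks A B C' D) = fromBlocks (loopM A) (loopM B) (loopM C') (loopM D) := by
  rw [loopM, fromBlocks_map]; rfl

theorem isUnit_zc : IsUnit (zc : C(Circle, R)) := ⟨⟨zc, zi, zc_mul_zi, zi_mul_zc⟩, rfl⟩

theorem isUnit_loopM_X : IsUnit (loopM ((X : R[X]) • (1 : Matrix ι ι R[X]))) := by
  have h : loopM ((X : R[X]) • (1 : Matrix ι ι R[X])) = (zc : C(Circle, R)) • (1 : Matrix ι ι _) := by
    ext i j : 2
    by_cases hij : i = j
    · subst hij; simp [loopM]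
    · simp [loopM, Matrix.one_apply_ne hij]
  rw [h, Matrix.isUnit_iff_isUnit_det, Matrix.det_smul, Matrix.det_one, mul_one]
  exact isUnit_zc.pow _

theorem isUnit_loopM_neg_X : IsUnit (loopM (-((X : R[X]) • (1 : Matrix ι ι R[X])))) := by
  have h : loopM (-((X : R[X]) • (1 : Matrix ι ι R[X])))
      = -loopM ((X : R[X]) • (1 : Matrix ι ι R[X])) := by
    ext i j : 2
    simp [loopM]
  rw [h]
  exact isUnit_loopM_X.neg

theorem isUnit_lower {S : Type*} [CommRing S] {A : Matrix ι ι S} {C' : Matrix κ ι S}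
    {D : Matrix κ κ S} (hA : IsUnit A) (hD : IsUnit D) : IsUnit (fromBlocks A 0 C' D) := by
  rw [Matrix.isUnit_iff_isUnit_det] at hA hD ⊢
  rw [det_fromBlocks_zero₁₂]
  exact hA.mul hD

theorem loopM_zero : loopM (0 : Matrix ι κ R[X]) = 0 := by
  ext i j : 2
  simp [loopM]

/-- **Shift**: `ν(z p) = ν(p) + 1`. -/
theorem nu_X_smul' (A : PathAlg R R') {p : Matrix ι ι R[X]} (hu : IsUnit (loopM p))
    {e : Matrix κ κ R} (he : e * e = e) (hp : NuRel p e) :
    NuRel ((X : R[X]) • p) (fromBlocks e 0 0 (1 : Matrix ι ι R)) := by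
  let p' : Matrix ι ι R'[X] := p.map (Polynomial.mapRingHom (A.cst : R →+* R'))
  let L : Matrix (ι ⊕ ι) (ι ⊕ ι) R'[X] :=
    fromBlocks p' 0 ((Polynomial.C A.tI) • (1 : Matrix ι ι _)) (-((X : R'[X]) • (1 : Matrix ι ι _)))
  have hL : IsUnit (loopM L) := by
    have h1 : IsUnit (loopM p') := isUnit_loopM_map A.cst p hu
    have h2 : IsUnit (loopM (-((X : R'[X]) • (1 : Matrix ι ι _)))) :=
      isUnit_loopM_neg_X
    rw [loopM_blocks, loopM_zero]
    exact isUnit_lower h1 h2
  have hmap : ∀ (φ : R' →A[ℂ] R) (_ : ∀ r, φ (A.cst r) = r),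
      L.map (Polynomial.mapRingHom (φ : R' →+* R))
      = fromBlocks p 0 ((Polynomial.C (φ A.tI)) • (1 : Matrix ι ι _))
        (-((X : R[X]) • (1 : Matrix ι ι _))) := by
    intro φ hφ
    rw [fromBlocks_map]
    congr 1
    · ext i j : 2
      simp only [p', Matrix.map_apply, Polynomial.coe_mapRingHom, Polynomial.map_map]
      have : (φ : R' →+* R).comp (A.cst : R →+* R') = RingHom.id R := by
        ext r; exact hφ r
      rw [this, Polynomial.map_id]
    · ext i j : 2
      simp
    · ext i j : 2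
      by_cases hij : i = j
      · subst hij
        simp
      · simp [Matrix.one_apply_ne hij]
    · ext i j : 2
      by_cases hij : i = j
      · subst hij
        simp
      · simp [Matrix.one_apply_ne hij]
  -- value at time 0
  have h0 : NuRel (L.map (Polynomial.mapRingHom (A.φ0 : R' →+* R)))
      (fromBlocks e 0 0 (1 : Matrix ι ι R)) := by
    rw [hmap _ A.h0, A.ht0, Polynomial.C_0, zero_smul]
    exact nu_blocks hp nu_neg_X_one
  -- value at time 1
  have h1 : SEqv ((X : R[X]) • p) (L.map (Polynomial.mapRingHom (A.φ1 : R' →+* R))) := by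
    rw [hmap _ A.h1, A.ht1, Polynomial.C_1, one_smul]
    exact seqv_shift _ _
  have hXp : IsUnit (loopM (L.map (Polynomial.mapRingHom (A.φ1 : R' →+* R)))) :=
    isUnit_loopM_map A.φ1 L hL
  obtain ⟨α, _, _, f, hf, hLf⟩ := nu_exists _ hXp
  have he1 : fromBlocks e 0 0 (1 : Matrix ι ι R) * fromBlocks e 0 0 (1 : Matrix ι ι R)
      = fromBlocks e 0 0 (1 : Matrix ι ι R) := by
    rw [fromBlocks_multiply]; simp [he]
  have h2 := nu_path A hL he1 hf h0 hLf
  exact nu_mvn he1 h2.symm (nu_seqv h1.symm hLf)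

end

end Crest.Agent.R204.Bott671
end

-- ▼ part R204/BottPath_671

/-!
# The path algebra `C(unitInterval, R)`
-/

set_option autoImplicit false
set_option linter.unusedSectionVars false

open Filter Topology Polynomial Matrix

namespace Crest.Agent.R204.Bott671

section

variable (R : Type*) [NormedCommRing R] [NormedAlgebra ℂ R] [CompleteSpace R]

/-- The path algebra. -/
noncomputable def pathAlg : PathAlg R C(unitInterval, R) where
  φ0 :=
    { toAlgHom := ContinuousMap.evalAlgHom ℂ R 0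
      cont := continuous_eval_const 0 }
  φ1 :=
    { toAlgHom := ContinuousMap.evalAlgHom ℂ R 1
      cont := continuous_eval_const 1 }
  cst :=
    { toAlgHom :=
        { toRingHom := ContinuousMap.C
          commutes' := fun r => by ext t; rfl }
      cont := by
        change Continuous fun r : R => ContinuousMap.const unitInterval r
        exact ContinuousMap.continuous_const' }
  h0 := fun r => rfl
  h1 := fun r => rfl
  tI := ⟨fun t => algebraMap ℂ R ((t : ℝ) : ℂ), (algebraMapCLM ℂ R).continuous.comp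
    (Complex.continuous_ofReal.comp continuous_subtype_val)⟩
  ht0 := by
    change algebraMap ℂ R (((0 : unitInterval) : ℝ) : ℂ) = 0
    simp
  ht1 := by
    change algebraMap ℂ R (((1 : unitInterval) : ℝ) : ℂ) = 1
    simp
  mvn := by
    intro κ _ _ e he
    obtain ⟨u, v, h1, h2⟩ := Crest.Agent.R204.Banach313.mvn_of_path (A := R) (n := κ)
      (fun r : unitInterval => e.map (fun f => f r))
      (continuous_matrix fun i j => (e i j).continuous) (fun r => by
        have h := congrArg (evM r) he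
        rw [evM_mul] at h
        exact h)
    exact ⟨v, u, h2, h1⟩

end

end Crest.Agent.R204.Bott671
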