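import Crest.Agent.R204.Clutch3_369
import Crest.Agent.R204.BottLoop_313
import Crest.Agent.R204.BottConn_671
import Crest.Agent.R204.BottEqv_671
import Crest.Agent.R204.BottPath_671
import Crest.Agent.R204.KDefs_357

-- ▼ part R204/BottK_369
section

/-!
# Row 204, block H: Bott periodicity for augmented algebras (T2), helper369
-/

set_option autoImplicit false
set_option linter.unusedSectionVars false
set_option linter.unusedSimpArgs false

open Matrix Topology
open scoped unitInterval
open Crest.Agent.R204.K357 Crest.Agent.R204.Clutch369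

namespace Crest.Agent.R204.BottK369

noncomputable section

universe u

/-- the point `e^{2πis}` -/
def zz (s : I) : ℂ := (BottLoop313.circPt s : ℂ)

/-- its inverse -/
def zi (s : I) : ℂ := (((BottLoop313.circPt s)⁻¹ : Circle) : ℂ)

theorem continuous_zz : Continuous zz := continuous_subtype_val.comp BottLoop313.continuous_circPt
theorem continuous_zi : Continuous zi :=
  continuous_subtype_val.comp ((continuous_inv (G := Circle)).comp BottLoop313.continuous_circPt)

@[simp] theorem zz_zero : zz 0 = 1 := by simp [zz, BottLoop313.circPt_zero]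
@[simp] theorem zz_one : zz 1 = 1 := by simp [zz, BottLoop313.circPt_one]
@[simp] theorem zi_zero : zi 0 = 1 := by simp [zi, BottLoop313.circPt_zero]
@[simp] theorem zi_one : zi 1 = 1 := by simp [zi, BottLoop313.circPt_one]

theorem zz_mul_zi (s : I) : zz s * zi s = 1 := by
  unfold zz zi
  rw [← Circle.coe_mul]
  simp

theorem zi_mul_zz (s : I) : zi s * zz s = 1 := by rw [mul_comm, zz_mul_zi]

section fam

variable {A : Type u} [NormedRing A] [NormedAlgebra ℂ A] [CompleteSpace A]
variable {ε : A →ₐ[ℂ] ℂ}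
variable {n m k l : Type} [Fintype n] [DecidableEq n] [Fintype m] [DecidableEq m]
  [Fintype k] [DecidableEq k] [Fintype l] [DecidableEq l]

/-- continuity of families of matrices over `SigA ε` -/
theorem continuous_mkM (F : I × I → Matrix n m A) (hF : Continuous F) (c : Matrix n m ℂ)
    (h0 : ∀ r, F (r, 0) = c.map (algebraMap ℂ A)) (h1 : ∀ r, F (r, 1) = c.map (algebraMap ℂ A))
    (hε : ∀ x, (F x).map ε = c) :
    Continuous fun r => mkM (ε := ε) (fun s => F (r, s)) (hF.comp (Continuous.prodMk_right r)) c (h0 r)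
      (h1 r) (fun s => hε (r, s)) := by
  refine continuous_matrix fun i j => ?_
  have hc : Continuous fun r : I => (ContinuousMap.curry ⟨fun x : I × I => F x i j, hF.matrix_elem i j⟩) r :=
    ContinuousMap.continuous _
  exact Continuous.subtype_mk hc _

/-- two reduced units over `Sig` joined through a two parameter family -/
theorem jn_of_fam (g h : RU (Sig.aug ε) n) (a b : I × I → Matrix n n A) (ca : Continuous a)
    (cb : Continuous b) (ab : ∀ x, a x * b x = 1) (ba : ∀ x, b x * a x = 1)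
    (a0 : ∀ r, a (r, 0) = 1) (a1 : ∀ r, a (r, 1) = 1) (ea : ∀ x, (a x).map ε = 1)
    (hg : ∀ s, a (0, s) = g.u.map (Sig.ev ε s)) (hh : ∀ s, a (1, s) = h.u.map (Sig.ev ε s)) :
    Jn (Sig.aug ε) g h := by
  have h1 : (1 : Matrix n n A) = (1 : Matrix n n ℂ).map (algebraMap ℂ A) := by simp
  have b0 : ∀ r, b (r, 0) = 1 := fun r => by have := ab (r, 0); rwa [a0, Matrix.one_mul] at this
  have b1 : ∀ r, b (r, 1) = 1 := fun r => by have := ab (r, 1); rwa [a1, Matrix.one_mul] at this
  have eb : ∀ x, (b x).map ε = 1 := fun x => by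
    have h : (b x * a x).map ε = (b x).map ε * (a x).map ε := Matrix.map_mul (f := (ε : A →+* ℂ))
    rw [ba, ea, Matrix.mul_one] at h
    rw [← h]; simp
  refine ⟨fun r => mkM (ε := ε) (fun s => a (r, s)) (ca.comp (Continuous.prodMk_right r)) 1
      ((a0 r).trans h1) ((a1 r).trans h1) (fun s => ea (r, s)),
    fun r => mkM (ε := ε) (fun s => b (r, s)) (cb.comp (Continuous.prodMk_right r)) 1
      ((b0 r).trans h1) ((b1 r).trans h1) (fun s => eb (r, s)),
    continuous_mkM a ca 1 (fun r => (a0 r).trans h1) (fun r => (a1 r).trans h1) ea,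
    continuous_mkM b cb 1 (fun r => (b0 r).trans h1) (fun r => (b1 r).trans h1) eb,
    fun r => mat_ext fun t => ?_, fun r => mat_ext fun t => ?_, mat_ext fun t => ?_,
    mat_ext fun t => ?_, fun r => ?_⟩
  · rw [ev_mul, mkM_ev, mkM_ev, ab, Matrix.map_one _ (map_zero _) (map_one _)]
  · rw [ev_mul, mkM_ev, mkM_ev, ba, Matrix.map_one _ (map_zero _) (map_one _)]
  · rw [mkM_ev, hg]
  · rw [mkM_ev, hh]
  · rw [← mat_aug _ 0, mkM_ev, ea]

/-- reduced units over `Sig` from paths -/
def mkRU (F G : I → Matrix n n A) (cF : Continuous F) (cG : Continuous G) (FG : ∀ s, F s * G s = 1)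
    (GF : ∀ s, G s * F s = 1) (F0 : F 0 = 1) (F1 : F 1 = 1) (eF : ∀ s, (F s).map ε = 1) :
    RU (Sig.aug ε) n :=
  have h1 : (1 : Matrix n n A) = (1 : Matrix n n ℂ).map (algebraMap ℂ A) := by simp
  { u := mkM F cF 1 (F0.trans h1) (F1.trans h1) eF
    v := mkM G cG 1 (by
        have := FG 0
        rw [F0, Matrix.one_mul] at this
        rw [this, h1])
      (by
        have := FG 1
        rw [F1, Matrix.one_mul] at this
        rw [this, h1])
      (fun s => by
        have h : (G s * F s).map ε = (G s).map ε * (F s).map ε := Matrix.map_mul (f := (ε : A →+* ℂ))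
        rw [GF, eF, Matrix.mul_one] at h
        rw [← h]; simp)
    uv := mat_ext fun t => by
      rw [ev_mul, mkM_ev, mkM_ev, FG, Matrix.map_one _ (map_zero _) (map_one _)]
    vu := mat_ext fun t => by
      rw [ev_mul, mkM_ev, mkM_ev, GF, Matrix.map_one _ (map_zero _) (map_one _)]
    eu := by rw [← mat_aug _ 0, mkM_ev, eF] }


/-! ### the Bott loop of an idempotent -/

/-- `z p + 1 - p` -/
def Lz (z : ℂ) (p : Matrix n n A) : Matrix n n A := z • p + (1 - p)

theorem Lz_mul {z w : ℂ} (h : z * w = 1) {p : Matrix n n A} (hp : p * p = p) :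
    Lz z p * Lz w p = 1 := by
  have h1 : (1 - p) * (1 - p) = 1 - p := K0.idem_compl hp
  have h2 : p * (1 - p) = 0 := by simp [Matrix.mul_sub, hp]
  have h3 : (1 - p) * p = 0 := by simp [Matrix.sub_mul, hp]
  unfold Lz
  calc (z • p + (1 - p)) * (w • p + (1 - p))
      = (z * w) • (p * p) + z • (p * (1 - p)) + (w • ((1 - p) * p) + (1 - p) * (1 - p)) := by
        rw [Matrix.add_mul, Matrix.mul_add, Matrix.mul_add, Matrix.smul_mul, Matrix.mul_smul,
          Matrix.smul_mul, Matrix.mul_smul, smul_smul]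
    _ = 1 := by rw [h1, h2, h3, h, hp]; simp

theorem Lz_one (p : Matrix n n A) : Lz 1 p = 1 := by simp [Lz]

theorem Lz_map (z : ℂ) (p : Matrix n n A) : (Lz z p).map ε = Lz z (p.map ε) := by
  unfold Lz
  ext i j
  by_cases h : i = j <;> simp [Matrix.one_apply, h]

theorem Lz_io (z : ℂ) (c : Matrix n n ℂ) : Lz z (io A c) = io A (Lz z c) := by
  ext i j
  simp only [Lz, io, Matrix.add_apply, Matrix.smul_apply, Matrix.map_apply, Matrix.sub_apply,
    smul_eq_mul, map_add, map_mul, map_sub]
  rw [Algebra.smul_def]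
  by_cases h : i = j <;> simp [Matrix.one_apply, h]

theorem continuous_Lz {X : Type*} [TopologicalSpace X] {z : X → ℂ} {p : X → Matrix n n A}
    (hz : Continuous z) (hp : Continuous p) : Continuous fun x => Lz (z x) (p x) := by
  unfold Lz
  exact (hz.smul hp).add (continuous_const.sub hp)

theorem Lz_fb (z : ℂ) (p : Matrix n n A) (q : Matrix m m A) :
    Lz z (fromBlocks p 0 0 q) = fromBlocks (Lz z p) 0 0 (Lz z q) := by
  ext (i | i) (j | j) <;> simp [Lz, Matrix.one_apply]

variable (ε) in
/-- scalar part of a matrix over `A` -/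
abbrev sc (p : Matrix n n A) : Matrix n n A := io A (p.map ε)

theorem sc_idem {p : Matrix n n A} (hp : p * p = p) : sc ε p * sc ε p = sc ε p := by
  unfold sc
  rw [← io_mul]
  congr 1
  have h : (p * p).map ε = p.map ε * p.map ε := Matrix.map_mul (f := (ε : A →+* ℂ))
  rw [← h, hp]

theorem sc_map (p : Matrix n n A) : (sc ε p).map ε = p.map ε := io_map _

/-- the reduced Bott loop `(z p + 1 - p)(z ε(p) + 1 - ε(p))⁻¹` -/
def be (p : Matrix n n A) (hp : p * p = p) : RU (Sig.aug ε) n :=
  mkRU (fun s => Lz (zz s) p * Lz (zi s) (sc ε p)) (fun s => Lz (zz s) (sc ε p) * Lz (zi s) p)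
    ((continuous_Lz continuous_zz continuous_const).matrix_mul
      (continuous_Lz continuous_zi continuous_const))
    ((continuous_Lz continuous_zz continuous_const).matrix_mul
      (continuous_Lz continuous_zi continuous_const))
    (fun s => by
      rw [Matrix.mul_assoc, ← Matrix.mul_assoc (Lz (zi s) (sc ε p)), Lz_mul (zi_mul_zz s) (sc_idem hp),
        Matrix.one_mul, Lz_mul (zz_mul_zi s) hp])
    (fun s => by
      rw [Matrix.mul_assoc, ← Matrix.mul_assoc (Lz (zi s) p), Lz_mul (zi_mul_zz s) hp,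
        Matrix.one_mul, Lz_mul (zz_mul_zi s) (sc_idem hp)])
    (by simp [Lz_one]) (by simp [Lz_one])
    (fun s => by
      have h : (Lz (zz s) p * Lz (zi s) (sc ε p)).map ε = (Lz (zz s) p).map ε *
        (Lz (zi s) (sc ε p)).map ε := Matrix.map_mul (f := (ε : A →+* ℂ))
      rw [h, Lz_map, Lz_map, sc_map, Lz_mul (zz_mul_zi s)]
      have h : (p * p).map ε = p.map ε * p.map ε := Matrix.map_mul (f := (ε : A →+* ℂ))
      rw [← h, hp])

theorem be_ev (p : Matrix n n A) (hp : p * p = p) (s : I) :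
    (be (ε := ε) p hp).u.map (Sig.ev ε s) = Lz (zz s) p * Lz (zi s) (sc ε p) := rfl

theorem be_v_ev (p : Matrix n n A) (hp : p * p = p) (s : I) :
    (be (ε := ε) p hp).v.map (Sig.ev ε s) = Lz (zz s) (sc ε p) * Lz (zi s) p := rfl

/-- extensionality of reduced units -/
theorem RU.ext' {g h : RU ε n} (hu : g.u = h.u) : g = h := by
  obtain ⟨u, v, uv, vu, eu⟩ := g
  obtain ⟨u', v', uv', vu', eu'⟩ := h
  simp only at hu
  subst hu
  have : v = v' := inv_eq_of vu uv'
  subst this
  rfl

/-- the Bott loop of a scalar idempotent is trivial -/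
theorem be_scalar (c : Matrix n n ℂ) (hc : c * c = c) :
    be (ε := ε) (io A c) (by rw [← io_mul, hc]) = RU.one := by
  refine RU.ext' (mat_ext fun s => ?_)
  rw [be_ev]
  have : sc ε (io A c) = io A c := by unfold sc; rw [io_map]
  rw [this, Lz_mul (zz_mul_zi s) (by rw [← io_mul, hc])]
  change 1 = (1 : Matrix n n (SigA ε)).map (Sig.ev ε s)
  rw [Matrix.map_one _ (map_zero _) (map_one _)]

theorem sc_fb (p : Matrix n n A) (q : Matrix m m A) :
    sc ε (fromBlocks p 0 0 q) = fromBlocks (sc ε p) 0 0 (sc ε q) := by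
  unfold sc
  rw [eps_fb, io_fb]

theorem be_sum (p : Matrix n n A) (hp : p * p = p) (q : Matrix m m A) (hq : q * q = q) :
    be (ε := ε) (fromBlocks p 0 0 q) (idem_sum hp hq) = (be p hp).sum (be q hq) := by
  refine RU.ext' (mat_ext fun s => ?_)
  change _ = (fromBlocks (be p hp).u 0 0 (be q hq).u).map (Sig.ev ε s)
  rw [be_ev, ev_fb, be_ev, be_ev, sc_fb, Lz_fb, Lz_fb, fromBlocks_multiply]
  simp

/-- a path of idempotents gives joined Bott loops -/
theorem be_path (P : I → Matrix n n A) (cP : Continuous P) (hP : ∀ t, P t * P t = P t) 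
    (hcε : Continuous ε) :
    Jn (Sig.aug ε) (be (ε := ε) (P 0) (hP 0)) (be (P 1) (hP 1)) := by
  have csc : Continuous fun t => sc ε (P t) := by
    unfold sc io
    exact (cP.matrix_map hcε).matrix_map (continuous_algebraMap ℂ A)
  refine jn_of_fam _ _ (fun x => Lz (zz x.2) (P x.1) * Lz (zi x.2) (sc ε (P x.1)))
    (fun x => Lz (zz x.2) (sc ε (P x.1)) * Lz (zi x.2) (P x.1)) ?_ ?_ ?_ ?_ ?_ ?_ ?_ ?_ ?_
  · exact (continuous_Lz (continuous_zz.comp continuous_snd) (cP.comp continuous_fst)).matrix_mul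
      (continuous_Lz (continuous_zi.comp continuous_snd) (csc.comp continuous_fst))
  · exact (continuous_Lz (continuous_zz.comp continuous_snd) (csc.comp continuous_fst)).matrix_mul
      (continuous_Lz (continuous_zi.comp continuous_snd) (cP.comp continuous_fst))
  · intro x
    exact congrArg (fun M => M) (by
      have := congrArg (fun M : Matrix n n (SigA ε) => M.map (Sig.ev ε x.2)) (be (P x.1) (hP x.1)).uv
      simp only [ev_mul, be_ev, be_v_ev] at this
      rw [this, Matrix.map_one _ (map_zero _) (map_one _)])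
  · intro x
    have := congrArg (fun M : Matrix n n (SigA ε) => M.map (Sig.ev ε x.2)) (be (P x.1) (hP x.1)).vu
    simp only [ev_mul, be_ev, be_v_ev] at this
    rw [this, Matrix.map_one _ (map_zero _) (map_one _)]
  · intro r
    simp [Lz_one]
  · intro r
    simp [Lz_one]
  · intro x
    have := (be (P x.1) (hP x.1)).eu (ε := Sig.aug ε)
    rw [← mat_aug _ x.2, be_ev] at this
    exact this
  · intro s
    rfl
  · intro s
    rfl

end fam

end

end Crest.Agent.R204.BottK369
end

-- ▼ part R204/BottK2_369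
section

/-!
# Row 204, block H: Bott periodicity for augmented algebras (T2), part 2, helper369

`B : K0 A →+ K0 (SigA (Sig.aug ε))`, `B [p] = d (be p)`.
-/

set_option autoImplicit false
set_option linter.unusedSectionVars false
set_option linter.unusedSimpArgs false

open Matrix Topology
open scoped unitInterval
open Crest.Agent.R204.K357 Crest.Agent.R204.Clutch369

namespace Crest.Agent.R204.BottK369

noncomputable section

universe u

/-- half turn -/
def hw (t : I) : ℂ := (Circle.exp (Real.pi * t) : ℂ)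
/-- inverse half turn -/
def hw' (t : I) : ℂ := (((Circle.exp (Real.pi * t))⁻¹ : Circle) : ℂ)

theorem continuous_hw : Continuous hw := by unfold hw; fun_prop
theorem continuous_hw' : Continuous hw' := by
  unfold hw'
  exact continuous_subtype_val.comp ((continuous_inv (G := Circle)).comp (by fun_prop))

theorem hw_mul (t : I) : hw t * hw' t = 1 := by
  unfold hw hw'
  rw [← Circle.coe_mul]
  simp

theorem hw_mul' (t : I) : hw' t * hw t = 1 := by rw [mul_comm, hw_mul]

@[simp] theorem hw_zero : hw 0 = 1 := by simp [hw]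
@[simp] theorem hw'_zero : hw' 0 = 1 := by simp [hw']
@[simp] theorem hw_one : hw 1 = -1 := by
  simp [hw, Circle.coe_exp]
@[simp] theorem hw'_one : hw' 1 = -1 := by
  have := hw_mul 1
  rw [hw_one] at this
  linear_combination -this

variable {A : Type u} [NormedRing A] [NormedAlgebra ℂ A] [CompleteSpace A]
variable {ε : A →ₐ[ℂ] ℂ}
variable {n m k l : Type} [Fintype n] [DecidableEq n] [Fintype m] [DecidableEq m]
  [Fintype k] [DecidableEq k] [Fintype l] [DecidableEq l]

/-- an involution is joined to `1` -/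
theorem rho_idem {S : Matrix n n A} (hS : S * S = 1) :
    ((1 / 2 : ℂ) • (1 - S)) * ((1 / 2 : ℂ) • (1 - S)) = (1 / 2 : ℂ) • (1 - S) := by
  have h : (1 - S) * (1 - S) = (2 : ℂ) • (1 - S) := by
    rw [Matrix.sub_mul, Matrix.mul_sub, Matrix.mul_sub, hS, two_smul]
    simp only [Matrix.one_mul, Matrix.mul_one]
    abel
  rw [Matrix.smul_mul, Matrix.mul_smul, h, smul_smul, smul_smul]
  norm_num

theorem Lz_neg_one {S : Matrix n n A} : Lz (-1) ((1 / 2 : ℂ) • (1 - S)) = S := by
  unfold Lz
  have : ((-1 : ℂ) • ((1 / 2 : ℂ) • (1 - S))) + (1 - (1 / 2 : ℂ) • (1 - S)) = 1 - (1 : ℂ) • (1 - S) := by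
    rw [smul_smul]
    have : (1 : ℂ) • (1 - S) = (1 / 2 : ℂ) • (1 - S) + (1 / 2 : ℂ) • (1 - S) := by
      rw [← add_smul]; norm_num
    rw [this]
    norm_num
    abel
  rw [this, one_smul]
  abel

theorem d_be_mvn {p : Matrix n n A} (hp : p * p = p) {q : Matrix m m A} (hq : q * q = q)
    (h : MvN p q) : d (be (ε := ε) p hp) = d (be q hq) := by
  obtain ⟨v, w, h1, h2⟩ := h
  have hn := Ex837.MvN.norm hp hq h1 h2
  set S := Ex837.sym p q (p * v * q) (q * w * p) with hS
  have hSS : S * S = 1 := Ex837.sym_sq hn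
  have hSc : S * fromBlocks p 0 0 0 * S = fromBlocks 0 0 0 q := Ex837.sym_conj hn
  set r := (1 / 2 : ℂ) • (1 - S) with hr
  have hrr : r * r = r := rho_idem hSS
  let P : I → Matrix (n ⊕ m) (n ⊕ m) A := fun t => Lz (hw t) r * fromBlocks p 0 0 0 * Lz (hw' t) r
  have cP : Continuous P := ((continuous_Lz continuous_hw continuous_const).matrix_mul
    continuous_const).matrix_mul (continuous_Lz continuous_hw' continuous_const)
  have z0 : (0 : Matrix m m A) * 0 = 0 := by simp
  have z0' : (0 : Matrix n n A) * 0 = 0 := by simp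
  have hpp := idem_sum hp z0
  have hP : ∀ t, P t * P t = P t := fun t => by
    calc Lz (hw t) r * fromBlocks p 0 0 0 * Lz (hw' t) r * (Lz (hw t) r * fromBlocks p 0 0 0 * Lz (hw' t) r)
        = Lz (hw t) r * fromBlocks p 0 0 0 * (Lz (hw' t) r * Lz (hw t) r) *
          (fromBlocks p 0 0 0 * Lz (hw' t) r) := by simp only [Matrix.mul_assoc]
      _ = Lz (hw t) r * (fromBlocks p 0 0 0 * fromBlocks p 0 0 0) * Lz (hw' t) r := by
          rw [Lz_mul (hw_mul' t) hrr, Matrix.mul_one]; simp only [Matrix.mul_assoc]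
      _ = _ := by rw [hpp]
  have P0 : P 0 = fromBlocks p 0 0 0 := by simp [P, Lz_one]
  have P1 : P 1 = fromBlocks 0 0 0 q := by
    change Lz (hw 1) r * fromBlocks p 0 0 0 * Lz (hw' 1) r = _
    rw [hw_one, hw'_one, hr, Lz_neg_one, hSc]
  have key := (be_path (ε := ε) P cP hP (map_continuous ε)).d_eq
  have e0 : be (ε := ε) (P 0) (hP 0) = (be p hp).sum (be 0 z0) := by
    rw [← be_sum]
    congr 1
  have e1 : be (ε := ε) (P 1) (hP 1) = (be 0 z0').sum (be q hq) := by
    rw [← be_sum]
    congr 1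
  have z1 : ∀ {κ : Type} [Fintype κ] [DecidableEq κ] (hz : (0 : Matrix κ κ A) * 0 = 0),
      d (be (ε := ε) (0 : Matrix κ κ A) hz) = 0 := by
    intro κ _ _ hz
    have hc : (0 : Matrix κ κ ℂ) * 0 = 0 := by simp
    have h3 := be_scalar (A := A) (ε := ε) (0 : Matrix κ κ ℂ) hc
    have h4 : io A (0 : Matrix κ κ ℂ) = 0 := by simp [io]
    have h5 : be (ε := ε) (0 : Matrix κ κ A) hz = RU.one := by
      rw [← h3]
      congr 1
      exact h4.symm
    rw [h5, d_one]
  rw [e0, e1, d_sum, d_sum, z1, z1, add_zero, zero_add] at key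
  exact key

/-- the Bott homomorphism on `V A` -/
def B0 (ε : A →ₐ[ℂ] ℂ) : V A → K0 (SigA (Sig.aug ε)) :=
  Quotient.lift (fun x : Idem A => d (be (ε := ε) x.e x.idem))
    (fun x y h => d_be_mvn x.idem y.idem h)

theorem B0_cl {p : Matrix n n A} (hp : p * p = p) : B0 ε (cl p) = d (be (ε := ε) p hp) := by
  obtain ⟨r, e, he, h1⟩ := V.exists_rep (cl p)
  rw [← h1]
  have h2 : B0 ε (cl e) = d (be (ε := ε) e he) := by
    have := cl_mk ⟨r, e, he⟩
    simp only at this
    rw [this]
    rfl
  rw [h2]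
  exact d_be_mvn he hp ((cl_eq_iff he hp).1 h1)

/-- the Bott homomorphism -/
def Bott (ε : A →ₐ[ℂ] ℂ) : K0 A →+ K0 (SigA (Sig.aug ε)) :=
  Groth.lift
    { toFun := B0 ε
      map_zero' := by
        have hc : (0 : Matrix Empty Empty ℂ) * 0 = 0 := by simp
        have h3 := be_scalar (A := A) (ε := ε) (0 : Matrix Empty Empty ℂ) hc
        have hz : (0 : Matrix Empty Empty A) * 0 = 0 := by simp
        have h5 : be (ε := ε) (0 : Matrix Empty Empty A) hz = RU.one := by
          rw [← h3]
          congr 1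
          ext i
          exact i.elim
        rw [cl_zero_def, B0_cl hz, h5, d_one]
      map_add' := fun x y => by
        induction x using V.ind with
        | _ n e he =>
        induction y using V.ind with
        | _ m f hf =>
          rw [← cl_sum he hf, B0_cl (idem_sum he hf), B0_cl he, B0_cl hf, be_sum, d_sum] }

theorem Bott_cls {p : Matrix n n A} (hp : p * p = p) : Bott ε (K0.cls p) = d (be (ε := ε) p hp) := by
  have : Bott ε (K0.cls p) = B0 ε (cl p) := Groth.lift_ofAdd _ _
  rw [this, B0_cl]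

/-- `Bott` kills scalars -/
theorem Bott_scalar (x : K0 ℂ) : Bott ε (K0.map (algebraMap ℂ A) x) = 0 := by
  induction x using K0.ind with
  | _ n m e f he hf =>
    have key : ∀ {κ : Type} [Fintype κ] [DecidableEq κ] (e : Matrix κ κ ℂ) (he : e * e = e),
        Bott ε (K0.map (algebraMap ℂ A) (K0.cls e)) = 0 := by
      intro κ _ _ e he
      rw [K0.map_cls _ he]
      have h1 : io A e * io A e = io A e := by rw [← io_mul, he]
      have := Bott_cls (ε := ε) h1
      rw [be_scalar e he, d_one] at this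
      exact this
    rw [map_sub, map_sub, key e he, key f hf, sub_zero]

/-- augmentation -/
theorem aug_Bott (x : K0 A) :
    K0.map ((Sig.aug (Sig.aug ε) : SigA (Sig.aug ε) →ₐ[ℂ] ℂ) : SigA (Sig.aug ε) →+* ℂ) (Bott ε x) = 0 := by
  induction x using K0.ind with
  | _ n m e f he hf => rw [map_sub, map_sub, Bott_cls he, Bott_cls hf, aug_d, aug_d, sub_zero]

end

end Crest.Agent.R204.BottK369
end

-- ▼ part R204/BottK3_369
section

/-!
# Row 204, block H: Bott periodicity for augmented algebras (T2), part 3, helper369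

With the loop theorems `BottS A`, `BottI A` as hypotheses:
`Bott ε` is an isomorphism from `ker (K0 A → K0 ℂ)` to `ker (K0 (SigA (Sig.aug ε)) → K0 ℂ)`.
-/

set_option autoImplicit false
set_option linter.unusedSectionVars false
set_option linter.unusedSimpArgs false

open Matrix Topology
open scoped unitInterval
open Crest.Agent.R204.K357 Crest.Agent.R204.Clutch369

namespace Crest.Agent.R204.BottK369

noncomputable section

universe u

section defs

variable (A : Type u) [NormedRing A] [NormedAlgebra ℂ A]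

/-- loops of units joined through loops of units -/
def FConn {A : Type u} [NormedRing A] [NormedAlgebra ℂ A] {n : Type} [Fintype n] [DecidableEq n]
    (F G : I → Matrix n n A) : Prop :=
  ∃ a b : I × I → Matrix n n A, Continuous a ∧ Continuous b ∧ (∀ x, a x * b x = 1) ∧
    (∀ x, b x * a x = 1) ∧ (∀ r, a (r, 0) = a (r, 1)) ∧ (∀ s, a (0, s) = F s) ∧ ∀ s, a (1, s) = G s

/-- loop theorem, surjectivity -/
def BottS : Prop := ∀ (n : Type) [Fintype n] [DecidableEq n] (u v : I → Matrix n n A),
  Continuous u → Continuous v → (∀ s, u s * v s = 1) → (∀ s, v s * u s = 1) → u 0 = u 1 →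
    ∃ (N : ℕ) (k : Type) (_ : Fintype k) (_ : DecidableEq k) (p c c' : Matrix (n ⊕ k) (n ⊕ k) A),
      p * p = p ∧ c * c' = 1 ∧ c' * c = 1 ∧
        FConn (fun s => fromBlocks ((zz s) ^ N • u s) 0 0 1) (fun s => Lz (zz s) p * c)

/-- loop theorem, injectivity -/
def BottI : Prop := ∀ (n : Type) [Fintype n] [DecidableEq n] (p q : Matrix n n A),
  p * p = p → q * q = q → FConn (fun s => Lz (zz s) p) (fun s => Lz (zz s) q) →
    K0.cls p = K0.cls q

end defs

variable {A : Type u} [NormedRing A] [NormedAlgebra ℂ A] [CompleteSpace A]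
variable {ε : A →ₐ[ℂ] ℂ}
variable {n m k l : Type} [Fintype n] [DecidableEq n] [Fintype m] [DecidableEq m]
  [Fintype k] [DecidableEq k] [Fintype l] [DecidableEq l]

theorem sc_mul (x y : Matrix n n A) : sc ε (x * y) = sc ε x * sc ε y := by
  unfold sc
  rw [eps_mul, io_mul]

theorem sc_one : sc ε (1 : Matrix n n A) = 1 := by
  simp [sc, io]

theorem sc_Lz (z : ℂ) (p : Matrix n n A) : sc ε (Lz z p) = Lz z (sc ε p) := by
  unfold sc
  rw [Lz_map, Lz_io]

theorem exists_be (hS : BottS A) (g : RU (Sig.aug ε) n) :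
    ∃ (k : Type) (_ : Fintype k) (_ : DecidableEq k) (p : Matrix (n ⊕ k) (n ⊕ k) A) (hp : p * p = p),
      Jn (Sig.aug ε) (g.sum (RU.one : RU (Sig.aug ε) k)) (be p hp) := by
  have gu0 : g.u.map (Sig.ev ε 0) = 1 := by
    rw [mat_zero, g.eu]; simp
  have gu1 : g.u.map (Sig.ev ε 1) = 1 := by
    rw [mat_one, g.eu]; simp
  have guv : ∀ s, g.u.map (Sig.ev ε s) * g.v.map (Sig.ev ε s) = 1 := fun s => by
    rw [← ev_mul, g.uv, Matrix.map_one _ (map_zero _) (map_one _)]
  have gvu : ∀ s, g.v.map (Sig.ev ε s) * g.u.map (Sig.ev ε s) = 1 := fun s => by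
    rw [← ev_mul, g.vu, Matrix.map_one _ (map_zero _) (map_one _)]
  obtain ⟨N, k, ik, dk, p, c, c', hp, hcc', hc'c, a, b, ca, cb, ab, ba, a01, hF, hG⟩ :=
    hS n (fun s => g.u.map (Sig.ev ε s)) (fun s => g.v.map (Sig.ev ε s)) (mat_continuous _)
      (mat_continuous _) guv gvu (by rw [gu0, gu1])
  refine ⟨k, ik, dk, p, hp, ?_⟩
  have hε : Continuous ε := map_continuous ε
  have csc : ∀ {f : I × I → Matrix (n ⊕ k) (n ⊕ k) A}, Continuous f → Continuous fun x => sc ε (f x) := by
    intro f hf
    unfold sc io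
    exact (hf.matrix_map hε).matrix_map (continuous_algebraMap ℂ A)
  have c0 : Continuous fun x : I × I => ((x.1, 0) : I × I) := by fun_prop
  have b01 : ∀ r, b (r, 0) = b (r, 1) := fun r => inv_eq_of (ba (r, 0)) (by rw [a01, ab])
  have sab : ∀ x, sc ε (a x) * sc ε (b x) = 1 := fun x => by rw [← sc_mul, ab, sc_one]
  have sba : ∀ x, sc ε (b x) * sc ε (a x) = 1 := fun x => by rw [← sc_mul, ba, sc_one]
  refine jn_of_fam _ _ (fun x => a x * b (x.1, 0) * (sc ε (a (x.1, 0)) * sc ε (b x)))
    (fun x => sc ε (a x) * sc ε (b (x.1, 0)) * (a (x.1, 0) * b x))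
    ((ca.matrix_mul (cb.comp c0)).matrix_mul ((csc (ca.comp c0)).matrix_mul (csc cb)))
    (((csc ca).matrix_mul (csc (cb.comp c0))).matrix_mul ((ca.comp c0).matrix_mul cb))
    (fun x => ?_) (fun x => ?_) (fun r => ?_) (fun r => ?_) (fun x => ?_) (fun s => ?_) (fun s => ?_)
  · calc a x * b (x.1, 0) * (sc ε (a (x.1, 0)) * sc ε (b x)) *
          (sc ε (a x) * sc ε (b (x.1, 0)) * (a (x.1, 0) * b x))
        = a x * (b (x.1, 0) * (sc ε (a (x.1, 0)) * (sc ε (b x) * sc ε (a x)) * sc ε (b (x.1, 0))) *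
          a (x.1, 0)) * b x := by simp only [Matrix.mul_assoc]
      _ = 1 := by rw [sba, Matrix.mul_one, sab, Matrix.mul_one, ba, Matrix.mul_one, ab]
  · calc sc ε (a x) * sc ε (b (x.1, 0)) * (a (x.1, 0) * b x) *
          (a x * b (x.1, 0) * (sc ε (a (x.1, 0)) * sc ε (b x)))
        = sc ε (a x) * (sc ε (b (x.1, 0)) * (a (x.1, 0) * (b x * a x) * b (x.1, 0)) *
          sc ε (a (x.1, 0))) * sc ε (b x) := by simp only [Matrix.mul_assoc]
      _ = 1 := by rw [ba, Matrix.mul_one, ab, Matrix.mul_one, sba, Matrix.mul_one, sab]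
  · change a (r, 0) * b (r, 0) * (sc ε (a (r, 0)) * sc ε (b (r, 0))) = 1
    rw [ab, sab, Matrix.mul_one]
  · change a (r, 1) * b (r, 0) * (sc ε (a (r, 0)) * sc ε (b (r, 1))) = 1
    rw [← a01, ← b01, ab, sab, Matrix.mul_one]
  · rw [eps_mul, eps_mul, eps_mul, sc_map, sc_map]
    calc (a x).map ε * (b (x.1, 0)).map ε * ((a (x.1, 0)).map ε * (b x).map ε)
        = (a x).map ε * ((b (x.1, 0)).map ε * (a (x.1, 0)).map ε) * (b x).map ε := by
          simp only [Matrix.mul_assoc]
      _ = 1 := by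
          rw [← eps_mul, ba, Matrix.map_one _ (map_zero _) (map_one _), Matrix.mul_one, ← eps_mul, ab,
            Matrix.map_one _ (map_zero _) (map_one _)]
  · -- start
    have ha0 : a (0, 0) = 1 := by
      rw [hF 0]
      show fromBlocks ((zz 0) ^ N • g.u.map (Sig.ev ε 0)) 0 0 1 = 1
      rw [gu0, zz_zero]
      simp
    have hb0 : b (0, 0) = 1 := by
      have := ab (0, 0)
      rwa [ha0, Matrix.one_mul] at this
    have hbs : b (0, s) = fromBlocks ((zi s) ^ N • g.v.map (Sig.ev ε s)) 0 0 1 := by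
      refine inv_eq_of (ba (0, s)) ?_
      rw [hF s]
      show fromBlocks ((zz s) ^ N • g.u.map (Sig.ev ε s)) 0 0 1 *
        fromBlocks ((zi s) ^ N • g.v.map (Sig.ev ε s)) 0 0 1 = 1
      have h0 : (zi s) ^ N • ((zz s) ^ N • (1 : Matrix n n A)) = 1 := by
        rw [smul_smul, ← mul_pow, zi_mul_zz, one_pow, one_smul]
      simp only [fromBlocks_multiply, Matrix.zero_mul, Matrix.mul_zero, add_zero, zero_add,
        Matrix.one_mul, Matrix.smul_mul, Matrix.mul_smul, guv, smul_zero, h0]
      exact fromBlocks_one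
    change a (0, s) * b (0, 0) * (sc ε (a (0, 0)) * sc ε (b (0, s))) =
      (fromBlocks g.u 0 0 (1 : Matrix k k (SigA ε))).map (Sig.ev ε s)
    have hv : (g.v.map (Sig.ev ε s)).map ε = 1 := by rw [mat_aug]; exact g.ev
    have hsc : sc ε (b (0, s)) = fromBlocks ((zi s) ^ N • 1) 0 0 1 := by
      rw [hbs, sc_fb, sc_one]
      congr 1
      unfold sc
      have : ((zi s) ^ N • g.v.map (Sig.ev ε s)).map ε = (zi s) ^ N • (1 : Matrix n n ℂ) := by
        rw [← hv]
        ext i j
        simp
      rw [this]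
      ext i j
      by_cases h : i = j <;> simp [io, h, Matrix.one_apply, Algebra.algebraMap_eq_smul_one, smul_pow]
    rw [hF s, hb0, ha0, sc_one, Matrix.mul_one, Matrix.one_mul, hsc, ev_fb,
      Matrix.map_one _ (map_zero _) (map_one _)]
    show fromBlocks ((zz s) ^ N • g.u.map (Sig.ev ε s)) 0 0 1 *
        fromBlocks ((zi s) ^ N • 1) 0 0 1 = _
    have h0 : (zi s) ^ N • ((zz s) ^ N • g.u.map (Sig.ev ε s)) = g.u.map (Sig.ev ε s) := by
      rw [smul_smul, ← mul_pow, zi_mul_zz, one_pow, one_smul]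
    simp only [fromBlocks_multiply, Matrix.zero_mul, Matrix.mul_zero, add_zero, zero_add,
      Matrix.one_mul, Matrix.smul_mul, Matrix.mul_smul, Matrix.mul_one, smul_zero, h0]
  · -- end
    have ha0 : a (1, 0) = c := by
      rw [hG 0]
      show Lz (zz 0) p * c = c
      rw [zz_zero, Lz_one, Matrix.one_mul]
    have hb0 : b (1, 0) = c' := by
      refine inv_eq_of (ba (1, 0)) ?_
      rw [ha0, hcc']
    have hbs : b (1, s) = c' * Lz (zi s) p := by
      refine inv_eq_of (ba (1, s)) ?_
      rw [hG s]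
      calc Lz (zz s) p * c * (c' * Lz (zi s) p) = Lz (zz s) p * (c * c') * Lz (zi s) p := by
            simp only [Matrix.mul_assoc]
        _ = 1 := by rw [hcc', Matrix.mul_one, Lz_mul (zz_mul_zi s) hp]
    change a (1, s) * b (1, 0) * (sc ε (a (1, 0)) * sc ε (b (1, s))) = _
    rw [be_ev, hG s, hb0, ha0, hbs, sc_mul, sc_Lz]
    calc Lz (zz s) p * c * c' * (sc ε c * (sc ε c' * Lz (zi s) (sc ε p)))
        = Lz (zz s) p * (c * c') * (sc ε c * sc ε c') * Lz (zi s) (sc ε p) := by
          simp only [Matrix.mul_assoc]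
      _ = _ := by rw [← sc_mul, hcc', sc_one, Matrix.mul_one, Matrix.mul_one]

theorem cls_sc {p : Matrix n n A} (hp : p * p = p) :
    K0.map (algebraMap ℂ A) (K0.map (ε : A →+* ℂ) (K0.cls p)) = K0.cls (sc ε p) := by
  rw [K0.map_cls _ hp, K0.map_cls _ (idem_map _ hp)]
  rfl

/-- **Bott periodicity, surjectivity** -/
theorem Bott_surj (hS : BottS A) (y : K0 (SigA (Sig.aug ε)))
    (hy : K0.map ((Sig.aug (Sig.aug ε) : SigA (Sig.aug ε) →ₐ[ℂ] ℂ) : SigA (Sig.aug ε) →+* ℂ) y = 0) :
    ∃ x : K0 A, K0.map (ε : A →+* ℂ) x = 0 ∧ Bott ε x = y := by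
  obtain ⟨r, g, rfl⟩ := exists_d y hy
  obtain ⟨k, ik, dk, p, hp, hj⟩ := exists_be hS g
  have h1 := hj.d_eq
  rw [d_sum, d_one, add_zero] at h1
  refine ⟨K0.cls p - K0.map (algebraMap ℂ A) (K0.map (ε : A →+* ℂ) (K0.cls p)), ?_, ?_⟩
  · rw [map_sub, ← K0.map_comp]
    have : (ε : A →+* ℂ).comp (algebraMap ℂ A) = RingHom.id ℂ := by
      ext x
      simp
    rw [this, K0.map_id, sub_self]
  · rw [map_sub, Bott_scalar, sub_zero, Bott_cls hp, h1]

/-- **Bott periodicity, injectivity** -/
theorem cls_eq_sc (hI : BottI A) {p : Matrix n n A} (hp : p * p = p)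
    (h : d (be (ε := ε) p hp) = 0) : K0.cls p = K0.cls (sc ε p) := by
  obtain ⟨M, α, β, cα, cβ, αβ, βα, α0, α1, eα⟩ := jn_of_d (be (ε := ε) p hp) h
  have z0 : (0 : Matrix (Fin M) (Fin M) A) * 0 = 0 := by simp
  have hq := sc_idem (ε := ε) hp
  have key : FConn (fun s => Lz (zz s) (fromBlocks (sc ε p) 0 0 (0 : Matrix (Fin M) (Fin M) A)))
      (fun s => Lz (zz s) (fromBlocks p 0 0 (0 : Matrix (Fin M) (Fin M) A))) := by
    have cev : ∀ {γ : I → Matrix (n ⊕ Fin M) (n ⊕ Fin M) (SigA ε)}, Continuous γ →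
        Continuous fun x : I × I => (γ x.1).map (Sig.ev ε x.2) := by
      intro γ hγ
      refine continuous_matrix fun i j => ?_
      have h1 : Continuous fun x : I × I => (γ x.1 i j).fn := by
        have : Continuous fun r : I => (γ r i j).fn :=
          continuous_subtype_val.comp (hγ.matrix_elem i j)
        exact this.comp continuous_fst
      exact h1.eval continuous_snd
    refine ⟨fun x => (α x.1).map (Sig.ev ε x.2) *
        Lz (zz x.2) (fromBlocks (sc ε p) 0 0 (0 : Matrix (Fin M) (Fin M) A)),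
      fun x => Lz (zi x.2) (fromBlocks (sc ε p) 0 0 (0 : Matrix (Fin M) (Fin M) A)) *
        (β x.1).map (Sig.ev ε x.2),
      (cev cα).matrix_mul (continuous_Lz (continuous_zz.comp continuous_snd) continuous_const),
      (continuous_Lz (continuous_zi.comp continuous_snd) continuous_const).matrix_mul (cev cβ),
      fun x => ?_, fun x => ?_, fun r => ?_, fun s => ?_, fun s => ?_⟩
    · calc (α x.1).map (Sig.ev ε x.2) * Lz (zz x.2) (fromBlocks (sc ε p) 0 0 0) *
            (Lz (zi x.2) (fromBlocks (sc ε p) 0 0 0) * (β x.1).map (Sig.ev ε x.2))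
          = (α x.1).map (Sig.ev ε x.2) * (Lz (zz x.2) (fromBlocks (sc ε p) 0 0 0) *
            Lz (zi x.2) (fromBlocks (sc ε p) 0 0 0)) * (β x.1).map (Sig.ev ε x.2) := by
            simp only [Matrix.mul_assoc]
        _ = 1 := by
            rw [Lz_mul (zz_mul_zi _) (idem_sum hq z0), Matrix.mul_one, ← ev_mul, αβ,
              Matrix.map_one _ (map_zero _) (map_one _)]
    · calc Lz (zi x.2) (fromBlocks (sc ε p) 0 0 0) * (β x.1).map (Sig.ev ε x.2) *
            ((α x.1).map (Sig.ev ε x.2) * Lz (zz x.2) (fromBlocks (sc ε p) 0 0 0))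
          = Lz (zi x.2) (fromBlocks (sc ε p) 0 0 0) * ((β x.1).map (Sig.ev ε x.2) *
            (α x.1).map (Sig.ev ε x.2)) * Lz (zz x.2) (fromBlocks (sc ε p) 0 0 0) := by
            simp only [Matrix.mul_assoc]
        _ = 1 := by
            rw [← ev_mul, βα, Matrix.map_one _ (map_zero _) (map_one _), Matrix.mul_one,
              Lz_mul (zi_mul_zz _) (idem_sum hq z0)]
    · simp only [zz_zero, zz_one, Lz_one, Matrix.mul_one]
      rw [mat_zero, mat_one]
    · simp only
      rw [α0]
      change (1 : Matrix (n ⊕ Fin M) (n ⊕ Fin M) (SigA ε)).map (Sig.ev ε s) * _ = _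
      rw [Matrix.map_one _ (map_zero _) (map_one _), Matrix.one_mul]
    · simp only
      rw [α1]
      change (fromBlocks (be p hp).u 0 0 (1 : Matrix (Fin M) (Fin M) (SigA ε))).map (Sig.ev ε s) * _ = _
      rw [ev_fb, be_ev, Matrix.map_one _ (map_zero _) (map_one _), Lz_fb, Lz_fb]
      have hL0 : ∀ z : ℂ, Lz z (0 : Matrix (Fin M) (Fin M) A) = 1 := fun z => by simp [Lz]
      rw [hL0, fromBlocks_multiply]
      simp only [Matrix.zero_mul, Matrix.mul_zero, add_zero, zero_add, Matrix.one_mul,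
        Matrix.mul_assoc]
      rw [Lz_mul (zi_mul_zz s) hq, Matrix.mul_one]
  have h2 := hI _ _ _ (idem_sum hq z0) (idem_sum hp z0) key
  rw [K0.cls_sum hq z0, K0.cls_sum hp z0, K0.cls_zero, add_zero, add_zero] at h2
  exact h2.symm

theorem Bott_inj (hI : BottI A) (x : K0 A) (hx : K0.map (ε : A →+* ℂ) x = 0) (h : Bott ε x = 0) :
    x = 0 := by
  obtain ⟨r, m, p, hp, rfl⟩ := K0.exists_rep_one x
  have h1 : Bott ε (K0.cls (1 : Matrix (Fin m) (Fin m) A)) = 0 := by
    have := Bott_scalar (A := A) (ε := ε) (K0.cls (1 : Matrix (Fin m) (Fin m) ℂ))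
    rwa [map_one_cls] at this
  rw [map_sub, h1, sub_zero, Bott_cls hp] at h
  rw [cls_eq_sc hI hp h, ← cls_sc hp]
  rw [map_sub, sub_eq_zero] at hx
  rw [hx, map_one_cls, map_one_cls, sub_self]

end

end Crest.Agent.R204.BottK369
end

-- ▼ part R204/Bridge_369
section

/-!
# Row 204, block H: the bridge between paths of loops `FConn` and `JoinedIn`, helper369
-/

set_option autoImplicit false
set_option linter.unusedSectionVars false
set_option linter.unusedSimpArgs false

open Matrix Topology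
open scoped unitInterval
open Crest.Agent.R204.K357 Crest.Agent.R204.Clutch369 Crest.Agent.R204.BottLoop313

namespace Crest.Agent.R204.BottK369

noncomputable section

universe u

variable {A : Type u} [NormedCommRing A] [NormedAlgebra ℂ A] [CompleteSpace A]
variable {n m k l : Type} [Fintype n] [DecidableEq n] [Fintype m] [DecidableEq m]
  [Fintype k] [DecidableEq k] [Fintype l] [DecidableEq l]

/-- the inverse of a continuous family of invertible matrices is continuous -/
theorem continuous_inv_matrix {X : Type*} [TopologicalSpace X] {a : X → Matrix n n A}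
    (ha : Continuous a) (h : ∀ x, IsUnit (a x)) : Continuous fun x => (a x)⁻¹ := by
  have hd : Continuous fun x => (a x).det := ha.matrix_det
  have hadj : Continuous fun x => (a x).adjugate := ha.matrix_adjugate
  have hi : Continuous fun x => Ring.inverse (a x).det := by
    rw [continuous_iff_continuousAt]
    intro x
    obtain ⟨u, hu⟩ := (Matrix.isUnit_iff_isUnit_det _).1 (h x)
    have h1 : ContinuousAt Ring.inverse (a x).det := by
      rw [← hu]
      exact NormedRing.inverse_continuousAt u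
    exact ContinuousAt.comp (f := fun y => (a y).det) h1 hd.continuousAt
  have : (fun x => (a x)⁻¹) = fun x => Ring.inverse (a x).det • (a x).adjugate := by
    funext x
    exact Matrix.inv_def _
  rw [this]
  exact hi.smul hadj

theorem ev_joint {Γ : I → Matrix n n (LoopAlg A)} (hΓ : Continuous Γ) :
    Continuous fun x : I × I => (Γ x.1).map (evL (A := A) x.2) := by
  refine continuous_matrix fun i j => ?_
  have h1 : Continuous fun x : I × I => ((Γ x.1 i j : LoopAlg A) : C(I, A)) := by
    have : Continuous fun r : I => ((Γ r i j : LoopAlg A) : C(I, A)) :=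
      continuous_subtype_val.comp (hΓ.matrix_elem i j)
    exact this.comp continuous_fst
  exact h1.eval continuous_snd

/-- joined through units over `LoopAlg A` gives a two parameter family -/
theorem fconn_of_joined {F G : Matrix n n (LoopAlg A)} (h : JoinedIn {M | IsUnit M} F G) :
    FConn (fun s => F.map (evL s)) (fun s => G.map (evL s)) := by
  obtain ⟨γ, hγ⟩ := h
  have ca : Continuous fun x : I × I => (γ x.1).map (evL x.2) := ev_joint γ.continuous
  have hu : ∀ x : I × I, IsUnit ((γ x.1).map (evL x.2)) := fun x =>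
    (hγ x.1).map ((evL x.2 : LoopAlg A →ₐ[ℂ] A) : LoopAlg A →+* A).mapMatrix
  refine ⟨fun x => (γ x.1).map (evL x.2), fun x => ((γ x.1).map (evL x.2))⁻¹, ca,
    continuous_inv_matrix ca hu, fun x => ?_, fun x => ?_, fun r => ?_, fun s => ?_, fun s => ?_⟩
  · exact Matrix.mul_nonsing_inv _ ((Matrix.isUnit_iff_isUnit_det _).1 (hu x))
  · exact Matrix.nonsing_inv_mul _ ((Matrix.isUnit_iff_isUnit_det _).1 (hu x))
  · ext i j
    exact (γ r i j).2
  · simp
  · simp

/-- a family of loops of matrices as a matrix of loops -/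
def mkL (F : I → Matrix n m A) (hF : Continuous F) (h : F 0 = F 1) : Matrix n m (LoopAlg A) :=
  Matrix.of fun i j =>
    (⟨(⟨fun s => F s i j, hF.matrix_elem i j⟩ : C(I, A)), congrFun (congrFun h i) j⟩ : LoopAlg A)

theorem mkL_ev (F : I → Matrix n m A) (hF : Continuous F) (h : F 0 = F 1) (s : I) :
    (mkL F hF h).map (evL s) = F s := rfl

theorem loop_ext {x y : Matrix n m (LoopAlg A)} (h : ∀ s, x.map (evL s) = y.map (evL s)) : x = y := by
  ext i j : 1
  refine Subtype.ext ?_
  refine ContinuousMap.ext (f := (x i j : C(I, A))) (g := (y i j : C(I, A))) fun s => ?_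
  exact congrFun (congrFun (h s) i) j

/-- a two parameter family gives a path of units over `LoopAlg A` -/
theorem joined_of_fconn {F G : Matrix n n (LoopAlg A)}
    (h : FConn (fun s => F.map (evL s)) (fun s => G.map (evL s))) : JoinedIn {M | IsUnit M} F G := by
  obtain ⟨a, b, ca, cb, ab, ba, a01, hF, hG⟩ := h
  have b01 : ∀ r, b (r, 0) = b (r, 1) := fun r => inv_eq_of (ba (r, 0)) (by rw [a01, ab])
  have hca : ∀ r, Continuous fun s => a (r, s) := fun r => ca.comp (Continuous.prodMk_right r)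
  have hcb : ∀ r, Continuous fun s => b (r, s) := fun r => cb.comp (Continuous.prodMk_right r)
  have hΓ : Continuous fun r => mkL (fun s => a (r, s)) (hca r) (a01 r) := by
    refine continuous_matrix fun i j => ?_
    have hc : Continuous fun r : I => (ContinuousMap.curry ⟨fun x : I × I => a x i j, ca.matrix_elem i j⟩) r :=
      ContinuousMap.continuous _
    exact Continuous.subtype_mk hc _
  have e0 : mkL (fun s => a (0, s)) (hca 0) (a01 0) = F := loop_ext fun s => by
    rw [mkL_ev]; exact hF s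
  have e1 : mkL (fun s => a (1, s)) (hca 1) (a01 1) = G := loop_ext fun s => by
    rw [mkL_ev]; exact hG s
  refine ⟨⟨⟨fun r => mkL (fun s => a (r, s)) (hca r) (a01 r), hΓ⟩, e0, e1⟩, fun r => ?_⟩
  refine ⟨⟨mkL (fun s => a (r, s)) (hca r) (a01 r), mkL (fun s => b (r, s)) (hcb r) (b01 r), ?_, ?_⟩, rfl⟩
  · refine loop_ext fun s => ?_
    have : (mkL (fun s => a (r, s)) (hca r) (a01 r) * mkL (fun s => b (r, s)) (hcb r) (b01 r)).map (evL s)
        = (mkL (fun s => a (r, s)) (hca r) (a01 r)).map (evL s) *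
          (mkL (fun s => b (r, s)) (hcb r) (b01 r)).map (evL s) :=
      Matrix.map_mul (f := ((evL s : LoopAlg A →ₐ[ℂ] A) : LoopAlg A →+* A))
    rw [this, mkL_ev, mkL_ev, ab, Matrix.map_one _ (map_zero _) (map_one _)]
  · refine loop_ext fun s => ?_
    have : (mkL (fun s => b (r, s)) (hcb r) (b01 r) * mkL (fun s => a (r, s)) (hca r) (a01 r)).map (evL s)
        = (mkL (fun s => b (r, s)) (hcb r) (b01 r)).map (evL s) *
          (mkL (fun s => a (r, s)) (hca r) (a01 r)).map (evL s) :=
      Matrix.map_mul (f := ((evL s : LoopAlg A →ₐ[ℂ] A) : LoopAlg A →+* A))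
    rw [this, mkL_ev, mkL_ev, ba, Matrix.map_one _ (map_zero _) (map_one _)]

open Crest.Agent.R204.Bott671 (evM evM_apply Conn pl cM zc zc_apply evM_mul)

theorem evM_eq_ev (F : Matrix n m C(Circle, A)) (s : I) :
    (F.map (thetaR A)).map (evL s) = evM (circPt s) F := rfl

theorem fconn_of_conn {F G : Matrix n n C(Circle, A)} (h : Conn F G) :
    FConn (fun s => evM (circPt s) F) (fun s => evM (circPt s) G) := by
  have := fconn_of_joined (joinedIn_theta_iff.2 h)
  simpa only [evM_eq_ev] using this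

theorem conn_of_fconn {F G : Matrix n n C(Circle, A)}
    (h : FConn (fun s => evM (circPt s) F) (fun s => evM (circPt s) G)) : Conn F G :=
  joinedIn_theta_iff.1 (joined_of_fconn (by simpa only [evM_eq_ev] using h))

/-- loop theorem (S), in `C(Circle, A)` form -/
def LoopS (A : Type u) [NormedCommRing A] [NormedAlgebra ℂ A] : Prop :=
  ∀ (n : Type) [Fintype n] [DecidableEq n] (u : Matrix n n C(Circle, A)), IsUnit u →
    ∃ (N : ℕ) (k : Type) (_ : Fintype k) (_ : DecidableEq k) (p c : Matrix (n ⊕ k) (n ⊕ k) A),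
      p * p = p ∧ IsUnit c ∧ Conn (fromBlocks ((zc : C(Circle, A)) ^ N • u) 0 0 1)
        (pl (1 - p) p * cM c)

/-- loop theorem (I), in `C(Circle, A)` form -/
def LoopI (A : Type u) [NormedCommRing A] [NormedAlgebra ℂ A] : Prop :=
  ∀ (n : Type) [Fintype n] [DecidableEq n] (p q : Matrix n n A),
    p * p = p → q * q = q → Conn (pl (1 - p) p) (pl (1 - q) q) → K0.cls p = K0.cls q

theorem evM_pl (p : Matrix n n A) (s : I) : evM (circPt s) (pl (1 - p) p) = Lz (zz s) p := by
  ext i j
  by_cases h : i = j <;>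
    simp [Lz, pl, cM, zz, h, Matrix.one_apply, ← Algebra.smul_def, add_comm]

theorem evM_cM (c : Matrix n m A) (s : I) : evM (circPt s) (cM c) = c := rfl

theorem bottS_of_loopS (h : LoopS A) : BottS A := by
  intro n _ _ u v cu cv uv vu u01
  have v01 : v 0 = v 1 := inv_eq_of (vu 0) (by rw [u01, uv])
  have hu : IsUnit (mkL u cu u01) := by
    refine ⟨⟨mkL u cu u01, mkL v cv v01, ?_, ?_⟩, rfl⟩
    · refine loop_ext fun s => ?_
      have : (mkL u cu u01 * mkL v cv v01).map (evL s)
          = (mkL u cu u01).map (evL s) * (mkL v cv v01).map (evL s) :=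
        Matrix.map_mul (f := ((evL s : LoopAlg A →ₐ[ℂ] A) : LoopAlg A →+* A))
      rw [this, mkL_ev, mkL_ev, uv, Matrix.map_one _ (map_zero _) (map_one _)]
    · refine loop_ext fun s => ?_
      have : (mkL v cv v01 * mkL u cu u01).map (evL s)
          = (mkL v cv v01).map (evL s) * (mkL u cu u01).map (evL s) :=
        Matrix.map_mul (f := ((evL s : LoopAlg A →ₐ[ℂ] A) : LoopAlg A →+* A))
      rw [this, mkL_ev, mkL_ev, vu, Matrix.map_one _ (map_zero _) (map_one _)]
  have hu' : IsUnit ((mkL u cu u01).map (thetaS A)) := isUnit_map_thetaS.2 hu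
  have hev : ∀ s, evM (circPt s) ((mkL u cu u01).map (thetaS A)) = u s := by
    intro s
    rw [← evM_eq_ev, map_thetaR_thetaS, mkL_ev]
  obtain ⟨N, k, ik, dk, p, c, hp, hc, hj⟩ := h n _ hu'
  have hcd := (Matrix.isUnit_iff_isUnit_det _).1 hc
  refine ⟨N, k, ik, dk, p, c, c⁻¹, hp, Matrix.mul_nonsing_inv _ hcd, Matrix.nonsing_inv_mul _ hcd, ?_⟩
  have := fconn_of_conn hj
  have e1 : ∀ s, evM (circPt s) (fromBlocks ((zc : C(Circle, A)) ^ N • (mkL u cu u01).map (thetaS A))
      0 0 (1 : Matrix k k C(Circle, A))) = fromBlocks ((zz s) ^ N • u s) 0 0 1 := by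
    intro s
    have h2 := hev s
    ext i j
    rcases i with i | i <;> rcases j with j | j
    · have h3 : evM (circPt s) ((mkL u cu u01).map (thetaS A)) i j = u s i j := by rw [h2]
      simp only [evM_apply, fromBlocks_apply₁₁, Matrix.smul_apply, smul_eq_mul,
        ContinuousMap.mul_apply, ContinuousMap.pow_apply, zc_apply, ← map_pow, ← Algebra.smul_def] at h3 ⊢
      rw [h3]
      rfl
    · simp
    · simp
    · by_cases h : i = j <;> simp [h, Matrix.one_apply]
  have e2 : ∀ s, evM (circPt s) (pl (1 - p) p * cM c) = Lz (zz s) p * c := by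
    intro s
    rw [evM_mul, evM_pl, evM_cM]
  simpa only [e1, e2] using this

theorem bottI_of_loopI (h : LoopI A) : BottI A := by
  intro n _ _ p q hp hq hf
  refine h n p q hp hq (conn_of_fconn ?_)
  simpa only [evM_pl] using hf

end

end Crest.Agent.R204.BottK369
end

-- ▼ part R204/BottApprox_313
section

/-!
# Row 204, block H (helper313): density of Laurent polynomials in `C(Circle, R)`, Bott step B1
-/

set_option autoImplicit false
set_option linter.unusedSectionVars false

open Filter Topology Polynomial Set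
open scoped unitInterval

namespace Crest.Agent.R204.BottApprox313

open Crest.Agent.R204.Bott671

section density

variable (R : Type*) [NormedCommRing R] [NormedAlgebra ℂ R] [CompleteSpace R]

/-- The algebra of loops `z^{-N} p(z)`. -/
noncomputable def Lau : Subalgebra ℂ C(Circle, R) where
  carrier := {G | ∃ (N : ℕ) (p : R[X]), zc ^ N * G = loop p}
  mul_mem' := by
    rintro F G ⟨N, p, hp⟩ ⟨M, q, hq⟩
    exact ⟨N + M, p * q, by rw [map_mul, ← hp, ← hq, pow_add]; ring⟩
  add_mem' := by
    rintro F G ⟨N, p, hp⟩ ⟨M, q, hq⟩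
    refine ⟨N + M, X ^ M * p + X ^ N * q, ?_⟩
    rw [map_add, map_mul, map_mul, map_pow, map_pow, loop_X, ← hp, ← hq, pow_add]
    ring
  algebraMap_mem' := by
    intro r
    refine ⟨0, C (algebraMap ℂ R r), ?_⟩
    rw [loop_C, pow_zero, one_mul]
    rfl

variable {R}

theorem mem_Lau {G : C(Circle, R)} : G ∈ Lau R ↔ ∃ (N : ℕ) (p : R[X]), zc ^ N * G = loop p :=
  Iff.rfl

theorem zc_mem : (zc : C(Circle, R)) ∈ Lau R := ⟨0, X, by simp⟩

theorem zi_mem : (zi : C(Circle, R)) ∈ Lau R := ⟨1, 1, by rw [pow_one, zc_mul_zi, map_one]⟩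

theorem C_mem (r : R) : (ContinuousMap.C r : C(Circle, R)) ∈ Lau R := ⟨0, C r, by simp⟩

/-- scalar functions as `R`-valued functions -/
noncomputable def scal : C(Circle, ℂ) →ₐ[ℂ] C(Circle, R) :=
  AlgHom.compLeftContinuous ℂ (Algebra.ofId ℂ R) (algebraMapCLM ℂ R).continuous

@[simp] theorem scal_apply (φ : C(Circle, ℂ)) (z : Circle) :
    (scal φ : C(Circle, R)) z = algebraMap ℂ R (φ z) := rfl

theorem continuous_scal : Continuous (scal : C(Circle, ℂ) → C(Circle, R)) :=
  ContinuousMap.continuous_postcomp _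

theorem scal_mem (φ : C(Circle, ℂ)) : (scal φ : C(Circle, R)) ∈ (Lau R).topologicalClosure := by
  have h0 : (StarAlgebra.adjoin ℂ {(zc : C(Circle, ℂ))}).topologicalClosure = ⊤ := by
    refine ContinuousMap.starSubalgebra_topologicalClosure_eq_top_of_separatesPoints _ ?_
    intro x y hxy
    refine ⟨_, ⟨zc, StarAlgebra.self_mem_adjoin_singleton ℂ _, rfl⟩, ?_⟩
    simpa using fun h => hxy (Circle.ext h)
  have h1 : (StarAlgebra.adjoin ℂ {(zc : C(Circle, ℂ))}).toSubalgebra ≤
      (Lau R).comap (scal : C(Circle, ℂ) →ₐ[ℂ] C(Circle, R)) := by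
    rw [StarAlgebra.adjoin_toSubalgebra, Algebra.adjoin_le_iff]
    rintro f (hf | hf)
    · rw [mem_singleton_iff] at hf
      subst hf
      have : (scal (zc : C(Circle, ℂ)) : C(Circle, R)) = zc := by
        ext z
        simp
      show scal _ ∈ Lau R
      rw [this]
      exact zc_mem
    · have hf' : star f = zc := hf
      have : (scal f : C(Circle, R)) = zi := by
        ext z
        have h2 : f z = star ((star f) z) := by simp
        rw [scal_apply, h2, hf', zc_apply, zi_apply, Circle.coe_inv_eq_conj]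
        rfl
      show scal _ ∈ Lau R
      rw [this]
      exact zi_mem
  have h2 : φ ∈ closure ((StarAlgebra.adjoin ℂ {(zc : C(Circle, ℂ))} :
      StarSubalgebra ℂ C(Circle, ℂ)) : Set C(Circle, ℂ)) := by
    have : φ ∈ (⊤ : StarSubalgebra ℂ C(Circle, ℂ)) := trivial
    rw [← h0] at this
    exact this
  have h3 := map_mem_closure (continuous_scal (R := R)) h2 (t := (Lau R : Set C(Circle, R)))
    (fun f hf => h1 hf)
  exact h3

/-- **Density of Laurent polynomials.** -/
theorem dense_Lau : Dense (Lau R : Set C(Circle, R)) := by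
  intro F
  have hcl : IsClosed ((Lau R).topologicalClosure : Set C(Circle, R)) :=
    (Lau R).isClosed_topologicalClosure
  have hF : F ∈ closure ((Lau R).topologicalClosure : Set C(Circle, R)) := by
    rw [Metric.mem_closure_iff]
    intro ε hε
    -- a finite cover
    let U : Circle → Set Circle := fun z => {w | dist (F w) (F z) < ε / 2}
    have hU : ∀ z, IsOpen (U z) := fun z =>
      isOpen_lt (F.continuous.dist continuous_const) continuous_const
    obtain ⟨t, ht⟩ := isCompact_univ.elim_finite_subcover U hU (fun z _ =>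
      mem_iUnion.2 ⟨z, by simpa [U] using hε⟩)
    let e := t.equivFin
    let s : Fin t.card → Set Circle := fun i => U (e.symm i)
    have hs : (univ : Set Circle) ⊆ ⋃ i, s i := by
      intro z hz
      obtain ⟨x, hx, hzx⟩ := mem_iUnion₂.1 (ht hz)
      exact mem_iUnion.2 ⟨e ⟨x, hx⟩, by simpa [s] using hzx⟩
    obtain ⟨f, hf1, hf2, hf3, -⟩ := exists_continuous_sum_one_of_isOpen_isCompact
      (fun i => hU (e.symm i : Circle)) isCompact_univ hs
    let g : Fin t.card → C(Circle, ℂ) := fun i =>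
      ⟨fun z => (f i z : ℂ), Complex.continuous_ofReal.comp (f i).continuous⟩
    refine ⟨∑ i, scal (g i) * ContinuousMap.C (F (e.symm i : Circle)), ?_, ?_⟩
    · exact Subalgebra.sum_mem _ fun i _ => Subalgebra.mul_mem _ (scal_mem _)
        ((Lau R).le_topologicalClosure (C_mem _))
    · have h2 : ∀ z, ∑ i, f i z = 1 := fun z => by
        have := hf2 (mem_univ z)
        simpa using this
      rw [dist_eq_norm]
      refine lt_of_le_of_lt ?_ (half_lt_self hε)
      rw [ContinuousMap.norm_le _ (half_pos hε).le]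
      intro z
      have h3 : (F - ∑ i, scal (g i) * ContinuousMap.C (F (e.symm i : Circle))) z
          = ∑ i, ((f i z : ℝ) : ℂ) • (F z - F (e.symm i : Circle)) := by
        have h4 : F z = ∑ i, ((f i z : ℝ) : ℂ) • F z := by
          rw [← Finset.sum_smul, ← Complex.ofReal_sum, h2, Complex.ofReal_one, one_smul]
        simp only [smul_sub, Finset.sum_sub_distrib, ← h4]
        simp [g, Algebra.smul_def, ContinuousMap.sum_apply]
      rw [h3]
      calc ‖∑ i, ((f i z : ℝ) : ℂ) • (F z - F (e.symm i : Circle))‖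
          ≤ ∑ i, ‖((f i z : ℝ) : ℂ) • (F z - F (e.symm i : Circle))‖ := norm_sum_le _ _
        _ ≤ ∑ i, f i z * (ε / 2) := by
            refine Finset.sum_le_sum fun i _ => ?_
            rw [norm_smul, Complex.norm_real, Real.norm_of_nonneg (hf3 i z).1]
            by_cases h0 : f i z = 0
            · simp [h0]
            · have hz : z ∈ s i := hf1 i (subset_tsupport _ h0)
              have hz' : dist (F z) (F (e.symm i : Circle)) < ε / 2 := hz
              rw [dist_eq_norm] at hz'
              exact mul_le_mul_of_nonneg_left hz'.le (hf3 i z).1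
        _ = ε / 2 := by rw [← Finset.sum_mul, h2, one_mul]
  rw [hcl.closure_eq] at hF
  exact hF

end density

section units

variable {R : Type*} [NormedCommRing R] [NormedAlgebra ℂ R] [CompleteSpace R]
  {ι : Type*} [Fintype ι] [DecidableEq ι]

/-- Invertible matrices over a commutative topological ring with open units form an open set. -/
theorem isOpen_isUnit_matrix {S : Type*} [CommRing S] [TopologicalSpace S] [IsTopologicalRing S]
    (hS : IsOpen {x : S | IsUnit x}) : IsOpen {M : Matrix ι ι S | IsUnit M} := by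
  have h : {M : Matrix ι ι S | IsUnit M} = (fun M : Matrix ι ι S => M.det) ⁻¹' {x | IsUnit x} := by
    ext M
    exact Matrix.isUnit_iff_isUnit_det M
  rw [h]
  exact hS.preimage (Continuous.matrix_det continuous_id)

theorem isOpen_isUnit_circle : IsOpen {M : Matrix ι ι C(Circle, R) | IsUnit M} :=
  isOpen_isUnit_matrix Units.isOpen

/-- The matrices with Laurent polynomial entries. -/
theorem dense_mat : Dense {M : Matrix ι ι C(Circle, R) | ∃ (N : ℕ) (p : Matrix ι ι R[X]),
    M = (zi : C(Circle, R)) ^ N • loopM p} := by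
  have h1 : Dense (Set.pi univ fun _ : ι => Set.pi univ fun _ : ι =>
      ((Lau R : Set C(Circle, R)))) :=
    dense_pi _ fun _ _ => dense_pi _ fun _ _ => dense_Lau
  have h2 : (Set.pi univ fun _ : ι => Set.pi univ fun _ : ι => ((Lau R : Set C(Circle, R)))) ⊆
      {M : Matrix ι ι C(Circle, R) | ∃ (N : ℕ) (p : Matrix ι ι R[X]),
        M = (zi : C(Circle, R)) ^ N • loopM p} := by
    intro M hM
    have hM' : ∀ i j, ∃ (N : ℕ) (p : R[X]), zc ^ N * M i j = loop p := fun i j =>
      mem_Lau.1 (hM i trivial j trivial)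
    choose N p hp using hM'
    let K := Finset.univ.sup fun i => Finset.univ.sup fun j => N i j
    have hK : ∀ i j, N i j ≤ K := fun i j =>
      (Finset.le_sup (f := fun j => N i j) (Finset.mem_univ j)).trans
        (Finset.le_sup (f := fun i => Finset.univ.sup fun j => N i j) (Finset.mem_univ i))
    refine ⟨K, Matrix.of fun i j => X ^ (K - N i j) * p i j, ?_⟩
    refine Matrix.ext fun i j => ?_
    have h3 : loop (X ^ (K - N i j) * p i j) = zc ^ K * M i j := by
      rw [map_mul, ← hp, map_pow, loop_X, ← mul_assoc, ← pow_add, Nat.sub_add_cancel (hK i j)]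
    show M i j = zi ^ K * loop (X ^ (K - N i j) * p i j)
    rw [h3, ← mul_assoc, ← mul_pow, zi_mul_zc, one_pow, one_mul]
  exact h1.mono h2

/-- **(B1)**: a unit loop is joined by a straight line of unit loops to a Laurent polynomial. -/
theorem exists_laurent {F : Matrix ι ι C(Circle, R)} (hF : IsUnit F) :
    ∃ (N : ℕ) (p : Matrix ι ι R[X]), ∀ t : I,
      IsUnit (((1 - (t : ℝ) : ℝ) : ℂ) • F + ((t : ℝ) : ℂ) • ((zi : C(Circle, R)) ^ N • loopM p)) := by
  have hU := isOpen_isUnit_circle (R := R) (ι := ι)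
  have hc : Continuous (fun x : Matrix ι ι C(Circle, R) × I =>
      ((1 - (x.2 : ℝ) : ℝ) : ℂ) • F + ((x.2 : ℝ) : ℂ) • x.1) := by
    have e1 : Continuous fun x : Matrix ι ι C(Circle, R) × I => ((1 - (x.2 : ℝ) : ℝ) : ℂ) :=
      Complex.continuous_ofReal.comp
        (continuous_const.sub (continuous_subtype_val.comp continuous_snd))
    have e2 : Continuous fun x : Matrix ι ι C(Circle, R) × I => (((x.2 : ℝ)) : ℂ) :=
      Complex.continuous_ofReal.comp (continuous_subtype_val.comp continuous_snd)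
    exact (e1.smul continuous_const).add (e2.smul continuous_fst)
  have h1 : ∀ᶠ G : Matrix ι ι C(Circle, R) in 𝓝 F, ∀ t ∈ (univ : Set I),
      IsUnit (((1 - (t : ℝ) : ℝ) : ℂ) • F + ((t : ℝ) : ℂ) • G) := by
    refine isCompact_univ.eventually_forall_of_forall_eventually fun t _ => ?_
    refine (hU.preimage hc).mem_nhds ?_
    show IsUnit (((1 - (t : ℝ) : ℝ) : ℂ) • F + ((t : ℝ) : ℂ) • F)
    rw [← add_smul, ← Complex.ofReal_add, sub_add_cancel, Complex.ofReal_one, one_smul]
    exact hF
  obtain ⟨G, ⟨N, p, rfl⟩, hG⟩ := (dense_mat (R := R) (ι := ι)).inter_nhds_nonempty h1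
  exact ⟨N, p, fun t => hG t trivial⟩


theorem isUnit_zc_pow (N : ℕ) : IsUnit ((zc : C(Circle, R)) ^ N) :=
  IsUnit.pow N (IsUnit.of_mul_eq_one _ zc_mul_zi)

theorem isUnit_smul {S : Type*} [CommRing S] {M : Matrix ι ι S} {c : S} (hc : IsUnit c)
    (hM : IsUnit M) : IsUnit (c • M) := by
  obtain ⟨c, rfl⟩ := hc
  exact (hM.smul c)

/-- **(B1)**, the form used for surjectivity: `z^N F` is joined to a polynomial loop. -/
theorem exists_conn {F : Matrix ι ι C(Circle, R)} (hF : IsUnit F) :
    ∃ (N : ℕ) (p : Matrix ι ι R[X]), IsUnit (loopM p) ∧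
      Conn ((zc : C(Circle, R)) ^ N • F) (loopM p) := by
  obtain ⟨N, p, h⟩ := exists_laurent hF
  have e : (zc : C(Circle, R)) ^ N • ((zi : C(Circle, R)) ^ N • loopM p) = loopM p := by
    rw [smul_smul, ← mul_pow, zc_mul_zi, one_pow, one_smul]
  have hC : Conn ((zc : C(Circle, R)) ^ N • F) (loopM p) := by
    refine ⟨⟨⟨fun t : I => (zc : C(Circle, R)) ^ N • (((1 - (t : ℝ) : ℝ) : ℂ) • F + ((t : ℝ) : ℂ) •
      ((zi : C(Circle, R)) ^ N • loopM p)), ?_⟩, ?_, ?_⟩, fun t => ?_⟩
    · have e1 : Continuous fun x : I => ((1 - (x : ℝ) : ℝ) : ℂ) :=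
        Complex.continuous_ofReal.comp (continuous_const.sub continuous_subtype_val)
      have e2 : Continuous fun x : I => (((x : ℝ)) : ℂ) :=
        Complex.continuous_ofReal.comp continuous_subtype_val
      have e3 : Continuous fun t : I => ((1 - (t : ℝ) : ℝ) : ℂ) • F + ((t : ℝ) : ℂ) •
          ((zi : C(Circle, R)) ^ N • loopM p) :=
        (e1.smul (continuous_const (y := F))).add
          (e2.smul (continuous_const (y := (zi : C(Circle, R)) ^ N • loopM p)))
      exact e3.const_smul ((zc : C(Circle, R)) ^ N)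
    · simp
    · simp [e]
    · exact isUnit_smul (isUnit_zc_pow N) (h t)
  exact ⟨N, p, hC.right, hC⟩

end units

end Crest.Agent.R204.BottApprox313
end

-- ▼ part R204/BottSurj_313
section

/-!
# Row 204, block H (helper313): Bott periodicity, surjectivity half of the loop theorem
-/

set_option autoImplicit false
set_option linter.unusedSectionVars false

open Filter Topology Polynomial Set
open scoped unitInterval

namespace Crest.Agent.R204.BottSurj313

open Crest.Agent.R204.Bott671 Crest.Agent.R204.BottApprox313 Crest.Agent.R204.BottLoop313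

universe u

section elem

variable {S : Type*} [CommRing S] [TopologicalSpace S] [IsTopologicalRing S] [Algebra ℂ S]
  [ContinuousSMul ℂ S] {ι κ : Type*} [Fintype ι] [DecidableEq ι] [Fintype κ] [DecidableEq κ]

theorem isUnit_upper {T : Type*} [CommRing T] (B : Matrix ι κ T) :
    IsUnit (Matrix.fromBlocks (1 : Matrix ι ι T) B 0 (1 : Matrix κ κ T)) := by
  rw [Matrix.isUnit_iff_isUnit_det, Matrix.det_fromBlocks_zero₂₁]
  simp

theorem isUnit_lower {T : Type*} [CommRing T] (B : Matrix κ ι T) :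
    IsUnit (Matrix.fromBlocks (1 : Matrix ι ι T) 0 B (1 : Matrix κ κ T)) := by
  rw [Matrix.isUnit_iff_isUnit_det, Matrix.det_fromBlocks_zero₁₂]
  simp

theorem conn_upper (B : Matrix ι κ S) :
    Conn (1 : Matrix (ι ⊕ κ) (ι ⊕ κ) S) (Matrix.fromBlocks 1 B 0 1) := by
  have h : Conn ((fun t : ℝ => Matrix.fromBlocks (1 : Matrix ι ι S) ((t : ℂ) • B) 0
      (1 : Matrix κ κ S)) 0) ((fun t : ℝ => Matrix.fromBlocks (1 : Matrix ι ι S) ((t : ℂ) • B) 0
      (1 : Matrix κ κ S)) 1) := by
    refine Conn.of_real ?_ fun t _ => isUnit_upper (T := S) ((t : ℂ) • B)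
    refine Continuous.matrix_fromBlocks continuous_const ?_ continuous_const continuous_const
    exact Complex.continuous_ofReal.smul continuous_const
  simpa using h

theorem conn_lower (B : Matrix κ ι S) :
    Conn (1 : Matrix (ι ⊕ κ) (ι ⊕ κ) S) (Matrix.fromBlocks 1 0 B 1) := by
  have h : Conn ((fun t : ℝ => Matrix.fromBlocks (1 : Matrix ι ι S) 0 ((t : ℂ) • B)
      (1 : Matrix κ κ S)) 0) ((fun t : ℝ => Matrix.fromBlocks (1 : Matrix ι ι S) 0 ((t : ℂ) • B)
      (1 : Matrix κ κ S)) 1) := by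
    refine Conn.of_real ?_ fun t _ => isUnit_lower (T := S) ((t : ℂ) • B)
    refine Continuous.matrix_fromBlocks continuous_const continuous_const ?_ continuous_const
    exact Complex.continuous_ofReal.smul continuous_const
  simpa using h

/-- `diag(a + z q, 1)` is joined to `[[a, q], [-z, 1]]`. -/
theorem conn_step (a q z : Matrix ι ι S) (h : IsUnit (a + q * z)) :
    Conn (Matrix.fromBlocks (a + q * z) 0 0 (1 : Matrix ι ι S))
      (Matrix.fromBlocks a q (-z) (1 : Matrix ι ι S)) := by
  have e : Matrix.fromBlocks (a + q * z) 0 0 (1 : Matrix ι ι S) =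
      Matrix.fromBlocks 1 (-q) 0 1 * Matrix.fromBlocks a q (-z) (1 : Matrix ι ι S) *
        Matrix.fromBlocks 1 0 z 1 := by
    simp [Matrix.fromBlocks_multiply]
  have hM : IsUnit (Matrix.fromBlocks a q (-z) (1 : Matrix ι ι S)) := by
    rw [Matrix.isUnit_iff_isUnit_det, Matrix.det_fromBlocks_one₂₂]
    rw [Matrix.isUnit_iff_isUnit_det] at h
    simpa using h
  rw [e]
  have h1 := ((conn_upper (-q)).mul (Conn.refl hM)).mul (conn_lower z)
  rw [one_mul, mul_one] at h1
  exact h1.symm

end elem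

section lin

variable {R : Type*} [NormedCommRing R] [NormedAlgebra ℂ R] [CompleteSpace R]

theorem loopM_fromBlocks {ι κ l m : Type*} (a : Matrix ι l R[X]) (b : Matrix ι m R[X])
    (c : Matrix κ l R[X]) (d : Matrix κ m R[X]) :
    loopM (Matrix.fromBlocks a b c d) =
      Matrix.fromBlocks (loopM a) (loopM b) (loopM c) (loopM d) := by
  rw [loopM, Matrix.fromBlocks_map]
  rfl

/-- constant coefficients -/
noncomputable def cf {ι κ : Type*} (k : ℕ) (p : Matrix ι κ R[X]) : Matrix ι κ R :=
  p.map fun q => q.coeff k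

theorem eq_ppl {ι : Type*} [Fintype ι] (p : Matrix ι ι R[X]) (h : ∀ i j, (p i j).natDegree ≤ 1) :
    p = ppl (cf 0 p) (cf 1 p) := by
  refine Matrix.ext fun i j => ?_
  simp only [ppl, cf, Matrix.add_apply, Matrix.map_apply, Matrix.smul_apply, smul_eq_mul]
  conv_lhs => rw [eq_X_add_C_of_natDegree_le_one (h i j)]
  ring

theorem exists_pencil_conn (n : ℕ) : ∀ (ι : Type u) [Fintype ι] [DecidableEq ι]
    (p : Matrix ι ι R[X]), (∀ i j, (p i j).natDegree ≤ n + 1) → IsUnit (loopM p) →
    ∃ (κ : Type u) (_ : Fintype κ) (_ : DecidableEq κ) (a b : Matrix (ι ⊕ κ) (ι ⊕ κ) R),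
      Conn (Matrix.fromBlocks (loopM p) 0 0 (1 : Matrix κ κ C(Circle, R))) (pl a b) := by
  induction n with
  | zero =>
    intro ι _ _ p hp hu
    refine ⟨PEmpty, inferInstance, inferInstance, cf 0 (Matrix.fromBlocks p 0 0 1),
      cf 1 (Matrix.fromBlocks p 0 0 1), ?_⟩
    have h1 : ∀ i j, ((Matrix.fromBlocks p 0 0 (1 : Matrix PEmpty PEmpty R[X])) i j).natDegree
        ≤ 1 := by
      rintro (i | i) (j | j)
      · exact hp i j
      · exact j.elim
      · exact i.elim
      · exact i.elim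
    rw [← loopM_ppl, ← eq_ppl _ h1, loopM_fromBlocks]
    have h2 : loopM (1 : Matrix PEmpty PEmpty R[X]) = 1 := loopM_one
    have h3 : loopM (0 : Matrix ι PEmpty R[X]) = 0 := by ext i j; exact j.elim
    have h4 : loopM (0 : Matrix PEmpty ι R[X]) = 0 := by ext i j; exact i.elim
    rw [h2, h3, h4]
    exact Conn.refl (isUnit_fromBlocks_diag hu isUnit_one)
  | succ n ih =>
    intro ι _ _ p hp hu
    let q : Matrix ι ι R[X] := p.map divX
    have hpq : loopM p = cM (cf 0 p) + loopM q * ((zc : C(Circle, R)) • 1) := by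
      refine Matrix.ext fun i j => ?_
      rw [mul_smul_comm, mul_one]
      simp only [loopM, cM, cf, q, Matrix.add_apply, Matrix.map_apply, Matrix.smul_apply,
        smul_eq_mul]
      conv_lhs => rw [← divX_mul_X_add (p i j)]
      rw [map_add, map_mul, loop_X, loop_C]
      ring
    have hstep := conn_step (cM (cf 0 p)) (loopM q) ((zc : C(Circle, R)) • 1) (hpq ▸ hu)
    rw [← hpq] at hstep
    let p' : Matrix (ι ⊕ ι) (ι ⊕ ι) R[X] :=
      Matrix.fromBlocks ((cf 0 p).map C) q (-((X : R[X]) • 1)) 1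
    have hp' : loopM p' = Matrix.fromBlocks (cM (cf 0 p)) (loopM q)
        (-((zc : C(Circle, R)) • 1)) 1 := by
      rw [loopM_fromBlocks, loopM_map_C, loopM_one]
      congr 1
      refine Matrix.ext fun i j => ?_
      by_cases hij : i = j
      · subst hij
        simp [loopM]
      · simp [loopM, Matrix.one_apply_ne hij]
    have hdeg : ∀ i j, (p' i j).natDegree ≤ n + 1 := by
      rintro (i | i) (j | j)
      · show (C (cf 0 p i j)).natDegree ≤ _
        rw [natDegree_C]
        exact Nat.zero_le _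
      · show (divX (p i j)).natDegree ≤ _
        rw [natDegree_divX_eq_natDegree_tsub_one]
        have := hp i j
        omega
      · show (-((X : R[X]) • (1 : Matrix ι ι R[X])) i j).natDegree ≤ _
        by_cases hij : i = j
        · subst hij
          simp only [Matrix.smul_apply, Matrix.one_apply_eq, smul_eq_mul, mul_one, natDegree_neg]
          exact natDegree_X_le.trans (by omega)
        · simp [Matrix.one_apply_ne hij]
      · show ((1 : Matrix ι ι R[X]) i j).natDegree ≤ _
        by_cases hij : i = j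
        · subst hij
          simp
        · simp [Matrix.one_apply_ne hij]
    rw [← hp'] at hstep
    obtain ⟨κ, hκ1, hκ2, a, b, hab⟩ := ih (ι ⊕ ι) p' hdeg hstep.right
    let e : (ι ⊕ ι) ⊕ κ ≃ ι ⊕ (ι ⊕ κ) := Equiv.sumAssoc ι ι κ
    refine ⟨ι ⊕ κ, inferInstance, inferInstance, Matrix.reindex e e a, Matrix.reindex e e b, ?_⟩
    have h1 : Conn (Matrix.fromBlocks (Matrix.fromBlocks (loopM p) 0 0 (1 : Matrix ι ι _)) 0 0
        (1 : Matrix κ κ C(Circle, R))) (pl a b) :=
      (Conn.blocks hstep (Conn.refl isUnit_one)).trans hab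
    have h2 := Conn.reindex e h1
    have e1 : Matrix.reindex e e (Matrix.fromBlocks (Matrix.fromBlocks (loopM p) 0 0
        (1 : Matrix ι ι _)) 0 0 (1 : Matrix κ κ C(Circle, R))) =
        Matrix.fromBlocks (loopM p) 0 0 (1 : Matrix (ι ⊕ κ) (ι ⊕ κ) C(Circle, R)) := by
      refine Matrix.ext ?_
      rintro (i | i | i) (j | j | j) <;>
        simp [e, Matrix.one_apply]
    have e2 : Matrix.reindex e e (pl a b) = pl (Matrix.reindex e e a) (Matrix.reindex e e b) := by
      refine Matrix.ext fun i j => ?_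
      rfl
    rwa [e1, e2] at h2

/-- **Loop theorem, surjectivity**, over the circle. -/
theorem bott_surj {ι : Type u} [Fintype ι] [DecidableEq ι] {F : Matrix ι ι C(Circle, R)}
    (hF : IsUnit F) : ∃ (N m : ℕ) (P c : Matrix (ι ⊕ Fin m) (ι ⊕ Fin m) R), P * P = P ∧
      IsUnit c ∧ Conn (Matrix.fromBlocks ((zc : C(Circle, R)) ^ N • F) 0 0
        (1 : Matrix (Fin m) (Fin m) C(Circle, R))) (Lam P * cM c) := by
  obtain ⟨N, p, hp, hconn⟩ := exists_conn hF
  obtain ⟨d, hd⟩ := Pen.exists_deg p
  obtain ⟨κ, hκ1, hκ2, a, b, hab⟩ := exists_pencil_conn d ι p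
    (fun i j => (hd i j).le.trans (Nat.le_succ d)) hp
  -- reindex
  let e : ι ⊕ κ ≃ ι ⊕ Fin (Fintype.card κ) := Equiv.sumCongr (Equiv.refl ι) (Fintype.equivFin κ)
  have h1 := Conn.reindex e ((Conn.blocks hconn (Conn.refl (isUnit_one
    (M := Matrix κ κ C(Circle, R))))).trans hab)
  have e1 : Matrix.reindex e e (Matrix.fromBlocks ((zc : C(Circle, R)) ^ N • F) 0 0
      (1 : Matrix κ κ C(Circle, R))) = Matrix.fromBlocks ((zc : C(Circle, R)) ^ N • F) 0 0
        (1 : Matrix (Fin (Fintype.card κ)) (Fin (Fintype.card κ)) C(Circle, R)) := by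
    refine Matrix.ext ?_
    rintro (i | i) (j | j) <;> simp [e, Matrix.one_apply]
  have e2 : Matrix.reindex e e (pl a b) = pl (Matrix.reindex e e a) (Matrix.reindex e e b) := by
    refine Matrix.ext fun i j => ?_
    rfl
  rw [e1, e2] at h1
  obtain ⟨G, hG⟩ := h1.right
  let pen : Pen R (ι ⊕ Fin (Fintype.card κ)) :=
    { a := Matrix.reindex e e a
      b := Matrix.reindex e e b
      G := ((G⁻¹ : (Matrix _ _ C(Circle, R))ˣ) : Matrix _ _ C(Circle, R))
      fG := by rw [← hG]; simp
      Gf := by rw [← hG]; simp }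
  have h2 : Conn _ (cM pen.u * Lam pen.P) := h1.trans pen.conn.symm
  obtain ⟨v, hv⟩ := pen.isUnit_u
  obtain ⟨V, W, hVW, hWV, hV⟩ : ∃ V W : Matrix (ι ⊕ Fin (Fintype.card κ)) (ι ⊕ Fin (Fintype.card κ))
      R, V * W = 1 ∧ W * V = 1 ∧ V = pen.u :=
    ⟨_, ((v⁻¹ : (Matrix _ _ R)ˣ) : Matrix _ _ R), v.mul_inv, v.inv_mul, hv⟩
  have hPP := pen.P_mul_P
  refine ⟨N, Fintype.card κ, V * pen.P * W, pen.u, ?_, ?_, ?_⟩
  · calc V * pen.P * W * (V * pen.P * W)
        = V * pen.P * (W * V) * pen.P * W := by simp only [Matrix.mul_assoc]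
      _ = V * (pen.P * pen.P) * W := by
          rw [hWV, mul_one]
          simp only [Matrix.mul_assoc]
      _ = _ := by rw [hPP]
  · exact pen.isUnit_u
  · have e3 : Lam (V * pen.P * W) * cM pen.u = cM pen.u * Lam pen.P := by
      have e4 : V * pen.P * W * V = V * pen.P := by rw [mul_assoc _ _ V, hWV, mul_one]
      have e5 : (1 - V * pen.P * W) * V = V * (1 - pen.P) := by
        rw [sub_mul, mul_sub, one_mul, mul_one, e4]
      rw [← hV, Lam, Lam, add_mul, mul_add, smul_mul_assoc, mul_smul_comm, ← cM_mul, ← cM_mul,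
        ← cM_mul, ← cM_mul, e4, e5]
    rw [e3]
    exact h2

end lin

section loops

variable {A : Type*} [NormedCommRing A] [NormedAlgebra ℂ A] [CompleteSpace A]

/-- shortcut instance -/
instance smulMat {B : Type*} [NormedRing B] [NormedAlgebra ℂ B] {ι κ : Type*} :
    SMul (LoopAlg B) (Matrix ι κ (LoopAlg B)) :=
  @Matrix.smul ι κ (LoopAlg B) (LoopAlg B) (instSMulOfMul)





end loops

end Crest.Agent.R204.BottSurj313
end

-- ▼ part R204/BottInj_313
section

/-!
# Row 204, block H (helper313): Bott periodicity, injectivity half of the loop theorem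
-/

set_option autoImplicit false
set_option linter.unusedSectionVars false

open Filter Topology Polynomial Set
open scoped unitInterval

namespace Crest.Agent.R204.BottInj313

open Crest.Agent.R204.Bott671 Crest.Agent.R204.BottApprox313 Crest.Agent.R204.BottLoop313
  Crest.Agent.R204.BottSurj313

section

variable {R : Type*} [NormedCommRing R] [NormedAlgebra ℂ R] [CompleteSpace R]
  {ι : Type} [Fintype ι] [DecidableEq ι]

/-- A path of loops as a loop of paths. -/
noncomputable def flip1 (g : C(I, C(Circle, R))) : C(Circle, C(I, R)) :=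
  (g.uncurry.comp ContinuousMap.prodSwap).curry

@[simp] theorem flip1_apply (g : C(I, C(Circle, R))) (z : Circle) (t : I) :
    flip1 g z t = g t z := rfl

/-- Unit matrices over `C(Circle, C(I, R))` are detected pointwise. -/
theorem isUnit_iff_pt (F : Matrix ι ι C(Circle, C(I, R))) :
    IsUnit F ↔ ∀ (z : Circle) (t : I), IsUnit (evM t (evM z F)) := by
  rw [isUnit_iff_evM]
  exact forall_congr' fun z => isUnit_iff_evM _

/-- index of `X^N p` -/
theorem nu_X_pow_smul (N : ℕ) : ∃ (κ : Type) (_ : Fintype κ) (_ : DecidableEq κ),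
    ∀ {p : Matrix ι ι R[X]} (_ : IsUnit (loopM p)) {e : Matrix ι ι R} (_ : e * e = e)
      (_ : NuRel p e), NuRel ((X : R[X]) ^ N • p) (Matrix.fromBlocks e 0 0 (1 : Matrix κ κ R)) := by
  induction N with
  | zero =>
    refine ⟨Empty, inferInstance, inferInstance, fun {p} hp {e} he h => ?_⟩
    rw [pow_zero, one_smul]
    refine nu_mvn ?_ ?_ h
    · rw [Matrix.fromBlocks_multiply]
      simp [he]
    · have h0 := (MvN.add_zero (κ := Empty) e he).symm
      have h1 : (1 : Matrix Empty Empty R) = 0 := by ext i; exact i.elim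
      rw [h1]
      exact h0
  | succ N ih =>
    obtain ⟨κ, i1, i2, h⟩ := ih
    refine ⟨κ ⊕ ι, inferInstance, inferInstance, fun {p} hp {e} he hpe => ?_⟩
    have h1 := h hp he hpe
    have he1 : Matrix.fromBlocks e 0 0 (1 : Matrix κ κ R) * Matrix.fromBlocks e 0 0 1 =
        Matrix.fromBlocks e 0 0 1 := by
      rw [Matrix.fromBlocks_multiply]
      simp [he]
    have hu : IsUnit (loopM ((X : R[X]) ^ N • p)) := by
      have e2 : loopM ((X : R[X]) ^ N • p) = (zc : C(Circle, R)) ^ N • loopM p := by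
        refine Matrix.ext fun i j => ?_
        simp only [loopM, Matrix.map_apply, Matrix.smul_apply, smul_eq_mul, map_mul, map_pow, loop_X]
      rw [e2]
      exact isUnit_smul (isUnit_zc_pow N) hp
    have h2 := nu_X_smul' (pathAlg R) hu he1 h1
    rw [smul_smul, ← pow_succ'] at h2
    refine nu_mvn ?_ ?_ h2
    · rw [Matrix.fromBlocks_multiply]
      simp [he]
    · have hz : (1 : Matrix (κ ⊕ ι) (κ ⊕ ι) R) = Matrix.fromBlocks 1 0 0 1 :=
        Matrix.fromBlocks_one.symm
      rw [hz]
      refine ⟨(Matrix.fromBlocks (Matrix.fromBlocks e 0 0 1) 0 0 1).submatrix id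
          (Equiv.sumAssoc ι κ ι).symm,
        (Matrix.fromBlocks (Matrix.fromBlocks e 0 0 1) 0 0 1).submatrix
          (Equiv.sumAssoc ι κ ι).symm id, ?_, ?_⟩
      · rw [Matrix.submatrix_mul_equiv, Matrix.fromBlocks_multiply]
        simp [he1]
      · rw [← Matrix.submatrix_mul _ _ _ _ _ Function.bijective_id, Matrix.fromBlocks_multiply]
        refine Matrix.ext ?_
        rintro (i | i | i) (j | j | j) <;> simp [he1, Matrix.one_apply]

/-- A straight line of unit loops between two polynomial loops identifies their indices. -/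
theorem nu_line {κ l : Type} [Fintype κ] [DecidableEq κ] [Fintype l] [DecidableEq l]
    {p q : Matrix ι ι R[X]}
    (h : ∀ t : I, IsUnit (((1 - (t : ℝ) : ℝ) : ℂ) • loopM p + ((t : ℝ) : ℂ) • loopM q))
    {e : Matrix κ κ R} {f : Matrix l l R} (he : e * e = e) (hf : f * f = f)
    (hp : NuRel p e) (hq : NuRel q f) : MvN e f := by
  let A := pathAlg R
  let c : R[X] →+* C(I, R)[X] := Polynomial.mapRingHom (A.cst : R →+* C(I, R))
  let L : Matrix ι ι C(I, R)[X] :=
    (1 - C A.tI : C(I, R)[X]) • p.map c + (C A.tI : C(I, R)[X]) • q.map c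
  have hφ : ∀ (φ : C(I, R) →A[ℂ] R) (_ : ∀ r, φ (A.cst r) = r),
      L.map (Polynomial.mapRingHom (φ : C(I, R) →+* R)) =
        (1 - C (φ A.tI) : R[X]) • p + (C (φ A.tI) : R[X]) • q := by
    intro φ hφ
    refine Matrix.ext fun i j => ?_
    have hcc : ∀ r : R[X], (r.map (A.cst : R →+* C(I, R))).map (φ : C(I, R) →+* R) = r := by
      intro r
      rw [Polynomial.map_map]
      have : (φ : C(I, R) →+* R).comp (A.cst : R →+* C(I, R)) = RingHom.id R := by
        ext r; exact hφ r
      rw [this, Polynomial.map_id]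
    simp only [L, c, Matrix.map_apply, Matrix.add_apply, Matrix.smul_apply, smul_eq_mul,
      Polynomial.coe_mapRingHom, Polynomial.map_add, Polynomial.map_mul, Polynomial.map_sub,
      Polynomial.map_one, Polynomial.map_C, hcc]
    rfl
  have hL : IsUnit (loopM L) := by
    rw [isUnit_iff_pt]
    intro z t
    have h1 := (isUnit_iff_evM _).1 (h t) z
    have h2 : evM t (evM z (loopM L)) =
        evM z (((1 - (t : ℝ) : ℝ) : ℂ) • loopM p + ((t : ℝ) : ℂ) • loopM q) := by
      refine Matrix.ext fun i j => ?_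
      have hloop : ∀ r : R[X], loop (r.map (A.cst : R →+* C(I, R))) z t = loop r z := by
        intro r
        rw [loop_map]
        rfl
      have e1 : (loop (C A.tI : C(I, R)[X])) z t = algebraMap ℂ R ((t : ℝ) : ℂ) := by
        rw [loop_C]
        rfl
      have e3 : ∀ (w : ℂ) (G : C(Circle, R)), (w • G) z = algebraMap ℂ R w * G z := fun w G => by
        rw [ContinuousMap.smul_apply, Algebra.smul_def]
      simp only [evM_apply, L, c, loopM, Matrix.map_apply, Matrix.add_apply, Matrix.smul_apply,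
        smul_eq_mul, map_add, map_mul, map_sub, map_one, Polynomial.coe_mapRingHom,
        ContinuousMap.add_apply, ContinuousMap.mul_apply, ContinuousMap.sub_apply,
        ContinuousMap.one_apply, hloop, e1, e3, Complex.ofReal_sub, Complex.ofReal_one]
    rw [h2]
    exact h1
  have h0 := hφ A.φ0 A.h0
  have h1 := hφ A.φ1 A.h1
  rw [A.ht0, C_0, sub_zero, one_smul, zero_smul, add_zero] at h0
  rw [A.ht1, C_1, sub_self, one_smul, zero_smul, zero_add] at h1
  refine nu_path A hL he hf ?_ ?_
  · rw [h0]; exact hp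
  · rw [h1]; exact hq

theorem loopM_X_pow_smul (N : ℕ) (p : Matrix ι ι R[X]) :
    loopM ((X : R[X]) ^ N • p) = (zc : C(Circle, R)) ^ N • loopM p := by
  refine Matrix.ext fun i j => ?_
  simp only [loopM, Matrix.map_apply, Matrix.smul_apply, smul_eq_mul, map_mul, map_pow, loop_X]

theorem loopM_idem (P : Matrix ι ι R) : loopM (ppl (1 - P) P) = Lam P := by
  rw [loopM_ppl, pl, Lam, add_comm]

theorem exists_laurent2 {F : Matrix ι ι C(Circle, R)} (hF : IsUnit F) :
    ∃ (N : ℕ) (p : Matrix ι ι R[X]), IsUnit (loopM p) ∧ ∀ t : I,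
      IsUnit (((1 - (t : ℝ) : ℝ) : ℂ) • ((zc : C(Circle, R)) ^ N • F) +
        ((t : ℝ) : ℂ) • loopM p) := by
  obtain ⟨N, p, hp⟩ := exists_laurent hF
  have key : ∀ t : I, IsUnit (((1 - (t : ℝ) : ℝ) : ℂ) • ((zc : C(Circle, R)) ^ N • F) +
        ((t : ℝ) : ℂ) • loopM p) := by
    intro t
    have h2 := isUnit_smul (isUnit_zc_pow (R := R) N) (hp t)
    have e1 : (zc : C(Circle, R)) ^ N • (((1 - (t : ℝ) : ℝ) : ℂ) • F +
        ((t : ℝ) : ℂ) • ((zi : C(Circle, R)) ^ N • loopM p)) =
        ((1 - (t : ℝ) : ℝ) : ℂ) • ((zc : C(Circle, R)) ^ N • F) + ((t : ℝ) : ℂ) • loopM p := by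
      rw [smul_add, smul_comm _ ((1 - (t : ℝ) : ℝ) : ℂ), smul_comm _ ((t : ℝ) : ℂ), smul_smul
        (zc ^ N), ← mul_pow, zc_mul_zi, one_pow, one_smul]
    rwa [e1] at h2
  refine ⟨N, p, ?_, key⟩
  simpa using key 1

/-- The evaluation of a Laurent line at a time `s`. -/
theorem isUnit_eval {F : Matrix ι ι C(Circle, C(I, R))} {N : ℕ} {p : Matrix ι ι C(I, R)[X]}
    {t : I} (h : IsUnit (((1 - (t : ℝ) : ℝ) : ℂ) • ((zc : C(Circle, C(I, R))) ^ N • F) +
        ((t : ℝ) : ℂ) • loopM p)) (s : I) (φ : C(I, R) →A[ℂ] R) (hφ : ∀ a, φ a = a s)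
    {G : Matrix ι ι C(Circle, R)} (hG : ∀ i j z, G i j z = F i j z s) :
    IsUnit (((1 - (t : ℝ) : ℝ) : ℂ) • ((zc : C(Circle, R)) ^ N • G) + ((t : ℝ) : ℂ) •
          loopM (p.map (Polynomial.mapRingHom (φ : C(I, R) →+* R)))) := by
  rw [isUnit_iff_evM]
  intro z
  have h3 := (isUnit_iff_pt _).1 h z s
  have e4 : evM z (((1 - (t : ℝ) : ℝ) : ℂ) • ((zc : C(Circle, R)) ^ N • G) + ((t : ℝ) : ℂ) •
          loopM (p.map (Polynomial.mapRingHom (φ : C(I, R) →+* R)))) =
      evM s (evM z (((1 - (t : ℝ) : ℝ) : ℂ) • ((zc : C(Circle, C(I, R))) ^ N • F) +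
        ((t : ℝ) : ℂ) • loopM p)) := by
    refine Matrix.ext fun i j => ?_
    have e1 : (loop ((p i j).map (φ : C(I, R) →+* R))) z = loop (p i j) z s := by
      rw [loop_map, ← hφ]
      rfl
    have e2 : ((zc : C(Circle, C(I, R))) ^ N) z s = ((zc : C(Circle, R)) ^ N) z := by
      rw [ContinuousMap.pow_apply, ContinuousMap.pow_apply, ContinuousMap.pow_apply]
      rfl
    have e3 : evM s (evM z (((1 - (t : ℝ) : ℝ) : ℂ) • ((zc : C(Circle, C(I, R))) ^ N • F) +
        ((t : ℝ) : ℂ) • loopM p)) i j = ((1 - (t : ℝ) : ℝ) : ℂ) • (((zc : C(Circle, C(I, R))) ^ N) z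
        s * F i j z s) + ((t : ℝ) : ℂ) • (loop (p i j) z s) := rfl
    rw [e3, e2, ← e1, ← hG]
    rfl
  rw [e4]
  exact h3

/-- **Loop theorem, injectivity**, over the circle. -/
theorem bott_inj {P Q : Matrix ι ι R} (hP : P * P = P) (hQ : Q * Q = Q)
    (h : Conn (Lam P) (Lam Q)) : ∃ (κ : Type) (_ : Fintype κ) (_ : DecidableEq κ),
      MvN (Matrix.fromBlocks P 0 0 (1 : Matrix κ κ R))
        (Matrix.fromBlocks Q 0 0 (1 : Matrix κ κ R)) := by
  obtain ⟨γ, hγ⟩ := h
  let F : Matrix ι ι C(Circle, C(I, R)) := Matrix.of fun i j =>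
    flip1 ⟨fun t => γ t i j, (continuous_apply_apply i j).comp γ.continuous⟩
  have hFev : ∀ z t, evM t (evM z F) = evM z (γ t) := fun z t => rfl
  have hF : IsUnit F := by
    rw [isUnit_iff_pt]
    intro z t
    rw [hFev]
    exact (isUnit_iff_evM _).1 (hγ t) z
  obtain ⟨N, p, hpu, hp⟩ := exists_laurent2 hF
  obtain ⟨κ, i1, i2, hκ⟩ := nu_X_pow_smul (R := R) (ι := ι) N
  refine ⟨κ, i1, i2, ?_⟩
  have key : ∀ (φ : C(I, R) →A[ℂ] R) (s : I) (_ : ∀ a, φ a = a s) {E : Matrix ι ι R}
      (_ : E * E = E) (_ : γ s = Lam E) {l : Type} [Fintype l] [DecidableEq l] {e : Matrix l l R}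
      (_ : e * e = e) (_ : NuRel (p.map (Polynomial.mapRingHom (φ : C(I, R) →+* R))) e),
      MvN (Matrix.fromBlocks E 0 0 (1 : Matrix κ κ R)) e := by
    intro φ s hφ E hE hs l _ _ e he hne
    have hE1 : Matrix.fromBlocks E 0 0 (1 : Matrix κ κ R) * Matrix.fromBlocks E 0 0 1 =
        Matrix.fromBlocks E 0 0 1 := by
      rw [Matrix.fromBlocks_multiply]
      simp [hE]
    have hLE : IsUnit (loopM (ppl (1 - E) E)) := by
      rw [loopM_idem]
      exact isUnit_Lam hE
    refine nu_line (p := (X : R[X]) ^ N • ppl (1 - E) E) (fun t => ?_) hE1 he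
      (hκ hLE hE (nu_idem hE)) hne
    rw [loopM_X_pow_smul, loopM_idem, ← hs]
    exact isUnit_eval (hp t) s φ hφ (fun i j z => rfl)
  obtain ⟨l0, _, _, e0, he0, hn0⟩ := nu_exists _ (isUnit_loopM_map (pathAlg R).φ0 p hpu)
  obtain ⟨l1, _, _, e1, he1, hn1⟩ := nu_exists _ (isUnit_loopM_map (pathAlg R).φ1 p hpu)
  have h01 : MvN e0 e1 := nu_path (pathAlg R) hpu he0 he1 hn0 hn1
  have hM0 := key (pathAlg R).φ0 0 (fun _ => rfl) hP γ.source he0 hn0
  have hM1 := key (pathAlg R).φ1 1 (fun _ => rfl) hQ γ.target he1 hn1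
  have hP1 : Matrix.fromBlocks P 0 0 (1 : Matrix κ κ R) * Matrix.fromBlocks P 0 0 1 =
      Matrix.fromBlocks P 0 0 1 := by
    rw [Matrix.fromBlocks_multiply]
    simp [hP]
  have hQ1 : Matrix.fromBlocks Q 0 0 (1 : Matrix κ κ R) * Matrix.fromBlocks Q 0 0 1 =
      Matrix.fromBlocks Q 0 0 1 := by
    rw [Matrix.fromBlocks_multiply]
    simp [hQ]
  exact (hM0.trans hP1 he1 h01).trans hP1 hQ1 hM1.symm


/-- **Loop theorem, injectivity**, conclusion in `K0`. -/
theorem bott_inj_cls {P Q : Matrix ι ι R} (hP : P * P = P) (hQ : Q * Q = Q)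
    (h : Conn (Lam P) (Lam Q)) : K357.K0.cls P = K357.K0.cls Q := by
  obtain ⟨κ, i1, i2, u, v, h1, h2⟩ := bott_inj hP hQ h
  have h11 : (1 : Matrix κ κ R) * 1 = 1 := by simp
  have e1 := K357.K0.cls_eq (K357.idem_sum hP h11) (K357.idem_sum hQ h11) ⟨u, v, h1, h2⟩
  rw [K357.K0.cls_sum hP h11, K357.K0.cls_sum hQ h11] at e1
  exact add_right_cancel e1

end

end Crest.Agent.R204.BottInj313
end

-- ▼ part R204/BottFin_369

/-!
# Row 204, block H: Bott periodicity for augmented commutative Banach algebras, helper369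
-/

set_option autoImplicit false
set_option linter.unusedSectionVars false
set_option linter.unusedSimpArgs false

open Matrix Topology
open scoped unitInterval
open Crest.Agent.R204.K357 Crest.Agent.R204.Clutch369 Crest.Agent.R204.BottLoop313

namespace Crest.Agent.R204.BottK369

noncomputable section

open Crest.Agent.R204.Bott671 (evM evM_apply Conn pl cM zc zc_apply evM_mul)

universe u

variable (A : Type u) [NormedCommRing A] [NormedAlgebra ℂ A] [CompleteSpace A]

theorem loopS : LoopS A := by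
  intro n _ _ u hu
  obtain ⟨N, m, P, c, hP, hc, h⟩ := BottSurj313.bott_surj hu
  refine ⟨N, Fin m, inferInstance, inferInstance, P, c, hP, hc, ?_⟩
  have e : pl (1 - P) P = Bott671.Lam P := by
    rw [Bott671.Lam, pl, add_comm]
  rw [e]
  exact h

theorem loopI : LoopI A := by
  intro n _ _ p q hp hq h
  have e : ∀ P : Matrix n n A, pl (1 - P) P = Bott671.Lam P := fun P => by
    rw [Bott671.Lam, pl, add_comm]
  rw [e, e] at h
  exact BottInj313.bott_inj_cls hp hq h

theorem bottS : BottS A := bottS_of_loopS (loopS A)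

theorem bottI : BottI A := bottI_of_loopI (loopI A)

end

end Crest.Agent.R204.BottK369
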