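import Mathlib

-- ▼ part R204/FreuA_297
section

/-!
Row 204, block H: tools for Freudenthal surjectivity.
* `exists_lipschitz_approx`: continuous maps from a compact metric space to a finite dimensional
  normed space are uniformly approximated by Lipschitz maps.
* `exists_generic`: for a Lipschitz map `g : (ι → ℝ) × ℝ → F`, `card ι + 2 < 2 dim F`, there are
  arbitrarily small `A B : F` such that `g (x, t₁) + A + t₁ • B = 0` and
  `g (x, t₂) + A + t₂ • B = 0` imply `t₁ = t₂`.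
-/

open Set Metric Module
open scoped unitInterval Topology NNReal ENNReal

namespace Crest.Agent.R204.Freu297

/-- subalgebra of Lipschitz functions on a compact metric space -/
def lipAlg (X : Type*) [PseudoMetricSpace X] [CompactSpace X] : Subalgebra ℝ C(X, ℝ) where
  carrier := {f | ∃ K : ℝ≥0, LipschitzWith K f}
  mul_mem' := by
    rintro f g ⟨K, hK⟩ ⟨L, hL⟩
    refine ⟨‖f‖₊ * L + ‖g‖₊ * K, LipschitzWith.of_dist_le_mul fun x y => ?_⟩
    have h1 : dist (f x) (f y) ≤ K * dist x y := hK.dist_le_mul x y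
    have h2 : dist (g x) (g y) ≤ L * dist x y := hL.dist_le_mul x y
    have h3 : ‖f x‖ ≤ ‖f‖ := f.norm_coe_le_norm x
    have h4 : ‖g y‖ ≤ ‖g‖ := g.norm_coe_le_norm y
    rw [Real.dist_eq] at *
    simp only [ContinuousMap.coe_mul, Pi.mul_apply]
    have : f x * g x - f y * g y = f x * (g x - g y) + (f x - f y) * g y := by ring
    rw [this]
    calc |f x * (g x - g y) + (f x - f y) * g y|
        ≤ |f x| * |g x - g y| + |f x - f y| * |g y| := by
          refine (abs_add_le _ _).trans ?_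
          rw [abs_mul, abs_mul]
      _ ≤ ‖f‖ * (L * dist x y) + (K * dist x y) * ‖g‖ := by
          rw [Real.norm_eq_abs] at h3 h4
          gcongr
      _ = _ := by push_cast; ring
  add_mem' := by
    rintro f g ⟨K, hK⟩ ⟨L, hL⟩
    exact ⟨K + L, hK.add hL⟩
  algebraMap_mem' := by
    intro r
    exact ⟨0, LipschitzWith.const (α := X) r⟩

theorem exists_lipschitz_approx_real {X : Type*} [MetricSpace X] [CompactSpace X]
    (f : C(X, ℝ)) {ε : ℝ} (hε : 0 < ε) :
    ∃ g : X → ℝ, (∃ K : ℝ≥0, LipschitzWith K g) ∧ ∀ x, |g x - f x| < ε := by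
  have hsep : (lipAlg X).SeparatesPoints := by
    intro x y hxy
    refine ⟨fun z => dist z x, ⟨⟨fun z => dist z x, by fun_prop⟩, ⟨1, ?_⟩, rfl⟩, ?_⟩
    · exact LipschitzWith.dist_left x
    · simp [hxy, eq_comm]
  obtain ⟨⟨g, hg⟩, hgf⟩ := ContinuousMap.exists_mem_subalgebra_near_continuousMap_of_separatesPoints
    (lipAlg X) hsep f ε hε
  refine ⟨g, hg, fun x => ?_⟩
  have := (g - f).norm_coe_le_norm x
  simp only [ContinuousMap.coe_sub, Pi.sub_apply, Real.norm_eq_abs] at this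
  exact lt_of_le_of_lt this hgf

theorem exists_lipschitz_approx {X : Type*} [MetricSpace X] [CompactSpace X]
    {F : Type*} [NormedAddCommGroup F] [NormedSpace ℝ F] [FiniteDimensional ℝ F]
    (f : X → F) (hf : Continuous f) {ε : ℝ} (hε : 0 < ε) :
    ∃ g : X → F, (∃ K : ℝ≥0, LipschitzWith K g) ∧ ∀ x, ‖g x - f x‖ < ε := by
  classical
  let e : F ≃L[ℝ] (Fin (finrank ℝ F) → ℝ) := ContinuousLinearEquiv.ofFinrankEq (by simp)
  set C : ℝ := ‖(e.symm : (Fin (finrank ℝ F) → ℝ) →L[ℝ] F)‖ with hC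
  have hC0 : 0 ≤ C := norm_nonneg _
  have key : ∀ i : Fin (finrank ℝ F), ∃ g : X → ℝ, (∃ K : ℝ≥0, LipschitzWith K g) ∧
      ∀ x, |g x - e (f x) i| < ε / (C + 1) := fun i =>
    exists_lipschitz_approx_real ⟨fun x => e (f x) i, by fun_prop⟩ (by positivity)
  choose g hg hgf using key
  choose K hK using hg
  refine ⟨fun x => e.symm (fun i => g i x), ?_, fun x => ?_⟩
  · have h1 : LipschitzWith (Finset.univ.sup K) (fun x => (fun i => g i x)) := by
      refine LipschitzWith.of_dist_le_mul fun x y => ?_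
      rw [dist_pi_le_iff (by positivity)]
      intro i
      refine ((hK i).dist_le_mul x y).trans ?_
      gcongr
      exact Finset.le_sup (f := K) (Finset.mem_univ i)
    exact ⟨_, e.symm.lipschitz.comp h1⟩
  · have h2 : e.symm (fun i => g i x) - f x = e.symm ((fun i => g i x) - e (f x)) := by
      rw [map_sub]; simp
    rw [h2]
    have h3 : ‖(fun i => g i x) - e (f x)‖ ≤ ε / (C + 1) := by
      rw [pi_norm_le_iff_of_nonneg (by positivity)]
      intro i
      rw [Real.norm_eq_abs]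
      exact (hgf i x).le
    calc ‖e.symm ((fun i => g i x) - e (f x))‖
        ≤ C * ‖(fun i => g i x) - e (f x)‖ :=
          (e.symm : (Fin (finrank ℝ F) → ℝ) →L[ℝ] F).le_opNorm _
      _ ≤ C * (ε / (C + 1)) := by gcongr
      _ < ε := by
          rw [mul_div_assoc', div_lt_iff₀ (by positivity)]
          nlinarith

/-- the map recovering `(A, B)` from `t₁, t₂, A + t₁ B, A + t₂ B`. -/
noncomputable def recAB (F : Type*) [NormedAddCommGroup F] [NormedSpace ℝ F]
    (z : (ℝ × ℝ) × (F × F)) : F × F :=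
  ((z.1.2 - z.1.1)⁻¹ • (z.1.2 • z.2.1 - z.1.1 • z.2.2), (z.1.2 - z.1.1)⁻¹ • (z.2.2 - z.2.1))

theorem recAB_eq {F : Type*} [NormedAddCommGroup F] [NormedSpace ℝ F] (t₁ t₂ : ℝ) (h : t₁ ≠ t₂)
    (A B : F) : recAB F ((t₁, t₂), (A + t₁ • B, A + t₂ • B)) = (A, B) := by
  have h' : t₂ - t₁ ≠ 0 := sub_ne_zero.2 (Ne.symm h)
  unfold recAB
  ext1
  · simp only
    have : t₂ • (A + t₁ • B) - t₁ • (A + t₂ • B) = (t₂ - t₁) • A := by
      rw [smul_add, smul_add, smul_smul, smul_smul, mul_comm t₂ t₁, sub_smul]; abel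
    rw [this, smul_smul, inv_mul_cancel₀ h', one_smul]
  · simp only
    have : A + t₂ • B - (A + t₁ • B) = (t₂ - t₁) • B := by
      rw [sub_smul]; abel
    rw [this, smul_smul, inv_mul_cancel₀ h', one_smul]

theorem recAB_contDiffOn {F : Type*} [NormedAddCommGroup F] [NormedSpace ℝ F] :
    ContDiffOn ℝ 1 (recAB F) {z | z.1.1 ≠ z.1.2} := by
  unfold recAB
  have h1 : ContDiffOn ℝ 1 (fun z : (ℝ × ℝ) × (F × F) => (z.1.2 - z.1.1)⁻¹) {z | z.1.1 ≠ z.1.2} := by
    refine ContDiffOn.inv (by fun_prop) ?_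
    intro z hz
    exact sub_ne_zero.2 (Ne.symm hz)
  refine ContDiffOn.prodMk ?_ ?_
  · exact h1.smul (by fun_prop)
  · exact h1.smul (by fun_prop)

theorem exists_generic {ι : Type*} [Fintype ι] {F : Type*} [NormedAddCommGroup F] [NormedSpace ℝ F]
    [FiniteDimensional ℝ F] (hcard : Fintype.card ι + 2 < 2 * finrank ℝ F)
    (g : (ι → ℝ) × ℝ → F) {K : ℝ≥0} (hg : LipschitzWith K g) {ε : ℝ} (hε : 0 < ε) :
    ∃ A B : F, ‖A‖ < ε ∧ ‖B‖ < ε ∧ ∀ (x : ι → ℝ) (t₁ t₂ : ℝ),
      g (x, t₁) + A + t₁ • B = 0 → g (x, t₂) + A + t₂ • B = 0 → t₁ = t₂ := by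
  classical
  -- the Lipschitz map
  let Φ : (ι → ℝ) × (ℝ × ℝ) → (ℝ × ℝ) × (F × F) :=
    fun w => ((w.2.1, w.2.2), (-g (w.1, w.2.1), -g (w.1, w.2.2)))
  have hΦ : LipschitzWith (max 1 K) Φ := by
    have e1 : LipschitzWith 1 (fun w : (ι → ℝ) × (ℝ × ℝ) => (w.2.1, w.2.2)) :=
      LipschitzWith.prod_snd
    have e2 : LipschitzWith K (fun w : (ι → ℝ) × (ℝ × ℝ) => -g (w.1, w.2.1)) := by
      have : LipschitzWith (K * max 1 1) (fun w : (ι → ℝ) × (ℝ × ℝ) => g (w.1, w.2.1)) :=
        hg.comp (LipschitzWith.prod_fst.prodMk (by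
          have := (LipschitzWith.prod_fst (α := ℝ) (β := ℝ)).comp
            (LipschitzWith.prod_snd (α := ι → ℝ) (β := ℝ × ℝ))
          rw [one_mul] at this
          exact this))
      rw [max_self, mul_one] at this
      exact this.neg
    have e3 : LipschitzWith K (fun w : (ι → ℝ) × (ℝ × ℝ) => -g (w.1, w.2.2)) := by
      have : LipschitzWith (K * max 1 1) (fun w : (ι → ℝ) × (ℝ × ℝ) => g (w.1, w.2.2)) :=
        hg.comp (LipschitzWith.prod_fst.prodMk (by
          have := (LipschitzWith.prod_snd (α := ℝ) (β := ℝ)).comp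
            (LipschitzWith.prod_snd (α := ι → ℝ) (β := ℝ × ℝ))
          rw [one_mul] at this
          exact this))
      rw [max_self, mul_one] at this
      exact this.neg
    have := e1.prodMk (e2.prodMk e3)
    simpa using this
  have hdim : dimH (range Φ) ≤ (Fintype.card ι + 2 : ℕ) := by
    refine hΦ.dimH_range_le.trans ?_
    rw [Real.dimH_univ_eq_finrank]
    simp
  let S₁ : Set ((ℝ × ℝ) × (F × F)) := {z | z.1.1 < z.1.2}
  let S₂ : Set ((ℝ × ℝ) × (F × F)) := {z | z.1.2 < z.1.1}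
  have hS₁ : Convex ℝ S₁ := by
    intro a ha b hb s t hs ht hst
    simp only [S₁, mem_ofPred_eq] at *
    show s * a.1.1 + t * b.1.1 < s * a.1.2 + t * b.1.2
    rcases hs.eq_or_lt with h | h
    · have : t = 1 := by linarith
      subst this; rw [← h]; linarith
    · nlinarith
  have hS₂ : Convex ℝ S₂ := by
    intro a ha b hb s t hs ht hst
    simp only [S₂, mem_ofPred_eq] at *
    show s * a.1.2 + t * b.1.2 < s * a.1.1 + t * b.1.1
    rcases hs.eq_or_lt with h | h
    · have : t = 1 := by linarith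
      subst this; rw [← h]; linarith
    · nlinarith
  let Bad : Set (F × F) := recAB F '' (range Φ ∩ S₁) ∪ recAB F '' (range Φ ∩ S₂)
  have hBad : dimH Bad ≤ (Fintype.card ι + 2 : ℕ) := by
    rw [dimH_union]
    refine max_le ?_ ?_
    · refine (ContDiffOn.dimH_image_le (s := S₁) (recAB_contDiffOn.mono ?_) hS₁
        inter_subset_right).trans ((dimH_mono inter_subset_left).trans hdim)
      intro z hz; exact (ne_of_lt hz)
    · refine (ContDiffOn.dimH_image_le (s := S₂) (recAB_contDiffOn.mono ?_) hS₂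
        inter_subset_right).trans ((dimH_mono inter_subset_left).trans hdim)
      intro z hz; exact (ne_of_gt hz)
  have hdense : Dense Badᶜ := by
    apply dense_compl_of_dimH_lt_finrank
    refine hBad.trans_lt ?_
    rw [Module.finrank_prod]
    exact_mod_cast (by omega : Fintype.card ι + 2 < finrank ℝ F + finrank ℝ F)
  obtain ⟨⟨A, B⟩, hAB, hmem⟩ := hdense.exists_dist_lt (0 : F × F) hε
  refine ⟨A, B, ?_, ?_, ?_⟩
  · rw [dist_comm, dist_zero_right] at hmem
    exact (norm_fst_le (A, B)).trans_lt hmem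
  · rw [dist_comm, dist_zero_right] at hmem
    exact (norm_snd_le (A, B)).trans_lt hmem
  · intro x t₁ t₂ h1 h2
    by_contra hne
    apply hAB
    have e1 : -g (x, t₁) = A + t₁ • B := by
      rw [neg_eq_iff_add_eq_zero, ← add_assoc]; exact h1
    have e2 : -g (x, t₂) = A + t₂ • B := by
      rw [neg_eq_iff_add_eq_zero, ← add_assoc]; exact h2
    have hr : recAB F (Φ (x, (t₁, t₂))) = (A, B) := by
      simp only [Φ]
      rw [e1, e2]
      exact recAB_eq t₁ t₂ hne A B
    rcases lt_or_gt_of_ne hne with h | h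
    · exact Or.inl ⟨Φ (x, (t₁, t₂)), ⟨⟨_, rfl⟩, h⟩, hr⟩
    · exact Or.inr ⟨Φ (x, (t₁, t₂)), ⟨⟨_, rfl⟩, h⟩, hr⟩

end Crest.Agent.R204.Freu297
end

-- ▼ part R204/FreuB_297
section

/-!
Row 204, block H: one suspension step of Freudenthal surjectivity.
-/

open Set Metric Module
open scoped unitInterval Topology NNReal ENNReal

namespace Crest.Agent.R204.Freu297

/-- A space `Y` glued from two unit discs of `F` along the unit sphere. -/
structure Dbl (F : Type*) [NormedAddCommGroup F] [NormedSpace ℝ F] (Y : Type*)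
    [TopologicalSpace Y] where
  yc : C(Y, F)
  hc : C(Y, ℝ)
  up : C(F, Y)
  lo : C(F, Y)
  yc_le : ∀ y, ‖yc y‖ ≤ 1
  hc_eq : ∀ y, hc y = 0 ↔ ‖yc y‖ = 1
  up_yc : ∀ y, 0 ≤ hc y → up (yc y) = y
  lo_yc : ∀ y, hc y ≤ 0 → lo (yc y) = y
  yc_up : ∀ v, ‖v‖ ≤ 1 → yc (up v) = v
  yc_lo : ∀ v, ‖v‖ ≤ 1 → yc (lo v) = v
  hc_up : ∀ v, 0 ≤ hc (up v)
  hc_lo : ∀ v, hc (lo v) ≤ 0

theorem homotopicRel_mk {X Y : Type*} [TopologicalSpace X] [TopologicalSpace Y] {f₀ f₁ : C(X, Y)}
    {S : Set X} (H : I × X → Y) (hH : Continuous H) (h0 : ∀ x, H (0, x) = f₀ x)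
    (h1 : ∀ x, H (1, x) = f₁ x) (hS : ∀ t, ∀ x ∈ S, H (t, x) = f₀ x) :
    f₀.HomotopicRel f₁ S :=
  ⟨{ toFun := H
     continuous_toFun := hH
     map_zero_left := h0
     map_one_left := h1
     prop' := fun t x hx => hS t x hx }⟩

/-- boundary of the cube `(ι → I) × I` -/
def Bd (ι : Type*) : Set ((ι → I) × I) := {z | z.1 ∈ Cube.boundary ι ∨ z.2 = 0 ∨ z.2 = 1}

variable {F : Type*} [NormedAddCommGroup F] [NormedSpace ℝ F] {Y : Type*} [TopologicalSpace Y]

namespace Dbl

variable (D : Dbl F Y)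

theorem up_eq_lo {v : F} (hv : ‖v‖ = 1) : D.up v = D.lo v := by
  have h1 : D.yc (D.up v) = v := D.yc_up v hv.le
  have h2 : D.hc (D.up v) = 0 := by rw [D.hc_eq, h1, hv]
  have h3 := D.lo_yc (D.up v) h2.le
  rw [h1] at h3
  exact h3.symm

theorem yc_up_base {v : F} (hv : ‖v‖ = 1) : D.yc (D.up v) = v := D.yc_up v hv.le

theorem hc_up_base {v : F} (hv : ‖v‖ = 1) : D.hc (D.up v) = 0 := by
  rw [D.hc_eq, D.yc_up_base hv, hv]

/-- the suspension map: `y ↦` loop through `y`, as a map on `sphere × I` -/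
noncomputable def E (x0 : F) : C(sphere (0 : F) 1 × I, Y) where
  toFun z := if (z.2 : ℝ) ≤ 1 / 2 then D.lo (x0 + (2 * (z.2 : ℝ)) • ((z.1 : F) - x0))
    else D.up (x0 + (2 - 2 * (z.2 : ℝ)) • ((z.1 : F) - x0))
  continuous_toFun := by
    refine Continuous.if_le (by fun_prop) (by fun_prop) (by fun_prop) (by fun_prop) ?_
    rintro ⟨⟨y, hy⟩, t⟩ ht
    have hy' : ‖y‖ = 1 := by simpa using hy
    simp only at ht ⊢
    rw [ht]
    norm_num
    exact (D.up_eq_lo hy').symm

theorem E_base {x0 : F} (hx0 : ‖x0‖ = 1) (t : I) (h : x0 ∈ sphere (0 : F) 1) :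
    D.E x0 (⟨x0, h⟩, t) = D.up x0 := by
  show (if (t : ℝ) ≤ 1 / 2 then D.lo (x0 + (2 * (t : ℝ)) • (x0 - x0))
    else D.up (x0 + (2 - 2 * (t : ℝ)) • (x0 - x0))) = _
  rw [sub_self, smul_zero, smul_zero, add_zero, D.up_eq_lo hx0]
  split_ifs <;> rfl

theorem E_zero {x0 : F} (hx0 : ‖x0‖ = 1) (y : sphere (0 : F) 1) :
    D.E x0 (y, 0) = D.up x0 := by
  show (if ((0 : I) : ℝ) ≤ 1 / 2 then D.lo (x0 + (2 * ((0 : I) : ℝ)) • ((y : F) - x0))
    else D.up (x0 + (2 - 2 * ((0 : I) : ℝ)) • ((y : F) - x0))) = _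
  rw [if_pos (by norm_num)]
  simp [D.up_eq_lo hx0]

theorem E_one {x0 : F} (y : sphere (0 : F) 1) :
    D.E x0 (y, 1) = D.up x0 := by
  show (if ((1 : I) : ℝ) ≤ 1 / 2 then D.lo (x0 + (2 * ((1 : I) : ℝ)) • ((y : F) - x0))
    else D.up (x0 + (2 - 2 * ((1 : I) : ℝ)) • ((y : F) - x0))) = _
  rw [if_neg (by norm_num)]
  simp

end Dbl

/-- compactness: a continuous function, positive on a compact set, is bounded below. -/
theorem exists_pos_le_of_compact {X : Type*} [TopologicalSpace X] {K : Set X} (hK : IsCompact K)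
    {f : X → ℝ} (hf : Continuous f) (hpos : ∀ x ∈ K, 0 < f x) : ∃ δ > 0, ∀ x ∈ K, δ ≤ f x := by
  rcases K.eq_empty_or_nonempty with rfl | hne
  · exact ⟨1, one_pos, by simp⟩
  · obtain ⟨x, hx, hmin⟩ := hK.exists_isMinOn hne hf.continuousOn
    exact ⟨f x, hpos x hx, fun y hy => hmin hy⟩

theorem isClosed_exists_snd {X : Type*} [TopologicalSpace X] {S : Set (X × I)} (hS : IsClosed S) :
    IsClosed {x : X | ∃ t, (x, t) ∈ S} := by
  have : {x : X | ∃ t, (x, t) ∈ S} = Prod.fst '' S := by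
    ext x; constructor
    · rintro ⟨t, ht⟩; exact ⟨_, ht, rfl⟩
    · rintro ⟨⟨a, t⟩, ht, rfl⟩; exact ⟨t, ht⟩
  rw [this]
  exact isClosedMap_fst_of_compactSpace S hS

/-- Main lemma: after a homotopy rel boundary, the part `t ≤ τ x` of the cube goes to the lower disc
and the part `τ x ≤ t` to the upper disc. -/
theorem separate {ι : Type*} [Fintype ι] [FiniteDimensional ℝ F] (D : Dbl F Y)
    {x0 : F} (hx0 : ‖x0‖ = 1) (hcard : Fintype.card ι + 2 < 2 * finrank ℝ F)
    (f : C((ι → I) × I, Y)) (hf : ∀ z ∈ Bd ι, f z = D.up x0) :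
    ∃ (τ : C(ι → I, I)) (g : C((ι → I) × I, Y)), (∀ z ∈ Bd ι, g z = D.up x0) ∧
      f.HomotopicRel g (Bd ι) ∧ ∀ (x : ι → I) (t : I),
        (t ≤ τ x → D.hc (g (x, t)) ≤ 0) ∧ (τ x ≤ t → 0 ≤ D.hc (g (x, t))) := by
  classical
  obtain ⟨g₀, ⟨K, hK⟩, hg₀⟩ := exists_lipschitz_approx (fun z => D.yc (f z)) (by fun_prop)
    (ε := 1 / 8) (by norm_num)
  -- extended Lipschitz function
  let pr : (ι → ℝ) × ℝ → (ι → I) × I :=
    fun w => (fun i => projIcc 0 1 zero_le_one (w.1 i), projIcc 0 1 zero_le_one w.2)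
  have hpr : LipschitzWith 1 pr := by
    have e1 : LipschitzWith 1 (fun w : (ι → ℝ) × ℝ =>
        (fun i => projIcc (0 : ℝ) 1 zero_le_one (w.1 i) : ι → I)) := by
      refine LipschitzWith.of_dist_le_mul fun a b => ?_
      rw [dist_pi_le_iff (by positivity)]
      intro i
      refine ((LipschitzWith.projIcc zero_le_one).dist_le_mul (a.1 i) (b.1 i)).trans ?_
      gcongr
      exact (dist_le_pi_dist a.1 b.1 i).trans (le_max_left _ _)
    have e2 : LipschitzWith 1 (fun w : (ι → ℝ) × ℝ => projIcc (0 : ℝ) 1 zero_le_one w.2) := by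
      have := (LipschitzWith.projIcc (zero_le_one (α := ℝ))).comp
        (LipschitzWith.prod_snd (α := ι → ℝ) (β := ℝ))
      rw [one_mul] at this
      exact this
    have := e1.prodMk e2
    rw [max_self] at this
    exact this
  have hpr_coe : ∀ z : (ι → I) × I, pr (fun i => (z.1 i : ℝ), (z.2 : ℝ)) = z := by
    intro z
    simp only [pr, projIcc_val]
  obtain ⟨A, B, hA, hB, hAB⟩ := exists_generic hcard (fun w => g₀ (pr w)) (hK.comp hpr)
    (ε := 1 / 16) (by norm_num)
  have hg₀c : Continuous g₀ := hK.continuous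
  -- notation
  let u : (ι → I) × I → F := fun z => D.yc (f z)
  have hu : Continuous u := by fun_prop
  have hu1 : ∀ z, ‖u z‖ ≤ 1 := fun z => D.yc_le _
  let w : (ι → I) × I → F := fun z => g₀ z - u z + A + (z.2 : ℝ) • B
  have hw : Continuous w := by fun_prop
  have hwn : ∀ z, ‖w z‖ < 1 / 4 := by
    intro z
    have h1 : ‖(z.2 : ℝ) • B‖ ≤ ‖B‖ := by
      rw [norm_smul, Real.norm_eq_abs, abs_of_nonneg z.2.2.1]
      exact mul_le_of_le_one_left (norm_nonneg _) z.2.2.2
    calc ‖w z‖ ≤ ‖g₀ z - u z‖ + ‖A‖ + ‖(z.2 : ℝ) • B‖ := norm_add₃_le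
      _ < 1 / 8 + 1 / 16 + 1 / 16 := by
        have := hg₀ z
        have h2 : ‖(z.2 : ℝ) • B‖ < 1 / 16 := lt_of_le_of_lt h1 hB
        have h3 : ‖g₀ z - u z‖ < 1 / 8 := this
        linarith
      _ = 1 / 4 := by norm_num
  let ρ : (ι → I) × I → ℝ := fun z => min 1 (2 * (1 - ‖u z‖))
  have hρ : Continuous ρ := by fun_prop
  have hρ0 : ∀ z, 0 ≤ ρ z := fun z => le_min zero_le_one (by have := hu1 z; linarith)
  have hρ1 : ∀ z, ρ z ≤ 1 := fun z => min_le_left _ _
  have hρz : ∀ z, ‖u z‖ = 1 → ρ z = 0 := by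
    intro z hz; simp [ρ, hz]
  have hρo : ∀ z, ‖u z‖ ≤ 1 / 2 → ρ z = 1 := by
    intro z hz; simp only [ρ]; rw [min_eq_left]; linarith
  let us : ℝ → (ι → I) × I → F := fun s z => u z + (s * ρ z) • w z
  have husc : Continuous (fun p : ℝ × ((ι → I) × I) => us p.1 p.2) := by fun_prop
  have hus_of : ∀ s z, ‖u z‖ = 1 → us s z = u z := by
    intro s z hz; simp [us, hρz z hz]
  have hus0 : ∀ z, us 0 z = u z := by intro z; simp [us]
  -- zeros of u'
  have hzero : ∀ z, us 1 z = 0 → g₀ z + A + (z.2 : ℝ) • B = 0 ∧ ‖u z‖ < 1 := by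
    intro z hz
    have h1 : ‖u z‖ = ‖(1 * ρ z) • w z‖ := by
      have : u z = -((1 * ρ z) • w z) := eq_neg_of_add_eq_zero_left hz
      rw [this, norm_neg]
    have h2 : ‖u z‖ < 1 / 4 := by
      rw [h1, norm_smul, one_mul, Real.norm_eq_abs, abs_of_nonneg (hρ0 z)]
      exact lt_of_le_of_lt (mul_le_of_le_one_left (norm_nonneg _) (hρ1 z)) (hwn z)
    have h3 : ρ z = 1 := hρo z (by linarith)
    refine ⟨?_, by linarith⟩
    have h4 : u z + w z = 0 := by simpa [us, h3] using hz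
    have h5 : u z + w z = g₀ z + A + (z.2 : ℝ) • B := by simp only [w]; abel
    rw [← h5, h4]
  have hsep : ∀ (x : ι → I) (t₁ t₂ : I), us 1 (x, t₁) = 0 → us 1 (x, t₂) = 0 → t₁ = t₂ := by
    intro x t₁ t₂ h1 h2
    have e1 := (hzero _ h1).1
    have e2 := (hzero _ h2).1
    have := hAB (fun i => (x i : ℝ)) t₁ t₂
      (by have h := hpr_coe (x, t₁); simp only at h; rw [h]; exact e1)
      (by have h := hpr_coe (x, t₂); simp only at h; rw [h]; exact e2)
    exact Subtype.ext this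
  let h : (ι → I) × I → ℝ := fun z => D.hc (f z)
  have hh : Continuous h := by fun_prop
  have hh0 : ∀ z, h z = 0 ↔ ‖u z‖ = 1 := fun z => D.hc_eq _
  have hus1c : Continuous (us 1) := husc.comp (by fun_prop : Continuous (fun z => ((1 : ℝ), z)))
  let Zp : Set (ι → I) := {x | ∃ t, (x, t) ∈ {z | us 1 z = 0 ∧ 0 ≤ h z}}
  let Zm : Set (ι → I) := {x | ∃ t, (x, t) ∈ {z | us 1 z = 0 ∧ h z ≤ 0}}
  have hZp : IsClosed Zp := isClosed_exists_snd
    ((isClosed_eq hus1c continuous_const).inter (isClosed_le continuous_const hh))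
  have hZm : IsClosed Zm := isClosed_exists_snd
    ((isClosed_eq hus1c continuous_const).inter (isClosed_le hh continuous_const))
  have hdisj : Disjoint Zp Zm := by
    rw [Set.disjoint_left]
    rintro x ⟨t₁, h1, h1'⟩ ⟨t₂, h2, h2'⟩
    have := hsep x t₁ t₂ h1 h2
    subst this
    have h3 : h (x, t₁) = 0 := le_antisymm h2' h1'
    rw [hh0] at h3
    exact absurd h3 (ne_of_lt (hzero _ h1).2)
  obtain ⟨τ₀, hτ0, hτ1, hτI⟩ := exists_continuous_zero_one_of_isClosed hZp hZm hdisj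
  let τ : C(ι → I, I) := ⟨fun x => ⟨τ₀ x, hτI x⟩, by fun_prop⟩
  have hbdu : ∀ z ∈ Bd ι, u z = x0 := by
    intro z hz
    simp only [u, hf z hz]
    exact D.yc_up_base hx0
  have hne_bd : ∀ z ∈ Bd ι, us 1 z ≠ 0 := by
    intro z hz h0
    have := (hzero z h0).2
    rw [hbdu z hz, hx0] at this
    exact lt_irrefl _ this
  obtain ⟨δ₁, hδ₁, hδ₁'⟩ := exists_pos_le_of_compact (K := {z : (ι → I) × I | z.2 ≤ τ z.1 ∧ 0 ≤ h z})
    (IsClosed.isCompact ((isClosed_le (by fun_prop) (by fun_prop)).inter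
      (isClosed_le continuous_const hh))) (f := fun z => ‖us 1 z‖) hus1c.norm (by
      rintro ⟨x, t⟩ ⟨h1, h2⟩
      rw [norm_pos_iff]
      intro h0
      have hx : x ∈ Zp := ⟨t, h0, h2⟩
      have h3 : τ x = 0 := Subtype.ext (show τ₀ x = 0 by simpa using hτ0 hx)
      simp only [h3] at h1
      have h4 : t = 0 := le_antisymm h1 (unitInterval.nonneg' )
      exact hne_bd (x, t) (Or.inr (Or.inl h4)) h0)
  obtain ⟨δ₂, hδ₂, hδ₂'⟩ := exists_pos_le_of_compact (K := {z : (ι → I) × I | τ z.1 ≤ z.2 ∧ h z ≤ 0})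
    (IsClosed.isCompact ((isClosed_le (by fun_prop) (by fun_prop)).inter
      (isClosed_le hh continuous_const))) (f := fun z => ‖us 1 z‖) hus1c.norm (by
      rintro ⟨x, t⟩ ⟨h1, h2⟩
      rw [norm_pos_iff]
      intro h0
      have hx : x ∈ Zm := ⟨t, h0, h2⟩
      have h3 : τ x = 1 := Subtype.ext (show τ₀ x = 1 by simpa using hτ1 hx)
      simp only [h3] at h1
      have h4 : t = 1 := le_antisymm (unitInterval.le_one') h1
      exact hne_bd (x, t) (Or.inr (Or.inr h4)) h0)
  let δ : ℝ := min 1 (min δ₁ δ₂)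
  have hδ : 0 < δ := by positivity
  have hδ1 : δ ≤ 1 := min_le_left _ _
  have hδδ₁ : δ ≤ δ₁ := (min_le_right _ _).trans (min_le_left _ _)
  have hδδ₂ : δ ≤ δ₂ := (min_le_right _ _).trans (min_le_right _ _)
  let κ : ℝ → ℝ := fun s => 1 - s * (1 - δ)
  have hκ : ∀ s : I, 0 < κ s ∧ κ s ≤ 1 := by
    intro s
    have h1 := s.2.1
    have h2 := s.2.2
    constructor
    · simp only [κ]; nlinarith
    · simp only [κ]; nlinarith
  let V : I × ((ι → I) × I) → F := fun p => (max (κ p.1) ‖us p.1 p.2‖)⁻¹ • us p.1 p.2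
  have hmax : ∀ p : I × ((ι → I) × I), 0 < max (κ p.1) ‖us p.1 p.2‖ :=
    fun p => lt_max_of_lt_left (hκ p.1).1
  have hus' : Continuous (fun p : I × ((ι → I) × I) => us p.1 p.2) :=
    husc.comp (by fun_prop : Continuous (fun p : I × ((ι → I) × I) => ((p.1 : ℝ), p.2)))
  have hV : Continuous V := by
    refine Continuous.smul (Continuous.inv₀ ?_ fun p => (hmax p).ne') hus'
    exact (by fun_prop : Continuous (fun p : I × ((ι → I) × I) => κ p.1)).max hus'.norm
  have hV1 : ∀ p, ‖V p‖ ≤ 1 := by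
    intro p
    simp only [V, norm_smul, norm_inv, Real.norm_eq_abs, abs_of_pos (hmax p)]
    rw [inv_mul_le_iff₀ (hmax p), mul_one]
    exact le_max_right _ _
  have hVof : ∀ (s : I) z, ‖u z‖ = 1 → V (s, z) = u z := by
    intro s z hz
    simp only [V]
    rw [hus_of _ z hz, hz, max_eq_right (hκ s).2]
    simp
  have hV0 : ∀ z, V (0, z) = u z := by
    intro z
    have : κ ((0 : I) : ℝ) = 1 := by simp [κ]
    simp only [V]
    rw [this]
    simp only [Icc.coe_zero, hus0]
    rw [max_eq_left (hu1 z)]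
    simp
  let H : I × ((ι → I) × I) → Y := fun p => if 0 ≤ h p.2 then D.up (V p) else D.lo (V p)
  have hH : Continuous H := by
    refine Continuous.if_le (by fun_prop) (by fun_prop) continuous_const (by fun_prop) ?_
    intro p hp
    have h1 : ‖u p.2‖ = 1 := (hh0 _).1 hp.symm
    have h2 : V p = u p.2 := hVof p.1 p.2 h1
    rw [h2]
    exact D.up_eq_lo h1
  have hH0 : ∀ z, H (0, z) = f z := by
    intro z
    simp only [H, hV0]
    split_ifs with h1
    · exact D.up_yc _ h1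
    · exact D.lo_yc _ (not_le.1 h1).le
  have hHbd : ∀ (s : I), ∀ z ∈ Bd ι, H (s, z) = f z := by
    intro s z hz
    have h1 : ‖u z‖ = 1 := by rw [hbdu z hz, hx0]
    simp only [H, hVof s z h1]
    split_ifs with h1
    · exact D.up_yc _ h1
    · exact D.lo_yc _ (not_le.1 h1).le
  let g : C((ι → I) × I, Y) := ⟨fun z => H (1, z), by fun_prop⟩
  have hκ1 : κ ((1 : I) : ℝ) = δ := by simp [κ]
  have hV1' : ∀ z, δ ≤ ‖us 1 z‖ → ‖V (1, z)‖ = 1 := by
    intro z hz
    simp only [V]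
    rw [hκ1]
    simp only [Icc.coe_one]
    rw [max_eq_right hz, norm_smul, norm_inv, norm_norm]
    exact inv_mul_cancel₀ (by linarith)
  refine ⟨τ, g, ?_, homotopicRel_mk H hH hH0 (fun _ => rfl) hHbd, ?_⟩
  · intro z hz
    show H (1, z) = _
    rw [hHbd 1 z hz, hf z hz]
  · intro x t
    constructor
    · intro ht
      show D.hc (H (1, (x, t))) ≤ 0
      simp only [H]
      split_ifs with h1
      · have h2 : δ ≤ ‖us 1 (x, t)‖ := hδδ₁.trans (hδ₁' (x, t) ⟨ht, h1⟩)
        rw [D.hc_up_base (hV1' _ h2)]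
      · exact D.hc_lo _
    · intro ht
      show 0 ≤ D.hc (H (1, (x, t)))
      simp only [H]
      split_ifs with h1
      · exact D.hc_up _
      · have h2 : δ ≤ ‖us 1 (x, t)‖ := hδδ₂.trans (hδ₂' (x, t) ⟨ht, (not_le.1 h1).le⟩)
        rw [← D.up_eq_lo (hV1' _ h2), D.hc_up_base (hV1' _ h2)]

end Crest.Agent.R204.Freu297
end

-- ▼ part R204/FreuC_297
section

/-!
Row 204, block H: the suspension step of Freudenthal surjectivity, final form `Dbl.step`.
-/

open Set Metric Module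
open scoped unitInterval Topology NNReal ENNReal

namespace Crest.Agent.R204.Freu297

variable {F : Type*} [NormedAddCommGroup F] [NormedSpace ℝ F] {Y : Type*} [TopologicalSpace Y]

theorem Dbl.straighten {ι : Type*} (D : Dbl F Y) {x0 : F} (hx0 : ‖x0‖ = 1)
    (τ : C(ι → I, I)) (g : C((ι → I) × I, Y)) (hg : ∀ z ∈ Bd ι, g z = D.up x0)
    (hτ : ∀ (x : ι → I) (t : I),
        (t ≤ τ x → D.hc (g (x, t)) ≤ 0) ∧ (τ x ≤ t → 0 ≤ D.hc (g (x, t)))) :
    ∃ b : C(ι → I, sphere (0 : F) 1), (∀ x ∈ Cube.boundary ι, (b x : F) = x0) ∧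
      g.HomotopicRel ((D.E x0).comp (b.prodMap (ContinuousMap.id I))) (Bd ι) := by
  classical
  have hb1 : ∀ x : ι → I, ‖D.yc (g (x, τ x))‖ = 1 := by
    intro x
    rw [← D.hc_eq]
    exact le_antisymm ((hτ x (τ x)).1 le_rfl) ((hτ x (τ x)).2 le_rfl)
  let b : C(ι → I, sphere (0 : F) 1) :=
    ⟨fun x => ⟨D.yc (g (x, τ x)), by simpa using hb1 x⟩, by fun_prop⟩
  have hb : ∀ x, (b x : F) = D.yc (g (x, τ x)) := fun _ => rfl
  have hgy : ∀ z ∈ Bd ι, D.yc (g z) = x0 := by
    intro z hz; rw [hg z hz]; exact D.yc_up_base hx0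
  have hbbd : ∀ x ∈ Cube.boundary ι, (b x : F) = x0 := fun x hx => hgy _ (Or.inl hx)
  refine ⟨b, hbbd, ?_⟩
  -- real-parameter version of g
  let g' : (ι → I) × ℝ → Y := fun p => g (p.1, projIcc 0 1 zero_le_one p.2)
  have hg' : Continuous g' := by
    have : Continuous (fun p : (ι → I) × ℝ => (p.1, projIcc (0 : ℝ) 1 zero_le_one p.2)) :=
      continuous_fst.prodMk (continuous_projIcc.comp continuous_snd)
    exact g.continuous.comp this
  have hg'I : ∀ (x : ι → I) (t : I), g' (x, (t : ℝ)) = g (x, t) := by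
    intro x t; simp only [g', projIcc_val]
  -- θ
  let θ : (ι → I) × I → ℝ := fun z => if (z.2 : ℝ) ≤ 1 / 2 then 2 * (z.2 : ℝ) * (τ z.1 : ℝ)
    else (τ z.1 : ℝ) + (2 * (z.2 : ℝ) - 1) * (1 - (τ z.1 : ℝ))
  have hθ : Continuous θ := by
    refine Continuous.if_le (by fun_prop) (by fun_prop) (by fun_prop) (by fun_prop) ?_
    rintro ⟨x, t⟩ ht
    simp only at ht ⊢
    rw [ht]; ring
  have hθI : ∀ z, 0 ≤ θ z ∧ θ z ≤ 1 := by
    rintro ⟨x, t⟩
    have h1 := (τ x).2.1
    have h2 := (τ x).2.2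
    have h3 := t.2.1
    have h4 := t.2.2
    simp only [θ]
    split_ifs with h
    · constructor
      · positivity
      · nlinarith
    · have h' : (1 : ℝ) / 2 < t := not_le.1 h
      constructor
      · nlinarith
      · nlinarith
  have hθlo : ∀ x (t : I), (t : ℝ) ≤ 1 / 2 → θ (x, t) ≤ τ x := by
    intro x t h
    have h1 := (τ x).2.1
    simp only [θ]
    rw [if_pos h]
    nlinarith
  have hθhi : ∀ x (t : I), 1 / 2 ≤ (t : ℝ) → (τ x : ℝ) ≤ θ (x, t) := by
    intro x t h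
    have h1 := (τ x).2.2
    simp only [θ]
    split_ifs with h'
    · have : (t : ℝ) = 1 / 2 := le_antisymm h' h
      rw [this]; linarith
    · nlinarith
  have hθ0 : ∀ x, θ (x, 0) = 0 := by
    intro x; simp only [θ]; rw [if_pos (by norm_num)]; simp
  have hθ1 : ∀ x, θ (x, 1) = 1 := by
    intro x; simp only [θ]; rw [if_neg (by norm_num)]; simp; ring
  -- reparametrised map
  let g2 : C((ι → I) × I, Y) := ⟨fun z => g' (z.1, θ z), hg'.comp (by fun_prop)⟩
  have hg2 : ∀ z, g2 z = g' (z.1, θ z) := fun _ => rfl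
  have step1 : g.HomotopicRel g2 (Bd ι) := by
    refine homotopicRel_mk
      (fun p => g' (p.2.1, (1 - (p.1 : ℝ)) * (p.2.2 : ℝ) + (p.1 : ℝ) * θ p.2)) ?_ ?_ ?_ ?_
    · exact hg'.comp (by fun_prop)
    · rintro ⟨x, t⟩
      simp [hg'I]
    · rintro ⟨x, t⟩
      simp [hg2]
    · rintro s ⟨x, t⟩ (hx | hx | hx)
      · have e : ∀ r : I, g (x, r) = D.up x0 := fun r => hg (x, r) (Or.inl hx)
        show g (x, projIcc 0 1 zero_le_one _) = g (x, t)
        rw [e, e]
      · simp only at hx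
        subst hx
        simp only [hθ0]
        simp [g']
      · simp only at hx
        subst hx
        simp only [hθ1]
        simp only [Icc.coe_one]
        rw [show (1 - (s : ℝ)) * 1 + (s : ℝ) * 1 = ((1 : I) : ℝ) by simp]
        rw [hg'I]
  refine step1.trans ?_
  -- straight line homotopy
  let P : I × ((ι → I) × I) → F := fun p =>
    (1 - (p.1 : ℝ)) • D.yc (g2 p.2) + (p.1 : ℝ) • (x0 + (2 * (p.2.2 : ℝ)) • ((b p.2.1 : F) - x0))
  let Q : I × ((ι → I) × I) → F := fun p =>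
    (1 - (p.1 : ℝ)) • D.yc (g2 p.2) +
      (p.1 : ℝ) • (x0 + (2 - 2 * (p.2.2 : ℝ)) • ((b p.2.1 : F) - x0))
  have hbc : Continuous (fun x => (b x : F)) := by fun_prop
  have hP : Continuous P := by fun_prop
  have hQ : Continuous Q := by fun_prop
  have hg2half : ∀ x (t : I), (t : ℝ) = 1 / 2 → g2 (x, t) = g (x, τ x) := by
    intro x t ht
    rw [hg2]
    have : θ (x, t) = τ x := le_antisymm (hθlo x t ht.le) (hθhi x t ht.ge)
    simp only [this]
    exact hg'I x _
  have hmem : ∀ z, ∃ t' : I, (t' : ℝ) = θ z ∧ g2 z = g (z.1, t') := by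
    intro z
    refine ⟨⟨θ z, hθI z⟩, rfl, ?_⟩
    rw [hg2, ← hg'I]
  refine homotopicRel_mk
    (fun p => if (p.2.2 : ℝ) ≤ 1 / 2 then D.lo (P p) else D.up (Q p)) ?_ ?_ ?_ ?_
  · refine Continuous.if_le (by fun_prop) (by fun_prop) (by fun_prop) (by fun_prop) ?_
    rintro ⟨s, x, t⟩ ht
    simp only at ht
    have h1 : P (s, x, t) = b x := by
      simp only [P]
      rw [hg2half x t ht, ← hb, ht]
      norm_num
      rw [← add_smul]; simp
    have h2 : Q (s, x, t) = b x := by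
      simp only [Q]
      rw [hg2half x t ht, ← hb, ht]
      norm_num
      rw [← add_smul]; simp
    rw [h1, h2]
    exact (D.up_eq_lo (by rw [hb]; exact hb1 x)).symm
  · rintro ⟨x, t⟩
    have h1 : P (0, x, t) = D.yc (g2 (x, t)) := by simp [P]
    have h2 : Q (0, x, t) = D.yc (g2 (x, t)) := by simp [Q]
    rw [h1, h2]
    obtain ⟨t', ht', e⟩ := hmem (x, t)
    simp only at e
    split_ifs with h
    · refine D.lo_yc _ ?_
      rw [e]
      refine (hτ x t').1 ?_
      rw [← Subtype.coe_le_coe, ht']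
      exact hθlo x t h
    · refine D.up_yc _ ?_
      rw [e]
      refine (hτ x t').2 ?_
      rw [← Subtype.coe_le_coe, ht']
      exact hθhi x t (not_le.1 h).le
  · rintro ⟨x, t⟩
    have h1 : P (1, x, t) = x0 + (2 * (t : ℝ)) • ((b x : F) - x0) := by simp [P]
    have h2 : Q (1, x, t) = x0 + (2 - 2 * (t : ℝ)) • ((b x : F) - x0) := by simp [Q]
    rw [h1, h2]
    rfl
  · rintro s ⟨x, t⟩ hz
    have hbz : g2 (x, t) = D.up x0 := by
      rcases hz with hx | hx | hx
      · exact hg _ (Or.inl hx)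
      · simp only at hx; subst hx
        rw [hg2]; simp only [hθ0]
        have := hg'I x 0
        simp only [Icc.coe_zero] at this
        rw [this, hg _ (Or.inr (Or.inl rfl))]
      · simp only at hx; subst hx
        rw [hg2]; simp only [hθ1]
        have := hg'I x 1
        simp only [Icc.coe_one] at this
        rw [this, hg _ (Or.inr (Or.inr rfl))]
    have hyc : D.yc (g2 (x, t)) = x0 := by rw [hbz]; exact D.yc_up_base hx0
    rw [hbz]
    have hs : ∀ v : F, v = x0 → (1 - (s : ℝ)) • x0 + (s : ℝ) • v = x0 := by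
      intro v hv; rw [hv, ← add_smul]; simp
    rcases hz with hx | hx | hx
    · have hbx : (b x : F) = x0 := hbbd x hx
      have h1 : P (s, x, t) = x0 := by
        simp only [P]; rw [hyc, hbx]; exact hs _ (by simp)
      have h2 : Q (s, x, t) = x0 := by
        simp only [Q]; rw [hyc, hbx]; exact hs _ (by simp)
      rw [h1, h2]
      split_ifs
      · exact (D.up_eq_lo hx0).symm
      · rfl
    · simp only at hx; subst hx
      have h1 : P (s, x, 0) = x0 := by
        simp only [P]; rw [hyc]; exact hs _ (by simp)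
      rw [h1, if_pos (by norm_num)]
      exact (D.up_eq_lo hx0).symm
    · simp only at hx; subst hx
      have h2 : Q (s, x, 1) = x0 := by
        simp only [Q]; rw [hyc]; exact hs _ (by simp)
      rw [h2, if_neg (by norm_num)]

/-- **Freudenthal step**. If `card ι + 2 < 2 dim F` (i.e. `card ι ≤ 2 m - 1`, `m + 1 = dim F`), every
map of `(ι → I) × I` into the "suspension" `Y` of `S(F)`, constant on the boundary, is homotopic rel
boundary to `(x, t) ↦ E (b x) t` for some `b : (ι → I) → S(F)` constant on the boundary. -/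
theorem Dbl.step {ι : Type*} [Fintype ι] [FiniteDimensional ℝ F] (D : Dbl F Y)
    {x0 : F} (hx0 : ‖x0‖ = 1) (hcard : Fintype.card ι + 2 < 2 * finrank ℝ F)
    (f : C((ι → I) × I, Y)) (hf : ∀ z ∈ Bd ι, f z = D.up x0) :
    ∃ b : C(ι → I, sphere (0 : F) 1), (∀ x ∈ Cube.boundary ι, (b x : F) = x0) ∧
      f.HomotopicRel ((D.E x0).comp (b.prodMap (ContinuousMap.id I))) (Bd ι) := by
  obtain ⟨τ, g, hg, hfg, hτ⟩ := separate D hx0 hcard f hf
  obtain ⟨b, hb, hgb⟩ := D.straighten hx0 τ g hg hτ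
  exact ⟨b, hb, hfg.trans hgb⟩

end Crest.Agent.R204.Freu297
end

-- ▼ part R204/FreuD_297

/-!
Row 204, block H: Freudenthal surjectivity for the metric spheres of `EuclideanSpace ℝ (Fin (n+1))`
and Mathlib's `GenLoop`.
-/

open Set Metric Module
open scoped unitInterval Topology NNReal ENNReal

namespace Crest.Agent.R204.Freu297

/-- the unit `n`-sphere as in S0314 / S0315 -/
abbrev Sph (n : ℕ) : Type := Metric.sphere (0 : EuclideanSpace ℝ (Fin (n + 1))) 1

/-- append a coordinate -/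
noncomputable def snocE {n : ℕ} (v : EuclideanSpace ℝ (Fin n)) (h : ℝ) :
    EuclideanSpace ℝ (Fin (n + 1)) :=
  WithLp.toLp 2 (Fin.snoc (α := fun _ => ℝ) v h)

/-- forget the last coordinate -/
noncomputable def initE {n : ℕ} (v : EuclideanSpace ℝ (Fin (n + 1))) : EuclideanSpace ℝ (Fin n) :=
  WithLp.toLp 2 (fun i => v (Fin.castSucc i))

@[simp] theorem snocE_castSucc {n : ℕ} (v : EuclideanSpace ℝ (Fin n)) (h : ℝ) (i : Fin n) :
    snocE v h (Fin.castSucc i) = v i := by simp [snocE]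

@[simp] theorem snocE_last {n : ℕ} (v : EuclideanSpace ℝ (Fin n)) (h : ℝ) :
    snocE v h (Fin.last n) = h := by simp [snocE]

@[simp] theorem initE_apply {n : ℕ} (v : EuclideanSpace ℝ (Fin (n + 1))) (i : Fin n) :
    initE v i = v (Fin.castSucc i) := rfl

theorem snocE_initE {n : ℕ} (v : EuclideanSpace ℝ (Fin (n + 1))) :
    snocE (initE v) (v (Fin.last n)) = v := by
  ext i
  refine Fin.lastCases ?_ (fun j => ?_) i
  · simp
  · simp

theorem initE_snocE {n : ℕ} (v : EuclideanSpace ℝ (Fin n)) (h : ℝ) : initE (snocE v h) = v := by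
  ext i; simp

theorem norm_snocE_sq {n : ℕ} (v : EuclideanSpace ℝ (Fin n)) (h : ℝ) :
    ‖snocE v h‖ ^ 2 = ‖v‖ ^ 2 + h ^ 2 := by
  rw [EuclideanSpace.real_norm_sq_eq, EuclideanSpace.real_norm_sq_eq, Fin.sum_univ_castSucc]
  simp

theorem norm_sq_eq_init {n : ℕ} (v : EuclideanSpace ℝ (Fin (n + 1))) :
    ‖v‖ ^ 2 = ‖initE v‖ ^ 2 + (v (Fin.last n)) ^ 2 := by
  conv_lhs => rw [← snocE_initE v]
  exact norm_snocE_sq _ _

theorem continuous_snocE {n : ℕ} :
    Continuous (fun p : EuclideanSpace ℝ (Fin n) × ℝ => snocE p.1 p.2) := by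
  refine (PiLp.continuous_toLp 2 _).comp ?_
  refine continuous_pi fun i => ?_
  refine Fin.lastCases ?_ (fun j => ?_) i
  · simpa using continuous_snd
  · simp only [Fin.snoc_castSucc]
    fun_prop

theorem continuous_initE {n : ℕ} :
    Continuous (fun v : EuclideanSpace ℝ (Fin (n + 1)) => initE v) := by
  refine (PiLp.continuous_toLp 2 _).comp ?_
  fun_prop

/-- radial retraction to the unit ball -/
noncomputable def clamp {F : Type*} [NormedAddCommGroup F] [NormedSpace ℝ F] (v : F) : F :=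
  (max 1 ‖v‖)⁻¹ • v

section clamp
variable {F : Type*} [NormedAddCommGroup F] [NormedSpace ℝ F]

theorem clamp_of_le {v : F} (hv : ‖v‖ ≤ 1) : clamp v = v := by
  simp [clamp, max_eq_left hv]

theorem norm_clamp_le (v : F) : ‖clamp v‖ ≤ 1 := by
  have h : 0 < max 1 ‖v‖ := lt_max_of_lt_left one_pos
  rw [clamp, norm_smul, norm_inv, Real.norm_eq_abs, abs_of_pos h, inv_mul_le_iff₀ h, mul_one]
  exact le_max_right _ _

theorem continuous_clamp : Continuous (clamp : F → F) := by
  refine Continuous.smul (Continuous.inv₀ (by fun_prop) fun v => ?_) continuous_id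
  exact (lt_max_of_lt_left one_pos).ne'

end clamp

theorem norm_snocE_one {n : ℕ} (v : EuclideanSpace ℝ (Fin n)) (hv : ‖v‖ ≤ 1) (ε : ℝ)
    (hε : ε ^ 2 = 1) : ‖snocE v (ε * √(1 - ‖v‖ ^ 2))‖ = 1 := by
  have h1 : 0 ≤ 1 - ‖v‖ ^ 2 := by nlinarith [norm_nonneg v]
  have h2 : ‖snocE v (ε * √(1 - ‖v‖ ^ 2))‖ ^ 2 = 1 := by
    rw [norm_snocE_sq, mul_pow, hε, Real.sq_sqrt h1]; ring
  have h3 : 0 ≤ ‖snocE v (ε * √(1 - ‖v‖ ^ 2))‖ := norm_nonneg _
  nlinarith

/-- The metric sphere `S^{m+1}` as a double of the unit ball of `ℝ^{m+1}`. -/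
noncomputable def sphDbl (m : ℕ) : Dbl (EuclideanSpace ℝ (Fin (m + 1))) (Sph (m + 1)) where
  yc := ⟨fun y => initE y.1, continuous_initE.comp continuous_subtype_val⟩
  hc := ⟨fun y => y.1 (Fin.last _), by fun_prop⟩
  up := ⟨fun v => ⟨snocE (clamp v) (1 * √(1 - ‖clamp v‖ ^ 2)), by
      simpa using norm_snocE_one (clamp v) (norm_clamp_le v) 1 (by norm_num)⟩, by
    refine Continuous.subtype_mk ?_ _
    exact continuous_snocE.comp (continuous_clamp.prodMk
      (continuous_const.mul (continuous_const.sub (continuous_clamp.norm.pow 2)).sqrt))⟩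
  lo := ⟨fun v => ⟨snocE (clamp v) (-1 * √(1 - ‖clamp v‖ ^ 2)), by
      simpa using norm_snocE_one (clamp v) (norm_clamp_le v) (-1) (by norm_num)⟩, by
    refine Continuous.subtype_mk ?_ _
    exact continuous_snocE.comp (continuous_clamp.prodMk
      (continuous_const.mul (continuous_const.sub (continuous_clamp.norm.pow 2)).sqrt))⟩
  yc_le := by
    rintro ⟨y, hy⟩
    have hy' : ‖y‖ = 1 := by simpa using hy
    have := norm_sq_eq_init y
    show ‖initE y‖ ≤ 1
    rw [hy'] at this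
    nlinarith [norm_nonneg (initE y), sq_nonneg (y (Fin.last _))]
  hc_eq := by
    rintro ⟨y, hy⟩
    have hy' : ‖y‖ = 1 := by simpa using hy
    have := norm_sq_eq_init y
    rw [hy'] at this
    show y (Fin.last _) = 0 ↔ ‖initE y‖ = 1
    constructor
    · intro h
      rw [h] at this
      nlinarith [norm_nonneg (initE y)]
    · intro h
      rw [h] at this
      have h2 : (y (Fin.last _)) ^ 2 = 0 := by linarith
      exact pow_eq_zero_iff (two_ne_zero) |>.1 h2
  up_yc := by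
    rintro ⟨y, hy⟩ hh
    have hy' : ‖y‖ = 1 := by simpa using hy
    have h0 := norm_sq_eq_init y
    rw [hy'] at h0
    have h1 : ‖initE y‖ ≤ 1 := by
      nlinarith [norm_nonneg (initE y), sq_nonneg (y (Fin.last _))]
    apply Subtype.ext
    show snocE (clamp (initE y)) (1 * √(1 - ‖clamp (initE y)‖ ^ 2)) = y
    rw [clamp_of_le h1]
    have h2 : √(1 - ‖initE y‖ ^ 2) = y (Fin.last _) := by
      rw [show 1 - ‖initE y‖ ^ 2 = (y (Fin.last _)) ^ 2 by linarith]
      exact Real.sqrt_sq hh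
    rw [h2, one_mul]
    exact snocE_initE y
  lo_yc := by
    rintro ⟨y, hy⟩ hh
    have hy' : ‖y‖ = 1 := by simpa using hy
    have h0 := norm_sq_eq_init y
    rw [hy'] at h0
    have h1 : ‖initE y‖ ≤ 1 := by
      nlinarith [norm_nonneg (initE y), sq_nonneg (y (Fin.last _))]
    apply Subtype.ext
    show snocE (clamp (initE y)) (-1 * √(1 - ‖clamp (initE y)‖ ^ 2)) = y
    rw [clamp_of_le h1]
    have h2 : √(1 - ‖initE y‖ ^ 2) = -y (Fin.last _) := by
      rw [show 1 - ‖initE y‖ ^ 2 = (-y (Fin.last _)) ^ 2 by rw [neg_sq]; linarith]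
      exact Real.sqrt_sq (by have : y (Fin.last _) ≤ 0 := hh; linarith)
    rw [h2, neg_one_mul, neg_neg]
    exact snocE_initE y
  yc_up := by
    intro v hv
    show initE (snocE (clamp v) (1 * √(1 - ‖clamp v‖ ^ 2))) = v
    rw [initE_snocE, clamp_of_le hv]
  yc_lo := by
    intro v hv
    show initE (snocE (clamp v) (-1 * √(1 - ‖clamp v‖ ^ 2))) = v
    rw [initE_snocE, clamp_of_le hv]
  hc_up := by
    intro v
    show 0 ≤ snocE (clamp v) (1 * √(1 - ‖clamp v‖ ^ 2)) (Fin.last _)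
    rw [snocE_last, one_mul]
    exact Real.sqrt_nonneg _
  hc_lo := by
    intro v
    show snocE (clamp v) (-1 * √(1 - ‖clamp v‖ ^ 2)) (Fin.last _) ≤ 0
    rw [snocE_last]
    have := Real.sqrt_nonneg (1 - ‖clamp v‖ ^ 2)
    linarith

/-- base point `(1, 0, …, 0)` of the sphere -/
noncomputable def pt (n : ℕ) : Sph n := ⟨EuclideanSpace.single 0 1, by simp⟩

theorem pt_succ (m : ℕ) : (sphDbl m).up ((pt m : Sph m) : EuclideanSpace ℝ (Fin (m + 1))) =
    pt (m + 1) := by
  have h1 : ‖((pt m : Sph m) : EuclideanSpace ℝ (Fin (m + 1)))‖ = 1 := by simp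
  apply Subtype.ext
  show snocE (clamp ((pt m : Sph m) : EuclideanSpace ℝ (Fin (m + 1)))) (1 * √(1 - ‖clamp _‖ ^ 2)) = _
  rw [clamp_of_le h1.le, h1]
  ext i
  refine Fin.lastCases ?_ (fun j => ?_) i
  · simp [pt]
  · rw [snocE_castSucc]
    simp only [pt, PiLp.single_apply]
    by_cases h : j = 0
    · subst h
      rw [if_pos rfl, if_pos Fin.castSucc_zero]
    · rw [if_neg h, if_neg (fun h' => h (Fin.castSucc_injective _ (h'.trans Fin.castSucc_zero.symm)))]

theorem norm_pt (n : ℕ) : ‖((pt n : Sph n) : EuclideanSpace ℝ (Fin (n + 1)))‖ = 1 := by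
  simp

/-- currying into `GenLoop` -/
noncomputable def curryLoop {T X : Type*} [TopologicalSpace T] [TopologicalSpace X] {x : X}
    {J : Type*} (Φ : C(T × (J → I), X)) (h : ∀ t, ∀ w ∈ Cube.boundary J, Φ (t, w) = x) :
    C(T, GenLoop J X x) where
  toFun t := ⟨Φ.curry t, fun w hw => h t w hw⟩
  continuous_toFun := Continuous.subtype_mk Φ.curry.continuous _

/-- loop coordinate suspension `Ω^J S^n → Ω^{J+1} S^{n+1}` -/
noncomputable def susp (n J : ℕ) :
    C(GenLoop (Fin J) (Sph n) (pt n), GenLoop (Fin (J + 1)) (Sph (n + 1)) (pt (n + 1))) :=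
  curryLoop ⟨fun p => (sphDbl n).E (pt n : Sph n) (p.1 (Fin.init p.2), p.2 (Fin.last J)), by
      have h1 : Continuous (fun p : GenLoop (Fin J) (Sph n) (pt n) × (Fin (J + 1) → I) =>
          (p.1 (Fin.init p.2) : Sph n)) := by
        have : Continuous (fun p : GenLoop (Fin J) (Sph n) (pt n) × (Fin (J + 1) → I) =>
            (p.1, (Fin.init p.2 : Fin J → I))) :=
          continuous_fst.prodMk (continuous_pi fun i => by
            show Continuous fun p : GenLoop (Fin J) (Sph n) (pt n) × (Fin (J + 1) → I) =>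
              p.2 (Fin.castSucc i)
            fun_prop)
        exact continuous_eval.comp this
      exact ((sphDbl n).E _).continuous.comp (h1.prodMk (by fun_prop))⟩ (by
    rintro β w ⟨i, hi⟩
    show (sphDbl n).E _ (β (Fin.init w), w (Fin.last J)) = _
    refine Fin.lastCases (motive := fun i => w i = 0 ∨ w i = 1 → _) ?_ (fun j => ?_) i hi
    · rintro (h | h)
      · rw [h, (sphDbl n).E_zero (norm_pt n), pt_succ]
      · rw [h, (sphDbl n).E_one, pt_succ]
    · intro h
      have h1 : β (Fin.init w) = pt n := β.2 _ ⟨j, h⟩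
      rw [h1]
      rw [← pt_succ]
      exact (sphDbl n).E_base (norm_pt n) _ _)

theorem susp_apply (n J : ℕ) (β : GenLoop (Fin J) (Sph n) (pt n)) (w : Fin (J + 1) → I) :
    susp n J β w = (sphDbl n).E (pt n : Sph n) (β (Fin.init w), w (Fin.last J)) := rfl

theorem susp_const (n J : ℕ) : susp n J GenLoop.const = GenLoop.const := by
  apply GenLoop.ext
  intro w
  rw [susp_apply]
  show (sphDbl n).E _ (pt n, w (Fin.last J)) = pt (n + 1)
  rw [← pt_succ]
  exact (sphDbl n).E_base (norm_pt n) _ _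

/-- `S^m → Ω^0 S^m` -/
noncomputable def toLoop0 (m : ℕ) : C(Sph m, GenLoop (Fin 0) (Sph m) (pt m)) where
  toFun y := ⟨ContinuousMap.const _ y, by rintro w ⟨i, _⟩; exact i.elim0⟩
  continuous_toFun := Continuous.subtype_mk ContinuousMap.continuous_const' _

/-- the iterated suspension map `S^m → Ω^J S^{m+J}` -/
noncomputable def EJ (m : ℕ) : (J : ℕ) → C(Sph m, GenLoop (Fin J) (Sph (m + J)) (pt (m + J)))
  | 0 => toLoop0 m
  | J + 1 => (susp (m + J) J).comp (EJ m J)

theorem EJ_pt (m J : ℕ) : EJ m J (pt m) = GenLoop.const := by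
  induction J with
  | zero => rfl
  | succ J ih =>
    show susp (m + J) J (EJ m J (pt m)) = _
    rw [ih, susp_const]

theorem step_loop {q n J : ℕ} (hq : q + J + 2 < 2 * (n + 1))
    (a : C(Fin q → I, GenLoop (Fin (J + 1)) (Sph (n + 1)) (pt (n + 1))))
    (ha : ∀ x ∈ Cube.boundary (Fin q), a x = GenLoop.const) :
    ∃ b : C(Fin q → I, GenLoop (Fin J) (Sph n) (pt n)),
      (∀ x ∈ Cube.boundary (Fin q), b x = GenLoop.const) ∧
      a.HomotopicRel ((susp n J).comp b) (Cube.boundary (Fin q)) := by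
  classical
  let D := sphDbl n
  -- uncurried map
  have hsn : Continuous (fun z : ((Fin q ⊕ Fin J) → I) × I =>
      (Fin.snoc (α := fun _ => I) (fun j => z.1 (Sum.inr j)) z.2 : Fin (J + 1) → I)) := by
    refine continuous_pi fun i => ?_
    refine Fin.lastCases ?_ (fun j => ?_) i
    · simp only [Fin.snoc_last]; fun_prop
    · simp only [Fin.snoc_castSucc]; fun_prop
  let A : C(((Fin q ⊕ Fin J) → I) × I, Sph (n + 1)) :=
    ⟨fun z => a (fun i => z.1 (Sum.inl i))
      (Fin.snoc (α := fun _ => I) (fun j => z.1 (Sum.inr j)) z.2), by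
      have h1 : Continuous (fun z : ((Fin q ⊕ Fin J) → I) × I => a (fun i => z.1 (Sum.inl i))) :=
        a.continuous.comp (by fun_prop)
      exact continuous_eval.comp (h1.prodMk hsn)⟩
  have hA : ∀ z ∈ Bd (Fin q ⊕ Fin J), A z = D.up ((pt n : Sph n) : EuclideanSpace ℝ (Fin (n + 1))) := by
    rintro ⟨z, t⟩ hz
    rw [pt_succ]
    show a (fun i => z (Sum.inl i)) (Fin.snoc (α := fun _ => I) (fun j => z (Sum.inr j)) t) = _
    rcases hz with ⟨i, hi⟩ | hz | hz
    · rcases i with i | j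
      · rw [ha _ ⟨i, hi⟩]; rfl
      · refine (a _).2 _ ⟨Fin.castSucc j, ?_⟩
        rw [Fin.snoc_castSucc]; exact hi
    · refine (a _).2 _ ⟨Fin.last J, ?_⟩
      rw [Fin.snoc_last]; exact Or.inl hz
    · refine (a _).2 _ ⟨Fin.last J, ?_⟩
      rw [Fin.snoc_last]; exact Or.inr hz
  obtain ⟨b₀, hb₀, ⟨H⟩⟩ := D.step (norm_pt n) (ι := Fin q ⊕ Fin J) (by simpa using hq) A hA
  have hsum : Continuous (fun p : (Fin q → I) × (Fin J → I) =>
      (Sum.elim p.1 p.2 : (Fin q ⊕ Fin J) → I)) := by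
    refine continuous_pi fun i => ?_
    rcases i with i | j
    · simp only [Sum.elim_inl]; fun_prop
    · simp only [Sum.elim_inr]; fun_prop
  let b : C(Fin q → I, GenLoop (Fin J) (Sph n) (pt n)) :=
    curryLoop ⟨fun p => b₀ (Sum.elim p.1 p.2), b₀.continuous.comp hsum⟩ (by
      rintro x w ⟨j, hj⟩
      exact Subtype.ext (hb₀ _ ⟨Sum.inr j, hj⟩))
  have hb : ∀ x w, b x w = b₀ (Sum.elim x w) := fun _ _ => rfl
  refine ⟨b, ?_, ?_⟩
  · rintro x ⟨i, hi⟩
    apply GenLoop.ext
    intro w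
    exact Subtype.ext (hb₀ _ ⟨Sum.inl i, hi⟩)
  · -- the homotopy
    have hinit : Continuous (fun w : Fin (J + 1) → I => (Fin.init w : Fin J → I)) :=
      continuous_pi fun i => by
        show Continuous fun w : Fin (J + 1) → I => w (Fin.castSucc i)
        fun_prop
    have hc1 : Continuous (fun p : (I × (Fin q → I)) × (Fin (J + 1) → I) =>
        (p.1.1, ((Sum.elim p.1.2 (Fin.init p.2) : (Fin q ⊕ Fin J) → I), p.2 (Fin.last J)))) := by
      refine (by fun_prop : Continuous (fun p : (I × (Fin q → I)) × (Fin (J + 1) → I) =>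
        p.1.1)).prodMk (Continuous.prodMk ?_ (by fun_prop))
      exact hsum.comp ((by fun_prop : Continuous (fun p : (I × (Fin q → I)) × (Fin (J + 1) → I) =>
        p.1.2)).prodMk (hinit.comp continuous_snd))
    have hHbd : ∀ (s : I) (x : Fin q → I) (w : Fin (J + 1) → I), w ∈ Cube.boundary (Fin (J + 1)) →
        ((Sum.elim x (Fin.init w) : (Fin q ⊕ Fin J) → I), w (Fin.last J)) ∈ Bd (Fin q ⊕ Fin J) := by
      rintro s x w ⟨i, hi⟩
      refine Fin.lastCases (motive := fun i => w i = 0 ∨ w i = 1 → _) ?_ (fun j => ?_) i hi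
      · intro h; exact Or.inr h
      · intro h; exact Or.inl ⟨Sum.inr j, h⟩
    let G : C(I × (Fin q → I), GenLoop (Fin (J + 1)) (Sph (n + 1)) (pt (n + 1))) :=
      curryLoop ⟨fun p => H (p.1.1, ((Sum.elim p.1.2 (Fin.init p.2) : (Fin q ⊕ Fin J) → I),
        p.2 (Fin.last J))), H.continuous.comp hc1⟩ (by
        rintro ⟨s, x⟩ w hw
        show H (s, _) = _
        rw [H.eq_fst s (hHbd s x w hw), hA _ (hHbd s x w hw), pt_succ])
    have hG : ∀ s x w, G (s, x) w = H (s, ((Sum.elim x (Fin.init w) : (Fin q ⊕ Fin J) → I),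
        w (Fin.last J))) := fun _ _ _ => rfl
    have hAa : ∀ (x : Fin q → I) (w : Fin (J + 1) → I),
        A ((Sum.elim x (Fin.init w) : (Fin q ⊕ Fin J) → I), w (Fin.last J)) = a x w := by
      intro x w
      show a x (Fin.snoc (α := fun _ => I) (Fin.init w) (w (Fin.last J))) = a x w
      rw [Fin.snoc_init_self]
    refine homotopicRel_mk (fun p => G p) G.continuous ?_ ?_ ?_
    · intro x
      apply GenLoop.ext; intro w
      rw [hG, H.apply_zero, hAa]
    · intro x
      apply GenLoop.ext; intro w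
      rw [hG, H.apply_one]
      rfl
    · rintro s x ⟨i, hi⟩
      apply GenLoop.ext; intro w
      rw [hG, H.eq_fst s (Or.inl ⟨Sum.inl i, hi⟩), hAa]

/-- **Freudenthal surjectivity** (iterated form): for `q ≤ 2m - 1`, every based map
`(I^q, ∂) → Ω^J S^{m+J}` is homotopic rel boundary to `E_J ∘ f` for some `f : (I^q, ∂) → S^m`. -/
theorem freudenthal {q m : ℕ} (hq : q + 1 ≤ 2 * m) : ∀ (J : ℕ)
    (a : C(Fin q → I, GenLoop (Fin J) (Sph (m + J)) (pt (m + J)))),
    (∀ x ∈ Cube.boundary (Fin q), a x = GenLoop.const) →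
    ∃ f : C(Fin q → I, Sph m), (∀ x ∈ Cube.boundary (Fin q), f x = pt m) ∧
      a.HomotopicRel ((EJ m J).comp f) (Cube.boundary (Fin q)) := by
  intro J
  induction J with
  | zero =>
    intro a ha
    let f : C(Fin q → I, Sph m) := ⟨fun x => a x (fun i => i.elim0), by
      exact (continuous_eval_const (F := GenLoop (Fin 0) (Sph m) (pt m))
        (fun i : Fin 0 => i.elim0)).comp a.continuous⟩
    refine ⟨f, ?_, ?_⟩
    · intro x hx
      show a x _ = _
      rw [ha x hx]; rfl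
    · have : (EJ m 0).comp f = a := by
        ext1 x
        apply GenLoop.ext; intro w
        show a x _ = a x w
        congr 1
        ext i; exact i.elim0
      rw [this]
      exact ContinuousMap.HomotopicRel.refl _
  | succ J ih =>
    intro a ha
    obtain ⟨b, hb, hab⟩ := step_loop (n := m + J) (by omega) a ha
    obtain ⟨f, hf, hbf⟩ := ih b hb
    refine ⟨f, hf, hab.trans ?_⟩
    obtain ⟨H⟩ := hbf
    exact ⟨H.compContinuousMap (susp (m + J) J)⟩

end Crest.Agent.R204.Freu297
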