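import Mathlib
import Crest.Agent.R204.HDegB_160
import Crest.Agent.R204.FreuD_297
import Crest.Agent.R204.HDegA_160
import Crest.Agent.R204.HDegC_160

-- ▼ part R204/HDegS_160
section

/-!
# Row 204, block H, leaf DEG (helper160), part S

The metric spheres: `cell N : Ω^ (Fin N) (Sph N) (pt N)` maps the interior of the cube bijectively
onto `S^N ∖ {pt}`, and `π_N(S^N)` is generated by its class (`N ≥ 1`).
-/

set_option autoImplicit false

open scoped unitInterval Topology Topology.Homotopy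

namespace Crest.Agent.R204.HDeg160

open Crest.Agent.R204.Freu297

universe u v

/-- `q` maps the interior of the cube bijectively onto the complement of the base point -/
structure IsCell {N : Type*} {S : Type u} [TopologicalSpace S] {s₀ : S} (q : Ω^ N S s₀) : Prop where
  surj : ∀ s, s ≠ s₀ → ∃ x, q x = s
  inj : ∀ x y, x ∉ Cube.boundary N → y ∉ Cube.boundary N → q x = q y → x = y
  ne : ∀ x, x ∉ Cube.boundary N → q x ≠ s₀

namespace IsCell

variable {N : Type*} {S : Type u} [TopologicalSpace S] {s₀ : S} {q : Ω^ N S s₀} (hq : IsCell q)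

include hq

theorem eq_base_iff (x : N → I) : q x = s₀ ↔ x ∈ Cube.boundary N :=
  ⟨fun h => by by_contra h'; exact hq.ne x h' h, fun h => GenLoop.boundary q x h⟩

theorem surjective [Nonempty N] : Function.Surjective q := by
  intro s
  by_cases h : s = s₀
  · subst h
    exact ⟨fun _ => 0, GenLoop.boundary q _ ⟨Classical.arbitrary N, Or.inl rfl⟩⟩
  · exact hq.surj s h

theorem eq_iff (x y : N → I) : q x = q y ↔ x = y ∨ (x ∈ Cube.boundary N ∧ y ∈ Cube.boundary N) := by
  constructor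
  · intro h
    by_cases hx : x ∈ Cube.boundary N
    · right
      refine ⟨hx, ?_⟩
      rw [← hq.eq_base_iff, ← h, hq.eq_base_iff]
      exact hx
    · left
      refine hq.inj x y hx ?_ h
      rw [← hq.eq_base_iff, ← h, hq.eq_base_iff]
      exact hx
  · rintro (rfl | ⟨hx, hy⟩)
    · rfl
    · rw [(hq.eq_base_iff x).2 hx, (hq.eq_base_iff y).2 hy]

end IsCell

/-- conditions on suspension data for preserving cells -/
structure SuspData.Bij {Y : Type u} {Z : Type v} [TopologicalSpace Y] [TopologicalSpace Z]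
    {y₀ : Y} {z₀ : Z} (S : SuspData Y Z y₀ z₀) : Prop where
  surj : ∀ z, z ≠ z₀ → ∃ y t, y ≠ y₀ ∧ S.e (y, t) = z
  inj : ∀ y y' t t', y ≠ y₀ → y' ≠ y₀ → t ≠ 0 → t ≠ 1 → t' ≠ 0 → t' ≠ 1 →
    S.e (y, t) = S.e (y', t') → y = y' ∧ t = t'
  ne : ∀ y t, y ≠ y₀ → t ≠ 0 → t ≠ 1 → S.e (y, t) ≠ z₀

theorem mem_boundary_succ {n : ℕ} (x : Fin (n + 1) → I) :
    x ∈ Cube.boundary (Fin (n + 1)) ↔
      (Fin.init x : Fin n → I) ∈ Cube.boundary (Fin n) ∨ x (Fin.last n) = 0 ∨ x (Fin.last n) = 1 := by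
  constructor
  · rintro ⟨i, hi⟩
    refine Fin.lastCases (motive := fun i => (x i = 0 ∨ x i = 1) → _) ?_ ?_ i hi
    · intro h; exact Or.inr h
    · intro j h; exact Or.inl ⟨j, h⟩
  · rintro (⟨j, hj⟩ | h)
    · exact ⟨j.castSucc, hj⟩
    · exact ⟨Fin.last n, h⟩

theorem SuspData.Bij.isCell {Y : Type u} {Z : Type v} [TopologicalSpace Y] [TopologicalSpace Z]
    {y₀ : Y} {z₀ : Z} {S : SuspData Y Z y₀ z₀} (hS : S.Bij) {n : ℕ} {q : Ω^ (Fin n) Y y₀}
    (hq : IsCell q) : IsCell (S.susp q) where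
  surj z hz := by
    obtain ⟨y, t, hy, rfl⟩ := hS.surj z hz
    obtain ⟨x, rfl⟩ := hq.surj y hy
    refine ⟨Fin.snoc (α := fun _ => I) x t, ?_⟩
    rw [SuspData.susp_apply, Fin.init_snoc, Fin.snoc_last]
  inj x y hx hy h := by
    rw [mem_boundary_succ, not_or, not_or] at hx hy
    rw [SuspData.susp_apply, SuspData.susp_apply] at h
    obtain ⟨h1, h2⟩ := hS.inj _ _ _ _ (hq.ne _ hx.1) (hq.ne _ hy.1) hx.2.1 hx.2.2 hy.2.1 hy.2.2 h
    have h3 := hq.inj _ _ hx.1 hy.1 h1
    rw [← Fin.snoc_init_self (α := fun _ => I) x, ← Fin.snoc_init_self (α := fun _ => I) y, h2]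
    congr 1
  ne x hx := by
    rw [mem_boundary_succ, not_or, not_or] at hx
    rw [SuspData.susp_apply]
    exact hS.ne _ _ (hq.ne _ hx.1) hx.2.1 hx.2.2

/-! ## the chord lemma -/

section chord

variable {F : Type*} [NormedAddCommGroup F] [InnerProductSpace ℝ F]

open scoped RealInnerProductSpace

theorem norm_chord {x0 y : F} (hx0 : ‖x0‖ = 1) (hy : ‖y‖ = 1) (r : ℝ) :
    ‖x0 + r • (y - x0)‖ ^ 2 = 1 - r * (1 - r) * ‖y - x0‖ ^ 2 := by
  have h1 : ‖y‖ ^ 2 = ‖x0‖ ^ 2 + 2 * ⟪x0, y - x0⟫ + ‖y - x0‖ ^ 2 := by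
    conv_lhs => rw [show y = x0 + (y - x0) by abel]
    rw [norm_add_sq_real]
  rw [norm_add_sq_real, norm_smul, inner_smul_right, mul_pow, hx0, Real.norm_eq_abs, sq_abs]
  rw [hx0, hy] at h1
  linear_combination (-r) * h1

/-- two points of the sphere on the same ray from `x0` agree -/
theorem chord_inj_aux {x0 y y' : F} (hx0 : ‖x0‖ = 1) (hy : ‖y‖ = 1) (hy' : ‖y'‖ = 1)
    (hne' : y' ≠ x0) {s s' : ℝ} (hs : 0 < s) (hs' : 0 < s') 
    (h : x0 + s • (y - x0) = x0 + s' • (y' - x0)) : s = s' ∧ y = y' := by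
  have h1 : s • (y - x0) = s' • (y' - x0) := add_left_cancel h
  have h2 : y = x0 + (s⁻¹ * s') • (y' - x0) := by
    rw [mul_smul, ← h1, smul_smul, inv_mul_cancel₀ hs.ne', one_smul]; abel
  have h3 := norm_chord hx0 hy' (s⁻¹ * s')
  rw [← h2, hy] at h3
  have h4 : 0 < ‖y' - x0‖ ^ 2 := by
    have : 0 < ‖y' - x0‖ := norm_pos_iff.2 (sub_ne_zero.2 hne')
    positivity
  have h5 : 0 < s⁻¹ * s' := by positivity
  have h6 : s⁻¹ * s' * (1 - s⁻¹ * s') * ‖y' - x0‖ ^ 2 = 0 := by linarith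
  have h7 : 1 - s⁻¹ * s' = 0 := by
    rcases mul_eq_zero.1 h6 with h | h
    · rcases mul_eq_zero.1 h with h | h
      · exact absurd h h5.ne'
      · exact h
    · exact absurd h h4.ne'
  have h8 : s⁻¹ * s' = 1 := by linarith
  constructor
  · field_simp at h8
    exact h8.symm
  · rw [h2, h8, one_smul]; abel

/-- every point of the disc other than `x0` lies on a chord from `x0` -/
theorem chord_surj {x0 v : F} (hx0 : ‖x0‖ = 1) (hv : ‖v‖ ≤ 1) (hne : v ≠ x0) :
    ∃ (y : F) (s : ℝ), ‖y‖ = 1 ∧ y ≠ x0 ∧ 0 < s ∧ s ≤ 1 ∧ v = x0 + s • (y - x0) := by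
  have h0 : 0 < ‖v - x0‖ := norm_pos_iff.2 (sub_ne_zero.2 hne)
  have h1 : ‖v‖ ^ 2 = ‖x0‖ ^ 2 + 2 * ⟪x0, v - x0⟫ + ‖v - x0‖ ^ 2 := by
    conv_lhs => rw [show v = x0 + (v - x0) by abel]
    rw [norm_add_sq_real]
  set r : ℝ := -2 * ⟪x0, v - x0⟫ / ‖v - x0‖ ^ 2 with hr
  have hv2 : ‖v‖ ^ 2 ≤ 1 := by nlinarith [norm_nonneg v]
  have hr1 : 1 ≤ r := by
    rw [hr, le_div_iff₀ (by positivity), one_mul]
    rw [hx0] at h1
    nlinarith
  have hr0 : 0 < r := by linarith
  have hrn : r * ‖v - x0‖ ^ 2 = -2 * ⟪x0, v - x0⟫ := by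
    rw [hr]; field_simp
  refine ⟨x0 + r • (v - x0), r⁻¹, ?_, ?_, by positivity, inv_le_one_of_one_le₀ hr1, ?_⟩
  · have h2 : ‖x0 + r • (v - x0)‖ ^ 2 = 1 := by
      rw [norm_add_sq_real, norm_smul, inner_smul_right, mul_pow, hx0, Real.norm_eq_abs, sq_abs]
      have : r ^ 2 * ‖v - x0‖ ^ 2 = r * (r * ‖v - x0‖ ^ 2) := by ring
      rw [this, hrn]
      ring
    have h3 := norm_nonneg (x0 + r • (v - x0))
    nlinarith
  · intro h
    have : r • (v - x0) = 0 := by simpa using h
    rcases smul_eq_zero.1 this with h | h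
    · exact hr0.ne' h
    · exact hne (sub_eq_zero.1 h)
  · rw [add_sub_cancel_left, smul_smul, inv_mul_cancel₀ hr0.ne', one_smul]; abel

end chord

section dbl

variable {F : Type*} [NormedAddCommGroup F] [InnerProductSpace ℝ F] {Y : Type u}
  [TopologicalSpace Y] (D : Dbl F Y)

/-- suspension data of a double disc -/
noncomputable def dblData {x0 : F} (hx0 : ‖x0‖ = 1) (h : x0 ∈ Metric.sphere (0 : F) 1) :
    SuspData (Metric.sphere (0 : F) 1) Y (⟨x0, h⟩ : Metric.sphere (0 : F) 1) (D.up x0) where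
  e := D.E x0
  e_zero := D.E_zero hx0
  e_one := D.E_one
  e_base t := D.E_base hx0 t h

theorem E_lo {x0 : F} (y : Metric.sphere (0 : F) 1) (t : I) (h : (t : ℝ) ≤ 1 / 2) :
    D.E x0 (y, t) = D.lo (x0 + (2 * (t : ℝ)) • ((y : F) - x0)) := if_pos h

theorem E_up {x0 : F} (y : Metric.sphere (0 : F) 1) (t : I) (h : 1 / 2 < (t : ℝ)) :
    D.E x0 (y, t) = D.up (x0 + (2 - 2 * (t : ℝ)) • ((y : F) - x0)) := if_neg (not_le.2 h)

/-- radius of the chord coordinate -/
theorem chord_mem {x0 : F} (hx0 : ‖x0‖ = 1) {y : F} (hy : ‖y‖ = 1) {s : ℝ} (h0 : 0 ≤ s)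
    (h1 : s ≤ 1) : ‖x0 + s • (y - x0)‖ ≤ 1 := by
  have := norm_chord hx0 hy s
  have h2 : 0 ≤ s * (1 - s) * ‖y - x0‖ ^ 2 := by
    have : 0 ≤ 1 - s := by linarith
    positivity
  have h3 := norm_nonneg (x0 + s • (y - x0))
  nlinarith

theorem chord_lt {x0 : F} (hx0 : ‖x0‖ = 1) {y : F} (hy : ‖y‖ = 1) (hne : y ≠ x0) {s : ℝ}
    (h0 : 0 < s) (h1 : s < 1) : ‖x0 + s • (y - x0)‖ < 1 := by
  have := norm_chord hx0 hy s
  have h4 : 0 < ‖y - x0‖ := norm_pos_iff.2 (sub_ne_zero.2 hne)
  have h2 : 0 < s * (1 - s) * ‖y - x0‖ ^ 2 := by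
    have : 0 < 1 - s := by linarith
    positivity
  have h3 := norm_nonneg (x0 + s • (y - x0))
  nlinarith

theorem dblData_bij {x0 : F} (hx0 : ‖x0‖ = 1) (h : x0 ∈ Metric.sphere (0 : F) 1) :
    (dblData D hx0 h).Bij := by
  have hlo : ∀ (y : Metric.sphere (0 : F) 1) (t : I), (t : ℝ) ≤ 1 / 2 →
      D.yc (D.E x0 (y, t)) = x0 + (2 * (t : ℝ)) • ((y : F) - x0) := by
    intro y t ht
    rw [E_lo D y t ht, D.yc_lo]
    exact chord_mem hx0 (by simp) (by have := t.2.1; positivity) (by linarith)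
  have hup : ∀ (y : Metric.sphere (0 : F) 1) (t : I), 1 / 2 < (t : ℝ) →
      D.yc (D.E x0 (y, t)) = x0 + (2 - 2 * (t : ℝ)) • ((y : F) - x0) := by
    intro y t ht
    rw [E_up D y t ht, D.yc_up]
    exact chord_mem hx0 (by simp) (by have := t.2.2; linarith) (by linarith)
  have hn : ∀ y : Metric.sphere (0 : F) 1, ‖(y : F)‖ = 1 := fun y => by simp
  have hne : ∀ y : Metric.sphere (0 : F) 1, y ≠ ⟨x0, h⟩ → (y : F) ≠ x0 := fun y hy h' =>
    hy (Subtype.ext h')
  -- sign of the height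
  have hclo : ∀ (y : Metric.sphere (0 : F) 1) (t : I), y ≠ ⟨x0, h⟩ → t ≠ 0 → (t : ℝ) < 1 / 2 →
      D.hc (D.E x0 (y, t)) < 0 := by
    intro y t hy h0 ht
    have h1 : D.hc (D.E x0 (y, t)) ≤ 0 := by rw [E_lo D y t ht.le]; exact D.hc_lo _
    refine lt_of_le_of_ne h1 fun h2 => ?_
    rw [D.hc_eq, hlo y t ht.le] at h2
    have h3 : 0 < (t : ℝ) := lt_of_le_of_ne t.2.1 (fun h => h0 (Subtype.ext h.symm))
    have := chord_lt hx0 (hn y) (hne y hy) (s := 2 * (t : ℝ)) (by linarith) (by linarith)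
    linarith
  have hcup : ∀ (y : Metric.sphere (0 : F) 1) (t : I), y ≠ ⟨x0, h⟩ → t ≠ 1 → 1 / 2 < (t : ℝ) →
      0 < D.hc (D.E x0 (y, t)) := by
    intro y t hy h0 ht
    have h1 : 0 ≤ D.hc (D.E x0 (y, t)) := by rw [E_up D y t ht]; exact D.hc_up _
    refine lt_of_le_of_ne h1 fun h2 => ?_
    have h2' := h2.symm
    rw [D.hc_eq, hup y t ht] at h2'
    have h3 : (t : ℝ) < 1 := lt_of_le_of_ne t.2.2 (fun h => h0 (Subtype.ext h))
    have := chord_lt hx0 (hn y) (hne y hy) (s := 2 - 2 * (t : ℝ)) (by linarith) (by linarith)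
    linarith
  have hcmid : ∀ (y : Metric.sphere (0 : F) 1) (t : I), (t : ℝ) = 1 / 2 →
      D.hc (D.E x0 (y, t)) = 0 := by
    intro y t ht
    rw [D.hc_eq, hlo y t ht.le, ht]
    norm_num
  refine ⟨?_, ?_, ?_⟩
  · intro z hz
    have hv : D.yc z ≠ x0 := by
      intro hv
      apply hz
      rcases le_total 0 (D.hc z) with h0 | h0
      · rw [← D.up_yc z h0, hv]
      · rw [← D.lo_yc z h0, hv, D.up_eq_lo hx0]
    obtain ⟨y, s, hy, hyne, hs, hs1, hv'⟩ := chord_surj hx0 (D.yc_le z) hv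
    rcases le_total (D.hc z) 0 with h0 | h0
    · refine ⟨⟨y, by simpa using hy⟩, ⟨s / 2, by constructor <;> linarith⟩,
        fun h' => hyne (congrArg Subtype.val h'), ?_⟩
      show D.E x0 (_, _) = z
      rw [E_lo D _ _ (by show s / 2 ≤ 1 / 2; linarith), ← D.lo_yc z h0]
      congr 1
      show x0 + (2 * (s / 2)) • (y - x0) = D.yc z
      rw [hv', show 2 * (s / 2) = s by ring]
    · rcases hs1.eq_or_lt with hs2 | hs2
      · refine ⟨⟨y, by simpa using hy⟩, ⟨1 / 2, by constructor <;> norm_num⟩,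
          fun h' => hyne (congrArg Subtype.val h'), ?_⟩
        show D.E x0 (_, _) = z
        rw [E_lo D _ _ (by show (1 / 2 : ℝ) ≤ 1 / 2; norm_num), ← D.up_yc z h0]
        have h5 : D.yc z = y := by rw [hv', hs2, one_smul]; abel
        rw [h5, D.up_eq_lo hy]
        congr 1
        show x0 + (2 * (1 / 2 : ℝ)) • (y - x0) = y
        rw [show (2 * (1 / 2 : ℝ)) = 1 by norm_num, one_smul]; abel
      · refine ⟨⟨y, by simpa using hy⟩, ⟨1 - s / 2, by constructor <;> linarith⟩,
          fun h' => hyne (congrArg Subtype.val h'), ?_⟩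
        show D.E x0 (_, _) = z
        rw [E_up D _ _ (by show 1 / 2 < 1 - s / 2; linarith), ← D.up_yc z h0]
        congr 1
        show x0 + (2 - 2 * (1 - s / 2)) • (y - x0) = D.yc z
        rw [hv', show 2 - 2 * (1 - s / 2) = s by ring]
  · intro y y' t t' hy hy' h0 h1 h0' h1' heq
    change D.E x0 (y, t) = D.E x0 (y', t') at heq
    have pos : ∀ t : I, t ≠ 0 → 0 < (t : ℝ) := fun t h0 =>
      lt_of_le_of_ne t.2.1 (fun h => h0 (Subtype.ext h.symm))
    have lt1 : ∀ t : I, t ≠ 1 → (t : ℝ) < 1 := fun t h0 =>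
      lt_of_le_of_ne t.2.2 (fun h => h0 (Subtype.ext h))
    rcases le_or_gt (t : ℝ) (1 / 2) with ht | ht
    · have ht' : (t' : ℝ) ≤ 1 / 2 := by
        by_contra hc
        have h2 := hcup y' t' hy' h1' (not_le.1 hc)
        rw [← heq] at h2
        rcases ht.eq_or_lt with h3 | h3
        · rw [hcmid y t h3] at h2; exact lt_irrefl _ h2
        · have := hclo y t hy h0 h3; linarith
      have h2 : D.yc (D.E x0 (y, t)) = D.yc (D.E x0 (y', t')) := by rw [heq]
      rw [hlo y t ht, hlo y' t' ht'] at h2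
      obtain ⟨h3, h4⟩ := chord_inj_aux hx0 (hn y) (hn y') (hne y' hy')
        (by have := pos t h0; linarith) (by have := pos t' h0'; linarith) h2
      exact ⟨Subtype.ext h4, Subtype.ext (by linarith)⟩
    · have ht' : 1 / 2 < (t' : ℝ) := by
        by_contra hc
        have h2 := hcup y t hy h1 ht
        rw [heq] at h2
        rcases (not_lt.1 hc).eq_or_lt with h3 | h3
        · rw [hcmid y' t' h3] at h2; exact lt_irrefl _ h2
        · have := hclo y' t' hy' h0' h3; linarith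
      have h2 : D.yc (D.E x0 (y, t)) = D.yc (D.E x0 (y', t')) := by rw [heq]
      rw [hup y t ht, hup y' t' ht'] at h2
      obtain ⟨h3, h4⟩ := chord_inj_aux hx0 (hn y) (hn y') (hne y' hy')
        (by have := lt1 t h1; linarith) (by have := lt1 t' h1'; linarith) h2
      exact ⟨Subtype.ext h4, Subtype.ext (by linarith)⟩
  · intro y t hy h0 h1 heq
    change D.E x0 (y, t) = D.up x0 at heq
    have h2 : D.yc (D.E x0 (y, t)) = x0 := by rw [heq, D.yc_up x0 hx0.le]
    have pos : 0 < (t : ℝ) := lt_of_le_of_ne t.2.1 (fun h => h0 (Subtype.ext h.symm))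
    have lt1 : (t : ℝ) < 1 := lt_of_le_of_ne t.2.2 (fun h => h1 (Subtype.ext h))
    have key : ∀ s : ℝ, s ≠ 0 → x0 + s • ((y : F) - x0) ≠ x0 := by
      intro s hs h3
      have : s • ((y : F) - x0) = 0 := by simpa using h3
      rcases smul_eq_zero.1 this with h | h
      · exact hs h
      · exact hne y hy (sub_eq_zero.1 h)
    rcases le_or_gt (t : ℝ) (1 / 2) with ht | ht
    · rw [hlo y t ht] at h2
      exact key _ (by positivity) h2
    · rw [hup y t ht] at h2
      exact key _ (by intro h; linarith) h2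

end dbl

/-! ## the spheres -/

/-- suspension data of the metric spheres -/
noncomputable def sphData (n : ℕ) : SuspData (Sph n) (Sph (n + 1)) (pt n) (pt (n + 1)) where
  e := (sphDbl n).E ((pt n : Sph n) : EuclideanSpace ℝ (Fin (n + 1)))
  e_zero y := by rw [← pt_succ]; exact (sphDbl n).E_zero (norm_pt n) y
  e_one y := by rw [← pt_succ]; exact (sphDbl n).E_one y
  e_base t := by rw [← pt_succ]; exact (sphDbl n).E_base (norm_pt n) t (pt n).2

theorem sphData_bij (n : ℕ) : (sphData n).Bij := by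
  have h := dblData_bij (sphDbl n) (norm_pt n) (pt n).2
  refine ⟨fun z hz => h.surj z ?_, h.inj, fun y t hy h0 h1 h' => h.ne y t hy h0 h1
    (h'.trans (pt_succ n).symm)⟩
  rw [pt_succ]; exact hz


/-- the antipode of the base point of `S^0` -/
noncomputable def npt : Sph 0 := ⟨-(pt 0 : Sph 0).1, by simp⟩

/-- the characteristic map `(I^N, ∂) → (S^N, pt)` -/
noncomputable def cell : (N : ℕ) → Ω^ (Fin N) (Sph N) (pt N)
  | 0 => ⟨ContinuousMap.const _ npt, fun _ ⟨i, _⟩ => i.elim0⟩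
  | N + 1 => (sphData N).susp (cell N)

theorem sph_zero (y : Sph 0) : y = pt 0 ∨ y = npt := by
  have h1 : ‖(y : EuclideanSpace ℝ (Fin 1))‖ = 1 := by simp
  have h3 : ‖(y : EuclideanSpace ℝ (Fin 1))‖ ^ 2 = ((y : EuclideanSpace ℝ (Fin 1)) 0) ^ 2 := by
    rw [EuclideanSpace.real_norm_sq_eq]; simp
  rw [h1] at h3
  have h4 : ((y : EuclideanSpace ℝ (Fin 1)) 0 - 1) * ((y : EuclideanSpace ℝ (Fin 1)) 0 + 1) = 0 := by
    linear_combination -h3
  rcases (mul_eq_zero.1 h4).imp sub_eq_zero.1 eq_neg_of_add_eq_zero_left with h2 | h2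
  · left
    apply Subtype.ext
    ext i
    fin_cases i
    simpa [pt] using h2
  · right
    apply Subtype.ext
    ext i
    fin_cases i
    simpa [pt, npt] using h2

theorem npt_ne : npt ≠ pt 0 := by
  intro h
  have h1 := congrArg (fun y : Sph 0 => (y : EuclideanSpace ℝ (Fin 1)) 0) h
  simp [npt, pt] at h1
  norm_num at h1

theorem cell_isCell : ∀ N, IsCell (cell N)
  | 0 => by
    refine ⟨?_, ?_, ?_⟩
    · intro s hs
      refine ⟨fun i => i.elim0, ?_⟩
      show npt = s
      rcases sph_zero s with h | h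
      · exact absurd h hs
      · exact h.symm
    · intro x y _ _ _
      ext i; exact i.elim0
    · intro x _
      exact npt_ne
  | N + 1 => (sphData_bij N).isCell (cell_isCell N)

/-- Freudenthal surjectivity `π_{n+1}(S^{n+1}) → π_{n+2}(S^{n+2})` -/
theorem susp_surj (n : ℕ) (f : Ω^ (Fin (n + 2)) (Sph (n + 2)) (pt (n + 2))) :
    ∃ g : Ω^ (Fin (n + 1)) (Sph (n + 1)) (pt (n + 1)),
      GenLoop.Homotopic ((sphData (n + 1)).susp g) f := by
  let f' : C((Fin (n + 1) → I) × I, Sph (n + 2)) :=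
    ⟨fun z => f (Fin.snoc (α := fun _ => I) z.1 z.2), by
      refine f.1.continuous.comp ?_
      refine continuous_pi fun i => ?_
      refine Fin.lastCases ?_ (fun j => ?_) i
      · simp only [Fin.snoc_last]; fun_prop
      · simp only [Fin.snoc_castSucc]; fun_prop⟩
  have hf' : ∀ z ∈ Bd (Fin (n + 1)), f' z =
      (sphDbl (n + 1)).up ((pt (n + 1) : Sph (n + 1)) : EuclideanSpace ℝ (Fin (n + 2))) := by
    rintro ⟨z, t⟩ hz
    rw [pt_succ]
    refine GenLoop.boundary f _ ?_
    rw [mem_boundary_succ, Fin.init_snoc, Fin.snoc_last]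
    exact hz
  obtain ⟨b, hb, ⟨H⟩⟩ := (sphDbl (n + 1)).step (norm_pt (n + 1)) (ι := Fin (n + 1))
    (by simp; omega) f' hf'
  refine ⟨⟨b, fun x hx => Subtype.ext (hb x hx)⟩, GenLoop.Homotopic.symm ?_⟩
  have hin : Continuous fun p : I × (Fin (n + 2) → I) =>
      (p.1, ((Fin.init p.2 : Fin (n + 1) → I), p.2 (Fin.last (n + 1)))) := by
    refine continuous_fst.prodMk (Continuous.prodMk ?_ (by fun_prop))
    exact continuous_pi fun i => (continuous_apply (Fin.castSucc i)).comp continuous_snd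
  refine homotopicRel_mk (fun p => H (p.1, ((Fin.init p.2 : Fin (n + 1) → I),
    p.2 (Fin.last (n + 1))))) (H.continuous.comp hin) ?_ ?_ ?_
  · intro x
    rw [H.apply_zero]
    show f (Fin.snoc (α := fun _ => I) (Fin.init x) (x (Fin.last _))) = f x
    rw [Fin.snoc_init_self]
  · intro x
    rw [H.apply_one]
    rfl
  · intro s x hx
    rw [H.eq_fst s ((mem_boundary_succ x).1 hx)]
    show f (Fin.snoc (α := fun _ => I) (Fin.init x) (x (Fin.last _))) = f x
    rw [Fin.snoc_init_self]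


end Crest.Agent.R204.HDeg160
end

-- ▼ part R204/Freud_661
section

set_option autoImplicit false

open Set Metric Module
open scoped unitInterval NNReal

namespace Crest.Agent.R204.Freud661

/-! ### Lipschitz approximation -/

section approx

variable {K : Type*} [MetricSpace K] [CompactSpace K]

/-- the subalgebra of Lipschitz functions on a compact metric space -/
def lipAlg (K : Type*) [MetricSpace K] [CompactSpace K] : Subalgebra ℝ C(K, ℝ) where
  carrier := {f | ∃ L : ℝ≥0, LipschitzWith L f}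
  mul_mem' := by
    rintro f g ⟨Lf, hf⟩ ⟨Lg, hg⟩
    refine ⟨‖f‖₊ * Lg + ‖g‖₊ * Lf, LipschitzWith.of_dist_le_mul fun x y => ?_⟩
    have h1 : |f x| ≤ ‖f‖ := by simpa using f.norm_coe_le_norm x
    have h2 : |g y| ≤ ‖g‖ := by simpa using g.norm_coe_le_norm y
    have h3 := hf.dist_le_mul x y
    have h4 := hg.dist_le_mul x y
    rw [Real.dist_eq] at h3 h4 ⊢
    have : (f * g) x - (f * g) y = f x * (g x - g y) + g y * (f x - f y) := by
      simp only [ContinuousMap.mul_apply]; ring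
    rw [this]
    calc |f x * (g x - g y) + g y * (f x - f y)|
        ≤ |f x| * |g x - g y| + |g y| * |f x - f y| := by
          refine (abs_add_le _ _).trans ?_
          rw [abs_mul, abs_mul]
      _ ≤ ‖f‖ * (Lg * dist x y) + ‖g‖ * (Lf * dist x y) := by
          gcongr
      _ = _ := by push_cast; ring
  add_mem' := by
    rintro f g ⟨Lf, hf⟩ ⟨Lg, hg⟩
    exact ⟨Lf + Lg, hf.add hg⟩
  algebraMap_mem' := by
    intro r
    exact ⟨0, LipschitzWith.of_dist_le_mul fun x y => by simp [Algebra.algebraMap_eq_smul_one]⟩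

lemma lipAlg_sep : (lipAlg K).SeparatesPoints := by
  intro x y hxy
  refine ⟨fun z => dist z x, ⟨⟨fun z => dist z x, by fun_prop⟩, ?_, rfl⟩, ?_⟩
  · exact ⟨1, by simpa using LipschitzWith.dist_left x⟩
  · simp only [dist_self]
    exact fun h => hxy (dist_eq_zero.1 h.symm).symm

lemma lip_approx (f : C(K, ℝ)) (ε : ℝ) (hε : 0 < ε) :
    ∃ g : K → ℝ, (∃ L : ℝ≥0, LipschitzWith L g) ∧ ∀ x, |g x - f x| < ε := by
  obtain ⟨g, hg⟩ := ContinuousMap.exists_mem_subalgebra_near_continuous_of_separatesPoints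
    (lipAlg K) lipAlg_sep f f.continuous ε hε
  obtain ⟨L, hL⟩ := g.2
  exact ⟨g.1, ⟨L, hL⟩, fun x => by simpa using hg x⟩


end approx

/-- constructor for relative homotopies -/
lemma mkRel {X Y : Type*} [TopologicalSpace X] [TopologicalSpace Y] (f g : C(X, Y)) (S : Set X)
    (H : I × X → Y) (hc : Continuous H) (h0 : ∀ x, H (0, x) = f x) (h1 : ∀ x, H (1, x) = g x)
    (hS : ∀ s, ∀ x ∈ S, H (s, x) = f x) : f.HomotopicRel g S :=
  ⟨{ toFun := H, continuous_toFun := hc, map_zero_left := h0, map_one_left := h1,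
     prop' := fun s x hx => hS s x hx }⟩

/-! ### clamping -/

/-- clamp to the unit interval -/
noncomputable def pI (s : ℝ) : I := projIcc 0 1 zero_le_one s

@[fun_prop]
lemma continuous_pI : Continuous pI := continuous_projIcc (h := zero_le_one)

lemma pI_coe (s : I) : pI (s : ℝ) = s := projIcc_val _ s

lemma lip_pI : LipschitzWith 1 pI := LipschitzWith.projIcc zero_le_one

lemma pI_of_nonpos {s : ℝ} (h : s ≤ 0) : pI s = 0 := projIcc_of_le_left _ h

lemma pI_of_one_le {s : ℝ} (h : 1 ≤ s) : pI s = 1 := projIcc_of_right_le _ h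

lemma coe_pI {s : ℝ} (h0 : 0 ≤ s) (h1 : s ≤ 1) : (pI s : ℝ) = s :=
  congrArg Subtype.val (pI_coe ⟨s, h0, h1⟩)

/-! ### cube spheres -/

/-- A model `S` of the `n`-sphere as the cube with its boundary collapsed. -/
structure CubeSphere (n : ℕ) (S : Type*) [TopologicalSpace S] where
  /-- the collapse map -/
  p : C(Fin n → I, S)
  /-- the base point -/
  pt : S
  surj : Function.Surjective p
  bdry : ∀ x ∈ Cube.boundary (Fin n), p x = pt
  inj : ∀ x y, p x = p y → x = y ∨ (x ∈ Cube.boundary (Fin n) ∧ y ∈ Cube.boundary (Fin n))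

namespace CubeSphere

variable {n : ℕ} {S : Type*} [TopologicalSpace S] [T2Space S] (P : CubeSphere n S)

include P in
omit [T2Space S] in
lemma compactSpace : CompactSpace S := by
  have := isCompact_range P.p.continuous
  rw [P.surj.range_eq] at this
  exact isCompact_univ_iff.1 this

lemma quot {Z : Type*} [TopologicalSpace Z] :
    Topology.IsQuotientMap (Prod.map P.p (id : Z → Z)) := by
  have h1 : IsProperMap P.p := P.p.continuous.isProperMap
  have h2 : IsProperMap (Prod.map P.p (id : Z → Z)) := h1.prodMap isProperMap_id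
  exact h2.isClosedMap.isQuotientMap h2.continuous (P.surj.prodMap Function.surjective_id)

/-- maps out of `S × Z` -/
lemma lift_exists {Z Y : Type*} [TopologicalSpace Z] [TopologicalSpace Y]
    (Φ : (Fin n → I) × Z → Y) (hΦ : Continuous Φ)
    (h : ∀ x x' z, x ∈ Cube.boundary (Fin n) → x' ∈ Cube.boundary (Fin n) → Φ (x, z) = Φ (x', z)) :
    ∃ Ψ : C(S × Z, Y), ∀ x z, Ψ (P.p x, z) = Φ (x, z) := by
  choose s hs using P.surj
  let Ψ : S × Z → Y := fun q => Φ (s q.1, q.2)
  have key : ∀ x z, Ψ (P.p x, z) = Φ (x, z) := by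
    intro x z
    rcases P.inj _ _ (hs (P.p x)) with h1 | ⟨h1, h2⟩
    · simp only [Ψ, h1]
    · exact h _ _ _ h1 h2
  refine ⟨⟨Ψ, ?_⟩, key⟩
  rw [P.quot.continuous_iff]
  have : Ψ ∘ Prod.map P.p (id : Z → Z) = Φ := by
    funext ⟨x, z⟩
    exact key x z
  rw [this]
  exact hΦ

lemma lift_exists' {Y : Type*} [TopologicalSpace Y]
    (Φ : (Fin n → I) → Y) (hΦ : Continuous Φ)
    (h : ∀ x x', x ∈ Cube.boundary (Fin n) → x' ∈ Cube.boundary (Fin n) → Φ x = Φ x') :
    ∃ Ψ : C(S, Y), ∀ x, Ψ (P.p x) = Φ x := by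
  obtain ⟨Ψ, hΨ⟩ := P.lift_exists (Z := Unit) (fun q => Φ q.1) (by fun_prop)
    (fun x x' _ hx hx' => h x x' hx hx')
  exact ⟨⟨fun z => Ψ (z, ()), by fun_prop⟩, fun x => hΨ x ()⟩

omit [T2Space S] in
lemma eq_of_p_eq {x y : Fin n → I} (h : P.p x = P.p y) (hy : y ∉ Cube.boundary (Fin n)) :
    x = y := by
  rcases P.inj _ _ h with h | ⟨_, h⟩
  · exact h
  · exact absurd h hy

omit [T2Space S] in
lemma mem_bdry_of_p_eq (hn : 0 < n) {x : Fin n → I} (h : P.p x = P.pt) :
    x ∈ Cube.boundary (Fin n) := by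
  have h0 : (fun _ => 0 : Fin n → I) ∈ Cube.boundary (Fin n) := ⟨⟨0, hn⟩, Or.inl rfl⟩
  rw [← P.bdry _ h0] at h
  rcases P.inj _ _ h with h | ⟨h, _⟩
  · rw [h]; exact h0
  · exact h

end CubeSphere

/-! ### vertical push -/

section push

variable {X : Type*} [MetricSpace X] [CompactSpace X]

/-- the relative boundary of `X × I` -/
def bd {X : Type*} (C : Set X) : Set (X × I) := {p | p.1 ∈ C ∨ p.2 = 0 ∨ p.2 = 1}

lemma push {S : Type*} [TopologicalSpace S] [T2Space S] (F : C(X × I, S)) (x0 a b : S)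
    (ha : a ≠ x0) (hb : b ≠ x0)
    (hab : ∀ x s t, F (x, s) = a → F (x, t) = b → False) (C : Set X)
    (hF : ∀ p ∈ bd C, F p = x0) :
    ∃ F2 : C(X × I, S), F.HomotopicRel F2 (bd C) ∧
      (∀ x (t : I), (t : ℝ) ≤ 1 / 2 → F2 (x, t) ≠ a) ∧
      (∀ x (t : I), 1 / 2 ≤ (t : ℝ) → F2 (x, t) ≠ b) ∧ (∀ p ∈ bd C, F2 p = x0) := by
  have hF0 : ∀ x, F (x, 0) = x0 := fun x => hF _ (Or.inr (Or.inl rfl))
  have hF1 : ∀ x, F (x, 1) = x0 := fun x => hF _ (Or.inr (Or.inr rfl))
  have hFC : ∀ x ∈ C, ∀ t, F (x, t) = x0 := fun x hx t => hF _ (Or.inl hx)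
  let A : Set X := Prod.fst '' (F ⁻¹' {a})
  let B : Set X := Prod.fst '' (F ⁻¹' {b})
  have hA : IsClosed A := (((isClosed_singleton.preimage F.continuous).isCompact).image
    continuous_fst).isClosed
  have hB : IsClosed B := (((isClosed_singleton.preimage F.continuous).isCompact).image
    continuous_fst).isClosed
  have hAB : Disjoint B A := by
    rw [Set.disjoint_left]
    rintro x ⟨⟨x', t⟩, ht, rfl⟩ ⟨⟨x'', s⟩, hs, h⟩
    simp only at h
    subst h
    exact hab _ _ _ hs ht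
  obtain ⟨lam, hl0, hl1, hlI⟩ := exists_continuous_zero_one_of_isClosed hB hA hAB
  let F2 : C(X × I, S) := ⟨fun p => F (p.1, pI (2 * (p.2 : ℝ) - lam p.1)), by fun_prop⟩
  refine ⟨F2, ?_, ?_, ?_, ?_⟩
  · refine mkRel _ _ _ (fun q => F (q.2.1, pI ((1 - (q.1 : ℝ)) * (q.2.2 : ℝ) +
      (q.1 : ℝ) * (2 * (q.2.2 : ℝ) - lam q.2.1)))) (by fun_prop) ?_ ?_ ?_
    · rintro ⟨x, t⟩
      simp [pI_coe]
    · rintro ⟨x, t⟩
      simp [F2]
    · rintro s ⟨x, t⟩ hx
      rcases hx with hx | hx | hx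
      · simp only at hx
        simp only [hFC x hx]
      · simp only at hx
        subst hx
        have h1 := (hlI x).1
        have h2 := s.2.1
        have : pI ((1 - (s : ℝ)) * ((0 : I) : ℝ) + (s : ℝ) * (2 * ((0 : I) : ℝ) - lam x)) = 0 := by
          apply pI_of_nonpos
          simp only [Icc.coe_zero]
          nlinarith
        simp only [this]
      · simp only at hx
        subst hx
        have h1 := (hlI x).2
        have h2 := s.2.1
        have : pI ((1 - (s : ℝ)) * ((1 : I) : ℝ) + (s : ℝ) * (2 * ((1 : I) : ℝ) - lam x)) = 1 := by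
          apply pI_of_one_le
          simp only [Icc.coe_one]
          nlinarith
        simp only [this]
  · intro x t ht h
    have h' : F (x, pI (2 * (t : ℝ) - lam x)) = a := h
    have hx : x ∈ A := ⟨(x, _), h', rfl⟩
    have h1 : lam x = 1 := hl1 hx
    rw [h1, pI_of_nonpos (by linarith), hF0] at h'
    exact ha h'.symm
  · intro x t ht h
    have h' : F (x, pI (2 * (t : ℝ) - lam x)) = b := h
    have hx : x ∈ B := ⟨(x, _), h', rfl⟩
    have h1 : lam x = 0 := hl0 hx
    rw [h1, pI_of_one_le (by linarith), hF1] at h'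
    exact hb h'.symm
  · rintro ⟨x, t⟩ hx
    show F (x, pI (2 * (t : ℝ) - lam x)) = x0
    rcases hx with hx | hx | hx
    · exact hFC x hx _
    · simp only at hx
      subst hx
      have h1 := (hlI x).1
      rw [pI_of_nonpos (by simp; linarith), hF0]
    · simp only at hx
      subst hx
      have h1 := (hlI x).2
      rw [pI_of_one_le (by simp; linarith), hF1]

end push

/-! ### centred coordinates -/

section coords

variable {n : ℕ}

/-- centred coordinates -/
noncomputable def ctr (x : Fin n → I) : Fin n → ℝ := fun i => (x i : ℝ) - 1 / 2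

@[fun_prop]
lemma continuous_ctr : Continuous (ctr : (Fin n → I) → _) := by unfold ctr; fun_prop

/-- clamped dilation of centred coordinates -/
noncomputable def cl (κ : ℝ) (v : Fin n → ℝ) : Fin n → I := fun i => pI (1 / 2 + κ * v i)

lemma continuous_cl : Continuous (fun q : ℝ × (Fin n → ℝ) => cl q.1 q.2) := by
  unfold cl; fun_prop

lemma cl_one (x : Fin n → I) : cl 1 (ctr x) = x := by
  funext i
  simp [cl, ctr, pI_coe]

lemma norm_ctr_le (x : Fin n → I) : ‖ctr x‖ ≤ 1 / 2 := by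
  rw [pi_norm_le_iff_of_nonneg (by norm_num)]
  intro i
  rw [Real.norm_eq_abs, abs_le]
  have h0 := (x i).2.1
  have h1 := (x i).2.2
  simp only [ctr]
  constructor <;> linarith

lemma norm_ctr_bdry {x : Fin n → I} (hx : x ∈ Cube.boundary (Fin n)) : ‖ctr x‖ = 1 / 2 := by
  refine le_antisymm (norm_ctr_le x) ?_
  obtain ⟨i, hi⟩ := hx
  refine le_trans ?_ (norm_le_pi_norm (ctr x) i)
  rcases hi with hi | hi <;> simp only [ctr, hi, Real.norm_eq_abs] <;> norm_num

lemma cl_mem_bdry {κ : ℝ} {v : Fin n → ℝ} (hκ : 0 ≤ κ) (h : 1 / 2 ≤ κ * ‖v‖) :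
    cl κ v ∈ Cube.boundary (Fin n) := by
  by_contra hc
  have hlt : ∀ i, ‖κ * v i‖ < 1 / 2 := by
    intro i
    by_contra hi
    rw [not_lt, Real.norm_eq_abs] at hi
    apply hc
    refine ⟨i, ?_⟩
    rcases le_abs.1 hi with hi | hi
    · right
      exact pI_of_one_le (by linarith)
    · left
      exact pI_of_nonpos (by linarith)
  have h2 : ‖κ • v‖ < 1 / 2 := by
    rw [pi_norm_lt_iff (by norm_num)]
    intro i
    simpa using hlt i
  rw [norm_smul, Real.norm_of_nonneg hκ] at h2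
  linarith

end coords

namespace CubeSphere

variable {n : ℕ} {S : Type*} [TopologicalSpace S] [T2Space S] (P : CubeSphere n S)

/-- the radius function and the cut-off coordinate function on `S`. -/
lemma exists_W : ∃ W : C(S, ℝ), ∀ x, W (P.p x) = ‖ctr x‖ :=
  P.lift_exists' (fun x => ‖ctr x‖) (by fun_prop) fun x x' hx hx' => by
    rw [norm_ctr_bdry hx, norm_ctr_bdry hx']

/-- the radius function -/
noncomputable def W : C(S, ℝ) := P.exists_W.choose

lemma W_p (x : Fin n → I) : P.W (P.p x) = ‖ctr x‖ := P.exists_W.choose_spec x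

lemma exists_xi : ∃ ξ : C(S, Fin n → ℝ), ∀ x, ξ (P.p x) = (pI (4 - 8 * ‖ctr x‖) : ℝ) • ctr x :=
  P.lift_exists' (fun x => (pI (4 - 8 * ‖ctr x‖) : ℝ) • ctr x) (by fun_prop) fun x x' hx hx' => by
    rw [norm_ctr_bdry hx, norm_ctr_bdry hx', pI_of_nonpos (by norm_num)]
    simp

/-- the cut-off coordinates -/
noncomputable def xi : C(S, Fin n → ℝ) := P.exists_xi.choose

lemma xi_p (x : Fin n → I) : P.xi (P.p x) = (pI (4 - 8 * ‖ctr x‖) : ℝ) • ctr x :=
  P.exists_xi.choose_spec x

lemma xi_p_of_le {x : Fin n → I} (h : ‖ctr x‖ ≤ 3 / 8) : P.xi (P.p x) = ctr x := by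
  rw [xi_p, pI_of_one_le (by linarith)]
  simp

lemma norm_xi_le (z : S) : ‖P.xi z‖ ≤ 1 / 2 := by
  obtain ⟨x, rfl⟩ := P.surj z
  rw [xi_p, norm_smul, Real.norm_of_nonneg (pI _).2.1]
  calc _ ≤ 1 * (1 / 2 : ℝ) := by
        gcongr
        · exact (pI _).2.2
        · exact norm_ctr_le x
    _ = _ := by norm_num

lemma exists_stretch : ∃ Ψ : C(S × I, S), ∀ x s, Ψ (P.p x, s) = P.p (cl (1 + s) (ctr x)) :=
  P.lift_exists (fun q : (Fin n → I) × I => P.p (cl (1 + q.2) (ctr q.1)))
    (P.p.continuous.comp (continuous_cl.comp (f := fun q : (Fin n → I) × I =>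
      ((1 : ℝ) + q.2, ctr q.1)) (by fun_prop)))
    fun x x' s hx hx' => by
      have h1 : (0 : ℝ) ≤ s := s.2.1
      have h : ∀ y ∈ Cube.boundary (Fin n), cl (1 + (s : ℝ)) (ctr y) ∈ Cube.boundary (Fin n) := by
        intro y hy
        apply cl_mem_bdry (by linarith)
        rw [norm_ctr_bdry hy]
        linarith
      simp only
      rw [P.bdry _ (h x hx), P.bdry _ (h x' hx')]

/-- Replace a map by one given by nearby coordinates. -/
lemma approx_step (hn : 0 < n) {K : Type*} [TopologicalSpace K] (F : C(K, S))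
    (G : C(K, Fin n → ℝ)) (hG : ∀ z, ‖G z - P.xi (F z)‖ ≤ 1 / 16) :
    ∃ F1 : C(K, S), F.HomotopicRel F1 {z | F z = P.pt} ∧
      ∀ z x, F1 z = P.p x → x ∉ Cube.boundary (Fin n) → cl 2 (G z) = x := by
  obtain ⟨Ψ, hΨ⟩ := P.exists_stretch
  have hptW : P.W P.pt = 1 / 2 := by
    have h0 : (fun _ => 0 : Fin n → I) ∈ Cube.boundary (Fin n) := ⟨⟨0, hn⟩, Or.inl rfl⟩
    rw [← P.bdry _ h0, W_p, norm_ctr_bdry h0]
  -- the second homotopy
  have hHc : Continuous fun q : I × K => if P.W (F q.2) ≤ 3 / 8 then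
      P.p (cl 2 ((1 - (q.1 : ℝ)) • P.xi (F q.2) + (q.1 : ℝ) • G q.2)) else P.pt := by
    refine Continuous.if_le ?_ continuous_const (by fun_prop) continuous_const ?_
    · exact P.p.continuous.comp (continuous_cl.comp (f := fun q : I × K =>
        ((2 : ℝ), (1 - (q.1 : ℝ)) • P.xi (F q.2) + (q.1 : ℝ) • G q.2)) (by fun_prop))
    · rintro ⟨s, z⟩ h
      simp only at h ⊢
      apply P.bdry
      apply cl_mem_bdry (by norm_num)
      obtain ⟨x, hx⟩ := P.surj (F z)
      have h1 := hG z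
      rw [← hx, W_p] at h
      rw [← hx, P.xi_p_of_le h.le] at h1 ⊢
      have e : (1 - (s : ℝ)) • ctr x + (s : ℝ) • G z = ctr x + (s : ℝ) • (G z - ctr x) := by
        rw [sub_smul, smul_sub, one_smul]; abel
      rw [e]
      have h2 := norm_sub_norm_le (ctr x) (-((s : ℝ) • (G z - ctr x)))
      rw [norm_neg, sub_neg_eq_add, norm_smul, Real.norm_of_nonneg s.2.1, h] at h2
      have h3 : (s : ℝ) * ‖G z - ctr x‖ ≤ 1 * (1 / 16) := by
        gcongr
        exact s.2.2
      linarith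
  let F1 : C(K, S) := ⟨fun z => if P.W (F z) ≤ 3 / 8 then P.p (cl 2 (G z)) else P.pt, by
    have := hHc.comp (f := fun z : K => ((1 : I), z)) (by fun_prop)
    convert this using 2 with z
    simp⟩
  let F0 : C(K, S) := ⟨fun z => Ψ (F z, 1), by fun_prop⟩
  have hF01 : F.HomotopicRel F0 {z | F z = P.pt} := by
    refine mkRel _ _ _ (fun q => Ψ (F q.2, q.1)) (by fun_prop) ?_ ?_ ?_
    · intro z
      obtain ⟨x, hx⟩ := P.surj (F z)
      simp only [← hx, hΨ]
      simp [cl_one]
    · intro z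
      rfl
    · intro s z hz
      have hz' : F z = P.pt := hz
      have h0 : (fun _ => 0 : Fin n → I) ∈ Cube.boundary (Fin n) := ⟨⟨0, hn⟩, Or.inl rfl⟩
      have h1 : (0 : ℝ) ≤ s := s.2.1
      simp only [hz']
      rw [← P.bdry _ h0, hΨ, P.bdry _ h0]
      apply P.bdry
      apply cl_mem_bdry (by linarith)
      rw [norm_ctr_bdry h0]
      linarith
  have hF12 : F0.HomotopicRel F1 {z | F z = P.pt} := by
    refine mkRel _ _ _ _ hHc ?_ ?_ ?_
    · intro z
      obtain ⟨x, hx⟩ := P.surj (F z)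
      simp only [F0, ContinuousMap.coe_mk, ← hx, hΨ, W_p, Icc.coe_zero, Icc.coe_one]
      split_ifs with h
      · rw [P.xi_p_of_le h]
        norm_num
      · rw [P.bdry _ (cl_mem_bdry (by norm_num) (by linarith))]
    · intro z
      simp [F1]
    · intro s z hz
      have hz' : F z = P.pt := hz
      have h0 : (fun _ => 0 : Fin n → I) ∈ Cube.boundary (Fin n) := ⟨⟨0, hn⟩, Or.inl rfl⟩
      simp only [hz', hptW, F0, ContinuousMap.coe_mk]
      rw [if_neg (by norm_num)]
      rw [← P.bdry _ h0, hΨ, P.bdry _ h0]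
      refine (P.bdry _ ?_).symm
      apply cl_mem_bdry (by norm_num)
      rw [norm_ctr_bdry h0]
      norm_num
  refine ⟨F1, hF01.trans hF12, ?_⟩
  intro z x hzx hx
  have h : (if P.W (F z) ≤ 3 / 8 then P.p (cl 2 (G z)) else P.pt) = P.p x := hzx
  split_ifs at h
  · exact P.eq_of_p_eq h hx
  · exact absurd (P.mem_bdry_of_p_eq hn h.symm) hx

/-- Lipschitz approximation of the coordinates -/
lemma exists_lip {K : Type*} [MetricSpace K] [CompactSpace K] (F : C(K, S)) {ε : ℝ} (hε : 0 < ε) :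
    ∃ G : K → Fin n → ℝ, (∃ L : ℝ≥0, LipschitzWith L G) ∧ ∀ z, ‖G z - P.xi (F z)‖ ≤ ε := by
  have key : ∀ i : Fin n, ∃ g : K → ℝ, (∃ L : ℝ≥0, LipschitzWith L g) ∧
      (∀ z, |g z - P.xi (F z) i| < ε) := by
    intro i
    exact lip_approx ⟨fun z => P.xi (F z) i, by fun_prop⟩ ε hε
  choose g hgL hg using key
  choose Lg hgL using hgL
  refine ⟨fun z i => g i z, ⟨∑ i, Lg i, ?_⟩, ?_⟩
  · refine LipschitzWith.of_dist_le_mul fun z w => ?_
    rw [dist_pi_le_iff (by positivity)]
    intro i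
    refine ((hgL i).dist_le_mul z w).trans ?_
    gcongr
    exact_mod_cast Finset.single_le_sum (f := Lg) (fun _ _ => bot_le) (Finset.mem_univ i)
  · intro z
    rw [pi_norm_le_iff_of_nonneg hε.le]
    intro i
    exact (hg i z).le

end CubeSphere

/-! ### generic pairs of values -/

section generic

variable {X : Type*} [MetricSpace X] {EX : Type*} [NormedAddCommGroup EX] [NormedSpace ℝ EX]
  [FiniteDimensional ℝ EX]

lemma dense_generic {n : ℕ} (κ : EX → X) {Lκ : ℝ≥0} (hκL : LipschitzWith Lκ κ)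
    (hκ : Function.Surjective κ) (hdim : finrank ℝ EX + 2 < 2 * n) (G : X × I → Fin n → ℝ)
    {L : ℝ≥0} (hG : LipschitzWith L G) :
    Dense {q : (Fin n → ℝ) × (Fin n → ℝ) | ∀ x s t, G (x, s) = q.1 → G (x, t) = q.2 → False} := by
  let Ψ : EX × ℝ × ℝ → (Fin n → ℝ) × (Fin n → ℝ) := fun p =>
    (G (κ p.1, pI p.2.1), G (κ p.1, pI p.2.2))
  have h1 : LipschitzWith (1 : ℝ≥0) (fun p : EX × ℝ × ℝ => p.1) := LipschitzWith.prod_fst
  have h2 : LipschitzWith (1 * 1 : ℝ≥0) (fun p : EX × ℝ × ℝ => p.2.1) :=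
    LipschitzWith.prod_fst.comp LipschitzWith.prod_snd
  have h3 : LipschitzWith (1 * 1 : ℝ≥0) (fun p : EX × ℝ × ℝ => p.2.2) :=
    LipschitzWith.prod_snd.comp LipschitzWith.prod_snd
  obtain ⟨L', hL'⟩ : ∃ L', LipschitzWith L' Ψ :=
    ⟨_, (hG.comp ((hκL.comp h1).prodMk (lip_pI.comp h2))).prodMk
      (hG.comp ((hκL.comp h1).prodMk (lip_pI.comp h3)))⟩
  have hd : Dense (range Ψ)ᶜ := by
    refine dense_compl_of_dimH_lt_finrank (E := (Fin n → ℝ) × (Fin n → ℝ)) ?_
    have h1 : dimH (range Ψ) ≤ dimH (univ : Set (EX × ℝ × ℝ)) := by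
      rw [← image_univ]
      exact hL'.dimH_image_le _
    refine h1.trans_lt ?_
    rw [Real.dimH_univ_eq_finrank]
    simp only [finrank_prod, finrank_self, finrank_fintype_fun_eq_card, Fintype.card_fin]
    norm_cast
    omega
  refine hd.mono ?_
  rintro ⟨a, b⟩ hab x s t hs ht
  apply hab
  obtain ⟨z, rfl⟩ := hκ x
  refine ⟨(z, (s : ℝ), (t : ℝ)), ?_⟩
  simp only [Ψ, pI_coe] at hs ht ⊢
  rw [hs, ht]

/-- The two standard values, in centred coordinates: `(0,…,0,±1/8)`. -/
noncomputable def a8 (r : ℕ) : Fin (r + 1) → ℝ := Pi.single (Fin.last r) (1 / 8)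

lemma norm_a8 (r : ℕ) : ‖a8 r‖ ≤ 1 / 8 := by
  rw [pi_norm_le_iff_of_nonneg (by norm_num)]
  intro i
  unfold a8
  by_cases h : i = Fin.last r
  · subst h; simp
  · simp [h]

lemma exists_good {r : ℕ} (κ : EX → X) {Lκ : ℝ≥0} (hκL : LipschitzWith Lκ κ)
    (hκ : Function.Surjective κ) (hdim : finrank ℝ EX < 2 * r) (G : X × I → Fin (r + 1) → ℝ)
    {L : ℝ≥0} (hG : LipschitzWith L G) (hG1 : ∀ z, ‖G z‖ ≤ 1) :
    ∃ G' : C(X × I, Fin (r + 1) → ℝ), (∀ z, ‖G' z - G z‖ ≤ 1 / 32) ∧
      ∀ x s t, G' (x, s) = a8 r → G' (x, t) = -a8 r → False := by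
  have hd := dense_generic κ hκL hκ (by omega : finrank ℝ EX + 2 < 2 * (r + 1)) G hG
  obtain ⟨⟨a, b⟩, hq, hab⟩ := Metric.dense_iff.1 hd (a8 r, -a8 r) (1 / 1000) (by norm_num)
  rw [Metric.mem_ball, Prod.dist_eq, max_lt_iff] at hq
  obtain ⟨ha, hb⟩ := hq
  simp only at ha hb
  rw [dist_eq_norm] at ha hb
  set l := Fin.last r with hl
  have ha8 : a8 r l = 1 / 8 := by simp [a8, hl]
  have hal : |a l - 1 / 8| < 1 / 1000 := by
    have := (norm_le_pi_norm (a - a8 r) l).trans_lt ha
    rwa [Pi.sub_apply, ha8, Real.norm_eq_abs] at this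
  have hbl : |b l + 1 / 8| < 1 / 1000 := by
    have := (norm_le_pi_norm (b - -a8 r) l).trans_lt hb
    rwa [Pi.sub_apply, Pi.neg_apply, ha8, Real.norm_eq_abs, sub_neg_eq_add] at this
  rw [abs_lt] at hal hbl
  have hden : b l - a l < -(1 / 5) := by linarith
  have hden0 : b l - a l ≠ 0 := by linarith
  let e : Fin (r + 1) → ℝ := (-a8 r - a8 r) - (b - a)
  have he : ‖e‖ ≤ 1 / 500 := by
    have : e = (a - a8 r) - (b - -a8 r) := by simp only [e]; abel
    rw [this]
    refine (norm_sub_le _ _).trans ?_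
    linarith
  let T : (Fin (r + 1) → ℝ) → (Fin (r + 1) → ℝ) := fun v =>
    v + (a8 r - a) + ((v l - a l) / (b l - a l)) • e
  have hTa : T a = a8 r := by simp [T]
  have hTb : T b = -a8 r := by
    simp only [T, div_self hden0, one_smul, e]
    abel
  have hcoef : ∀ w : Fin (r + 1) → ℝ, |w l / (b l - a l)| ≤ 5 * ‖w‖ := by
    intro w
    rw [abs_div]
    have h1 : |w l| ≤ ‖w‖ := norm_le_pi_norm w l
    have h2 : 1 / 5 ≤ |b l - a l| := by rw [abs_of_neg (by linarith)]; linarith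
    rw [div_le_iff₀ (by linarith)]
    nlinarith [norm_nonneg w]
  have hTinj : Function.Injective T := by
    intro v v' h
    have h1 : (v - v') = -(((v - v') l / (b l - a l)) • e) := by
      have h' : T v - T v' = 0 := sub_eq_zero.2 h
      have h2 : T v - T v' = (v - v') + (((v - v') l / (b l - a l)) • e) := by
        simp only [T, Pi.sub_apply]
        rw [show (v l - v' l) / (b l - a l) = (v l - a l) / (b l - a l) -
          (v' l - a l) / (b l - a l) by ring, sub_smul]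
        abel
      rw [h2] at h'
      exact eq_neg_of_add_eq_zero_left h'
    have h3 : ‖v - v'‖ ≤ 5 * ‖v - v'‖ * (1 / 500) := by
      calc ‖v - v'‖ = ‖((v - v') l / (b l - a l)) • e‖ := by rw [h1, norm_neg]; rw [← h1]
        _ = |(v - v') l / (b l - a l)| * ‖e‖ := by rw [norm_smul, Real.norm_eq_abs]
        _ ≤ 5 * ‖v - v'‖ * (1 / 500) := by
          gcongr
          exact hcoef _
    have h4 : ‖v - v'‖ = 0 := by nlinarith [norm_nonneg (v - v')]
    exact sub_eq_zero.1 (norm_eq_zero.1 h4)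
  have hGc : Continuous G := hG.continuous
  have hTc : Continuous T := by
    simp only [T]
    fun_prop
  refine ⟨⟨fun z => T (G z), hTc.comp hGc⟩, ?_, ?_⟩
  · intro z
    show ‖T (G z) - G z‖ ≤ 1 / 32
    have h1 : T (G z) - G z = (a8 r - a) + (((G z - a) l / (b l - a l)) • e) := by
      simp only [T, Pi.sub_apply]; abel
    rw [h1]
    have h2 : ‖G z - a‖ ≤ 2 := by
      have h3 : ‖a‖ ≤ 1 / 8 + 1 / 1000 := by
        have := norm_add_le (a - a8 r) (a8 r)
        rw [sub_add_cancel] at this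
        linarith [norm_a8 r]
      refine (norm_sub_le _ _).trans ?_
      linarith [hG1 z]
    have h4 : ‖((G z - a) l / (b l - a l)) • e‖ ≤ (5 * 2) * (1 / 500) := by
      rw [norm_smul, Real.norm_eq_abs]
      have := hcoef (G z - a)
      calc _ ≤ (5 * ‖G z - a‖) * (1 / 500) := by gcongr
        _ ≤ _ := by gcongr
    refine (norm_add_le _ _).trans ?_
    rw [norm_sub_rev] at ha
    norm_num at h4 ⊢
    linarith
  · intro x s t h1 h2
    refine hab x s t (hTinj ?_) (hTinj ?_)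
    · rw [hTa]; exact h1
    · rw [hTb]; exact h2

end generic

/-! ### the last coordinate -/

section lastCoord

variable {r : ℕ}

/-- append a last coordinate -/
def sn (y : Fin r → I) (t : I) : Fin (r + 1) → I := Fin.snoc (α := fun _ => I) y t

@[simp] lemma sn_last (y : Fin r → I) (t : I) : sn y t (Fin.last r) = t := by simp [sn]

@[simp] lemma sn_castSucc (y : Fin r → I) (t : I) (i : Fin r) : sn y t i.castSucc = y i := by
  simp [sn]

/-- forget the last coordinate -/
def ini (x : Fin (r + 1) → I) : Fin r → I := fun i => x i.castSucc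

lemma sn_ini (x : Fin (r + 1) → I) : sn (ini x) (x (Fin.last r)) = x := by
  funext i
  refine Fin.lastCases ?_ (fun j => ?_) i
  · simp
  · simp [ini]

@[simp] lemma ini_sn (y : Fin r → I) (t : I) : ini (sn y t) = y := by
  funext i; simp [ini]

lemma continuous_sn : Continuous (fun q : (Fin r → I) × I => sn q.1 q.2) := by
  refine continuous_pi fun i => ?_
  refine Fin.lastCases ?_ (fun j => ?_) i
  · simpa using continuous_snd
  · simp only [sn_castSucc]; fun_prop

@[fun_prop]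
lemma Continuous.sn' {Z : Type*} [TopologicalSpace Z] {f : Z → Fin r → I} {g : Z → I}
    (hf : Continuous f) (hg : Continuous g) : Continuous fun z => sn (f z) (g z) :=
  continuous_sn.comp (f := fun z => (f z, g z)) (by fun_prop)

@[fun_prop]
lemma continuous_ini : Continuous (ini : (Fin (r + 1) → I) → _) := by unfold ini; fun_prop

lemma sn_bdry_iff {y : Fin r → I} {t : I} : sn y t ∈ Cube.boundary (Fin (r + 1)) ↔
    y ∈ Cube.boundary (Fin r) ∨ t = 0 ∨ t = 1 := by
  constructor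
  · rintro ⟨i, hi⟩
    revert hi
    refine Fin.lastCases ?_ (fun j => ?_) i
    · intro hi
      right
      simpa using hi
    · intro hi
      left
      exact ⟨j, by simpa using hi⟩
  · rintro (⟨j, hj⟩ | h)
    · exact ⟨j.castSucc, by simpa using hj⟩
    · exact ⟨Fin.last r, by simpa using h⟩

lemma bdry_iff {x : Fin (r + 1) → I} : x ∈ Cube.boundary (Fin (r + 1)) ↔
    ini x ∈ Cube.boundary (Fin r) ∨ x (Fin.last r) = 0 ∨ x (Fin.last r) = 1 := by
  conv_lhs => rw [← sn_ini x]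
  exact sn_bdry_iff

/-- the middle of the interval -/
noncomputable def hf : I := ⟨1 / 2, by norm_num, by norm_num⟩

@[simp] lemma coe_hf : (hf : ℝ) = 1 / 2 := rfl

lemma hf_ne_zero : hf ≠ 0 := by
  intro h
  have := congrArg Subtype.val h
  norm_num at this

lemma hf_ne_one : hf ≠ 1 := by
  intro h
  have := congrArg Subtype.val h
  norm_num at this

end lastCoord

section expand

variable {r : ℕ} {S : Type*} [TopologicalSpace S] [T2Space S] (P : CubeSphere (r + 1) S)

/-- the vertical profile of the expansion -/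
noncomputable def phi (lam : ℝ) (t : I) : I :=
  pI ((1 / 2) * (pI (2 * lam * ((t : ℝ) - 1 / 4) + 1 / 2) : ℝ) +
    (1 / 2) * (pI (2 * lam * ((t : ℝ) - 3 / 4) + 1 / 2) : ℝ))

lemma continuous_phi : Continuous (fun q : ℝ × I => phi q.1 q.2) := by
  unfold phi; fun_prop

lemma phi_one (t : I) : phi 1 t = t := by
  have h0 := t.2.1
  have h1 := t.2.2
  unfold phi
  rcases le_total (t : ℝ) (1 / 2) with h | h
  · rw [pI_of_nonpos (s := 2 * 1 * ((t : ℝ) - 3 / 4) + 1 / 2) (by linarith),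
      coe_pI (s := 2 * 1 * ((t : ℝ) - 1 / 4) + 1 / 2) (by linarith) (by linarith)]
    have : (1 / 2 : ℝ) * (2 * 1 * ((t : ℝ) - 1 / 4) + 1 / 2) + 1 / 2 * ((0 : I) : ℝ) = t := by
      simp only [Icc.coe_zero]; ring
    rw [this, pI_coe]
  · rw [pI_of_one_le (s := 2 * 1 * ((t : ℝ) - 1 / 4) + 1 / 2) (by linarith),
      coe_pI (s := 2 * 1 * ((t : ℝ) - 3 / 4) + 1 / 2) (by linarith) (by linarith)]
    have : (1 / 2 : ℝ) * ((1 : I) : ℝ) + 1 / 2 * (2 * 1 * ((t : ℝ) - 3 / 4) + 1 / 2) = t := by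
      simp only [Icc.coe_one]; ring
    rw [this, pI_coe]

lemma phi_zero {lam : ℝ} (h : 1 ≤ lam) : phi lam 0 = 0 := by
  unfold phi
  simp only [Icc.coe_zero]
  rw [pI_of_nonpos (s := 2 * lam * ((0 : ℝ) - 1 / 4) + 1 / 2) (by linarith),
    pI_of_nonpos (s := 2 * lam * ((0 : ℝ) - 3 / 4) + 1 / 2) (by linarith)]
  exact pI_of_nonpos (by simp)

lemma phi_last {lam : ℝ} (h : 1 ≤ lam) : phi lam 1 = 1 := by
  unfold phi
  simp only [Icc.coe_one]
  rw [pI_of_one_le (s := 2 * lam * ((1 : ℝ) - 1 / 4) + 1 / 2) (by linarith),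
    pI_of_one_le (s := 2 * lam * ((1 : ℝ) - 3 / 4) + 1 / 2) (by linarith)]
  exact pI_of_one_le (by norm_num)

/-- the expansion of the cube -/
noncomputable def expd (lam : ℝ) (x : Fin (r + 1) → I) : Fin (r + 1) → I :=
  sn (cl lam (ctr (ini x))) (phi lam (x (Fin.last r)))

lemma expd_one (x : Fin (r + 1) → I) : expd 1 x = x := by
  rw [expd, cl_one, phi_one, sn_ini]

lemma expd_bdry {lam : ℝ} (h : 1 ≤ lam) {x : Fin (r + 1) → I}
    (hx : x ∈ Cube.boundary (Fin (r + 1))) : expd lam x ∈ Cube.boundary (Fin (r + 1)) := by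
  rw [expd, sn_bdry_iff]
  rw [bdry_iff] at hx
  rcases hx with hx | hx | hx
  · left
    apply cl_mem_bdry (by linarith)
    rw [norm_ctr_bdry hx]
    linarith
  · right; left
    rw [hx, phi_zero h]
  · right; right
    rw [hx, phi_last h]

lemma continuous_expd : Continuous (fun q : ℝ × (Fin (r + 1) → I) => expd q.1 q.2) := by
  unfold expd
  refine Continuous.sn' ?_ ?_
  · exact continuous_cl.comp (f := fun q : ℝ × (Fin (r + 1) → I) => (q.1, ctr (ini q.2)))
      (by fun_prop)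
  · exact continuous_phi.comp (f := fun q : ℝ × (Fin (r + 1) → I) => (q.1, q.2 (Fin.last r)))
      (by fun_prop)

lemma exists_expd (M : ℝ) (hM : 0 ≤ M) :
    ∃ Ψ : C(S × I, S), ∀ x s, Ψ (P.p x, s) = P.p (expd (1 + s * M) x) :=
  P.lift_exists (fun q : (Fin (r + 1) → I) × I => P.p (expd (1 + q.2 * M) q.1))
    (P.p.continuous.comp (continuous_expd.comp (f := fun q : (Fin (r + 1) → I) × I =>
      ((1 : ℝ) + q.2 * M, q.1)) (by fun_prop)))
    fun x x' s hx hx' => by
      have h1 : (0 : ℝ) ≤ s := s.2.1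
      have h2 : (1 : ℝ) ≤ 1 + s * M := by nlinarith
      simp only
      rw [P.bdry _ (expd_bdry h2 hx), P.bdry _ (expd_bdry h2 hx')]

/-- the two standard values in the cube: `(1/2,…,1/2, 3/4)` and `(1/2,…,1/2,1/4)`. -/
noncomputable def a0 (r : ℕ) : Fin (r + 1) → I := cl 2 (a8 r)
/-- the second standard value -/
noncomputable def b0 (r : ℕ) : Fin (r + 1) → I := cl 2 (-a8 r)

lemma a0_castSucc (i : Fin r) : (a0 r i.castSucc : ℝ) = 1 / 2 := by
  have : i.castSucc ≠ Fin.last r := (Fin.castSucc_lt_last i).ne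
  simp only [a0, cl, a8, Pi.single_apply, this, if_false]
  rw [coe_pI] <;> norm_num

lemma a0_last : (a0 r (Fin.last r) : ℝ) = 3 / 4 := by
  simp only [a0, cl, a8, Pi.single_apply, if_true]
  rw [coe_pI] <;> norm_num

lemma b0_castSucc (i : Fin r) : (b0 r i.castSucc : ℝ) = 1 / 2 := by
  have : i.castSucc ≠ Fin.last r := (Fin.castSucc_lt_last i).ne
  simp only [b0, cl, a8, Pi.single_apply, Pi.neg_apply, this, if_false]
  rw [coe_pI] <;> norm_num

lemma b0_last : (b0 r (Fin.last r) : ℝ) = 1 / 4 := by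
  simp only [b0, cl, a8, Pi.single_apply, Pi.neg_apply, if_true]
  rw [coe_pI] <;> norm_num

lemma a0_not_bdry : a0 r ∉ Cube.boundary (Fin (r + 1)) := by
  rintro ⟨i, hi⟩
  revert hi
  refine Fin.lastCases ?_ (fun j => ?_) i
  · have h := a0_last (r := r)
    rintro (hi | hi) <;> rw [hi] at h <;> norm_num at h
  · have h := a0_castSucc j
    rintro (hi | hi) <;> rw [hi] at h <;> norm_num at h

lemma b0_not_bdry : b0 r ∉ Cube.boundary (Fin (r + 1)) := by
  rintro ⟨i, hi⟩
  revert hi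
  refine Fin.lastCases ?_ (fun j => ?_) i
  · have h := b0_last (r := r)
    rintro (hi | hi) <;> rw [hi] at h <;> norm_num at h
  · have h := b0_castSucc j
    rintro (hi | hi) <;> rw [hi] at h <;> norm_num at h

/-- A positive lower bound away from an interior point. -/
lemma exists_nu {n : ℕ} {S : Type*} [TopologicalSpace S] [T2Space S] (P : CubeSphere n S)
    (c : Fin n → I) (hc : ‖ctr c‖ ≤ 1 / 4) :
    ∃ ν : C(S, ℝ), (∀ x, ν (P.p x) ≤ ‖ctr x - ctr c‖) ∧ ∀ z, z ≠ P.p c → 0 < ν z := by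
  obtain ⟨ν, hν⟩ := P.lift_exists' (fun x => min ‖ctr x - ctr c‖ (1 / 8)) (by fun_prop)
    fun x x' hx hx' => by
      have : ∀ y ∈ Cube.boundary (Fin n), min ‖ctr y - ctr c‖ (1 / 8) = 1 / 8 := by
        intro y hy
        apply min_eq_right
        have := norm_sub_norm_le (ctr y) (ctr c)
        rw [norm_ctr_bdry hy] at this
        linarith
      rw [this x hx, this x' hx']
  refine ⟨ν, fun x => by rw [hν]; exact min_le_left _ _, ?_⟩
  intro z hz
  obtain ⟨x, rfl⟩ := P.surj z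
  rw [hν, lt_min_iff]
  refine ⟨?_, by norm_num⟩
  rw [norm_pos_iff, sub_ne_zero]
  intro h
  apply hz
  congr 1
  rw [← cl_one x, ← cl_one c, h]

lemma norm_ctr_a0 : ‖ctr (a0 r)‖ ≤ 1 / 4 := by
  rw [pi_norm_le_iff_of_nonneg (by norm_num)]
  intro i
  refine Fin.lastCases ?_ (fun j => ?_) i
  · simp only [ctr, a0_last]; norm_num
  · simp only [ctr, a0_castSucc]; norm_num

lemma norm_ctr_b0 : ‖ctr (b0 r)‖ ≤ 1 / 4 := by
  rw [pi_norm_le_iff_of_nonneg (by norm_num)]
  intro i
  refine Fin.lastCases ?_ (fun j => ?_) i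
  · simp only [ctr, b0_last]; norm_num
  · simp only [ctr, b0_castSucc]; norm_num

lemma exists_coord {n : ℕ} {v : Fin n → ℝ} {δ : ℝ} (hδ : 0 < δ) (h : δ ≤ ‖v‖) : ∃ i, δ ≤ |v i| := by
  by_contra hc
  push Not at hc
  have : ‖v‖ < δ := by
    rw [pi_norm_lt_iff hδ]
    intro i
    simpa using hc i
  linarith

lemma expand {X : Type*} [MetricSpace X] [CompactSpace X] (F2 : C(X × I, S)) (C : Set X)
    (hC : ∀ q ∈ bd C, F2 q = P.pt)
    (hlo : ∀ x (t : I), (t : ℝ) ≤ 1 / 2 → F2 (x, t) ≠ P.p (a0 r))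
    (hup : ∀ x (t : I), 1 / 2 ≤ (t : ℝ) → F2 (x, t) ≠ P.p (b0 r)) :
    ∃ F3 : C(X × I, S), F2.HomotopicRel F3 (bd C) ∧ (∀ q ∈ bd C, F3 q = P.pt) ∧
      (∀ x (t : I), (t : ℝ) ≤ 1 / 2 → ∃ (y : Fin r → I) (t' : I), (t' : ℝ) ≤ 1 / 2 ∧ F3 (x, t) = P.p (sn y t')) ∧
      (∀ x (t : I), 1 / 2 ≤ (t : ℝ) → ∃ (y : Fin r → I) (t' : I), 1 / 2 ≤ (t' : ℝ) ∧ F3 (x, t) = P.p (sn y t')) := by
  obtain ⟨νa, hνa, hνa'⟩ := exists_nu P (a0 r) norm_ctr_a0
  obtain ⟨νb, hνb, hνb'⟩ := exists_nu P (b0 r) norm_ctr_b0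
  have hKlo : IsCompact {q : X × I | (q.2 : ℝ) ≤ 1 / 2} :=
    (isClosed_le (by fun_prop) (by fun_prop)).isCompact
  have hKup : IsCompact {q : X × I | 1 / 2 ≤ (q.2 : ℝ)} :=
    (isClosed_le (by fun_prop) (by fun_prop)).isCompact
  obtain ⟨δa, hδa, hδa'⟩ := hKlo.exists_forall_le' (f := fun q => νa (F2 q)) (by fun_prop)
    (a := 0) (fun q hq => hνa' _ (hlo q.1 q.2 hq))
  obtain ⟨δb, hδb, hδb'⟩ := hKup.exists_forall_le' (f := fun q => νb (F2 q)) (by fun_prop)
    (a := 0) (fun q hq => hνb' _ (hup q.1 q.2 hq))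
  set δ := min δa δb with hδdef
  have hδ : 0 < δ := lt_min hδa hδb
  let M : ℝ := 1 / δ
  have hM : 0 ≤ M := by positivity
  set lam : ℝ := 1 + M with hlam
  have hlam1 : 1 ≤ lam := by linarith
  have hlamδ : 1 ≤ lam * δ := by
    have : M * δ = 1 := by simp only [M]; field_simp
    nlinarith
  obtain ⟨Ψ, hΨ⟩ := exists_expd P M hM
  have hΨ1 : ∀ x, Ψ (P.p x, 1) = P.p (expd lam x) := by
    intro x
    rw [hΨ]
    simp [hlam]
  have hpt : ∀ s, Ψ (P.pt, s) = P.pt := by
    intro s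
    have h0 : (fun _ => 0 : Fin (r + 1) → I) ∈ Cube.boundary (Fin (r + 1)) :=
      ⟨0, Or.inl rfl⟩
    have h1 : (0 : ℝ) ≤ s := s.2.1
    rw [← P.bdry _ h0, hΨ, P.bdry _ (expd_bdry (by nlinarith) h0), P.bdry _ h0]
  refine ⟨⟨fun q => Ψ (F2 q, 1), by fun_prop⟩, ?_, ?_, ?_, ?_⟩
  · refine mkRel _ _ _ (fun q => Ψ (F2 q.2, q.1)) (by fun_prop) ?_ ?_ ?_
    · intro z
      obtain ⟨x, hx⟩ := P.surj (F2 z)
      simp only [← hx, hΨ]
      simp [expd_one]
    · intro z
      rfl
    · intro s z hz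
      simp only [hC z hz, hpt]
  · intro q hq
    simp only [ContinuousMap.coe_mk, hC q hq, hpt]
  · intro x t ht
    obtain ⟨z, hz⟩ := P.surj (F2 (x, t))
    simp only [ContinuousMap.coe_mk, ← hz, hΨ1]
    have h1 : δ ≤ ‖ctr z - ctr (a0 r)‖ := by
      have := hδa' (x, t) ht
      simp only [← hz] at this
      exact (min_le_left _ _).trans (this.trans (hνa z))
    obtain ⟨i, hi⟩ := exists_coord hδ h1
    revert hi
    refine Fin.lastCases ?_ (fun j => ?_) i
    · intro hi
      rw [Pi.sub_apply, ctr, ctr, a0_last] at hi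
      by_cases hb : P.p (expd lam z) = P.pt
      · refine ⟨0, 0, by norm_num, ?_⟩
        rw [hb, P.bdry _ (sn_bdry_iff.2 (Or.inr (Or.inl rfl)))]
      refine ⟨cl lam (ctr (ini z)), phi lam (z (Fin.last r)), ?_, rfl⟩
      rcases le_abs.1 hi with hi | hi
      · exfalso
        apply hb
        apply P.bdry
        rw [expd, sn_bdry_iff]
        right; right
        unfold phi
        rw [pI_of_one_le (s := 2 * lam * ((z (Fin.last r) : ℝ) - 1 / 4) + 1 / 2) (by nlinarith),
          pI_of_one_le (s := 2 * lam * ((z (Fin.last r) : ℝ) - 3 / 4) + 1 / 2) (by nlinarith)]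
        exact pI_of_one_le (by norm_num)
      · unfold phi
        rw [pI_of_nonpos (s := 2 * lam * ((z (Fin.last r) : ℝ) - 3 / 4) + 1 / 2) (by nlinarith)]
        set w := pI (2 * lam * ((z (Fin.last r) : ℝ) - 1 / 4) + 1 / 2)
        have hw0 := w.2.1
        have hw1 := w.2.2
        rw [coe_pI (by simp; linarith) (by simp; linarith)]
        simp; linarith
    · intro hi
      rw [Pi.sub_apply, ctr, ctr, a0_castSucc] at hi
      refine ⟨0, 0, by norm_num, ?_⟩
      rw [P.bdry _ (sn_bdry_iff.2 (Or.inr (Or.inl rfl)))]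
      apply P.bdry
      rw [expd, sn_bdry_iff]
      left
      apply cl_mem_bdry (by linarith)
      have h2 : δ ≤ ‖ctr (ini z)‖ := by
        refine le_trans ?_ (norm_le_pi_norm _ j)
        have e : ctr (ini z) j = (z j.castSucc : ℝ) - 1 / 2 - (1 / 2 - 1 / 2) := by
          unfold ctr ini
          ring
        rw [Real.norm_eq_abs, e]
        exact hi
      nlinarith
  · intro x t ht
    obtain ⟨z, hz⟩ := P.surj (F2 (x, t))
    simp only [ContinuousMap.coe_mk, ← hz, hΨ1]
    have h1 : δ ≤ ‖ctr z - ctr (b0 r)‖ := by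
      have := hδb' (x, t) ht
      simp only [← hz] at this
      exact (min_le_right _ _).trans (this.trans (hνb z))
    obtain ⟨i, hi⟩ := exists_coord hδ h1
    revert hi
    refine Fin.lastCases ?_ (fun j => ?_) i
    · intro hi
      rw [Pi.sub_apply, ctr, ctr, b0_last] at hi
      by_cases hb : P.p (expd lam z) = P.pt
      · refine ⟨0, 1, by norm_num, ?_⟩
        rw [hb, P.bdry _ (sn_bdry_iff.2 (Or.inr (Or.inr rfl)))]
      refine ⟨cl lam (ctr (ini z)), phi lam (z (Fin.last r)), ?_, rfl⟩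
      rcases le_abs.1 hi with hi | hi
      · unfold phi
        rw [pI_of_one_le (s := 2 * lam * ((z (Fin.last r) : ℝ) - 1 / 4) + 1 / 2) (by nlinarith)]
        set w := pI (2 * lam * ((z (Fin.last r) : ℝ) - 3 / 4) + 1 / 2)
        have hw0 := w.2.1
        have hw1 := w.2.2
        rw [coe_pI (by simp; linarith) (by simp; linarith)]
        simp; linarith
      · exfalso
        apply hb
        apply P.bdry
        rw [expd, sn_bdry_iff]
        right; left
        unfold phi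
        rw [pI_of_nonpos (s := 2 * lam * ((z (Fin.last r) : ℝ) - 1 / 4) + 1 / 2) (by nlinarith),
          pI_of_nonpos (s := 2 * lam * ((z (Fin.last r) : ℝ) - 3 / 4) + 1 / 2) (by nlinarith)]
        exact pI_of_nonpos (by simp)
    · intro hi
      rw [Pi.sub_apply, ctr, ctr, b0_castSucc] at hi
      refine ⟨0, 1, by norm_num, ?_⟩
      rw [P.bdry _ (sn_bdry_iff.2 (Or.inr (Or.inr rfl)))]
      apply P.bdry
      rw [expd, sn_bdry_iff]
      left
      apply cl_mem_bdry (by linarith)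
      have h2 : δ ≤ ‖ctr (ini z)‖ := by
        refine le_trans ?_ (norm_le_pi_norm _ j)
        have e : ctr (ini z) j = (z j.castSucc : ℝ) - 1 / 2 - (1 / 2 - 1 / 2) := by
          unfold ctr ini
          ring
        rw [Real.norm_eq_abs, e]
        exact hi
      nlinarith

end expand

/-! ### the canonical suspension -/

section susp

variable {r : ℕ} {S S' : Type*} [TopologicalSpace S] [T2Space S] [TopologicalSpace S'] [T2Space S']
  (P : CubeSphere r S) (Q : CubeSphere (r + 1) S')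

lemma exists_sigma : ∃ sg : C(S × I, S'), ∀ y t, sg (P.p y, t) = Q.p (sn y t) :=
  P.lift_exists (fun q : (Fin r → I) × I => Q.p (sn q.1 q.2)) (by fun_prop)
    fun x x' t hx hx' => by
      simp only
      rw [Q.bdry _ (sn_bdry_iff.2 (Or.inl hx)), Q.bdry _ (sn_bdry_iff.2 (Or.inl hx'))]

/-- The canonical suspension map `S_r × I → S_{r+1}`, `(p y, t) ↦ p (y, t)`. -/
noncomputable def sigma : C(S × I, S') := (exists_sigma P Q).choose

lemma sigma_p (y : Fin r → I) (t : I) : sigma P Q (P.p y, t) = Q.p (sn y t) :=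
  (exists_sigma P Q).choose_spec y t

lemma sigma_zero (z : S) : sigma P Q (z, 0) = Q.pt := by
  obtain ⟨y, rfl⟩ := P.surj z
  rw [sigma_p, Q.bdry _ (sn_bdry_iff.2 (Or.inr (Or.inl rfl)))]

lemma sigma_one (z : S) : sigma P Q (z, 1) = Q.pt := by
  obtain ⟨y, rfl⟩ := P.surj z
  rw [sigma_p, Q.bdry _ (sn_bdry_iff.2 (Or.inr (Or.inr rfl)))]

omit [T2Space S] in
lemma exists_bdry_pt (hr : 0 < r) : ∃ y ∈ Cube.boundary (Fin r), P.p y = P.pt := by
  have h0 : (fun _ => 0 : Fin r → I) ∈ Cube.boundary (Fin r) := ⟨⟨0, hr⟩, Or.inl rfl⟩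
  exact ⟨_, h0, P.bdry _ h0⟩

lemma sigma_pt (hr : 0 < r) (t : I) : sigma P Q (P.pt, t) = Q.pt := by
  obtain ⟨y, hy, hy'⟩ := exists_bdry_pt P hr
  rw [← hy', sigma_p, Q.bdry _ (sn_bdry_iff.2 (Or.inl hy))]

lemma sigma_hf_inj {u v : S} (h : sigma P Q (u, hf) = sigma P Q (v, hf)) :
    u = v := by
  obtain ⟨y, rfl⟩ := P.surj u
  obtain ⟨y', rfl⟩ := P.surj v
  rw [sigma_p, sigma_p] at h
  rcases Q.inj _ _ h with h | ⟨h1, h2⟩
  · have := congrArg ini h
    rw [ini_sn, ini_sn] at this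
    rw [this]
  · rw [sn_bdry_iff] at h1 h2
    have h1' : y ∈ Cube.boundary (Fin r) := by
      rcases h1 with h | h | h
      · exact h
      · exact absurd h hf_ne_zero
      · exact absurd h hf_ne_one
    have h2' : y' ∈ Cube.boundary (Fin r) := by
      rcases h2 with h | h | h
      · exact h
      · exact absurd h hf_ne_zero
      · exact absurd h hf_ne_one
    rw [P.bdry _ h1', P.bdry _ h2']

/-- tent function -/
lemma exists_Sm : ∃ Θ : C(S' × I, S'), ∀ x m,
    Θ (Q.p x, m) = Q.p (sn (ini x) (pI (m * min (x (Fin.last r) : ℝ) (1 - x (Fin.last r))))) :=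
  Q.lift_exists (fun q : (Fin (r + 1) → I) × I =>
    Q.p (sn (ini q.1) (pI (q.2 * min (q.1 (Fin.last r) : ℝ) (1 - q.1 (Fin.last r))))))
    (by fun_prop) fun x x' m hx hx' => by
      have key : ∀ y ∈ Cube.boundary (Fin (r + 1)),
          Q.p (sn (ini y) (pI (m * min (y (Fin.last r) : ℝ) (1 - y (Fin.last r))))) = Q.pt := by
        intro y hy
        apply Q.bdry
        rw [sn_bdry_iff]
        rw [bdry_iff] at hy
        rcases hy with hy | hy | hy
        · exact Or.inl hy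
        · right; left
          rw [hy]
          exact pI_of_nonpos (by simp)
        · right; left
          rw [hy]
          exact pI_of_nonpos (by simp)
      simp only
      rw [key x hx, key x' hx']

lemma exists_Sp : ∃ Θ : C(S' × I, S'), ∀ x m,
    Θ (Q.p x, m) = Q.p (sn (ini x) (pI (1 - m * min (x (Fin.last r) : ℝ) (1 - x (Fin.last r))))) :=
  Q.lift_exists (fun q : (Fin (r + 1) → I) × I =>
    Q.p (sn (ini q.1) (pI (1 - q.2 * min (q.1 (Fin.last r) : ℝ) (1 - q.1 (Fin.last r))))))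
    (by fun_prop) fun x x' m hx hx' => by
      have key : ∀ y ∈ Cube.boundary (Fin (r + 1)),
          Q.p (sn (ini y) (pI (1 - m * min (y (Fin.last r) : ℝ) (1 - y (Fin.last r))))) = Q.pt := by
        intro y hy
        apply Q.bdry
        rw [sn_bdry_iff]
        rw [bdry_iff] at hy
        rcases hy with hy | hy | hy
        · exact Or.inl hy
        · right; right
          rw [hy]
          exact pI_of_one_le (by simp)
        · right; right
          rw [hy]
          exact pI_of_one_le (by simp)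
      simp only
      rw [key x hx, key x' hx']

/-- Straighten a map whose lower/upper halves lie in the lower/upper hemispheres. -/
lemma straighten (hr : 0 < r) {X : Type*} [MetricSpace X] [CompactSpace X] (F3 : C(X × I, S'))
    (C : Set X) (hC : ∀ q ∈ bd C, F3 q = Q.pt)
    (hlo : ∀ x (t : I), (t : ℝ) ≤ 1 / 2 → ∃ (y : Fin r → I) (t' : I), (t' : ℝ) ≤ 1 / 2 ∧
      F3 (x, t) = Q.p (sn y t'))
    (hup : ∀ x (t : I), 1 / 2 ≤ (t : ℝ) → ∃ (y : Fin r → I) (t' : I), 1 / 2 ≤ (t' : ℝ) ∧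
      F3 (x, t) = Q.p (sn y t')) :
    ∃ g : C(X, S), (∀ x ∈ C, g x = P.pt) ∧
      F3.HomotopicRel ⟨fun q => sigma P Q (g q.1, q.2), by fun_prop⟩ (bd C) := by
  have := P.compactSpace
  -- the equatorial map
  have hmid : ∀ x, ∃ u : S, sigma P Q (u, hf) = F3 (x, hf) := by
    intro x
    obtain ⟨y, t, ht, h1⟩ := hlo x hf (by simp)
    obtain ⟨y', t', ht', h2⟩ := hup x hf (by simp)
    by_cases hb : F3 (x, hf) = Q.pt
    · exact ⟨P.pt, by rw [hb, sigma_pt P Q hr]⟩
    · have h3 : sn y t = sn y' t' := by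
        apply Q.eq_of_p_eq (h1.symm.trans h2)
        intro h
        exact hb (h2.trans (Q.bdry _ h))
      have h4 : t = t' := by
        have := congrFun h3 (Fin.last r)
        simpa using this
      have h5 : t = hf := by
        apply Subtype.ext
        rw [← h4] at ht'
        exact le_antisymm ht ht'
      exact ⟨P.p y, by rw [sigma_p, h1, h5]⟩
  choose g hg using hmid
  let j : S → S' := fun u => sigma P Q (u, hf)
  have hj : Topology.IsClosedEmbedding j := by
    apply Continuous.isClosedEmbedding (by fun_prop)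
    intro u v h
    exact sigma_hf_inj P Q h
  have hgc : Continuous g := by
    rw [hj.isEmbedding.continuous_iff]
    have : j ∘ g = fun x => F3 (x, hf) := funext hg
    rw [this]
    fun_prop
  have hgC : ∀ x ∈ C, g x = P.pt := by
    intro x hx
    apply sigma_hf_inj P Q
    rw [hg, sigma_pt P Q hr]
    exact hC _ (Or.inl hx)
  refine ⟨⟨g, hgc⟩, hgC, ?_⟩
  obtain ⟨Sm, hSm⟩ := exists_Sm Q
  obtain ⟨Sp, hSp⟩ := exists_Sp Q
  have hSm1 : ∀ (y : Fin r → I) (t : I), (t : ℝ) ≤ 1 / 2 → Sm (Q.p (sn y t), 1) = Q.p (sn y t) := by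
    intro y t ht
    rw [hSm, ini_sn, sn_last, min_eq_left (by linarith), Icc.coe_one, one_mul, pI_coe]
  have hSp1 : ∀ (y : Fin r → I) (t : I), 1 / 2 ≤ (t : ℝ) → Sp (Q.p (sn y t), 1) = Q.p (sn y t) := by
    intro y t ht
    rw [hSp, ini_sn, sn_last, min_eq_right (by linarith), Icc.coe_one, one_mul, sub_sub_cancel,
      pI_coe]
  have hSmpt : ∀ m, Sm (Q.pt, m) = Q.pt := by
    intro m
    have h0 : sn (0 : Fin r → I) 0 ∈ Cube.boundary (Fin (r + 1)) :=
      sn_bdry_iff.2 (Or.inr (Or.inl rfl))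
    have h1 : pI ((m : ℝ) * min (((0 : I) : ℝ)) (1 - ((0 : I) : ℝ))) = 0 :=
      pI_of_nonpos (by simp)
    rw [← Q.bdry _ h0, hSm, sn_last, ini_sn, h1]
  have hSppt : ∀ m, Sp (Q.pt, m) = Q.pt := by
    intro m
    have h0 : sn (0 : Fin r → I) 1 ∈ Cube.boundary (Fin (r + 1)) :=
      sn_bdry_iff.2 (Or.inr (Or.inr rfl))
    have h1 : pI (1 - (m : ℝ) * min (((1 : I) : ℝ)) (1 - ((1 : I) : ℝ))) = 1 :=
      pI_of_one_le (by simp)
    rw [← Q.bdry _ h0, hSp, sn_last, ini_sn, h1]
  -- the time change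
  let om : I → I := fun t => pI (max (min (2 * (t : ℝ)) (1 / 2)) (2 * t - 1))
  have hom : Continuous om := by simp only [om]; fun_prop
  have hom0 : om 0 = 0 := pI_of_nonpos (by simp)
  have hom1 : om 1 = 1 := pI_of_one_le (by norm_num)
  have homlo : ∀ t : I, (t : ℝ) ≤ 1 / 2 → (om t : ℝ) = min (2 * (t : ℝ)) (1 / 2) := by
    intro t ht
    have h0 := t.2.1
    have h1 : 2 * (t : ℝ) - 1 ≤ min (2 * (t : ℝ)) (1 / 2) := by
      apply le_min <;> linarith
    simp only [om]
    rw [max_eq_left h1, coe_pI]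
    · apply le_min <;> linarith
    · exact (min_le_right _ _).trans (by norm_num)
  have homup : ∀ t : I, 1 / 2 ≤ (t : ℝ) → (om t : ℝ) = max (1 / 2) (2 * (t : ℝ) - 1) := by
    intro t ht
    have h0 := t.2.2
    simp only [om]
    rw [min_eq_right (by linarith), coe_pI]
    · exact (by norm_num : (0 : ℝ) ≤ 1 / 2).trans (le_max_left _ _)
    · apply max_le <;> linarith
  let G1 : C(X × I, S') := ⟨fun q => F3 (q.1, om q.2), by fun_prop⟩
  have h01 : F3.HomotopicRel G1 (bd C) := by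
    refine mkRel _ _ _ (fun q => F3 (q.2.1, pI ((1 - (q.1 : ℝ)) * q.2.2 + q.1 * om q.2.2)))
      (by fun_prop) ?_ ?_ ?_
    · rintro ⟨x, t⟩
      simp [pI_coe]
    · rintro ⟨x, t⟩
      simp [pI_coe, G1]
    · rintro s ⟨x, t⟩ (hx | hx | hx)
      · simp only at hx
        rw [hC (x, t) (Or.inl hx), hC _ (Or.inl hx)]
      · simp only at hx
        subst hx
        simp only [hom0]
        rw [pI_of_nonpos (by simp)]
      · simp only at hx
        subst hx
        simp only [hom1]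
        rw [pI_of_one_le (by simp)]
  -- the scaling homotopy
  have hHc : Continuous fun q : I × (X × I) => if (q.2.2 : ℝ) ≤ 1 / 2 then
      Sm (F3 (q.2.1, om q.2.2), pI ((1 - (q.1 : ℝ)) + (q.1 : ℝ) * max 0 (4 * (q.2.2 : ℝ) - 1)))
      else Sp (F3 (q.2.1, om q.2.2),
        pI ((1 - (q.1 : ℝ)) + (q.1 : ℝ) * max 0 (3 - 4 * (q.2.2 : ℝ)))) := by
    refine Continuous.if_le (by fun_prop) (by fun_prop) (by fun_prop) (by fun_prop) ?_
    rintro ⟨s, x, t⟩ ht
    simp only at ht ⊢
    have ht' : t = hf := Subtype.ext ht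
    have h1 : om t = hf := by
      apply Subtype.ext
      rw [homlo t ht.le, ht]
      norm_num
    have h2 : pI ((1 - (s : ℝ)) + s * max 0 (4 * (t : ℝ) - 1)) = 1 := by
      apply pI_of_one_le
      rw [ht]
      norm_num
    have h3 : pI ((1 - (s : ℝ)) + s * max 0 (3 - 4 * (t : ℝ))) = 1 := by
      apply pI_of_one_le
      rw [ht]
      norm_num
    rw [h1, h2, h3]
    obtain ⟨y, t1, ht1, e1⟩ := hlo x hf (by simp)
    obtain ⟨y', t2, ht2, e2⟩ := hup x hf (by simp)
    calc Sm (F3 (x, hf), 1) = F3 (x, hf) := by rw [e1, hSm1 y t1 ht1]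
      _ = Sp (F3 (x, hf), 1) := by rw [e2, hSp1 y' t2 ht2]
  let G2 : C(X × I, S') := ⟨fun q => sigma P Q (g q.1, pI ((4 * (q.2 : ℝ) - 1) / 2)), by fun_prop⟩
  have h12 : G1.HomotopicRel G2 (bd C) := by
    refine mkRel _ _ _ _ hHc ?_ ?_ ?_
    · rintro ⟨x, t⟩
      simp only [Icc.coe_zero, sub_zero, zero_mul, add_zero, G1, ContinuousMap.coe_mk]
      rw [pI_of_one_le (le_refl (1 : ℝ))]
      split_ifs with h
      · obtain ⟨y, t1, ht1, e1⟩ := hlo x (om t) (by rw [homlo t h]; exact min_le_right _ _)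
        rw [e1, hSm1 y t1 ht1]
      · push Not at h
        obtain ⟨y, t1, ht1, e1⟩ := hup x (om t) (by rw [homup t h.le]; exact le_max_left _ _)
        rw [e1, hSp1 y t1 ht1]
    · rintro ⟨x, t⟩
      have h0 := t.2.1
      have h1 := t.2.2
      obtain ⟨y, hy⟩ := P.surj (g x)
      simp only [Icc.coe_one, sub_self, one_mul, zero_add, G2, ContinuousMap.coe_mk]
      split_ifs with h
      · rcases le_total (t : ℝ) (1 / 4) with h4 | h4
        · rw [max_eq_left (by linarith), pI_of_nonpos (le_refl (0 : ℝ)),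
            pI_of_nonpos (s := (4 * (t : ℝ) - 1) / 2) (by linarith), sigma_zero]
          obtain ⟨y', t1, ht1, e1⟩ := hlo x (om t) (by rw [homlo t h]; exact min_le_right _ _)
          rw [e1, hSm]
          apply Q.bdry
          rw [sn_bdry_iff]
          right; left
          exact pI_of_nonpos (by simp)
        · have h5 : om t = hf := by
            apply Subtype.ext
            rw [homlo t h, min_eq_right (by linarith)]
            rfl
          rw [h5, ← hg, ← hy, sigma_p, sigma_p, hSm, ini_sn, sn_last, max_eq_right (by linarith),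
            coe_pI (by linarith) (by linarith)]
          congr 3
          simp only [coe_hf]
          norm_num
          ring
      · push Not at h
        rcases le_total (3 / 4) (t : ℝ) with h4 | h4
        · rw [max_eq_left (by linarith), pI_of_nonpos (le_refl (0 : ℝ)),
            pI_of_one_le (s := (4 * (t : ℝ) - 1) / 2) (by linarith), sigma_one]
          obtain ⟨y', t1, ht1, e1⟩ := hup x (om t) (by rw [homup t h.le]; exact le_max_left _ _)
          rw [e1, hSp]
          apply Q.bdry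
          rw [sn_bdry_iff]
          right; right
          exact pI_of_one_le (by simp)
        · have h5 : om t = hf := by
            apply Subtype.ext
            rw [homup t h.le, max_eq_left (by linarith)]
            rfl
          rw [h5, ← hg, ← hy, sigma_p, sigma_p, hSp, ini_sn, sn_last, max_eq_right (by linarith),
            coe_pI (s := 3 - 4 * (t : ℝ)) (by linarith) (by linarith)]
          congr 3
          simp only [coe_hf]
          norm_num
          ring
    · rintro s ⟨x, t⟩ hx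
      have hx1 : F3 (x, om t) = Q.pt := by
        rcases hx with hx | hx | hx
        · exact hC _ (Or.inl hx)
        · simp only at hx
          rw [hx, hom0]
          exact hC _ (Or.inr (Or.inl rfl))
        · simp only at hx
          rw [hx, hom1]
          exact hC _ (Or.inr (Or.inr rfl))
      simp only [hx1, hSmpt, hSppt, G1, ContinuousMap.coe_mk, ite_self]
  have h23 : G2.HomotopicRel ⟨fun q => sigma P Q (g q.1, q.2), by fun_prop⟩ (bd C) := by
    refine mkRel _ _ _ (fun q => sigma P Q (g q.2.1, pI ((1 - (q.1 : ℝ)) *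
      pI ((4 * (q.2.2 : ℝ) - 1) / 2) + q.1 * q.2.2))) (by fun_prop) ?_ ?_ ?_
    · rintro ⟨x, t⟩
      simp [pI_coe, G2]
    · rintro ⟨x, t⟩
      simp [pI_coe]
    · rintro s ⟨x, t⟩ (hx | hx | hx)
      · simp only at hx
        simp only [G2, ContinuousMap.coe_mk, hgC x hx, sigma_pt P Q hr]
      · simp only at hx
        subst hx
        simp only [G2, ContinuousMap.coe_mk, Icc.coe_zero]
        rw [pI_of_nonpos (s := (4 * (0 : ℝ) - 1) / 2) (by norm_num), pI_of_nonpos (by simp)]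
      · simp only at hx
        subst hx
        simp only [G2, ContinuousMap.coe_mk, Icc.coe_one]
        rw [pI_of_one_le (s := (4 * (1 : ℝ) - 1) / 2) (by norm_num), pI_of_one_le (by simp)]
  exact (h01.trans h12).trans h23

/-- **Freudenthal surjectivity, one step**, relative form. -/
theorem freudenthal_step {X : Type*} [MetricSpace X] [CompactSpace X] {EX : Type*}
    [NormedAddCommGroup EX] [NormedSpace ℝ EX] [FiniteDimensional ℝ EX] (κ : EX → X) {Lκ : ℝ≥0}
    (hκL : LipschitzWith Lκ κ) (hκ : Function.Surjective κ) (hdim : finrank ℝ EX < 2 * r)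
    (C : Set X) (F : C(X × I, S')) (hF : ∀ q ∈ bd C, F q = Q.pt) :
    ∃ g : C(X, S), (∀ x ∈ C, g x = P.pt) ∧
      F.HomotopicRel ⟨fun q => sigma P Q (g q.1, q.2), by fun_prop⟩ (bd C) := by
  have hr : 0 < r := by omega
  obtain ⟨G, ⟨L, hL⟩, hG⟩ := Q.exists_lip F (ε := 1 / 32) (by norm_num)
  have hG1 : ∀ z, ‖G z‖ ≤ 1 := by
    intro z
    have h1 := norm_add_le (G z - Q.xi (F z)) (Q.xi (F z))
    rw [sub_add_cancel] at h1
    linarith [hG z, Q.norm_xi_le (F z)]
  obtain ⟨G', hG', hgood⟩ := exists_good κ hκL hκ hdim G hL hG1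
  obtain ⟨F1, hFF1, hF1⟩ := Q.approx_step (Nat.succ_pos r) F G' (fun z => by
    have h1 := norm_add_le (G' z - G z) (G z - Q.xi (F z))
    rw [sub_add_sub_cancel] at h1
    linarith [hG z, hG' z])
  have hFF1' : F.HomotopicRel F1 (bd C) := by
    obtain ⟨H⟩ := hFF1
    exact ⟨{ H with prop' := fun s x hx => H.prop' s x (hF x hx) }⟩
  have hF1C : ∀ q ∈ bd C, F1 q = Q.pt := fun q hq => by
    rw [← hFF1'.fst_eq_snd hq, hF q hq]
  have hcl : ∀ (v w : Fin (r + 1) → ℝ), cl 2 v = cl 2 w → cl 2 w ∉ Cube.boundary (Fin (r + 1)) →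
      v = w := by
    intro v w h hw
    funext i
    have hi := congrFun h i
    simp only [cl] at hi
    have key : ∀ u : ℝ, pI u ≠ 0 → pI u ≠ 1 → (pI u : ℝ) = u := by
      intro u h0 h1
      apply coe_pI
      · by_contra hc
        exact h0 (pI_of_nonpos (not_le.1 hc).le)
      · by_contra hc
        exact h1 (pI_of_one_le (not_le.1 hc).le)
    have hw0 : pI (1 / 2 + 2 * w i) ≠ 0 := fun h0 => hw ⟨i, Or.inl h0⟩
    have hw1 : pI (1 / 2 + 2 * w i) ≠ 1 := fun h0 => hw ⟨i, Or.inr h0⟩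
    have e1 := key _ hw0 hw1
    have e2 := key (1 / 2 + 2 * v i) (by rw [hi]; exact hw0) (by rw [hi]; exact hw1)
    rw [hi, e1] at e2
    linarith
  obtain ⟨F2, hF12, hlo, hup, hF2C⟩ := push F1 Q.pt (Q.p (a0 r)) (Q.p (b0 r))
    (fun h => a0_not_bdry (Q.mem_bdry_of_p_eq (Nat.succ_pos r) h))
    (fun h => b0_not_bdry (Q.mem_bdry_of_p_eq (Nat.succ_pos r) h))
    (fun x s t h1 h2 => hgood x s t
      (hcl _ _ (hF1 _ _ h1 a0_not_bdry) a0_not_bdry)
      (hcl _ _ (hF1 _ _ h2 b0_not_bdry) b0_not_bdry)) C hF1C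
  obtain ⟨F3, hF23, hF3C, hlo3, hup3⟩ := expand Q F2 C hF2C hlo hup
  obtain ⟨g, hg, hF3⟩ := straighten P Q hr F3 C hF3C hlo3 hup3
  exact ⟨g, hg, ((hFF1'.trans hF12).trans hF23).trans hF3⟩

end susp

end Crest.Agent.R204.Freud661
end

-- ▼ part R204/CubeSph_661
section

set_option autoImplicit false

open Set Metric Module
open scoped unitInterval Topology Topology.Homotopy

namespace Crest.Agent.R204.CubeSph661

open Crest.Agent.R204.Freud661 Crest.Agent.R204.HDeg160

/-! ### the quotient model -/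

/-- collapse of the boundary -/
def qsSetoid (n : ℕ) : Setoid (Fin n → I) where
  r x y := x = y ∨ (x ∈ Cube.boundary (Fin n) ∧ y ∈ Cube.boundary (Fin n))
  iseqv :=
    { refl := fun _ => Or.inl rfl
      symm := by
        rintro x y (h | ⟨h1, h2⟩)
        · exact Or.inl h.symm
        · exact Or.inr ⟨h2, h1⟩
      trans := by
        rintro x y z (h | ⟨h1, h2⟩) (h' | ⟨h1', h2'⟩)
        · exact Or.inl (h.trans h')
        · subst h; exact Or.inr ⟨h1', h2'⟩
        · subst h'; exact Or.inr ⟨h1, h2⟩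
        · exact Or.inr ⟨h1, h2'⟩ }

/-- the quotient `I^n / ∂I^n` -/
def QS (n : ℕ) : Type := Quotient (qsSetoid n)

instance (n : ℕ) : TopologicalSpace (QS n) :=
  inferInstanceAs (TopologicalSpace (Quotient (qsSetoid n)))

/-- collapse map -/
def qsMk (n : ℕ) (x : Fin n → I) : QS n := Quotient.mk (qsSetoid n) x

lemma continuous_qsMk (n : ℕ) : Continuous (qsMk n) := continuous_quotient_mk'

lemma qsMk_surj (n : ℕ) : Function.Surjective (qsMk n) := Quotient.exists_rep

lemma qsMk_eq {n : ℕ} {x y : Fin n → I} :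
    qsMk n x = qsMk n y ↔ x = y ∨ (x ∈ Cube.boundary (Fin n) ∧ y ∈ Cube.boundary (Fin n)) :=
  ⟨fun h => Quotient.exact h, fun h => Quotient.sound h⟩

lemma mem_bdry_of_norm {n : ℕ} {x : Fin n → I} (h : 1 / 2 ≤ ‖ctr x‖) :
    x ∈ Cube.boundary (Fin n) := by
  obtain ⟨i, hi⟩ := exists_coord (by norm_num) h
  refine ⟨i, ?_⟩
  have h0 := (x i).2.1
  have h1 := (x i).2.2
  simp only [ctr] at hi
  rcases le_abs.1 hi with hi | hi
  · right
    exact Subtype.ext (le_antisymm h1 (by simp; linarith))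
  · left
    exact Subtype.ext (le_antisymm (by simp; linarith) h0)

/-- an embedding of the quotient -/
noncomputable def qsEmb (n : ℕ) : QS n → (Fin n → ℝ) × ℝ :=
  Quotient.lift (s := qsSetoid n) (fun x => ((1 / 2 - ‖ctr x‖) • ctr x, 1 / 2 - ‖ctr x‖)) (by
    rintro x y (h | ⟨h1, h2⟩)
    · rw [h]
    · simp only [norm_ctr_bdry h1, norm_ctr_bdry h2, sub_self, zero_smul])

lemma qsEmb_mk {n : ℕ} (x : Fin n → I) :
    qsEmb n (qsMk n x) = ((1 / 2 - ‖ctr x‖) • ctr x, 1 / 2 - ‖ctr x‖) := rfl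

lemma continuous_qsEmb (n : ℕ) : Continuous (qsEmb n) := by
  apply Continuous.quotient_lift
  fun_prop

lemma qsEmb_inj (n : ℕ) : Function.Injective (qsEmb n) := by
  intro a b h
  obtain ⟨x, rfl⟩ := qsMk_surj n a
  obtain ⟨y, rfl⟩ := qsMk_surj n b
  rw [qsEmb_mk, qsEmb_mk, Prod.mk.injEq] at h
  obtain ⟨h1, h2⟩ := h
  rw [qsMk_eq]
  by_cases h0 : 1 / 2 - ‖ctr x‖ = 0
  · right
    exact ⟨mem_bdry_of_norm (by linarith), mem_bdry_of_norm (by linarith)⟩
  · left
    rw [← h2] at h1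
    have h3 := smul_right_injective _ h0 h1
    rw [← cl_one x, ← cl_one y, h3]

instance (n : ℕ) : T2Space (QS n) :=
  T2Space.of_injective_continuous (qsEmb_inj n) (continuous_qsEmb n)

instance (n : ℕ) : CompactSpace (QS n) :=
  inferInstanceAs (CompactSpace (Quotient (qsSetoid n)))

/-- the standard cube sphere -/
def qs (n : ℕ) : CubeSphere n (QS n) where
  p := ⟨qsMk n, continuous_qsMk n⟩
  pt := qsMk n 0
  surj := qsMk_surj n
  bdry := by
    intro x hx
    obtain ⟨i, hi⟩ := hx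
    exact qsMk_eq.2 (Or.inr ⟨⟨i, hi⟩, ⟨i, Or.inl rfl⟩⟩)
  inj := fun x y h => qsMk_eq.1 h

/-! ### loops -/

section loops

variable {n : ℕ} {S S' : Type*} [TopologicalSpace S] [T2Space S] [TopologicalSpace S'] [T2Space S']

omit [T2Space S] in
/-- the collapse as a generalised loop -/
def pLoop (P : CubeSphere n S) : Ω^ (Fin n) S P.pt := ⟨P.p, P.bdry⟩

variable (P : CubeSphere n S) (Q : CubeSphere (n + 1) S')

/-- the canonical suspension as `SuspData` -/
noncomputable def suspData (hn : 0 < n) : SuspData S S' P.pt Q.pt where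
  e := sigma P Q
  e_zero := sigma_zero P Q
  e_one := sigma_one P Q
  e_base := sigma_pt P Q hn

lemma susp_pLoop (hn : 0 < n) : (suspData P Q hn).susp (pLoop P) = pLoop Q := by
  ext t
  rw [SuspData.susp_apply]
  show sigma P Q (P.p (Fin.init t), t (Fin.last n)) = Q.p t
  rw [sigma_p]
  congr 1
  exact sn_ini t


/-- the clamping parametrisation of the cube -/
noncomputable def kap (n : ℕ) : (Fin n → ℝ) → (Fin n → I) := fun v i => pI (v i)

lemma lip_kap (n : ℕ) : LipschitzWith 1 (kap n) := by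
  refine LipschitzWith.of_dist_le_mul fun v w => ?_
  rw [NNReal.coe_one, one_mul, dist_pi_le_iff dist_nonneg]
  intro i
  have h1 := lip_pI.dist_le_mul (v i) (w i)
  rw [NNReal.coe_one, one_mul] at h1
  exact h1.trans (dist_le_pi_dist v w i)

lemma kap_surj (n : ℕ) : Function.Surjective (kap n) := by
  intro x
  exact ⟨fun i => x i, funext fun i => pI_coe (x i)⟩

/-- **Surjectivity of suspension** `π_q(S_n) → π_{q+1}(S_{n+1})`, `q < 2 n`. -/
theorem susp_surj {q : ℕ} (hn : 0 < n) (hq : q < 2 * n) (f : Ω^ (Fin (q + 1)) S' Q.pt) :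
    ∃ g : Ω^ (Fin q) S P.pt, GenLoop.Homotopic f ((suspData P Q hn).susp g) := by
  let F : C((Fin q → I) × I, S') := ⟨fun z => f (sn z.1 z.2), by
    exact f.1.continuous.comp continuous_sn⟩
  have hF : ∀ z ∈ bd (Cube.boundary (Fin q)), F z = Q.pt := by
    rintro ⟨x, t⟩ hz
    exact f.2 _ (sn_bdry_iff.2 hz)
  obtain ⟨g, hg, H⟩ := freudenthal_step P Q (kap q) (lip_kap q) (kap_surj q) (by simpa using hq)
    (Cube.boundary (Fin q)) F hF
  refine ⟨⟨g, hg⟩, ?_⟩
  obtain ⟨H⟩ := H
  refine mkRel _ _ _ (fun z => H (z.1, (ini z.2, z.2 (Fin.last q)))) ?_ ?_ ?_ ?_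
  · exact H.continuous.comp (by fun_prop)
  · intro x
    rw [H.apply_zero]
    show f (sn (ini x) (x (Fin.last q))) = f x
    rw [sn_ini]
  · intro x
    rw [H.apply_one]
    rfl
  · intro s x hx
    have h1 := H.prop' s (ini x, x (Fin.last q)) (bdry_iff.1 hx)
    have h2 : H (s, (ini x, x (Fin.last q))) = F (ini x, x (Fin.last q)) := h1
    rw [h2]
    show f (sn (ini x) (x (Fin.last q))) = f x
    rw [sn_ini]

end loops

end Crest.Agent.R204.CubeSph661
end

-- ▼ part R204/HDegQ_160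

/-!
# Row 204, block H, leaf DEG (helper160), part Q

* `cube_gen`: for ANY cube sphere `P : CubeSphere (n+1) S` (`S` Hausdorff), `π_{n+1}(S)` is
  generated by the collapse map.
* `sphCube n : CubeSphere (n+1) (Sph (n+1))`: the metric sphere of S0314/S0315.
* `exists_smash`: the map `S × S' → W` induced by `Fin.append`.
* `exists_degree_K`: K-theory degree.
-/

set_option autoImplicit false

open scoped unitInterval Topology Topology.Homotopy

namespace Crest.Agent.R204.HDeg160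

open Crest.Agent.R204.Freud661 Crest.Agent.R204.CubeSph661
open Crest.Agent.R204.K357 Crest.Agent.R204.HInv313 Crest.Agent.R204.H472

universe u v w

/-- **generation of `π_N` of a cube sphere**, `N ≥ 1` -/
theorem cube_gen : ∀ (n : ℕ) {S : Type} [TopologicalSpace S] [T2Space S]
    (P : CubeSphere (n + 1) S) (g : Ω^ (Fin (n + 1)) S P.pt), ∃ D : ℤ, cls g = cls (pLoop P) ^ D
  | 0, S, _, _, P, g => gen_one (pLoop P) P.surj P.inj g
  | n + 1, S, _, _, P, g => by
    have h := SuspData.gen_step (S := suspData (qs (n + 1)) P n.succ_pos) (pLoop (qs (n + 1)))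
      (cube_gen n (qs (n + 1))) (fun f => by
        obtain ⟨g, hg⟩ := CubeSph661.susp_surj (qs (n + 1)) P n.succ_pos (q := n + 1) (by omega) f
        exact ⟨g, hg.symm⟩) g
    rw [susp_pLoop] at h
    exact h

/-- a cell of positive dimension is a cube sphere -/
def IsCell.cube {n : ℕ} {S : Type u} [TopologicalSpace S] {s₀ : S} {q : Ω^ (Fin (n + 1)) S s₀}
    (hq : IsCell q) : CubeSphere (n + 1) S where
  p := q.1
  pt := s₀
  surj := hq.surjective
  bdry := q.2
  inj x y h := (hq.eq_iff x y).1 h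

/-- the metric sphere as a cube sphere -/
noncomputable def sphCube (n : ℕ) : CubeSphere (n + 1) (Freu297.Sph (n + 1)) :=
  (cell_isCell (n + 1)).cube

@[simp] theorem sphCube_pt (n : ℕ) : (sphCube n).pt = Freu297.pt (n + 1) := rfl

@[simp] theorem sphCube_p (n : ℕ) (x : Fin (n + 1) → I) : (sphCube n).p x = cell (n + 1) x := rfl


/-! ## smash product of two cube spheres -/

section smash

variable {m n : ℕ} {S S' W : Type*} [TopologicalSpace S] [T2Space S] [TopologicalSpace S']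
  [T2Space S'] [TopologicalSpace W] (P : CubeSphere m S) (Q : CubeSphere n S')
  (R : CubeSphere (m + n) W)

theorem append_mem_boundary (x : Fin m → I) (y : Fin n → I) :
    Fin.append x y ∈ Cube.boundary (Fin (m + n)) ↔
      x ∈ Cube.boundary (Fin m) ∨ y ∈ Cube.boundary (Fin n) := by
  constructor
  · rintro ⟨i, hi⟩
    refine Fin.addCases (motive := fun i => (Fin.append x y i = 0 ∨ Fin.append x y i = 1) → _)
      (fun j h => ?_) (fun j h => ?_) i hi
    · rw [Fin.append_left] at h; exact Or.inl ⟨j, h⟩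
    · rw [Fin.append_right] at h; exact Or.inr ⟨j, h⟩
  · rintro (⟨j, h⟩ | ⟨j, h⟩)
    · exact ⟨Fin.castAdd n j, by rwa [Fin.append_left]⟩
    · exact ⟨Fin.natAdd m j, by rwa [Fin.append_right]⟩

theorem continuous_append : Continuous fun p : (Fin m → I) × (Fin n → I) =>
    (Fin.append p.1 p.2 : Fin (m + n) → I) := by
  refine continuous_pi fun i => ?_
  refine Fin.addCases (fun j => ?_) (fun j => ?_) i
  · simp only [Fin.append_left]; fun_prop
  · simp only [Fin.append_right]; fun_prop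

include P Q in
theorem exists_smash : ∃ π : C(S × S', W), ∀ x y, π (P.p x, Q.p y) = R.p (Fin.append x y) := by
  have hq : Topology.IsQuotientMap (Prod.map P.p Q.p) := by
    have h1 : IsProperMap P.p := P.p.continuous.isProperMap
    have h2 : IsProperMap Q.p := Q.p.continuous.isProperMap
    have h3 := h1.prodMap h2
    exact h3.isClosedMap.isQuotientMap h3.continuous (P.surj.prodMap Q.surj)
  choose s hs using P.surj
  choose t ht using Q.surj
  let π : S × S' → W := fun z => R.p (Fin.append (s z.1) (t z.2))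
  have hb : ∀ (x : Fin m → I) (y : Fin n → I),
      x ∈ Cube.boundary (Fin m) ∨ y ∈ Cube.boundary (Fin n) → R.p (Fin.append x y) = R.pt :=
    fun x y h => R.bdry _ ((append_mem_boundary x y).2 h)
  have key : ∀ x y, π (P.p x, Q.p y) = R.p (Fin.append x y) := by
    intro x y
    show R.p (Fin.append (s (P.p x)) (t (Q.p y))) = _
    rcases P.inj _ _ (hs (P.p x)) with h1 | ⟨h1, h2⟩
    · rcases Q.inj _ _ (ht (Q.p y)) with h3 | ⟨h3, h4⟩
      · rw [h1, h3]
      · rw [hb _ _ (Or.inr h3), hb _ _ (Or.inr h4)]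
    · rw [hb _ _ (Or.inl h1), hb _ _ (Or.inl h2)]
  refine ⟨⟨π, ?_⟩, key⟩
  rw [hq.continuous_iff]
  have : π ∘ Prod.map P.p Q.p = fun z => R.p (Fin.append z.1 z.2) := by
    funext ⟨x, y⟩; exact key x y
  rw [this]
  exact R.p.continuous.comp continuous_append

/-- the smash projection `S × S' → S ∧ S' ≅ W` -/
noncomputable def smash : C(S × S', W) := (exists_smash P Q R).choose

theorem smash_p (x : Fin m → I) (y : Fin n → I) :
    smash P Q R (P.p x, Q.p y) = R.p (Fin.append x y) := (exists_smash P Q R).choose_spec x y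

theorem smash_eq_pt_iff (hm : 0 < m) (hn : 0 < n) (z : S × S') :
    smash P Q R z = R.pt ↔ z.1 = P.pt ∨ z.2 = Q.pt := by
  obtain ⟨a, b⟩ := z
  obtain ⟨x, rfl⟩ := P.surj a
  obtain ⟨y, rfl⟩ := Q.surj b
  rw [smash_p]
  constructor
  · intro h
    have := R.mem_bdry_of_p_eq (by omega) h
    rw [append_mem_boundary] at this
    exact this.imp (P.bdry x) (Q.bdry y)
  · intro h
    apply R.bdry
    rw [append_mem_boundary]
    exact h.imp (P.mem_bdry_of_p_eq hm) (Q.mem_bdry_of_p_eq hn)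

theorem smash_surjective : Function.Surjective (smash P Q R) := by
  intro w
  obtain ⟨z, rfl⟩ := R.surj w
  refine ⟨(P.p (fun i => z (Fin.castAdd n i)), Q.p (fun i => z (Fin.natAdd m i))), ?_⟩
  rw [smash_p]
  congr 1
  exact Fin.append_castAdd_natAdd

/-- `smash` is injective off the wedge -/
theorem smash_inj (hm : 0 < m) (hn : 0 < n) {z z' : S × S'}
    (h : smash P Q R z = smash P Q R z') :
    z = z' ∨ ((z.1 = P.pt ∨ z.2 = Q.pt) ∧ (z'.1 = P.pt ∨ z'.2 = Q.pt)) := by
  by_cases hz : smash P Q R z = R.pt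
  · right
    exact ⟨(smash_eq_pt_iff P Q R hm hn z).1 hz, (smash_eq_pt_iff P Q R hm hn z').1 (h ▸ hz)⟩
  · left
    obtain ⟨a, b⟩ := z
    obtain ⟨a', b'⟩ := z'
    obtain ⟨x, rfl⟩ := P.surj a
    obtain ⟨y, rfl⟩ := Q.surj b
    obtain ⟨x', rfl⟩ := P.surj a'
    obtain ⟨y', rfl⟩ := Q.surj b'
    rw [smash_p] at hz
    rw [smash_p, smash_p] at h
    rcases R.inj _ _ h with h1 | ⟨h1, _⟩
    · have h2 : x = x' := by
        funext i
        have := congrFun h1 (Fin.castAdd n i)
        rwa [Fin.append_left, Fin.append_left] at this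
      have h3 : y = y' := by
        funext i
        have := congrFun h1 (Fin.natAdd m i)
        rwa [Fin.append_right, Fin.append_right] at this
      rw [h2, h3]
    · exact absurd (R.bdry _ h1) hz

end smash

/-- **degree, K-side**: for a loop `g` in a cube sphere there is an integer `D` with
`cls g = cls p ^ D`, and `g^* x = D • p^* x` for every reduced class. -/
theorem exists_degree_K {n : ℕ} {S : Type} [TopologicalSpace S] [T2Space S]
    (P : CubeSphere (n + 1) S) (g : Ω^ (Fin (n + 1)) S P.pt) :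
    ∃ D : ℤ, cls g = cls (pLoop P) ^ D ∧
      ∀ x : K0 C(S, ℂ), resK P.pt x = 0 → pullK g x = D • pullK (pLoop P) x := by
  obtain ⟨D, hD⟩ := cube_gen n P g
  exact ⟨D, hD, fun x hx => k_degree x hx (pLoop P) g D hD⟩

end Crest.Agent.R204.HDeg160
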