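import Crest.Agent.R204.KDefs_357

-- ▼ part R204/PsiA_357
section

/-!
# Adams operations on `K0 A` (row 204, block H, leaf H1), part A

Isotypical projectors of matrix representations of `ZMod p`, tensor powers of matrices.
-/

open Matrix
open scoped Kronecker BigOperators

namespace Crest.Agent.R204.K357

universe u v w

noncomputable section

/-! ### characters -/

section chi

variable (p : ℕ) [Fact p.Prime] (A : Type u) [CommRing A] [Algebra ℂ A]

/-- the standard character of `ZMod p` with values in `A` -/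
def chi (a : ZMod p) : A := algebraMap ℂ A (ZMod.stdAddChar a)

/-- `1/p` -/
def ip : A := algebraMap ℂ A ((p : ℂ)⁻¹)

variable {p A}

@[simp] theorem chi_zero : chi p A 0 = 1 := by simp [chi]

theorem chi_add (a b : ZMod p) : chi p A (a + b) = chi p A a * chi p A b := by
  simp [chi, AddChar.map_add_eq_mul]

theorem chi_mul_neg (a : ZMod p) : chi p A a * chi p A (-a) = 1 := by
  rw [← chi_add, add_neg_cancel, chi_zero]

theorem ip_mul : ip p A * (p : A) = 1 := by
  have hp : (p : ℂ) ≠ 0 := by exact_mod_cast (Fact.out : p.Prime).ne_zero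
  have : (p : A) = algebraMap ℂ A (p : ℂ) := by simp
  rw [ip, this, ← map_mul, inv_mul_cancel₀ hp, map_one]

theorem sum_chi (k : ZMod p) : ∑ j : ZMod p, chi p A (j * k) = if k = 0 then (p : A) else 0 := by
  have := AddChar.sum_mulShift k (ZMod.isPrimitive_stdAddChar p)
  unfold chi
  rw [← map_sum, this]
  split_ifs <;> simp

theorem sum_chi' (k : ZMod p) : ∑ j : ZMod p, chi p A (k * j) = if k = 0 then (p : A) else 0 := by
  rw [← sum_chi]
  exact Finset.sum_congr rfl fun j _ => by rw [mul_comm]

end chi

/-! ### matrix representations of `ZMod p` -/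

section rep

open Classical in
/-- a matrix representation of `ZMod p` -/
structure MRep (p : ℕ) (X : Type*) [Fintype X] (A : Type*) [CommRing A] where
  /-- the matrices -/
  ρ : ZMod p → Matrix X X A
  zero' : ρ 0 = 1
  add' : ∀ a b, ρ (a + b) = ρ a * ρ b

variable {p : ℕ} [Fact p.Prime] {A : Type u} [CommRing A] [Algebra ℂ A]
variable {X Y Z : Type*} [Fintype X] [Fintype Y] [Fintype Z]

namespace MRep

/-- the isotypical projector -/
def proj (R : MRep p X A) (j : ZMod p) : Matrix X X A :=
  ∑ a, (ip p A * chi p A (-(j * a))) • R.ρ a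

theorem proj_mul_rho (R : MRep p X A) (j b : ZMod p) :
    R.proj j * R.ρ b = chi p A (j * b) • R.proj j := by
  unfold proj
  rw [Finset.sum_mul, Finset.smul_sum]
  rw [← Equiv.sum_comp (Equiv.addRight b) (fun a => chi p A (j * b) •
    (ip p A * chi p A (-(j * a))) • R.ρ a)]
  refine Finset.sum_congr rfl fun a _ => ?_
  rw [Equiv.coe_addRight, smul_mul_assoc, ← R.add', smul_smul]
  congr 1
  have : -(j * a) = j * b + -(j * (a + b)) := by ring
  rw [this, chi_add]
  ring

theorem rho_mul_proj (R : MRep p X A) (j b : ZMod p) :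
    R.ρ b * R.proj j = chi p A (j * b) • R.proj j := by
  unfold proj
  rw [Finset.mul_sum, Finset.smul_sum]
  rw [← Equiv.sum_comp (Equiv.addRight b) (fun a => chi p A (j * b) •
    (ip p A * chi p A (-(j * a))) • R.ρ a)]
  refine Finset.sum_congr rfl fun a _ => ?_
  rw [Equiv.coe_addRight, mul_smul_comm, ← R.add', smul_smul, add_comm b a]
  congr 1
  have : -(j * a) = j * b + -(j * (a + b)) := by ring
  rw [this, chi_add]
  ring

omit [Fintype Y] in
/-- `proj` multiplied by a common eigenmatrix -/
theorem mul_proj_of_eigen (R : MRep p X A) (M : Matrix Y X A) (i : ZMod p)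
    (hM : ∀ a, M * R.ρ a = chi p A (i * a) • M) (j : ZMod p) :
    M * R.proj j = if i = j then M else 0 := by
  unfold proj
  rw [Matrix.mul_sum]
  have h1 : ∀ a, M * ((ip p A * chi p A (-(j * a))) • R.ρ a) =
      (ip p A * chi p A ((i - j) * a)) • M := by
    intro a
    rw [Matrix.mul_smul, hM, smul_smul]
    congr 1
    have : (i - j) * a = -(j * a) + i * a := by ring
    rw [this, chi_add]
    ring
  rw [Finset.sum_congr rfl fun a _ => h1 a, ← Finset.sum_smul, ← Finset.mul_sum, sum_chi']
  by_cases h : i = j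
  · simp [h, ip_mul]
  · simp [h, sub_eq_zero]

theorem proj_mul_proj (R : MRep p X A) (i j : ZMod p) :
    R.proj i * R.proj j = if i = j then R.proj i else 0 :=
  R.mul_proj_of_eigen _ i (fun a => R.proj_mul_rho i a) j

theorem proj_idem (R : MRep p X A) (j : ZMod p) : R.proj j * R.proj j = R.proj j := by
  rw [proj_mul_proj, if_pos rfl]

theorem proj_orth (R : MRep p X A) {i j : ZMod p} (h : i ≠ j) : R.proj i * R.proj j = 0 := by
  rw [proj_mul_proj, if_neg h]

open Classical in
theorem sum_proj (R : MRep p X A) : ∑ j, R.proj j = 1 := by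
  unfold proj
  rw [Finset.sum_comm]
  have h1 : ∀ a, ∑ j : ZMod p, (ip p A * chi p A (-(j * a))) • R.ρ a =
      if a = 0 then (1 : Matrix X X A) else 0 := by
    intro a
    rw [← Finset.sum_smul, ← Finset.mul_sum]
    have : ∀ j : ZMod p, chi p A (-(j * a)) = chi p A (j * (-a)) := fun j => by
      rw [mul_neg]
    rw [Finset.sum_congr rfl fun j _ => this j, sum_chi]
    by_cases h : a = 0
    · simp [h, ip_mul, R.zero']
    · simp [h]
  rw [Finset.sum_congr rfl fun a _ => h1 a]
  simp

/-- intertwiners, twisted by a character -/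
theorem proj_mul_of_twist (R : MRep p X A) (R' : MRep p Y A) (M : Matrix X Y A) (c : ZMod p)
    (h : ∀ a, R.ρ a * M = chi p A (c * a) • (M * R'.ρ a)) (j : ZMod p) :
    R.proj j * M = M * R'.proj (j - c) := by
  unfold proj
  rw [Matrix.mul_sum, Matrix.sum_mul]
  refine Finset.sum_congr rfl fun a _ => ?_
  rw [Matrix.smul_mul, h, Matrix.mul_smul, smul_smul]
  congr 1
  have : -((j - c) * a) = -(j * a) + c * a := by ring
  rw [this, chi_add]
  ring

theorem proj_mul_of_comm (R : MRep p X A) (R' : MRep p Y A) (M : Matrix X Y A)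
    (h : ∀ a, R.ρ a * M = M * R'.ρ a) (j : ZMod p) :
    R.proj j * M = M * R'.proj j := by
  have := R.proj_mul_of_twist R' M 0 (by intro a; rw [zero_mul, chi_zero, one_smul, h]) j
  rwa [sub_zero] at this

/-- intertwiners up to an automorphism of `ZMod p` -/
theorem proj_mul_of_mul (R : MRep p X A) (R' : MRep p Y A) (M : Matrix X Y A) (c : ZMod p)
    (hc : c ≠ 0) (h : ∀ a, R.ρ a * M = M * R'.ρ (c * a)) (j : ZMod p) :
    R.proj (c * j) * M = M * R'.proj j := by
  unfold proj
  rw [Matrix.mul_sum, Matrix.sum_mul]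
  rw [← Equiv.sum_comp (Equiv.mulLeft₀ c hc) (fun a => M * ((ip p A * chi p A (-(j * a))) • R'.ρ a))]
  refine Finset.sum_congr rfl fun a _ => ?_
  rw [Equiv.mulLeft₀_apply, Matrix.smul_mul, h, Matrix.mul_smul]
  congr 3
  ring

end MRep

omit [Algebra ℂ A] in
/-- the main comparison lemma for components -/
theorem cl_comp_eq {e P : Matrix X X A} {f Q : Matrix Y Y A} (hf : f * f = f)
    (he : e * e = e)
    (hP : P * P = P) (hQ : Q * Q = Q) (heP : e * P = P * e) (hfQ : f * Q = Q * f)
    (M : Matrix X Y A) (M' : Matrix Y X A) (h1 : M * M' = e) (h2 : M' * M = f)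
    (h : P * M = M * Q) : cl (e * P) = cl (f * Q) := by
  have h3 : (e * P) * (e * P) = e * P := by
    calc (e * P) * (e * P) = e * (P * e) * P := by simp only [Matrix.mul_assoc]
      _ = (e * e) * (P * P) := by rw [← heP]; simp only [Matrix.mul_assoc]
      _ = e * P := by rw [he, hP]
  have h4 : (f * Q) * (f * Q) = f * Q := by
    calc (f * Q) * (f * Q) = f * (Q * f) * Q := by simp only [Matrix.mul_assoc]
      _ = (f * f) * (Q * Q) := by rw [← hfQ]; simp only [Matrix.mul_assoc]
      _ = f * Q := by rw [hf, hQ]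
  refine cl_eq h3 h4 ⟨M * Q, Q * M', ?_, ?_⟩
  · calc M * Q * (Q * M') = M * (Q * Q) * M' := by simp only [Matrix.mul_assoc]
      _ = P * (M * M') := by rw [hQ, ← h]; simp only [Matrix.mul_assoc]
      _ = e * P := by rw [h1, heP]
  · calc Q * M' * (M * Q) = Q * (M' * M) * Q := by simp only [Matrix.mul_assoc]
      _ = f * (Q * Q) := by rw [h2, ← hfQ]; simp only [Matrix.mul_assoc]
      _ = f * Q := by rw [hQ]

omit [Algebra ℂ A] in
theorem idem_mul_of_comm {e P : Matrix X X A} (he : e * e = e) (hP : P * P = P)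
    (heP : e * P = P * e) : (e * P) * (e * P) = e * P := by
  calc (e * P) * (e * P) = e * (P * e) * P := by simp only [Matrix.mul_assoc]
    _ = (e * e) * (P * P) := by rw [← heP]; simp only [Matrix.mul_assoc]
    _ = e * P := by rw [he, hP]

/-- Kronecker product of representations -/
def MRep.kron (R : MRep p X A) (R' : MRep p Y A) : MRep p (X × Y) A where
  ρ a := R.ρ a ⊗ₖ R'.ρ a
  zero' := by
    classical
    rw [R.zero', R'.zero', one_kronecker_one]
    congr!
  add' a b := by rw [R.add', R'.add', mul_kronecker_mul]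

omit [Algebra ℂ A] [Fintype X] [Fintype Y] in
theorem kron_sum' {ι : Type*} (s : Finset ι) (M : Matrix X X A) (N : ι → Matrix Y Y A) :
    M ⊗ₖ (∑ i ∈ s, N i) = ∑ i ∈ s, M ⊗ₖ N i := by
  classical
  induction s using Finset.induction_on with
  | empty => simp
  | insert a s ha ih => rw [Finset.sum_insert ha, Finset.sum_insert ha, kronecker_add, ih]

omit [Algebra ℂ A] [Fintype X] [Fintype Y] in
theorem sum_kron' {ι : Type*} (s : Finset ι) (M : ι → Matrix X X A) (N : Matrix Y Y A) :
    (∑ i ∈ s, M i) ⊗ₖ N = ∑ i ∈ s, M i ⊗ₖ N := by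
  classical
  induction s using Finset.induction_on with
  | empty => simp
  | insert a s ha ih => rw [Finset.sum_insert ha, Finset.sum_insert ha, add_kronecker, ih]

omit [Fintype Y] in
theorem MRep.proj_mul_eigen (R : MRep p X A) (M : Matrix X Y A) (i : ZMod p)
    (hM : ∀ a, R.ρ a * M = chi p A (i * a) • M) (j : ZMod p) :
    R.proj j * M = if i = j then M else 0 := by
  unfold proj
  rw [Matrix.sum_mul]
  have h1 : ∀ a, ((ip p A * chi p A (-(j * a))) • R.ρ a) * M =
      (ip p A * chi p A ((i - j) * a)) • M := by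
    intro a
    rw [Matrix.smul_mul, hM, smul_smul]
    congr 1
    have : (i - j) * a = -(j * a) + i * a := by ring
    rw [this, chi_add]
    ring
  rw [Finset.sum_congr rfl fun a _ => h1 a, ← Finset.sum_smul, ← Finset.mul_sum, sum_chi']
  by_cases h : i = j
  · simp [h, ip_mul]
  · simp [h, sub_eq_zero]

theorem MRep.proj_kron (R : MRep p X A) (R' : MRep p Y A) (j : ZMod p) :
    (R.kron R').proj j = ∑ i, R.proj i ⊗ₖ R'.proj (j - i) := by
  classical
  have h0 : (∑ i, ∑ l, R.proj i ⊗ₖ R'.proj l) = 1 := by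
    have h1 : ∀ i, ∑ l, R.proj i ⊗ₖ R'.proj l = R.proj i ⊗ₖ (1 : Matrix Y Y A) := by
      intro i
      rw [← R'.sum_proj, kron_sum']
    rw [Finset.sum_congr rfl fun i _ => h1 i, ← sum_kron', R.sum_proj, one_kronecker_one]
  calc (R.kron R').proj j = (R.kron R').proj j * (∑ i, ∑ l, R.proj i ⊗ₖ R'.proj l) := by
        rw [h0, Matrix.mul_one]
    _ = ∑ i, ∑ l, (if i + l = j then R.proj i ⊗ₖ R'.proj l else 0) := by
        rw [Finset.mul_sum]
        refine Finset.sum_congr rfl fun i _ => ?_
        rw [Finset.mul_sum]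
        refine Finset.sum_congr rfl fun l _ => ?_
        refine MRep.proj_mul_eigen _ _ _ (fun a => ?_) j
        have h3 : (R.kron R').ρ a = R.ρ a ⊗ₖ R'.ρ a := rfl
        rw [h3, ← mul_kronecker_mul, R.rho_mul_proj, R'.rho_mul_proj,
          smul_kronecker, kronecker_smul, smul_smul, ← chi_add]
        congr 2
        ring
    _ = _ := by
        refine Finset.sum_congr rfl fun i _ => ?_
        rw [Finset.sum_eq_single (j - i)]
        · simp
        · intro l _ hl
          rw [if_neg]
          rintro rfl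
          simp at hl
        · simp

end rep

/-! ### tensor powers of matrices -/

section tpf

variable {A : Type u} [CommRing A]
variable {ι : Type*} {I J K : Type*}

/-- tensor product of a family of matrices -/
def tpf [Fintype ι] (u : ι → Matrix I J A) : Matrix (ι → I) (ι → J) A :=
  Matrix.of fun x y => ∏ k, u k (x k) (y k)

@[simp] theorem tpf_apply [Fintype ι] (u : ι → Matrix I J A) (x : ι → I) (y : ι → J) :
    tpf u x y = ∏ k, u k (x k) (y k) := rfl

theorem tpf_mul [Fintype ι] [DecidableEq ι] [Fintype J] (u : ι → Matrix I J A)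
    (v : ι → Matrix J K A) :
    tpf u * tpf v = tpf (fun k => u k * v k) := by
  ext x y
  simp only [Matrix.mul_apply, tpf_apply]
  rw [Finset.prod_univ_sum, Fintype.piFinset_univ]
  refine Finset.sum_congr rfl fun z _ => ?_
  rw [Finset.prod_mul_distrib]

theorem tpf_sum [Fintype ι] [DecidableEq ι] {σ : Type*} [Fintype σ] (u : ι → σ → Matrix I J A) :
    tpf (fun k => ∑ s, u k s) = ∑ t : ι → σ, tpf (fun k => u k (t k)) := by
  ext x y
  simp only [tpf_apply, Matrix.sum_apply]
  rw [Finset.prod_univ_sum, Fintype.piFinset_univ]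

theorem tpf_one [Fintype ι] [DecidableEq ι] [DecidableEq I] :
    tpf (fun _ : ι => (1 : Matrix I I A)) = 1 := by
  ext x y
  simp only [tpf_apply, Matrix.one_apply]
  by_cases h : x = y
  · simp [h]
  · rw [if_neg h]
    obtain ⟨k, hk⟩ := Function.ne_iff.1 h
    exact Finset.prod_eq_zero (Finset.mem_univ k) (if_neg hk)

theorem tpf_smul [Fintype ι] (c : ι → A) (u : ι → Matrix I J A) :
    tpf (fun k => c k • u k) = (∏ k, c k) • tpf u := by
  ext x y
  simp [Finset.prod_mul_distrib]

theorem tpf_zero [Fintype ι] (u : ι → Matrix I J A) (k : ι) (hk : u k = 0) : tpf u = 0 := by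
  ext x y
  rw [tpf_apply]
  exact Finset.prod_eq_zero (Finset.mem_univ k) (by rw [hk]; rfl)


/-- tensor power of a matrix -/
def tp (ι : Type*) [Fintype ι] (e : Matrix I J A) : Matrix (ι → I) (ι → J) A :=
  tpf (fun _ => e)

theorem tp_def [Fintype ι] (e : Matrix I J A) : tp ι e = tpf (fun _ => e) := rfl

@[simp] theorem tp_apply [Fintype ι] (e : Matrix I J A) (x : ι → I) (y : ι → J) :
    tp ι e x y = ∏ k, e (x k) (y k) := rfl

theorem tp_mul [Fintype ι] [DecidableEq ι] [Fintype J] (u : Matrix I J A) (v : Matrix J K A) :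
    tp ι u * tp ι v = tp ι (u * v) := by
  rw [tp_def, tp_def, tpf_mul]; rfl

theorem tp_idem [Fintype ι] [DecidableEq ι] [Fintype I] {e : Matrix I I A} (he : e * e = e) :
    tp ι e * tp ι e = tp ι e := by rw [tp_mul, he]

end tpf

/-! ### the shift -/

section shift

variable {p : ℕ} [Fact p.Prime] {A : Type u} [CommRing A] [Algebra ℂ A]
variable {I J K : Type*} [Fintype I] [Fintype J] [Fintype K]

open Classical in
/-- permutation matrix of the shift by `a` -/
def shiftMat (p : ℕ) [Fact p.Prime] (I : Type*) (A : Type u) [CommRing A] (a : ZMod p) :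
    Matrix (ZMod p → I) (ZMod p → I) A :=
  Matrix.of fun x y => if (fun k => x (k + a)) = y then 1 else 0

omit [Algebra ℂ A] in
theorem shiftMat_mul {Y : Type*} (a : ZMod p) (M : Matrix (ZMod p → I) Y A) (x : ZMod p → I)
    (y : Y) : (shiftMat p I A a * M) x y = M (fun k => x (k + a)) y := by
  classical
  rw [Matrix.mul_apply, Finset.sum_eq_single (fun k => x (k + a))]
  · simp [shiftMat]
  · intro z _ hz
    simp only [shiftMat, Matrix.of_apply]
    rw [if_neg (fun h => hz h.symm), zero_mul]
  · simp

omit [Algebra ℂ A] in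
theorem mul_shiftMat {Y : Type*} (a : ZMod p) (M : Matrix Y (ZMod p → I) A) (x : Y)
    (y : ZMod p → I) : (M * shiftMat p I A a) x y = M x (fun k => y (k - a)) := by
  classical
  rw [Matrix.mul_apply, Finset.sum_eq_single (fun k => y (k - a))]
  · simp [shiftMat]
  · intro z _ hz
    simp only [shiftMat, Matrix.of_apply]
    rw [if_neg, mul_zero]
    intro h
    apply hz
    funext k
    rw [← h]
    simp
  · simp

/-- the shift representation on `(ZMod p → I)` -/
def shift (p : ℕ) [Fact p.Prime] (I : Type*) [Fintype I] (A : Type u) [CommRing A] :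
    MRep p (ZMod p → I) A where
  ρ a := shiftMat p I A a
  zero' := by
    ext x y
    have h : (fun k => x (k + 0)) = x := by funext k; rw [add_zero]
    rw [shiftMat, Matrix.of_apply]
    by_cases hxy : x = y
    · rw [if_pos (h.trans hxy), hxy]
      exact (@Matrix.one_apply_eq _ _ (fun a b => Classical.propDecidable (a = b)) _ _ y).symm
    · rw [if_neg (fun h' => hxy (h.symm.trans h'))]
      exact (@Matrix.one_apply_ne _ _ (fun a b => Classical.propDecidable (a = b)) _ _ x y hxy).symm
  add' a b := by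
    ext x y
    have h : (fun k => x (k + (a + b))) = fun k => x (k + b + a) := by
      funext k; rw [add_assoc, add_comm b a]
    rw [shiftMat_mul, shiftMat, Matrix.of_apply, shiftMat, Matrix.of_apply]
    by_cases hxy : (fun k => x (k + b + a)) = y
    · rw [if_pos hxy, if_pos (h.trans hxy)]
    · rw [if_neg hxy, if_neg (fun h' => hxy (h.symm.trans h'))]

omit [Algebra ℂ A] in
theorem shift_rho (a : ZMod p) : (shift p I A).ρ a = shiftMat p I A a := rfl

omit [Algebra ℂ A] in
theorem shiftMat_mul_tpf (a : ZMod p) (u : ZMod p → Matrix I J A) :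
    shiftMat p I A a * tpf u = tpf (fun k => u (k - a)) * shiftMat p J A a := by
  ext x y
  rw [shiftMat_mul, mul_shiftMat, tpf_apply, tpf_apply]
  rw [← Equiv.prod_comp (Equiv.addRight a) (fun k => u (k - a) (x k) (y (k - a)))]
  simp

omit [Algebra ℂ A] in
theorem shiftMat_mul_tp (a : ZMod p) (u : Matrix I J A) :
    shiftMat p I A a * tp (ZMod p) u = tp (ZMod p) u * shiftMat p J A a :=
  shiftMat_mul_tpf a (fun _ => u)

theorem proj_mul_tp (j : ZMod p) (u : Matrix I J A) :
    (shift p I A).proj j * tp (ZMod p) u = tp (ZMod p) u * (shift p J A).proj j :=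
  MRep.proj_mul_of_comm _ _ _ (fun a => shiftMat_mul_tp a u) j

variable (p)

/-- the `j`-th component of the `p`-th tensor power -/
def compMat (j : ZMod p) (e : Matrix I I A) : Matrix (ZMod p → I) (ZMod p → I) A :=
  tp (ZMod p) e * (shift p I A).proj j

variable {p}

theorem compMat_idem (j : ZMod p) {e : Matrix I I A} (he : e * e = e) :
    compMat p j e * compMat p j e = compMat p j e :=
  idem_mul_of_comm (tp_idem he) (MRep.proj_idem _ _) (proj_mul_tp j e).symm

theorem compMat_congr (j : ZMod p) {e : Matrix I I A} {f : Matrix J J A} (he : e * e = e)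
    (hf : f * f = f) (h : MvN e f) : cl (compMat p j e) = cl (compMat p j f) := by
  obtain ⟨u, v, h1, h2⟩ := h
  exact cl_comp_eq (tp_idem hf) (tp_idem he) (MRep.proj_idem _ _) (MRep.proj_idem _ _)
    (proj_mul_tp j e).symm (proj_mul_tp j f).symm (tp (ZMod p) u) (tp (ZMod p) v)
    (by rw [tp_mul, h1]) (by rw [tp_mul, h2]) (proj_mul_tp j u)

variable (p)

/-- the components of the `p`-th tensor power on classes -/
def V.comp (j : ZMod p) (x : V A) : V A :=
  Quotient.liftOn x (fun e => cl (compMat p j e.e)) (fun a b h => compMat_congr j a.idem b.idem h)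

variable {p}

theorem V.comp_cl (j : ZMod p) {e : Matrix I I A} (he : e * e = e) :
    V.comp p j (cl e) = cl (compMat p j e) := by
  obtain ⟨n, e', he', h1⟩ := V.exists_rep (cl e)
  have h3 : V.comp p j (cl e) = cl (compMat p j e') := by
    rw [← h1]
    have := cl_mk ⟨n, e', he'⟩
    simp only at this
    rw [this]
    rfl
  rw [h3]
  exact compMat_congr j he' he ((cl_eq_iff he' he).1 h1)

end shift

end

end Crest.Agent.R204.K357
end

-- ▼ part R204/PsiB_357
section

/-!
# Adams operations on `K0 A` (row 204, block H, leaf H1), part B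

The grading trick; additivity of `comp 0 - comp 1`.
-/

open Matrix
open scoped Kronecker BigOperators

namespace Crest.Agent.R204.K357

universe u v w

set_option linter.unusedSectionVars false

noncomputable section

section deg

variable {p : ℕ} [Fact p.Prime] {S : Type*}

/-- a value of `t`, depending only on the range of `t` -/
def lev (t : ZMod p → S) : S := (Set.range_nonempty t).some

theorem lev_mem (t : ZMod p → S) : lev t ∈ Set.range t := (Set.range_nonempty t).some_mem

theorem some_congr {s s' : Set S} (h : s.Nonempty) (h' : s'.Nonempty) (e : s = s') :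
    h.some = h'.some := by
  subst e
  rfl

theorem lev_shift (t : ZMod p → S) (a : ZMod p) : lev (fun k => t (k + a)) = lev t := by
  refine some_congr _ _ ?_
  ext s
  constructor
  · rintro ⟨k, rfl⟩
    exact ⟨k + a, rfl⟩
  · rintro ⟨k, rfl⟩
    exact ⟨k - a, by simp⟩

open Classical in
/-- the level set -/
def levSet (t : ZMod p → S) : Finset (ZMod p) := Finset.univ.filter (fun k => t k = lev t)

/-- the degree of a non-constant function -/
def deg (t : ZMod p → S) : ZMod p := ((levSet t).card : ZMod p)⁻¹ * ∑ k ∈ levSet t, k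

theorem mem_levSet_shift (t : ZMod p → S) (a k : ZMod p) :
    k ∈ levSet (fun k => t (k + a)) ↔ k + a ∈ levSet t := by
  simp [levSet, lev_shift]

theorem levSet_shift (t : ZMod p → S) (a : ZMod p) :
    (levSet (fun k => t (k + a))).map (addRightEmbedding a) = levSet t := by
  ext k
  simp only [Finset.mem_map, addRightEmbedding_apply]
  constructor
  · rintro ⟨l, hl, rfl⟩
    exact (mem_levSet_shift t a l).1 hl
  · intro h
    refine ⟨k - a, (mem_levSet_shift t a _).2 (by simpa using h), by simp⟩

theorem card_levSet_ne (t : ZMod p → S) (ht : ∀ s, t ≠ fun _ => s) :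
    ((levSet t).card : ZMod p) ≠ 0 := by
  have hp : p.Prime := Fact.out
  intro h
  rw [ZMod.natCast_eq_zero_iff] at h
  have h1 : 0 < (levSet t).card := by
    rw [Finset.card_pos]
    obtain ⟨k, hk⟩ := lev_mem t
    exact ⟨k, by simp [levSet, hk]⟩
  have h2 : (levSet t).card ≤ p := by
    have := Finset.card_le_univ (levSet t)
    rwa [ZMod.card] at this
  have h3 : (levSet t).card = p := le_antisymm h2 (Nat.le_of_dvd h1 h)
  have h4 : levSet t = Finset.univ := by
    rw [← Finset.card_eq_iff_eq_univ, h3, ZMod.card]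
  refine ht (lev t) ?_
  funext k
  have : k ∈ levSet t := by rw [h4]; exact Finset.mem_univ k
  simpa [levSet] using this

theorem deg_shift (t : ZMod p → S) (ht : ∀ s, t ≠ fun _ => s) (a : ZMod p) :
    deg (fun k => t (k + a)) = deg t - a := by
  have h := card_levSet_ne t ht
  have e := levSet_shift t a
  have h1 : (levSet (fun k => t (k + a))).card = (levSet t).card := by
    rw [← e, Finset.card_map]
  have h2 : ∑ k ∈ levSet t, k = ∑ k ∈ levSet (fun k => t (k + a)), k
      + ((levSet t).card : ZMod p) * a := by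
    conv_lhs => rw [← e]
    rw [Finset.sum_map, ← h1]
    simp only [addRightEmbedding_apply]
    rw [Finset.sum_add_distrib, Finset.sum_const, nsmul_eq_mul]
  unfold deg
  rw [h1, h2, mul_add, ← mul_assoc, inv_mul_cancel₀ h]
  ring

/-- shifting functions, as an equivalence -/
def shEquiv (a : ZMod p) : (ZMod p → S) ≃ (ZMod p → S) where
  toFun t := fun k => t (k - a)
  invFun t := fun k => t (k + a)
  left_inv t := by funext k; simp
  right_inv t := by funext k; simp

end deg

section graded

variable {p : ℕ} [Fact p.Prime] {A : Type u} [CommRing A] [Algebra ℂ A]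
variable {X : Type*} [Fintype X] {S : Type*}

theorem sum_mul_sum_orth {ι : Type*} (T : Finset ι) (F : ι → Matrix X X A)
    (hF : ∀ t ∈ T, F t * F t = F t) (ho : ∀ t ∈ T, ∀ t' ∈ T, t ≠ t' → F t * F t' = 0)
    (c d : ι → A) : (∑ t ∈ T, c t • F t) * (∑ t ∈ T, d t • F t) = ∑ t ∈ T, (c t * d t) • F t := by
  rw [Finset.sum_mul]
  refine Finset.sum_congr rfl fun t ht => ?_
  rw [Finset.mul_sum, Finset.sum_eq_single_of_mem t ht]
  · rw [smul_mul_smul_comm, hF t ht]
  · intro t' ht' hne
    rw [smul_mul_smul_comm, ho t ht t' ht' (Ne.symm hne), smul_zero]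

/-- **The grading trick**: all isotypical components of `∑ t ∈ T, F t` are equivalent. -/
theorem cl_graded (R : MRep p X A) (F : (ZMod p → S) → Matrix X X A) (T : Finset (ZMod p → S))
    (hF : ∀ t ∈ T, F t * F t = F t) (ho : ∀ t ∈ T, ∀ t' ∈ T, t ≠ t' → F t * F t' = 0)
    (hT : ∀ t ∈ T, ∀ a : ZMod p, (fun k => t (k + a)) ∈ T) (hnc : ∀ t ∈ T, ∀ s, t ≠ fun _ => s)
    (hR : ∀ t a, R.ρ a * F t = F (fun k => t (k - a)) * R.ρ a)
    (i j : ZMod p) : cl ((∑ t ∈ T, F t) * R.proj i) = cl ((∑ t ∈ T, F t) * R.proj j) := by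
  classical
  -- the twisted identity
  have key : ∀ c a : ZMod p, R.ρ a * (∑ t ∈ T, chi p A (c * deg t) • F t) =
      chi p A (-c * a) • ((∑ t ∈ T, chi p A (c * deg t) • F t) * R.ρ a) := by
    intro c a
    rw [Finset.mul_sum, Finset.sum_mul, Finset.smul_sum]
    refine Finset.sum_equiv (shEquiv a) ?_ ?_
    · intro t
      constructor
      · intro ht
        have := hT t ht (-a)
        simpa [shEquiv, sub_eq_add_neg] using this
      · intro ht
        have := hT _ ht a
        simpa [shEquiv] using this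
    · intro t ht
      have h1 : shEquiv a t = fun k => t (k - a) := rfl
      have h2 : t = fun k => (shEquiv a t) (k + a) := by
        funext k; simp [shEquiv]
      have h3 : (shEquiv a t) ∈ T := by
        have := hT t ht (-a)
        simpa [shEquiv, sub_eq_add_neg] using this
      have h4 : deg t = deg (shEquiv a t) - a := by
        conv_lhs => rw [h2]
        exact deg_shift _ (hnc _ h3) a
      rw [Matrix.mul_smul, hR, ← h1, Matrix.smul_mul, smul_smul, h4, ← chi_add]
      congr 2
      ring
  have key0 : ∀ a : ZMod p, R.ρ a * (∑ t ∈ T, F t) = (∑ t ∈ T, F t) * R.ρ a := by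
    intro a
    have := key 0 a
    simpa using this
  have hN : (∑ t ∈ T, F t) * (∑ t ∈ T, F t) = ∑ t ∈ T, F t := idem_finset_sum T F hF ho
  have hD : ∀ c : ZMod p, (∑ t ∈ T, chi p A (c * deg t) • F t) *
      (∑ t ∈ T, chi p A (-c * deg t) • F t) = ∑ t ∈ T, F t := by
    intro c
    rw [sum_mul_sum_orth T F hF ho]
    refine Finset.sum_congr rfl fun t _ => ?_
    have : -c * deg t = -(c * deg t) := by ring
    rw [this, chi_mul_neg, one_smul]
  have hcomm : ∀ l, (∑ t ∈ T, F t) * R.proj l = R.proj l * (∑ t ∈ T, F t) := fun l =>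
    (MRep.proj_mul_of_comm R R _ key0 l).symm
  refine cl_comp_eq hN hN (R.proj_idem i) (R.proj_idem j) (hcomm i) (hcomm j)
    (∑ t ∈ T, chi p A ((j - i) * deg t) • F t) (∑ t ∈ T, chi p A (-(j - i) * deg t) • F t)
    (hD _) ?_ ?_
  · have := hD (-(j - i))
    rwa [neg_neg] at this
  · have := MRep.proj_mul_of_twist R R _ (-(j - i)) (key (j - i)) i
    rw [this]
    congr 2
    ring

end graded

section additive

variable {p : ℕ} [Fact p.Prime] {A : Type u} [CommRing A] [Algebra ℂ A]
variable {I J : Type*} [Fintype I] [Fintype J] {S : Type*} [Fintype S] [DecidableEq S]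

/-- constant functions -/
def consts (p : ℕ) [Fact p.Prime] (S : Type*) [Fintype S] [DecidableEq S] :
    Finset (ZMod p → S) := Finset.univ.image (fun s => fun _ => s)

theorem mem_consts {t : ZMod p → S} : t ∈ consts p S ↔ ∃ s, t = fun _ => s := by
  simp only [consts, Finset.mem_image, Finset.mem_univ, true_and]
  exact ⟨fun ⟨s, h⟩ => ⟨s, h.symm⟩, fun ⟨s, h⟩ => ⟨s, h.symm⟩⟩

theorem sum_consts {M : Type*} [AddCommMonoid M] (F : (ZMod p → S) → M) :
    ∑ t ∈ consts p S, F t = ∑ s, F (fun _ => s) := by
  unfold consts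
  rw [Finset.sum_image]
  intro s _ s' _ h
  exact congrFun h 0

/-- non-constant functions -/
def ncs (p : ℕ) [Fact p.Prime] (S : Type*) [Fintype S] [DecidableEq S] :
    Finset (ZMod p → S) := (consts p S)ᶜ

theorem mem_ncs {t : ZMod p → S} : t ∈ ncs p S ↔ ∀ s, t ≠ fun _ => s := by
  rw [ncs, Finset.mem_compl, mem_consts, not_exists]

theorem ncs_shift {t : ZMod p → S} (ht : t ∈ ncs p S) (a : ZMod p) :
    (fun k => t (k + a)) ∈ ncs p S := by
  rw [mem_ncs] at ht ⊢
  intro s hs
  refine ht s ?_
  funext k
  have := congrFun hs (k - a)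
  simpa using this

theorem tpf_idem (E : S → Matrix I I A) (hE : ∀ s, E s * E s = E s) (t : ZMod p → S) :
    tpf (fun k => E (t k)) * tpf (fun k => E (t k)) = tpf (fun k => E (t k)) := by
  rw [tpf_mul]
  congr 1
  funext k
  exact hE _

theorem tpf_orth (E : S → Matrix I I A) (ho : ∀ s s', s ≠ s' → E s * E s' = 0)
    (t t' : ZMod p → S) (h : t ≠ t') :
    tpf (fun k => E (t k)) * tpf (fun k => E (t' k)) = 0 := by
  rw [tpf_mul]
  obtain ⟨k, hk⟩ := Function.ne_iff.1 h
  exact tpf_zero _ k (ho _ _ hk)

/-- decomposition of the components of the tensor power of a sum of orthogonal idempotents -/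
theorem cl_compMat_sum (E : S → Matrix I I A) (hE : ∀ s, E s * E s = E s)
    (ho : ∀ s s', s ≠ s' → E s * E s' = 0) (j : ZMod p) :
    cl (compMat p j (∑ s, E s)) = ∑ s, cl (compMat p j (E s)) +
      cl ((∑ t ∈ ncs p S, tpf (fun k => E (t k))) * (shift p I A).proj 0) := by
  classical
  set F : (ZMod p → S) → Matrix (ZMod p → I) (ZMod p → I) A := fun t => tpf (fun k => E (t k))
    with hFdef
  have hF : ∀ t, F t * F t = F t := tpf_idem E hE
  have hFo : ∀ t t', t ≠ t' → F t * F t' = 0 := tpf_orth E ho
  have hR : ∀ t a, (shift p I A).ρ a * F t = F (fun k => t (k - a)) * (shift p I A).ρ a :=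
    fun t a => shiftMat_mul_tpf a (fun k => E (t k))
  have hgr := cl_graded (shift p I A) F (ncs p S) (fun t _ => hF t) (fun t _ t' _ => hFo t t')
    (fun t ht a => ncs_shift ht a) (fun t ht => mem_ncs.1 ht) hR j 0
  rw [← hgr]
  have h1 : tp (ZMod p) (∑ s, E s) = ∑ s, F (fun _ => s) + ∑ t ∈ ncs p S, F t := by
    rw [tp_def, tpf_sum (fun _ => E), ← sum_consts F, ncs, Finset.sum_add_sum_compl]
  have hcR : ∀ s a, (shift p I A).ρ a * F (fun _ => s) = F (fun _ => s) * (shift p I A).ρ a :=
    fun s a => hR _ a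
  have hcP : ∀ s, (shift p I A).proj j * F (fun _ => s) = F (fun _ => s) * (shift p I A).proj j :=
    fun s => MRep.proj_mul_of_comm _ _ _ (hcR s) j
  have hNcomm : ∀ a, (shift p I A).ρ a * (∑ t ∈ ncs p S, F t) =
      (∑ t ∈ ncs p S, F t) * (shift p I A).ρ a := by
    intro a
    rw [Finset.mul_sum, Finset.sum_mul]
    refine Finset.sum_equiv (shEquiv a) ?_ ?_
    · intro t
      constructor
      · intro ht
        have := ncs_shift ht (-a)
        simpa [shEquiv, sub_eq_add_neg] using this
      · intro ht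
        have := ncs_shift ht a
        simpa [shEquiv] using this
    · intro t _
      exact hR t a
  have hNP : (shift p I A).proj j * (∑ t ∈ ncs p S, F t) =
      (∑ t ∈ ncs p S, F t) * (shift p I A).proj j := MRep.proj_mul_of_comm _ _ _ hNcomm j
  have hNN : (∑ t ∈ ncs p S, F t) * (∑ t ∈ ncs p S, F t) = ∑ t ∈ ncs p S, F t :=
    idem_finset_sum _ F (fun t _ => hF t) (fun t _ t' _ => hFo t t')
  have hPP := (shift p I A).proj_idem j
  have hcN : ∀ s, F (fun _ => s) * (∑ t ∈ ncs p S, F t) = 0 := by
    intro s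
    rw [Finset.mul_sum]
    exact Finset.sum_eq_zero fun t ht => hFo _ _ (Ne.symm (mem_ncs.1 ht s))
  have hNc : ∀ s, (∑ t ∈ ncs p S, F t) * F (fun _ => s) = 0 := by
    intro s
    rw [Finset.sum_mul]
    exact Finset.sum_eq_zero fun t ht => hFo _ _ (mem_ncs.1 ht s)
  have hci : ∀ s, (F (fun _ => s) * (shift p I A).proj j) * (F (fun _ => s) * (shift p I A).proj j)
      = F (fun _ => s) * (shift p I A).proj j := fun s => idem_mul_of_comm (hF _) hPP (hcP s).symm
  have hco : ∀ s s', s ≠ s' → (F (fun _ => s) * (shift p I A).proj j) *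
      (F (fun _ => s') * (shift p I A).proj j) = 0 := by
    intro s s' hs
    have h0 : F (fun _ => s) * F (fun _ => s') = 0 := hFo _ _ (fun h => hs (congrFun h 0))
    calc (F (fun _ => s) * (shift p I A).proj j) * (F (fun _ => s') * (shift p I A).proj j)
        = F (fun _ => s) * ((shift p I A).proj j * F (fun _ => s')) * (shift p I A).proj j := by
          simp only [Matrix.mul_assoc]
      _ = (F (fun _ => s) * F (fun _ => s')) * ((shift p I A).proj j * (shift p I A).proj j) := by
          rw [hcP]; simp only [Matrix.mul_assoc]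
      _ = 0 := by rw [h0, Matrix.zero_mul]
  have h2 : compMat p j (∑ s, E s) = (∑ s, F (fun _ => s) * (shift p I A).proj j) +
      (∑ t ∈ ncs p S, F t) * (shift p I A).proj j := by
    rw [compMat, h1, Matrix.add_mul, Finset.sum_mul]
  rw [h2, cl_add (idem_finset_sum _ _ (fun s _ => hci s) (fun s _ s' _ => hco s s'))
    (idem_mul_of_comm hNN hPP hNP.symm) ?_ ?_,
    cl_finset_sum _ _ (fun s _ => hci s) (fun s _ s' _ => hco s s')]
  · rfl
  · rw [Finset.sum_mul]
    refine Finset.sum_eq_zero fun s _ => ?_
    calc F (fun _ => s) * (shift p I A).proj j * ((∑ t ∈ ncs p S, F t) * (shift p I A).proj j)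
        = F (fun _ => s) * ((shift p I A).proj j * (∑ t ∈ ncs p S, F t)) * (shift p I A).proj j := by
          simp only [Matrix.mul_assoc]
      _ = (F (fun _ => s) * (∑ t ∈ ncs p S, F t)) * ((shift p I A).proj j *
          (shift p I A).proj j) := by rw [hNP]; simp only [Matrix.mul_assoc]
      _ = 0 := by rw [hcN, Matrix.zero_mul]
  · rw [Finset.mul_sum]
    refine Finset.sum_eq_zero fun s _ => ?_
    calc (∑ t ∈ ncs p S, F t) * (shift p I A).proj j * (F (fun _ => s) * (shift p I A).proj j)
        = (∑ t ∈ ncs p S, F t) * ((shift p I A).proj j * F (fun _ => s)) * (shift p I A).proj j := by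
          simp only [Matrix.mul_assoc]
      _ = ((∑ t ∈ ncs p S, F t) * F (fun _ => s)) * ((shift p I A).proj j *
          (shift p I A).proj j) := by rw [hcP]; simp only [Matrix.mul_assoc]
      _ = 0 := by rw [hNc, Matrix.zero_mul]

end additive

end

end Crest.Agent.R204.K357
end

-- ▼ part R204/PsiC_357
section

/-!
# Adams operations on `K0 A` (row 204, block H, leaf H1), part C

Definition of `psi p : K0 A →+* K0 A`.
-/

open Matrix
open scoped Kronecker BigOperators

namespace Crest.Agent.R204.K357

universe u v w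

set_option linter.unusedSectionVars false

noncomputable section

section perm

variable {ι : Type*} [Fintype ι] [DecidableEq ι] {A : Type u} [CommRing A]
variable {I J : Type*} [Fintype I] [Fintype J]

open Classical in
/-- permutation matrix on `ι → I` -/
def permMat (I : Type*) (A : Type u) [CommRing A] (σ : Equiv.Perm ι) :
    Matrix (ι → I) (ι → I) A :=
  Matrix.of fun x y => if (fun k => x (σ k)) = y then 1 else 0

theorem permMat_mul {Y : Type*} (σ : Equiv.Perm ι) (M : Matrix (ι → I) Y A) (x : ι → I)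
    (y : Y) : (permMat I A σ * M) x y = M (fun k => x (σ k)) y := by
  classical
  rw [Matrix.mul_apply, Finset.sum_eq_single (fun k => x (σ k))]
  · simp [permMat]
  · intro z _ hz
    simp only [permMat, Matrix.of_apply]
    rw [if_neg (fun h => hz h.symm), zero_mul]
  · simp

theorem mul_permMat {Y : Type*} (σ : Equiv.Perm ι) (M : Matrix Y (ι → I) A) (x : Y)
    (y : ι → I) : (M * permMat I A σ) x y = M x (fun k => y (σ.symm k)) := by
  classical
  rw [Matrix.mul_apply, Finset.sum_eq_single (fun k => y (σ.symm k))]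
  · simp [permMat]
  · intro z _ hz
    simp only [permMat, Matrix.of_apply]
    rw [if_neg, mul_zero]
    intro h
    apply hz
    funext k
    rw [← h]
    simp
  · simp

theorem permMat_mul_symm_mul {Y : Type*} (σ : Equiv.Perm ι) (M : Matrix (ι → I) Y A) :
    permMat I A σ * (permMat I A σ.symm * M) = M := by
  ext x y
  rw [permMat_mul, permMat_mul]
  simp


theorem permMat_mul_tp (σ : Equiv.Perm ι) (u : Matrix I J A) :
    permMat I A σ * tp ι u = tp ι u * permMat J A σ := by
  ext x y
  rw [permMat_mul, mul_permMat, tp_apply, tp_apply]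
  rw [← Equiv.prod_comp σ (fun k => u (x k) (y (σ.symm k)))]
  simp

end perm

section comp

variable {p : ℕ} [Fact p.Prime] {A : Type u} [CommRing A] [Algebra ℂ A]
variable {I J : Type*} [Fintype I] [Fintype J]

theorem MRep.mul_sum_proj {X Y : Type*} [Fintype X] (R : MRep p X A) (M : Matrix Y X A) :
    M * ∑ j, R.proj j = M := by
  classical
  rw [R.sum_proj, Matrix.mul_one]

theorem compMat_apply (j : ZMod p) (e : Matrix I I A) (x y : ZMod p → I) :
    compMat p j e x y = ∑ a, ip p A * chi p A (-(j * a)) * ∏ k, e (x k) (y (k - a)) := by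
  rw [compMat, MRep.proj, Matrix.mul_sum, Matrix.sum_apply]
  refine Finset.sum_congr rfl fun a _ => ?_
  rw [Matrix.mul_smul, Matrix.smul_apply, shift_rho, mul_shiftMat, tp_apply, smul_eq_mul]

/-- the nontrivial components are all equivalent -/
theorem cl_compMat_mul {e : Matrix I I A} (he : e * e = e) (c : ZMod p) (hc : c ≠ 0)
    (j : ZMod p) : cl (compMat p (c * j) e) = cl (compMat p j e) := by
  -- permutation `k ↦ c⁻¹ k`
  set σ : Equiv.Perm (ZMod p) := (Equiv.mulLeft₀ c hc).symm with hσ
  have hσa : ∀ k, σ k = c⁻¹ * k := fun k => rfl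
  have hσs : ∀ k, σ.symm k = c * k := fun k => rfl
  have h1 : ∀ a, (shift p I A).ρ a * permMat I A σ = permMat I A σ * (shift p I A).ρ (c * a) := by
    intro a
    ext x y
    rw [shift_rho, shift_rho, shiftMat_mul, permMat_mul, permMat, shiftMat, Matrix.of_apply,
      Matrix.of_apply]
    have : (fun k => x (σ k + a)) = fun k => x (σ (k + c * a)) := by
      funext k
      rw [hσa, hσa]
      congr 1
      field_simp
    by_cases h : (fun k => x (σ k + a)) = y
    · rw [if_pos h, if_pos (this.symm.trans h)]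
    · rw [if_neg h, if_neg (fun h' => h (this.trans h'))]
  refine cl_comp_eq (tp_idem he) (tp_idem he) (MRep.proj_idem _ _) (MRep.proj_idem _ _)
    (proj_mul_tp _ e).symm (proj_mul_tp _ e).symm (permMat I A σ * tp (ZMod p) e)
    (tp (ZMod p) e * permMat I A σ.symm) ?_ ?_ ?_
  · calc permMat I A σ * tp (ZMod p) e * (tp (ZMod p) e * permMat I A σ.symm)
        = permMat I A σ * ((tp (ZMod p) e * tp (ZMod p) e) * permMat I A σ.symm) := by
          simp only [Matrix.mul_assoc]
      _ = tp (ZMod p) e := by
          rw [tp_idem he, ← permMat_mul_tp, permMat_mul_symm_mul]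
  · calc (tp (ZMod p) e * permMat I A σ.symm) * (permMat I A σ * tp (ZMod p) e)
        = tp (ZMod p) e * (permMat I A σ.symm * (permMat I A σ.symm.symm * tp (ZMod p) e)) := by
          simp only [Matrix.mul_assoc, Equiv.symm_symm]
      _ = tp (ZMod p) e := by rw [permMat_mul_symm_mul, tp_idem he]
  · rw [← Matrix.mul_assoc, MRep.proj_mul_of_mul _ _ _ c hc h1, Matrix.mul_assoc, proj_mul_tp,
      Matrix.mul_assoc]

theorem V.comp_eq_comp_one (i : ZMod p) (hi : i ≠ 0) (x : V A) :
    V.comp p i x = V.comp p 1 x := by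
  induction x using V.ind with
  | _ n e he =>
    rw [V.comp_cl i he, V.comp_cl 1 he]
    have := cl_compMat_mul he i hi 1
    rwa [mul_one] at this

theorem V.comp_zero (j : ZMod p) : V.comp p j (0 : V A) = 0 := by
  rw [cl_zero_def, V.comp_cl j (by simp)]
  have : compMat p j (0 : Matrix Empty Empty A) = 0 := by
    rw [compMat, tp_def, tpf_zero _ 0 rfl, Matrix.zero_mul]
  rw [this, cl_zero, ← cl_zero_def]

/-- additivity up to a term independent of `j` -/
theorem V.comp_add (x y : V A) : ∃ z : V A, ∀ j : ZMod p,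
    V.comp p j (x + y) = V.comp p j x + V.comp p j y + z := by
  induction x using V.ind with
  | _ n e he =>
  induction y using V.ind with
  | _ m f hf =>
    set E : Bool → Matrix (Fin n ⊕ Fin m) (Fin n ⊕ Fin m) A :=
      fun b => if b then fromBlocks e 0 0 0 else fromBlocks 0 0 0 f with hE
    have hEt : E true = fromBlocks e 0 0 0 := rfl
    have hEf : E false = fromBlocks 0 0 0 f := rfl
    have hEi : ∀ s, E s * E s = E s := by
      intro s
      cases s
      · simp [hEf, fromBlocks_multiply, hf]
      · simp [hEt, fromBlocks_multiply, he]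
    have hEo : ∀ s s', s ≠ s' → E s * E s' = 0 := by
      intro s s' hs
      cases s <;> cases s' <;> simp_all [fromBlocks_multiply]
    have hsum : ∑ s, E s = fromBlocks e 0 0 f := by
      rw [Fintype.sum_bool, hEt, hEf, fromBlocks_add]
      simp
    have h1 : cl (E true) = cl e := by
      rw [hEt, cl_sum he (by simp), cl_zero, add_zero]
    have h2 : cl (E false) = cl f := by
      rw [hEf, cl_sum (by simp) hf, cl_zero, zero_add]
    refine ⟨cl ((∑ t ∈ ncs p Bool, tpf (fun k => E (t k))) *
      (shift p (Fin n ⊕ Fin m) A).proj 0), fun j => ?_⟩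
    have h3 := cl_compMat_sum (p := p) E hEi hEo j
    rw [hsum, ← V.comp_cl j (idem_sum he hf), Fintype.sum_bool, ← V.comp_cl j (hEi true),
      ← V.comp_cl j (hEi false), h1, h2, cl_sum he hf] at h3
    exact h3

theorem tp_kron_equiv (j : ZMod p) {e : Matrix I I A} {f : Matrix J J A} (he : e * e = e)
    (hf : f * f = f) : cl (compMat p j (e ⊗ₖ f)) =
      cl ((tp (ZMod p) e ⊗ₖ tp (ZMod p) f) * ((shift p I A).kron (shift p J A)).proj j) := by
  refine cl_of_equiv (compMat_idem j (idem_kron he hf))
    (Equiv.arrowProdEquivProdArrow (ZMod p) (fun _ => I) (fun _ => J)) ?_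
  intro x y
  rw [compMat_apply, MRep.proj, Matrix.mul_sum, Matrix.sum_apply]
  refine Finset.sum_congr rfl fun a _ => ?_
  have h3 : ((shift p I A).kron (shift p J A)).ρ a = shiftMat p I A a ⊗ₖ shiftMat p J A a := rfl
  rw [Matrix.mul_smul, Matrix.smul_apply, h3, ← mul_kronecker_mul, kroneckerMap_apply,
    mul_shiftMat, mul_shiftMat, tp_apply, tp_apply, smul_eq_mul, ← Finset.prod_mul_distrib]
  rfl

/-- components of a product -/
theorem V.comp_mul (j : ZMod p) (x y : V A) :
    V.comp p j (x * y) = ∑ i, V.comp p i x * V.comp p (j - i) y := by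
  classical
  induction x using V.ind with
  | _ n e he =>
  induction y using V.ind with
  | _ m f hf =>
    rw [← cl_kron he hf, V.comp_cl j (idem_kron he hf), tp_kron_equiv j he hf, MRep.proj_kron,
      Finset.mul_sum]
    have h1 : ∀ i, (tp (ZMod p) e ⊗ₖ tp (ZMod p) f) * ((shift p (Fin n) A).proj i ⊗ₖ
        (shift p (Fin m) A).proj (j - i)) = compMat p i e ⊗ₖ compMat p (j - i) f := by
      intro i
      rw [← mul_kronecker_mul]; rfl
    rw [Finset.sum_congr rfl fun i _ => h1 i, cl_finset_sum]
    · refine Finset.sum_congr rfl fun i _ => ?_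
      rw [cl_kron (compMat_idem i he) (compMat_idem _ hf), V.comp_cl i he, V.comp_cl _ hf]
    · intro i _
      exact idem_kron (compMat_idem i he) (compMat_idem _ hf)
    · intro i _ l _ hil
      rw [← mul_kronecker_mul]
      have : compMat p i e * compMat p l e = 0 := by
        rw [compMat, compMat]
        calc tp (ZMod p) e * (shift p (Fin n) A).proj i * (tp (ZMod p) e *
              (shift p (Fin n) A).proj l)
            = tp (ZMod p) e * ((shift p (Fin n) A).proj i * tp (ZMod p) e) *
              (shift p (Fin n) A).proj l := by simp only [Matrix.mul_assoc]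
          _ = (tp (ZMod p) e * tp (ZMod p) e) * ((shift p (Fin n) A).proj i *
              (shift p (Fin n) A).proj l) := by
              rw [proj_mul_tp]; simp only [Matrix.mul_assoc]
          _ = 0 := by rw [MRep.proj_orth _ hil, Matrix.mul_zero]
      rw [this, zero_kronecker]

/-- `tp` of a class is a power -/
theorem cl_tp_fin (n : ℕ) {e : Matrix I I A} (he : e * e = e) :
    cl (tp (Fin n) e) = (cl e) ^ n := by
  induction n with
  | zero =>
    rw [pow_zero, cl_one_def]
    refine cl_of_equiv (tp_idem he) (Equiv.equivPUnit _) ?_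
    intro x y
    simp
  | succ n ih =>
    rw [pow_succ', ← ih, ← cl_kron he (tp_idem he)]
    refine (cl_of_equiv (idem_kron he (tp_idem he)) (Fin.consEquiv (fun _ => I)) ?_).symm
    rintro ⟨x, x'⟩ ⟨y, y'⟩
    simp [Fin.prod_univ_succ, Fin.consEquiv]

theorem cl_tp {ι : Type*} [Fintype ι] [DecidableEq ι] {e : Matrix I I A} (he : e * e = e) :
    cl (tp ι e) = (cl e) ^ Fintype.card ι := by
  rw [← cl_tp_fin _ he]
  refine cl_of_equiv (tp_idem he) ((Fintype.equivFin ι).arrowCongr (Equiv.refl I)) ?_
  intro x y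
  rw [tp_apply, tp_apply]
  rw [← Equiv.prod_comp (Fintype.equivFin ι)]
  simp

/-- the sum of all components is the `p`-th power -/
theorem V.sum_comp (x : V A) : ∑ j, V.comp p j x = x ^ p := by
  classical
  induction x using V.ind with
  | _ n e he =>
    have h := cl_tp (ι := ZMod p) he
    rw [ZMod.card] at h
    rw [← h]
    have h2 : tp (ZMod p) e = ∑ j, compMat p j e := by
      simp only [compMat]
      rw [← Finset.mul_sum, MRep.mul_sum_proj]
    rw [h2, cl_finset_sum]
    · exact Finset.sum_congr rfl fun j _ => V.comp_cl j he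
    · intro i _
      exact compMat_idem i he
    · intro i _ l _ hil
      rw [compMat, compMat]
      calc tp (ZMod p) e * (shift p (Fin n) A).proj i * (tp (ZMod p) e *
              (shift p (Fin n) A).proj l)
            = tp (ZMod p) e * ((shift p (Fin n) A).proj i * tp (ZMod p) e) *
              (shift p (Fin n) A).proj l := by simp only [Matrix.mul_assoc]
          _ = (tp (ZMod p) e * tp (ZMod p) e) * ((shift p (Fin n) A).proj i *
              (shift p (Fin n) A).proj l) := by
              rw [proj_mul_tp]; simp only [Matrix.mul_assoc]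
          _ = 0 := by rw [MRep.proj_orth _ hil, Matrix.mul_zero]

/-- an idempotent of rank one -/
def IsLine (e : Matrix I I A) : Prop := ∀ i j k l, e i j * e k l = e i l * e k j

theorem IsLine.tp_perm {ι : Type*} [Fintype ι] [DecidableEq ι] {e : Matrix I I A}
    (hl : IsLine e) (σ : Equiv.Perm ι) (x y : ι → I) :
    ∏ k, e (x k) (y (σ k)) = ∏ k, e (x k) (y k) := by
  induction σ using Equiv.Perm.swap_induction_on' with
  | one => simp
  | mul_swap f a b hab ih =>
    rw [← ih]
    rw [← Finset.mul_prod_erase _ _ (Finset.mem_univ a),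
      ← Finset.mul_prod_erase _ _ (Finset.mem_erase.2 ⟨hab.symm, Finset.mem_univ b⟩),
      ← Finset.mul_prod_erase Finset.univ (fun k => e (x k) (y (f k))) (Finset.mem_univ a),
      ← Finset.mul_prod_erase _ (fun k => e (x k) (y (f k)))
        (Finset.mem_erase.2 ⟨hab.symm, Finset.mem_univ b⟩)]
    rw [← mul_assoc, ← mul_assoc]
    congr 1
    · simp only [Equiv.Perm.mul_apply, Equiv.swap_apply_left, Equiv.swap_apply_right]
      rw [hl]
    · refine Finset.prod_congr rfl fun k hk => ?_
      rw [Finset.mem_erase, Finset.mem_erase] at hk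
      rw [Equiv.Perm.mul_apply, Equiv.swap_apply_of_ne_of_ne hk.2.1 hk.1]

theorem IsLine.tp_mul_rho {e : Matrix I I A} (hl : IsLine e) (a : ZMod p) :
    tp (ZMod p) e * (shift p I A).ρ a = tp (ZMod p) e := by
  ext x y
  rw [shift_rho, mul_shiftMat, tp_apply, tp_apply]
  have := hl.tp_perm (Equiv.subRight a) x y
  simpa using this

theorem IsLine.compMat {e : Matrix I I A} (hl : IsLine e) (j : ZMod p) :
    compMat p j e = if j = 0 then tp (ZMod p) e else 0 := by
  rw [K357.compMat, MRep.mul_proj_of_eigen _ _ 0 (fun a => by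
    rw [zero_mul, chi_zero, one_smul, hl.tp_mul_rho])]
  by_cases h : j = 0
  · simp [h]
  · rw [if_neg h, if_neg (Ne.symm h)]

/-- components of a line -/
theorem IsLine.comp {e : Matrix I I A} (he : e * e = e) (hl : IsLine e) (j : ZMod p) :
    V.comp p j (cl e) = if j = 0 then (cl e) ^ p else 0 := by
  rw [V.comp_cl j he, hl.compMat]
  split_ifs
  · rw [cl_tp he, ZMod.card]
  · exact cl_zero

theorem isLine_one : IsLine (1 : Matrix Unit Unit A) := by
  intro i j k l
  simp

end comp

/-! ### the operation -/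

section psi

variable (p : ℕ) [Fact p.Prime] (A : Type u) [CommRing A] [Algebra ℂ A]

/-- the Adams operation on classes -/
def psiV : V A →+* K0 A where
  toFun x := K0.of (V.comp p 0 x) - K0.of (V.comp p 1 x)
  map_zero' := by rw [V.comp_zero, V.comp_zero, sub_self]
  map_one' := by
    rw [cl_one_def, IsLine.comp (by simp) isLine_one, IsLine.comp (by simp) isLine_one,
      if_pos rfl, if_neg one_ne_zero, ← cl_one_def, one_pow, K0.of_one, map_zero, sub_zero]
  map_add' x y := by
    obtain ⟨z, hz⟩ := V.comp_add (p := p) x y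
    rw [hz, hz, map_add, map_add, map_add, map_add]
    abel
  map_mul' x y := by
    have hx : ∀ i : ZMod p, K0.of (V.comp p i x) = K0.of (V.comp p 1 x) +
        (if i = 0 then K0.of (V.comp p 0 x) - K0.of (V.comp p 1 x) else 0) := by
      intro i
      split_ifs with h
      · rw [h]; abel
      · rw [V.comp_eq_comp_one i h, add_zero]
    have hy : ∀ i : ZMod p, K0.of (V.comp p i y) = K0.of (V.comp p 1 y) +
        (if i = 0 then K0.of (V.comp p 0 y) - K0.of (V.comp p 1 y) else 0) := by
      intro i
      split_ifs with h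
      · rw [h]; abel
      · rw [V.comp_eq_comp_one i h, add_zero]
    have key : ∀ j : ZMod p, K0.of (V.comp p j (x * y)) =
        (p : K0 A) * (K0.of (V.comp p 1 x) * K0.of (V.comp p 1 y)) +
        (K0.of (V.comp p 0 x) - K0.of (V.comp p 1 x)) * K0.of (V.comp p 1 y) +
        K0.of (V.comp p 1 x) * (K0.of (V.comp p 0 y) - K0.of (V.comp p 1 y)) +
        (if j = 0 then (K0.of (V.comp p 0 x) - K0.of (V.comp p 1 x)) *
          (K0.of (V.comp p 0 y) - K0.of (V.comp p 1 y)) else 0) := by
      intro j
      rw [V.comp_mul, map_sum]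
      have h1 : ∀ i : ZMod p, K0.of (V.comp p i x * V.comp p (j - i) y) =
          K0.of (V.comp p 1 x) * K0.of (V.comp p 1 y) +
          (if i = 0 then (K0.of (V.comp p 0 x) - K0.of (V.comp p 1 x)) *
            K0.of (V.comp p 1 y) else 0) +
          (if i = j then K0.of (V.comp p 1 x) *
            (K0.of (V.comp p 0 y) - K0.of (V.comp p 1 y)) else 0) +
          (if i = 0 then (if j = 0 then (K0.of (V.comp p 0 x) - K0.of (V.comp p 1 x)) *
            (K0.of (V.comp p 0 y) - K0.of (V.comp p 1 y)) else 0) else 0) := by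
        intro i
        rw [K0.of_mul, hx i, hy (j - i)]
        by_cases h : i = 0
        · subst h
          by_cases h' : j = 0
          · subst h'
            simp
            ring
          · have h'' : ¬ (0 : ZMod p) = j := fun h => h' h.symm
            simp [h', h'']
            ring
        · by_cases h' : i = j
          · subst h'
            simp [h]
            ring
          · have h'' : ¬ (j - i = 0) := fun h => h' (sub_eq_zero.1 h).symm
            simp [h, h', h'']
      rw [Finset.sum_congr rfl fun i _ => h1 i, Finset.sum_add_distrib, Finset.sum_add_distrib,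
        Finset.sum_add_distrib, Finset.sum_const, Finset.card_univ, ZMod.card, nsmul_eq_mul]
      simp
    rw [key 0, key 1, if_pos rfl, if_neg one_ne_zero]
    ring

/-- **The Adams operation** `ψ^p`, `p` prime, on the Grothendieck ring of idempotent matrices over a
commutative `ℂ`-algebra. -/
def psi : K0 A →+* K0 A := K0.liftRing (psiV p A)

variable {p A}

theorem psi_of (x : V A) : psi p A (K0.of x) = K0.of (V.comp p 0 x) - K0.of (V.comp p 1 x) :=
  K0.liftRing_of _ _

/-- naturality of components -/
theorem V.comp_map {B : Type v} [CommRing B] [Algebra ℂ B] (φ : A →ₐ[ℂ] B) (j : ZMod p) (x : V A) :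
    V.comp p j (V.mapAdd (φ : A →+* B) x) = V.mapAdd (φ : A →+* B) (V.comp p j x) := by
  induction x using V.ind with
  | _ n e he =>
    rw [V.mapAdd_cl _ he, V.comp_cl j (idem_map _ he), V.comp_cl j he,
      V.mapAdd_cl _ (compMat_idem j he)]
    congr 1
    ext x y
    rw [Matrix.map_apply, compMat_apply, compMat_apply, map_sum]
    refine Finset.sum_congr rfl fun a _ => ?_
    rw [map_mul, map_mul, map_prod]
    simp [ip, chi]

/-- naturality of the Adams operations -/
theorem psi_map {B : Type v} [CommRing B] [Algebra ℂ B] (φ : A →ₐ[ℂ] B) (x : K0 A) :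
    psi p B (K0.map (φ : A →+* B) x) = K0.map (φ : A →+* B) (psi p A x) := by
  have key : ∀ y : V A, psi p B (K0.map (φ : A →+* B) (K0.of y)) =
      K0.map (φ : A →+* B) (psi p A (K0.of y)) := by
    intro y
    rw [K0.map_of, psi_of, psi_of, map_sub, K0.map_of, K0.map_of, V.comp_map, V.comp_map]
  induction x using K0.ind with
  | _ n m e f he hf =>
    rw [map_sub, map_sub, map_sub, map_sub, K0.cls_def, K0.cls_def, key, key]

/-- the Adams operation on a line -/
theorem psi_line {I : Type*} [Fintype I] {e : Matrix I I A} (he : e * e = e) (hl : IsLine e) :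
    psi p A (K0.cls e) = K0.cls e ^ p := by
  rw [K0.cls_def, psi_of, hl.comp he, hl.comp he, if_pos rfl, if_neg one_ne_zero, map_zero,
    sub_zero, ← K0.ofRing_apply, map_pow]
  rfl

/-- `x ^ p = ψ^p x + p * (component)` for classes of idempotents -/
theorem psi_of_pow (x : V A) : (K0.of x) ^ p = psi p A (K0.of x) + p * K0.of (V.comp p 1 x) := by
  have h : (K0.of x) ^ p = K0.of (x ^ p) := by
    rw [← K0.ofRing_apply, ← K0.ofRing_apply, map_pow]
  rw [h, ← V.sum_comp, map_sum, psi_of]
  have hx : ∀ i : ZMod p, K0.of (V.comp p i x) = K0.of (V.comp p 1 x) +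
        (if i = 0 then K0.of (V.comp p 0 x) - K0.of (V.comp p 1 x) else 0) := by
      intro i
      split_ifs with h
      · rw [h]; abel
      · rw [V.comp_eq_comp_one i h, add_zero]
  rw [Finset.sum_congr rfl fun i _ => hx i, Finset.sum_add_distrib, Finset.sum_const,
    Finset.card_univ, ZMod.card, nsmul_eq_mul]
  simp
  ring

/-- `ψ² x ≡ x² mod 2` -/
theorem psi_two (x : K0 A) : ∃ y : K0 A, psi 2 A x = x ^ 2 + 2 * y := by
  obtain ⟨n, m, e, f, he, hf, rfl⟩ := K0.exists_rep x
  have h1 := psi_of_pow (p := 2) (cl e)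
  have h2 := psi_of_pow (p := 2) (cl f)
  rw [K0.cls_def, K0.cls_def]
  refine ⟨-K0.of (V.comp 2 1 (cl e)) + K0.of (V.comp 2 1 (cl f)) - K0.of (cl f) ^ 2 +
    K0.of (cl e) * K0.of (cl f), ?_⟩
  rw [map_sub]
  have h3 : psi 2 A (K0.of (cl e)) = K0.of (cl e) ^ 2 - 2 * K0.of (V.comp 2 1 (cl e)) := by
    rw [h1]; push_cast; ring
  have h4 : psi 2 A (K0.of (cl f)) = K0.of (cl f) ^ 2 - 2 * K0.of (V.comp 2 1 (cl f)) := by
    rw [h2]; push_cast; ring
  rw [h3, h4]
  ring

/-- `ψ^p (L - 1) = p (L - 1)` for a line with `(L - 1)^2 = 0` -/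
theorem psi_line_sub_one {I : Type*} [Fintype I] {e : Matrix I I A} (he : e * e = e)
    (hl : IsLine e) (h : (K0.cls e - 1) * (K0.cls e - 1) = 0) :
    psi p A (K0.cls e - 1) = p * (K0.cls e - 1) := by
  have h1 : ∀ n : ℕ, (K0.cls e) ^ n = 1 + n * (K0.cls e - 1) := by
    intro n
    induction n with
    | zero => simp
    | succ n ih =>
      rw [pow_succ, ih]
      have : (1 + (n : K0 A) * (K0.cls e - 1)) * K0.cls e =
          1 + ((n : K0 A) + 1) * (K0.cls e - 1) + n * ((K0.cls e - 1) * (K0.cls e - 1)) := by ring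
      rw [this, h]
      push_cast
      ring
  rw [map_sub, map_one, psi_line he hl, h1]
  ring

end psi

end

end Crest.Agent.R204.K357
end

-- ▼ part R204/PsiD_357

/-!
# Adams operations on `K0 A` (row 204, block H, leaf H1), part D

`psi p` and `psi q` commute, `p ≠ q` primes.
-/

open Matrix
open scoped Kronecker BigOperators

namespace Crest.Agent.R204.K357

universe u v w

set_option linter.unusedSectionVars false

noncomputable section

variable {p q : ℕ} [Fact p.Prime] [Fact q.Prime] {A : Type u} [CommRing A] [Algebra ℂ A]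
variable {I X Y : Type*} [Fintype I] [Fintype X] [Fintype Y]

/-- tensor power of a representation -/
def MRep.tpow (p : ℕ) [Fact p.Prime] (R : MRep q Y A) : MRep q (ZMod p → Y) A where
  ρ b := tp (ZMod p) (R.ρ b)
  zero' := by
    classical
    rw [R.zero', tp_def, tpf_one]
    congr!
  add' a b := by rw [R.add', tp_mul]

theorem cl_add_mul {G N P : Matrix X X A} (hG : G * G = G) (hN : N * N = N) (hP : P * P = P)
    (hGN : G * N = 0) (hNG : N * G = 0) (hGP : G * P = P * G) (hNP : N * P = P * N) :
    cl ((G + N) * P) = cl (G * P) + cl (N * P) := by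
  rw [Matrix.add_mul]
  refine cl_add (idem_mul_of_comm hG hP hGP) (idem_mul_of_comm hN hP hNP) ?_ ?_
  · calc G * P * (N * P) = G * (P * N) * P := by simp only [Matrix.mul_assoc]
      _ = (G * N) * (P * P) := by rw [← hNP]; simp only [Matrix.mul_assoc]
      _ = 0 := by rw [hGN, Matrix.zero_mul]
  · calc N * P * (G * P) = N * (P * G) * P := by simp only [Matrix.mul_assoc]
      _ = (N * G) * (P * P) := by rw [← hGP]; simp only [Matrix.mul_assoc]
      _ = 0 := by rw [hNG, Matrix.zero_mul]

/-- the doubly indexed components of `e^{⊗ pq}` -/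
def dbl (p q : ℕ) [Fact p.Prime] [Fact q.Prime] (a : ZMod p) (b : ZMod q) (e : Matrix I I A) :
    Matrix (ZMod p → ZMod q → I) (ZMod p → ZMod q → I) A :=
  tp (ZMod p) (tp (ZMod q) e) * (MRep.tpow p (shift q I A)).proj b *
    (shift p (ZMod q → I) A).proj a

theorem compMat_mul_rho (j : ZMod q) (e : Matrix I I A) (a : ZMod q) :
    compMat q j e * (shift q I A).ρ a = chi q A (j * a) • compMat q j e := by
  rw [compMat, Matrix.mul_assoc, MRep.proj_mul_rho, Matrix.mul_smul]

theorem sum_compMat (e : Matrix I I A) : ∑ j, compMat q j e = tp (ZMod q) e := by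
  simp only [compMat]
  rw [← Finset.mul_sum, MRep.mul_sum_proj]

theorem compMat_orth {i l : ZMod q} (hil : i ≠ l) (e : Matrix I I A) :
    compMat q i e * compMat q l e = 0 := by
  rw [compMat, compMat]
  calc tp (ZMod q) e * (shift q I A).proj i * (tp (ZMod q) e * (shift q I A).proj l)
        = tp (ZMod q) e * ((shift q I A).proj i * tp (ZMod q) e) *
          (shift q I A).proj l := by simp only [Matrix.mul_assoc]
      _ = (tp (ZMod q) e * tp (ZMod q) e) * ((shift q I A).proj i *
          (shift q I A).proj l) := by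
          rw [proj_mul_tp]; simp only [Matrix.mul_assoc]
      _ = 0 := by rw [MRep.proj_orth _ hil, Matrix.mul_zero]

theorem chi_sum {ι : Type*} (s : Finset ι) (f : ι → ZMod q) :
    ∏ k ∈ s, chi q A (f k) = chi q A (∑ k ∈ s, f k) := by
  classical
  induction s using Finset.induction_on with
  | empty => simp
  | insert a s ha ih => rw [Finset.prod_insert ha, Finset.sum_insert ha, ih, chi_add]

/-- the `b`-isotypical part of `(e^{⊗q})^{⊗p}` for the diagonal action of `ZMod q` -/
theorem tp_mul_proj (b : ZMod q) (e : Matrix I I A) :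
    tp (ZMod p) (tp (ZMod q) e) * (MRep.tpow p (shift q I A)).proj b =
      ∑ t ∈ Finset.univ.filter (fun t : ZMod p → ZMod q => ∑ k, t k = b),
        tpf (fun k => compMat q (t k) e) := by
  have h1 : tp (ZMod p) (tp (ZMod q) e) =
      ∑ t : ZMod p → ZMod q, tpf (fun k => compMat q (t k) e) := by
    rw [← sum_compMat e, tp_def, tpf_sum (fun _ : ZMod p => fun j => compMat q j e)]
  rw [h1, Matrix.sum_mul, Finset.sum_filter]
  refine Finset.sum_congr rfl fun t _ => ?_
  refine MRep.mul_proj_of_eigen _ _ _ (fun a => ?_) b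
  have h2 : (MRep.tpow p (shift q I A)).ρ a = tp (ZMod p) ((shift q I A).ρ a) := rfl
  have h3 : tpf (fun k => compMat q (t k) e) * tp (ZMod p) ((shift q I A).ρ a) =
      tpf (fun k => chi q A (t k * a) • compMat q (t k) e) := by
    rw [tp_def, tpf_mul]
    congr 1
    funext k
    exact compMat_mul_rho _ _ a
  rw [h2, h3, tpf_smul, chi_sum, Finset.sum_mul]

/-- the key computation -/
theorem dbl_sub (hpq : (p : ZMod q) ≠ 0) (c : ZMod q) {e : Matrix I I A} (he : e * e = e) :
    K0.of (cl (dbl p q 0 ((p : ZMod q) * c) e)) - K0.of (cl (dbl p q 1 ((p : ZMod q) * c) e)) =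
      psi p A (K0.of (cl (compMat q c e))) := by
  classical
  set b : ZMod q := (p : ZMod q) * c with hb
  set G : (ZMod p → ZMod q) → Matrix (ZMod p → ZMod q → I) (ZMod p → ZMod q → I) A :=
    fun t => tpf (fun k => compMat q (t k) e) with hG
  have hGi : ∀ t, G t * G t = G t := tpf_idem (fun s => compMat q s e) (fun s => compMat_idem s he)
  have hGo : ∀ t t', t ≠ t' → G t * G t' = 0 :=
    tpf_orth (fun s => compMat q s e) (fun s s' h => compMat_orth h e)
  have hR : ∀ t a, (shift p (ZMod q → I) A).ρ a * G t =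
      G (fun k => t (k - a)) * (shift p (ZMod q → I) A).ρ a :=
    fun t a => shiftMat_mul_tpf a (fun k => compMat q (t k) e)
  set T : Finset (ZMod p → ZMod q) := (ncs p (ZMod q)).filter (fun t => ∑ k, t k = b) with hT
  have hTs : ∀ t ∈ T, ∀ a : ZMod p, (fun k => t (k + a)) ∈ T := by
    intro t ht a
    rw [hT, Finset.mem_filter] at ht ⊢
    refine ⟨ncs_shift ht.1 a, ?_⟩
    rw [← ht.2]
    exact Equiv.sum_comp (Equiv.addRight a) t
  have hTn : ∀ t ∈ T, ∀ s, t ≠ fun _ => s := fun t ht =>
    mem_ncs.1 (Finset.mem_filter.1 ht).1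
  have hsplit : Finset.univ.filter (fun t : ZMod p → ZMod q => ∑ k, t k = b) =
      insert (fun _ => c) T := by
    ext t
    rw [Finset.mem_insert, hT, Finset.mem_filter, Finset.mem_filter, mem_ncs]
    constructor
    · rintro ⟨-, h⟩
      by_cases h' : ∃ s, t = fun _ => s
      · left
        obtain ⟨s, rfl⟩ := h'
        rw [Finset.sum_const, Finset.card_univ, ZMod.card, nsmul_eq_mul, hb] at h
        funext _
        exact mul_left_cancel₀ hpq h
      · right
        exact ⟨fun s hs => h' ⟨s, hs⟩, h⟩
    · rintro (rfl | ⟨_, h⟩)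
      · refine ⟨Finset.mem_univ _, ?_⟩
        rw [Finset.sum_const, Finset.card_univ, ZMod.card, nsmul_eq_mul]
      · exact ⟨Finset.mem_univ _, h⟩
  have hcT : (fun _ => c) ∉ T := fun h => hTn _ h c rfl
  have hdbl : ∀ a : ZMod p, dbl p q a b e =
      (G (fun _ => c) + ∑ t ∈ T, G t) * (shift p (ZMod q → I) A).proj a := by
    intro a
    rw [dbl, tp_mul_proj, hsplit, Finset.sum_insert hcT]
  have hN : (∑ t ∈ T, G t) * (∑ t ∈ T, G t) = ∑ t ∈ T, G t :=
    idem_finset_sum _ G (fun t _ => hGi t) (fun t _ t' _ => hGo t t')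
  have hNρ : ∀ a, (shift p (ZMod q → I) A).ρ a * (∑ t ∈ T, G t) =
      (∑ t ∈ T, G t) * (shift p (ZMod q → I) A).ρ a := by
    intro a
    rw [Finset.mul_sum, Finset.sum_mul]
    refine Finset.sum_equiv (shEquiv a) ?_ ?_
    · intro t
      constructor
      · intro ht
        have := hTs t ht (-a)
        simpa [shEquiv, sub_eq_add_neg] using this
      · intro ht
        have := hTs _ ht a
        simpa [shEquiv] using this
    · intro t _
      exact hR t a
  have hcl : ∀ a : ZMod p, cl (dbl p q a b e) = V.comp p a (cl (compMat q c e)) +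
      cl ((∑ t ∈ T, G t) * (shift p (ZMod q → I) A).proj 0) := by
    intro a
    rw [hdbl, cl_add_mul (hGi _) hN (MRep.proj_idem _ _) ?_ ?_ ?_ ?_, V.comp_cl a (compMat_idem c he),
      cl_graded (shift p (ZMod q → I) A) G T (fun t _ => hGi t) (fun t _ t' _ => hGo t t')
        hTs hTn hR a 0]
    · rfl
    · rw [Finset.mul_sum]
      exact Finset.sum_eq_zero fun t ht => hGo _ _ (Ne.symm (hTn t ht c))
    · rw [Finset.sum_mul]
      exact Finset.sum_eq_zero fun t ht => hGo _ _ (hTn t ht c)
    · exact (proj_mul_tp a (compMat q c e)).symm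
    · exact (MRep.proj_mul_of_comm _ _ _ hNρ a).symm
  rw [hcl, hcl, map_add, map_add, psi_of]
  abel

/-- `ψ^p ψ^q` in terms of the doubly indexed components -/
theorem psi_psi (hpq : (p : ZMod q) ≠ 0) {e : Matrix I I A} (he : e * e = e) :
    psi p A (psi q A (K0.of (cl e))) =
      K0.of (cl (dbl p q 0 0 e)) - K0.of (cl (dbl p q 1 0 e)) -
      (K0.of (cl (dbl p q 0 1 e)) - K0.of (cl (dbl p q 1 1 e))) := by
  have h0 := dbl_sub (p := p) hpq 0 he
  have h1 := dbl_sub (p := p) hpq ((p : ZMod q)⁻¹) he
  rw [mul_zero] at h0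
  rw [mul_inv_cancel₀ hpq] at h1
  rw [h0, h1, psi_of, map_sub, ← V.comp_cl _ he, ← V.comp_cl _ he,
    V.comp_eq_comp_one _ (inv_ne_zero hpq)]

theorem mul_tp_shiftMat (l : ZMod q) (M : Matrix Y (ZMod p → ZMod q → I) A) (x : Y)
    (y : ZMod p → ZMod q → I) :
    (M * tp (ZMod p) (shiftMat q I A l)) x y = M x (fun k k' => y k (k' - l)) := by
  classical
  rw [Matrix.mul_apply, Finset.sum_eq_single (fun k k' => y k (k' - l))]
  · rw [tp_apply]
    have : ∀ k : ZMod p, shiftMat q I A l ((fun k k' => y k (k' - l)) k) (y k) = 1 := by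
      intro k
      simp [shiftMat]
    rw [Finset.prod_congr rfl fun k _ => this k]
    simp
  · intro z _ hz
    rw [tp_apply]
    have : ∃ k, ∃ k', z k k' ≠ y k (k' - l) := by
      by_contra h
      push Not at h
      apply hz
      funext k k'
      exact h k k'
    obtain ⟨k, k', hk⟩ := this
    rw [Finset.prod_eq_zero (Finset.mem_univ k), mul_zero]
    rw [shiftMat, Matrix.of_apply, if_neg]
    intro h
    apply hk
    rw [← congrFun h (k' - l)]
    simp
  · simp

theorem dbl_apply (a : ZMod p) (b : ZMod q) (e : Matrix I I A) (x y : ZMod p → ZMod q → I) :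
    dbl p q a b e x y = ∑ m : ZMod p, ∑ l : ZMod q, (ip p A * chi p A (-(a * m))) *
      (ip q A * chi q A (-(b * l))) * ∏ k, ∏ k', e (x k k') (y (k - m) (k' - l)) := by
  rw [dbl, MRep.proj, MRep.proj, Matrix.mul_sum, Matrix.sum_apply]
  refine Finset.sum_congr rfl fun m _ => ?_
  rw [Matrix.mul_smul, Matrix.smul_apply, shift_rho, mul_shiftMat, Matrix.mul_sum,
    Matrix.sum_apply, Finset.smul_sum]
  refine Finset.sum_congr rfl fun l _ => ?_
  have h : (MRep.tpow p (shift q I A)).ρ l = tp (ZMod p) (shiftMat q I A l) := rfl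
  rw [Matrix.mul_smul, Matrix.smul_apply, h, mul_tp_shiftMat, smul_smul, tp_apply, smul_eq_mul]
  rfl

theorem dbl_idem (a : ZMod p) (b : ZMod q) {e : Matrix I I A} (he : e * e = e) :
    dbl p q a b e * dbl p q a b e = dbl p q a b e := by
  have h1 : ∀ l, (MRep.tpow p (shift q I A)).ρ l * tp (ZMod p) (tp (ZMod q) e) =
      tp (ZMod p) (tp (ZMod q) e) * (MRep.tpow p (shift q I A)).ρ l := by
    intro l
    have h : (MRep.tpow p (shift q I A)).ρ l = tp (ZMod p) (shiftMat q I A l) := rfl
    rw [h, tp_mul, tp_mul, shiftMat_mul_tp]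
  have h2 := MRep.proj_mul_of_comm _ _ _ h1 b
  have h3 : ∀ m, (shift p (ZMod q → I) A).ρ m * (MRep.tpow p (shift q I A)).proj b =
      (MRep.tpow p (shift q I A)).proj b * (shift p (ZMod q → I) A).ρ m := by
    intro m
    rw [MRep.proj, Matrix.mul_sum, Matrix.sum_mul]
    refine Finset.sum_congr rfl fun l _ => ?_
    have h : (MRep.tpow p (shift q I A)).ρ l = tp (ZMod p) (shiftMat q I A l) := rfl
    rw [Matrix.mul_smul, Matrix.smul_mul, h, shift_rho, shiftMat_mul_tp]
  have h4 := MRep.proj_mul_of_comm _ _ _ h3 a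
  have h5 := proj_mul_tp a (tp (ZMod q) e)
  refine idem_mul_of_comm (idem_mul_of_comm (tp_idem (tp_idem he)) (MRep.proj_idem _ _) h2.symm)
    (MRep.proj_idem _ _) ?_
  rw [Matrix.mul_assoc, ← h4, ← Matrix.mul_assoc, ← h5, Matrix.mul_assoc]

theorem dbl_swap (a : ZMod p) (b : ZMod q) {e : Matrix I I A} (he : e * e = e) :
    cl (dbl p q a b e) = cl (dbl q p b a e) := by
  refine cl_of_equiv (dbl_idem a b he) (Equiv.piComm (fun (_ : ZMod p) (_ : ZMod q) => I)) ?_
  intro x y
  rw [dbl_apply, dbl_apply, Finset.sum_comm]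
  refine Finset.sum_congr rfl fun m _ => Finset.sum_congr rfl fun l _ => ?_
  rw [Finset.prod_comm]
  simp only [Equiv.piComm_apply, Function.swap]
  ring

/-- **The Adams operations commute.** -/
theorem psi_comm (hpq : p ≠ q) (x : K0 A) : psi p A (psi q A x) = psi q A (psi p A x) := by
  have hp : p.Prime := Fact.out
  have hq : q.Prime := Fact.out
  have h1 : (p : ZMod q) ≠ 0 := by
    rw [Ne, ZMod.natCast_eq_zero_iff]
    intro h
    exact hpq ((Nat.prime_dvd_prime_iff_eq hq hp).1 h).symm
  have h2 : (q : ZMod p) ≠ 0 := by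
    rw [Ne, ZMod.natCast_eq_zero_iff]
    intro h
    exact hpq ((Nat.prime_dvd_prime_iff_eq hp hq).1 h)
  have key : ∀ (n : ℕ) (e : Matrix (Fin n) (Fin n) A), e * e = e →
      psi p A (psi q A (K0.of (cl e))) = psi q A (psi p A (K0.of (cl e))) := by
    intro n e he
    have e1 := psi_psi (p := p) (q := q) h1 he
    have e2 := psi_psi (p := q) (q := p) h2 he
    have s1 := dbl_swap (p := p) (q := q) 0 0 he
    have s2 := dbl_swap (p := p) (q := q) 1 0 he
    have s3 := dbl_swap (p := p) (q := q) 0 1 he
    have s4 := dbl_swap (p := p) (q := q) 1 1 he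
    rw [s1, s2, s3, s4] at e1
    rw [e1, e2]
    abel
  induction x using K0.ind with
  | _ n m e f he hf =>
    rw [K0.cls_def, K0.cls_def, map_sub, map_sub, map_sub, map_sub, key n e he, key m f hf]

end

end Crest.Agent.R204.K357
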