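import Crest.Agent.R204.Clutch3_369
import Crest.Agent.R204.BottLoop_313
import Crest.Agent.R204.PsiD_357

-- ▼ part R204/LineT_357
section

/-!
# Row 204, block H: clutching over free loops, the class `b_T` (helper357)

`A` a commutative complex normed algebra, `LA A` = free loops (313's `LoopAlg A` with frozen
instances, so that `K0 (LA (LA A))` is a commutative ring with Adams operations).

* `IsCl e g`   : the idempotent `e` over `LA A` is clutched by the unit `g` over `A`.
* `IsCl.mvn`   : uniqueness.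
* `EL g`, `dL g = [EL g] - [1]` : the clutching idempotent and class; `dL_mul`, `dL_sum`,
  `dL_homotopy`.
* `bT A = dL z ∈ K0 (LA (LA A))`; `bT_sq : bT * bT = 0`, `psi_bT : psi p bT = p * bT`.
* `dL_Lam : dL (z p + 1 - p) = cls p * bT`.
* `map_incl1_d`, `map_incl2_d` : compatibility with 369's reduced clutching `d`.
-/

set_option autoImplicit false
set_option linter.unusedSectionVars false
set_option linter.unusedSimpArgs false

open Matrix Topology
open scoped unitInterval Kronecker
open Crest.Agent.R204.K357 Crest.Agent.R204.BottLoop313 Crest.Agent.R204.Clutch369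

namespace Crest.Agent.R204.LineT357

noncomputable section

section defs

variable (A : Type*) [NormedCommRing A] [NormedAlgebra ℂ A]

/-- free loops, with frozen instances -/
def LA : Type _ := LoopAlg A

instance : NormedCommRing (LA A) := inferInstanceAs (NormedCommRing (LoopAlg A))
instance : NormedAlgebra ℂ (LA A) := inferInstanceAs (NormedAlgebra ℂ (LoopAlg A))
instance [CompleteSpace A] : CompleteSpace (LA A) := inferInstanceAs (CompleteSpace (LoopAlg A))

variable {A}

/-- the underlying path -/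
def LA.fn (a : LA A) : C(I, A) := Subtype.val a

theorem LA.fn01 (a : LA A) : a.fn 0 = a.fn 1 := Subtype.property a

/-- constructor -/
def LA.mk (f : C(I, A)) (h : f 0 = f 1) : LA A := ⟨f, h⟩

@[simp] theorem LA.mk_fn (f : C(I, A)) (h : f 0 = f 1) : (LA.mk f h).fn = f := rfl

theorem LA.ext {a b : LA A} (h : ∀ t, a.fn t = b.fn t) : a = b :=
  Subtype.ext (ContinuousMap.ext h)

/-- evaluation -/
def LA.ev (t : I) : LA A →ₐ[ℂ] A where
  toFun a := a.fn t
  map_one' := rfl
  map_mul' _ _ := rfl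
  map_zero' := rfl
  map_add' _ _ := rfl
  commutes' _ := rfl

@[simp] theorem LA.ev_apply (t : I) (a : LA A) : LA.ev t a = a.fn t := rfl

theorem LA.continuous_fn : Continuous (LA.fn : LA A → C(I, A)) := continuous_subtype_val


/-- constant loops -/
def LA.cst : A →ₐ[ℂ] LA A where
  toFun a := LA.mk (ContinuousMap.const I a) rfl
  map_one' := rfl
  map_mul' _ _ := rfl
  map_zero' := rfl
  map_add' _ _ := rfl
  commutes' _ := rfl

@[simp] theorem LA.cst_fn (a : A) (t : I) : (LA.cst a).fn t = a := rfl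

variable {B : Type*} [NormedCommRing B] [NormedAlgebra ℂ B]

/-- functoriality of free loops -/
def LA.map (φ : A →ₐ[ℂ] B) (hφ : Continuous φ) : LA A →ₐ[ℂ] LA B where
  toFun a := LA.mk ⟨fun t => φ (a.fn t), hφ.comp a.fn.continuous⟩ (by
    change φ (a.fn 0) = φ (a.fn 1)
    rw [a.fn01])
  map_one' := LA.ext fun t => map_one φ
  map_mul' a b := LA.ext fun t => map_mul φ (a.fn t) (b.fn t)
  map_zero' := LA.ext fun t => map_zero φ
  map_add' a b := LA.ext fun t => map_add φ (a.fn t) (b.fn t)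
  commutes' r := LA.ext fun t => AlgHomClass.commutes φ r

@[simp] theorem LA.map_fn (φ : A →ₐ[ℂ] B) (hφ : Continuous φ) (a : LA A) (t : I) :
    (LA.map φ hφ a).fn t = φ (a.fn t) := rfl

theorem LA.continuous_map (φ : A →ₐ[ℂ] B) (hφ : Continuous φ) :
    Continuous (LA.map φ hφ) := by
  have h : Continuous fun a : LA A => (⟨φ, hφ⟩ : C(A, B)).comp a.fn :=
    (ContinuousMap.continuous_postcomp (⟨φ, hφ⟩ : C(A, B))).comp LA.continuous_fn
  exact Continuous.subtype_mk h _

end defs

section mat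

variable {A : Type*} [NormedCommRing A] [NormedAlgebra ℂ A]
variable {n m k l : Type*}

/-- matrices over `LA A` from loops of matrices -/
def mkL (F : I → Matrix n m A) (hF : Continuous F) (h : F 0 = F 1) : Matrix n m (LA A) :=
  fun i j => LA.mk ⟨fun t => F t i j, hF.matrix_elem i j⟩ (by
    change F 0 i j = F 1 i j
    rw [h])

@[simp] theorem mkL_ev (F : I → Matrix n m A) (hF : Continuous F) (h : F 0 = F 1) (t : I) :
    (mkL F hF h).map (LA.ev t) = F t := rfl

theorem matL_ext {M N : Matrix n m (LA A)} (h : ∀ t, M.map (LA.ev t) = N.map (LA.ev t)) :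
    M = N := by
  ext i j
  exact LA.ext fun t => congrFun (congrFun (h t) i) j

theorem matL_continuous (M : Matrix n m (LA A)) : Continuous fun t => M.map (LA.ev t) := by
  refine continuous_matrix fun i j => ?_
  exact (M i j).fn.continuous

theorem matL_01 (M : Matrix n m (LA A)) : M.map (LA.ev 0) = M.map (LA.ev 1) := by
  ext i j
  exact (M i j).fn01

theorem evL_mul {p : Type*} [Fintype m] (t : I) (M : Matrix n m (LA A)) (N : Matrix m p (LA A)) :
    (M * N).map (LA.ev t) = M.map (LA.ev t) * N.map (LA.ev t) := by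
  ext i j
  rw [Matrix.map_apply, Matrix.mul_apply, Matrix.mul_apply, map_sum]
  exact Finset.sum_congr rfl fun _ _ => map_mul _ _ _

theorem evL_fb {p q : Type*} (t : I) (a : Matrix n m (LA A)) (b : Matrix p q (LA A)) :
    (fromBlocks a 0 0 b).map (LA.ev t) =
      fromBlocks (a.map (LA.ev t)) 0 0 (b.map (LA.ev t)) := by
  rw [fromBlocks_map]
  congr 1

theorem evL_one [DecidableEq n] (t : I) : (1 : Matrix n n (LA A)).map (LA.ev t) = 1 :=
  Matrix.map_one _ (map_zero _) (map_one _)

variable [Fintype n] [DecidableEq n] [Fintype m] [DecidableEq m]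
  [Fintype k] [DecidableEq k] [Fintype l] [DecidableEq l]

/-- Murray-von Neumann equivalence over `LA A` from loops of matrices -/
theorem mvnL_of_paths {e : Matrix k k (LA A)} {f : Matrix l l (LA A)} (x : I → Matrix k l A)
    (y : I → Matrix l k A) (hx : Continuous x) (hy : Continuous y) (x01 : x 0 = x 1)
    (y01 : y 0 = y 1) (xy : ∀ t, x t * y t = e.map (LA.ev t))
    (yx : ∀ t, y t * x t = f.map (LA.ev t)) : MvN e f := by
  refine ⟨mkL x hx x01, mkL y hy y01, matL_ext fun t => ?_, matL_ext fun t => ?_⟩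
  · rw [evL_mul, mkL_ev, mkL_ev, xy]
  · rw [evL_mul, mkL_ev, mkL_ev, yx]

/-- `e` is clutched by `g`. -/
def IsCl (e : Matrix k k (LA A)) (g : Matrix n n A) : Prop :=
  ∃ (a : I → Matrix k n A) (b : I → Matrix n k A), Continuous a ∧ Continuous b ∧
    (∀ s, a s * b s = e.map (LA.ev s)) ∧ (∀ s, b s * a s = 1) ∧ a 1 = a 0 * g

theorem IsCl.b_one {e : Matrix k k (LA A)} {g : Matrix n n A} {a : I → Matrix k n A}
    {b : I → Matrix n k A} (hab : ∀ s, a s * b s = e.map (LA.ev s)) (hba : ∀ s, b s * a s = 1)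
    (h : a 1 = a 0 * g) : g * b 1 = b 0 := by
  have h1 : a 1 * b 1 = a 0 * b 0 := by rw [hab, hab, matL_01]
  calc g * b 1 = (b 0 * a 0) * (g * b 1) := by rw [hba, Matrix.one_mul]
    _ = b 0 * (a 1 * b 1) := by rw [h]; simp only [Matrix.mul_assoc]
    _ = (b 0 * a 0) * b 0 := by rw [h1]; simp only [Matrix.mul_assoc]
    _ = b 0 := by rw [hba, Matrix.one_mul]

theorem IsCl.idem {e : Matrix k k (LA A)} {g : Matrix n n A} (H : IsCl e g) : e * e = e := by
  obtain ⟨a, b, -, -, hab, hba, -⟩ := H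
  refine matL_ext fun t => ?_
  rw [evL_mul, ← hab]
  calc a t * b t * (a t * b t) = a t * (b t * a t) * b t := by simp only [Matrix.mul_assoc]
    _ = _ := by rw [hba, Matrix.mul_one]

/-- **uniqueness of clutching** -/
theorem IsCl.mvn {e : Matrix k k (LA A)} {f : Matrix l l (LA A)} {g : Matrix n n A}
    (H : IsCl e g) (H' : IsCl f g) : MvN e f := by
  obtain ⟨a, b, ca, cb, hab, hba, h1⟩ := H
  obtain ⟨a', b', ca', cb', hab', hba', h1'⟩ := H'
  have hb := IsCl.b_one hab hba h1
  have hb' := IsCl.b_one hab' hba' h1'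
  refine mvnL_of_paths (fun s => a s * b' s) (fun s => a' s * b s) (ca.matrix_mul cb')
    (ca'.matrix_mul cb) ?_ ?_ (fun t => ?_) (fun t => ?_)
  · rw [h1, Matrix.mul_assoc, hb']
  · rw [h1', Matrix.mul_assoc, hb]
  · calc a t * b' t * (a' t * b t) = a t * (b' t * a' t) * b t := by simp only [Matrix.mul_assoc]
      _ = _ := by rw [hba', Matrix.mul_one, hab]
  · calc a' t * b t * (a t * b' t) = a' t * (b t * a t) * b' t := by simp only [Matrix.mul_assoc]
      _ = _ := by rw [hba, Matrix.mul_one, hab']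

theorem IsCl.cls_eq {e : Matrix k k (LA A)} {f : Matrix l l (LA A)} {g : Matrix n n A}
    (H : IsCl e g) (H' : IsCl f g) : K0.cls e = K0.cls f :=
  K0.cls_eq H.idem H'.idem (H.mvn H')

/-- change of frame -/
theorem IsCl.path {e : Matrix k k (LA A)} {g : Matrix n n A} (H : IsCl e g)
    (c : I → Matrix n m A) (c' : I → Matrix m n A) (hc : Continuous c) (hc' : Continuous c')
    (cc' : ∀ t, c t * c' t = 1) (c'c : ∀ t, c' t * c t = 1) : IsCl e (c' 0 * g * c 1) := by
  obtain ⟨a, b, ca, cb, hab, hba, h1⟩ := H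
  refine ⟨fun s => a s * c s, fun s => c' s * b s, ca.matrix_mul hc, hc'.matrix_mul cb,
    fun s => ?_, fun s => ?_, ?_⟩
  · calc a s * c s * (c' s * b s) = a s * (c s * c' s) * b s := by simp only [Matrix.mul_assoc]
      _ = _ := by rw [cc', Matrix.mul_one, hab]
  · calc c' s * b s * (a s * c s) = c' s * (b s * a s) * c s := by simp only [Matrix.mul_assoc]
      _ = _ := by rw [hba, Matrix.mul_one, c'c]
  · calc a 1 * c 1 = a 0 * (c 0 * c' 0) * g * c 1 := by rw [h1, cc', Matrix.mul_one]
      _ = _ := by simp only [Matrix.mul_assoc]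

theorem IsCl.conj {e : Matrix k k (LA A)} {g : Matrix n n A} (H : IsCl e g)
    (c : Matrix n m A) (c' : Matrix m n A)
    (cc' : c * c' = 1) (c'c : c' * c = 1) : IsCl e (c' * g * c) :=
  H.path (fun _ => c) (fun _ => c') continuous_const continuous_const (fun _ => cc') (fun _ => c'c)

theorem IsCl.sum {e : Matrix k k (LA A)} {g : Matrix n n A} {f : Matrix l l (LA A)}
    {h : Matrix m m A} (H : IsCl e g) (H' : IsCl f h) :
    IsCl (fromBlocks e 0 0 f) (fromBlocks g 0 0 h) := by
  obtain ⟨a, b, ca, cb, hab, hba, h1⟩ := H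
  obtain ⟨a', b', ca', cb', hab', hba', h1'⟩ := H'
  refine ⟨fun s => fromBlocks (a s) 0 0 (a' s), fun s => fromBlocks (b s) 0 0 (b' s),
    ca.matrix_fromBlocks continuous_const continuous_const ca',
    cb.matrix_fromBlocks continuous_const continuous_const cb', fun s => ?_, fun s => ?_, ?_⟩
  · rw [fromBlocks_multiply, evL_fb]
    simp [hab, hab']
  · rw [fromBlocks_multiply]
    simp [hba, hba']
  · rw [fromBlocks_multiply]
    simp [h1, h1']

theorem continuous_kron {p q r s : Type*} {F : I → Matrix p q A} {G : I → Matrix r s A}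
    (hF : Continuous F) (hG : Continuous G) : Continuous fun t => F t ⊗ₖ G t := by
  refine continuous_matrix fun i j => ?_
  simp only [kroneckerMap_apply]
  exact (hF.matrix_elem i.1 j.1).mul (hG.matrix_elem i.2 j.2)

theorem IsCl.kron {e : Matrix k k (LA A)} {g : Matrix n n A} {f : Matrix l l (LA A)}
    {h : Matrix m m A} (H : IsCl e g) (H' : IsCl f h) : IsCl (e ⊗ₖ f) (g ⊗ₖ h) := by
  obtain ⟨a, b, ca, cb, hab, hba, h1⟩ := H
  obtain ⟨a', b', ca', cb', hab', hba', h1'⟩ := H'
  refine ⟨fun s => a s ⊗ₖ a' s, fun s => b s ⊗ₖ b' s, continuous_kron ca ca',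
    continuous_kron cb cb', fun s => ?_, fun s => ?_, ?_⟩
  · rw [← mul_kronecker_mul, hab, hab']
    ext ⟨i, i'⟩ ⟨j, j'⟩
    simp only [kroneckerMap_apply, Matrix.map_apply, map_mul]
  · rw [← mul_kronecker_mul, hba, hba', one_kronecker_one]
  · change a 1 ⊗ₖ a' 1 = (a 0 ⊗ₖ a' 0) * (g ⊗ₖ h)
    rw [h1, h1', mul_kronecker_mul]

theorem isCl_one : IsCl (1 : Matrix n n (LA A)) (1 : Matrix n n A) :=
  ⟨fun _ => 1, fun _ => 1, continuous_const, continuous_const,
    fun s => by rw [Matrix.mul_one, evL_one], fun s => by rw [Matrix.mul_one],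
    by rw [Matrix.mul_one]⟩

/-- the clutching idempotent over free loops -/
def EL (g : (Matrix n n A)ˣ) : Matrix (n ⊕ n) (n ⊕ n) (LA A) :=
  mkL (fun s => W g.val g.inv s * fromBlocks 1 0 0 0 * W' g.val g.inv s)
    (((continuous_W _ _).matrix_mul continuous_const).matrix_mul (continuous_W' _ _))
    (by simp only [W_zero _ _ g.val_inv, W'_zero _ _ g.val_inv, Matrix.one_mul, Matrix.mul_one,
          W_one, W'_one, fromBlocks_multiply]
        simp only [Matrix.mul_zero, Matrix.zero_mul, add_zero, Matrix.mul_one]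
        rw [g.val_inv])

theorem EL_ev (g : (Matrix n n A)ˣ) (s : I) :
    (EL g).map (LA.ev s) = W g.val g.inv s * fromBlocks 1 0 0 0 * W' g.val g.inv s := rfl

theorem isCl_EL (g : (Matrix n n A)ˣ) : IsCl (EL g) (g : Matrix n n A) := by
  refine ⟨fun s => W g.val g.inv s * J1 n A, fun s => J1' n A * W' g.val g.inv s,
    (continuous_W _ _).matrix_mul continuous_const, continuous_const.matrix_mul (continuous_W' _ _),
    fun s => ?_, fun s => ?_, ?_⟩
  · rw [EL_ev, ← J1_mul]
    simp only [Matrix.mul_assoc]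
  · calc J1' n A * W' g.val g.inv s * (W g.val g.inv s * J1 n A)
        = J1' n A * (W' g.val g.inv s * W g.val g.inv s) * J1 n A := by
          simp only [Matrix.mul_assoc]
      _ = 1 := by rw [W'_mul _ _ g.val_inv g.inv_val, Matrix.mul_one, J1'_mul]
  · change W g.val g.inv 1 * J1 n A = W g.val g.inv 0 * J1 n A * g.val
    rw [W_one, W_zero _ _ g.val_inv, Matrix.one_mul]
    simp [J1, fromBlocks_mul_fromRows, fromRows_mul]

theorem EL_idem (g : (Matrix n n A)ˣ) : EL g * EL g = EL g := (isCl_EL g).idem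

/-- the clutching class over free loops -/
def dL (g : (Matrix n n A)ˣ) : K0 (LA A) := K0.cls (EL g) - K0.cls (1 : Matrix n n (LA A))

theorem IsCl.cls {e : Matrix k k (LA A)} {g : (Matrix n n A)ˣ} (H : IsCl e (g : Matrix n n A)) :
    K0.cls e = dL g + Fintype.card n := by
  unfold dL
  rw [H.cls_eq (isCl_EL g), K0.cls_one]
  ring

theorem dL_eq_of {g : (Matrix n n A)ˣ} {h : (Matrix m m A)ˣ} {e : Matrix k k (LA A)}
    (H : IsCl e (g : Matrix n n A)) (H' : IsCl e (h : Matrix m m A))
    (hc : Fintype.card n = Fintype.card m) : dL g = dL h := by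
  have h1 := H.cls
  have h2 := H'.cls
  rw [h1, hc] at h2
  exact add_right_cancel h2

/-- block sum of units -/
def usum (g : (Matrix n n A)ˣ) (h : (Matrix m m A)ˣ) : (Matrix (n ⊕ m) (n ⊕ m) A)ˣ where
  val := fromBlocks g.val 0 0 h.val
  inv := fromBlocks g.inv 0 0 h.inv
  val_inv := by simp [fromBlocks_multiply, g.val_inv, h.val_inv]
  inv_val := by simp [fromBlocks_multiply, g.inv_val, h.inv_val]

theorem dL_sum (g : (Matrix n n A)ˣ) (h : (Matrix m m A)ˣ) : dL (usum g h) = dL g + dL h := by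
  have h1 : IsCl (fromBlocks (EL g) 0 0 (EL h)) ((usum g h : (Matrix (n ⊕ m) (n ⊕ m) A)ˣ) :
    Matrix (n ⊕ m) (n ⊕ m) A) := (isCl_EL g).sum (isCl_EL h)
  have h2 := h1.cls
  rw [K0.cls_sum (EL_idem g) (EL_idem h), (isCl_EL g).cls, (isCl_EL h).cls, Fintype.card_sum] at h2
  push_cast at h2
  have : dL (usum g h) = (dL g + Fintype.card n + (dL h + Fintype.card m)) -
    (Fintype.card n + Fintype.card m) := by rw [h2]; ring
  rw [this]
  ring

theorem dL_one : dL (1 : (Matrix n n A)ˣ) = 0 := by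
  have h := (isCl_one (n := n) (A := A)).cls (g := 1)
  rw [K0.cls_one] at h
  have : dL (1 : (Matrix n n A)ˣ) = (dL (1 : (Matrix n n A)ˣ) + Fintype.card n) -
    (Fintype.card n : K0 (LA A)) := by ring
  rw [this, ← h, sub_self]

/-- homotopy invariance -/
theorem dL_homotopy (g h : (Matrix n n A)ˣ) (c c' : I → Matrix n n A) (hc : Continuous c)
    (hc' : Continuous c') (cc' : ∀ t, c t * c' t = 1) (c'c : ∀ t, c' t * c t = 1)
    (e : c' 0 * g.val * c 1 = h.val) : dL g = dL h := by
  refine dL_eq_of (isCl_EL g) (e := EL g) ?_ rfl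
  have := (isCl_EL g).path c c' hc hc' cc' c'c
  rwa [e] at this

theorem dL_joined (g h : (Matrix n n A)ˣ) (c c' : I → Matrix n n A) (hc : Continuous c)
    (hc' : Continuous c') (cc' : ∀ t, c t * c' t = 1) (c'c : ∀ t, c' t * c t = 1)
    (e0 : c 0 = g.val) (e1 : c 1 = h.val) : dL g = dL h := by
  have e0' : c' 0 = g.inv := by
    calc c' 0 = c' 0 * (g.val * g.inv) := by rw [g.val_inv, Matrix.mul_one]
      _ = g.inv := by rw [← e0, ← Matrix.mul_assoc, c'c, Matrix.one_mul]
  refine dL_homotopy g h c c' hc hc' cc' c'c ?_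
  rw [e0', e1, g.inv_val, Matrix.one_mul]

/-- additivity in the form `dL (g h) = dL g + dL h` -/
theorem dL_mul (g h : (Matrix n n A)ˣ) : dL (g * h) = dL g + dL h := by
  -- `g ⊕ h` is joined to `g h ⊕ 1` via `W`: `(g h ⊕ 1) * W h⁻¹ h`
  have h1 : dL (usum g h) = dL (usum (g * h) (1 : (Matrix n n A)ˣ)) := by
    refine (dL_homotopy (usum (g * h) (1 : (Matrix n n A)ˣ)) (usum g h)
      (fun s => W h.inv h.val s) (fun s => W' h.inv h.val s) (continuous_W _ _)
      (continuous_W' _ _) (fun t => W_mul _ _ h.inv_val h.val_inv t)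
      (fun t => W'_mul _ _ h.inv_val h.val_inv t) ?_).symm
    rw [W'_zero _ _ h.inv_val, W_one, Matrix.one_mul]
    simp only [usum, fromBlocks_multiply, Units.val_mul, Units.val_one, Matrix.mul_zero,
      Matrix.zero_mul, add_zero, zero_add, Matrix.one_mul]
    have : g.val * h.val * h.inv = g.val := by rw [Matrix.mul_assoc, h.val_inv, Matrix.mul_one]
    rw [this]
  rw [dL_sum, dL_sum, dL_one, add_zero] at h1
  exact h1.symm

end mat

end

end Crest.Agent.R204.LineT357
end

-- ▼ part R204/LineT2_357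
section

/-!
# Row 204, block H: the class `b_T` (helper357), part 2
-/

set_option autoImplicit false
set_option linter.unusedSectionVars false
set_option linter.unusedSimpArgs false

open Matrix Topology
open scoped unitInterval Kronecker
open Crest.Agent.R204.K357 Crest.Agent.R204.BottLoop313 Crest.Agent.R204.Clutch369

namespace Crest.Agent.R204.LineT357

noncomputable section

section line

variable {A : Type*} [NormedCommRing A] [NormedAlgebra ℂ A]
variable {n m k l : Type*} [Fintype n] [DecidableEq n] [Fintype m] [DecidableEq m]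
  [Fintype k] [DecidableEq k] [Fintype l] [DecidableEq l]

/-- a unit as a `1 × 1` matrix -/
def mu (u : Aˣ) : (Matrix Unit Unit A)ˣ where
  val := u.val • 1
  inv := u.inv • 1
  val_inv := by simp [smul_smul, u.val_inv, u.inv_val]
  inv_val := by simp [smul_smul, u.val_inv, u.inv_val]

theorem mu_val (u : Aˣ) : (mu u : Matrix Unit Unit A) = (u : A) • 1 := rfl

theorem mu_mul (u v : Aˣ) : mu (u * v) = mu u * mu v := by
  ext i j
  simp [mu_val, Units.val_mul, smul_smul]
  ring

/-- an idempotent clutched by a `1 × 1` unit is a line -/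
theorem IsCl.isLine {e : Matrix k k (LA A)} {g : Matrix Unit Unit A} (H : IsCl e g) :
    IsLine e := by
  obtain ⟨a, b, -, -, hab, -, -⟩ := H
  have key : ∀ s i j, (e i j).fn s = a s i () * b s () j := by
    intro s i j
    have := congrFun (congrFun (hab s) i) j
    rw [Matrix.mul_apply] at this
    simpa using this.symm
  intro i j k' l'
  refine LA.ext fun s => ?_
  change (e i j).fn s * (e k' l').fn s = (e i l').fn s * (e k' j).fn s
  rw [key, key, key, key]
  ring

/-- tensor product of lines -/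
theorem EL_mu_kron (u v : Aˣ) : IsCl (EL (mu u) ⊗ₖ EL (mu v)) ((mu (u * v) : (Matrix Unit Unit A)ˣ) :
    Matrix Unit Unit A) := by
  have h := (isCl_EL (mu u)).kron (isCl_EL (mu v))
  have h2 := h.conj (m := Unit) (Matrix.of fun _ _ => (1 : A)) (Matrix.of fun _ _ => (1 : A))
    (by ext ⟨i, i'⟩ ⟨j, j'⟩; simp [Matrix.mul_apply]) (by ext i j; simp [Matrix.mul_apply])
  convert h2 using 1
  ext i j
  simp [mu_val, Matrix.mul_apply, Units.val_mul]

theorem cls_EL_mu (u : Aˣ) : K0.cls (EL (mu u)) = dL (mu u) + 1 := by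
  rw [(isCl_EL (mu u)).cls]
  simp

/-- products of line classes vanish -/
theorem dL_mu_mul (u v : Aˣ) : dL (mu u) * dL (mu v) = 0 := by
  have h1 : K0.cls (EL (mu u)) * K0.cls (EL (mu v)) = dL (mu (u * v)) + 1 := by
    rw [← K0.cls_kron (EL_idem _) (EL_idem _), (EL_mu_kron u v).cls]
    simp
  rw [mu_mul, dL_mul, cls_EL_mu, cls_EL_mu] at h1
  have h2 : dL (mu u) * dL (mu v) = (dL (mu u) + 1) * (dL (mu v) + 1) -
    (dL (mu u) + dL (mu v) + 1) := by ring
  rw [h2, h1, sub_self]

theorem psi_dL_mu {p : ℕ} [Fact p.Prime] (u : Aˣ) : psi p (LA A) (dL (mu u)) = p * dL (mu u) := by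
  have h := psi_line_sub_one (p := p) (A := LA A) (EL_idem (mu u)) (isCl_EL (mu u)).isLine
    (by rw [cls_EL_mu]; simpa using dL_mu_mul u u)
  rw [cls_EL_mu] at h
  simpa using h

/-- naturality of clutching -/
theorem IsCl.map {B : Type*} [NormedCommRing B] [NormedAlgebra ℂ B] (φ : A →ₐ[ℂ] B)
    (hφ : Continuous φ) {e : Matrix k k (LA A)} {g : Matrix n n A} (H : IsCl e g) :
    IsCl (e.map (LA.map φ hφ)) (g.map φ) := by
  obtain ⟨a, b, ca, cb, hab, hba, h1⟩ := H
  refine ⟨fun s => (a s).map φ, fun s => (b s).map φ, ?_, ?_, fun s => ?_, fun s => ?_, ?_⟩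
  · exact continuous_matrix fun i j => hφ.comp (ca.matrix_elem i j)
  · exact continuous_matrix fun i j => hφ.comp (cb.matrix_elem i j)
  · have : ((e.map (LA.map φ hφ)).map (LA.ev s)) = (e.map (LA.ev s)).map φ := rfl
    rw [this, ← hab]
    ext i j
    rw [Matrix.map_apply, Matrix.mul_apply, Matrix.mul_apply, map_sum]
    exact Finset.sum_congr rfl fun _ _ => (map_mul φ _ _).symm
  · have h2 : (b s * a s).map φ = (b s).map φ * (a s).map φ := by
      ext i j
      rw [Matrix.map_apply, Matrix.mul_apply, Matrix.mul_apply, map_sum]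
      exact Finset.sum_congr rfl fun _ _ => map_mul _ _ _
    rw [← h2, hba]
    exact Matrix.map_one _ (map_zero _) (map_one _)
  · change (a 1).map φ = (a 0).map φ * g.map φ
    rw [h1]
    ext i j
    rw [Matrix.map_apply, Matrix.mul_apply, Matrix.mul_apply, map_sum]
    exact Finset.sum_congr rfl fun _ _ => map_mul _ _ _

/-- image of a unit matrix -/
def umap {B : Type*} [NormedCommRing B] [NormedAlgebra ℂ B] (φ : A →ₐ[ℂ] B)
    (g : (Matrix n n A)ˣ) : (Matrix n n B)ˣ where
  val := g.val.map φ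
  inv := g.inv.map φ
  val_inv := by
    have : (g.val * g.inv).map φ = g.val.map φ * g.inv.map φ :=
      Matrix.map_mul (f := (φ : A →+* B))
    rw [← this, g.val_inv]
    exact Matrix.map_one _ (map_zero _) (map_one _)
  inv_val := by
    have : (g.inv * g.val).map φ = g.inv.map φ * g.val.map φ :=
      Matrix.map_mul (f := (φ : A →+* B))
    rw [← this, g.inv_val]
    exact Matrix.map_one _ (map_zero _) (map_one _)

theorem map_dL {B : Type*} [NormedCommRing B] [NormedAlgebra ℂ B] (φ : A →ₐ[ℂ] B)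
    (hφ : Continuous φ) (g : (Matrix n n A)ˣ) :
    K0.map ((LA.map φ hφ : LA A →ₐ[ℂ] LA B) : LA A →+* LA B) (dL g) = dL (umap φ g) := by
  have h1 : IsCl ((EL g).map (LA.map φ hφ)) ((umap φ g : (Matrix n n B)ˣ) : Matrix n n B) :=
    (isCl_EL g).map φ hφ
  have h2 := h1.cls
  have h3 : K0.map ((LA.map φ hφ : LA A →ₐ[ℂ] LA B) : LA A →+* LA B) (K0.cls (EL g)) =
      K0.cls ((EL g).map (LA.map φ hφ)) := K0.map_cls _ (EL_idem g)
  rw [dL, map_sub, h3, h2, K0.cls_one, ← K0.mapRing_apply, map_natCast]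
  ring

/-! ### the clutching of `u q + (1 - q)` -/

theorem mulR {p : Type*} (Q : Matrix n n A) (α : k → A) (M : Matrix n p A) :
    (Matrix.of fun (i : n × k) (j : n) => Q i.1 j * α i.2) * M =
      Matrix.of fun i j => (Q * M) i.1 j * α i.2 := by
  ext i j
  rw [Matrix.mul_apply, Matrix.of_apply, Matrix.mul_apply, Finset.sum_mul]
  refine Finset.sum_congr rfl fun x _ => ?_
  simp only [Matrix.of_apply]
  ring

theorem mulC {p : Type*} (Q : Matrix n n A) (β : k → A) (M : Matrix p n A) :
    M * (Matrix.of fun (i : n) (j : n × k) => Q i j.1 * β j.2) =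
      Matrix.of fun i j => (M * Q) i j.1 * β j.2 := by
  ext i j
  rw [Matrix.mul_apply, Matrix.of_apply, Matrix.mul_apply, Finset.sum_mul]
  refine Finset.sum_congr rfl fun x _ => ?_
  simp only [Matrix.of_apply]
  ring

@[simp] theorem LA.fn_one (t : I) : (1 : LA A).fn t = 1 := rfl
@[simp] theorem LA.fn_zero (t : I) : (0 : LA A).fn t = 0 := rfl

theorem isCl_lam {q : Matrix n n A} (hq : q * q = q) (u : Aˣ) {f : Matrix k k (LA A)}
    (H : IsCl f (mu u : Matrix Unit Unit A)) :
    IsCl (fromBlocks (q.map (LA.cst (A := A)) ⊗ₖ f) 0 0 (1 - q.map (LA.cst (A := A))))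
      ((u : A) • q + (1 - q)) := by
  obtain ⟨a, b, ca, cb, hab, hba, h1⟩ := H
  have hqc : (1 - q) * q = 0 := by rw [Matrix.sub_mul, Matrix.one_mul, hq, sub_self]
  have hcq : q * (1 - q) = 0 := by rw [Matrix.mul_sub, Matrix.mul_one, hq, sub_self]
  have hcc : (1 - q) * (1 - q) = 1 - q := by rw [Matrix.mul_sub, hqc, Matrix.mul_one, sub_zero]
  -- auxiliary matrices
  let R : I → Matrix (n × k) n A := fun s => Matrix.of fun i j => q i.1 j * a s i.2 ()
  let C : I → Matrix n (n × k) A := fun s => Matrix.of fun i j => q i j.1 * b s () j.2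
  have hRm : ∀ s (M : Matrix n n A), R s * M =
      Matrix.of fun i j => (q * M) i.1 j * a s i.2 () := fun s M =>
    mulR q (fun x => a s x ()) M
  have hRm2 : ∀ s (M : Matrix n (n × k) A), R s * M =
      Matrix.of fun i j => (q * M) i.1 j * a s i.2 () := fun s M =>
    mulR q (fun x => a s x ()) M
  have hmC : ∀ s (M : Matrix n n A), M * C s =
      Matrix.of fun i j => (M * q) i j.1 * b s () j.2 := fun s M =>
    mulC q (fun y => b s () y) M
  have hba1 : ∀ s, ∑ x, b s () x * a s x () = 1 := by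
    intro s
    have := congrFun (congrFun (hba s) ()) ()
    rw [Matrix.mul_apply] at this
    simpa using this
  have hCR : ∀ s, C s * R s = q := by
    intro s
    ext i j
    rw [Matrix.mul_apply, Fintype.sum_prod_type]
    simp only [R, C, Matrix.of_apply]
    have : ∀ x, ∑ y, q i x * b s () y * (q x j * a s y ()) = q i x * q x j := by
      intro x
      have : ∀ y, q i x * b s () y * (q x j * a s y ()) = q i x * q x j * (b s () y * a s y ()) := by
        intro y; ring
      rw [Finset.sum_congr rfl fun y _ => this y, ← Finset.mul_sum, hba1, mul_one]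
    rw [Finset.sum_congr rfl fun x _ => this x, ← Matrix.mul_apply, hq]
  have hRC : ∀ s, R s * C s = (q.map (LA.cst (A := A)) ⊗ₖ f).map (LA.ev s) := by
    intro s
    ext ⟨i, x⟩ ⟨j, y⟩
    rw [hRm2, Matrix.of_apply, hmC, Matrix.of_apply, hq]
    have h2 := congrFun (congrFun (hab s) x) y
    rw [Matrix.mul_apply] at h2
    have h3 : a s x () * b s () y = (f x y).fn s := by simpa using h2
    change q i j * b s () y * a s x () = q i j * (f x y).fn s
    rw [← h3]
    ring
  refine ⟨fun s => fromRows (R s) (1 - q), fun s => fromCols (C s) (1 - q), ?_, ?_, fun s => ?_,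
    fun s => ?_, ?_⟩
  · refine continuous_matrix fun i j => ?_
    rcases i with i | i
    · simp only [fromRows_apply_inl, R, Matrix.of_apply]
      exact continuous_const.mul (ca.matrix_elem _ _)
    · simp only [fromRows_apply_inr]
      exact continuous_const
  · refine continuous_matrix fun i j => ?_
    rcases j with j | j
    · simp only [fromCols_apply_inl, C, Matrix.of_apply]
      exact continuous_const.mul (cb.matrix_elem _ _)
    · simp only [fromCols_apply_inr]
      exact continuous_const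
  · rw [fromRows_mul_fromCols, evL_fb, hRC]
    have e1 : R s * (1 - q) = 0 := by
      rw [hRm, hcq]
      ext i j
      simp
    have e2 : (1 - q) * C s = 0 := by
      rw [hmC, hqc]
      ext i j
      simp
    have e3 : (1 - q.map (LA.cst (A := A))).map (LA.ev s) = 1 - q := by
      ext i j
      rw [Matrix.map_apply, Matrix.sub_apply, Matrix.sub_apply, map_sub]
      congr 1
      by_cases h : i = j
      · subst h; simp
      · simp [Matrix.one_apply_ne h]
    rw [e1, e2, e3, hcc]
  · rw [fromCols_mul_fromRows, hCR, hcc]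
    abel
  · change fromRows (R 1) (1 - q) = fromRows (R 0) (1 - q) * ((u : A) • q + (1 - q))
    rw [fromRows_mul, hRm]
    congr 1
    · ext ⟨i, x⟩ j
      simp only [R, Matrix.of_apply]
      rw [Matrix.mul_add, Matrix.mul_smul, hq, hcq, add_zero, Matrix.smul_apply]
      have h2 := congrFun (congrFun h1 x) ()
      rw [Matrix.mul_apply] at h2
      have h3 : a 1 x () = a 0 x () * (u : A) := by simpa [mu_val] using h2
      rw [h3, smul_eq_mul]
      ring
    · rw [Matrix.mul_add, Matrix.mul_smul, hqc, smul_zero, zero_add, hcc]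

/-- the unit `u q + (1 - q)` -/
def lam {q : Matrix n n A} (hq : q * q = q) (u : Aˣ) : (Matrix n n A)ˣ where
  val := (u : A) • q + (1 - q)
  inv := (u.inv) • q + (1 - q)
  val_inv := by
    have hqc : (1 - q) * q = 0 := by rw [Matrix.sub_mul, Matrix.one_mul, hq, sub_self]
    have hcq : q * (1 - q) = 0 := by rw [Matrix.mul_sub, Matrix.mul_one, hq, sub_self]
    have hcc : (1 - q) * (1 - q) = 1 - q := by rw [Matrix.mul_sub, hqc, Matrix.mul_one, sub_zero]
    rw [Matrix.add_mul, Matrix.mul_add, Matrix.mul_add, Matrix.smul_mul, Matrix.smul_mul,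
      Matrix.mul_smul, Matrix.mul_smul, hq, hqc, hcq, hcc, smul_smul, u.val_inv]
    simp
  inv_val := by
    have hqc : (1 - q) * q = 0 := by rw [Matrix.sub_mul, Matrix.one_mul, hq, sub_self]
    have hcq : q * (1 - q) = 0 := by rw [Matrix.mul_sub, Matrix.mul_one, hq, sub_self]
    have hcc : (1 - q) * (1 - q) = 1 - q := by rw [Matrix.mul_sub, hqc, Matrix.mul_one, sub_zero]
    rw [Matrix.add_mul, Matrix.mul_add, Matrix.mul_add, Matrix.smul_mul, Matrix.smul_mul,
      Matrix.mul_smul, Matrix.mul_smul, hq, hqc, hcq, hcc, smul_smul, u.inv_val]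
    simp

theorem dL_lam {q : Matrix n n A} (hq : q * q = q) (u : Aˣ) :
    dL (lam hq u) = K0.map ((LA.cst : A →ₐ[ℂ] LA A) : A →+* LA A) (K0.cls q) * dL (mu u) := by
  have hq' : q.map (LA.cst (A := A)) * q.map (LA.cst (A := A)) = q.map (LA.cst (A := A)) :=
    idem_map ((LA.cst : A →ₐ[ℂ] LA A) : A →+* LA A) hq
  have h1 : IsCl (fromBlocks (q.map (LA.cst (A := A)) ⊗ₖ EL (mu u)) 0 0
      (1 - q.map (LA.cst (A := A)))) ((lam hq u : (Matrix n n A)ˣ) : Matrix n n A) :=
    isCl_lam hq u (isCl_EL (mu u))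
  have h2 := h1.cls
  rw [K0.cls_sum (idem_kron hq' (EL_idem _)) (K0.idem_compl hq'), K0.cls_kron hq' (EL_idem _),
    cls_EL_mu] at h2
  have h3 := K0.cls_compl hq'
  rw [K0.cls_one] at h3
  have h4 : K0.map ((LA.cst : A →ₐ[ℂ] LA A) : A →+* LA A) (K0.cls q) =
      K0.cls (q.map (LA.cst (A := A))) := K0.map_cls _ hq
  rw [h4]
  have h5 : dL (lam hq u) = (dL (lam hq u) + Fintype.card n) - Fintype.card n := by ring
  rw [h5, ← h2, ← h3]
  ring

end line

end

end Crest.Agent.R204.LineT357
end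

-- ▼ part R204/LineT3_357

/-!
# Row 204, block H: the class `b_T` (helper357), part 3

`bT A`, `bT_sq`, `psi_bT`, `dL_lamU`, compatibility with the reduced clutching `d` of helper369,
and injectivity of `c ↦ c * bT` from the uniqueness half (I) of the loop theorem.
-/

set_option autoImplicit false
set_option linter.unusedSectionVars false
set_option linter.unusedSimpArgs false

open Matrix Topology
open scoped unitInterval Kronecker
open Crest.Agent.R204.K357 Crest.Agent.R204.BottLoop313 Crest.Agent.R204.Clutch369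

namespace Crest.Agent.R204.LineT357

noncomputable section

section bT

variable (A : Type*) [NormedCommRing A] [NormedAlgebra ℂ A]

/-- the loop `z` as a unit of `LA A` -/
def zU : (LA A)ˣ where
  val := (zL : LoopAlg A)
  inv := (ziL : LoopAlg A)
  val_inv := zL_mul_ziL
  inv_val := ziL_mul_zL

theorem zU_fn (t : I) : (zU A : LA A).fn t = algebraMap ℂ A (circPt t : ℂ) := rfl

theorem zU_inv_fn (t : I) : ((zU A).inv : LA A).fn t =
    algebraMap ℂ A (((circPt t)⁻¹ : Circle) : ℂ) := rfl

/-- the class `b_T` -/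
def bT : K0 (LA (LA A)) := dL (mu (zU A))


theorem psi_bT (p : ℕ) [Fact p.Prime] : psi p (LA (LA A)) (bT A) = p * bT A := psi_dL_mu _

variable {A}

/-- constant functions on the torus -/
def cc : A →ₐ[ℂ] LA (LA A) := (LA.cst : LA A →ₐ[ℂ] LA (LA A)).comp (LA.cst : A →ₐ[ℂ] LA A)

variable {n m k l : Type*} [Fintype n] [DecidableEq n] [Fintype m] [DecidableEq m]
  [Fintype k] [DecidableEq k] [Fintype l] [DecidableEq l]

theorem idem_cst {q : Matrix n n A} (hq : q * q = q) :
    q.map (LA.cst (A := A)) * q.map (LA.cst (A := A)) = q.map (LA.cst (A := A)) :=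
  idem_map ((LA.cst : A →ₐ[ℂ] LA A) : A →+* LA A) hq

/-- the loop of units `z q + (1 - q)` -/
def lamU {q : Matrix n n A} (hq : q * q = q) : (Matrix n n (LA A))ˣ := lam (idem_cst hq) (zU A)

theorem lamU_val {q : Matrix n n A} (hq : q * q = q) : (lamU hq).val =
    (zU A : LA A) • q.map (LA.cst (A := A)) + (1 - q.map (LA.cst (A := A))) := rfl

theorem lamU_inv {q : Matrix n n A} (hq : q * q = q) : (lamU hq).inv =
    ((zU A).inv : LA A) • q.map (LA.cst (A := A)) + (1 - q.map (LA.cst (A := A))) := rfl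

/-- **the Bott class of an idempotent is the external product with `b_T`** -/
theorem dL_lamU {q : Matrix n n A} (hq : q * q = q) :
    dL (lamU hq) = K0.map ((cc : A →ₐ[ℂ] LA (LA A)) : A →+* LA (LA A)) (K0.cls q) * bT A := by
  have h := dL_lam (idem_cst hq) (zU A)
  rw [lamU, h, bT]
  congr 1
  have h1 : K0.cls (q.map (LA.cst (A := A))) =
      K0.map ((LA.cst : A →ₐ[ℂ] LA A) : A →+* LA A) (K0.cls q) := (K0.map_cls _ hq).symm
  rw [h1, ← K0.map_comp]
  rfl

/-- naturality of `b_T` -/
theorem map_bT {B : Type*} [NormedCommRing B] [NormedAlgebra ℂ B] (φ : A →ₐ[ℂ] B)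
    (hφ : Continuous φ) :
    K0.map ((LA.map (LA.map φ hφ) (LA.continuous_map φ hφ) : LA (LA A) →ₐ[ℂ] LA (LA B)) :
      LA (LA A) →+* LA (LA B)) (bT A) = bT B := by
  rw [bT, map_dL, bT]
  congr 1
  ext i j : 2
  refine LA.ext fun t => ?_
  have h1 : (umap (LA.map φ hφ) (mu (zU A))).val i j = LA.map φ hφ (zU A : LA A) := by
    change LA.map φ hφ (((zU A : LA A) • (1 : Matrix Unit Unit (LA A))) i j) = _
    rw [Matrix.smul_apply]
    simp
  have h2 : (mu (zU B)).val i j = (zU B : LA B) := by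
    change (((zU B : LA B) • (1 : Matrix Unit Unit (LA B))) i j) = _
    rw [Matrix.smul_apply]
    simp
  rw [h1, h2, LA.map_fn, zU_fn, zU_fn]
  exact AlgHomClass.commutes φ _

end bT

section compat

variable {A : Type*} [NormedCommRing A] [NormedAlgebra ℂ A] {ε : A →ₐ[ℂ] ℂ}
variable {n m k l : Type*} [Fintype n] [DecidableEq n] [Fintype m] [DecidableEq m]
  [Fintype k] [DecidableEq k] [Fintype l] [DecidableEq l]

instance instNCRSigA : NormedCommRing (SigA ε) where
  toNormedRing := inferInstance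
  mul_comm a b := SigA.ext fun t => mul_comm (a.fn t) (b.fn t)

variable (ε) in
/-- reduced loops are loops -/
def incl1 : SigA ε →ₐ[ℂ] LA A where
  toFun a := LA.mk a.fn (a.prop.1.trans a.prop.2.1.symm)
  map_one' := rfl
  map_mul' _ _ := rfl
  map_zero' := rfl
  map_add' _ _ := rfl
  commutes' _ := rfl

@[simp] theorem incl1_fn (a : SigA ε) (t : I) : (incl1 ε a).fn t = a.fn t := rfl

variable (ε) in
theorem continuous_incl1 : Continuous (incl1 ε) := by
  refine Continuous.subtype_mk ?_ _
  exact continuous_subtype_val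

/-- a reduced unit as a unit -/
def ruU (g : RU ε n) : (Matrix n n A)ˣ := ⟨g.u, g.v, g.uv, g.vu⟩

theorem map_one_cls' {R S : Type*} [Ring R] [Ring S] (f : R →+* S) :
    K0.map f (K0.cls (1 : Matrix n n R)) = K0.cls (1 : Matrix n n S) := by
  rw [K0.map_cls _ (by simp), Matrix.map_one _ (map_zero _) (map_one _)]

/-- compatibility of the two clutching constructions -/
theorem map_incl1_d (g : RU ε n) :
    K0.map ((incl1 ε : SigA ε →ₐ[ℂ] LA A) : SigA ε →+* LA A) (d g) = dL (ruU g) := by
  have h1 : (E g).map (incl1 ε) = EL (ruU g) := rfl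
  have h2 : K0.map ((incl1 ε : SigA ε →ₐ[ℂ] LA A) : SigA ε →+* LA A) (K0.cls (E g)) =
      K0.cls ((E g).map (incl1 ε)) := K0.map_cls _ (E_idem g)
  rw [d, map_sub, h2, h1, dL]
  congr 1
  exact map_one_cls' (n := n) ((incl1 ε : SigA ε →ₐ[ℂ] LA A) : SigA ε →+* LA A)

variable (ε) in
/-- reduced double loops are functions on the torus -/
def incl2 : SigA (Sig.aug ε) →ₐ[ℂ] LA (LA A) :=
  (LA.map (incl1 ε) (continuous_incl1 ε)).comp (incl1 (Sig.aug ε))

theorem map_incl2_d (g : RU (Sig.aug ε) n) :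
    K0.map ((incl2 ε : SigA (Sig.aug ε) →ₐ[ℂ] LA (LA A)) : SigA (Sig.aug ε) →+* LA (LA A)) (d g) =
      dL (umap (incl1 ε) (ruU g)) := by
  rw [← map_dL (incl1 ε) (continuous_incl1 ε), ← map_incl1_d, ← K0.map_comp]
  rfl

end compat

section inj

variable {A : Type*} [NormedCommRing A] [NormedAlgebra ℂ A]
variable {n m k l : Type*} [Fintype n] [DecidableEq n] [Fintype m] [DecidableEq m]
  [Fintype k] [DecidableEq k] [Fintype l] [DecidableEq l]

/-- **injectivity of clutching over free loops** -/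
theorem joined_of_dL (g h : (Matrix n n A)ˣ) (H : dL g = dL h) :
    ∃ M : ℕ, ∃ c : I → Matrix ((n ⊕ Fin M) ⊕ (n ⊕ Fin M)) ((n ⊕ Fin M) ⊕ (n ⊕ Fin M)) A,
      Continuous c ∧ (∀ t, IsUnit (c t)) ∧
      c 0 = fromBlocks (fromBlocks g.val 0 0 1) 0 0 1 ∧
      c 1 = fromBlocks (fromBlocks h.val 0 0 1) 0 0 1 := by
  have hc : K0.cls (EL g) = K0.cls (EL h) := by
    rw [(isCl_EL g).cls, (isCl_EL h).cls, H]
  obtain ⟨M, x, y, hxy, hyx⟩ := (K0.cls_eq_iff (EL_idem g) (EL_idem h)).1 hc
  refine ⟨M, ?_⟩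
  obtain ⟨a, b, ca, cb, hab, hba, h1⟩ := (isCl_EL g).sum (isCl_one (n := Fin M) (A := A))
  obtain ⟨a', b', ca', cb', hab', hba', h1'⟩ := (isCl_EL h).sum (isCl_one (n := Fin M) (A := A))
  have hb' := IsCl.b_one hab' hba' h1'
  set X : I → _ := fun s => x.map (LA.ev s) with hX
  set Y : I → _ := fun s => y.map (LA.ev s) with hY
  have hXY : ∀ s, X s * Y s = a s * b s := fun s => by
    rw [hab, ← hxy, evL_mul]
  have hYX : ∀ s, Y s * X s = a' s * b' s := fun s => by
    rw [hab', ← hyx, evL_mul]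
  let c : I → Matrix (n ⊕ Fin M) (n ⊕ Fin M) A := fun s => b' s * Y s * a s
  let c' : I → Matrix (n ⊕ Fin M) (n ⊕ Fin M) A := fun s => b s * X s * a' s
  have cc : Continuous c := (cb'.matrix_mul (matL_continuous y)).matrix_mul ca
  have cc' : Continuous c' := (cb.matrix_mul (matL_continuous x)).matrix_mul ca'
  have hcc' : ∀ s, c s * c' s = 1 := fun s => by
    calc b' s * Y s * a s * (b s * X s * a' s) = b' s * Y s * (a s * b s) * X s * a' s := by
          simp only [Matrix.mul_assoc]
      _ = b' s * (Y s * X s) * (Y s * X s) * a' s := by rw [← hXY]; simp only [Matrix.mul_assoc]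
      _ = (b' s * a' s) * (b' s * a' s) * (b' s * a' s) := by
          rw [hYX]; simp only [Matrix.mul_assoc]
      _ = 1 := by rw [hba']; simp
  have hc'c : ∀ s, c' s * c s = 1 := fun s => by
    calc b s * X s * a' s * (b' s * Y s * a s) = b s * X s * (a' s * b' s) * Y s * a s := by
          simp only [Matrix.mul_assoc]
      _ = b s * (X s * Y s) * (X s * Y s) * a s := by rw [← hYX]; simp only [Matrix.mul_assoc]
      _ = (b s * a s) * (b s * a s) * (b s * a s) := by
          rw [hXY]; simp only [Matrix.mul_assoc]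
      _ = 1 := by rw [hba]; simp
  set G : Matrix (n ⊕ Fin M) (n ⊕ Fin M) A := fromBlocks g.val 0 0 1 with hG
  set G' : Matrix (n ⊕ Fin M) (n ⊕ Fin M) A := fromBlocks g.inv 0 0 1 with hG'
  set K : Matrix (n ⊕ Fin M) (n ⊕ Fin M) A := fromBlocks h.val 0 0 1 with hK
  set K' : Matrix (n ⊕ Fin M) (n ⊕ Fin M) A := fromBlocks h.inv 0 0 1 with hK'
  have hKK' : K * K' = 1 := by simp [hK, hK', fromBlocks_multiply, h.val_inv]
  have hK'K : K' * K = 1 := by simp [hK, hK', fromBlocks_multiply, h.inv_val]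
  -- the end point relation
  have hend : K * c 1 = c 0 * G := by
    have hY01 : Y 1 = Y 0 := (matL_01 y).symm
    have hb2 : K * b' 1 = b' 0 := hb'
    have h2 : a 1 = a 0 * G := h1
    calc K * (b' 1 * Y 1 * a 1)
        = (K * b' 1) * Y 1 * a 1 := by simp only [Matrix.mul_assoc]
      _ = b' 0 * Y 0 * (a 0 * G) := by rw [hb2, hY01, h2]
      _ = _ := by simp only [c, Matrix.mul_assoc]
  -- first path: `c' 0 * K * c (σ t)`, from `G` to `c' 0 * K * c 0`
  let P1 : I → Matrix (n ⊕ Fin M) (n ⊕ Fin M) A := fun t => c' 0 * K * c (σ t)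
  have cP1 : Continuous P1 :=
    continuous_const.matrix_mul (cc.comp unitInterval.continuous_symm)
  have P1u : ∀ t, IsUnit (P1 t) := fun t =>
    IsUnit.of_mul_eq_one (c' (σ t) * K' * c 0) (by
      calc c' 0 * K * c (σ t) * (c' (σ t) * K' * c 0) =
          c' 0 * (K * (c (σ t) * c' (σ t)) * K') * c 0 := by simp only [Matrix.mul_assoc]
        _ = 1 := by rw [hcc', Matrix.mul_one, hKK', Matrix.mul_one, hc'c])
  have P10 : P1 0 = G := by
    change c' 0 * K * c (σ 0) = G
    rw [unitInterval.symm_zero, Matrix.mul_assoc, hend, ← Matrix.mul_assoc, hc'c, Matrix.one_mul]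
  have P11 : P1 1 = c' 0 * K * c 0 := by
    change c' 0 * K * c (σ 1) = _
    rw [unitInterval.symm_one]
  -- second path
  let P2 : I → Matrix ((n ⊕ Fin M) ⊕ (n ⊕ Fin M)) ((n ⊕ Fin M) ⊕ (n ⊕ Fin M)) A := fun s =>
    W (c 0) (c' 0) s * fromBlocks (c' 0 * K * c 0) 0 0 1 * W' (c 0) (c' 0) s
  have cP2 : Continuous P2 :=
    ((continuous_W _ _).matrix_mul continuous_const).matrix_mul (continuous_W' _ _)
  have P2u : ∀ t, IsUnit (P2 t) := fun t =>
    IsUnit.of_mul_eq_one (W (c 0) (c' 0) t * fromBlocks (c' 0 * K' * c 0) 0 0 1 *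
        W' (c 0) (c' 0) t) (by
      calc W (c 0) (c' 0) t * fromBlocks (c' 0 * K * c 0) 0 0 1 * W' (c 0) (c' 0) t *
            (W (c 0) (c' 0) t * fromBlocks (c' 0 * K' * c 0) 0 0 1 * W' (c 0) (c' 0) t)
          = W (c 0) (c' 0) t * (fromBlocks (c' 0 * K * c 0) 0 0 1 * (W' (c 0) (c' 0) t *
            W (c 0) (c' 0) t) * fromBlocks (c' 0 * K' * c 0) 0 0 1) * W' (c 0) (c' 0) t := by
            simp only [Matrix.mul_assoc]
        _ = W (c 0) (c' 0) t * W' (c 0) (c' 0) t := by
            rw [W'_mul _ _ (hcc' 0) (hc'c 0), Matrix.mul_one, fromBlocks_multiply]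
            have e1 : c' 0 * K * c 0 * (c' 0 * K' * c 0) = 1 := by
              calc c' 0 * K * c 0 * (c' 0 * K' * c 0) = c' 0 * (K * (c 0 * c' 0) * K') * c 0 := by
                    simp only [Matrix.mul_assoc]
                _ = 1 := by rw [hcc', Matrix.mul_one, hKK', Matrix.mul_one, hc'c]
            rw [e1]
            simp
        _ = 1 := W_mul _ _ (hcc' 0) (hc'c 0) t)
  have P20 : P2 0 = fromBlocks (c' 0 * K * c 0) 0 0 1 := by
    change W (c 0) (c' 0) 0 * _ * W' (c 0) (c' 0) 0 = _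
    rw [W_zero _ _ (hcc' 0), W'_zero _ _ (hcc' 0), Matrix.one_mul, Matrix.mul_one]
  have P21 : P2 1 = fromBlocks K 0 0 1 := by
    change W (c 0) (c' 0) 1 * _ * W' (c 0) (c' 0) 1 = _
    rw [W_one, W'_one, fromBlocks_multiply, fromBlocks_multiply]
    have e1 : c 0 * (c' 0 * K * c 0) * c' 0 = K := by
      calc c 0 * (c' 0 * K * c 0) * c' 0 = (c 0 * c' 0) * K * (c 0 * c' 0) := by
            simp only [Matrix.mul_assoc]
        _ = K := by rw [hcc']; simp
    simp [e1, hc'c]
  -- join
  have j1 : JoinedIn {M | IsUnit M} (fromBlocks G 0 0 1 :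
      Matrix ((n ⊕ Fin M) ⊕ (n ⊕ Fin M)) ((n ⊕ Fin M) ⊕ (n ⊕ Fin M)) A)
      (fromBlocks (c' 0 * K * c 0) 0 0 1) := by
    refine ⟨⟨⟨fun t => fromBlocks (P1 t) 0 0 1,
      cP1.matrix_fromBlocks continuous_const continuous_const continuous_const⟩, ?_, ?_⟩, ?_⟩
    · change fromBlocks (P1 0) 0 0 1 = _
      rw [P10]
    · change fromBlocks (P1 1) 0 0 1 = _
      rw [P11]
    · intro t
      change IsUnit (fromBlocks (P1 t) 0 0 1)
      obtain ⟨v, hv⟩ := P1u t
      refine IsUnit.of_mul_eq_one (fromBlocks v.inv 0 0 1) ?_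
      rw [← hv, fromBlocks_multiply]
      simp
  have j2 : JoinedIn {M | IsUnit M} (fromBlocks (c' 0 * K * c 0) 0 0 1 :
      Matrix ((n ⊕ Fin M) ⊕ (n ⊕ Fin M)) ((n ⊕ Fin M) ⊕ (n ⊕ Fin M)) A)
      (fromBlocks K 0 0 1) :=
    ⟨⟨⟨P2, cP2⟩, P20, P21⟩, P2u⟩
  obtain ⟨γ, hγ⟩ := j1.trans j2
  exact ⟨γ, γ.continuous, hγ, γ.source, γ.target⟩





end inj

end

end Crest.Agent.R204.LineT357
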