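import Crest.Agent.R204.LineT3_357
import Crest.Agent.R204.BottFin_369

/-!
# Row 204, block H: Adams operations and Bott periodicity (helper357), part 4

* `map_incl2_Bott` (T3): the image of `Bott ε c` in `K0 (LA (LA A))` is `(c - ε_* c) * b_T`.
* `bT_injective`: `c * b_T = 0 → c = 0` (unconditional, `A` complete).
* `psi_Bott`: `psi p (Bott ε c) = p * Bott ε (psi p c)` for reduced `c`; `psi_Bott_eigen`.
* `map_incl2_inj`: `incl2` is injective on reduced `K`-theory.
-/

set_option autoImplicit false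
set_option linter.unusedSectionVars false
set_option linter.unusedSimpArgs false

open Matrix Topology
open scoped unitInterval Kronecker
open Crest.Agent.R204.K357 Crest.Agent.R204.BottLoop313 Crest.Agent.R204.Clutch369
open Crest.Agent.R204.BottK369

namespace Crest.Agent.R204.LineT357

noncomputable section

section inj

variable (A : Type*) [NormedCommRing A] [NormedAlgebra ℂ A] [CompleteSpace A]


variable {A}


end inj

section T3

variable {A : Type} [NormedCommRing A] [NormedAlgebra ℂ A] [CompleteSpace A]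
variable {ε : A →ₐ[ℂ] ℂ}
variable {n m k l : Type} [Fintype n] [DecidableEq n] [Fintype m] [DecidableEq m]
  [Fintype k] [DecidableEq k] [Fintype l] [DecidableEq l]

theorem dL_inv (g : (Matrix n n A)ˣ) : dL g⁻¹ = -dL g := by
  have h := dL_mul g g⁻¹
  rw [mul_inv_cancel, dL_one] at h
  exact (neg_eq_of_add_eq_zero_right h.symm).symm

theorem lamU_ev {q : Matrix n n A} (hq : q * q = q) (t : I) :
    (lamU hq).val.map (LA.ev t) = Lz (zz t) q := by
  rw [lamU_val, Lz]
  ext i j
  rw [Matrix.map_apply, Matrix.add_apply, Matrix.add_apply, map_add]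
  congr 1
  · rw [Matrix.smul_apply, Matrix.smul_apply, smul_eq_mul, map_mul]
    change algebraMap ℂ A (circPt t : ℂ) * q i j = (circPt t : ℂ) • q i j
    rw [Algebra.smul_def]
  · rw [Matrix.sub_apply, Matrix.sub_apply, map_sub]
    congr 1
    by_cases h : i = j
    · subst h; simp
    · simp [Matrix.one_apply_ne h]

theorem lamU_inv_ev {q : Matrix n n A} (hq : q * q = q) (t : I) :
    (lamU hq).inv.map (LA.ev t) = Lz (zi t) q := by
  rw [lamU_inv, Lz]
  ext i j
  rw [Matrix.map_apply, Matrix.add_apply, Matrix.add_apply, map_add]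
  congr 1
  · rw [Matrix.smul_apply, Matrix.smul_apply, smul_eq_mul, map_mul]
    change algebraMap ℂ A (((circPt t)⁻¹ : Circle) : ℂ) * q i j =
      (((circPt t)⁻¹ : Circle) : ℂ) • q i j
    rw [Algebra.smul_def]
  · rw [Matrix.sub_apply, Matrix.sub_apply, map_sub]
    congr 1
    by_cases h : i = j
    · subst h; simp
    · simp [Matrix.one_apply_ne h]

theorem umap_be {p : Matrix n n A} (hp : p * p = p) :
    umap (incl1 ε) (ruU (be (ε := ε) p hp)) = lamU hp * (lamU (sc_idem (ε := ε) hp))⁻¹ := by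
  refine Units.ext (matL_ext fun t => ?_)
  rw [Units.val_mul, evL_mul, lamU_ev]
  have h1 : ((lamU (sc_idem (ε := ε) hp))⁻¹ : (Matrix n n (LA A))ˣ).val.map (LA.ev t) =
      Lz (zi t) (sc ε p) := lamU_inv_ev (sc_idem (ε := ε) hp) t
  rw [h1]
  exact be_ev p hp t

/-- **T3**, on classes -/
theorem map_incl2_Bott_cls {p : Matrix n n A} (hp : p * p = p) :
    K0.map ((incl2 ε : SigA (Sig.aug ε) →ₐ[ℂ] LA (LA A)) : SigA (Sig.aug ε) →+* LA (LA A))
      (Bott ε (K0.cls p)) =
    (K0.map ((cc : A →ₐ[ℂ] LA (LA A)) : A →+* LA (LA A)) (K0.cls p) -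
      K0.map ((cc : A →ₐ[ℂ] LA (LA A)) : A →+* LA (LA A))
        (K0.map (algebraMap ℂ A) (K0.map (ε : A →+* ℂ) (K0.cls p)))) * bT A := by
  rw [Bott_cls hp, map_incl2_d, umap_be, dL_mul, dL_inv, dL_lamU, dL_lamU, cls_sc hp]
  ring

/-- **T3** -/
theorem map_incl2_Bott (x : K0 A) :
    K0.map ((incl2 ε : SigA (Sig.aug ε) →ₐ[ℂ] LA (LA A)) : SigA (Sig.aug ε) →+* LA (LA A))
      (Bott ε x) =
    (K0.map ((cc : A →ₐ[ℂ] LA (LA A)) : A →+* LA (LA A)) x -
      K0.map ((cc : A →ₐ[ℂ] LA (LA A)) : A →+* LA (LA A))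
        (K0.map (algebraMap ℂ A) (K0.map (ε : A →+* ℂ) x))) * bT A := by
  induction x using K0.ind with
  | _ n m e f he hf =>
    rw [map_sub, map_sub, map_incl2_Bott_cls he, map_incl2_Bott_cls hf, map_sub, map_sub, map_sub,
      map_sub]
    ring

theorem map_incl2_Bott_red (x : K0 A) (hx : K0.map (ε : A →+* ℂ) x = 0) :
    K0.map ((incl2 ε : SigA (Sig.aug ε) →ₐ[ℂ] LA (LA A)) : SigA (Sig.aug ε) →+* LA (LA A))
      (Bott ε x) = K0.map ((cc : A →ₐ[ℂ] LA (LA A)) : A →+* LA (LA A)) x * bT A := by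
  rw [map_incl2_Bott, hx, map_zero, map_zero, sub_zero]





end T3

end

end Crest.Agent.R204.LineT357
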