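import Mathlib
import Crest.Agent.R204.SigSP_837
import Crest.Agent.R204.LineT3_357
import Crest.Agent.R204.LineT4_357
import Crest.Agent.R204.Per_369
import Crest.Agent.R204.SigSP1_837

-- ▼ part R204/TorLA_837
section

/-!
# Row 204, block H (helper837): double loops (`LA (LA A)`, helper357) and tori

* `tauLA : LA (LA ℂ) → TA (Fin 2)`, `PsiLA m : LA (LA (SPt (Fin m))) → TA (Fin (m+2))`;
* `PsiLA ∘ incl2 = SPtor ∘ Phi`, `PsiLA ∘ cc = pull lo ∘ SPtor`, `PsiLA ∘ scalars = pull hi ∘ tauLA`.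
-/

set_option autoImplicit false
set_option linter.unusedSectionVars false

open scoped unitInterval Topology

noncomputable section

namespace Crest.Agent.R204.Bt837

open Clutch369 LineT357
open K357 (K0)

section values

variable {A : Type*} [NormedCommRing A] [NormedAlgebra ℂ A]

/-- values of a double loop -/
def LAv (F : LA (LA A)) (s t : I) : A := (F.fn s).fn t

theorem LAv_continuous (F : LA (LA A)) : Continuous fun p : I × I => LAv F p.1 p.2 := by
  have h1 : Continuous fun p : I × I => (F.fn p.1).fn :=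
    LA.continuous_fn.comp (F.fn.continuous.comp continuous_fst)
  exact h1.eval continuous_snd

theorem LAv_per1 (F : LA (LA A)) (t : I) : LAv F 0 t = LAv F 1 t :=
  congrArg (fun g : LA A => g.fn t) F.fn01

theorem LAv_per2 (F : LA (LA A)) (s : I) : LAv F s 0 = LAv F s 1 := (F.fn s).fn01

end values

/-- the torus function of a double loop -/
def tauLF (f : LA (LA ℂ)) : C(Fin 2 → I, ℂ) :=
  ⟨fun x => LAv f (x 1) (x 0), by
    have h : Continuous fun x : Fin 2 → I => ((x 1, x 0) : I × I) :=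
      (continuous_apply 1).prodMk (continuous_apply 0)
    exact (LAv_continuous f).comp h⟩

theorem tauLF_mem (f : LA (LA ℂ)) : tauLF f ∈ TA (Fin 2) := by
  intro x i
  change LAv f _ _ = LAv f _ _
  fin_cases i
  · simp only [Fin.zero_eta, Fin.isValue, ne_eq, one_ne_zero, not_false_eq_true,
      Function.update_of_ne, Function.update_self]
    exact LAv_per2 f _
  · simp only [Fin.mk_one, Fin.isValue, ne_eq, zero_ne_one, not_false_eq_true,
      Function.update_of_ne, Function.update_self]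
    exact LAv_per1 f _

/-- the torus algebra in two variables -/
def tauLA : LA (LA ℂ) →ₐ[ℂ] TA (Fin 2) where
  toFun f := ⟨tauLF f, tauLF_mem f⟩
  map_one' := rfl
  map_mul' _ _ := rfl
  map_zero' := rfl
  map_add' _ _ := rfl
  commutes' _ := rfl

theorem tauLA_apply (f : LA (LA ℂ)) (x : Fin 2 → I) :
    ((tauLA f : TA (Fin 2)) : C(Fin 2 → I, ℂ)) x = LAv f (x 1) (x 0) := rfl

section Psi

variable (m : ℕ)

/-- loops of loops of functions on the sphere are functions on the torus -/
def PsiLF (F : LA (LA (SPt (Fin m)))) : C(Fin (m + 2) → I, ℂ) :=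
  ⟨fun x => SPv (LAv F (x (hi m 1)) (x (hi m 0))) (fun i => x (lo m i)), by
      have h : Continuous fun x : Fin (m + 2) → I => ((x (hi m 1), x (hi m 0)) : I × I) :=
        (continuous_apply _).prodMk (continuous_apply _)
      exact SPv_continuous ((LAv_continuous F).comp h) (continuous_pi fun i => continuous_apply _)⟩

theorem PsiLF_mem (F : LA (LA (SPt (Fin m)))) : PsiLF m F ∈ TA (Fin (m + 2)) := by
  intro x i
  change SPv (LAv F _ _) _ = SPv (LAv F _ _) _
  refine cases_lohi m (fun i => ?_) ?_ ?_ i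
  · have e1 : ∀ c : I, (fun j => Function.update x (lo m i) c (lo m j)) =
        Function.update (fun j => x (lo m j)) i c := by
      intro c
      ext1 j
      by_cases hj : j = i
      · subst hj; simp
      · rw [Function.update_of_ne hj, Function.update_of_ne (fun h => hj ((lo m).injective h))]
    have e2 : ∀ (c : I) (k : Fin 2), Function.update x (lo m i) c (hi m k) = x (hi m k) := by
      intro c k
      exact Function.update_of_ne (lo_ne_hi m i k).symm _ _
    rw [e1, e1, e2, e2, e2, e2]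
    exact SPv_per _ _ _
  · have e1 : ∀ c : I, (fun j => Function.update x (hi m 0) c (lo m j)) = fun j => x (lo m j) := by
      intro c
      ext1 j
      exact Function.update_of_ne (lo_ne_hi m j _) _ _
    have e2 : ∀ (c : I), Function.update x (hi m 0) c (hi m 1) = x (hi m 1) := by
      intro c
      refine Function.update_of_ne ?_ _ _
      intro h
      have := (hi m).injective h
      exact absurd this (by decide)
    rw [e1, e1, e2, e2, Function.update_self, Function.update_self, LAv_per2]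
  · have e1 : ∀ c : I, (fun j => Function.update x (hi m 1) c (lo m j)) = fun j => x (lo m j) := by
      intro c
      ext1 j
      exact Function.update_of_ne (lo_ne_hi m j _) _ _
    have e2 : ∀ (c : I), Function.update x (hi m 1) c (hi m 0) = x (hi m 0) := by
      intro c
      refine Function.update_of_ne ?_ _ _
      intro h
      have := (hi m).injective h
      exact absurd this (by decide)
    rw [e1, e1, e2, e2, Function.update_self, Function.update_self, LAv_per1]

/-- loops of loops of functions on the sphere are functions on the torus -/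
def PsiLA : LA (LA (SPt (Fin m))) →ₐ[ℂ] TA (Fin (m + 2)) where
  toFun F := ⟨PsiLF m F, PsiLF_mem m F⟩
  map_one' := rfl
  map_mul' _ _ := rfl
  map_zero' := rfl
  map_add' _ _ := rfl
  commutes' _ := rfl

theorem PsiLA_v (F : LA (LA (SPt (Fin m)))) (x : Fin (m + 2) → I) :
    ((PsiLA m F : TA (Fin (m + 2))) : C(Fin (m + 2) → I, ℂ)) x =
      SPv (LAv F (x (hi m 1)) (x (hi m 0))) (fun i => x (lo m i)) := rfl

theorem LAv_incl2 (F : SigA (Sig.aug (SPe (Fin m)))) (s t : I) :
    LAv (incl2 (SPe (Fin m)) F) s t = SSv _ F s t := rfl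

/-- the torus diagram -/
theorem PsiLA_incl2 (F : SigA (Sig.aug (SPe (Fin m)))) :
    PsiLA m (incl2 (SPe (Fin m)) F) = SPtor _ (Phi m F) := by
  refine TA_ext fun x => ?_
  rw [PsiLA_v, SPtor_apply, Phi_v, LAv_incl2]

theorem LAv_cc {A : Type*} [NormedCommRing A] [NormedAlgebra ℂ A] (a : A) (s t : I) :
    LAv (cc a) s t = a := rfl

theorem PsiLA_cc (p : SPt (Fin m)) : PsiLA m (cc p) = pull (lo m) (SPtor _ p) := by
  refine TA_ext fun x => ?_
  rw [PsiLA_v, pull_apply, SPtor_apply, LAv_cc]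

/-- scalar double loops -/
def scLA (A : Type*) [NormedCommRing A] [NormedAlgebra ℂ A] : LA (LA ℂ) →ₐ[ℂ] LA (LA A) :=
  LA.map (LA.map (Algebra.ofId ℂ A) (continuous_ofId A)) (LA.continuous_map _ _)

theorem LAv_scLA {A : Type*} [NormedCommRing A] [NormedAlgebra ℂ A] (f : LA (LA ℂ)) (s t : I) :
    LAv (scLA A f) s t = algebraMap ℂ A (LAv f s t) := rfl

theorem PsiLA_scLA (f : LA (LA ℂ)) :
    PsiLA m (scLA (SPt (Fin m)) f) = pull (hi m) (tauLA f) := by
  refine TA_ext fun x => ?_
  rw [PsiLA_v, pull_apply, tauLA_apply, LAv_scLA, SPv_alg]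

end Psi

end Crest.Agent.R204.Bt837
end
end

-- ▼ part R204/BInd_837

/-!
# Row 204, block H (helper837): the generators of `K̃(S^{2a})`

* `PB m ∈ K0 (TA (Fin m))`: product of the torus classes of the pairs of coordinates `(2i, 2i+1)`;
* `bb a ∈ K0 (SPt (Fin (2a)))`: `KZ` (reduced `K` is free on it), its torus image is `PB (2a)`,
  `psi p (bb a) = p^a • bb a`.
-/

set_option autoImplicit false
set_option linter.unusedSectionVars false

open scoped unitInterval Topology

noncomputable section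

namespace Crest.Agent.R204.Bt837

open Clutch369 LineT357 BottK369
open K357 (K0 psi psi_map)

/-! ## the torus algebra with frozen instances -/

/-- functions on the torus, frozen instances -/
def TAt (N : Type) [DecidableEq N] : Type := TA N

instance (N : Type) [DecidableEq N] : CommRing (TAt N) := inferInstanceAs (CommRing (TA N))
instance (N : Type) [DecidableEq N] : Algebra ℂ (TAt N) := inferInstanceAs (Algebra ℂ (TA N))

section

variable {M N L : Type} [DecidableEq M] [DecidableEq N] [DecidableEq L]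

/-- pull back -/
def tpull (e : M ↪ N) : TAt M →ₐ[ℂ] TAt N := (pull e : TA M →ₐ[ℂ] TA N)

/-- pull back in `K`-theory -/
def kpull (e : M ↪ N) : K0 (TAt M) →+* K0 (TAt N) := K0.mapRing (tpull e : TAt M →+* TAt N)

theorem kpull_apply (e : M ↪ N) (x : K0 (TAt M)) :
    kpull e x = K0.map (tpull e : TAt M →+* TAt N) x := rfl

theorem kpull_comp (e : M ↪ N) (f : N ↪ L) (x : K0 (TAt M)) :
    kpull f (kpull e x) = kpull (e.trans f) x := by
  rw [kpull_apply, kpull_apply, kpull_apply, ← K0.map_comp]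
  rfl

theorem kpull_id (x : K0 (TAt M)) (e : M ↪ M) (he : ∀ i, e i = i) : kpull e x = x := by
  have : e = Function.Embedding.refl M := Function.Embedding.ext he
  subst this
  rw [kpull_apply]
  exact K0.map_id x

theorem psi_kpull {p : ℕ} [Fact p.Prime] (e : M ↪ N) (x : K0 (TAt M)) :
    psi p (TAt N) (kpull e x) = kpull e (psi p (TAt M) x) := psi_map (p := p) (tpull e) x

end

/-- sphere functions as torus functions -/
def ttor (N : Type) [DecidableEq N] : SPt N →ₐ[ℂ] TAt N := (SPtor N : SPt N →ₐ[ℂ] TA N)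

/-- sphere classes as torus classes -/
def ktor (N : Type) [DecidableEq N] : K0 (SPt N) →+* K0 (TAt N) :=
  K0.mapRing (ttor N : SPt N →+* TAt N)

/-- the base point -/
def kev (N : Type) : K0 (SPt N) →+* K0 ℂ := K0.mapRing (SPe N : SPt N →+* ℂ)

theorem kev_apply (N : Type) (x : K0 (SPt N)) : kev N x = K0.map (SPe N : SPt N →+* ℂ) x := rfl

/-- **the sphere is detected in the torus** -/
theorem ktor_ext {N : Type} [DecidableEq N] [Fintype N] {x y : K0 (SPt N)}
    (h1 : kev N x = kev N y) (h2 : ktor N x = ktor N y) : x = y := torus_ext (N := N) h1 h2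

theorem psi_ktor {p : ℕ} [Fact p.Prime] {N : Type} [DecidableEq N] (x : K0 (SPt N)) :
    psi p (TAt N) (ktor N x) = ktor N (psi p (SPt N) x) := psi_map (p := p) (ttor N) x

/-! ## the product of torus classes -/

/-- `tauLA` with values in the frozen type -/
def tauT : LA (LA ℂ) →ₐ[ℂ] TAt (Fin 2) := (tauLA : LA (LA ℂ) →ₐ[ℂ] TA (Fin 2))

/-- the torus class -/
def bTor : K0 (TAt (Fin 2)) := K0.map (tauT : LA (LA ℂ) →+* TAt (Fin 2)) (bT ℂ)

theorem psi_bTor (p : ℕ) [Fact p.Prime] : psi p (TAt (Fin 2)) bTor = p * bTor := by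
  rw [bTor, psi_map (p := p) tauT (bT ℂ), psi_bT]
  have h2 : (p : K0 (LA (LA ℂ))) * bT ℂ = p • bT ℂ := by rw [nsmul_eq_mul]
  rw [h2, map_nsmul]
  exact nsmul_eq_mul p (K0.map (tauT : LA (LA ℂ) →+* TAt (Fin 2)) (bT ℂ))

/-- the pair `(2i, 2i+1)` -/
def pr2 (m i : ℕ) (h : 2 * i + 1 < m) : Fin 2 ↪ Fin m :=
  ⟨fun k => ⟨2 * i + k, by omega⟩, fun k l hkl => by
    have := congrArg Fin.val hkl
    simp only at this
    exact Fin.ext (by omega)⟩

theorem pr2_val (m i : ℕ) (h : 2 * i + 1 < m) (k : Fin 2) : ((pr2 m i h k : Fin m) : ℕ) = 2 * i + k :=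
  rfl

/-- the factors -/
def Bm (m i : ℕ) : K0 (TAt (Fin m)) := if h : 2 * i + 1 < m then kpull (pr2 m i h) bTor else 1

/-- the product of the torus classes -/
def PB (m : ℕ) : K0 (TAt (Fin m)) := ∏ i ∈ Finset.range (m / 2), Bm m i

/-- first block of coordinates -/
def cA (m n : ℕ) : Fin m ↪ Fin (m + n) := ⟨Fin.castAdd n, Fin.castAdd_injective m n⟩
/-- second block of coordinates -/
def nA (m n : ℕ) : Fin n ↪ Fin (m + n) := ⟨Fin.natAdd m, Fin.natAdd_injective n m⟩

theorem kpull_cA_Bm (m n i : ℕ) (hi : i < m / 2) : kpull (cA m n) (Bm m i) = Bm (m + n) i := by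
  have h1 : 2 * i + 1 < m := by omega
  have h2 : 2 * i + 1 < m + n := by omega
  rw [Bm, Bm, dif_pos h1, dif_pos h2, kpull_comp]
  rfl

theorem kpull_nA_Bm (m n i : ℕ) (hm : Even m) (hi : i < n / 2) :
    kpull (nA m n) (Bm n i) = Bm (m + n) (m / 2 + i) := by
  obtain ⟨a, ha⟩ := hm
  have h1 : 2 * i + 1 < n := by omega
  have h2 : 2 * (m / 2 + i) + 1 < m + n := by omega
  rw [Bm, Bm, dif_pos h1, dif_pos h2, kpull_comp]
  congr 1
  congr 1
  refine Function.Embedding.ext fun k => Fin.ext ?_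
  change m + (2 * i + (k : ℕ)) = 2 * (m / 2 + i) + k
  omega

theorem PB_add (m n : ℕ) (hm : Even m) (hn : Even n) :
    PB (m + n) = kpull (cA m n) (PB m) * kpull (nA m n) (PB n) := by
  obtain ⟨a, ha⟩ := hm
  obtain ⟨c, hc⟩ := hn
  have h : (m + n) / 2 = m / 2 + n / 2 := by omega
  rw [PB, h, Finset.prod_range_add, PB, PB, map_prod, map_prod]
  congr 1
  · refine Finset.prod_congr rfl fun i hi => (kpull_cA_Bm m n i (Finset.mem_range.1 hi)).symm
  · refine Finset.prod_congr rfl fun i hi => (kpull_nA_Bm m n i ⟨a, ha⟩ (Finset.mem_range.1 hi)).symm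

theorem PB_zero : PB 0 = 1 := by
  rw [PB]
  simp

theorem PB_two : PB 2 = bTor := by
  rw [PB]
  simp only [Nat.reduceDiv, Finset.range_one, Finset.prod_singleton]
  rw [Bm, dif_pos (by norm_num)]
  refine kpull_id _ _ fun i => Fin.ext ?_
  rw [pr2_val]
  omega

theorem psi_PB (p : ℕ) [Fact p.Prime] (m : ℕ) :
    psi p (TAt (Fin m)) (PB m) = (p : K0 (TAt (Fin m))) ^ (m / 2) * PB m := by
  rw [PB, map_prod]
  have h : ∀ i ∈ Finset.range (m / 2), psi p (TAt (Fin m)) (Bm m i) =
      (p : K0 (TAt (Fin m))) * Bm m i := by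
    intro i hi
    have hi' := Finset.mem_range.1 hi
    have h1 : 2 * i + 1 < m := by omega
    rw [Bm, dif_pos h1, psi_kpull, psi_bTor, map_mul, map_natCast]
  rw [Finset.prod_congr rfl h, Finset.prod_mul_distrib, Finset.prod_const, Finset.card_range]

/-! ## the double suspension step -/

/-- the double suspension isomorphism -/
def PhiE (m : ℕ) : SigA (Sig.aug (SPe (Fin m))) ≃ₐ[ℂ] SPt (Fin (m + 2)) :=
  AlgEquiv.ofBijective (Phi m) ⟨Phi_injective m, Phi_surjective m⟩

/-- `PsiLA` with values in the frozen type -/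
def PsiT (m : ℕ) : LA (LA (SPt (Fin m))) →ₐ[ℂ] TAt (Fin (m + 2)) :=
  (PsiLA m : LA (LA (SPt (Fin m))) →ₐ[ℂ] TA (Fin (m + 2)))

/-- the double suspension of a reduced class -/
def dsus (m : ℕ) (x : K0 (SPt (Fin m))) : K0 (SPt (Fin (m + 2))) :=
  K0.map ((PhiE m : SigA (Sig.aug (SPe (Fin m))) ≃ₐ[ℂ] SPt (Fin (m + 2))) :
    SigA (Sig.aug (SPe (Fin m))) →+* SPt (Fin (m + 2))) (Bott (SPe (Fin m)) x)

theorem dsus_kz (m : ℕ) {x : K0 (SPt (Fin m))} (h : KZ (SPe (Fin m)) x) :
    KZ (SPe (Fin (m + 2))) (dsus m x) := KZ.of_equiv h.bott (PhiE m) (fun _ => rfl)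

theorem dsus_tor (m : ℕ) (x : K0 (SPt (Fin m))) (hx : kev (Fin m) x = 0) :
    ktor (Fin (m + 2)) (dsus m x) =
      kpull (lo m) (ktor (Fin m) x) * kpull (hi m) bTor := by
  have h1 : ktor (Fin (m + 2)) (dsus m x) =
      K0.map (PsiT m : LA (LA (SPt (Fin m))) →+* TAt (Fin (m + 2)))
      (K0.map ((incl2 (SPe (Fin m)) : SigA (Sig.aug (SPe (Fin m))) →ₐ[ℂ] LA (LA (SPt (Fin m)))) :
        SigA (Sig.aug (SPe (Fin m))) →+* LA (LA (SPt (Fin m)))) (Bott (SPe (Fin m)) x)) := by
    rw [ktor, K0.mapRing_apply, dsus, ← K0.map_comp, ← K0.map_comp]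
    exact congrArg (fun φ => K0.map φ (Bott (SPe (Fin m)) x))
      (RingHom.ext fun F => (PsiLA_incl2 m F).symm)
  rw [h1, map_incl2_Bott_red x hx, K0.map_mul']
  congr 1
  · rw [← K0.map_comp, kpull_apply, ktor, K0.mapRing_apply, ← K0.map_comp]
    exact congrArg (fun φ => K0.map φ x) (RingHom.ext fun F => PsiLA_cc m F)
  · rw [← map_bT (Algebra.ofId ℂ (SPt (Fin m))) (continuous_ofId _), ← K0.map_comp, kpull_apply,
      bTor, ← K0.map_comp]
    exact congrArg (fun φ => K0.map φ (bT ℂ)) (RingHom.ext fun F => PsiLA_scLA m F)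

/-! ## the generators -/

/-- the generator of reduced `K` of `S^0` -/
def b0 : K0 (SPt (Fin 0)) :=
  K0.map ((SP0.symm : (ℂ × ℂ) ≃ₐ[ℂ] SPt (Fin 0)) : (ℂ × ℂ) →+* SPt (Fin 0)) (K0.cls e0)

theorem b0_kz : KZ (SPe (Fin 0)) b0 := KZ.of_equiv kz_fst SP0.symm (fun _ => rfl)

theorem b0_tor : ktor (Fin 0) b0 = 1 := by
  rw [ktor, K0.mapRing_apply, b0, ← K0.map_comp, K0.map_cls _ e0_idem]
  have h : e0.map (((ttor (Fin 0) : SPt (Fin 0) →+* TAt (Fin 0))).comp
      ((SP0.symm : (ℂ × ℂ) ≃ₐ[ℂ] SPt (Fin 0)) : (ℂ × ℂ) →+* SPt (Fin 0))) = 1 := by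
    ext i j
    have hi : i = j := Subsingleton.elim _ _
    subst hi
    rw [Matrix.map_apply, Matrix.one_apply_eq]
    have h1 : e0 i i = (0, 1) := by
      change ((0 : Matrix Unit Unit ℂ) i i, (1 : Matrix Unit Unit ℂ) i i) = (0, 1)
      rw [Matrix.zero_apply, Matrix.one_apply_eq]
    rw [h1]
    rfl
  rw [h, K0.cls_one]
  simp

/-- **the generators** -/
def bb : (a : ℕ) → K0 (SPt (Fin (2 * a)))
  | 0 => b0
  | a + 1 => dsus (2 * a) (bb a)

theorem bb_kz : ∀ a, KZ (SPe (Fin (2 * a))) (bb a)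
  | 0 => b0_kz
  | a + 1 => dsus_kz (2 * a) (bb_kz a)

theorem bb_tor : ∀ a, ktor (Fin (2 * a)) (bb a) = PB (2 * a)
  | 0 => by
    rw [bb]
    exact b0_tor.trans PB_zero.symm
  | a + 1 => by
    change ktor (Fin (2 * a + 2)) (dsus (2 * a) (bb a)) = PB (2 * a + 2)
    rw [dsus_tor _ _ (bb_kz a).1, bb_tor a, PB_add (2 * a) 2 ⟨a, by ring⟩ ⟨1, rfl⟩, PB_two]
    rfl

theorem psi_bb (p : ℕ) [Fact p.Prime] (a : ℕ) :
    psi p (SPt (Fin (2 * a))) (bb a) = (p : ℤ) ^ a • bb a := by
  have h2 : 2 * a / 2 = a := by omega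
  apply ktor_ext
  · have h1 : kev (Fin (2 * a)) (bb a) = 0 := (bb_kz a).1
    rw [map_zsmul, h1, smul_zero]
    have h3 := psi_map (p := p) (SPe (Fin (2 * a))) (bb a)
    rw [kev_apply, ← h3, ← kev_apply, h1, map_zero]
  · rw [← psi_ktor, bb_tor, psi_PB, map_zsmul, bb_tor, h2, zsmul_eq_mul]
    push_cast
    rfl

end Crest.Agent.R204.Bt837
end
private theorem rz_87bef8bf4f : type_of% @_root_.Crest.Agent.R204.Bt837.bb.eq_def := @_root_.Crest.Agent.R204.Bt837.bb.eq_def -- L230
private theorem rz_d96ae4bf46 : type_of% @_root_.Crest.Agent.R204.Bt837.bb.eq_1 := @_root_.Crest.Agent.R204.Bt837.bb.eq_1 -- L230
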