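import Mathlib
import Crest.Agent.R204.Ex6_837
import Crest.Agent.R204.HDefs_472

/-!
# Row 204, block H (helper837): products and smash products of the pair algebras `CR X A`

* `PA A B`  : functions on `X/A × Y/B`;
* `pdCR`    : the formal product `PD ℂ (CR X A) (CR Y B) (PA A B)`;
* `smCR`    : `CR (X × Y) (smashSet A B)` is the smash product algebra;
* `SAsum`   : `CR (I^m × I^n) (smashSet bd bd) ≃ SA (m ⊕ n)`.
-/

set_option autoImplicit false
set_option linter.unusedSectionVars false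

open scoped unitInterval Topology

noncomputable section

namespace Crest.Agent.R204.Ex837

open H472
open K357 (K0)

variable {X Y : Type} [TopologicalSpace X] [TopologicalSpace Y] (A : Set X) (B : Set Y)

/-- functions on `X/A × Y/B` -/
def PA : Subalgebra ℂ C(X × Y, ℂ) where
  carrier := {F | (∀ y, ∀ x ∈ A, ∀ x' ∈ A, F (x, y) = F (x', y)) ∧
    ∀ x, ∀ y ∈ B, ∀ y' ∈ B, F (x, y) = F (x, y')}
  mul_mem' := by
    rintro F G ⟨hF1, hF2⟩ ⟨hG1, hG2⟩
    exact ⟨fun y x hx x' hx' => by simp [hF1 y x hx x' hx', hG1 y x hx x' hx'],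
      fun x y hy y' hy' => by simp [hF2 x y hy y' hy', hG2 x y hy y' hy']⟩
  add_mem' := by
    rintro F G ⟨hF1, hF2⟩ ⟨hG1, hG2⟩
    exact ⟨fun y x hx x' hx' => by simp [hF1 y x hx x' hx', hG1 y x hx x' hx'],
      fun x y hy y' hy' => by simp [hF2 x y hy y' hy', hG2 x y hy y' hy']⟩
  algebraMap_mem' := fun r => ⟨fun _ _ _ _ _ => rfl, fun _ _ _ _ _ => rfl⟩

variable {A B}

theorem mem_PA {F : C(X × Y, ℂ)} : F ∈ PA A B ↔
    (∀ y, ∀ x ∈ A, ∀ x' ∈ A, F (x, y) = F (x', y)) ∧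
    ∀ x, ∀ y ∈ B, ∀ y' ∈ B, F (x, y) = F (x, y') := Iff.rfl

theorem isClosed_PA [CompactSpace X] [CompactSpace Y] :
    IsClosed ((PA A B : Subalgebra ℂ C(X × Y, ℂ)) : Set C(X × Y, ℂ)) := by
  have : ((PA A B : Subalgebra ℂ C(X × Y, ℂ)) : Set C(X × Y, ℂ)) =
      (⋂ y : Y, ⋂ x ∈ A, ⋂ x' ∈ A, {F : C(X × Y, ℂ) | F (x, y) = F (x', y)}) ∩
      ⋂ x : X, ⋂ y ∈ B, ⋂ y' ∈ B, {F : C(X × Y, ℂ) | F (x, y) = F (x, y')} := by
    ext F
    simp [mem_PA]
  rw [this]
  refine IsClosed.inter ?_ ?_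
  · exact isClosed_iInter fun y => isClosed_biInter fun x _ => isClosed_biInter fun x' _ =>
      isClosed_eq (continuous_eval_const _) (continuous_eval_const _)
  · exact isClosed_iInter fun y => isClosed_biInter fun x _ => isClosed_biInter fun x' _ =>
      isClosed_eq (continuous_eval_const _) (continuous_eval_const _)

instance [CompactSpace X] [CompactSpace Y] : CompleteSpace (PA A B) := isClosed_PA.completeSpace_coe

/-- pullback along the first projection -/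
def PA.i1 : CR X A →ₐ[ℂ] PA A B :=
  ((ContinuousMap.compRightAlgHom ℂ ℂ (ContinuousMap.fst : C(X × Y, X))).comp
    (CR X A).val).codRestrict (PA A B)
    (fun f => ⟨fun _ x hx x' hx' => f.2 x hx x' hx', fun _ _ _ _ _ => rfl⟩)

/-- pullback along the second projection -/
def PA.i2 : CR Y B →ₐ[ℂ] PA A B :=
  ((ContinuousMap.compRightAlgHom ℂ ℂ (ContinuousMap.snd : C(X × Y, Y))).comp
    (CR Y B).val).codRestrict (PA A B)
    (fun f => ⟨fun _ _ _ _ _ => rfl, fun _ x hx x' hx' => f.2 x hx x' hx'⟩)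

/-- restriction to `X × {b}` -/
def PA.r1 (b : Y) : PA A B →ₐ[ℂ] CR X A :=
  ((ContinuousMap.compRightAlgHom ℂ ℂ
    ((ContinuousMap.id X).prodMk (ContinuousMap.const X b) : C(X, X × Y))).comp
    (PA A B).val).codRestrict (CR X A) (fun F x hx x' hx' => F.2.1 b x hx x' hx')

/-- restriction to `{a} × Y` -/
def PA.r2 (a : X) : PA A B →ₐ[ℂ] CR Y B :=
  ((ContinuousMap.compRightAlgHom ℂ ℂ
    ((ContinuousMap.const Y a).prodMk (ContinuousMap.id Y) : C(Y, X × Y))).comp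
    (PA A B).val).codRestrict (CR Y B) (fun F y hy y' hy' => F.2.2 a y hy y' hy')

@[simp] theorem PA.i1_apply (f : CR X A) (p : X × Y) :
    ((PA.i1 f : PA A B) : C(X × Y, ℂ)) p = (f : C(X, ℂ)) p.1 := rfl
@[simp] theorem PA.i2_apply (f : CR Y B) (p : X × Y) :
    ((PA.i2 f : PA A B) : C(X × Y, ℂ)) p = (f : C(Y, ℂ)) p.2 := rfl
@[simp] theorem PA.r1_apply (b : Y) (F : PA A B) (x : X) :
    ((PA.r1 b F : CR X A) : C(X, ℂ)) x = (F : C(X × Y, ℂ)) (x, b) := rfl
@[simp] theorem PA.r2_apply (a : X) (F : PA A B) (y : Y) :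
    ((PA.r2 a F : CR Y B) : C(Y, ℂ)) y = (F : C(X × Y, ℂ)) (a, y) := rfl

/-- the formal product of two pair algebras -/
def pdCR (a : X) (b : Y) : PD ℂ (CR X A) (CR Y B) (PA A B) where
  e := CR.ev a
  e' := CR.ev b
  i1 := PA.i1
  i2 := PA.i2
  r1 := PA.r1 b
  r2 := PA.r2 a
  r1_i1 _ := rfl
  r2_i2 _ := rfl
  r1_i2 _ := rfl
  r2_i1 _ := rfl
  e_r _ := rfl

/-- the set collapsed in the smash product of `X/A` and `Y/B` -/
def smashSet (A : Set X) (B : Set Y) : Set (X × Y) := {p | p.1 ∈ A ∨ p.2 ∈ B}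

/-- the smash algebra of two pair algebras -/
def smCR {a : X} (ha : a ∈ A) {b : Y} (hb : b ∈ B) :
    (pdCR (A := A) (B := B) a b).Sm (CR (X × Y) (smashSet A B)) where
  inc := (CR (X × Y) (smashSet A B)).val.codRestrict (PA A B)
    (fun F => ⟨fun _ _ hx _ hx' => F.2 _ (Or.inl hx) _ (Or.inl hx'),
      fun _ _ hy _ hy' => F.2 _ (Or.inr hy) _ (Or.inr hy')⟩)
  ev := CR.ev (a, b)
  r1_inc F := Subtype.ext (ContinuousMap.ext fun _ => F.2 _ (Or.inr hb) _ (Or.inl ha))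
  r2_inc F := Subtype.ext (ContinuousMap.ext fun _ => F.2 _ (Or.inl ha) _ (Or.inl ha))
  inj' _ _ h := Subtype.ext (congrArg (fun F : PA A B => (F : C(X × Y, ℂ))) h)
  lift' F c h1 h2 := by
    have e1 : ∀ x, (F : C(X × Y, ℂ)) (x, b) = c := fun x =>
      congrArg (fun f : CR X A => (f : C(X, ℂ)) x) h1
    have e2 : ∀ y, (F : C(X × Y, ℂ)) (a, y) = c := fun y =>
      congrArg (fun f : CR Y B => (f : C(Y, ℂ)) y) h2
    have e3 : ∀ p ∈ smashSet A B, (F : C(X × Y, ℂ)) p = c := by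
      rintro ⟨x, y⟩ (h | h)
      · rw [F.2.1 y x h a ha, e2]
      · rw [F.2.2 x y h b hb, e1]
    exact ⟨⟨F, fun p hp q hq => by rw [e3 p hp, e3 q hq]⟩, rfl⟩

@[simp] theorem smCR_inc {a : X} (ha : a ∈ A) {b : Y} (hb : b ∈ B)
    (F : CR (X × Y) (smashSet A B)) (p : X × Y) :
    (((smCR ha hb).inc F : PA A B) : C(X × Y, ℂ)) p = (F : C(X × Y, ℂ)) p := rfl

/-! ## spaces without collapse: `C(Y) × C(Z)` -/

/-- the formal product of two algebras of continuous functions -/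
def pdC (a : X) (b : Y) : PD ℂ C(X, ℂ) C(Y, ℂ) C(X × Y, ℂ) where
  e := ContinuousMap.evalAlgHom ℂ ℂ a
  e' := ContinuousMap.evalAlgHom ℂ ℂ b
  i1 := ContinuousMap.compRightAlgHom ℂ ℂ (ContinuousMap.fst : C(X × Y, X))
  i2 := ContinuousMap.compRightAlgHom ℂ ℂ (ContinuousMap.snd : C(X × Y, Y))
  r1 := ContinuousMap.compRightAlgHom ℂ ℂ
    ((ContinuousMap.id X).prodMk (ContinuousMap.const X b) : C(X, X × Y))
  r2 := ContinuousMap.compRightAlgHom ℂ ℂ
    ((ContinuousMap.const Y a).prodMk (ContinuousMap.id Y) : C(Y, X × Y))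
  r1_i1 _ := rfl
  r2_i2 _ := rfl
  r1_i2 _ := rfl
  r2_i1 _ := rfl
  e_r _ := rfl

/-- `Smash y z` is the smash algebra -/
def smC (a : X) (b : Y) : (pdC a b).Sm (Smash a b) where
  inc := (Smash a b).val
  ev := CR.ev (a, b)
  r1_inc F := ContinuousMap.ext fun _ => F.2 _ (Or.inr rfl) _ (Or.inl rfl)
  r2_inc F := ContinuousMap.ext fun _ => F.2 _ (Or.inl rfl) _ (Or.inl rfl)
  inj' _ _ h := Subtype.ext h
  lift' F c h1 h2 := by
    have e1 : ∀ x, F (x, b) = c := fun x => congrArg (fun f : C(X, ℂ) => f x) h1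
    have e2 : ∀ y, F (a, y) = c := fun y => congrArg (fun f : C(Y, ℂ) => f y) h2
    have e3 : ∀ p ∈ wedge a b, F p = c := by
      rintro ⟨x, y⟩ (h | h)
      · simp only at h
        subst h
        exact e2 y
      · simp only at h
        subst h
        exact e1 x
    exact ⟨⟨F, fun p hp q hq => by rw [e3 p hp, e3 q hq]⟩, rfl⟩

/-! ## spheres -/

section Sphere

variable (M N : Type)







end Sphere

end Crest.Agent.R204.Ex837
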