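import Mathlib
import Crest.Agent.R204.HDefs_472
import Crest.Agent.R204.Ex3_837
import Crest.Agent.R204.Ex5_837

-- ▼ part R204/ExM_515
section

/-!
# Row 204, block H: the model side of exactness (helper515)

* `sqCR`   : `CR X A → C(X,ℂ)`, `CR X A → ℂ` (point of `A`) is the pullback of `C(X,ℂ) → C(A,ℂ) ← ℂ`;
* `sqCone` : `ConeAlg y f` is the pullback of `C(I^N × I,ℂ) → C(bdI N,ℂ) ← C(Y,ℂ)`;
* `sqQ`    : `SA' N` is the pullback of `ConeAlg y f → C(Y,ℂ) ← ℂ`.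

All first maps are surjective and open; the map `C(Y,ℂ) → C(bdI N,ℂ)` factors through `SA N`.
-/

set_option autoImplicit false

open scoped unitInterval Topology Topology.Homotopy

noncomputable section

namespace Crest.Agent.R204.ExM515

open H472 Ex837

/-! ## restriction to a closed subset -/

section Rst

variable {X : Type} [TopologicalSpace X]

/-- restriction of continuous functions to a subset -/
def rst (A : Set X) : C(X, ℂ) →ₐ[ℂ] C(A, ℂ) :=
  ContinuousMap.compRightAlgHom ℂ ℂ ⟨Subtype.val, continuous_subtype_val⟩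

@[simp] theorem rst_apply (A : Set X) (a : C(X, ℂ)) (x : A) : rst A a x = a x := rfl

theorem rst_surjective [CompactSpace X] [NormalSpace X] {A : Set X} (hA : IsClosed A) :
    Function.Surjective (rst A) := by
  have : CompactSpace A := isCompact_iff_compactSpace.1 hA.isCompact
  exact restrict_surjective (i := ⟨Subtype.val, continuous_subtype_val⟩) hA.isClosedEmbedding_subtypeVal

theorem rst_isOpenMap [CompactSpace X] [NormalSpace X] {A : Set X} (hA : IsClosed A)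
    [CompactSpace A] : IsOpenMap (rst A) :=
  restrict_isOpenMap (i := ⟨Subtype.val, continuous_subtype_val⟩) hA.isClosedEmbedding_subtypeVal

/-- functions constant on `A` as a pullback -/
def sqCR (A : Set X) (a₀ : X) (h₀ : a₀ ∈ A) : Sq (CR X A) C(X, ℂ) ℂ C(A, ℂ) where
  p1 := ((CR X A).val : CR X A →ₐ[ℂ] C(X, ℂ))
  p2 := (CR.ev a₀ : CR X A →ₐ[ℂ] ℂ)
  al := (rst A : C(X, ℂ) →ₐ[ℂ] C(A, ℂ))
  be := (Algebra.ofId ℂ C(A, ℂ) : ℂ →ₐ[ℂ] C(A, ℂ))
  comm := fun a => by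
    ext x
    exact a.2 _ x.2 _ h₀
  lift := fun a c h => by
    have h' : ∀ x ∈ A, a x = c := fun x hx => DFunLike.congr_fun h (⟨x, hx⟩ : A)
    exact ⟨⟨a, fun x hx y hy => by rw [h' x hx, h' y hy]⟩, rfl, h' a₀ h₀⟩
  inj := fun a b h _ => Subtype.ext h

end Rst

/-! ## boundary of the cube -/

section Bdry

variable {N : Type} [Finite N]

theorem isClosed_boundary : IsClosed (Cube.boundary N) := by
  have h : Cube.boundary N = ⋃ i : N, ({x | x i = 0} ∪ {x | x i = 1}) := by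
    ext x
    simp [Cube.boundary]
  rw [h]
  exact isClosed_iUnion_of_finite fun i =>
    (isClosed_eq (continuous_apply i) continuous_const).union
      (isClosed_eq (continuous_apply i) continuous_const)

theorem isClosed_bdI : IsClosed (bdI N) := by
  have h : bdI N = (Prod.fst ⁻¹' Cube.boundary N) ∪ ({p | p.2 = 0} ∪ {p | p.2 = 1}) := by
    ext p
    simp [bdI]
  rw [h]
  exact (isClosed_boundary.preimage continuous_fst).union
    ((isClosed_eq continuous_snd continuous_const).union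
      (isClosed_eq continuous_snd continuous_const))

instance : CompactSpace (bdI N) := isCompact_iff_compactSpace.1 isClosed_bdI.isCompact

end Bdry

/-! ## the cone square -/

section Cone

variable {N : Type} {Y : Type} [TopologicalSpace Y] {y : Y} {f : GenLoop N Y y}

theorem loop_bd (f : GenLoop N Y y) {x : N → I} (hx : x ∈ Cube.boundary N) : f x = y := f.2 x hx

/-- pull back along the loop -/
def fst' (f : GenLoop N Y y) : C(Y, ℂ) →ₐ[ℂ] SA N :=
  (ContinuousMap.compRightAlgHom ℂ ℂ f.1).codRestrict (SA N) (by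
    intro b x hx x' hx'
    show b (f x) = b (f x')
    rw [loop_bd f hx, loop_bd f hx'])

@[simp] theorem fst'_apply (b : C(Y, ℂ)) (x : N → I) :
    ((fst' f b : SA N) : C(N → I, ℂ)) x = b (f x) := rfl

/-- the auxiliary interpolation: `a` at `t = 0`, the value at `x₀` at `t = 1` -/
def kapFun (x₀ : N → I) (a : C(N → I, ℂ)) : C((N → I) × I, ℂ) :=
  ⟨fun p => (1 - ((p.2 : ℝ) : ℂ)) * a p.1 + ((p.2 : ℝ) : ℂ) * a x₀, by fun_prop⟩

theorem kapFun_bd {x₀ : N → I} (a : SA N) (h₀ : x₀ ∈ Cube.boundary N) (p : bdI N) :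
    kapFun x₀ (a : C(N → I, ℂ)) (p : (N → I) × I) =
      if (p : (N → I) × I).2 = 0 then (a : C(N → I, ℂ)) (p : (N → I) × I).1
        else (a : C(N → I, ℂ)) x₀ := by
  obtain ⟨⟨x, t⟩, hp⟩ := p
  simp only [kapFun, ContinuousMap.coe_mk]
  split_ifs with h
  · subst h
    simp
  · rcases hp with h1 | h1 | h1
    · rw [a.2 x h1 x₀ h₀]; ring
    · exact absurd h1 h
    · simp only at h1
      subst h1
      simp

variable {x₀ : N → I}

/-- `SA N → C(bdI N)`, dual to the map `bdI N → S^N` collapsing everything except `t = 0` -/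
def kap (h₀ : x₀ ∈ Cube.boundary N) : SA N →ₐ[ℂ] C(bdI N, ℂ) :=
  AlgHom.ofLinearMap
    { toFun := fun a => rst (bdI N) (kapFun x₀ (a : C(N → I, ℂ)))
      map_add' := fun a b => by
        ext p
        simp [kapFun]; ring
      map_smul' := fun c a => by
        ext p
        simp [kapFun]; ring }
    (by
      ext p
      simp [kapFun])
    (fun a b => by
      ext p
      simp only [LinearMap.coe_mk, AddHom.coe_mk, rst_apply, kapFun_bd _ h₀,
        ContinuousMap.mul_apply]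
      split_ifs <;> simp)

theorem kap_apply (h₀ : x₀ ∈ Cube.boundary N) (a : SA N) (p : bdI N) :
    kap h₀ a p = if (p : (N → I) × I).2 = 0 then (a : C(N → I, ℂ)) (p : (N → I) × I).1
        else (a : C(N → I, ℂ)) x₀ := kapFun_bd a h₀ p

/-- the attaching map `bdI N → Y` on functions -/
def att (f : GenLoop N Y y) (h₀ : x₀ ∈ Cube.boundary N) : C(Y, ℂ) →ₐ[ℂ] C(bdI N, ℂ) :=
  (kap h₀).comp (fst' f)

theorem att_apply (h₀ : x₀ ∈ Cube.boundary N) (b : C(Y, ℂ)) (p : bdI N) :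
    att f h₀ b p = if (p : (N → I) × I).2 = 0 then b (f (p : (N → I) × I).1) else b y := by
  rw [att, AlgHom.comp_apply, kap_apply]
  simp only [fst'_apply]
  rw [loop_bd f h₀]

theorem att_eq_iff (h₀ : x₀ ∈ Cube.boundary N) (a : C((N → I) × I, ℂ)) (b : C(Y, ℂ)) :
    rst (bdI N) a = att f h₀ b ↔ (a, b) ∈ ConeAlg y f := by
  rw [mem_ConeAlg]
  constructor
  · intro h
    have h' : ∀ p (hp : p ∈ bdI N), a p = if p.2 = 0 then b (f p.1) else b y := fun p hp => by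
      have := DFunLike.congr_fun h (⟨p, hp⟩ : bdI N)
      rwa [rst_apply, att_apply] at this
    refine ⟨fun x => ?_, fun x t hx => ?_, fun x => ?_⟩
    · have := h' (x, 0) (Or.inr (Or.inl rfl))
      simpa using this
    · have := h' (x, t) (Or.inl hx)
      simp only at this
      rw [this]
      split_ifs
      · rw [loop_bd f hx]
      · rfl
    · have := h' (x, 1) (Or.inr (Or.inr rfl))
      simpa using this
  · rintro ⟨h1, h2, h3⟩
    ext ⟨⟨x, t⟩, hp⟩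
    rw [rst_apply, att_apply]
    simp only
    split_ifs with h
    · subst h
      exact h1 x
    · rcases hp with h' | h' | h'
      · exact h2 x t h'
      · exact absurd h' h
      · simp only at h'
        subst h'
        exact h3 x

/-- **the mapping cone as a pullback** -/
def sqCone (f : GenLoop N Y y) (h₀ : x₀ ∈ Cube.boundary N) :
    Sq (ConeAlg y f) C((N → I) × I, ℂ) C(Y, ℂ) C(bdI N, ℂ) where
  p1 := ((AlgHom.fst ℂ C((N → I) × I, ℂ) C(Y, ℂ)).comp (ConeAlg y f).val :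
    ConeAlg y f →ₐ[ℂ] C((N → I) × I, ℂ))
  p2 := (ConeAlg.res : ConeAlg y f →ₐ[ℂ] C(Y, ℂ))
  al := (rst (bdI N) : C((N → I) × I, ℂ) →ₐ[ℂ] C(bdI N, ℂ))
  be := (att f h₀ : C(Y, ℂ) →ₐ[ℂ] C(bdI N, ℂ))
  comm := fun p => (att_eq_iff h₀ _ _).2 p.2
  lift := fun a b h => ⟨⟨(a, b), (att_eq_iff h₀ _ _).1 h⟩, rfl, rfl⟩
  inj := fun _ _ h1 h2 => Subtype.ext (Prod.ext h1 h2)


theorem sqCone_al_surjective [Finite N] (h₀ : x₀ ∈ Cube.boundary N) :
    Function.Surjective (sqCone f h₀).al := rst_surjective isClosed_bdI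


theorem res_surjective [Finite N] [Nonempty N] :
    Function.Surjective (ConeAlg.res : ConeAlg y f →ₐ[ℂ] C(Y, ℂ)) := by
  intro b
  have h₀ : (fun _ => 0 : N → I) ∈ Cube.boundary N := ⟨Classical.arbitrary N, Or.inl rfl⟩
  obtain ⟨a, ha⟩ := rst_surjective isClosed_bdI (att f h₀ b)
  exact ⟨⟨(a, b), (att_eq_iff h₀ _ _).1 ha⟩, rfl⟩

theorem res_continuous [CompactSpace Y] :
    Continuous (ConeAlg.res : ConeAlg y f →ₐ[ℂ] C(Y, ℂ)) :=
  continuous_snd.comp continuous_subtype_val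

theorem res_isOpenMap [Finite N] [Nonempty N] [CompactSpace Y] :
    IsOpenMap (ConeAlg.res : ConeAlg y f →ₐ[ℂ] C(Y, ℂ)) := by
  let g : ConeAlg y f →L[ℂ] C(Y, ℂ) := ⟨(ConeAlg.res : ConeAlg y f →ₐ[ℂ] C(Y, ℂ)).toLinearMap,
    res_continuous⟩
  have hs : Function.Surjective g := res_surjective (f := f)
  exact ContinuousLinearMap.isOpenMap (𝕜 := ℂ) (𝕜' := ℂ) (E := ConeAlg y f) (F := C(Y, ℂ)) g hs

/-- **the quotient `C_f / Y = S^{N+1}` as a pullback** -/
def sqQ (f : GenLoop N Y y) (x₀ : N → I) :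
    Sq (SA' N) (ConeAlg y f) ℂ C(Y, ℂ) where
  p1 := (ConeAlg.q x₀ : SA' N →ₐ[ℂ] ConeAlg y f)
  p2 := (CR.ev (x₀, 0) : SA' N →ₐ[ℂ] ℂ)
  al := (ConeAlg.res : ConeAlg y f →ₐ[ℂ] C(Y, ℂ))
  be := (Algebra.ofId ℂ C(Y, ℂ) : ℂ →ₐ[ℂ] C(Y, ℂ))
  comm := fun a => by
    ext z
    rfl
  lift := fun p c h => by
    have h' : ∀ z, (p : C((N → I) × I, ℂ) × C(Y, ℂ)).2 z = c := fun z => DFunLike.congr_fun h z
    obtain ⟨h1, h2, h3⟩ := p.2
    have hc : ∀ q ∈ bdI N, (p : C((N → I) × I, ℂ) × C(Y, ℂ)).1 q = c := by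
      rintro ⟨x, t⟩ (hq | hq | hq)
      · rw [h2 x t hq, h']
      · simp only at hq
        rw [hq, h1, h']
      · simp only at hq
        rw [hq, h3, h']
    refine ⟨⟨(p : C((N → I) × I, ℂ) × C(Y, ℂ)).1, fun q hq q' hq' => by
      rw [hc q hq, hc q' hq']⟩, ?_, hc _ (Or.inr (Or.inl rfl))⟩
    apply Subtype.ext
    refine Prod.ext rfl ?_
    ext z
    exact (hc (x₀, 0) (Or.inr (Or.inl rfl))).trans (h' z).symm
  inj := fun a b h _ => by
    apply Subtype.ext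
    exact congrArg (fun p : ConeAlg y f => (p : C((N → I) × I, ℂ) × C(Y, ℂ)).1) h

end Cone

end Crest.Agent.R204.ExM515
end
end

-- ▼ part R204/ExMb_515

/-!
# Row 204, block H: exactness for the frozen models (helper515)

* `E1`      : `x ∈ K0 C(X,ℂ)`, zero on `A` ⇒ `x` comes from `CR X A` (`A` closed, `a₀ ∈ A`);
* `E1_inj`  : injectivity of `K0 (CR X A) → K0 C(X,ℂ)` if matrices lift stably (or `K1Triv C(A,ℂ)`);
* `E2`      : `K0 (Smash y z) → K0 C(Y × Z,ℂ)` is injective;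
* `E3`      : `K̃(Y) ← K̃(C_f)` onto if `K̃(S^N) = 0`;
* `E5`      : exactness of `K̃(S^{N+1}) → K̃(C_f) → K̃(Y)`;
* `E4`      : `K̃(S^{N+1}) → K̃(C_f)` injective if `K1Triv C(Y,ℂ)`.
-/

set_option autoImplicit false

open scoped unitInterval Topology Topology.Homotopy

noncomputable section

namespace Crest.Agent.R204.ExM515

open H472 Ex837
open K357 (K0)

/-! ## named ring homomorphisms -/

section Homs

variable {X : Type} [TopologicalSpace X]

/-- inclusion `CR X A → C(X,ℂ)` -/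
abbrev incR (A : Set X) : CR X A →+* C(X, ℂ) := ((CR X A).val : CR X A →ₐ[ℂ] C(X, ℂ))

/-- evaluation on `CR X A` -/
abbrev evR (A : Set X) (a₀ : X) : CR X A →+* ℂ := (CR.ev a₀ : CR X A →ₐ[ℂ] ℂ)

/-- restriction `C(X,ℂ) → C(A,ℂ)` -/
abbrev rstR (A : Set X) : C(X, ℂ) →+* C(A, ℂ) := (rst A : C(X, ℂ) →ₐ[ℂ] C(A, ℂ))

/-- evaluation on `C(X,ℂ)` -/
abbrev evw (x : X) : C(X, ℂ) →+* ℂ := (ContinuousMap.evalAlgHom ℂ ℂ x : C(X, ℂ) →ₐ[ℂ] ℂ)

variable {N : Type} {Y : Type} [TopologicalSpace Y] {y : Y}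

/-- restriction of the mapping cone to `Y` -/
abbrev resR (f : GenLoop N Y y) : ConeAlg y f →+* C(Y, ℂ) :=
  (ConeAlg.res : ConeAlg y f →ₐ[ℂ] C(Y, ℂ))

/-- base point of the mapping cone -/
abbrev evCR (f : GenLoop N Y y) : ConeAlg y f →+* ℂ := (ConeAlg.ev : ConeAlg y f →ₐ[ℂ] ℂ)

/-- dual of the collapse `C_f → S^{N+1}` -/
abbrev qR (f : GenLoop N Y y) (x₀ : N → I) : SA' N →+* ConeAlg y f :=
  (ConeAlg.q x₀ : SA' N →ₐ[ℂ] ConeAlg y f)

/-- dual of `f : S^N → Y` -/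
abbrev fR (f : GenLoop N Y y) : C(Y, ℂ) →+* SA N := (fst' f : C(Y, ℂ) →ₐ[ℂ] SA N)

/-- the same on `K0` -/
abbrev incK (A : Set X) : K0 (CR X A) →+ K0 C(X, ℂ) := K0.map (A := CR X A) (B := C(X, ℂ)) (incR A)
abbrev evK (A : Set X) (a₀ : X) : K0 (CR X A) →+ K0 ℂ := K0.map (A := CR X A) (B := ℂ) (evR A a₀)
abbrev rstK (A : Set X) : K0 C(X, ℂ) →+ K0 C(A, ℂ) :=
  K0.map (A := C(X, ℂ)) (B := C(A, ℂ)) (rstR A)
abbrev evwK (x : X) : K0 C(X, ℂ) →+ K0 ℂ := K0.map (A := C(X, ℂ)) (B := ℂ) (evw x)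
abbrev resK (f : GenLoop N Y y) : K0 (ConeAlg y f) →+ K0 C(Y, ℂ) :=
  K0.map (A := ConeAlg y f) (B := C(Y, ℂ)) (resR f)
abbrev evCK (f : GenLoop N Y y) : K0 (ConeAlg y f) →+ K0 ℂ :=
  K0.map (A := ConeAlg y f) (B := ℂ) (evCR f)
abbrev qK (f : GenLoop N Y y) (x₀ : N → I) : K0 (SA' N) →+ K0 (ConeAlg y f) :=
  K0.map (A := SA' N) (B := ConeAlg y f) (qR f x₀)
abbrev fK (f : GenLoop N Y y) : K0 C(Y, ℂ) →+ K0 (SA N) :=
  K0.map (A := C(Y, ℂ)) (B := SA N) (fR f)

end Homs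

/-! ## pairs `(X, A)` -/

section Pairs

variable {X : Type} [TopologicalSpace X]

theorem K0_map_ev (A : Set X) (a₀ : X) (x : K0 (CR X A)) :
    evK A a₀ x =
      evwK a₀
        (incK A x) := by
  rw [← K0.map_comp]
  rfl

theorem E1 [CompactSpace X] [NormalSpace X] {A : Set X} (hA : IsClosed A) {a₀ : X} (h₀ : a₀ ∈ A)
    {x : K0 C(X, ℂ)}
    (hx : rstK A x = 0) :
    ∃ z : K0 (CR X A), incK A z = x ∧
      evK A a₀ z = 0 :=
  (sqCR A a₀ h₀).exists_rel (rst_surjective hA) hx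

theorem E1_inj {A : Set X} {a₀ : X} (h₀ : a₀ ∈ A)
    (hst : StLift (rstR A)) {x : K0 (CR X A)}
    (hx : incK A x = 0) : x = 0 :=
  (sqCR A a₀ h₀).K0_inj hst hx (by
    have h := K0_map_ev A a₀ x
    rw [hx, map_zero] at h
    exact h)

theorem stLift_rst [CompactSpace X] [NormalSpace X] {A : Set X} (hA : IsClosed A) [CompactSpace A]
    (hK : K1Triv C(A, ℂ)) : StLift (rstR A) :=
  stLift_of_k1Triv (rst_isOpenMap hA) hK

theorem E1_inj' [CompactSpace X] [NormalSpace X] {A : Set X} (hA : IsClosed A) [CompactSpace A]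
    (hK : K1Triv C(A, ℂ)) {a₀ : X} (h₀ : a₀ ∈ A) {x : K0 (CR X A)}
    (hx : incK A x = 0) : x = 0 :=
  E1_inj h₀ (stLift_rst hA hK) hx

end Pairs

/-! ## smash products -/

section Smash

variable {Y Z : Type} [TopologicalSpace Y] [TopologicalSpace Z]

omit [TopologicalSpace Y] [TopologicalSpace Z] in
theorem mem_wedge_left (y : Y) (z : Z) (a : Y) : (a, z) ∈ wedge y z := Or.inr rfl

omit [TopologicalSpace Y] [TopologicalSpace Z] in
theorem mem_wedge_right (y : Y) (z : Z) (b : Z) : (y, b) ∈ wedge y z := Or.inl rfl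

/-- `h ↦ ((a,b) ↦ h(a,z))` -/
def wl (y : Y) (z : Z) : C(wedge y z, ℂ) →+* C(Y × Z, ℂ) :=
  ((ContinuousMap.compRightAlgHom ℂ ℂ
    (⟨fun p => ⟨(p.1, z), mem_wedge_left y z p.1⟩, by fun_prop⟩ : C(Y × Z, wedge y z)) :
    C(wedge y z, ℂ) →ₐ[ℂ] C(Y × Z, ℂ)) : C(wedge y z, ℂ) →+* C(Y × Z, ℂ))

/-- `h ↦ ((a,b) ↦ h(y,b))` -/
def wr (y : Y) (z : Z) : C(wedge y z, ℂ) →+* C(Y × Z, ℂ) :=
  ((ContinuousMap.compRightAlgHom ℂ ℂ
    (⟨fun p => ⟨(y, p.2), mem_wedge_right y z p.2⟩, by fun_prop⟩ : C(Y × Z, wedge y z)) :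
    C(wedge y z, ℂ) →ₐ[ℂ] C(Y × Z, ℂ)) : C(wedge y z, ℂ) →+* C(Y × Z, ℂ))

/-- `h ↦ ((a,b) ↦ h(y,z))` -/
def wc (y : Y) (z : Z) : C(wedge y z, ℂ) →+* C(Y × Z, ℂ) :=
  ((ContinuousMap.compRightAlgHom ℂ ℂ
    (⟨fun _ => ⟨(y, z), mem_wedge_right y z z⟩, by fun_prop⟩ : C(Y × Z, wedge y z)) :
    C(wedge y z, ℂ) →ₐ[ℂ] C(Y × Z, ℂ)) : C(wedge y z, ℂ) →+* C(Y × Z, ℂ))

theorem ext_ev {X : Type} [TopologicalSpace X] {ι κ : Type*} {M M' : Matrix ι κ C(X, ℂ)}
    (h : ∀ x, M.map (evw x) = M'.map (evw x)) : M = M' := by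
  ext i j x
  exact congrFun (congrFun (h x) i) j

theorem stLift_wedge (y : Y) (z : Z) :
    StLift (rstR (wedge y z)) := by
  intro n g g' h1 h2
  have hw : ∀ (φ : C(wedge y z, ℂ) →+* C(Y × Z, ℂ)), g.map φ * g'.map φ = 1 := fun φ => by
    rw [← Matrix.map_mul, h1, Matrix.map_one _ (map_zero _) (map_one _)]
  have hw' : ∀ (φ : C(wedge y z, ℂ) →+* C(Y × Z, ℂ)), g'.map φ * g.map φ = 1 := fun φ => by
    rw [← Matrix.map_mul, h2, Matrix.map_one _ (map_zero _) (map_one _)]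
  let U := g.map (wl y z) * g'.map (wc y z) * g.map (wr y z)
  let V := g'.map (wr y z) * g.map (wc y z) * g'.map (wl y z)
  have hUV : U * V = 1 := by
    calc U * V = g.map (wl y z) * (g'.map (wc y z) * (g.map (wr y z) * g'.map (wr y z)) *
          g.map (wc y z)) * g'.map (wl y z) := by simp only [U, V, Matrix.mul_assoc]
      _ = 1 := by rw [hw, Matrix.mul_one, hw', Matrix.mul_one, hw]
  have hVU : V * U = 1 := by
    calc V * U = g'.map (wr y z) * (g.map (wc y z) * (g'.map (wl y z) * g.map (wl y z)) *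
          g'.map (wc y z)) * g.map (wr y z) := by simp only [U, V, Matrix.mul_assoc]
      _ = 1 := by rw [hw', Matrix.mul_one, hw, Matrix.mul_one, hw']
  refine ⟨0, dsum U 1, dsum V 1, by rw [dsum_mul, hUV, Matrix.one_mul, dsum_one],
    by rw [dsum_mul, hVU, Matrix.one_mul, dsum_one], ?_⟩
  rw [dsum_map, Matrix.map_one _ (map_zero _) (map_one _)]
  congr 1
  apply ext_ev
  rintro ⟨⟨a, b⟩, hp⟩
  have e1 : ∀ (q : wedge y z), g.map (evw q) * g'.map (evw q) = 1 := fun q => by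
    rw [← Matrix.map_mul, h1, Matrix.map_one _ (map_zero _) (map_one _)]
  have e2 : ∀ (q : wedge y z), g'.map (evw q) * g.map (evw q) = 1 := fun q => by
    rw [← Matrix.map_mul, h2, Matrix.map_one _ (map_zero _) (map_one _)]
  have e3 : (U.map (rstR (wedge y z))).map (evw (⟨(a, b), hp⟩ : wedge y z)) =
      g.map (evw ⟨(a, z), mem_wedge_left y z a⟩) * g'.map (evw ⟨(y, z), mem_wedge_right y z z⟩) *
        g.map (evw ⟨(y, b), mem_wedge_right y z b⟩) := by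
    simp only [U, Matrix.map_mul]
    rfl
  rw [e3]
  rcases hp with h | h
  · simp only at h
    subst h
    rw [e1, Matrix.one_mul]
  · simp only at h
    subst h
    rw [Matrix.mul_assoc, e2, Matrix.mul_one]

/-- **(E2)** `K(Y ∧ Z) → K(Y × Z)` is injective -/
theorem E2 (y : Y) (z : Z) {x : K0 (Smash y z)}
    (hx : incK (wedge y z) x
      = 0) : x = 0 :=
  E1_inj (mem_wedge_left y z y) (stLift_wedge y z) hx


end Smash

/-! ## the mapping cone -/

section Cone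

variable {N : Type} [Finite N] {Y : Type} [TopologicalSpace Y] {y : Y} {f : GenLoop N Y y}
  {x₀ : N → I}

/-- **(E3)** surjectivity of `K̃(C_f) → K̃(Y)` if `K̃(S^N) = 0`. -/
theorem E3 (h₀ : x₀ ∈ Cube.boundary N)
    (hN : ∀ x : K0 (SA N), evK (Cube.boundary N) x₀ x = 0 → x = 0)
    {v : K0 C(Y, ℂ)} (hv : evwK y v = 0) :
    ∃ x : K0 (ConeAlg y f), resK f x = v ∧ evCK f x = 0 := by
  have h1 : fK f v = 0 := by
    apply hN
    have h2 : (evR (Cube.boundary N) x₀).comp (fR f) = evw y := by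
      ext b
      show b (f x₀) = b y
      rw [loop_bd f h₀]
    have h3 := K0.map_comp (A := C(Y, ℂ)) (B := SA N) (C := ℂ) (evR (Cube.boundary N) x₀) (fR f) v
    rw [h2, hv] at h3
    exact h3.symm
  let kR : SA N →+* C(bdI N, ℂ) := (kap h₀ : SA N →ₐ[ℂ] C(bdI N, ℂ))
  have h4 : K0.map (A := C(Y, ℂ)) (B := C(bdI N, ℂ)) (kR.comp (fR f)) v = 0 := by
    have h5 := K0.map_comp (A := C(Y, ℂ)) (B := SA N) (C := C(bdI N, ℂ)) kR (fR f) v
    have h6 : K0.map (A := C(Y, ℂ)) (B := SA N) (fR f) v = 0 := h1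
    rw [h6, map_zero] at h5
    exact h5
  obtain ⟨x, -, hx⟩ := (sqCone f h₀).K0_mid (a := 0) (b := v) (sqCone_al_surjective h₀)
    (by rw [map_zero]; exact h4.symm)
  refine ⟨x, hx, ?_⟩
  have h7 : resK f x = v := hx
  have h8 := K0.map_comp (A := ConeAlg y f) (B := C(Y, ℂ)) (C := ℂ) (evw y) (resR f) x
  have h9 : evwK y (resK f x) = 0 := by rw [h7, hv]
  exact h8.trans h9

/-- **(E5)** exactness at `K̃(C_f)`. -/
theorem E5 [Nonempty N] (x₀ : N → I) {x : K0 (ConeAlg y f)} (hx : resK f x = 0) :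
    ∃ z : K0 (SA' N), qK f x₀ z = x ∧ evK (bdI N) (x₀, 0) z = 0 :=
  (sqQ f x₀).exists_rel res_surjective hx

omit [Finite N] in
theorem ev_comp_q (x₀ : N → I) (z : K0 (SA' N)) :
    evCK f
      (qK f x₀ z) =
      evK (bdI N) (x₀, 0) z := by
  rw [← K0.map_comp]
  rfl

/-- **(E4)** injectivity of `K(S^{N+1}) → K(C_f)` if `K1 C(Y) = 0`. -/
theorem E4 [Nonempty N] [CompactSpace Y] (hY : K1Triv C(Y, ℂ)) (x₀ : N → I) {z : K0 (SA' N)}
    (hz : qK f x₀ z = 0) :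
    z = 0 := by
  refine (sqQ f x₀).K0_inj (stLift_of_k1Triv (A := ConeAlg y f) (res_isOpenMap (f := f)) hY) hz ?_
  have h := ev_comp_q (f := f) x₀ z
  rw [hz, map_zero] at h
  exact h.symm


omit [Finite N] in
/-- the composite `K̃(S^{N+1}) → K̃(C_f) → K̃(Y)` is zero. -/
theorem res_comp_q (x₀ : N → I) {z : K0 (SA' N)}
    (hz : evK (bdI N) (x₀, 0) z = 0) :
    resK f
      (qK f x₀ z) = 0 := by
  have h : (resR f).comp (qR f x₀) =
      ((Algebra.ofId ℂ C(Y, ℂ) : ℂ →ₐ[ℂ] C(Y, ℂ)) : ℂ →+* C(Y, ℂ)).comp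
        (evR (bdI N) (x₀, 0)) := rfl
  rw [← K0.map_comp, h, K0.map_comp, hz, map_zero]

end Cone

end Crest.Agent.R204.ExM515
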