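import Mathlib
import Crest.Agent.R204.HDefs_472
import Crest.Agent.R204.HopfMap_484
import Crest.Agent.R204.KDefs_357
import Crest.Agent.R204.HInv_313
import Crest.Agent.R204.ExMb_515
import Crest.Agent.R204.Ex7_837
import Crest.Agent.R204.KPt_472
import Crest.Agent.R204.PsiD_357
import Crest.Agent.R204.HIso_472
import Crest.Agent.R204.HDegC_160

-- ▼ part R204/Diag_484
section

/-!
# Row 204, block H, leaf DIAG (helper484): the diagonal of a mapping cone factors through the Hopf map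

* `toCone` : a homomorphism to `ConeAlg y f` from a cell part and a base part,
* `K0.map` of `toCone` is homotopy invariant,
* `CC`, `CW` : functions on `C × C` and `C ∧ C` (`C` the mapping cone),
* `diag_eq` : on `K0 (CW)`, diagonal = collapse ∘ Hopf map ∘ restriction to `Y ∧ Y`.
-/

set_option autoImplicit false

open scoped unitInterval Topology Topology.Homotopy

noncomputable section

namespace Crest.Agent.R204.Diag484

open Crest.Agent.R204.H472 Crest.Agent.R204.HopfMap484 Crest.Agent.R204.K357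

variable {N : Type} {Y : Type} [TopologicalSpace Y] {y : Y} {f : GenLoop N Y y}

/-- `K0` of a homomorphism of subalgebras -/
abbrev kS {R R' : Type} [Ring R] [Ring R'] [Algebra ℂ R] [Algebra ℂ R'] {S : Subalgebra ℂ R}
    {S' : Subalgebra ℂ R'} (φ : S →ₐ[ℂ] S') : K0 S →+ K0 S' := K0.map (φ : S →+* S')

theorem kS_comp {R R' R'' : Type} [Ring R] [Ring R'] [Ring R''] [Algebra ℂ R] [Algebra ℂ R']
    [Algebra ℂ R''] {S : Subalgebra ℂ R} {S' : Subalgebra ℂ R'} {S'' : Subalgebra ℂ R''}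
    (ψ : S' →ₐ[ℂ] S'') (φ : S →ₐ[ℂ] S') (x : K0 S) : kS (ψ.comp φ) x = kS ψ (kS φ x) :=
  K0.map_comp (ψ : S' →+* S'') (φ : S →+* S') x

section toCone

variable {Z : Type} [TopologicalSpace Z]

/-- compatibility of a cell part and a base part on the functions in `S` -/
structure Compat (f : GenLoop N Y y) (S : Subalgebra ℂ C(Z, ℂ)) (α : (N → I) × I → Z)
    (β : Y → Z) : Prop where
  zero : ∀ h ∈ S, ∀ x, h (α (x, 0)) = h (β (f x))
  bd : ∀ h ∈ S, ∀ x t, x ∈ Cube.boundary N → h (α (x, t)) = h (β y)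
  one : ∀ h ∈ S, ∀ x, h (α (x, 1)) = h (β y)

/-- homomorphism to the algebra of the mapping cone -/
def toCone (S : Subalgebra ℂ C(Z, ℂ)) (α : C((N → I) × I, Z)) (β : C(Y, Z))
    (h : Compat f S α β) : S →ₐ[ℂ] ConeAlg y f :=
  ((((ContinuousMap.compRightAlgHom ℂ ℂ α).prod (ContinuousMap.compRightAlgHom ℂ ℂ β))).comp
    S.val).codRestrict (ConeAlg y f) (fun a =>
      ⟨fun x => h.zero a.1 a.2 x, fun x t hx => h.bd a.1 a.2 x t hx, fun x => h.one a.1 a.2 x⟩)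

@[simp] theorem toCone_fst (S : Subalgebra ℂ C(Z, ℂ)) (α : C((N → I) × I, Z)) (β : C(Y, Z))
    (h : Compat f S α β) (a : S) (p : (N → I) × I) :
    ((toCone S α β h a : ConeAlg y f) : C((N → I) × I, ℂ) × C(Y, ℂ)).1 p = (a : C(Z, ℂ)) (α p) := rfl

@[simp] theorem toCone_snd (S : Subalgebra ℂ C(Z, ℂ)) (α : C((N → I) × I, Z)) (β : C(Y, Z))
    (h : Compat f S α β) (a : S) (p : Y) :
    ((toCone S α β h a : ConeAlg y f) : C((N → I) × I, ℂ) × C(Y, ℂ)).2 p = (a : C(Z, ℂ)) (β p) := rfl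

/-- slice of a homotopy -/
def slice {P Q : Type} [TopologicalSpace P] [TopologicalSpace Q] (H : C(I × P, Q)) (s : I) : C(P, Q) :=
  H.curry s

@[simp] theorem slice_apply {P Q : Type} [TopologicalSpace P] [TopologicalSpace Q] (H : C(I × P, Q))
    (s : I) (p : P) : slice H s p = H (s, p) := rfl

theorem continuous_comp_slice {P Q : Type} [TopologicalSpace P] [TopologicalSpace Q]
    (H : C(I × P, Q)) (a : C(Q, ℂ)) : Continuous fun s : I => a.comp (slice H s) := by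
  exact ((a.comp H).curry).continuous

theorem toCone_homotopy [CompactSpace Y] (S : Subalgebra ℂ C(Z, ℂ)) (α : C(I × ((N → I) × I), Z))
    (β : C(I × Y, Z)) (h : ∀ s, Compat f S (slice α s) (slice β s)) :
    kS (toCone S (slice α 0) (slice β 0) (h 0)) = kS (toCone S (slice α 1) (slice β 1) (h 1)) := by
  have key := HInv313.map_eq_of_homotopy (A := S) (B := ConeAlg y f)
    (fun s => ((toCone S (slice α s) (slice β s) (h s) : S →ₐ[ℂ] ConeAlg y f) : S →+* ConeAlg y f))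
    (fun a => ?_)
  · exact key
  · refine Continuous.subtype_mk ?_ _
    exact (continuous_comp_slice α a.1).prodMk (continuous_comp_slice β a.1)


end toCone

/-! ## functions on `C × C` and `C ∧ C` -/

/-- cell ⊔ base -/
abbrev Zc (N Y : Type) : Type := ((N → I) × I) ⊕ Y

/-- the gluing relation of the mapping cone -/
def Glue (f : GenLoop N Y y) : Zc N Y → Zc N Y → Prop
  | Sum.inl p, Sum.inr z => (p.2 = 0 ∧ z = f p.1) ∨ (p.1 ∈ Cube.boundary N ∧ z = y) ∨ (p.2 = 1 ∧ z = y)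
  | _, _ => False

theorem glue_zero (f : GenLoop N Y y) (x : N → I) : Glue f (Sum.inl (x, 0)) (Sum.inr (f x)) :=
  Or.inl ⟨rfl, rfl⟩
theorem glue_bd (f : GenLoop N Y y) {x : N → I} (hx : x ∈ Cube.boundary N) (t : I) :
    Glue f (Sum.inl (x, t)) (Sum.inr y) := Or.inr (Or.inl ⟨hx, rfl⟩)
theorem glue_one (f : GenLoop N Y y) (x : N → I) : Glue f (Sum.inl (x, 1)) (Sum.inr y) :=
  Or.inr (Or.inr ⟨rfl, rfl⟩)

/-- functions on `C × C` -/
def CC (f : GenLoop N Y y) : Subalgebra ℂ C(Zc N Y × Zc N Y, ℂ) where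
  carrier := {h | ∀ z z' w, Glue f z z' → h (z, w) = h (z', w) ∧ h (w, z) = h (w, z')}
  mul_mem' := by
    intro a b ha hb z z' w hz
    simp only [ContinuousMap.mul_apply, (ha z z' w hz).1, (ha z z' w hz).2, (hb z z' w hz).1,
      (hb z z' w hz).2, and_self]
  add_mem' := by
    intro a b ha hb z z' w hz
    simp only [ContinuousMap.add_apply, (ha z z' w hz).1, (ha z z' w hz).2, (hb z z' w hz).1,
      (hb z z' w hz).2, and_self]
  algebraMap_mem' := by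
    intro r z z' w _
    exact ⟨rfl, rfl⟩

theorem CC_left {h : C(Zc N Y × Zc N Y, ℂ)} (hh : h ∈ CC f) {z z' : Zc N Y} (w : Zc N Y)
    (hz : Glue f z z') : h (z, w) = h (z', w) := (hh z z' w hz).1
theorem CC_right {h : C(Zc N Y × Zc N Y, ℂ)} (hh : h ∈ CC f) {z z' : Zc N Y} (w : Zc N Y)
    (hz : Glue f z z') : h (w, z) = h (w, z') := (hh z z' w hz).2
theorem CC_both {h : C(Zc N Y × Zc N Y, ℂ)} (hh : h ∈ CC f) {z z' w w' : Zc N Y}
    (hz : Glue f z z') (hw : Glue f w w') : h (z, w) = h (z', w') :=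
  (CC_left hh w hz).trans (CC_right hh z' hw)

theorem isClosed_CC [CompactSpace Y] (f : GenLoop N Y y) :
    IsClosed ((CC f : Subalgebra ℂ C(Zc N Y × Zc N Y, ℂ)) : Set C(Zc N Y × Zc N Y, ℂ)) := by
  have : ((CC f : Subalgebra ℂ C(Zc N Y × Zc N Y, ℂ)) : Set C(Zc N Y × Zc N Y, ℂ))
      = ⋂ z, ⋂ z', ⋂ w, ⋂ (_ : Glue f z z'),
        ({a : C(Zc N Y × Zc N Y, ℂ) | a (z, w) = a (z', w)} ∩ {a | a (w, z) = a (w, z')}) := by
    ext a
    simp only [Set.mem_iInter, Set.mem_inter_iff, Set.mem_ofPred_eq]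
    exact Iff.rfl
  rw [this]
  refine isClosed_iInter fun z => isClosed_iInter fun z' => isClosed_iInter fun w =>
    isClosed_iInter fun _ => ?_
  exact (isClosed_eq (continuous_eval_const _) (continuous_eval_const _)).inter
    (isClosed_eq (continuous_eval_const _) (continuous_eval_const _))

instance [CompactSpace Y] : CompleteSpace (CC f) := (isClosed_CC f).completeSpace_coe

/-- functions on `C ∧ C` -/
def CW (f : GenLoop N Y y) : Subalgebra ℂ C(Zc N Y × Zc N Y, ℂ) :=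
  CC f ⊓ CR (Zc N Y × Zc N Y) (wedge (Sum.inr y) (Sum.inr y))

theorem CW_base_left {h : C(Zc N Y × Zc N Y, ℂ)} (hh : h ∈ CW f) (w : Zc N Y) :
    h (Sum.inr y, w) = h (Sum.inr y, Sum.inr y) :=
  hh.2 _ (Or.inl rfl) _ (Or.inl rfl)
theorem CW_base_right {h : C(Zc N Y × Zc N Y, ℂ)} (hh : h ∈ CW f) (w : Zc N Y) :
    h (w, Sum.inr y) = h (Sum.inr y, Sum.inr y) :=
  hh.2 _ (Or.inr rfl) _ (Or.inl rfl)
theorem CW_left {h : C(Zc N Y × Zc N Y, ℂ)} (hh : h ∈ CW f) {z : Zc N Y} (w : Zc N Y)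
    (hz : Glue f z (Sum.inr y)) : h (z, w) = h (Sum.inr y, Sum.inr y) :=
  (CC_left hh.1 w hz).trans (CW_base_left hh w)
theorem CW_right {h : C(Zc N Y × Zc N Y, ℂ)} (hh : h ∈ CW f) {z : Zc N Y} (w : Zc N Y)
    (hz : Glue f z (Sum.inr y)) : h (w, z) = h (Sum.inr y, Sum.inr y) :=
  (CC_right hh.1 w hz).trans (CW_base_right hh w)

/-- inclusion `CW → CC`, dual to `C × C → C ∧ C` -/
def incl (f : GenLoop N Y y) : CW f →ₐ[ℂ] CC f := Subalgebra.inclusion inf_le_left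

@[simp] theorem incl_coe (a : CW f) : ((incl f a : CC f) : C(Zc N Y × Zc N Y, ℂ)) = a := rfl

/-- the diagonal `C → C × C` -/
theorem compat_diag (f : GenLoop N Y y) : Compat f (CC f)
    (⟨fun p => (Sum.inl p, Sum.inl p), by fun_prop⟩ : C((N → I) × I, Zc N Y × Zc N Y))
    (⟨fun p => (Sum.inr p, Sum.inr p), by fun_prop⟩ : C(Y, Zc N Y × Zc N Y)) where
  zero _ hh x := CC_both hh (glue_zero f x) (glue_zero f x)
  bd _ hh _ t hx := CC_both hh (glue_bd f hx t) (glue_bd f hx t)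
  one _ hh x := CC_both hh (glue_one f x) (glue_one f x)

/-- diagonal homomorphism -/
def Δ (f : GenLoop N Y y) : CC f →ₐ[ℂ] ConeAlg y f := toCone (CC f) _ _ (compat_diag f)

@[simp] theorem Δ_fst (a : CC f) (p : (N → I) × I) :
    ((Δ f a : ConeAlg y f) : C((N → I) × I, ℂ) × C(Y, ℂ)).1 p =
      (a : C(Zc N Y × Zc N Y, ℂ)) (Sum.inl p, Sum.inl p) := rfl
@[simp] theorem Δ_snd (a : CC f) (p : Y) :
    ((Δ f a : ConeAlg y f) : C((N → I) × I, ℂ) × C(Y, ℂ)).2 p =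
      (a : C(Zc N Y × Zc N Y, ℂ)) (Sum.inr p, Sum.inr p) := rfl

variable (f) in
/-- restriction `C ∧ C ⊇ Y ∧ Y` -/
def res : CW f →ₐ[ℂ] Smash y y :=
  ((ContinuousMap.compRightAlgHom ℂ ℂ
    (⟨fun p => (Sum.inr p.1, Sum.inr p.2), by fun_prop⟩ : C(Y × Y, Zc N Y × Zc N Y))).comp
      (CW f).val).codRestrict (Smash y y) (by
        intro a x hx z hz
        have key : ∀ p ∈ wedge y y, (a : C(Zc N Y × Zc N Y, ℂ)) (Sum.inr p.1, Sum.inr p.2) =
            (a : C(Zc N Y × Zc N Y, ℂ)) (Sum.inr y, Sum.inr y) := by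
          rintro ⟨p1, p2⟩ (h | h)
          · simp only at h; subst h; exact CW_base_left a.2 _
          · simp only at h; subst h; exact CW_base_right a.2 _
        exact (key x hx).trans (key z hz).symm)

@[simp] theorem res_apply (f : GenLoop N Y y) (a : CW f) (p : Y × Y) :
    ((res f a : Smash y y) : C(Y × Y, ℂ)) p = (a : C(Zc N Y × Zc N Y, ℂ)) (Sum.inr p.1, Sum.inr p.2) :=
  rfl

/-! ## the homotopies -/

variable (P : CoP (N → I) (Cube.boundary N)) (c : CoH Y y)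

/-- constant base homotopy -/
def βc : C(I × Y, Zc N Y × Zc N Y) := ⟨fun p => (Sum.inr p.2, Sum.inr p.2), by fun_prop⟩

/-- stage 1 -/
def α1 : C(I × ((N → I) × I), Zc N Y × Zc N Y) :=
  ⟨fun p => (Sum.inl (P.w (p.1 * p.2.2, p.2.1), p.2.2), Sum.inl (P.w' (p.1 * p.2.2, p.2.1), p.2.2)),
    by fun_prop⟩

/-- stage 2 -/
def α2 : C(I × ((N → I) × I), Zc N Y × Zc N Y) :=
  ⟨fun p => (Sum.inl (P.w (p.2.2, p.2.1), σ p.1 * p.2.2), Sum.inl (P.w' (p.2.2, p.2.1), σ p.1 * p.2.2)),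
    by fun_prop⟩

theorem compat1 (s : I) : Compat f (CW f) (slice (α1 P) s) (slice (βc (N := N) (Y := Y)) s) where
  zero h hh x := by
    simp only [slice_apply, α1, βc, ContinuousMap.coe_mk, mul_zero, P.w_zero, P.w'_zero]
    exact CC_both hh.1 (glue_zero f x) (glue_zero f x)
  bd h hh x t hx := by
    simp only [slice_apply, α1, βc, ContinuousMap.coe_mk]
    exact CW_left hh _ (glue_bd f (P.w_mem _ _ hx) _)
  one h hh x := by
    simp only [slice_apply, α1, βc, ContinuousMap.coe_mk]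
    exact CW_left hh _ (glue_one f _)

theorem compat2 (s : I) : Compat f (CW f) (slice (α2 P) s) (slice (βc (N := N) (Y := Y)) s) where
  zero h hh x := by
    simp only [slice_apply, α2, βc, ContinuousMap.coe_mk, mul_zero, P.w_zero, P.w'_zero]
    exact CC_both hh.1 (glue_zero f x) (glue_zero f x)
  bd h hh x t hx := by
    simp only [slice_apply, α2, βc, ContinuousMap.coe_mk]
    exact CW_left hh _ (glue_bd f (P.w_mem _ _ hx) _)
  one h hh x := by
    simp only [slice_apply, α2, βc, ContinuousMap.coe_mk]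
    rcases P.one x with hx | hx
    · exact CW_left hh _ (glue_bd f hx _)
    · exact CW_right hh _ (glue_bd f hx _)

/-- stage 3, cell part -/
def α3 (f : GenLoop N Y y) : C(I × ((N → I) × I), Y × Y) :=
  ⟨fun p => GG P c (f : C(N → I, Y)) (p.2.1, pp p.1 p.2.2, nn p.1 p.2.2), by fun_prop⟩

/-- stage 3, base part -/
def β3 : C(I × Y, Y × Y) := ⟨fun p => (c.W p, c.W' p), c.W.continuous.prodMk c.W'.continuous⟩

theorem f_bd (f : GenLoop N Y y) : ∀ x ∈ Cube.boundary N, (f : C(N → I, Y)) x = y := f.2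

theorem compat3 (s : I) : Compat f (Smash y y) (slice (α3 P c f) s) (slice (β3 c) s) where
  zero h hh x := by
    simp only [slice_apply, α3, β3, ContinuousMap.coe_mk, pp_zero_right, nn_zero_right, GG_zero]
    rfl
  bd h hh x t hx := by
    simp only [slice_apply, α3, β3, ContinuousMap.coe_mk]
    refine hh _ (GG_mem_of_mem P c _ (f_bd f) hx _ _) _ (Or.inl ?_)
    exact c.W_base s
  one h hh x := by
    simp only [slice_apply, α3, β3, ContinuousMap.coe_mk, pp_one_right, nn_one_right]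
    refine hh _ (GG_one_zero P c _ (f_bd f) x) _ (Or.inl ?_)
    exact c.W_base s

/-- the Hopf homomorphism `G^* : C(Y ∧ Y) → C(S^{N+1})` -/
def Gstar (f : GenLoop N Y y) : Smash y y →ₐ[ℂ] SA' N :=
  CR.comap (G P c (f : C(N → I, Y))) (G_mapsTo P c _ (f_bd f))

theorem stage3_end (x₀ : N → I) :
    toCone (Smash y y) (slice (α3 P c f) 1) (slice (β3 c) 1) (compat3 P c 1) =
      (ConeAlg.q x₀ : SA' N →ₐ[ℂ] ConeAlg y f).comp (Gstar P c f) := by
  refine AlgHom.ext fun a => Subtype.ext (Prod.ext ?_ ?_)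
  · ext p; rfl
  · ext p
    show (a : C(Y × Y, ℂ)) (c.W (1, p), c.W' (1, p)) = (a : C(Y × Y, ℂ)) (G P c (f : C(N → I, Y)) (x₀, 0))
    exact a.2 _ (c.one p) _ (G_zero P c _ x₀)

theorem stage3_start (f : GenLoop N Y y) :
    (toCone (Smash y y) (slice (α3 P c f) 0) (slice (β3 c) 0) (compat3 P c 0)).comp (res f) =
      toCone (CW f) (slice (α2 P) 1) (slice (βc (N := N) (Y := Y)) 1) (compat2 P 1) := by
  refine AlgHom.ext fun a => Subtype.ext (Prod.ext ?_ ?_)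
  · ext p
    obtain ⟨x, t⟩ := p
    show (a : C(Zc N Y × Zc N Y, ℂ))
      (Sum.inr (GG P c (f : C(N → I, Y)) (x, pp 0 t, nn 0 t)).1,
        Sum.inr (GG P c (f : C(N → I, Y)) (x, pp 0 t, nn 0 t)).2) =
      (a : C(Zc N Y × Zc N Y, ℂ)) (Sum.inl (P.w (t, x), σ 1 * t), Sum.inl (P.w' (t, x), σ 1 * t))
    rw [pp_zero_left, nn_zero_left, GG_right_zero, unitInterval.symm_one, zero_mul]
    exact (CC_both a.2.1 (glue_zero f _) (glue_zero f _)).symm
  · ext p
    show (a : C(Zc N Y × Zc N Y, ℂ)) (Sum.inr (c.W (0, p)), Sum.inr (c.W' (0, p))) =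
      (a : C(Zc N Y × Zc N Y, ℂ)) (Sum.inr p, Sum.inr p)
    rw [c.W_zero, c.W'_zero]

theorem stage1_start :
    toCone (CW f) (slice (α1 P) 0) (slice (βc (N := N) (Y := Y)) 0) (compat1 P 0) =
      (Δ f).comp (incl f) := by
  refine AlgHom.ext fun a => Subtype.ext (Prod.ext ?_ ?_)
  · ext p
    obtain ⟨x, t⟩ := p
    show (a : C(Zc N Y × Zc N Y, ℂ)) (Sum.inl (P.w (0 * t, x), t), Sum.inl (P.w' (0 * t, x), t)) =
      (a : C(Zc N Y × Zc N Y, ℂ)) (Sum.inl (x, t), Sum.inl (x, t))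
    rw [zero_mul, P.w_zero, P.w'_zero]
  · ext p; rfl

theorem stage12 :
    toCone (CW f) (slice (α1 P) 1) (slice (βc (N := N) (Y := Y)) 1) (compat1 P 1) =
      toCone (CW f) (slice (α2 P) 0) (slice (βc (N := N) (Y := Y)) 0) (compat2 P 0) := by
  refine AlgHom.ext fun a => Subtype.ext (Prod.ext ?_ ?_)
  · ext p
    obtain ⟨x, t⟩ := p
    show (a : C(Zc N Y × Zc N Y, ℂ)) (Sum.inl (P.w (1 * t, x), t), Sum.inl (P.w' (1 * t, x), t)) =
      (a : C(Zc N Y × Zc N Y, ℂ)) (Sum.inl (P.w (t, x), σ 0 * t), Sum.inl (P.w' (t, x), σ 0 * t))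
    rw [one_mul, unitInterval.symm_zero, one_mul]
  · ext p; rfl

/-- **DIAG**: on `K0` of `C ∧ C` the diagonal of the mapping cone is collapse, then Hopf map, then
restriction to `Y ∧ Y`. -/
theorem diag_eq [CompactSpace Y] (x₀ : N → I) (B : K0 (CW f)) :
    kS (Δ f) (kS (incl f) B) =
      kS (ConeAlg.q x₀ : SA' N →ₐ[ℂ] ConeAlg y f) (kS (Gstar P c f) (kS (res f) B)) := by
  rw [← kS_comp, ← stage1_start P, toCone_homotopy (CW f) (α1 P) βc (compat1 P), stage12,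
    toCone_homotopy (CW f) (α2 P) βc (compat2 P), ← stage3_start P c, kS_comp,
    toCone_homotopy (Smash y y) (α3 P c f) (β3 c) (compat3 P c), stage3_end P c x₀, kS_comp]

end Crest.Agent.R204.Diag484
end
end

-- ▼ part R204/HMain_515
section

/-!
# Row 204, block H: K-theory side, squares in the mapping cone (helper515)

* `pdCone f` : the formal product `PD ℂ (ConeAlg y f) (ConeAlg y f) (CC f)`;
* `smCone f` : `CW f` is its smash algebra;
* `square`   : `x` reduced ⇒ `x * x = q^* (G^* (res x ∧ res x))`.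
-/

set_option autoImplicit false

open scoped unitInterval Topology Topology.Homotopy

noncomputable section

namespace Crest.Agent.R204.HMain515

open H472 Ex837 ExM515 Diag484 HopfMap484
open K357 (K0)

variable {N : Type} {Y : Type} [TopologicalSpace Y] {y : Y} {f : GenLoop N Y y}

/-- elements of the cone algebra as functions on cell ⊔ base -/
def cz : ConeAlg y f →ₐ[ℂ] C(Zc N Y, ℂ) where
  toFun p := ⟨Sum.elim (p : C((N → I) × I, ℂ) × C(Y, ℂ)).1 (p : C((N → I) × I, ℂ) × C(Y, ℂ)).2,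
    by fun_prop⟩
  map_one' := by
    ext (z | z) <;> simp
  map_mul' a b := by
    ext (z | z) <;> simp
  map_zero' := by
    ext (z | z) <;> simp
  map_add' a b := by
    ext (z | z) <;> simp
  commutes' r := by
    ext (z | z) <;> rfl

@[simp] theorem cz_inl (p : ConeAlg y f) (z : (N → I) × I) :
    cz p (Sum.inl z) = (p : C((N → I) × I, ℂ) × C(Y, ℂ)).1 z := rfl
@[simp] theorem cz_inr (p : ConeAlg y f) (z : Y) :
    cz p (Sum.inr z) = (p : C((N → I) × I, ℂ) × C(Y, ℂ)).2 z := rfl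

theorem cz_glue (p : ConeAlg y f) {z z' : Zc N Y} (h : Glue f z z') : cz p z = cz p z' := by
  obtain ⟨h1, h2, h3⟩ := p.2
  rcases z with ⟨x, t⟩ | z <;> rcases z' with ⟨x', t'⟩ | z'
  · exact h.elim
  · rcases h with ⟨ht, hz⟩ | ⟨hx, hz⟩ | ⟨ht, hz⟩
    · simp only at ht hz
      subst ht hz
      exact h1 x
    · simp only at hx
      subst hz
      exact h2 x t hx
    · simp only at ht
      subst ht hz
      exact h3 x
  · exact h.elim
  · exact h.elim

/-- pullback along the first projection -/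
def ci1 : ConeAlg y f →ₐ[ℂ] CC f :=
  ((ContinuousMap.compRightAlgHom ℂ ℂ (ContinuousMap.fst : C(Zc N Y × Zc N Y, Zc N Y))).comp
    cz).codRestrict (CC f) (fun p _ _ _ h => ⟨cz_glue p h, rfl⟩)

/-- pullback along the second projection -/
def ci2 : ConeAlg y f →ₐ[ℂ] CC f :=
  ((ContinuousMap.compRightAlgHom ℂ ℂ (ContinuousMap.snd : C(Zc N Y × Zc N Y, Zc N Y))).comp
    cz).codRestrict (CC f) (fun p _ _ _ h => ⟨rfl, cz_glue p h⟩)

@[simp] theorem ci1_apply (p : ConeAlg y f) (w : Zc N Y × Zc N Y) :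
    ((ci1 p : CC f) : C(Zc N Y × Zc N Y, ℂ)) w = cz p w.1 := rfl
@[simp] theorem ci2_apply (p : ConeAlg y f) (w : Zc N Y × Zc N Y) :
    ((ci2 p : CC f) : C(Zc N Y × Zc N Y, ℂ)) w = cz p w.2 := rfl

theorem compat_l (f : GenLoop N Y y) : Compat f (CC f)
    (⟨fun p => (Sum.inl p, Sum.inr y), by fun_prop⟩ : C((N → I) × I, Zc N Y × Zc N Y))
    (⟨fun p => (Sum.inr p, Sum.inr y), by fun_prop⟩ : C(Y, Zc N Y × Zc N Y)) where
  zero _ hh x := CC_left hh _ (glue_zero f x)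
  bd _ hh _ t hx := CC_left hh _ (glue_bd f hx t)
  one _ hh x := CC_left hh _ (glue_one f x)

theorem compat_r (f : GenLoop N Y y) : Compat f (CC f)
    (⟨fun p => (Sum.inr y, Sum.inl p), by fun_prop⟩ : C((N → I) × I, Zc N Y × Zc N Y))
    (⟨fun p => (Sum.inr y, Sum.inr p), by fun_prop⟩ : C(Y, Zc N Y × Zc N Y)) where
  zero _ hh x := CC_right hh _ (glue_zero f x)
  bd _ hh _ t hx := CC_right hh _ (glue_bd f hx t)
  one _ hh x := CC_right hh _ (glue_one f x)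

/-- restriction to the first axis -/
def cr1 : CC f →ₐ[ℂ] ConeAlg y f := toCone (CC f) _ _ (compat_l f)
/-- restriction to the second axis -/
def cr2 : CC f →ₐ[ℂ] ConeAlg y f := toCone (CC f) _ _ (compat_r f)

theorem coneExt {p q : ConeAlg y f} (h : ∀ z, cz p z = cz q z) : p = q := by
  refine Subtype.ext (Prod.ext ?_ ?_)
  · ext z; exact h (Sum.inl z)
  · ext z; exact h (Sum.inr z)

theorem cz_cr1 (F : CC f) (z : Zc N Y) :
    cz (cr1 F) z = (F : C(Zc N Y × Zc N Y, ℂ)) (z, Sum.inr y) := by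
  rcases z with z | z <;> rfl

theorem cz_cr2 (F : CC f) (z : Zc N Y) :
    cz (cr2 F) z = (F : C(Zc N Y × Zc N Y, ℂ)) (Sum.inr y, z) := by
  rcases z with z | z <;> rfl

theorem cz_Δ (F : CC f) (z : Zc N Y) :
    cz (Δ f F) z = (F : C(Zc N Y × Zc N Y, ℂ)) (z, z) := by
  rcases z with z | z <;> rfl

/-- the formal product of the cone algebra with itself -/
def pdCone (f : GenLoop N Y y) : PD ℂ (ConeAlg y f) (ConeAlg y f) (CC f) where
  e := ConeAlg.ev
  e' := ConeAlg.ev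
  i1 := ci1
  i2 := ci2
  r1 := cr1
  r2 := cr2
  r1_i1 b := coneExt fun z => by rw [cz_cr1]; rfl
  r2_i2 b := coneExt fun z => by rw [cz_cr2]; rfl
  r1_i2 b := coneExt fun z => by rw [cz_cr1]; rcases z with z | z <;> rfl
  r2_i1 b := coneExt fun z => by rw [cz_cr2]; rcases z with z | z <;> rfl
  e_r F := rfl

/-- `CW f` is the smash algebra -/
def smCone (f : GenLoop N Y y) : (pdCone f).Sm (CW f) where
  inc := incl f
  ev := (ContinuousMap.evalAlgHom ℂ ℂ ((Sum.inr y, Sum.inr y) : Zc N Y × Zc N Y)).comp (CW f).val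
  r1_inc s := coneExt fun z => by
    change cz (cr1 (incl f s)) z = _
    rw [cz_cr1, incl_coe, CW_base_right s.2]
    rcases z with z | z <;> rfl
  r2_inc s := coneExt fun z => by
    change cz (cr2 (incl f s)) z = _
    rw [cz_cr2, incl_coe, CW_base_left s.2]
    rcases z with z | z <;> rfl
  inj' a b h := Subtype.ext (congrArg (fun F : CC f => (F : C(Zc N Y × Zc N Y, ℂ))) h)
  lift' F c h1 h2 := by
    have e1 : ∀ z, (F : C(Zc N Y × Zc N Y, ℂ)) (z, Sum.inr y) = c := fun z => by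
      have := congrArg (fun p : ConeAlg y f => cz p z) h1
      change cz (cr1 F) z = cz (algebraMap ℂ (ConeAlg y f) c) z at this
      rw [cz_cr1] at this
      rw [this]
      rcases z with z | z <;> rfl
    have e2 : ∀ z, (F : C(Zc N Y × Zc N Y, ℂ)) (Sum.inr y, z) = c := fun z => by
      have := congrArg (fun p : ConeAlg y f => cz p z) h2
      change cz (cr2 F) z = cz (algebraMap ℂ (ConeAlg y f) c) z at this
      rw [cz_cr2] at this
      rw [this]
      rcases z with z | z <;> rfl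
    have e3 : ∀ p ∈ wedge (Sum.inr y : Zc N Y) (Sum.inr y : Zc N Y),
        (F : C(Zc N Y × Zc N Y, ℂ)) p = c := by
      rintro ⟨z, w⟩ (h | h)
      · simp only at h; subst h; exact e2 w
      · simp only at h; subst h; exact e1 z
    exact ⟨⟨F, F.2, fun p hp q hq => by rw [e3 p hp, e3 q hq]⟩, rfl⟩

/-! ## the square of a reduced class -/

/-- `K0` of a commutative ring (instance path through `CommRing`) -/
abbrev KC (A : Type) [CommRing A] : Type := @K0 A CommRing.toRing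

/-- induced ring homomorphism -/
abbrev KM {A B : Type} [CommRing A] [CommRing B] (φ : A →+* B) : KC A →+* KC B := K0.mapRing φ

section KM

variable {A B C : Type} [CommRing A] [CommRing B] [CommRing C]

theorem KM_comp (φ : A →+* B) (ψ : B →+* C) (χ : A →+* C) (h : ∀ a, ψ (φ a) = χ a) (x : KC A) :
    KM ψ (KM φ x) = KM χ x := by
  have h1 : χ = ψ.comp φ := RingHom.ext fun a => (h a).symm
  subst h1
  exact (K0.map_comp ψ φ x).symm

theorem KM_id (φ : A →+* A) (h : ∀ a, φ a = a) (x : KC A) : KM φ x = x := by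
  have : φ = RingHom.id A := RingHom.ext h
  subst this
  exact K0.map_id x

end KM

/-- restriction `C × C ⊇ Y × Y` -/
def rho (f : GenLoop N Y y) : CC f →ₐ[ℂ] C(Y × Y, ℂ) :=
  (ContinuousMap.compRightAlgHom ℂ ℂ
    (⟨fun p => (Sum.inr p.1, Sum.inr p.2), by fun_prop⟩ : C(Y × Y, Zc N Y × Zc N Y))).comp
      (CC f).val

theorem Δ_ci1 (p : ConeAlg y f) : Δ f (ci1 p) = p := coneExt fun z => by rw [cz_Δ]; rfl
theorem Δ_ci2 (p : ConeAlg y f) : Δ f (ci2 p) = p := coneExt fun z => by rw [cz_Δ]; rfl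

/-! named homomorphisms on `K0` -/

/-- `CW → CC` -/
abbrev kInc (f : GenLoop N Y y) : KC (CW f) →+* KC (CC f) :=
  KM (A := CW f) (B := CC f) (incl f).toRingHom
/-- diagonal -/
abbrev kDl (f : GenLoop N Y y) : KC (CC f) →+* KC (ConeAlg y f) :=
  KM (A := CC f) (B := ConeAlg y f) (Δ f).toRingHom
/-- first projection -/
abbrev kI1 (f : GenLoop N Y y) : KC (ConeAlg y f) →+* KC (CC f) :=
  KM (A := ConeAlg y f) (B := CC f) (pdCone f).i1.toRingHom
/-- second projection -/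
abbrev kI2 (f : GenLoop N Y y) : KC (ConeAlg y f) →+* KC (CC f) :=
  KM (A := ConeAlg y f) (B := CC f) (pdCone f).i2.toRingHom
/-- base point of the cone -/
abbrev kE (f : GenLoop N Y y) : KC (ConeAlg y f) →+* KC ℂ :=
  KM (A := ConeAlg y f) (B := ℂ) (pdCone f).e.toRingHom
/-- `CW → C(Y ∧ Y)` -/
abbrev kW (f : GenLoop N Y y) : KC (CW f) →+* KC (Smash y y) :=
  KM (A := CW f) (B := Smash y y) (Diag484.res f).toRingHom
/-- restriction to `Y` -/
abbrev kR (f : GenLoop N Y y) : KC (ConeAlg y f) →+* KC C(Y, ℂ) :=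
  KM (A := ConeAlg y f) (B := C(Y, ℂ)) (resR f)
/-- `CC → C(Y × Y)` -/
abbrev kRho (f : GenLoop N Y y) : KC (CC f) →+* KC C(Y × Y, ℂ) :=
  KM (A := CC f) (B := C(Y × Y, ℂ)) (rho f).toRingHom
/-- collapse -/
abbrev kQ (f : GenLoop N Y y) (x₀ : N → I) : KC (SA' N) →+* KC (ConeAlg y f) :=
  KM (A := SA' N) (B := ConeAlg y f) (qR f x₀)
/-- Hopf map -/
abbrev kG (P : CoP (N → I) (Cube.boundary N)) (c : CoH Y y) (f : GenLoop N Y y) :
    KC (Smash y y) →+* KC (SA' N) := KM (A := Smash y y) (B := SA' N) (Gstar P c f).toRingHom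
/-- base point of `Y` -/
abbrev kY (y : Y) : KC C(Y, ℂ) →+* KC ℂ := KM (A := C(Y, ℂ)) (B := ℂ) (pdC y y).e.toRingHom

theorem kDl_kI1 (x : KC (ConeAlg y f)) : kDl f (kI1 f x) = x :=
  (KM_comp (A := ConeAlg y f) (B := CC f) (C := ConeAlg y f) _ _ (RingHom.id _) Δ_ci1 x).trans
    (KM_id _ (fun _ => rfl) x)

theorem kDl_kI2 (x : KC (ConeAlg y f)) : kDl f (kI2 f x) = x :=
  (KM_comp (A := ConeAlg y f) (B := CC f) (C := ConeAlg y f) _ _ (RingHom.id _) Δ_ci2 x).trans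
    (KM_id _ (fun _ => rfl) x)

theorem kY_kR (x : KC (ConeAlg y f)) : kY y (kR f x) = kE f x :=
  KM_comp (A := ConeAlg y f) (B := C(Y, ℂ)) (C := ℂ) _ _ _ (fun _ => rfl) x

theorem kInc_ext {x : KC (ConeAlg y f)} (hx : kE f x = 0) :
    kInc f ((smCone f).ext x x) = kI1 f x * kI2 f x :=
  (smCone f).inc_ext (x := x) (y := x) hx hx

/-- `Δ^* (i₁ x · i₂ x) = x²` -/
theorem delta_ext {x : KC (ConeAlg y f)} (hx : kE f x = 0) :
    kDl f (kInc f ((smCone f).ext x x)) = x * x := by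
  rw [kInc_ext hx, map_mul, kDl_kI1, kDl_kI2]

theorem kRho_kInc (z : KC (CW f)) : kRho f (kInc f z) =
    KM (A := Smash y y) (B := C(Y × Y, ℂ)) (smC y y).inc.toRingHom (kW f z) := by
  have a1 := KM_comp (A := CW f) (B := CC f) (C := C(Y × Y, ℂ)) (incl f).toRingHom
    (rho f).toRingHom ((rho f).toRingHom.comp (incl f).toRingHom) (fun _ => rfl) z
  have a2 := KM_comp (A := CW f) (B := Smash y y) (C := C(Y × Y, ℂ)) (Diag484.res f).toRingHom
    (smC y y).inc.toRingHom ((rho f).toRingHom.comp (incl f).toRingHom) (fun _ => rfl) z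
  exact a1.trans a2.symm

theorem kRho_kI1 (x : KC (ConeAlg y f)) : kRho f (kI1 f x) =
    KM (A := C(Y, ℂ)) (B := C(Y × Y, ℂ)) (pdC y y).i1.toRingHom (kR f x) := by
  have a1 := KM_comp (A := ConeAlg y f) (B := CC f) (C := C(Y × Y, ℂ)) (pdCone f).i1.toRingHom
    (rho f).toRingHom ((pdC y y).i1.toRingHom.comp (resR f)) (fun _ => rfl) x
  have a2 := KM_comp (A := ConeAlg y f) (B := C(Y, ℂ)) (C := C(Y × Y, ℂ)) (resR f)
    (pdC y y).i1.toRingHom ((pdC y y).i1.toRingHom.comp (resR f)) (fun _ => rfl) x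
  exact a1.trans a2.symm

theorem kRho_kI2 (x : KC (ConeAlg y f)) : kRho f (kI2 f x) =
    KM (A := C(Y, ℂ)) (B := C(Y × Y, ℂ)) (pdC y y).i2.toRingHom (kR f x) := by
  have a1 := KM_comp (A := ConeAlg y f) (B := CC f) (C := C(Y × Y, ℂ)) (pdCone f).i2.toRingHom
    (rho f).toRingHom ((pdC y y).i2.toRingHom.comp (resR f)) (fun _ => rfl) x
  have a2 := KM_comp (A := ConeAlg y f) (B := C(Y, ℂ)) (C := C(Y × Y, ℂ)) (resR f)
    (pdC y y).i2.toRingHom ((pdC y y).i2.toRingHom.comp (resR f)) (fun _ => rfl) x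
  exact a1.trans a2.symm

/-- restriction of the external square to `Y ∧ Y` -/
theorem res_ext {x : KC (ConeAlg y f)} (hx : kE f x = 0) :
    kW f ((smCone f).ext x x) = (smC y y).ext (kR f x) (kR f x) := by
  have hr : kY y (kR f x) = 0 := by rw [kY_kR, hx]
  refine (smC y y).eq_ext (x := kR f x) (y := kR f x) hr hr ?_ ?_
  · change KM (A := Smash y y) (B := C(Y × Y, ℂ)) (smC y y).inc.toRingHom
      (kW f ((smCone f).ext x x)) =
      KM (A := C(Y, ℂ)) (B := C(Y × Y, ℂ)) (pdC y y).i1.toRingHom (kR f x) *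
        KM (A := C(Y, ℂ)) (B := C(Y × Y, ℂ)) (pdC y y).i2.toRingHom (kR f x)
    rw [← kRho_kInc, kInc_ext hx, map_mul, kRho_kI1, kRho_kI2]
  · have a1 := KM_comp (A := CW f) (B := Smash y y) (C := ℂ) (Diag484.res f).toRingHom
      (smC y y).ev.toRingHom (smCone f).ev.toRingHom (fun _ => rfl) ((smCone f).ext x x)
    exact a1.trans ((smCone f).ev_ext (x := x) (y := x) hx hx)

/-- 484's diagonal theorem on the `CommRing` path -/
theorem diag_KM [CompactSpace Y] (P : CoP (N → I) (Cube.boundary N)) (c : CoH Y y) (x₀ : N → I)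
    (B : KC (CW f)) : kDl f (kInc f B) = kQ f x₀ (kG P c f (kW f B)) :=
  diag_eq P c x₀ B

/-- **THE SQUARE** of a reduced class of the mapping cone -/
theorem square [CompactSpace Y] (P : CoP (N → I) (Cube.boundary N)) (c : CoH Y y) (x₀ : N → I)
    {x : KC (ConeAlg y f)} (hx : kE f x = 0) :
    x * x = kQ f x₀ (kG P c f ((smC y y).ext (kR f x) (kR f x))) := by
  rw [← delta_ext hx, diag_KM P c x₀, res_ext hx]

end Crest.Agent.R204.HMain515
end
end

-- ▼ part R204/HAlg_472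
section

/-!
# Row 204, block H: final algebra (Adams–Atiyah) and number theory (helper472)
-/

set_option autoImplicit false

namespace Crest.Agent.R204.H472

/-- `2^a ∣ 3^a - 1` with `a ≥ 1` forces `a ∈ {1,2,4}` -/
theorem two_pow_dvd {a : ℕ} (ha : 1 ≤ a) (h : (2 : ℤ) ^ a ∣ 3 ^ a - 1) : a = 1 ∨ a = 2 ∨ a = 4 := by
  have hN : 2 ^ a ∣ 3 ^ a - 1 := by
    have h1 : (1 : ℕ) ≤ 3 ^ a := Nat.one_le_pow _ _ (by norm_num)
    have : ((2 ^ a : ℕ) : ℤ) ∣ ((3 ^ a - 1 : ℕ) : ℤ) := by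
      rw [Nat.cast_sub h1]
      push_cast
      exact h
    exact_mod_cast this
  rcases Nat.even_or_odd a with he | ho
  · have h0 : a ≠ 0 := by omega
    have key := padicValNat.pow_two_sub_one (x := 3) (n := a) (by norm_num) (by norm_num) h0 he
    have h31 : padicValNat 2 (3 + 1) = 2 := by
      have : (3 + 1 : ℕ) = 2 ^ 2 := by norm_num
      rw [this, padicValNat.prime_pow]
    have h32 : padicValNat 2 (3 - 1) = 1 := by
      have : (3 - 1 : ℕ) = 2 ^ 1 := by norm_num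
      rw [this, padicValNat.prime_pow]
    rw [h31, h32] at key
    have hne : 3 ^ a - 1 ≠ 0 := by
      have : 3 ^ 1 ≤ 3 ^ a := Nat.pow_le_pow_right (by norm_num) ha
      omega
    have hle : a ≤ padicValNat 2 (3 ^ a - 1) := (padicValNat_dvd_iff_le hne).mp hN
    have hval : a ≤ 2 + padicValNat 2 a := by omega
    have hd : 2 ^ (padicValNat 2 a) ≤ a := Nat.le_of_dvd (by omega) pow_padicValNat_dvd
    have hlt : padicValNat 2 a < 3 := by
      by_contra hcon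
      push Not at hcon
      have : ∀ n : ℕ, 3 ≤ n → 2 + n < 2 ^ n := by
        intro n hn
        induction n, hn using Nat.le_induction with
        | base => norm_num
        | succ n hn ih => rw [pow_succ]; omega
      have := this _ hcon
      omega
    have ha4 : a ≤ 4 := by omega
    interval_cases a
    · exact absurd he (by decide)
    · omega
    · exact absurd he (by decide)
    · omega
  · -- `a` odd: `3^a - 1 = 2 mod 4`
    have h4 : 3 ^ a % 4 = 3 := by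
      obtain ⟨k, hk⟩ := ho
      rw [hk, pow_add, pow_mul]
      norm_num [Nat.mul_mod, Nat.pow_mod]
    have : a < 2 := by
      by_contra hcon
      push Not at hcon
      have h5 : 2 ^ 2 ∣ 3 ^ a - 1 := (pow_dvd_pow 2 hcon).trans hN
      have h6 : 4 ∣ 3 ^ a - 1 := by simpa using h5
      generalize 3 ^ a = t at h4 h6
      omega
    omega

/-- The algebraic heart of the Adams–Atiyah argument. -/
theorem adams_core {R : Type*} [CommRing R] (ψ2 ψ3 : R →+* R)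
    (hcomm : ∀ r, ψ2 (ψ3 r) = ψ3 (ψ2 r)) (h2 : ∀ r, ∃ s, ψ2 r = r ^ 2 + 2 * s)
    {a : ℕ} (ha : 1 ≤ a) {x y : R} {μ2 μ3 h : ℤ}
    (hx2 : ψ2 x = (2 : ℤ) ^ a • x + μ2 • y) (hx3 : ψ3 x = (3 : ℤ) ^ a • x + μ3 • y)
    (hy2 : ψ2 y = (4 : ℤ) ^ a • y) (hy3 : ψ3 y = (9 : ℤ) ^ a • y)
    (hxx : x ^ 2 = h • y) (hodd : Odd h)
    (htf : ∀ n : ℤ, n • y = 0 → n = 0)
    (hdiv : ∀ (n : ℤ) (w : R), n • y = 2 * w → Even n) : a = 1 ∨ a = 2 ∨ a = 4 := by
  have e1 : ψ2 (ψ3 x) = (3 : ℤ) ^ a • ((2 : ℤ) ^ a • x + μ2 • y) + μ3 • ((4 : ℤ) ^ a • y) := by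
    rw [hx3, map_add, map_zsmul, map_zsmul, hx2, hy2]
  have e2 : ψ3 (ψ2 x) = (2 : ℤ) ^ a • ((3 : ℤ) ^ a • x + μ3 • y) + μ2 • ((9 : ℤ) ^ a • y) := by
    rw [hx2, map_add, map_zsmul, map_zsmul, hx3, hy3]
  have e3 := hcomm x
  rw [e1, e2] at e3
  have e4 : ((3 : ℤ) ^ a * μ2 + (4 : ℤ) ^ a * μ3 - ((2 : ℤ) ^ a * μ3 + (9 : ℤ) ^ a * μ2)) • y = 0 := by
    have e5 : ((3 : ℤ) ^ a * μ2 + (4 : ℤ) ^ a * μ3 - ((2 : ℤ) ^ a * μ3 + (9 : ℤ) ^ a * μ2)) • y
        = ((3 : ℤ) ^ a • ((2 : ℤ) ^ a • x + μ2 • y) + μ3 • ((4 : ℤ) ^ a • y))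
          - ((2 : ℤ) ^ a • ((3 : ℤ) ^ a • x + μ3 • y) + μ2 • ((9 : ℤ) ^ a • y)) := by
      simp only [zsmul_eq_mul]
      push_cast
      ring
    rw [e5, e3, sub_self]
  have e6 := htf _ e4
  -- `μ2` is odd
  obtain ⟨s, hs⟩ := h2 x
  rw [hx2, hxx] at hs
  have hev : Even (μ2 - h) := by
    refine hdiv (μ2 - h) (s - (2 : ℤ) ^ (a - 1) • x) ?_
    have h2a : (2 : ℤ) ^ a = 2 * 2 ^ (a - 1) := by
      rw [← pow_succ']
      congr 1
      omega
    rw [h2a] at hs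
    simp only [zsmul_eq_mul] at hs ⊢
    push_cast at hs ⊢
    linear_combination hs
  have hμ : Odd μ2 := by
    have : μ2 = (μ2 - h) + h := by ring
    rw [this]
    exact hev.add_odd hodd
  -- `2^a ∣ 3^a (3^a - 1) μ2`
  have h4 : (4 : ℤ) ^ a = 2 ^ a * 2 ^ a := by rw [← mul_pow]; norm_num
  have h9 : (9 : ℤ) ^ a = 3 ^ a * 3 ^ a := by rw [← mul_pow]; norm_num
  have hd : (2 : ℤ) ^ a ∣ (3 ^ a * (3 ^ a - 1)) * μ2 := by
    refine ⟨(2 ^ a - 1) * μ3, ?_⟩
    rw [h4, h9] at e6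
    linear_combination -e6
  have hc1 : IsCoprime ((2 : ℤ) ^ a) μ2 := by
    apply IsCoprime.pow_left
    obtain ⟨k, hk⟩ := hμ
    exact ⟨-k, 1, by rw [hk]; ring⟩
  have hc2 : IsCoprime ((2 : ℤ) ^ a) (3 ^ a) := IsCoprime.pow ⟨-1, 1, by norm_num⟩
  have hd2 : (2 : ℤ) ^ a ∣ 3 ^ a * (3 ^ a - 1) := hc1.dvd_of_dvd_mul_right hd
  have hd3 : (2 : ℤ) ^ a ∣ 3 ^ a - 1 := hc2.dvd_of_dvd_mul_left hd2
  exact two_pow_dvd ha hd3

end Crest.Agent.R204.H472
end

-- ▼ part R204/HCore_472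
section

/-!
# Row 204, block H: the K-theoretic Hopf invariant one theorem, ring level (helper472)

`P = K(C_f)`, `S = K(S^{2m})` (via `q : C_f → S^{2m}`), `T = K(S^m)` (via the inclusion), `U = K(pt)`.
-/

set_option autoImplicit false

namespace Crest.Agent.R204.H472

theorem hopf_core {P S T U : Type*} [CommRing P] [CommRing S] [CommRing T] [CommRing U]
    (q : S →+* P) (res : P →+* T) (evS : S →+* U) (evT : T →+* U)
    (ψ2P ψ3P : P →+* P) (ψ2S ψ3S : S →+* S) (ψ2T ψ3T : T →+* T)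
    (n2q : ∀ s, ψ2P (q s) = q (ψ2S s)) (n3q : ∀ s, ψ3P (q s) = q (ψ3S s))
    (n2r : ∀ x, ψ2T (res x) = res (ψ2P x)) (n3r : ∀ x, ψ3T (res x) = res (ψ3P x))
    (hcomm : ∀ r, ψ2P (ψ3P r) = ψ3P (ψ2P r)) (h2 : ∀ r, ∃ s, ψ2P r = r ^ 2 + 2 * s)
    {a : ℕ} (ha : 1 ≤ a)
    (bT : T) (hbT : evT bT = 0) (freeT : ∀ n : ℤ, n • bT = 0 → n = 0)
    (genT : ∀ t, evT t = 0 → ∃ n : ℤ, t = n • bT)
    (bS : S) (hbS : evS bS = 0) (freeS : ∀ n : ℤ, n • bS = 0 → n = 0)
    (genS : ∀ s, evS s = 0 → ∃ n : ℤ, s = n • bS)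
    (ψ2b : ψ2T bT = (2 : ℤ) ^ a • bT) (ψ3b : ψ3T bT = (3 : ℤ) ^ a • bT)
    (ψ2c : ψ2S bS = (4 : ℤ) ^ a • bS) (ψ3c : ψ3S bS = (9 : ℤ) ^ a • bS)
    (res_q : ∀ s, evS s = 0 → res (q s) = 0)
    (ex : ∀ x, res x = 0 → ∃ s, evS s = 0 ∧ q s = x)
    (surj : ∃ x, res x = bT)
    (inj : ∀ s, evS s = 0 → q s = 0 → s = 0)
    (htwo : ∀ u : U, 2 * u = 0 → u = 0)
    (sq : ∀ x, res x = bT → ∃ D : ℤ, Odd D ∧ x ^ 2 = D • q bS) : a = 1 ∨ a = 2 ∨ a = 4 := by
  obtain ⟨x, hx⟩ := surj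
  obtain ⟨D, hD, hxx⟩ := sq x hx
  have hμ2 : ∃ μ2 : ℤ, ψ2P x = (2 : ℤ) ^ a • x + μ2 • q bS := by
    obtain ⟨s, hs0, hs⟩ := ex (ψ2P x - (2 : ℤ) ^ a • x) (by
      rw [map_sub, map_zsmul, ← n2r, hx, ψ2b, sub_self])
    obtain ⟨n, rfl⟩ := genS s hs0
    exact ⟨n, by rw [← map_zsmul, hs]; abel⟩
  have hμ3 : ∃ μ3 : ℤ, ψ3P x = (3 : ℤ) ^ a • x + μ3 • q bS := by
    obtain ⟨s, hs0, hs⟩ := ex (ψ3P x - (3 : ℤ) ^ a • x) (by
      rw [map_sub, map_zsmul, ← n3r, hx, ψ3b, sub_self])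
    obtain ⟨n, rfl⟩ := genS s hs0
    exact ⟨n, by rw [← map_zsmul, hs]; abel⟩
  obtain ⟨μ2, hμ2⟩ := hμ2
  obtain ⟨μ3, hμ3⟩ := hμ3
  have hev : ∀ n : ℤ, evS (n • bS) = 0 := fun n => by rw [map_zsmul, hbS, smul_zero]
  have htf : ∀ n : ℤ, n • q bS = 0 → n = 0 := by
    intro n hn
    apply freeS
    apply inj _ (hev n)
    rw [map_zsmul, hn]
  refine adams_core ψ2P ψ3P hcomm h2 ha hμ2 hμ3 ?_ ?_ hxx hD htf ?_
  · rw [n2q, ψ2c, map_zsmul]
  · rw [n3q, ψ3c, map_zsmul]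
  · intro n w hw
    have h1 : 2 * res w = 0 := by
      have : res (n • q bS) = res (2 * w) := by rw [hw]
      rw [map_zsmul, res_q bS hbS, smul_zero, map_mul, map_ofNat] at this
      exact this.symm
    have h3 : evT (res w) = 0 := htwo _ (by
      have : evT (2 * res w) = 0 := by rw [h1, map_zero]
      rwa [map_mul, map_ofNat] at this)
    obtain ⟨k, hk⟩ := genT _ h3
    have h4 : (2 * k) • bT = 0 := by
      rw [mul_smul, ← hk, two_smul, ← two_mul, h1]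
    have hk0 : k = 0 := by
      have := freeT _ h4
      omega
    have h5 : res w = 0 := by rw [hk, hk0, zero_smul]
    obtain ⟨s, hs0, hs⟩ := ex w h5
    obtain ⟨c, rfl⟩ := genS s hs0
    have h6 : (n - 2 * c) • q bS = 0 := by
      rw [sub_smul, hw, ← hs, map_zsmul, mul_smul, two_smul, two_mul, sub_self]
    have h7 := htf _ h6
    exact ⟨c, by omega⟩

end Crest.Agent.R204.H472
end

-- ▼ part R204/HMainB_515
section

/-!
# Row 204, block H: the K-theoretic Hopf invariant one theorem for a mapping cone (helper515)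

`hopfK` : `a ∈ {1, 2, 4}` from: `K̃(Y) = ℤ b_T`, `ψ^k b_T = k^a b_T`, `K̃(S^N) = 0`, `K1Triv C(Y)`,
`K̃(S^{N+1}) = ℤ b_S`, `ψ^k b_S = k^{2a} b_S` and `G^*(b_T ∧ b_T) = D b_S` with `D` odd, `G` the
Hopf map of `f`.
-/

set_option autoImplicit false

open scoped unitInterval Topology Topology.Homotopy

noncomputable section

namespace Crest.Agent.R204.HMain515

open H472 Ex837 ExM515 Diag484 HopfMap484
open K357 (K0 psi psi_map psi_comm psi_two)

instance fact_two : Fact (Nat.Prime 2) := ⟨Nat.prime_two⟩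
instance fact_three : Fact (Nat.Prime 3) := ⟨Nat.prime_three⟩

variable {N : Type} {Y : Type} [TopologicalSpace Y] {y : Y}

/-- base point of `S^N` -/
abbrev kN (x₀ : N → I) : KC (SA N) →+* KC ℂ :=
  KM (A := SA N) (B := ℂ) (CR.ev x₀ : SA N →ₐ[ℂ] ℂ).toRingHom

/-- base point of `S^{N+1}` -/
abbrev kN' (x₀ : N → I) : KC (SA' N) →+* KC ℂ :=
  KM (A := SA' N) (B := ℂ) (CR.ev (x₀, 0) : SA' N →ₐ[ℂ] ℂ).toRingHom

theorem psi_KM {A B : Type} [CommRing A] [CommRing B] [Algebra ℂ A] [Algebra ℂ B] (p : ℕ)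
    [Fact p.Prime] (φ : A →ₐ[ℂ] B) (ψ : A →+* B) (h : ∀ a, ψ a = φ a) (x : KC A) :
    psi p B (KM ψ x) = KM ψ (psi p A x) := by
  have : ψ = (φ : A →+* B) := RingHom.ext h
  subst this
  exact psi_map φ x

theorem psi_kQ (p : ℕ) [Fact p.Prime] (f : GenLoop N Y y) (x₀ : N → I) (s : KC (SA' N)) :
    psi p (ConeAlg y f) (kQ f x₀ s) = kQ f x₀ (psi p (SA' N) s) := by
  have h := psi_KM (A := SA' N) (B := ConeAlg y f) p (ConeAlg.q x₀) (qR f x₀) (fun _ => rfl) s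
  exact h

theorem psi_kR (p : ℕ) [Fact p.Prime] (f : GenLoop N Y y) (s : KC (ConeAlg y f)) :
    psi p C(Y, ℂ) (kR f s) = kR f (psi p (ConeAlg y f) s) := by
  have h := psi_KM (A := ConeAlg y f) (B := C(Y, ℂ)) p ConeAlg.res (resR f) (fun _ => rfl) s
  exact h

theorem E3' [Finite N] {f : GenLoop N Y y} {x₀ : N → I} (h₀ : x₀ ∈ Cube.boundary N)
    (hN : ∀ x : KC (SA N), kN x₀ x = 0 → x = 0) {v : KC C(Y, ℂ)} (hv : kY y v = 0) :
    ∃ x : KC (ConeAlg y f), kR f x = v :=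
  (E3 (f := f) h₀ hN (v := v) hv).imp fun _ h => h.1

theorem E5' [Finite N] [Nonempty N] {f : GenLoop N Y y} (x₀ : N → I) {x : KC (ConeAlg y f)}
    (hx : kR f x = 0) : ∃ z : KC (SA' N), kN' x₀ z = 0 ∧ kQ f x₀ z = x :=
  (E5 (f := f) x₀ (x := x) hx).imp fun _ h => ⟨h.2, h.1⟩

theorem E4' [Finite N] [Nonempty N] [CompactSpace Y] {f : GenLoop N Y y} (hY : K1Triv C(Y, ℂ))
    (x₀ : N → I) {z : KC (SA' N)} (hz : kQ f x₀ z = 0) : z = 0 :=
  E4 (f := f) hY x₀ (z := z) hz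

theorem res_q' {f : GenLoop N Y y} (x₀ : N → I) {z : KC (SA' N)} (hz : kN' x₀ z = 0) :
    kR f (kQ f x₀ z) = 0 :=
  res_comp_q (f := f) x₀ (z := z) hz

/-- **the K-theoretic Hopf invariant one theorem** -/
theorem hopfK [Finite N] [Nonempty N] [CompactSpace Y] (P : CoP (N → I) (Cube.boundary N))
    (c : CoH Y y) {x₀ : N → I} (h₀ : x₀ ∈ Cube.boundary N) (f : GenLoop N Y y)
    (hSN : ∀ x : KC (SA N), kN x₀ x = 0 → x = 0) (hK1 : K1Triv C(Y, ℂ))
    {a : ℕ} (ha : 1 ≤ a)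
    (bT : KC C(Y, ℂ)) (hbT : kY y bT = 0) (freeT : ∀ n : ℤ, n • bT = 0 → n = 0)
    (genT : ∀ t, kY y t = 0 → ∃ n : ℤ, t = n • bT)
    (ψ2T : psi 2 C(Y, ℂ) bT = (2 : ℤ) ^ a • bT) (ψ3T : psi 3 C(Y, ℂ) bT = (3 : ℤ) ^ a • bT)
    (bS : KC (SA' N)) (hbS : kN' x₀ bS = 0) (freeS : ∀ n : ℤ, n • bS = 0 → n = 0)
    (genS : ∀ s, kN' x₀ s = 0 → ∃ n : ℤ, s = n • bS)
    (ψ2S : psi 2 (SA' N) bS = (4 : ℤ) ^ a • bS) (ψ3S : psi 3 (SA' N) bS = (9 : ℤ) ^ a • bS)
    {D : ℤ} (hD : Odd D) (hG : kG P c f ((smC y y).ext bT bT) = D • bS) :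
    a = 1 ∨ a = 2 ∨ a = 4 := by
  refine hopf_core (P := KC (ConeAlg y f)) (S := KC (SA' N)) (T := KC C(Y, ℂ)) (U := KC ℂ)
    (kQ f x₀) (kR f) (kN' x₀) (kY y) (psi 2 (ConeAlg y f)) (psi 3 (ConeAlg y f)) (psi 2 (SA' N))
    (psi 3 (SA' N)) (psi 2 C(Y, ℂ)) (psi 3 C(Y, ℂ)) (psi_kQ 2 f x₀) (psi_kQ 3 f x₀)
    (psi_kR 2 f) (psi_kR 3 f) (psi_comm (p := 2) (q := 3) (by norm_num)) psi_two ha bT hbT freeT
    genT bS hbS freeS genS ψ2T ψ3T ψ2S ψ3S (fun s hs => res_q' x₀ hs) (fun x hx => E5' x₀ hx)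
    (E3' h₀ hSN hbT) (fun s _ hs => E4' hK1 x₀ hs) (fun u hu => K0_field_two u hu) ?_
  intro x hx
  refine ⟨D, hD, ?_⟩
  have hx0 : kE f x = 0 := by rw [← kY_kR, hx, hbT]
  rw [pow_two, square P c x₀ hx0, hx, hG, map_zsmul]

end Crest.Agent.R204.HMain515
end
end

-- ▼ part R204/HMainC_515

/-!
# Row 204, block H: K-theoretic Hopf invariant one, form with degrees (helper515)

* `psi_ext` : `ψ^p (x ∧ y) = ψ^p x ∧ ψ^p y`;
* `KIn a y` : the K-theoretic input for the space `Y` (an even sphere `S^{2a}`);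
* `hopf_of_degree` : if the Hopf map `G` of `f`, followed by the smash collapse `Y × Y → W`, is a
  loop `g` with `cls g = cls q ^ D`, `q` the cell of `W`, `D` odd, then `a ∈ {1, 2, 4}`.
-/

set_option autoImplicit false

open scoped unitInterval Topology Topology.Homotopy

noncomputable section

namespace Crest.Agent.R204.HMain515

open H472 Ex837 ExM515 Diag484 HopfMap484 HDeg160
open K357 (K0 psi psi_map psi_comm psi_two)

/-! ## Adams operations and external products -/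

section PsiExt

variable {B B' Pr S : Type} [CommRing B] [CommRing B'] [CommRing Pr] [CommRing S]
  [Algebra ℂ B] [Algebra ℂ B'] [Algebra ℂ Pr] [Algebra ℂ S] {D : PD ℂ B B' Pr} (Z : D.Sm S)

theorem psi_ext (p : ℕ) [Fact p.Prime] {x : KC B} {y : KC B'} (hx : KM D.e.toRingHom x = 0)
    (hy : KM D.e'.toRingHom y = 0) : psi p S (Z.ext x y) = Z.ext (psi p B x) (psi p B' y) := by
  have n1 : ∀ s : KC S, KM Z.inc.toRingHom (psi p S s) = psi p Pr (KM Z.inc.toRingHom s) :=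
    fun s => (psi_KM p Z.inc _ (fun _ => rfl) s).symm
  have n2 : ∀ s : KC S, KM Z.ev.toRingHom (psi p S s) = psi p ℂ (KM Z.ev.toRingHom s) :=
    fun s => (psi_KM p Z.ev _ (fun _ => rfl) s).symm
  have n3 : ∀ s : KC B, KM D.i1.toRingHom (psi p B s) = psi p Pr (KM D.i1.toRingHom s) :=
    fun s => (psi_KM p D.i1 _ (fun _ => rfl) s).symm
  have n4 : ∀ s : KC B', KM D.i2.toRingHom (psi p B' s) = psi p Pr (KM D.i2.toRingHom s) :=
    fun s => (psi_KM p D.i2 _ (fun _ => rfl) s).symm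
  have n5 : ∀ s : KC B, KM D.e.toRingHom (psi p B s) = psi p ℂ (KM D.e.toRingHom s) :=
    fun s => (psi_KM p D.e _ (fun _ => rfl) s).symm
  have n6 : ∀ s : KC B', KM D.e'.toRingHom (psi p B' s) = psi p ℂ (KM D.e'.toRingHom s) :=
    fun s => (psi_KM p D.e' _ (fun _ => rfl) s).symm
  have h1 : KM Z.inc.toRingHom (Z.ext x y) = KM D.i1.toRingHom x * KM D.i2.toRingHom y :=
    Z.inc_ext hx hy
  have h2 : KM Z.ev.toRingHom (Z.ext x y) = 0 := Z.ev_ext hx hy
  have hx' : KM D.e.toRingHom (psi p B x) = 0 := by rw [n5, hx, map_zero]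
  have hy' : KM D.e'.toRingHom (psi p B' y) = 0 := by rw [n6, hy, map_zero]
  refine Z.eq_ext hx' hy' ?_ ?_
  · change KM Z.inc.toRingHom (psi p S (Z.ext x y)) =
      KM D.i1.toRingHom (psi p B x) * KM D.i2.toRingHom (psi p B' y)
    rw [n1, h1, map_mul, n3, n4]
  · change KM Z.ev.toRingHom (psi p S (Z.ext x y)) = 0
    rw [n2, h2, map_zero]

end PsiExt

/-! ## isomorphisms on `K0` -/

section Iso

variable {A B : Type} [CommRing A] [CommRing B] [Algebra ℂ A] [Algebra ℂ B]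

theorem KM_symm_self (e : A ≃ₐ[ℂ] B) (x : KC A) :
    KM (e.symm : B →ₐ[ℂ] A).toRingHom (KM (e : A →ₐ[ℂ] B).toRingHom x) = x :=
  (KM_comp _ _ (RingHom.id A) (fun a => e.symm_apply_apply a) x).trans (KM_id _ (fun _ => rfl) x)

theorem KM_self_symm (e : A ≃ₐ[ℂ] B) (x : KC B) :
    KM (e : A →ₐ[ℂ] B).toRingHom (KM (e.symm : B →ₐ[ℂ] A).toRingHom x) = x :=
  (KM_comp _ _ (RingHom.id B) (fun a => e.apply_symm_apply a) x).trans (KM_id _ (fun _ => rfl) x)

end Iso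

/-- K-theoretic input for `Y = S^{2a}` -/
structure KIn (a : ℕ) {Y : Type} [TopologicalSpace Y] [CompactSpace Y] (y : Y) where
  b : KC C(Y, ℂ)
  hb : kY y b = 0
  free : ∀ n : ℤ, n • b = 0 → n = 0
  gen : ∀ t, kY y t = 0 → ∃ n : ℤ, t = n • b
  psi2 : psi 2 C(Y, ℂ) b = (2 : ℤ) ^ a • b
  psi3 : psi 3 C(Y, ℂ) b = (3 : ℤ) ^ a • b
  k1 : K1Triv C(Y, ℂ)
  sfree : ∀ n : ℤ, n • (smC y y).ext b b = 0 → n = 0
  sgen : ∀ t : KC (Smash y y), KM (A := Smash y y) (B := ℂ) (smC y y).ev.toRingHom t = 0 →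
    ∃ n : ℤ, t = n • (smC y y).ext b b

section Smash

variable {Y W : Type} [TopologicalSpace Y] [CompactSpace Y] [TopologicalSpace W] [T2Space W]
  {y : Y} {w₀ : W}

/-- a smash collapse `Y × Y → W` -/
structure SmashMap (y : Y) (w₀ : W) where
  sm : C(Y × Y, W)
  surj : Function.Surjective sm
  iff : ∀ z, sm z = w₀ ↔ z ∈ wedge y y
  inj : ∀ z z', sm z = sm z' → z = z' ∨ (z ∈ wedge y y ∧ z' ∈ wedge y y)

/-- `C(W) ≃ C(Y ∧ Y)` -/
def SmashMap.equiv (s : SmashMap y w₀) : C(W, ℂ) ≃ₐ[ℂ] Smash y y :=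
  (Collapse.top W w₀).trans (CR.comapEquiv s.sm (fun z hz => (s.iff z).2 hz) s.surj
    (fun z hz => (s.iff z).1 hz) s.inj)

@[simp] theorem SmashMap.equiv_apply (s : SmashMap y w₀) (a : C(W, ℂ)) (z : Y × Y) :
    ((s.equiv a : Smash y y) : C(Y × Y, ℂ)) z = a (s.sm z) := rfl

variable {n : ℕ}

/-- `Smash y y ≃ SA' (Fin n)`, from the cell `q` of `W` -/
def smIso (s : SmashMap y w₀) (q : Collapse (Fin (n + 1)) W w₀) : Smash y y ≃ₐ[ℂ] SA' (Fin n) :=
  (s.equiv.symm.trans q.equiv).trans (snocEquiv n)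

theorem smIso_equiv (s : SmashMap y w₀) (q : Collapse (Fin (n + 1)) W w₀) (a : C(W, ℂ)) :
    smIso s q (s.equiv a) = snocEquiv n (q.equiv a) := by
  simp only [smIso, AlgEquiv.trans_apply, AlgEquiv.symm_apply_apply]

/-- the class `b_S` -/
def bS (s : SmashMap y w₀) (q : Collapse (Fin (n + 1)) W w₀) (β : KC (Smash y y)) :
    KC (SA' (Fin n)) :=
  KM (A := Smash y y) (B := SA' (Fin n)) (smIso s q : Smash y y →ₐ[ℂ] SA' (Fin n)).toRingHom β

theorem bS_zsmul (s : SmashMap y w₀) (q : Collapse (Fin (n + 1)) W w₀) (β : KC (Smash y y))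
    (m : ℤ) : bS s q (m • β) = m • bS s q β := map_zsmul _ _ _


theorem bS_inj (s : SmashMap y w₀) (q : Collapse (Fin (n + 1)) W w₀) {β : KC (Smash y y)}
    (h : bS s q β = 0) : β = 0 := by
  have h1 := KM_symm_self (A := Smash y y) (B := SA' (Fin n)) (smIso s q) β
  have h2 : KM (A := SA' (Fin n)) (B := Smash y y)
      ((smIso s q).symm : SA' (Fin n) →ₐ[ℂ] Smash y y).toRingHom (bS s q β) = β := h1
  rw [h, map_zero] at h2
  exact h2.symm

theorem psi_bS (p : ℕ) [Fact p.Prime] (s : SmashMap y w₀) (q : Collapse (Fin (n + 1)) W w₀)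
    (β : KC (Smash y y)) : psi p (SA' (Fin n)) (bS s q β) = bS s q (psi p (Smash y y) β) := by
  have h := psi_KM (A := Smash y y) (B := SA' (Fin n)) p (smIso s q).toAlgHom
    (smIso s q : Smash y y →ₐ[ℂ] SA' (Fin n)).toRingHom (fun _ => rfl) β
  exact h

/-- base points correspond -/
theorem ev_smIso (s : SmashMap y w₀) (q : Collapse (Fin (n + 1)) W w₀) (x₀ : Fin n → I)
    (F : Smash y y) : CR.ev (A := bdI (Fin n)) (x₀, 0) (smIso s q F) = CR.ev (y, y) F := by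
  obtain ⟨a, rfl⟩ := s.equiv.surjective F
  rw [smIso_equiv]
  change a (q.p (snocHomeo n (x₀, 0))) = a (s.sm (y, y))
  congr 1
  rw [(s.iff (y, y)).2 (Or.inl rfl), q.bd, ← snocHomeo_mem]
  exact Or.inr (Or.inl rfl)

theorem kN'_bS (s : SmashMap y w₀) (q : Collapse (Fin (n + 1)) W w₀) (x₀ : Fin n → I)
    (β : KC (Smash y y)) :
    kN' x₀ (bS s q β) = KM (A := Smash y y) (B := ℂ) (smC y y).ev.toRingHom β := by
  have h := KM_comp (A := Smash y y) (B := SA' (Fin n)) (C := ℂ)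
    (smIso s q : Smash y y →ₐ[ℂ] SA' (Fin n)).toRingHom
    (CR.ev (x₀, 0) : SA' (Fin n) →ₐ[ℂ] ℂ).toRingHom (smC y y).ev.toRingHom
    (fun F => ev_smIso s q x₀ F) β
  exact h

theorem exists_bS (s : SmashMap y w₀) (q : Collapse (Fin (n + 1)) W w₀)
    (t : KC (SA' (Fin n))) : ∃ β, bS s q β = t := by
  have h := KM_self_symm (A := Smash y y) (B := SA' (Fin n)) (smIso s q) t
  exact ⟨_, h⟩

variable (P : CoP (Fin n → I) (Cube.boundary (Fin n))) (c : CoH Y y)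

/-- `G^*` on `C(W)` is the pull back along the loop `g` -/
theorem Gstar_equiv (s : SmashMap y w₀) (f : GenLoop (Fin n) Y y)
    (g : GenLoop (Fin (n + 1)) W w₀)
    (hg : ∀ z, g (snocHomeo n z) = s.sm (G P c (f : C(Fin n → I, Y)) z)) (a : C(W, ℂ)) :
    Gstar P c f (s.equiv a) = snocEquiv n (pull g a) := by
  refine Subtype.ext (ContinuousMap.ext fun z => ?_)
  change a (s.sm (G P c (f : C(Fin n → I, Y)) z)) = a (g (snocHomeo n z))
  rw [hg]

/-- **degree formula** -/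
theorem kG_degree [NeZero n] (s : SmashMap y w₀) (q : Collapse (Fin (n + 1)) W w₀)
    (f : GenLoop (Fin n) Y y) (g : GenLoop (Fin (n + 1)) W w₀)
    (hg : ∀ z, g (snocHomeo n z) = s.sm (G P c (f : C(Fin n → I, Y)) z)) {D : ℤ}
    (hD : cls g = cls q.loop ^ D) {β : KC (Smash y y)}
    (hβ : KM (A := Smash y y) (B := ℂ) (smC y y).ev.toRingHom β = 0) :
    kG P c f β = D • bS s q β := by
  set γ : KC C(W, ℂ) := KM (A := Smash y y) (B := C(W, ℂ))
    (s.equiv.symm : Smash y y →ₐ[ℂ] C(W, ℂ)).toRingHom β with hγ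
  have hβγ : KM (A := C(W, ℂ)) (B := Smash y y) (s.equiv : C(W, ℂ) →ₐ[ℂ] Smash y y).toRingHom γ
      = β := KM_self_symm (A := C(W, ℂ)) (B := Smash y y) s.equiv β
  -- reducedness of `γ`
  have hγ0 : KM (A := C(W, ℂ)) (B := ℂ)
      (ContinuousMap.evalAlgHom ℂ ℂ w₀ : C(W, ℂ) →ₐ[ℂ] ℂ).toRingHom γ = 0 := by
    have h := KM_comp (A := C(W, ℂ)) (B := Smash y y) (C := ℂ)
      (s.equiv : C(W, ℂ) →ₐ[ℂ] Smash y y).toRingHom (smC y y).ev.toRingHom
      (ContinuousMap.evalAlgHom ℂ ℂ w₀ : C(W, ℂ) →ₐ[ℂ] ℂ).toRingHom (fun a => by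
        change a (s.sm (y, y)) = a w₀
        rw [(s.iff (y, y)).2 (Or.inl rfl)]) γ
    rw [hβγ, hβ] at h
    exact h.symm
  have hk : KM (A := C(W, ℂ)) (B := SA (Fin (n + 1))) (pull g).toRingHom γ =
      D • KM (A := C(W, ℂ)) (B := SA (Fin (n + 1))) (pull q.loop).toRingHom γ :=
    k_degree (x := γ) hγ0 q.loop g D hD
  have e1 : kG P c f β = KM (A := SA (Fin (n + 1))) (B := SA' (Fin n))
      (snocEquiv n : SA (Fin (n + 1)) →ₐ[ℂ] SA' (Fin n)).toRingHom
      (KM (A := C(W, ℂ)) (B := SA (Fin (n + 1))) (pull g).toRingHom γ) := by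
    rw [← hβγ]
    have a1 := KM_comp (A := C(W, ℂ)) (B := Smash y y) (C := SA' (Fin n))
      (s.equiv : C(W, ℂ) →ₐ[ℂ] Smash y y).toRingHom (Gstar P c f).toRingHom
      ((Gstar P c f).toRingHom.comp (s.equiv : C(W, ℂ) →ₐ[ℂ] Smash y y).toRingHom)
      (fun _ => rfl) γ
    have a2 := KM_comp (A := C(W, ℂ)) (B := SA (Fin (n + 1))) (C := SA' (Fin n))
      (pull g).toRingHom (snocEquiv n : SA (Fin (n + 1)) →ₐ[ℂ] SA' (Fin n)).toRingHom
      ((Gstar P c f).toRingHom.comp (s.equiv : C(W, ℂ) →ₐ[ℂ] Smash y y).toRingHom)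
      (fun a => (Gstar_equiv P c s f g hg a).symm) γ
    exact a1.trans a2.symm
  have e2 : bS s q β = KM (A := SA (Fin (n + 1))) (B := SA' (Fin n))
      (snocEquiv n : SA (Fin (n + 1)) →ₐ[ℂ] SA' (Fin n)).toRingHom
      (KM (A := C(W, ℂ)) (B := SA (Fin (n + 1))) (pull q.loop).toRingHom γ) := by
    rw [← hβγ]
    have a1 := KM_comp (A := C(W, ℂ)) (B := Smash y y) (C := SA' (Fin n))
      (s.equiv : C(W, ℂ) →ₐ[ℂ] Smash y y).toRingHom
      (smIso s q : Smash y y →ₐ[ℂ] SA' (Fin n)).toRingHom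
      ((smIso s q : Smash y y →ₐ[ℂ] SA' (Fin n)).toRingHom.comp
        (s.equiv : C(W, ℂ) →ₐ[ℂ] Smash y y).toRingHom) (fun _ => rfl) γ
    have a2 := KM_comp (A := C(W, ℂ)) (B := SA (Fin (n + 1))) (C := SA' (Fin n))
      (pull q.loop).toRingHom (snocEquiv n : SA (Fin (n + 1)) →ₐ[ℂ] SA' (Fin n)).toRingHom
      ((smIso s q : Smash y y →ₐ[ℂ] SA' (Fin n)).toRingHom.comp
        (s.equiv : C(W, ℂ) →ₐ[ℂ] Smash y y).toRingHom)
      (fun a => (smIso_equiv s q a).symm) γ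
    exact a1.trans a2.symm
  rw [e1, hk, map_zsmul, ← e2]

/-- **K-theoretic Hopf invariant one, degree form** -/
theorem hopf_of_degree [NeZero n] {a : ℕ} (ha : 1 ≤ a) (K : KIn a y)
    (hSN : ∀ x : KC (SA (Fin n)), kN (fun _ => 0) x = 0 → x = 0)
    (s : SmashMap y w₀) (q : Collapse (Fin (n + 1)) W w₀)
    (f : GenLoop (Fin n) Y y) (g : GenLoop (Fin (n + 1)) W w₀)
    (hg : ∀ z, g (snocHomeo n z) = s.sm (G P c (f : C(Fin n → I, Y)) z)) {D : ℤ}
    (hD : cls g = cls q.loop ^ D) (hodd : Odd D) : a = 1 ∨ a = 2 ∨ a = 4 := by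
  have hb0 : KM (A := C(Y, ℂ)) (B := ℂ) (pdC y y).e.toRingHom K.b = 0 := K.hb
  have hβ : KM (A := Smash y y) (B := ℂ) (smC y y).ev.toRingHom ((smC y y).ext K.b K.b) = 0 :=
    (smC y y).ev_ext hb0 hb0
  have h₀ : (fun _ => 0 : Fin n → I) ∈ Cube.boundary (Fin n) :=
    ⟨⟨0, Nat.pos_of_ne_zero (NeZero.ne n)⟩, Or.inl rfl⟩
  have hpsi : ∀ (p : ℕ) [Fact p.Prime] (m : ℤ), psi p C(Y, ℂ) K.b = m • K.b →
      psi p (SA' (Fin n)) (bS s q ((smC y y).ext K.b K.b)) =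
        (m * m) • bS s q ((smC y y).ext K.b K.b) := by
    intro p _ m hm
    rw [psi_bS]
    have h1 := psi_ext (smC y y) p (x := K.b) (y := K.b) hb0 hb0
    have h2 : (smC y y).ext (m • K.b) (m • K.b) = (m * m) • (smC y y).ext K.b K.b := by
      have h3 : KM (A := C(Y, ℂ)) (B := ℂ) (pdC y y).e.toRingHom (m • K.b) = 0 := by
        rw [map_zsmul, hb0, smul_zero]
      rw [(smC y y).ext_zsmul_left hb0 h3, (smC y y).ext_zsmul_right hb0 hb0, mul_smul]
    have h4 : psi p (Smash y y) ((smC y y).ext K.b K.b) = (m * m) • (smC y y).ext K.b K.b := by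
      rw [← h2, ← hm]
      exact h1
    rw [h4, bS_zsmul]
  have h2 := hpsi 2 _ K.psi2
  have h3 := hpsi 3 _ K.psi3
  rw [← mul_pow] at h2 h3
  have : Nonempty (Fin n) := ⟨⟨0, Nat.pos_of_ne_zero (NeZero.ne n)⟩⟩
  refine hopfK P c h₀ f hSN K.k1 ha K.b K.hb K.free K.gen K.psi2 K.psi3
    (bS s q ((smC y y).ext K.b K.b)) ?_ ?_ ?_ (by simpa using h2) (by simpa using h3) hodd
    (kG_degree P c s q f g hg hD hβ)
  · rw [kN'_bS]
    exact hβ
  · intro m hm
    rw [← bS_zsmul] at hm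
    exact K.sfree m (bS_inj s q hm)
  · intro t ht
    obtain ⟨β, rfl⟩ := exists_bS s q t
    rw [kN'_bS] at ht
    obtain ⟨m, rfl⟩ := K.sgen β ht
    exact ⟨m, bS_zsmul s q _ m⟩

end Smash

end Crest.Agent.R204.HMain515
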