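import Crest.Agent.R204.Per_369
import Crest.Agent.R204.SigSP_837
import Crest.Agent.R204.HIso_472
import Crest.Agent.R204.SigSP1_837
import Crest.Agent.R204.ExMb_515

-- ▼ part R204/Odd_369
section

/-!
# Row 204, block H: odd spheres and `K1Triv` of even spheres, helper369
-/

set_option autoImplicit false
set_option linter.unusedSectionVars false
set_option linter.unusedSimpArgs false

open Matrix Topology
open scoped unitInterval
open Crest.Agent.R204.K357 Crest.Agent.R204.Clutch369 Crest.Agent.R204.BottLoop313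
open Crest.Agent.R204.Bt837

namespace Crest.Agent.R204.BottK369

noncomputable section

universe u v

section congr

variable {A : Type u} [NormedRing A] [NormedAlgebra ℂ A] [CompleteSpace A]
variable {B : Type v} [NormedRing B] [NormedAlgebra ℂ B] [CompleteSpace B]
variable {ε : A →ₐ[ℂ] ℂ} {δ : B →ₐ[ℂ] ℂ}

/-- functoriality of the suspension -/
def SigA.map (φ : A →ₐ[ℂ] B) (hφ : Continuous φ) (h : ∀ a, δ (φ a) = ε a) : SigA ε →ₐ[ℂ] SigA δ where
  toFun a := SigA.mk ⟨fun t => φ (a.fn t), hφ.comp a.fn.continuous⟩ (by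
    obtain ⟨h0, h1, h2⟩ := a.prop
    refine ⟨?_, ?_, fun t => ?_⟩
    · change φ (a.fn 0) = algebraMap ℂ B (δ (φ (a.fn 0)))
      rw [h]
      conv_lhs => rw [h0]
      exact AlgHom.commutes φ _
    · change φ (a.fn 1) = algebraMap ℂ B (δ (φ (a.fn 0)))
      rw [h]
      conv_lhs => rw [h1]
      exact AlgHom.commutes φ _
    · change δ (φ (a.fn t)) = δ (φ (a.fn 0))
      rw [h, h, h2])
  map_one' := SigA.ext fun _ => map_one φ
  map_mul' _ _ := SigA.ext fun _ => map_mul φ _ _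
  map_zero' := SigA.ext fun _ => map_zero φ
  map_add' _ _ := SigA.ext fun _ => map_add φ _ _
  commutes' _ := SigA.ext fun _ => AlgHom.commutes φ _


theorem KN.sig_of_equiv (hN : KN (Sig.aug ε)) (φ : A ≃ₐ[ℂ] B) (h1 : Continuous φ)
    (h2 : Continuous φ.symm) (h : ∀ a, δ (φ a) = ε a) : KN (Sig.aug δ) := by
  have h' : ∀ b, ε (φ.symm b) = δ b := fun b => by rw [← h, AlgEquiv.apply_symm_apply]
  refine KN.of_equiv hN (AlgEquiv.ofAlgHom (SigA.map (φ : A →ₐ[ℂ] B) h1 h)
    (SigA.map (φ.symm : B →ₐ[ℂ] A) h2 h') ?_ ?_) ?_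
  · ext x
    exact SigA.ext fun t => φ.apply_symm_apply _
  · ext x
    exact SigA.ext fun t => φ.symm_apply_apply _
  · intro a
    exact h _

theorem KN.of_bijective (hN : KN ε) (φ : A →ₐ[ℂ] B) (hi : Function.Injective φ)
    (hs : Function.Surjective φ) (h : ∀ a, δ (φ a) = ε a) : KN δ :=
  hN.of_equiv (AlgEquiv.ofBijective φ ⟨hi, hs⟩) h

theorem KN.of_bijective' (hN : KN δ) (φ : A →ₐ[ℂ] B) (hi : Function.Injective φ)
    (hs : Function.Surjective φ) (h : ∀ a, δ (φ a) = ε a) : KN ε := by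
  refine hN.of_equiv (AlgEquiv.ofBijective φ ⟨hi, hs⟩).symm fun b => ?_
  rw [← h]
  congr 1
  exact (AlgEquiv.ofBijective φ ⟨hi, hs⟩).apply_symm_apply b

end congr

/-- `SP 0 = ℂ × ℂ` -/
def sp0 : (ℂ × ℂ) ≃ₐ[ℂ] SPt (Fin 0) where
  toFun p := ⟨(p.1, ContinuousMap.const _ p.2), by
    rintro x ⟨i, _⟩
    exact i.elim0⟩
  invFun p := (SPe (Fin 0) p, SPv p (fun i => i.elim0))
  left_inv _ := rfl
  right_inv p := by
    refine SPv_ext rfl fun y => ?_
    have : y = fun i => i.elim0 := funext fun i => i.elim0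
    rw [this]
    rfl
  map_mul' _ _ := rfl
  map_add' _ _ := rfl
  commutes' _ := rfl

theorem continuous_sp0 : Continuous sp0 := by
  refine Continuous.subtype_mk ?_ _
  exact continuous_fst.prodMk (ContinuousMap.continuous_const'.comp continuous_snd)

theorem continuous_sp0_symm : Continuous sp0.symm := by
  have h1 : Continuous fun p : SPt (Fin 0) => SPe (Fin 0) p := map_continuous _
  have h2 : Continuous fun p : SPt (Fin 0) => SPv p (fun i => i.elim0) := by
    have : Continuous fun p : SPt (Fin 0) => (Subtype.val p : ℂ × C(Fin 0 → I, ℂ)).2 :=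
      continuous_snd.comp continuous_subtype_val
    exact (continuous_eval_const (fun i : Fin 0 => i.elim0 : Fin 0 → I)).comp this
  exact h1.prodMk h2

theorem kn_sig_SP0 : KN (Sig.aug (SPe (Fin 0))) :=
  kn_sig_fst.sig_of_equiv sp0 continuous_sp0 continuous_sp0_symm fun _ => rfl

/-- `K̃` of `SP (m + 2)` vanishes if that of `SP m` does -/
theorem kn_SP_step (m : ℕ) (h : KN (SPe (Fin m))) : KN (SPe (Fin (m + 2))) :=
  h.bott.of_bijective (Phi m) (Phi_injective m) (Phi_surjective m) (Phi_ev m)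

section collapse

open Crest.Agent.R204.H472

variable {N : Type} {Y : Type} [TopologicalSpace Y] [CompactSpace Y] [T2Space Y] {y : Y}

theorem norm_collapse (c : Collapse N Y y) (a : C(Y, ℂ)) : ‖c.equiv a‖ = ‖a‖ := by
  apply le_antisymm
  · change ‖((c.equiv a : SA N) : C(N → I, ℂ))‖ ≤ ‖a‖
    rw [ContinuousMap.norm_le _ (norm_nonneg _)]
    intro x
    exact a.norm_coe_le_norm _
  · change ‖a‖ ≤ ‖((c.equiv a : SA N) : C(N → I, ℂ))‖
    rw [ContinuousMap.norm_le _ (norm_nonneg _)]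
    intro z
    obtain ⟨x, rfl⟩ := c.surj z
    exact ((c.equiv a : SA N) : C(N → I, ℂ)).norm_coe_le_norm x

theorem continuous_collapse_symm (c : Collapse N Y y) : Continuous c.equiv.symm := by
  have : Isometry c.equiv.symm :=
    AddMonoidHomClass.isometry_of_norm c.equiv.symm (fun a => by
      rw [← norm_collapse c, AlgEquiv.apply_symm_apply])
  exact this.continuous

theorem k1Triv_collapse (c : Collapse N Y y) (h : Ex837.K1Triv (SA N)) : Ex837.K1Triv C(Y, ℂ) :=
  h.of_equiv (c.equiv.symm : SA N ≃+* C(Y, ℂ)) (continuous_collapse_symm c)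

end collapse

end

end Crest.Agent.R204.BottK369
end

-- ▼ part R204/Odd2_369

/-!
# Row 204, block H: odd spheres and `K1Triv` of even spheres, helper369

* `kn_SP_odd a  : K̃(SP (2a+1)) = 0`;
* `kn_SA_odd a  : K̃(SA (2a+1)) = 0` in the form used by 515's `E3`;
* `k1Triv_SP a  : K1Triv (SPt (Fin (2a)))`, `k1Triv_SA a : K1Triv (SA (Fin (2a+2)))`,
  `k1Triv_even (c : Collapse (Fin (2a)) Y y) : K1Triv C(Y, ℂ)` (`a ≥ 1`).
-/

set_option autoImplicit false
set_option linter.unusedSectionVars false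
set_option linter.unusedSimpArgs false

open Matrix Topology
open scoped unitInterval
open Crest.Agent.R204.K357 Crest.Agent.R204.Clutch369 Crest.Agent.R204.BottLoop313
open Crest.Agent.R204.Bt837 Crest.Agent.R204.H472

namespace Crest.Agent.R204.BottK369

noncomputable section

/-- `K̃(S^{2a+1}) = 0` -/
theorem kn_SP_odd (a : ℕ) : KN (SPe (Fin (2 * a + 1))) := by
  induction a with
  | zero => exact kn_sig_SP0.of_bijective (Phi1 0) (Phi1_injective 0) (Phi1_surjective 0) (Phi1_ev 0)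
  | succ a ih => exact kn_SP_step _ ih

/-- `K̃(Σ S^{2a}) = 0` -/
theorem kn_sig_SP_even (a : ℕ) : KN (Sig.aug (SPe (Fin (2 * a)))) :=
  (kn_SP_odd a).of_bijective' (Phi1 (2 * a)) (Phi1_injective _) (Phi1_surjective _) (Phi1_ev _)

theorem k1Triv_SP (a : ℕ) : Ex837.K1Triv (SPt (Fin (2 * a))) := k1Triv_of (kn_sig_SP_even a)

theorem k1Triv_SA (a : ℕ) : Ex837.K1Triv (SA (Fin (2 * a + 1 + 1))) :=
  Ex837.K1Triv.of_equiv (k1Triv_SP (a + 1)) (SPSA (2 * a + 1) : SPt (Fin (2 * a + 1 + 1)) ≃+* _)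
    (SPSA_continuous _)

theorem k1Triv_even {Y : Type} [TopologicalSpace Y] [CompactSpace Y] [T2Space Y] {y : Y} {a : ℕ}
    (ha : 1 ≤ a) (c : Collapse (Fin (2 * a)) Y y) : Ex837.K1Triv C(Y, ℂ) := by
  obtain ⟨b, rfl⟩ : ∃ b, a = b + 1 := ⟨a - 1, by omega⟩
  exact k1Triv_collapse (N := Fin (2 * b + 1 + 1)) c (k1Triv_SA b)

/-- `K̃(SA (2a+1)) = 0` -/
theorem kn_SA_odd (a : ℕ) {x₀ : Fin (2 * a + 1) → I} (h₀ : x₀ ∈ Cube.boundary (Fin (2 * a + 1)))
    (x : K0 (SA (Fin (2 * a + 1)))) (hx : ExM515.evK (Cube.boundary (Fin (2 * a + 1))) x₀ x = 0) :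
    x = 0 := by
  have h := KN.of_equiv (A := SPt (Fin (2 * a + 1))) (B := SA (Fin (2 * a + 1)))
    (δ := (CR.ev x₀ : SA (Fin (2 * a + 1)) →ₐ[ℂ] ℂ)) (kn_SP_odd a) (SPSA (2 * a))
    (fun p => SPSA_ev (2 * a) p h₀)
  exact h x hx

end

end Crest.Agent.R204.BottK369
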