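import Crest.Agent.R204.Defs

/-!
# Row 204, leaf A0': the normalisation theorem (helper515)

`Ch R K → N R K` is a quasi-isomorphism for every commutative ring `R` and every simplicial set `K`.
-/

set_option autoImplicit false

namespace Crest.Agent.R204.Normz515

open Finsupp Crest.Agent.R204

variable {R : Type} [CommRing R] {K : SS}

/-! ## simplicial identities with explicit indices -/

theorem face_dgn_lt {n : ℕ} (i : Fin (n + 3)) (j : Fin (n + 2)) (i' : Fin (n + 2)) (j' : Fin (n + 1))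
    (h : (i : ℕ) < j) (h1 : (i' : ℕ) = i) (h2 : (j' : ℕ) + 1 = j) :
    (Op.dgn j).comp (Op.face i) = (Op.face i').comp (Op.dgn j') := by
  ext a
  simp only [OrderHom.comp_coe, Function.comp_apply, Ch.dgn_val, Ch.face_val]
  split_ifs <;> omega

theorem face_dgn_gt {n : ℕ} (i : Fin (n + 3)) (j : Fin (n + 2)) (i' : Fin (n + 2)) (j' : Fin (n + 1))
    (h : (j : ℕ) + 1 < i) (h1 : (i' : ℕ) + 1 = i) (h2 : (j' : ℕ) = j) :
    (Op.dgn j).comp (Op.face i) = (Op.face i').comp (Op.dgn j') := by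
  ext a
  simp only [OrderHom.comp_coe, Function.comp_apply, Ch.dgn_val, Ch.face_val]
  split_ifs <;> omega

theorem dgn_dgn {n : ℕ} (j : Fin (n + 1)) (p : Fin (n + 2)) (p' : Fin (n + 1)) (j' : Fin (n + 2))
    (h : (j : ℕ) < p) (h1 : (p' : ℕ) + 1 = p) (h2 : (j' : ℕ) = j) :
    (Op.dgn j).comp (Op.dgn p) = (Op.dgn p').comp (Op.dgn j') := by
  ext a
  simp only [OrderHom.comp_coe, Function.comp_apply, Ch.dgn_val]
  split_ifs <;> omega

/-! ## the filtration of the degenerate chains -/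

variable (R K)

/-- span of the simplices `s_j y` with `j < p` -/
noncomputable def F (p : ℕ) : Submodule R (Ch R K) :=
  Submodule.span R {c | ∃ (n : ℕ) (j : Fin (n + 1)) (y : K.S n), (j : ℕ) < p ∧
    c = single (⟨n + 1, K.act (Op.dgn j) y⟩ : K.T) 1}

variable {R K}

theorem mem_F {p n : ℕ} (j : Fin (n + 1)) (y : K.S n) (h : (j : ℕ) < p) (r : R) :
    (single (⟨n + 1, K.act (Op.dgn j) y⟩ : K.T) r : Ch R K) ∈ F R K p := by
  have : (single (⟨n + 1, K.act (Op.dgn j) y⟩ : K.T) r : Ch R K) =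
      r • single (⟨n + 1, K.act (Op.dgn j) y⟩ : K.T) 1 := by simp
  rw [this]
  exact Submodule.smul_mem _ _ (Submodule.subset_span ⟨n, j, y, h, rfl⟩)

theorem F_zero : F R K 0 = ⊥ := by
  rw [F, Submodule.span_eq_bot]
  rintro _ ⟨n, j, y, h, -⟩
  exact absurd h (Nat.not_lt_zero _)

theorem F_mono {p q : ℕ} (h : p ≤ q) : F R K p ≤ F R K q := by
  refine Submodule.span_mono ?_
  rintro _ ⟨n, j, y, hj, rfl⟩
  exact ⟨n, j, y, hj.trans_le h, rfl⟩

theorem F_le_Dg (p : ℕ) : F R K p ≤ Ch.Dg R K := by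
  refine Submodule.span_mono ?_
  rintro _ ⟨n, j, y, -, rfl⟩
  exact ⟨_, Ch.isDgn_act _ _ _, rfl⟩

theorem exists_F {c : Ch R K} (hc : c ∈ Ch.Dg R K) : ∃ p, c ∈ F R K p := by
  refine Submodule.span_induction (p := fun c _ => ∃ p, c ∈ F R K p) ?_ ?_ ?_ ?_ hc
  · rintro _ ⟨⟨n, x⟩, hx, rfl⟩
    rcases n with _ | n
    · exact hx.elim
    · obtain ⟨j, y, rfl⟩ := hx
      exact ⟨j + 1, mem_F j y (Nat.lt_succ_self _) 1⟩
  · exact ⟨0, Submodule.zero_mem _⟩
  · rintro a b _ _ ⟨p, hp⟩ ⟨q, hq⟩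
    exact ⟨max p q, Submodule.add_mem _ (F_mono (le_max_left _ _) hp) (F_mono (le_max_right _ _) hq)⟩
  · rintro r a _ ⟨p, hp⟩
    exact ⟨p, Submodule.smul_mem _ _ hp⟩

theorem bd_mem_F {p : ℕ} {c : Ch R K} (hc : c ∈ F R K p) : Ch.bd R K c ∈ F R K p := by
  refine Submodule.span_induction (p := fun c _ => Ch.bd R K c ∈ F R K p) ?_ ?_ ?_ ?_ hc
  · rintro _ ⟨n, j, y, hj, rfl⟩
    rw [Ch.bd_single_succ]
    rw [← Finset.sum_add_sum_compl ({j.castSucc, j.succ} : Finset (Fin (n + 2)))]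
    refine Submodule.add_mem _ ?_ (Submodule.sum_mem _ ?_)
    · rw [Finset.sum_pair (by simp [Fin.ext_iff])]
      rw [← K.act_comp, ← K.act_comp, Ch.face_dgn_eq _ _ (Or.inl rfl),
        Ch.face_dgn_eq _ _ (Or.inr rfl), ← Finsupp.single_add]
      have : ((1 : R) * (-1) ^ ((j.castSucc : Fin (n + 2)) : ℕ) +
          1 * (-1) ^ ((j.succ : Fin (n + 2)) : ℕ)) = 0 := by
        simp only [Fin.val_castSucc, Fin.val_succ]; ring
      rw [this, Finsupp.single_zero]
      exact Submodule.zero_mem _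
    · intro i hi
      simp only [Finset.mem_compl, Finset.mem_insert, Finset.mem_singleton, not_or, Fin.ext_iff,
        Fin.val_castSucc, Fin.val_succ] at hi
      rcases n with _ | n
      · exfalso
        omega
      · rcases lt_or_gt_of_ne hi.1 with h | h
        · rw [← K.act_comp, face_dgn_lt i j ⟨i, by omega⟩ ⟨(j : ℕ) - 1, by omega⟩ h rfl (by simp; omega),
            K.act_comp]
          exact mem_F _ _ (by simp; omega) _
        · rw [← K.act_comp, face_dgn_gt i j ⟨(i : ℕ) - 1, by omega⟩ ⟨j, by omega⟩ (by omega)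
            (by simp; omega) rfl, K.act_comp]
          exact mem_F _ _ (by simpa using hj) _
  · simp
  · intro a b _ _ ha hb; rw [map_add]; exact Submodule.add_mem _ ha hb
  · intro r a _ ha; rw [map_smul]; exact Submodule.smul_mem _ _ ha

/-! ## the homotopy -/

/-- the operator on one simplex `x ↦ (-1)^p s_p x` -/
noncomputable def tT (R : Type) [CommRing R] (K : SS) (p : ℕ) : K.T → Ch R K
  | ⟨n, x⟩ => if h : p ≤ n then
      single (⟨n + 1, K.act (Op.dgn ⟨p, Nat.lt_succ_of_le h⟩) x⟩ : K.T) ((-1 : R) ^ p) else 0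

/-- the operator `x ↦ (-1)^p s_p x` -/
noncomputable def t (R : Type) [CommRing R] (K : SS) (p : ℕ) : Ch R K →ₗ[R] Ch R K :=
  Finsupp.linearCombination R (tT R K p)

theorem t_single {p n : ℕ} (h : p ≤ n) (x : K.S n) (r : R) :
    t R K p (single ⟨n, x⟩ r) =
      single (⟨n + 1, K.act (Op.dgn ⟨p, Nat.lt_succ_of_le h⟩) x⟩ : K.T) (r * (-1) ^ p) := by
  simp [t, tT, h]

theorem t_mem_F {p : ℕ} {c : Ch R K} (hc : c ∈ F R K p) : t R K p c ∈ F R K p := by
  refine Submodule.span_induction (p := fun c _ => t R K p c ∈ F R K p) ?_ ?_ ?_ ?_ hc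
  · rintro _ ⟨n, j, y, hj, rfl⟩
    by_cases h : p ≤ n + 1
    · rw [t_single h, ← K.act_comp,
        dgn_dgn j ⟨p, Nat.lt_succ_of_le h⟩ ⟨(p : ℕ) - 1, by omega⟩ ⟨j, by omega⟩ hj (by simp; omega) rfl,
        K.act_comp]
      exact mem_F _ _ (by simpa using hj) _
    · simp [t, tT, h]
  · simp
  · intro a b _ _ ha hb; rw [map_add]; exact Submodule.add_mem _ ha hb
  · intro r a _ ha; rw [map_smul]; exact Submodule.smul_mem _ _ ha

theorem t_mem_Dg {p : ℕ} (c : Ch R K) : t R K p c ∈ Ch.Dg R K := by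
  induction c using Finsupp.induction_linear with
  | zero => simp
  | add f g hf hg => rw [map_add]; exact Submodule.add_mem _ hf hg
  | single u r =>
    obtain ⟨n, x⟩ := u
    by_cases h : p ≤ n
    · rw [t_single h]
      exact F_le_Dg (p + 1) (mem_F _ _ (by simp) _)
    · simp [t, tT, h]

/-- the key computation -/
theorem key_single {m : ℕ} (p : Fin (m + 1)) (y : K.S m) :
    Ch.bd R K (t R K p (single ⟨m + 1, K.act (Op.dgn p) y⟩ 1)) +
      t R K p (Ch.bd R K (single ⟨m + 1, K.act (Op.dgn p) y⟩ 1)) -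
      single ⟨m + 1, K.act (Op.dgn p) y⟩ 1 ∈ F R K p := by
  set x : K.S (m + 1) := K.act (Op.dgn p) y with hx
  have hp : (p : ℕ) ≤ m := by omega
  set p1 : Fin (m + 2) := ⟨p, by omega⟩ with hp1
  set p2 : Fin (m + 3) := ⟨p, by omega⟩ with hp2
  have e1 : Ch.bd R K (t R K p (single ⟨m + 1, x⟩ 1)) =
      ∑ i : Fin (m + 3), single (⟨m + 1, K.act (Op.face i) (K.act (Op.dgn p1) x)⟩ : K.T)
        ((-1 : R) ^ (p : ℕ) * (-1) ^ (i : ℕ)) := by
    rw [t_single (by omega : (p : ℕ) ≤ m + 1), one_mul, Ch.bd_single_succ]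
  have e2 : t R K p (Ch.bd R K (single ⟨m + 1, x⟩ 1)) =
      ∑ i : Fin (m + 2), single (⟨m + 1, K.act (Op.dgn p) (K.act (Op.face i) x)⟩ : K.T)
        ((-1 : R) ^ (i : ℕ) * (-1) ^ (p : ℕ)) := by
    rw [Ch.bd_single_succ, map_sum]
    refine Finset.sum_congr rfl fun i _ => ?_
    rw [one_mul, t_single hp]
  rw [e1, e2, Fin.sum_univ_succAbove _ p2]
  have e3 : K.act (Op.face p2) (K.act (Op.dgn p1) x) = x := by
    rw [← K.act_comp, Ch.face_dgn_eq p2 p1 (Or.inl (Fin.ext rfl)), K.act_id]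
  rw [e3]
  have e4 : ((-1 : R) ^ (p : ℕ) * (-1) ^ (p2 : ℕ)) = 1 := by
    rw [hp2]; simp only []; rw [← pow_add, ← two_mul, pow_mul]; simp
  rw [e4]
  have e5 : ∀ a b c : Ch R K, a + b + c - a = b + c := fun a b c => by abel
  rw [e5, ← Finset.sum_add_distrib]
  refine Submodule.sum_mem _ fun i _ => ?_
  by_cases hi : (i : ℕ) < p
  · have hm : 0 < m := by omega
    obtain ⟨m, rfl⟩ : ∃ k, m = k + 1 := ⟨m - 1, by omega⟩
    have hpos : 1 ≤ (p : ℕ) := by omega
    have e6 : p2.succAbove i = ⟨i, by omega⟩ := by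
      rw [Fin.succAbove_of_castSucc_lt _ _ (by rw [Fin.lt_def]; simpa using hi)]; rfl
    rw [e6]
    refine Submodule.add_mem _ ?_ ?_
    · rw [← K.act_comp, face_dgn_lt (⟨i, by omega⟩ : Fin (m + 4)) p1 ⟨i, by omega⟩
        ⟨(p : ℕ) - 1, by omega⟩ hi rfl (Nat.sub_add_cancel hpos), K.act_comp]
      exact mem_F _ _ (Nat.sub_lt hpos one_pos) _
    · rw [hx, ← K.act_comp (Op.face i) (Op.dgn p) y,
        face_dgn_lt i p ⟨i, by omega⟩ ⟨(p : ℕ) - 1, by omega⟩ hi rfl (Nat.sub_add_cancel hpos),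
        K.act_comp, ← K.act_comp (Op.dgn p) (Op.dgn _) _,
        dgn_dgn (⟨(p : ℕ) - 1, by omega⟩ : Fin (m + 1)) p ⟨(p : ℕ) - 1, by omega⟩
          ⟨(p : ℕ) - 1, by omega⟩ (Nat.sub_lt hpos one_pos) (Nat.sub_add_cancel hpos) rfl,
        K.act_comp]
      exact mem_F _ _ (Nat.sub_lt hpos one_pos) _
  · have e6 : p2.succAbove i = i.succ := by
      rw [Fin.succAbove_of_le_castSucc _ _ (by rw [Fin.le_def]; simp [hp2]; omega)]
    rw [e6]
    have e7 : K.act (Op.face i.succ) (K.act (Op.dgn p1) x) = K.act (Op.dgn p) (K.act (Op.face i) x) := by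
      by_cases hip : (i : ℕ) = p
      · have h1 : K.act (Op.face i.succ) (K.act (Op.dgn p1) x) = x := by
          rw [← K.act_comp, Ch.face_dgn_eq _ _ (Or.inr (Fin.ext (by simp [hp1, hip]))), K.act_id]
        have h2 : K.act (Op.face i) x = y := by
          rw [hx, ← K.act_comp, Ch.face_dgn_eq _ _ (Or.inl (Fin.ext (by simp [hip]))), K.act_id]
        rw [h1, h2]
      · rw [← K.act_comp (Op.face i.succ) (Op.dgn p1) x, ← K.act_comp (Op.dgn p) (Op.face i) x,
          face_dgn_gt i.succ p1 i p (by simp [hp1]; omega) (by simp) (by simp [hp1])]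
    rw [e7, ← Finsupp.single_add]
    have e8 : ((-1 : R) ^ (p : ℕ) * (-1) ^ ((i.succ : Fin (m + 3)) : ℕ) +
        (-1) ^ (i : ℕ) * (-1) ^ (p : ℕ)) = 0 := by
      rw [Fin.val_succ, pow_succ]; ring
    rw [e8, Finsupp.single_zero]
    exact Submodule.zero_mem _

theorem key {p : ℕ} {c : Ch R K} (hc : c ∈ F R K (p + 1)) :
    Ch.bd R K (t R K p c) + t R K p (Ch.bd R K c) - c ∈ F R K p := by
  refine Submodule.span_induction
    (p := fun c _ => Ch.bd R K (t R K p c) + t R K p (Ch.bd R K c) - c ∈ F R K p) ?_ ?_ ?_ ?_ hc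
  · rintro _ ⟨n, j, y, hj, rfl⟩
    rcases Nat.lt_succ_iff_lt_or_eq.1 hj with h | h
    · have hmem : (single (⟨n + 1, K.act (Op.dgn j) y⟩ : K.T) 1 : Ch R K) ∈ F R K p :=
        mem_F j y h 1
      exact Submodule.sub_mem _ (Submodule.add_mem _ (bd_mem_F (t_mem_F hmem))
        (t_mem_F (bd_mem_F hmem))) hmem
    · subst h
      exact key_single j y
  · simp
  · intro a b _ _ ha hb
    have : Ch.bd R K (t R K p (a + b)) + t R K p (Ch.bd R K (a + b)) - (a + b) =
      (Ch.bd R K (t R K p a) + t R K p (Ch.bd R K a) - a) +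
      (Ch.bd R K (t R K p b) + t R K p (Ch.bd R K b) - b) := by
      simp only [map_add]; abel
    rw [this]
    exact Submodule.add_mem _ ha hb
  · intro r a _ ha
    have : Ch.bd R K (t R K p (r • a)) + t R K p (Ch.bd R K (r • a)) - (r • a) =
      r • (Ch.bd R K (t R K p a) + t R K p (Ch.bd R K a) - a) := by
      simp only [map_smul, smul_add, smul_sub]
    rw [this]
    exact Submodule.smul_mem _ _ ha

/-! ## projections to one degree -/

/-- the degree `n` component -/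
noncomputable def pr (R : Type) [CommRing R] (K : SS) (n : ℕ) : Ch R K →ₗ[R] Ch R K where
  toFun c := c.filter (fun u => u.1 = n)
  map_add' _ _ := Finsupp.filter_add
  map_smul' _ _ := Finsupp.filter_smul

theorem pr_single_self {n : ℕ} (x : K.S n) (r : R) : pr R K n (single ⟨n, x⟩ r) = single ⟨n, x⟩ r :=
  Finsupp.filter_single_of_pos _ rfl

theorem pr_single_ne {n m : ℕ} (h : m ≠ n) (x : K.S m) (r : R) :
    pr R K n (single ⟨m, x⟩ r) = 0 :=
  Finsupp.filter_single_of_neg _ h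

theorem gr_single {n : ℕ} (x : K.S n) (r : R) : (single ⟨n, x⟩ r : Ch R K) ∈ Ch.gr R K n := by
  have : (single (⟨n, x⟩ : K.T) r : Ch R K) = r • single (⟨n, x⟩ : K.T) 1 := by simp
  rw [this]
  exact Submodule.smul_mem _ _ (Submodule.subset_span ⟨x, rfl⟩)

theorem pr_mem_gr (n : ℕ) (c : Ch R K) : pr R K n c ∈ Ch.gr R K n := by
  induction c using Finsupp.induction_linear with
  | zero => simp
  | add f g hf hg => rw [map_add]; exact Submodule.add_mem _ hf hg
  | single u r =>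
    obtain ⟨m, x⟩ := u
    by_cases h : m = n
    · subst h; rw [pr_single_self]; exact gr_single x r
    · rw [pr_single_ne h]; exact Submodule.zero_mem _

theorem pr_of_gr {n : ℕ} {c : Ch R K} (hc : c ∈ Ch.gr R K n) : pr R K n c = c := by
  refine Submodule.span_induction (p := fun c _ => pr R K n c = c) ?_ ?_ ?_ ?_ hc
  · rintro _ ⟨x, rfl⟩; exact pr_single_self x 1
  · simp
  · intro a b _ _ ha hb; rw [map_add, ha, hb]
  · intro r a _ ha; rw [map_smul, ha]

theorem pr_bd (n : ℕ) (c : Ch R K) : pr R K n (Ch.bd R K c) = Ch.bd R K (pr R K (n + 1) c) := by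
  induction c using Finsupp.induction_linear with
  | zero => simp
  | add f g hf hg => simp only [map_add, hf, hg]
  | single u r =>
    obtain ⟨m, x⟩ := u
    rcases m with _ | m
    · rw [Ch.bd_single_zero, pr_single_ne (by omega), map_zero, map_zero]
    · by_cases h : m = n
      · subst h
        rw [pr_single_self, Ch.bd_single_succ, map_sum]
        exact Finset.sum_congr rfl fun i _ => pr_single_self _ _
      · rw [pr_single_ne (by omega), map_zero, Ch.bd_single_succ, map_sum]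
        exact Finset.sum_eq_zero fun i _ => pr_single_ne h _ _

theorem pr_mem_Dg (n : ℕ) {c : Ch R K} (hc : c ∈ Ch.Dg R K) : pr R K n c ∈ Ch.Dg R K := by
  refine Submodule.span_induction (p := fun c _ => pr R K n c ∈ Ch.Dg R K) ?_ ?_ ?_ ?_ hc
  · rintro _ ⟨⟨m, x⟩, hx, rfl⟩
    by_cases h : m = n
    · subst h; rw [pr_single_self]; exact Submodule.subset_span ⟨_, hx, rfl⟩
    · rw [pr_single_ne h]; exact Submodule.zero_mem _
  · simp
  · intro a b _ _ ha hb; rw [map_add]; exact Submodule.add_mem _ ha hb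
  · intro r a _ ha; rw [map_smul]; exact Submodule.smul_mem _ _ ha

/-! ## acyclicity of the degenerate chains -/

theorem acyclic_F (p : ℕ) : ∀ {c : Ch R K}, c ∈ F R K p → Ch.bd R K c = 0 →
    ∃ w ∈ Ch.Dg R K, Ch.bd R K w = c := by
  induction p with
  | zero =>
    intro c hc _
    rw [F_zero, Submodule.mem_bot] at hc
    exact ⟨0, Submodule.zero_mem _, by rw [hc, map_zero]⟩
  | succ p ih =>
    intro c hc hz
    have h1 := key hc
    rw [hz, map_zero, add_zero] at h1
    have h2 : Ch.bd R K (Ch.bd R K (t R K p c) - c) = 0 := by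
      rw [map_sub, Ch.bd_bd, hz, sub_zero]
    obtain ⟨w, hw, hw'⟩ := ih h1 h2
    refine ⟨t R K p c - w, Submodule.sub_mem _ (t_mem_Dg c) hw, ?_⟩
    rw [map_sub, hw']; abel

/-- the complex of degenerate chains is acyclic -/
theorem acyclic {c : Ch R K} (hc : c ∈ Ch.Dg R K) (hz : Ch.bd R K c = 0) :
    ∃ w ∈ Ch.Dg R K, Ch.bd R K w = c := by
  obtain ⟨p, hp⟩ := exists_F hc
  exact acyclic_F p hp hz


/-! ## the normalisation theorem -/

theorem mkQ_bd : (Ch.Dg R K).mkQ ∘ₗ Ch.bd R K = N.bd R K ∘ₗ (Ch.Dg R K).mkQ := by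
  ext c; rfl

variable (R K)

/-- the comparison map from the homology of unnormalised chains -/
noncomputable def toH : Hd (Ch.bd R K) →ₗ[R] H R K := Hd.map (Ch.Dg R K).mkQ mkQ_bd

variable {R K}

theorem toH_mk (z : Ch R K) (hz : Ch.bd R K z = 0) :
    toH R K (Hd.mk _ z hz) = Hd.mk (N.bd R K) (Submodule.Quotient.mk z)
      (by rw [N.bd_mk, hz]; rfl) := rfl

theorem toH_injective : Function.Injective (toH R K) := by
  rw [← LinearMap.ker_eq_bot, LinearMap.ker_eq_bot']
  intro x hx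
  obtain ⟨z, hz, rfl⟩ := Hd.mk_surj _ x
  rw [toH_mk, Hd.mk_eq_zero] at hx
  obtain ⟨w, hw⟩ := hx
  obtain ⟨w, rfl⟩ := Submodule.Quotient.mk_surjective _ w
  rw [N.bd_mk, Submodule.Quotient.eq] at hw
  have h1 : Ch.bd R K (Ch.bd R K w - z) = 0 := by rw [map_sub, Ch.bd_bd, hz, sub_zero]
  obtain ⟨v, -, hv⟩ := acyclic hw h1
  rw [Hd.mk_eq_zero]
  exact ⟨w - v, by rw [map_sub, hv]; abel⟩

theorem toH_surjective : Function.Surjective (toH R K) := by
  intro x
  obtain ⟨z, hz, rfl⟩ := Hd.mk_surj _ x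
  obtain ⟨z, rfl⟩ := Submodule.Quotient.mk_surjective _ z
  have hz' := hz
  rw [N.bd_mk, Submodule.Quotient.mk_eq_zero] at hz'
  obtain ⟨v, hv, hv'⟩ := acyclic hz' (Ch.bd_bd z)
  refine ⟨Hd.mk _ (z - v) (by rw [map_sub, hv', sub_self]), ?_⟩
  rw [toH_mk, Hd.mk_eq_mk]
  refine ⟨0, ?_⟩
  rw [map_zero, ← Submodule.Quotient.mk_sub]
  symm
  rw [Submodule.Quotient.mk_eq_zero]
  have : z - v - z = -v := by abel
  rw [this]
  exact Submodule.neg_mem _ hv

/-- **Normalisation theorem** -/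
theorem toH_bijective : Function.Bijective (toH R K) := ⟨toH_injective, toH_surjective⟩

variable (R K) in
/-- **Normalisation theorem** as a linear equivalence -/
noncomputable def eqH : Hd (Ch.bd R K) ≃ₗ[R] H R K := LinearEquiv.ofBijective (toH R K) toH_bijective

@[simp] theorem eqH_apply (x : Hd (Ch.bd R K)) : eqH R K x = toH R K x := rfl


/-- every class of degree `n` is represented by an unnormalised cycle of degree `n` -/
theorem gr_rep {n : ℕ} {x : H R K} (hx : x ∈ H.gr R K n) :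
    ∃ (z : Ch R K) (hz : Ch.bd R K z = 0), z ∈ Ch.gr R K n ∧
      x = Hd.mk (N.bd R K) (Submodule.Quotient.mk z) (by rw [N.bd_mk, hz]; rfl) := by
  obtain ⟨⟨y, hy⟩, hy', rfl⟩ := hx
  obtain ⟨z, hz, rfl⟩ := hy'
  have h1 : Ch.bd R K z ∈ Ch.Dg R K := by
    have h := hy
    rw [LinearMap.mem_ker] at h
    change N.bd R K (Submodule.Quotient.mk z) = 0 at h
    rwa [N.bd_mk, Submodule.Quotient.mk_eq_zero] at h
  obtain ⟨v, hv, hv'⟩ := acyclic h1 (Ch.bd_bd z)
  have hz0 : Ch.bd R K (z - pr R K n v) = 0 := by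
    rcases n with _ | n
    · -- degree zero: the boundary vanishes
      have hb : Ch.bd R K z = 0 := by
        refine Submodule.span_induction (p := fun c _ => Ch.bd R K c = 0) ?_ ?_ ?_ ?_ hz
        · rintro _ ⟨x, rfl⟩; exact Ch.bd_single_zero _ _
        · simp
        · intro a b _ _ ha hb; rw [map_add, ha, hb, add_zero]
        · intro r a _ ha; rw [map_smul, ha, smul_zero]
      have hb' : Ch.bd R K (pr R K 0 v) = 0 := by
        refine Submodule.span_induction (p := fun c _ => Ch.bd R K c = 0) ?_ ?_ ?_ ?_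
          (pr_mem_gr 0 v)
        · rintro _ ⟨x, rfl⟩; exact Ch.bd_single_zero _ _
        · simp
        · intro a b _ _ ha hb; rw [map_add, ha, hb, add_zero]
        · intro r a _ ha; rw [map_smul, ha, smul_zero]
      rw [map_sub, hb, hb', sub_zero]
    · rw [map_sub, ← pr_bd, hv', pr_bd, pr_of_gr hz, sub_self]
  refine ⟨z - pr R K n v, hz0, Submodule.sub_mem _ hz (pr_mem_gr _ _), ?_⟩
  refine (Hd.mk_eq_mk (d := N.bd R K) (z := Submodule.Quotient.mk z)
    (z' := Submodule.Quotient.mk (z - pr R K n v)) (hz := hy)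
    (hz' := by rw [N.bd_mk, hz0]; rfl)).2 ?_
  refine ⟨0, ?_⟩
  rw [map_zero, ← Submodule.Quotient.mk_sub]
  symm
  rw [Submodule.Quotient.mk_eq_zero]
  have : z - (z - pr R K n v) = pr R K n v := by abel
  rw [this]
  exact pr_mem_Dg n hv

/-- an unnormalised cycle of degree `n` whose class in normalised homology vanishes is the boundary
of an unnormalised chain of degree `n + 1` -/
theorem gr_bd {n : ℕ} {z : Ch R K} (hn : z ∈ Ch.gr R K n) (hz : Ch.bd R K z = 0)
    (h : Hd.mk (N.bd R K) (Submodule.Quotient.mk z) (by rw [N.bd_mk, hz]; rfl) = 0) :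
    ∃ w ∈ Ch.gr R K (n + 1), Ch.bd R K w = z := by
  have h1 : toH R K (Hd.mk _ z hz) = 0 := h
  have h2 : Hd.mk (Ch.bd R K) z hz = 0 := toH_injective (by rw [h1, map_zero])
  rw [Hd.mk_eq_zero] at h2
  obtain ⟨w, hw⟩ := h2
  exact ⟨pr R K (n + 1) w, pr_mem_gr _ _, by rw [← pr_bd, hw, pr_of_gr hn]⟩

end Crest.Agent.R204.Normz515
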