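import Crest.Agent.R204.Defs

-- ▼ part R204/QC_134
section

/-!
# Row 204, leaf A-QC (helper134): quasi-isomorphisms of differential `F2`-modules,
Künneth, and the homology of the quadratic construction
`W ⊗_{Z/2} (C ⊗ C)`, `W` the standard free resolution (generators `e_i`, `d e_i = (1+τ) e_{i-1}`).
-/

set_option autoImplicit false
set_option linter.unusedSectionVars false
set_option linter.unusedSimpArgs false

namespace Crest.Agent.R204.QC134

open Finsupp TensorProduct

variable {M M' M'' L L' : Type*}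
  [AddCommGroup M] [Module F2 M] [AddCommGroup M'] [Module F2 M'] [AddCommGroup M''] [Module F2 M'']
  [AddCommGroup L] [Module F2 L] [AddCommGroup L'] [Module F2 L']

/-- characteristic two -/
theorem add_self' (x : M) : x + x = 0 := by
  have h : (1 + 1 : F2) = 0 := by decide
  have := congrArg (fun r : F2 => r • x) h
  simpa [add_smul] using this

theorem neg_eq' (x : M) : -x = x := by
  rw [neg_eq_iff_add_eq_zero]; exact add_self' x

theorem sub_eq' (x y : M) : x - y = x + y := by rw [sub_eq_add_neg, neg_eq']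

theorem add_add_self (x y : M) : x + y + y = x := by rw [add_assoc, add_self', add_zero]

theorem eq_of_add_eq_zero {x y : M} (h : x + y = 0) : x = y := by
  rw [← sub_eq'] at h; exact sub_eq_zero.1 h

/-- `f` is a quasi-isomorphism `(M,d) → (M',d')` (elementwise form) -/
structure QI (d : M →ₗ[F2] M) (d' : M' →ₗ[F2] M') (f : M →ₗ[F2] M') : Prop where
  comm : ∀ x, f (d x) = d' (f x)
  surj : ∀ z', d' z' = 0 → ∃ z w', d z = 0 ∧ z' = f z + d' w'
  inj : ∀ z, d z = 0 → (∃ w', d' w' = f z) → ∃ w, d w = z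

/-- acyclicity of the mapping cone, elementwise -/
def Acy (d : M →ₗ[F2] M) (d' : M' →ₗ[F2] M') (f : M →ₗ[F2] M') : Prop :=
  ∀ c c', d c = 0 → f c = d' c' → ∃ w w', c = d w ∧ c' = f w + d' w'

theorem QI.acy {d : M →ₗ[F2] M} {d' : M' →ₗ[F2] M'} {f : M →ₗ[F2] M'} (h : QI d d' f) :
    Acy d d' f := by
  intro c c' hc hcc
  obtain ⟨w0, hw0⟩ := h.inj c hc ⟨c', hcc.symm⟩
  obtain ⟨z, w', hz, hzw⟩ := h.surj (c' + f w0) (by
    rw [map_add, ← h.comm, hw0, hcc, add_self'])
  refine ⟨w0 + z, w', ?_, ?_⟩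
  · rw [map_add, hw0, hz, add_zero]
  · rw [map_add, add_assoc, ← hzw, add_comm c', ← add_assoc, add_self', zero_add]

theorem QI.of_acy {d : M →ₗ[F2] M} {d' : M' →ₗ[F2] M'} {f : M →ₗ[F2] M'}
    (hf : ∀ x, f (d x) = d' (f x)) (h : Acy d d' f) : QI d d' f := by
  refine ⟨hf, ?_, ?_⟩
  · intro z' hz'
    obtain ⟨w, w', h1, h2⟩ := h 0 z' (map_zero _) (by rw [hz', map_zero])
    exact ⟨w, w', h1.symm, h2⟩
  · rintro z hz ⟨w', hw'⟩
    obtain ⟨w, _, h1, _⟩ := h z w' hz hw'.symm
    exact ⟨w, h1.symm⟩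

theorem QI.comp {d : M →ₗ[F2] M} {d' : M' →ₗ[F2] M'} {d'' : M'' →ₗ[F2] M''} {f : M →ₗ[F2] M'}
    {g : M' →ₗ[F2] M''} (hg : QI d' d'' g) (hf : QI d d' f) : QI d d'' (g ∘ₗ f) := by
  refine ⟨fun x => by simp [hf.comm, hg.comm], ?_, ?_⟩
  · intro z'' hz''
    obtain ⟨z', w'', h1, rfl⟩ := hg.surj z'' hz''
    obtain ⟨z, w', h2, rfl⟩ := hf.surj z' h1
    refine ⟨z, g w' + w'', h2, ?_⟩
    simp only [LinearMap.comp_apply, map_add, hg.comm, add_assoc]
  · rintro z hz ⟨w'', hw''⟩
    exact hf.inj z hz (hg.inj (f z) (by rw [← hf.comm, hz, map_zero]) ⟨w'', hw''⟩)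

theorem QI.id (d : M →ₗ[F2] M) : QI d d LinearMap.id :=
  ⟨fun _ => rfl, fun z' hz' => ⟨z', 0, hz', by simp⟩, fun _ _ ⟨w, hw⟩ => ⟨w, hw⟩⟩



/-- quasi-isomorphisms are the maps inducing bijections on `Hd` -/
theorem QI.bijective {d : M →ₗ[F2] M} {d' : M' →ₗ[F2] M'} {f : M →ₗ[F2] M'} (h : QI d d' f)
    (hc : f ∘ₗ d = d' ∘ₗ f) : Function.Bijective (Hd.map f hc) := by
  constructor
  · rw [injective_iff_map_eq_zero]
    intro x hx
    obtain ⟨z, hz, rfl⟩ := Hd.mk_surj d x
    rw [Hd.map_mk, Hd.mk_eq_zero] at hx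
    exact Hd.mk_eq_zero.2 (h.inj z hz hx)
  · intro y
    obtain ⟨z', hz', rfl⟩ := Hd.mk_surj d' y
    obtain ⟨z, w', hz, hzw⟩ := h.surj z' hz'
    refine ⟨Hd.mk d z hz, ?_⟩
    rw [Hd.map_mk, Hd.mk_eq_mk]
    exact ⟨w', by rw [hzw, sub_eq', ← add_assoc, add_self', zero_add]⟩


/-! ## homotopy equivalences -/

/-- homotopy inverse data (over a field every quasi-isomorphism has one) -/
theorem exists_contraction (d : M →ₗ[F2] M) (hdd : ∀ x, d (d x) = 0)
    (h : ∀ z, d z = 0 → ∃ w, d w = z) : ∃ s : M →ₗ[F2] M, ∀ x, d (s x) + s (d x) = x := by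
  obtain ⟨σ, hσ⟩ := d.rangeRestrict.exists_rightInverse_of_surjective d.range_rangeRestrict
  have hσ' : ∀ y : LinearMap.range d, d (σ y) = y := by
    intro y
    have := LinearMap.congr_fun hσ y
    simpa using congrArg Subtype.val this
  have hmem : ∀ x, x + σ (d.rangeRestrict x) ∈ LinearMap.range d := by
    intro x
    obtain ⟨w, hw⟩ := h (x + σ (d.rangeRestrict x)) (by
      rw [map_add, hσ']; exact add_self' _)
    exact ⟨w, hw⟩
  refine ⟨σ ∘ₗ ((LinearMap.id + σ ∘ₗ d.rangeRestrict).codRestrict (LinearMap.range d) hmem), ?_⟩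
  intro x
  simp only [LinearMap.comp_apply]
  rw [hσ']
  have h0 : d.rangeRestrict (d x) = 0 := by
    ext; simp [hdd]
  have h1 : (LinearMap.codRestrict (LinearMap.range d) (LinearMap.id + σ ∘ₗ d.rangeRestrict) hmem)
      (d x) = d.rangeRestrict x := by
    ext
    simp [h0]
  rw [h1]
  simp only [LinearMap.codRestrict_apply, LinearMap.add_apply, LinearMap.id_apply,
    LinearMap.comp_apply]
  rw [add_assoc, add_self', add_zero]

/-- cone differential -/
def coneD (d : M →ₗ[F2] M) (d' : M' →ₗ[F2] M') (f : M →ₗ[F2] M') : (M' × M) →ₗ[F2] (M' × M) :=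
  LinearMap.prod (d' ∘ₗ LinearMap.fst _ _ _ + f ∘ₗ LinearMap.snd _ _ _) (d ∘ₗ LinearMap.snd _ _ _)

theorem coneD_apply (d : M →ₗ[F2] M) (d' : M' →ₗ[F2] M') (f : M →ₗ[F2] M') (x : M' × M) :
    coneD d d' f x = (d' x.1 + f x.2, d x.2) := rfl

/-- over a field a quasi-isomorphism is a homotopy equivalence -/
theorem QI.homotopyEquiv {d : M →ₗ[F2] M} {d' : M' →ₗ[F2] M'} {f : M →ₗ[F2] M'}
    (hdd : ∀ x, d (d x) = 0) (hdd' : ∀ x, d' (d' x) = 0) (h : QI d d' f) :
    ∃ (g : M' →ₗ[F2] M) (s : M →ₗ[F2] M) (s' : M' →ₗ[F2] M'),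
      (∀ x, g (d' x) = d (g x)) ∧ (∀ x, d (s x) + g (f x) + s (d x) = x) ∧
      (∀ x, d' (s' x) + f (g x) + s' (d' x) = x) := by
  have hD : ∀ x, coneD d d' f (coneD d d' f x) = 0 := by
    rintro ⟨a, b⟩
    simp [coneD, hdd, hdd', h.comm, add_self']
  obtain ⟨S, hS⟩ := exists_contraction (coneD d d' f) hD (by
    rintro ⟨c', c⟩ hc
    simp only [coneD_apply, Prod.mk_eq_zero] at hc
    obtain ⟨w, w', h1, h2⟩ := h.acy c c' hc.2 (eq_of_add_eq_zero hc.1).symm
    exact ⟨(w', w), by simp [coneD_apply, h1, h2, add_comm]⟩)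
  refine ⟨LinearMap.snd F2 M' M ∘ₗ S ∘ₗ LinearMap.inl F2 M' M,
    LinearMap.snd F2 M' M ∘ₗ S ∘ₗ LinearMap.inr F2 M' M,
    LinearMap.fst F2 M' M ∘ₗ S ∘ₗ LinearMap.inl F2 M' M, ?_, ?_, ?_⟩
  · intro x
    have := congrArg Prod.snd (hS (x, 0))
    simp only [coneD_apply, Prod.snd_add, map_zero, add_zero] at this
    exact (eq_of_add_eq_zero this).symm
  · intro x
    have := congrArg Prod.snd (hS (0, x))
    simp only [coneD_apply, Prod.snd_add, map_zero, zero_add] at this
    have e : S (f x, d x) = S (f x, 0) + S (0, d x) := by rw [← map_add]; simp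
    rw [e, Prod.snd_add, ← add_assoc] at this
    exact this
  · intro x
    have := congrArg Prod.fst (hS (x, 0))
    simp only [coneD_apply, Prod.fst_add, map_zero, add_zero] at this
    exact this

theorem QI.of_homotopyEquiv {d : M →ₗ[F2] M} {d' : M' →ₗ[F2] M'} {f : M →ₗ[F2] M'}
    {g : M' →ₗ[F2] M} {s : M →ₗ[F2] M} {s' : M' →ₗ[F2] M'} (hf : ∀ x, f (d x) = d' (f x))
    (hg : ∀ x, g (d' x) = d (g x)) (hs : ∀ x, d (s x) + g (f x) + s (d x) = x)
    (hs' : ∀ x, d' (s' x) + f (g x) + s' (d' x) = x) : QI d d' f := by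
  refine ⟨hf, ?_, ?_⟩
  · intro z' hz'
    refine ⟨g z', s' z', by rw [← hg, hz', map_zero], ?_⟩
    have := hs' z'
    rw [hz', map_zero, add_zero, add_comm] at this
    exact this.symm
  · rintro z hz ⟨w', hw'⟩
    refine ⟨s z + g w', ?_⟩
    have := hs z
    rw [hz, map_zero, add_zero, ← hw', hg, ← map_add] at this
    exact this

/-! ## tensor products -/

/-- the tensor differential (characteristic 2) -/
noncomputable def dT (d : M →ₗ[F2] M) (d' : M' →ₗ[F2] M') : (M ⊗[F2] M') →ₗ[F2] (M ⊗[F2] M') :=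
  TensorProduct.map d LinearMap.id + TensorProduct.map LinearMap.id d'

@[simp] theorem dT_tmul (d : M →ₗ[F2] M) (d' : M' →ₗ[F2] M') (x : M) (y : M') :
    dT d d' (x ⊗ₜ y) = d x ⊗ₜ y + x ⊗ₜ d' y := by
  simp [dT]

theorem dT_dT {d : M →ₗ[F2] M} {d' : M' →ₗ[F2] M'} (h : ∀ x, d (d x) = 0)
    (h' : ∀ x, d' (d' x) = 0) (x : M ⊗[F2] M') : dT d d' (dT d d' x) = 0 := by
  induction x using TensorProduct.induction_on with
  | zero => simp
  | add x y hx hy => rw [map_add, map_add, hx, hy, add_zero]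
  | tmul x y =>
    simp only [dT_tmul, map_add, h, h', TensorProduct.zero_tmul, TensorProduct.tmul_zero, zero_add,
      add_zero]
    exact add_self' _

theorem QI.tensor_left {d : M →ₗ[F2] M} {d' : M' →ₗ[F2] M'} {f : M →ₗ[F2] M'}
    (hdd : ∀ x, d (d x) = 0) (hdd' : ∀ x, d' (d' x) = 0) (h : QI d d' f) (e : L →ₗ[F2] L) :
    QI (dT d e) (dT d' e) (TensorProduct.map f LinearMap.id) := by
  obtain ⟨g, s, s', hg, hs, hs'⟩ := h.homotopyEquiv hdd hdd'
  refine QI.of_homotopyEquiv (g := TensorProduct.map g LinearMap.id)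
    (s := TensorProduct.map s LinearMap.id) (s' := TensorProduct.map s' LinearMap.id) ?_ ?_ ?_ ?_
  · intro x
    induction x using TensorProduct.induction_on with
    | zero => simp
    | add x y hx hy => simp only [map_add, hx, hy]
    | tmul x y => simp [h.comm]
  · intro x
    induction x using TensorProduct.induction_on with
    | zero => simp
    | add x y hx hy => simp only [map_add, hx, hy]
    | tmul x y => simp [hg]
  · intro x
    induction x using TensorProduct.induction_on with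
    | zero => simp
    | add x y hx hy =>
      have : dT d e ((TensorProduct.map s LinearMap.id) (x + y)) +
          (TensorProduct.map g LinearMap.id) ((TensorProduct.map f LinearMap.id) (x + y)) +
          (TensorProduct.map s LinearMap.id) (dT d e (x + y)) =
          (dT d e ((TensorProduct.map s LinearMap.id) x) +
          (TensorProduct.map g LinearMap.id) ((TensorProduct.map f LinearMap.id) x) +
          (TensorProduct.map s LinearMap.id) (dT d e x)) +
          (dT d e ((TensorProduct.map s LinearMap.id) y) +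
          (TensorProduct.map g LinearMap.id) ((TensorProduct.map f LinearMap.id) y) +
          (TensorProduct.map s LinearMap.id) (dT d e y)) := by
        simp only [map_add]; abel
      rw [this, hx, hy]
    | tmul x y =>
      simp only [dT_tmul, TensorProduct.map_tmul, LinearMap.id_apply, map_add]
      have e1 : d (s x) ⊗ₜ[F2] y + s x ⊗ₜ[F2] e y + g (f x) ⊗ₜ[F2] y + (s (d x) ⊗ₜ[F2] y +
          s x ⊗ₜ[F2] e y) = (d (s x) + g (f x) + s (d x)) ⊗ₜ[F2] y + (s x ⊗ₜ[F2] e y +
          s x ⊗ₜ[F2] e y) := by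
        simp only [TensorProduct.add_tmul]; abel
      rw [e1, hs, add_self', add_zero]
  · intro x
    induction x using TensorProduct.induction_on with
    | zero => simp
    | add x y hx hy =>
      have : dT d' e ((TensorProduct.map s' LinearMap.id) (x + y)) +
          (TensorProduct.map f LinearMap.id) ((TensorProduct.map g LinearMap.id) (x + y)) +
          (TensorProduct.map s' LinearMap.id) (dT d' e (x + y)) =
          (dT d' e ((TensorProduct.map s' LinearMap.id) x) +
          (TensorProduct.map f LinearMap.id) ((TensorProduct.map g LinearMap.id) x) +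
          (TensorProduct.map s' LinearMap.id) (dT d' e x)) +
          (dT d' e ((TensorProduct.map s' LinearMap.id) y) +
          (TensorProduct.map f LinearMap.id) ((TensorProduct.map g LinearMap.id) y) +
          (TensorProduct.map s' LinearMap.id) (dT d' e y)) := by
        simp only [map_add]; abel
      rw [this, hx, hy]
    | tmul x y =>
      simp only [dT_tmul, TensorProduct.map_tmul, LinearMap.id_apply, map_add]
      have e1 : d' (s' x) ⊗ₜ[F2] y + s' x ⊗ₜ[F2] e y + f (g x) ⊗ₜ[F2] y + (s' (d' x) ⊗ₜ[F2] y +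
          s' x ⊗ₜ[F2] e y) = (d' (s' x) + f (g x) + s' (d' x)) ⊗ₜ[F2] y + (s' x ⊗ₜ[F2] e y +
          s' x ⊗ₜ[F2] e y) := by
        simp only [TensorProduct.add_tmul]; abel
      rw [e1, hs', add_self', add_zero]

/-- the swap is an isomorphism of differential modules -/
theorem comm_dT (d : M →ₗ[F2] M) (d' : M' →ₗ[F2] M') (x : M ⊗[F2] M') :
    (TensorProduct.comm F2 M M') (dT d d' x) = dT d' d ((TensorProduct.comm F2 M M') x) := by
  induction x using TensorProduct.induction_on with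
  | zero => simp
  | add x y hx hy => simp only [map_add, hx, hy]
  | tmul x y => simp [add_comm]

theorem QI.of_equiv {d : M →ₗ[F2] M} {d' : M' →ₗ[F2] M'} (e : M ≃ₗ[F2] M')
    (h : ∀ x, e (d x) = d' (e x)) : QI d d' (e : M →ₗ[F2] M') := by
  have h' : ∀ y, e.symm (d' y) = d (e.symm y) := by
    intro y
    apply e.injective
    rw [h]; simp
  refine ⟨h, ?_, ?_⟩
  · intro z' hz'
    exact ⟨e.symm z', 0, by rw [← h', hz', map_zero], by simp⟩
  · rintro z hz ⟨w', hw'⟩
    refine ⟨e.symm w', ?_⟩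
    rw [← h', hw']; simp

theorem QI.tensor_right {d : M →ₗ[F2] M} {d' : M' →ₗ[F2] M'} {f : M →ₗ[F2] M'}
    (hdd : ∀ x, d (d x) = 0) (hdd' : ∀ x, d' (d' x) = 0) (h : QI d d' f) (e : L →ₗ[F2] L) :
    QI (dT e d) (dT e d') (TensorProduct.map LinearMap.id f) := by
  have h1 := h.tensor_left hdd hdd' e
  have h2 := QI.of_equiv (d := dT e d) (d' := dT d e) (TensorProduct.comm F2 L M) (comm_dT e d)
  have h3 := QI.of_equiv (d := dT d' e) (d' := dT e d') (TensorProduct.comm F2 M' L) (comm_dT d' e)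
  have h4 := h3.comp (h1.comp h2)
  convert h4 using 1
  ext x y
  simp

/-- Künneth: tensor product of quasi-isomorphisms -/
theorem QI.tensor {d : M →ₗ[F2] M} {d' : M' →ₗ[F2] M'} {f : M →ₗ[F2] M'}
    (hdd : ∀ x, d (d x) = 0) (hdd' : ∀ x, d' (d' x) = 0) (h : QI d d' f)
    {e : L →ₗ[F2] L} {e' : L' →ₗ[F2] L'} {g : L →ₗ[F2] L'}
    (hee : ∀ x, e (e x) = 0) (hee' : ∀ x, e' (e' x) = 0) (hg : QI e e' g) :
    QI (dT d e) (dT d' e') (TensorProduct.map f g) := by
  have h1 := h.tensor_left hdd hdd' e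
  have h2 := hg.tensor_right hee hee' d'
  have h3 := h2.comp h1
  convert h3 using 1
  rw [← TensorProduct.map_comp]; simp

/-! ## the quadratic construction `W ⊗_{Z/2} M` -/

/-- the differential of `W ⊗_{Z/2} M = ⊕_i e_i ⊗ M`:
`D (e_i ⊗ m) = e_{i-1} ⊗ (m + τ m) + e_i ⊗ d m`. -/
noncomputable def QD (d τ : M →ₗ[F2] M) : (ℕ →₀ M) →ₗ[F2] (ℕ →₀ M) :=
  Finsupp.lsum F2 (fun i => Finsupp.lsingle i ∘ₗ d +
    (match i with
      | 0 => 0
      | j + 1 => Finsupp.lsingle j ∘ₗ (LinearMap.id + τ)))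

@[simp] theorem QD_single_zero (d τ : M →ₗ[F2] M) (m : M) :
    QD d τ (single 0 m) = single 0 (d m) := by
  simp [QD]

@[simp] theorem QD_single_succ (d τ : M →ₗ[F2] M) (i : ℕ) (m : M) :
    QD d τ (single (i + 1) m) = single (i + 1) (d m) + single i (m + τ m) := by
  simp [QD]

theorem QD_apply (d τ : M →ₗ[F2] M) (x : ℕ →₀ M) (i : ℕ) :
    QD d τ x i = d (x i) + (x (i + 1) + τ (x (i + 1))) := by
  induction x using Finsupp.induction_linear with
  | zero => simp
  | add f g hf hg => simp only [map_add, Finsupp.add_apply, hf, hg]; abel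
  | single j m =>
    rcases j with _ | j
    · rw [QD_single_zero]
      rcases i with _ | i
      · simp
      · simp
    · rw [QD_single_succ]
      simp only [Finsupp.add_apply, Finsupp.single_apply]
      by_cases h : j = i
      · subst h
        simp
      · by_cases h2 : j + 1 = i
        · subst h2
          simp
        · have : ¬ (j + 1 = i + 1) := by omega
          simp [h, h2, this]

theorem QD_QD {d τ : M →ₗ[F2] M} (hdd : ∀ x, d (d x) = 0) (hτ : ∀ x, τ (τ x) = x)
    (hc : ∀ x, τ (d x) = d (τ x)) (x : ℕ →₀ M) : QD d τ (QD d τ x) = 0 := by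
  ext i
  rw [QD_apply, QD_apply, QD_apply]
  simp only [map_add, hdd, hτ, hc, zero_add, Finsupp.coe_zero, Pi.zero_apply]
  have : ∀ a b c e : M, a + b + (a + (c + e) + (b + (e + c))) = (a + a) + (b + b) + (c + c) + (e + e) := by
    intros; abel
  rw [this]
  simp [add_self']

/-- functoriality of `W ⊗_{Z/2} -` -/
noncomputable def Qmap (f : M →ₗ[F2] M') : (ℕ →₀ M) →ₗ[F2] (ℕ →₀ M') :=
  Finsupp.mapRange.linearMap f

@[simp] theorem Qmap_single (f : M →ₗ[F2] M') (i : ℕ) (m : M) :
    Qmap f (single i m) = single i (f m) := by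
  simp [Qmap]

@[simp] theorem Qmap_apply (f : M →ₗ[F2] M') (x : ℕ →₀ M) (i : ℕ) : Qmap f x i = f (x i) := by
  simp [Qmap]


theorem Qmap_QD {d τ : M →ₗ[F2] M} {d' τ' : M' →ₗ[F2] M'} {f : M →ₗ[F2] M'}
    (hf : ∀ x, f (d x) = d' (f x)) (hτ : ∀ x, f (τ x) = τ' (f x)) (x : ℕ →₀ M) :
    Qmap f (QD d τ x) = QD d' τ' (Qmap f x) := by
  ext i
  simp only [Qmap_apply, QD_apply, map_add, hf, hτ]

/-- comparison theorem: an equivariant map which is a quasi-isomorphism induces a
quasi-isomorphism after `W ⊗_{Z/2} -` -/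
theorem QI.Q {d τ : M →ₗ[F2] M} {d' τ' : M' →ₗ[F2] M'} {f : M →ₗ[F2] M'}
    (hdd : ∀ x, d (d x) = 0) (hdd' : ∀ x, d' (d' x) = 0)
    (hττ : ∀ x, τ (τ x) = x) (hττ' : ∀ x, τ' (τ' x) = x)
    (hc : ∀ x, τ (d x) = d (τ x)) (hc' : ∀ x, τ' (d' x) = d' (τ' x))
    (hfτ : ∀ x, f (τ x) = τ' (f x)) (h : QI d d' f) :
    QI (QD d τ) (QD d' τ') (Qmap f) := by
  refine QI.of_acy (Qmap_QD h.comm hfτ) ?_
  have key : ∀ (n : ℕ) (c : ℕ →₀ M) (c' : ℕ →₀ M'), (∀ i, n ≤ i → c i = 0) →
      (∀ i, n ≤ i → c' i = 0) → QD d τ c = 0 → Qmap f c = QD d' τ' c' →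
      ∃ w w', c = QD d τ w ∧ c' = Qmap f w + QD d' τ' w' := by
    intro n
    induction n with
    | zero =>
      intro c c' h1 h2 _ _
      refine ⟨0, 0, ?_, ?_⟩
      · ext i; simp [h1 i (Nat.zero_le _)]
      · ext i; simp [h2 i (Nat.zero_le _)]
    | succ n ih =>
      intro c c' h1 h2 h3 h4
      have e1 : d (c n) = 0 := by
        have := DFunLike.congr_fun h3 n
        rw [QD_apply, h1 (n + 1) le_rfl] at this
        simpa using this
      have e2 : f (c n) = d' (c' n) := by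
        have := DFunLike.congr_fun h4 n
        rw [QD_apply, h2 (n + 1) le_rfl] at this
        simpa using this
      obtain ⟨w, w', hw, hw'⟩ := h.acy _ _ e1 e2
      obtain ⟨v, v', hv, hv'⟩ := ih (c + QD d τ (single n w))
        (c' + (Qmap f (single n w) + QD d' τ' (single n w')))
        (by
          intro i hi
          rw [Finsupp.add_apply, QD_apply]
          rcases hi.eq_or_lt with rfl | hi
          · simp [Finsupp.single_apply, hw, add_self']
          · rw [h1 i hi]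
            have a1 : n ≠ i := by omega
            have a2 : n ≠ i + 1 := by omega
            simp [Finsupp.single_apply, a1, a2])
        (by
          intro i hi
          rw [Finsupp.add_apply, Finsupp.add_apply, QD_apply]
          rcases hi.eq_or_lt with rfl | hi
          · simp [Finsupp.single_apply, hw', add_self']
          · rw [h2 i hi]
            have a1 : n ≠ i := by omega
            have a2 : n ≠ i + 1 := by omega
            simp [Finsupp.single_apply, a1, a2])
        (by rw [map_add, h3, QD_QD hdd hττ hc, add_zero])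
        (by
          rw [map_add, map_add, map_add, h4, QD_QD hdd' hττ' hc', add_zero,
            Qmap_QD h.comm hfτ])
      refine ⟨v + single n w, v' + single n w', ?_, ?_⟩
      · rw [map_add, ← hv, add_add_self]
      · have := congrArg (fun y => y + (Qmap f (single n w) + QD d' τ' (single n w'))) hv'
        simp only [add_add_self] at this
        rw [this, map_add, map_add]; abel
  intro c c' h1 h2
  obtain ⟨n, hn⟩ : ∃ n, ∀ i, n ≤ i → c i = 0 ∧ c' i = 0 := by
    refine ⟨(c.support ∪ c'.support).sup (fun n => n) + 1, fun i hi => ?_⟩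
    by_contra hcon
    have : i ∈ c.support ∪ c'.support := by
      rw [Finset.mem_union, Finsupp.mem_support_iff, Finsupp.mem_support_iff]
      tauto
    have := Finset.le_sup (f := fun n : ℕ => n) this
    omega
  exact key n c c' (fun i hi => (hn i hi).1) (fun i hi => (hn i hi).2) h1 h2

/-! ## the quadratic construction on a module with zero differential -/

section Basis

variable {J : Type*} [LinearOrder J]

/-- index set of the basis of the homology of `W ⊗_{Z/2} (V ⊗ V)` -/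
abbrev QIdx (J : Type*) [LinearOrder J] : Type _ := (ℕ × J) ⊕ {p : J × J // p.1 < p.2}

/-- swap on `F2[J × J]` -/
noncomputable def swapJ : ((J × J) →₀ F2) →ₗ[F2] ((J × J) →₀ F2) :=
  Finsupp.lmapDomain F2 F2 Prod.swap

theorem swapJ_apply (x : (J × J) →₀ F2) (p : J × J) : swapJ x p = x p.swap := by
  have h : Function.Injective (Prod.swap : J × J → J × J) := Prod.swap_injective
  have := Finsupp.mapDomain_apply h x p.swap
  rw [Prod.swap_swap] at this
  exact this

/-- the standard cycles in `W ⊗_{Z/2} F2[J × J]` -/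
noncomputable def qcyc : QIdx J → (ℕ →₀ ((J × J) →₀ F2))
  | Sum.inl (i, j) => single i (single (j, j) 1)
  | Sum.inr p => single 0 (single p.1 1)

/-- the part of `x` over the diagonal, strictly upper, strictly lower -/
theorem split3 (x : (J × J) →₀ F2) :
    x = x.filter (fun p => p.1 = p.2) + x.filter (fun p => p.1 < p.2) +
      x.filter (fun p => p.2 < p.1) := by
  ext p
  simp only [Finsupp.add_apply, Finsupp.filter_apply]
  rcases lt_trichotomy p.1 p.2 with h | h | h
  · simp [h, h.ne, h.le, not_lt.2 h.le]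
  · simp [h]
  · simp [h, h.ne', not_lt.2 h.le]

theorem diag_mem (x : (J × J) →₀ F2) (i : ℕ) :
    single i (x.filter (fun p => p.1 = p.2)) ∈ LinearMap.range
      (Finsupp.linearCombination F2 (qcyc (J := J))) := by
  induction x using Finsupp.induction_linear with
  | zero => rw [Finsupp.filter_zero, Finsupp.single_zero]; exact Submodule.zero_mem _
  | add f g hf hg =>
    rw [Finsupp.filter_add, Finsupp.single_add]; exact Submodule.add_mem _ hf hg
  | single p r =>
    obtain ⟨j, k⟩ := p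
    by_cases h : j = k
    · subst h
      rw [Finsupp.filter_single_of_pos (p := fun p : J × J => p.1 = p.2) rfl]
      refine ⟨single (Sum.inl (i, j)) r, ?_⟩
      simp [qcyc]
    · rw [Finsupp.filter_single_of_neg (p := fun p : J × J => p.1 = p.2) h,
        Finsupp.single_zero]
      exact Submodule.zero_mem _

theorem upper_mem (x : (J × J) →₀ F2) :
    single 0 (x.filter (fun p => p.1 < p.2)) ∈ LinearMap.range
      (Finsupp.linearCombination F2 (qcyc (J := J))) := by
  induction x using Finsupp.induction_linear with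
  | zero => rw [Finsupp.filter_zero, Finsupp.single_zero]; exact Submodule.zero_mem _
  | add f g hf hg =>
    rw [Finsupp.filter_add, Finsupp.single_add]; exact Submodule.add_mem _ hf hg
  | single p r =>
    by_cases h : p.1 < p.2
    · rw [Finsupp.filter_single_of_pos (p := fun p : J × J => p.1 < p.2) h]
      refine ⟨single (Sum.inr ⟨p, h⟩) r, ?_⟩
      simp [qcyc]
    · rw [Finsupp.filter_single_of_neg (p := fun p : J × J => p.1 < p.2) h,
        Finsupp.single_zero]
      exact Submodule.zero_mem _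

theorem swap_lower (x : (J × J) →₀ F2) :
    swapJ (x.filter (fun p => p.2 < p.1)) = (swapJ x).filter (fun p => p.1 < p.2) := by
  ext p
  simp only [swapJ_apply, Finsupp.filter_apply]
  rfl

/-- coefficients of a combination of the standard cycles -/
theorem lc_apply (c : QIdx J →₀ F2) (i : ℕ) (p : J × J) :
    Finsupp.linearCombination F2 (qcyc (J := J)) c i p =
      (if p.1 = p.2 then c (Sum.inl (i, p.1)) else 0) +
      (if h : i = 0 ∧ p.1 < p.2 then c (Sum.inr ⟨p, h.2⟩) else 0) := by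
  induction c using Finsupp.induction_linear with
  | zero => simp
  | add f g hf hg =>
    rw [map_add, Finsupp.add_apply, Finsupp.add_apply, hf, hg]
    split_ifs <;> simp [add_assoc, add_comm, add_left_comm]
  | single a r =>
    obtain ⟨j, k⟩ := p
    rcases a with ⟨i', j'⟩ | ⟨⟨j', k'⟩, h'⟩
    · simp only [Finsupp.linearCombination_single, qcyc, Finsupp.smul_single, smul_eq_mul, mul_one]
      by_cases hi : i' = i
      · subst hi
        by_cases hj : j' = j
        · subst hj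
          by_cases hk : j' = k
          · subst hk; simp
          · simp [hk]
        · by_cases hjk : j = k
          · subst hjk; simp [hj]
          · simp [hj, hjk]
      · simp [hi]
    · simp only [Finsupp.linearCombination_single, qcyc, Finsupp.smul_single, smul_eq_mul, mul_one]
      by_cases hi : i = 0
      · subst hi
        by_cases hp : j < k
        · have : ¬ j = k := hp.ne
          simp only [Finsupp.single_apply, this, hp]
          by_cases e : (j', k') = (j, k)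
          · simp only [Prod.mk.injEq] at e
            obtain ⟨rfl, rfl⟩ := e
            simp
          · have e' : ¬ (j' = j ∧ k' = k) := by simpa using e
            simp [e']
        · have e' : ¬ (j' = j ∧ k' = k) := by
            rintro ⟨rfl, rfl⟩; exact hp h'
          simp [hp, e']
      · have : ¬ (0 = i) := fun h => hi h.symm
        simp [hi, this]

theorem qcyc_QI : QI (0 : (QIdx J →₀ F2) →ₗ[F2] (QIdx J →₀ F2))
    (QD (0 : ((J × J) →₀ F2) →ₗ[F2] ((J × J) →₀ F2)) swapJ)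
    (Finsupp.linearCombination F2 (qcyc (J := J))) := by
  refine ⟨?_, ?_, ?_⟩
  · intro x
    ext i p
    rw [LinearMap.zero_apply, map_zero, QD_apply]
    simp only [Finsupp.coe_zero, Pi.zero_apply, LinearMap.zero_apply, zero_add, Finsupp.add_apply,
      swapJ_apply, lc_apply, Prod.fst_swap, Prod.snd_swap]
    obtain ⟨j, k⟩ := p
    by_cases h : j = k
    · subst h
      simp only [if_true, lt_irrefl, and_false, dite_false, add_zero]
      exact (add_self' _).symm
    · have h' : ¬ k = j := fun e => h e.symm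
      simp [h, h']
  · intro z hz
    -- each `z (i+1)` is symmetric
    have hsym : ∀ i, swapJ (z (i + 1)) = z (i + 1) := by
      intro i
      have := DFunLike.congr_fun hz i
      rw [QD_apply] at this
      simp only [LinearMap.zero_apply, zero_add, Finsupp.coe_zero, Pi.zero_apply] at this
      exact (eq_of_add_eq_zero this).symm
    -- the decomposition of `single i (z i)`
    have hdec : ∀ i, ∃ a w, single i (z i) =
        Finsupp.linearCombination F2 (qcyc (J := J)) a +
          QD (0 : ((J × J) →₀ F2) →ₗ[F2] ((J × J) →₀ F2)) swapJ w := by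
      intro i
      rcases i with _ | i
      · obtain ⟨a1, ha1⟩ := diag_mem (z 0) 0
        obtain ⟨a2, ha2⟩ := upper_mem (z 0)
        obtain ⟨a3, ha3⟩ := upper_mem (swapJ (z 0))
        refine ⟨a1 + a2 + a3, single 1 ((z 0).filter (fun p => p.2 < p.1)), ?_⟩
        rw [map_add, map_add, ha1, ha2, ha3]
        conv_lhs => rw [split3 (z 0)]
        rw [← swap_lower, show (1 : ℕ) = 0 + 1 from rfl, QD_single_succ]
        simp only [LinearMap.zero_apply, Finsupp.single_zero, zero_add, Finsupp.single_add]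
        have : ∀ a b c e : (ℕ →₀ ((J × J) →₀ F2)), a + b + c + (e + c) = a + b + e + (c + c) := by
          intros; abel
        rw [this, show ∀ c : ℕ →₀ ((J × J) →₀ F2), c + c = 0 from fun c => add_self' c, add_zero]
      · obtain ⟨a1, ha1⟩ := diag_mem (z (i + 1)) (i + 1)
        refine ⟨a1, single (i + 2) ((z (i + 1)).filter (fun p => p.2 < p.1)), ?_⟩
        rw [ha1]
        conv_lhs => rw [split3 (z (i + 1))]
        rw [QD_single_succ, swap_lower, hsym]
        simp only [LinearMap.zero_apply, Finsupp.single_zero, zero_add, Finsupp.single_add]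
        abel
    -- sum up
    have : z = ∑ i ∈ z.support, single i (z i) := by
      conv_lhs => rw [← Finsupp.sum_single z]
      rfl
    choose a w haw using hdec
    refine ⟨∑ i ∈ z.support, a i, ∑ i ∈ z.support, w i, rfl, ?_⟩
    rw [map_sum, map_sum, ← Finset.sum_add_distrib]
    conv_lhs => rw [this]
    exact Finset.sum_congr rfl fun i _ => haw i
  · rintro z - ⟨w, hw⟩
    refine ⟨0, ?_⟩
    rw [map_zero]
    symm
    ext a
    have key : ∀ (i : ℕ) (p : J × J), w (i + 1) p + w (i + 1) p.swap =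
        (if p.1 = p.2 then z (Sum.inl (i, p.1)) else 0) +
      (if h : i = 0 ∧ p.1 < p.2 then z (Sum.inr ⟨p, h.2⟩) else 0) := by
      intro i p
      have := DFunLike.congr_fun (DFunLike.congr_fun hw i) p
      rw [lc_apply, QD_apply] at this
      simpa [swapJ_apply] using this
    rcases a with ⟨i, j⟩ | ⟨⟨j, k⟩, h⟩
    · have := key i (j, j)
      simp only [Prod.swap_prod_mk, add_self', if_true, lt_irrefl, and_false, dite_false,
        add_zero] at this
      simpa using this.symm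
    · dsimp only at h
      have h1 := key 0 (j, k)
      have h2 := key 0 (k, j)
      simp only [Prod.swap_prod_mk, h.ne, h.ne', if_false, h, and_self, dite_true, zero_add,
        not_lt.2 h.le, and_false, dite_false, add_zero] at h1 h2
      rw [add_comm] at h2
      rw [h2] at h1
      simpa using h1.symm

end Basis

end Crest.Agent.R204.QC134
private theorem rz_657cda19f7 : type_of% @_root_.Crest.Agent.R204.QC134.qcyc.eq_1 := @_root_.Crest.Agent.R204.QC134.qcyc.eq_1 -- L508
end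

-- ▼ part R204/QCb_134

/-!
# Row 204, leaf A-QC part 2 (helper134): homology of `W ⊗_{Z/2} (C ⊗ C)`

* `HBasis d b` : the family `b` of cycles is a basis of the homology of `(M,d)`.
* `HBasis.tensor` : Künneth.
* `HBasis.quad` : `{e_i ⊗ b_j ⊗ b_j} ∪ {e_0 ⊗ b_j ⊗ b_k, j < k}` is a homology basis of
  `W ⊗_{Z/2} (M ⊗ M)`.
* `Eop i : Hd d →ₗ Hd (dQ d)`, `[x] ↦ [e_i ⊗ x ⊗ x]` (additive!), `Bop : Hd d →ₗ Hd d →ₗ Hd (dQ d)`.
-/

set_option autoImplicit false
set_option linter.unusedSectionVars false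
set_option linter.unusedSimpArgs false

namespace Crest.Agent.R204.QC134

open Finsupp TensorProduct

variable {M M' : Type*} [AddCommGroup M] [Module F2 M] [AddCommGroup M'] [Module F2 M']

/-- the family `b` (of cycles) is a basis of the homology of `(M,d)` -/
def HBasis {J : Type*} (d : M →ₗ[F2] M) (b : J → M) : Prop :=
  QI (0 : (J →₀ F2) →ₗ[F2] (J →₀ F2)) d (Finsupp.linearCombination F2 b)

theorem HBasis.cyc {J : Type*} {d : M →ₗ[F2] M} {b : J → M} (h : HBasis d b) (j : J) :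
    d (b j) = 0 := by
  have := h.comm (single j 1)
  simp only [LinearMap.zero_apply, map_zero, Finsupp.linearCombination_single, one_smul] at this
  exact this.symm

theorem HBasis.iff {J : Type*} {d : M →ₗ[F2] M} {b : J → M} :
    HBasis d b ↔ (∀ j, d (b j) = 0) ∧
      (∀ z, d z = 0 → ∃ (c : J →₀ F2) (w : M), z = Finsupp.linearCombination F2 b c + d w) ∧
      (∀ c : J →₀ F2, (∃ w, d w = Finsupp.linearCombination F2 b c) → c = 0) := by
  constructor
  · intro h
    refine ⟨h.cyc, ?_, ?_⟩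
    · intro z hz
      obtain ⟨c, w, -, h2⟩ := h.surj z hz
      exact ⟨c, w, h2⟩
    · intro c hc
      obtain ⟨w, hw⟩ := h.inj c rfl hc
      simpa using hw.symm
  · rintro ⟨h1, h2, h3⟩
    refine ⟨?_, ?_, ?_⟩
    · intro x
      rw [LinearMap.zero_apply, map_zero]
      induction x using Finsupp.induction_linear with
      | zero => simp
      | add f g hf hg => rw [map_add, map_add, ← hf, ← hg, add_zero]
      | single j r => simp [h1]
    · intro z hz
      obtain ⟨c, w, h⟩ := h2 z hz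
      exact ⟨c, w, rfl, h⟩
    · intro c _ hc
      exact ⟨0, by rw [h3 c hc]; simp⟩

theorem HBasis.lc_cyc {J : Type*} {d : M →ₗ[F2] M} {b : J → M} (h : HBasis d b) (c : J →₀ F2) :
    d (Finsupp.linearCombination F2 b c) = 0 := by
  have := h.comm c
  simp only [LinearMap.zero_apply, map_zero] at this
  exact this.symm

theorem lc_mk {J : Type*} {d : M →ₗ[F2] M} {b : J → M} (hb : ∀ j, d (b j) = 0) (c : J →₀ F2)
    (h : d (Finsupp.linearCombination F2 b c) = 0) :
    Finsupp.linearCombination F2 (fun j => Hd.mk d (b j) (hb j)) c =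
      Hd.mk d (Finsupp.linearCombination F2 b c) h := by
  have e1 : (⟨Finsupp.linearCombination F2 b c, h⟩ : LinearMap.ker d) =
      Finsupp.linearCombination F2 (fun j => (⟨b j, hb j⟩ : LinearMap.ker d)) c := by
    apply Subtype.ext
    show _ = (LinearMap.ker d).subtype _
    rw [Finsupp.apply_linearCombination]
    rfl
  unfold Hd.mk
  rw [e1]
  show _ = Submodule.mkQ _ _
  rw [Finsupp.apply_linearCombination]
  rfl

/-- the classes of a homology basis form a basis of `Hd d` -/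
noncomputable def HBasis.toBasis {J : Type*} {d : M →ₗ[F2] M} {b : J → M} (h : HBasis d b) :
    Module.Basis J F2 (Hd d) :=
  Module.Basis.mk (v := fun j => Hd.mk d (b j) (h.cyc j))
    (by
      rw [linearIndependent_iff]
      intro c hc
      rw [lc_mk h.cyc c (h.lc_cyc c), Hd.mk_eq_zero] at hc
      exact (HBasis.iff.1 h).2.2 c hc)
    (by
      rintro x -
      obtain ⟨z, hz, rfl⟩ := Hd.mk_surj d x
      obtain ⟨c, w, hw⟩ := (HBasis.iff.1 h).2.1 z hz
      have : Hd.mk d z hz = Finsupp.linearCombination F2 (fun j => Hd.mk d (b j) (h.cyc j)) c := by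
        rw [lc_mk h.cyc c (h.lc_cyc c), Hd.mk_eq_mk]
        exact ⟨w, by rw [hw, sub_eq', add_comm (Finsupp.linearCombination F2 b c),
          add_add_self]⟩
      rw [this]
      exact (Finsupp.mem_span_range_iff_exists_finsupp).2 ⟨c, rfl⟩)

@[simp] theorem HBasis.toBasis_apply {J : Type*} {d : M →ₗ[F2] M} {b : J → M} (h : HBasis d b)
    (j : J) : h.toBasis j = Hd.mk d (b j) (h.cyc j) := by
  simp [HBasis.toBasis]

/-- conversely any basis of `Hd d` gives a homology basis -/
theorem HBasis.of_basis {J : Type*} {d : M →ₗ[F2] M} (B : Module.Basis J F2 (Hd d)) {b : J → M}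
    (hb : ∀ j, d (b j) = 0) (hB : ∀ j, B j = Hd.mk d (b j) (hb j)) : HBasis d b := by
  have hcyc : ∀ c : J →₀ F2, d (Finsupp.linearCombination F2 b c) = 0 := by
    intro c
    induction c using Finsupp.induction_linear with
    | zero => simp
    | add f g hf hg => rw [map_add, map_add, hf, hg, add_zero]
    | single j r => simp [hb]
  have hlc : ∀ c : J →₀ F2, Finsupp.linearCombination F2 B c =
      Hd.mk d (Finsupp.linearCombination F2 b c) (hcyc c) := by
    intro c
    rw [← lc_mk hb]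
    congr 1
    exact congrArg _ (funext hB)
  refine HBasis.iff.2 ⟨hb, ?_, ?_⟩
  · intro z hz
    have h1 : Hd.mk d z hz = Finsupp.linearCombination F2 B (B.repr (Hd.mk d z hz)) :=
      (B.linearCombination_repr _).symm
    rw [hlc, Hd.mk_eq_mk] at h1
    obtain ⟨w, hw⟩ := h1
    exact ⟨_, w, by rw [hw, sub_eq', add_comm z, ← add_assoc, add_self', zero_add]⟩
  · intro c hc
    rw [← Hd.mk_eq_zero (hz := hcyc c), ← hlc] at hc
    have := linearIndependent_iff.1 B.linearIndependent c hc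
    exact this

theorem exists_HBasis.{u} {M : Type u} [AddCommGroup M] [Module F2 M] (d : M →ₗ[F2] M) :
    ∃ (J : Type u) (b : J → M), HBasis d b := by
  let B := Module.Basis.ofVectorSpace F2 (Hd d)
  choose b hb hB using fun j => Hd.mk_surj d (B j)
  exact ⟨_, b, HBasis.of_basis B hb hB⟩

/-- a quasi-isomorphism maps a homology basis to a homology basis -/
theorem HBasis.map {J : Type*} {d : M →ₗ[F2] M} {d' : M' →ₗ[F2] M'} {f : M →ₗ[F2] M'} {b : J → M}
    (h : HBasis d b) (hf : QI d d' f) : HBasis d' (fun j => f (b j)) := by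
  have := hf.comp h
  unfold HBasis
  convert this using 1
  ext j
  simp

/-- Künneth theorem in basis form -/
theorem HBasis.tensor {J J' : Type*} {d : M →ₗ[F2] M} {d' : M' →ₗ[F2] M'} {b : J → M} {b' : J' → M'}
    (hdd : ∀ x, d (d x) = 0) (hdd' : ∀ x, d' (d' x) = 0)
    (h : HBasis d b) (h' : HBasis d' b') : HBasis (dT d d') (fun p : J × J' => b p.1 ⊗ₜ[F2] b' p.2) := by
  have h1 := QI.tensor (fun _ => rfl) hdd h (fun _ => rfl) hdd' h'
  have h2 := QI.of_equiv (d := 0) (d' := dT (0 : (J →₀ F2) →ₗ[F2] (J →₀ F2))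
    (0 : (J' →₀ F2) →ₗ[F2] (J' →₀ F2))) (finsuppTensorFinsupp' F2 J J').symm (by
      intro x
      rw [LinearMap.zero_apply, map_zero, dT]
      simp [TensorProduct.map_zero_left, TensorProduct.map_zero_right])
  have h3 := h1.comp h2
  unfold HBasis
  convert h3 using 1
  ext ⟨j, j'⟩
  simp [finsuppTensorFinsupp'_symm_single_eq_single_one_tmul]

theorem HBasis.qi_tensor {J J' : Type*} {d : M →ₗ[F2] M} {d' : M' →ₗ[F2] M'} {b : J → M} {b' : J' → M'}
    (hdd : ∀ x, d (d x) = 0) (hdd' : ∀ x, d' (d' x) = 0)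
    (h : HBasis d b) (h' : HBasis d' b') : QI 0 (dT d d')
      (Finsupp.linearCombination F2 (fun p : J × J' => b p.1 ⊗ₜ[F2] b' p.2)) :=
  h.tensor hdd hdd' h'

/-- the swap of `M ⊗ M` -/
noncomputable def tau (M : Type*) [AddCommGroup M] [Module F2 M] : (M ⊗[F2] M) →ₗ[F2] (M ⊗[F2] M) :=
  (TensorProduct.comm F2 M M : (M ⊗[F2] M) →ₗ[F2] (M ⊗[F2] M))

@[simp] theorem tau_tmul (x y : M) : tau M (x ⊗ₜ y) = y ⊗ₜ x := by simp [tau]

theorem tau_tau (x : M ⊗[F2] M) : tau M (tau M x) = x := by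
  induction x using TensorProduct.induction_on with
  | zero => simp
  | add x y hx hy => simp only [map_add, hx, hy]
  | tmul x y => simp

theorem tau_dT (d : M →ₗ[F2] M) (x : M ⊗[F2] M) : tau M (dT d d x) = dT d d (tau M x) :=
  comm_dT d d x

/-- differential of the quadratic construction `W ⊗_{Z/2} (M ⊗ M)` -/
noncomputable def dQ (d : M →ₗ[F2] M) : (ℕ →₀ (M ⊗[F2] M)) →ₗ[F2] (ℕ →₀ (M ⊗[F2] M)) :=
  QD (dT d d) (tau M)


/-- the family of standard cycles of the quadratic construction -/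
noncomputable def qfam {J : Type*} [LinearOrder J] (b : J → M) : QIdx J → (ℕ →₀ (M ⊗[F2] M))
  | Sum.inl (i, j) => single i (b j ⊗ₜ b j)
  | Sum.inr p => single 0 (b p.1.1 ⊗ₜ b p.1.2)

/-- **homology of the quadratic construction** -/
theorem HBasis.quad {J : Type*} [LinearOrder J] {d : M →ₗ[F2] M} {b : J → M}
    (hdd : ∀ x, d (d x) = 0) (h : HBasis d b) : HBasis (dQ d) (qfam b) := by
  have h1 := HBasis.qi_tensor hdd hdd h h
  have h2 := h1.Q (τ := swapJ) (τ' := tau M) (fun _ => rfl) (dT_dT hdd hdd)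
    (by intro x; ext p; simp [swapJ_apply]) tau_tau (by intro x; simp) (tau_dT d) (by
      intro x
      induction x using Finsupp.induction_linear with
      | zero => simp
      | add f g hf hg => simp only [map_add, hf, hg]
      | single p r =>
        simp [swapJ, Finsupp.mapDomain_single])
  have h3 := h2.comp qcyc_QI
  unfold HBasis dQ
  convert h3 using 1
  ext a
  rcases a with ⟨i, j⟩ | p
  · simp [qfam, qcyc]
  · simp [qfam, qcyc]

/-! ## naturality -/

/-- functoriality of the quadratic construction -/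
noncomputable def Qf (f : M →ₗ[F2] M') : (ℕ →₀ (M ⊗[F2] M)) →ₗ[F2] (ℕ →₀ (M' ⊗[F2] M')) :=
  Qmap (TensorProduct.map f f)

@[simp] theorem Qf_single (f : M →ₗ[F2] M') (i : ℕ) (x y : M) :
    Qf f (single i (x ⊗ₜ y)) = single i (f x ⊗ₜ f y) := by
  simp [Qf]





/-! ## the operations `[x] ↦ [e_i ⊗ x ⊗ x]` and `[x],[y] ↦ [e_0 ⊗ x ⊗ y]` -/

theorem dQ_single_zero (d : M →ₗ[F2] M) (x y : M) :
    dQ d (single 0 (x ⊗ₜ y)) = single 0 (d x ⊗ₜ y + x ⊗ₜ d y) := by
  simp [dQ]

theorem dQ_single_succ (d : M →ₗ[F2] M) (i : ℕ) (x y : M) :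
    dQ d (single (i + 1) (x ⊗ₜ y)) = single (i + 1) (d x ⊗ₜ y + x ⊗ₜ d y) +
      single i (x ⊗ₜ y + y ⊗ₜ x) := by
  simp [dQ]

theorem dQ_sq (d : M →ₗ[F2] M) (i : ℕ) (x : M) (hx : d x = 0) :
    dQ d (single i (x ⊗ₜ x)) = 0 := by
  rcases i with _ | i
  · rw [dQ_single_zero]; simp [hx]
  · rw [dQ_single_succ, add_self']; simp [hx]

theorem dQ_mul (d : M →ₗ[F2] M) (x y : M) (hx : d x = 0) (hy : d y = 0) :
    dQ d (single 0 (x ⊗ₜ y)) = 0 := by
  rw [dQ_single_zero]; simp [hx, hy]

theorem sq_bd (d : M →ₗ[F2] M) (hdd : ∀ x, d (d x) = 0) (i : ℕ) (w : M) :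
    ∃ v, dQ d v = single i (d w ⊗ₜ d w) := by
  rcases i with _ | i
  · exact ⟨single 0 (w ⊗ₜ d w), by rw [dQ_single_zero]; simp [hdd]⟩
  · refine ⟨single (i + 1) (w ⊗ₜ d w) + single i (w ⊗ₜ w), ?_⟩
    rw [map_add, dQ_single_succ, hdd, TensorProduct.tmul_zero, add_zero]
    have : dQ d (single i (w ⊗ₜ w)) = single i (w ⊗ₜ d w + d w ⊗ₜ w) := by
      rcases i with _ | i
      · rw [dQ_single_zero, add_comm]
      · rw [dQ_single_succ, add_self', Finsupp.single_zero, add_zero, add_comm (d w ⊗ₜ[F2] w)]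
    rw [this, add_add_self]

theorem sq_add (d : M →ₗ[F2] M) (i : ℕ) (x y : M) (hx : d x = 0) (hy : d y = 0) :
    ∃ v, dQ d v = single i ((x + y) ⊗ₜ (x + y)) - (single i (x ⊗ₜ x) + single i (y ⊗ₜ y)) := by
  refine ⟨single (i + 1) (x ⊗ₜ y), ?_⟩
  rw [dQ_single_succ, hx, hy, TensorProduct.zero_tmul, TensorProduct.tmul_zero, add_zero,
    Finsupp.single_zero, zero_add, ← Finsupp.single_add, ← Finsupp.single_sub]
  congr 1
  rw [TensorProduct.add_tmul, TensorProduct.tmul_add, TensorProduct.tmul_add]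
  abel

/-- auxiliary: on cycles -/
noncomputable def EopAux (d : M →ₗ[F2] M) (i : ℕ) : LinearMap.ker d →+ Hd (dQ d) where
  toFun z := Hd.mk (dQ d) (single i (z.1 ⊗ₜ z.1)) (dQ_sq d i z.1 z.2)
  map_zero' := by
    rw [Hd.mk_eq_zero]
    exact ⟨0, by simp⟩
  map_add' x y := by
    have : Hd.mk (dQ d) (single i (x.1 ⊗ₜ x.1)) (dQ_sq d i x.1 x.2) +
        Hd.mk (dQ d) (single i (y.1 ⊗ₜ y.1)) (dQ_sq d i y.1 y.2) =
        Hd.mk (dQ d) (single i (x.1 ⊗ₜ x.1) + single i (y.1 ⊗ₜ y.1)) (by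
          rw [map_add, dQ_sq d i x.1 x.2, dQ_sq d i y.1 y.2, add_zero]) := rfl
    rw [this, Hd.mk_eq_mk]
    exact sq_add d i x.1 y.1 x.2 y.2

/-- `[x] ↦ [e_i ⊗ x ⊗ x]` -/
noncomputable def Eop (d : M →ₗ[F2] M) (hdd : ∀ x, d (d x) = 0) (i : ℕ) : Hd d →ₗ[F2] Hd (dQ d) :=
  Submodule.liftQ _ ((EopAux d i).toZModLinearMap 2) (by
    rintro ⟨z, hz⟩ hz'
    obtain ⟨w, hw⟩ := hz'
    simp only [Submodule.subtype_apply] at hw
    subst hw
    rw [LinearMap.mem_ker]
    show Hd.mk (dQ d) (single i (d w ⊗ₜ d w)) _ = 0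
    rw [Hd.mk_eq_zero]
    exact sq_bd d hdd i w)

@[simp] theorem Eop_mk (d : M →ₗ[F2] M) (hdd : ∀ x, d (d x) = 0) (i : ℕ) (z : M) (hz : d z = 0) :
    Eop d hdd i (Hd.mk d z hz) = Hd.mk (dQ d) (single i (z ⊗ₜ z)) (dQ_sq d i z hz) := rfl

theorem mul_bd (d : M →ₗ[F2] M) (x w : M) (hx : d x = 0) :
    dQ d (single 0 (x ⊗ₜ w)) = single 0 (x ⊗ₜ d w) := by
  rw [dQ_single_zero, hx]; simp

theorem bd_mul (d : M →ₗ[F2] M) (w x : M) (hx : d x = 0) :
    dQ d (single 0 (w ⊗ₜ x)) = single 0 (d w ⊗ₜ x) := by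
  rw [dQ_single_zero, hx]; simp

/-- `M ⊗ M → Hd (dQ d)` on cycles, `x ⊗ y ↦ [e_0 ⊗ x ⊗ y]` -/
noncomputable def BopAux (d : M →ₗ[F2] M) :
    LinearMap.ker d →ₗ[F2] LinearMap.ker d →ₗ[F2] Hd (dQ d) :=
  LinearMap.mk₂ F2 (fun x y => Hd.mk (dQ d) (single 0 (x.1 ⊗ₜ y.1)) (dQ_mul d x.1 y.1 x.2 y.2))
    (by
      intro x x' y
      show Hd.mk _ _ _ = Hd.mk _ _ _ + Hd.mk _ _ _
      have : Hd.mk (dQ d) (single 0 (x.1 ⊗ₜ y.1)) (dQ_mul d x.1 y.1 x.2 y.2) +
        Hd.mk (dQ d) (single 0 (x'.1 ⊗ₜ y.1)) (dQ_mul d x'.1 y.1 x'.2 y.2) =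
        Hd.mk (dQ d) (single 0 (x.1 ⊗ₜ y.1) + single 0 (x'.1 ⊗ₜ y.1)) (by
          rw [map_add, dQ_mul d x.1 y.1 x.2 y.2, dQ_mul d x'.1 y.1 x'.2 y.2, add_zero]) := rfl
      rw [this, Hd.mk_eq_mk]
      exact ⟨0, by simp [TensorProduct.add_tmul]⟩)
    (by
      intro r x y
      show Hd.mk _ _ _ = r • Hd.mk _ _ _
      have : r • Hd.mk (dQ d) (single 0 (x.1 ⊗ₜ y.1)) (dQ_mul d x.1 y.1 x.2 y.2) =
        Hd.mk (dQ d) (r • single 0 (x.1 ⊗ₜ y.1)) (by
          rw [map_smul, dQ_mul d x.1 y.1 x.2 y.2, smul_zero]) := rfl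
      rw [this, Hd.mk_eq_mk]
      exact ⟨0, by simp [TensorProduct.smul_tmul']⟩)
    (by
      intro x y y'
      show Hd.mk _ _ _ = Hd.mk _ _ _ + Hd.mk _ _ _
      have : Hd.mk (dQ d) (single 0 (x.1 ⊗ₜ y.1)) (dQ_mul d x.1 y.1 x.2 y.2) +
        Hd.mk (dQ d) (single 0 (x.1 ⊗ₜ y'.1)) (dQ_mul d x.1 y'.1 x.2 y'.2) =
        Hd.mk (dQ d) (single 0 (x.1 ⊗ₜ y.1) + single 0 (x.1 ⊗ₜ y'.1)) (by
          rw [map_add, dQ_mul d x.1 y.1 x.2 y.2, dQ_mul d x.1 y'.1 x.2 y'.2, add_zero]) := rfl
      rw [this, Hd.mk_eq_mk]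
      exact ⟨0, by simp [TensorProduct.tmul_add]⟩)
    (by
      intro r x y
      show Hd.mk _ _ _ = r • Hd.mk _ _ _
      have : r • Hd.mk (dQ d) (single 0 (x.1 ⊗ₜ y.1)) (dQ_mul d x.1 y.1 x.2 y.2) =
        Hd.mk (dQ d) (r • single 0 (x.1 ⊗ₜ y.1)) (by
          rw [map_smul, dQ_mul d x.1 y.1 x.2 y.2, smul_zero]) := rfl
      rw [this, Hd.mk_eq_mk]
      exact ⟨0, by simp⟩)

/-- `[x], [y] ↦ [e_0 ⊗ x ⊗ y]` -/
noncomputable def Bop (d : M →ₗ[F2] M) : Hd d →ₗ[F2] Hd d →ₗ[F2] Hd (dQ d) :=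
  Submodule.liftQ _ (LinearMap.flip (Submodule.liftQ _ (LinearMap.flip (BopAux d)) (by
    rintro ⟨z, hz⟩ hz'
    obtain ⟨w, hw⟩ := hz'
    simp only [Submodule.subtype_apply] at hw
    subst hw
    rw [LinearMap.mem_ker]
    ext ⟨x, hx⟩
    show Hd.mk (dQ d) (single 0 (x ⊗ₜ d w)) _ = 0
    rw [Hd.mk_eq_zero]
    exact ⟨_, mul_bd d x w hx⟩))) (by
    rintro ⟨z, hz⟩ hz'
    obtain ⟨w, hw⟩ := hz'
    simp only [Submodule.subtype_apply] at hw
    subst hw
    rw [LinearMap.mem_ker]
    ext ⟨x, hx⟩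
    show Hd.mk (dQ d) (single 0 (d w ⊗ₜ x)) _ = 0
    rw [Hd.mk_eq_zero]
    exact ⟨_, bd_mul d w x hx⟩)

@[simp] theorem Bop_mk (d : M →ₗ[F2] M) (x y : M) (hx : d x = 0) (hy : d y = 0) :
    Bop d (Hd.mk d x hx) (Hd.mk d y hy) =
      Hd.mk (dQ d) (single 0 (x ⊗ₜ y)) (dQ_mul d x y hx hy) := rfl

theorem Bop_comm (d : M →ₗ[F2] M) (x y : Hd d) : Bop d x y = Bop d y x := by
  obtain ⟨x, hx, rfl⟩ := Hd.mk_surj d x
  obtain ⟨y, hy, rfl⟩ := Hd.mk_surj d y
  rw [Bop_mk, Bop_mk, Hd.mk_eq_mk]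
  refine ⟨single 1 (x ⊗ₜ y), ?_⟩
  rw [show (1 : ℕ) = 0 + 1 from rfl, dQ_single_succ, hx, hy, sub_eq', Finsupp.single_add]
  simp

theorem Bop_self (d : M →ₗ[F2] M) (hdd : ∀ x, d (d x) = 0) (x : Hd d) :
    Bop d x x = Eop d hdd 0 x := by
  obtain ⟨x, hx, rfl⟩ := Hd.mk_surj d x
  rfl

/-- for any homology basis, a basis of `Hd (dQ d)` in terms of `Eop` and `Bop` -/
theorem quadBasis_inl {J : Type*} [LinearOrder J] {d : M →ₗ[F2] M} {b : J → M}
    (hdd : ∀ x, d (d x) = 0) (h : HBasis d b) (i : ℕ) (j : J) :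
    (h.quad hdd).toBasis (Sum.inl (i, j)) = Eop d hdd i (h.toBasis j) := by
  simp [qfam]

theorem quadBasis_inr {J : Type*} [LinearOrder J] {d : M →ₗ[F2] M} {b : J → M}
    (hdd : ∀ x, d (d x) = 0) (h : HBasis d b) (p : {p : J × J // p.1 < p.2}) :
    (h.quad hdd).toBasis (Sum.inr p) = Bop d (h.toBasis p.1.1) (h.toBasis p.1.2) := by
  simp [qfam]

/-- `Hd (dQ d)` is spanned by the `e_i ⊗ x ⊗ x` and `e_0 ⊗ x ⊗ y` -/
theorem quad_span (d : M →ₗ[F2] M) (hdd : ∀ x, d (d x) = 0) :
    Submodule.span F2 ({y | ∃ i x, y = Eop d hdd i x} ∪ {z | ∃ x y, z = Bop d x y}) = ⊤ := by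
  classical
  obtain ⟨J, b, hb⟩ := exists_HBasis d
  let _ : LinearOrder J := linearOrderOfSTO (WellOrderingRel (α := J))
  rw [eq_top_iff, ← (hb.quad hdd).toBasis.span_eq]
  refine Submodule.span_mono ?_
  rintro _ ⟨⟨i, j⟩ | p, rfl⟩
  · exact Or.inl ⟨i, _, quadBasis_inl hdd hb i j⟩
  · exact Or.inr ⟨_, _, quadBasis_inr hdd hb p⟩



end Crest.Agent.R204.QC134
namespace Crest.Agent.R204.QC134.QI
end Crest.Agent.R204.QC134.QI
private theorem rz_7a8c744ec1 : type_of% @_root_.Crest.Agent.R204.QC134.qfam.eq_1 := @_root_.Crest.Agent.R204.QC134.qfam.eq_1 -- L194
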