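import Crest.Agent.R204.EZCross_271
import Crest.Agent.R204.Normz_515
import Crest.Agent.R204.EG_265
import Crest.Agent.R204.QCb_134

/-!
# Row 204, A5/P2 (helper898): acyclic models, one variable

`MF R`: a differential functor `T` on simplicial sets with a natural submodule `T0` which is exact on
the standard simplices.  `MF.homotopy`: every natural chain map `Ch → T` with values in `T0` is
naturally null homotopic.  Families (`Z/2`- and `V`-families) are treated by the functor `MF.fam`.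
-/

set_option autoImplicit false
set_option linter.unusedSectionVars false

namespace Crest.Agent.R204.AMU898

open Finsupp EZ271

/-- differential functor on simplicial sets, with a natural submodule exact on models -/
structure MF (R : Type) [CommRing R] where
  T : SS → Type
  [ag : ∀ K, AddCommGroup (T K)]
  [md : ∀ K, Module R (T K)]
  map : ∀ {K L : SS}, SS.Hom K L → T K →ₗ[R] T L
  map_id : ∀ (K : SS) (x : T K), map (SS.Hom.id K) x = x
  map_comp : ∀ {K L M : SS} (f : SS.Hom K L) (g : SS.Hom L M) (x : T K),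
    map (g.comp f) x = map g (map f x)
  d : ∀ K, T K →ₗ[R] T K
  map_d : ∀ {K L : SS} (f : SS.Hom K L) (x : T K), map f (d K x) = d L (map f x)
  T0 : ∀ K, Submodule R (T K)
  T0_map : ∀ {K L : SS} (f : SS.Hom K L) (x : T K), x ∈ T0 K → map f x ∈ T0 L
  acyc : ∀ (n : ℕ) (z : T (SS.std n)), z ∈ T0 _ → d _ z = 0 → ∃ w ∈ T0 (SS.std n), d _ w = z

attribute [instance] MF.ag MF.md

namespace MF

variable {R : Type} [CommRing R] (F : MF R)

/-- a natural map out of chains given by its values on models -/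
noncomputable def HL (η : ∀ n, F.T (SS.std n)) (K : SS) : Ch R K →ₗ[R] F.T K :=
  Finsupp.linearCombination R (fun t : K.T => F.map (K.yo t.2) (η t.1))

@[simp] theorem HL_single (η : ∀ n, F.T (SS.std n)) (K : SS) {n : ℕ} (x : K.S n) (r : R) :
    F.HL η K (single ⟨n, x⟩ r) = r • F.map (K.yo x) (η n) := by
  simp [HL]

theorem HL_nat (η : ∀ n, F.T (SS.std n)) {K L : SS} (f : SS.Hom K L) (c : Ch R K) :
    F.map f (F.HL η K c) = F.HL η L (Ch.map R f c) := by
  induction c using Finsupp.induction_linear with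
  | zero => simp
  | add a b ha hb => simp only [map_add, ha, hb]
  | single t r =>
    obtain ⟨n, x⟩ := t
    rw [HL_single, Ch.map_single, HL_single, map_smul, ← F.map_comp, comp_yo]

theorem HL_T0 (η : ∀ n, F.T (SS.std n)) (h : ∀ n, η n ∈ F.T0 _) (K : SS) (c : Ch R K) :
    F.HL η K c ∈ F.T0 K := by
  induction c using Finsupp.induction_linear with
  | zero => simp
  | add a b ha hb => rw [map_add]; exact Submodule.add_mem _ ha hb
  | single t r =>
    obtain ⟨n, x⟩ := t
    rw [HL_single]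
    exact Submodule.smul_mem _ _ (F.T0_map _ _ (h n))

open Classical in
/-- a chosen primitive in `T0` -/
noncomputable def pick {n : ℕ} (z : F.T (SS.std n)) : F.T (SS.std n) :=
  if h : ∃ w ∈ F.T0 (SS.std n), F.d _ w = z then h.choose else 0

theorem pick_mem {n : ℕ} (z : F.T (SS.std n)) : F.pick z ∈ F.T0 _ := by
  unfold pick
  split_ifs with h
  · exact h.choose_spec.1
  · exact Submodule.zero_mem _

theorem d_pick {n : ℕ} (z : F.T (SS.std n)) (hz : z ∈ F.T0 _) (h : F.d _ z = 0) :
    F.d _ (F.pick z) = z := by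
  have h' := F.acyc n z hz h
  unfold pick
  rw [dif_pos h']
  exact h'.choose_spec.2

/-- the universal simplex -/
def iot (n : ℕ) : (SS.std n).S n := (OrderHom.id : Op n n)

theorem act_iot {K : SS} {n : ℕ} (x : K.S n) : (K.yo x).app n (iot n) = x := K.act_id x

theorem yo_act_iot {m n : ℕ} (α : Op m n) : (SS.std n).yo ((SS.std n).act α (iot n)) = stdMap α := rfl

theorem yo_iot (n : ℕ) : (SS.std n).yo (iot n) = SS.Hom.id _ := rfl

/-- the universal simplex as a chain -/
noncomputable def io (R : Type) [CommRing R] (n : ℕ) : Ch R (SS.std n) := single ⟨n, iot n⟩ 1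

variable (δ : ∀ K, Ch R K →ₗ[R] F.T K)

/-- the universal homotopy -/
noncomputable def eta : ∀ n, F.T (SS.std n)
  | 0 => F.pick (δ _ (io R 0))
  | n + 1 => F.pick (δ _ (io R (n + 1)) -
      ∑ i : Fin (n + 2), ((-1 : R) ^ (i : ℕ)) • F.map (stdMap (Op.face i)) (eta n))

theorem eta_mem (n : ℕ) : F.eta δ n ∈ F.T0 _ := by
  cases n with
  | zero => exact F.pick_mem _
  | succ n => exact F.pick_mem _

theorem HL_bd_io (η : ∀ n, F.T (SS.std n)) (n : ℕ) : F.HL η _ (Ch.bd R _ (io R (n + 1))) =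
    ∑ i : Fin (n + 2), ((-1 : R) ^ (i : ℕ)) • F.map (stdMap (Op.face i)) (η n) := by
  unfold io
  rw [Ch.bd_single_succ, map_sum]
  refine Finset.sum_congr rfl fun i _ => ?_
  rw [HL_single, one_mul, yo_act_iot]

theorem HL_io (η : ∀ n, F.T (SS.std n)) (n : ℕ) : F.HL η _ (io R n) = η n := by
  unfold io
  rw [HL_single, one_smul, yo_iot]
  exact F.map_id _ _

theorem bd_io_zero : Ch.bd R _ (io R 0) = 0 := by
  unfold io
  exact Ch.bd_single_zero _ _

theorem single_eq_map_io {K : SS} {n : ℕ} (x : K.S n) (r : R) :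
    (single (⟨n, x⟩ : K.T) r : Ch R K) = r • Ch.map R (K.yo x) (io R n) := by
  unfold io
  rw [Ch.map_single, act_iot]
  simp

/-- extension of an identity from models -/
theorem ext_io {A B : ∀ K, Ch R K →ₗ[R] F.T K}
    (hA : ∀ {K L : SS} (f : SS.Hom K L) (c : Ch R K), F.map f (A K c) = A L (Ch.map R f c))
    (hB : ∀ {K L : SS} (f : SS.Hom K L) (c : Ch R K), F.map f (B K c) = B L (Ch.map R f c))
    (n : ℕ) (h : A _ (io R n) = B _ (io R n)) (K : SS) (x : K.S n) (r : R) :
    A K (single ⟨n, x⟩ r) = B K (single ⟨n, x⟩ r) := by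
  rw [single_eq_map_io, map_smul, map_smul, ← hA, ← hB, h]

variable (nat : ∀ {K L : SS} (f : SS.Hom K L) (c : Ch R K), F.map f (δ K c) = δ L (Ch.map R f c))
  (ch : ∀ (K : SS) (c : Ch R K), F.d K (δ K c) = δ K (Ch.bd R K c))
  (val : ∀ (K : SS) (c : Ch R K), δ K c ∈ F.T0 K)

include nat ch val in
theorem eta_spec (n : ℕ) : F.d _ (F.eta δ n) = δ _ (io R n) - F.HL (F.eta δ) _ (Ch.bd R _ (io R n)) := by
  induction n with
  | zero =>
    rw [bd_io_zero, map_zero, sub_zero]
    have : F.eta δ 0 = F.pick (δ _ (io R 0)) := rfl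
    rw [this]
    refine F.d_pick _ (val _ _) ?_
    rw [ch, bd_io_zero, map_zero]
  | succ n ih =>
    rw [HL_bd_io]
    have : F.eta δ (n + 1) = F.pick (δ _ (io R (n + 1)) -
      ∑ i : Fin (n + 2), ((-1 : R) ^ (i : ℕ)) • F.map (stdMap (Op.face i)) (F.eta δ n)) := rfl
    rw [this, ← HL_bd_io]
    refine F.d_pick _ (Submodule.sub_mem _ (val _ _) (F.HL_T0 _ (F.eta_mem δ) _ _)) ?_
    rw [map_sub, ch, sub_eq_zero]
    -- on `n`-dimensional chains the identity `d H = δ - H bd` holds
    have key : ∀ (K : SS) (x : K.S n) (r : R), F.d K (F.HL (F.eta δ) K (single ⟨n, x⟩ r)) =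
        δ K (single ⟨n, x⟩ r) - F.HL (F.eta δ) K (Ch.bd R K (single ⟨n, x⟩ r)) := by
      intro K x r
      have h1 : ∀ {K L : SS} (f : SS.Hom K L) (c : Ch R K),
          F.map f ((F.d K ∘ₗ F.HL (F.eta δ) K) c) = (F.d L ∘ₗ F.HL (F.eta δ) L) (Ch.map R f c) := by
        intro K L f c
        simp only [LinearMap.comp_apply]
        rw [F.map_d, HL_nat]
      have h2 : ∀ {K L : SS} (f : SS.Hom K L) (c : Ch R K),
          F.map f ((δ K - F.HL (F.eta δ) K ∘ₗ Ch.bd R K) c) =
            (δ L - F.HL (F.eta δ) L ∘ₗ Ch.bd R L) (Ch.map R f c) := by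
        intro K L f c
        simp only [LinearMap.comp_apply, LinearMap.sub_apply, map_sub]
        rw [nat, HL_nat, Ch.map_bd]
      have h3 := F.ext_io (A := fun K => F.d K ∘ₗ F.HL (F.eta δ) K)
        (B := fun K => δ K - F.HL (F.eta δ) K ∘ₗ Ch.bd R K) h1 h2 n
        (by simp only [LinearMap.comp_apply, LinearMap.sub_apply]; rw [HL_io, ih]) K x r
      simpa only [LinearMap.comp_apply, LinearMap.sub_apply] using h3
    have hb : Ch.bd R _ (io R (n + 1)) = ∑ i : Fin (n + 2),
        single ⟨n, (SS.std (n + 1)).act (Op.face i) (iot (n + 1))⟩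
          ((1 : R) * (-1 : R) ^ (i : ℕ)) := by
      unfold io
      exact Ch.bd_single_succ _ _
    have h4 : F.d _ (F.HL (F.eta δ) _ (Ch.bd R _ (io R (n + 1)))) =
        δ _ (Ch.bd R _ (io R (n + 1))) - F.HL (F.eta δ) _ (Ch.bd R _ (Ch.bd R _ (io R (n + 1)))) := by
      rw [hb]
      simp only [map_sum]
      rw [← Finset.sum_sub_distrib]
      exact Finset.sum_congr rfl fun i _ => key _ _ _
    rw [h4, Ch.bd_bd, map_zero, sub_zero]

include nat ch val in
/-- **Acyclic models**: a natural chain map `Ch → T` with values in `T0` is naturally null homotopic -/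
theorem homotopy : ∃ H : ∀ K, Ch R K →ₗ[R] F.T K,
    (∀ {K L : SS} (f : SS.Hom K L) (c : Ch R K), F.map f (H K c) = H L (Ch.map R f c)) ∧
    (∀ (K : SS) (c : Ch R K), H K c ∈ F.T0 K) ∧
    ∀ (K : SS) (c : Ch R K), δ K c = F.d K (H K c) + H K (Ch.bd R K c) := by
  refine ⟨F.HL (F.eta δ), fun f c => F.HL_nat _ f c, F.HL_T0 _ (F.eta_mem δ), fun K c => ?_⟩
  induction c using Finsupp.induction_linear with
  | zero => simp
  | add a b ha hb => simp only [map_add, ha, hb]; abel
  | single t r =>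
    obtain ⟨n, x⟩ := t
    rw [single_eq_map_io, map_smul, map_smul, map_smul, map_smul, map_smul, ← smul_add, ← nat,
      ← HL_nat, ← F.map_d, HL_io, F.eta_spec δ nat ch val n, ← Ch.map_bd, ← HL_nat, map_sub,
      sub_add_cancel]

end MF

/-! ## families -/

section fam

variable {M : Type} [AddCommGroup M] [Module F2 M]

/-- shift of a sequence: `prev f i = f (i-1)`, `prev f 0 = 0` -/
def prev (f : ℕ → M) : ℕ → M
  | 0 => 0
  | i + 1 => f i

@[simp] theorem prev_zero (f : ℕ → M) : prev f 0 = 0 := rfl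
@[simp] theorem prev_succ (f : ℕ → M) (i : ℕ) : prev f (i + 1) = f i := rfl


/-- total differential on sequences: `(D f) i = d (f i) + (1 + t) f (i-1)` -/
def famD (d t : M →ₗ[F2] M) : (ℕ → M) →ₗ[F2] (ℕ → M) where
  toFun f i := d (f i) + (prev f i + t (prev f i))
  map_add' f g := by
    funext i
    cases i <;> simp only [Pi.add_apply, prev_zero, prev_succ, map_add, map_zero, add_zero]
    abel
  map_smul' r f := by
    funext i
    cases i <;> simp [smul_add]

@[simp] theorem famD_zero (d t : M →ₗ[F2] M) (f : ℕ → M) : famD d t f 0 = d (f 0) := by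
  simp [famD]

@[simp] theorem famD_succ (d t : M →ₗ[F2] M) (f : ℕ → M) (i : ℕ) :
    famD d t f (i + 1) = d (f (i + 1)) + (f i + t (f i)) := by
  simp [famD]

open Classical in
/-- the recursive primitive -/
noncomputable def famW (d t : M →ₗ[F2] M) (M0 : Submodule F2 M) (f : ℕ → M) : ℕ → M
  | 0 => if h : ∃ w ∈ M0, d w = f 0 then h.choose else 0
  | i + 1 => if h : ∃ w ∈ M0, d w = f (i + 1) + (famW d t M0 f i + t (famW d t M0 f i)) then h.choose
      else 0

theorem famW_mem (d t : M →ₗ[F2] M) (M0 : Submodule F2 M) (f : ℕ → M) (i : ℕ) :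
    famW d t M0 f i ∈ M0 := by
  cases i <;> unfold famW <;> split_ifs with h
  · exact h.choose_spec.1
  · exact M0.zero_mem
  · exact h.choose_spec.1
  · exact M0.zero_mem

/-- exactness passes to families -/
theorem fam_exact (d t : M →ₗ[F2] M) (M0 : Submodule F2 M)
    (hdt : ∀ x, d (t x) = t (d x)) (htt : ∀ x, t (t x) = x) (ht : ∀ x ∈ M0, t x ∈ M0)
    (ex : ∀ z ∈ M0, d z = 0 → ∃ w ∈ M0, d w = z)
    (f : ℕ → M) (hf : ∀ i, f i ∈ M0) (hD : famD d t f = 0) :
    ∃ w : ℕ → M, (∀ i, w i ∈ M0) ∧ famD d t w = f := by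
  have key : ∀ i, d (famW d t M0 f i) = f i + (prev (famW d t M0 f) i + t (prev (famW d t M0 f) i)) := by
    intro i
    induction i with
    | zero =>
      have h : ∃ w ∈ M0, d w = f 0 := ex _ (hf 0) (by have := congrFun hD 0; simpa using this)
      unfold famW
      rw [dif_pos h, h.choose_spec.2]
      simp
    | succ i ih =>
      have h : ∃ w ∈ M0, d w = f (i + 1) + (famW d t M0 f i + t (famW d t M0 f i)) := by
        refine ex _ (M0.add_mem (hf _) (M0.add_mem (famW_mem _ _ _ _ _)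
          (ht _ (famW_mem _ _ _ _ _)))) ?_
        have h1 := congrFun hD (i + 1)
        rw [famD_succ] at h1
        simp only [map_add, hdt, ih]
        have h2 : d (f (i + 1)) = f i + t (f i) := by
          rw [← QC134.sub_eq']
          rw [Pi.zero_apply] at h1
          rw [QC134.sub_eq']
          exact QC134.eq_of_add_eq_zero h1
        rw [h2, htt]
        have h3 := QC134.add_self' (f i)
        have h4 := QC134.add_self' (t (f i))
        have h5 := QC134.add_self' (prev (famW d t M0 f) i)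
        have h6 := QC134.add_self' (t (prev (famW d t M0 f) i))
        calc _ = (f i + f i) + (t (f i) + t (f i)) +
            (prev (famW d t M0 f) i + prev (famW d t M0 f) i) +
            (t (prev (famW d t M0 f) i) + t (prev (famW d t M0 f) i)) := by abel
          _ = 0 := by rw [h3, h4, h5, h6]; simp
      have h' : famW d t M0 f (i + 1) = h.choose := by
        conv_lhs => unfold famW
        rw [dif_pos h]
      rw [h', h.choose_spec.2]
      rfl
  refine ⟨famW d t M0 f, famW_mem d t M0 f, funext fun i => ?_⟩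
  have h7 : famD d t (famW d t M0 f) i = d (famW d t M0 f i) +
      (prev (famW d t M0 f) i + t (prev (famW d t M0 f) i)) := rfl
  rw [h7, key i, QC134.add_add_self]

/-- the functor of `Z/2`-families `ℕ → T K` -/
noncomputable def MF.fam (F : MF F2) (t : ∀ K, F.T K →ₗ[F2] F.T K)
    (t_map : ∀ {K L : SS} (f : SS.Hom K L) (x : F.T K), F.map f (t K x) = t L (F.map f x))
    (d_t : ∀ (K : SS) (x : F.T K), F.d K (t K x) = t K (F.d K x))
    (t_t : ∀ (K : SS) (x : F.T K), t K (t K x) = x)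
    (t_T0 : ∀ (K : SS) (x : F.T K), x ∈ F.T0 K → t K x ∈ F.T0 K) : MF F2 where
  T K := ℕ → F.T K
  map f := LinearMap.pi fun i => F.map f ∘ₗ LinearMap.proj i
  map_id K x := by funext i; simp [F.map_id]
  map_comp f g x := by funext i; simp [F.map_comp]
  d K := famD (F.d K) (t K)
  map_d f x := by
    funext i
    cases i <;> simp [F.map_d, t_map]
  T0 K := Submodule.pi Set.univ fun _ => F.T0 K
  T0_map f x hx := by
    rw [Submodule.mem_pi] at hx ⊢
    intro i hi
    exact F.T0_map _ _ (hx i hi)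
  acyc n z hz hd := by
    rw [Submodule.mem_pi] at hz
    obtain ⟨w, hw, hw'⟩ := fam_exact (F.d _) (t _) (F.T0 _) (d_t _) (t_t _) (t_T0 _) (F.acyc n) z
      (fun i => hz i trivial) hd
    exact ⟨w, by rw [Submodule.mem_pi]; exact fun i _ => hw i, hw'⟩

/-- every normalised cycle lifts to an unnormalised cycle -/
theorem exists_lift {R : Type} [CommRing R] {K : SS} (x : N R K) (hx : N.bd R K x = 0) :
    ∃ c : Ch R K, Ch.bd R K c = 0 ∧ (Ch.Dg R K).mkQ c = x := by
  obtain ⟨z, rfl⟩ := Submodule.Quotient.mk_surjective _ x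
  have hx' := hx
  rw [N.bd_mk, Submodule.Quotient.mk_eq_zero] at hx'
  obtain ⟨v, hv, hv'⟩ := Normz515.acyclic hx' (Ch.bd_bd z)
  refine ⟨z - v, by rw [map_sub, hv', sub_self], ?_⟩
  rw [map_sub, Submodule.mkQ_apply, Submodule.mkQ_apply, (Submodule.Quotient.mk_eq_zero _).2 hv,
    sub_zero]

/-- null homotopy of a natural `Z/2`-family with values in `T0`, on cycles -/
theorem MF.family0 (F : MF F2) (t : ∀ K, F.T K →ₗ[F2] F.T K)
    (t_map : ∀ {K L : SS} (f : SS.Hom K L) (x : F.T K), F.map f (t K x) = t L (F.map f x))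
    (d_t : ∀ (K : SS) (x : F.T K), F.d K (t K x) = t K (F.d K x))
    (t_t : ∀ (K : SS) (x : F.T K), t K (t K x) = x)
    (t_T0 : ∀ (K : SS) (x : F.T K), x ∈ F.T0 K → t K x ∈ F.T0 K)
    (θ : ∀ K, ℕ → N F2 K →ₗ[F2] F.T K)
    (nat : ∀ {K L : SS} (f : SS.Hom K L) (i : ℕ) (x : N F2 K), F.map f (θ K i x) = θ L i (N.map F2 f x))
    (ch : ∀ (K : SS) (i : ℕ) (x : N F2 K), F.d K (θ K i x) + θ K i (N.bd F2 K x) =
      prev (fun j => θ K j x) i + t K (prev (fun j => θ K j x) i))
    (val : ∀ (K : SS) (i : ℕ) (x : N F2 K), θ K i x ∈ F.T0 K)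
    (K : SS) (x : N F2 K) (hx : N.bd F2 K x = 0) :
    ∃ w : ℕ → F.T K, ∀ i, θ K i x = F.d K (w i) + (prev w i + t K (prev w i)) := by
  obtain ⟨H, -, -, h⟩ := (F.fam t t_map d_t t_t t_T0).homotopy
    (fun K => LinearMap.pi fun i => θ K i ∘ₗ (Ch.Dg F2 K).mkQ)
    (fun {K L} f c => by
      funext i
      change F.map f (θ K i ((Ch.Dg F2 K).mkQ c)) = θ L i ((Ch.Dg F2 L).mkQ (Ch.map F2 f c))
      rw [nat]; rfl)
    (fun K c => by
      funext i
      change F.d K (θ K i ((Ch.Dg F2 K).mkQ c)) + (prev (fun j => θ K j ((Ch.Dg F2 K).mkQ c)) i +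
        t K (prev (fun j => θ K j ((Ch.Dg F2 K).mkQ c)) i)) = θ K i ((Ch.Dg F2 K).mkQ (Ch.bd F2 K c))
      have h1 := ch K i ((Ch.Dg F2 K).mkQ c)
      have h2 : N.bd F2 K ((Ch.Dg F2 K).mkQ c) = (Ch.Dg F2 K).mkQ (Ch.bd F2 K c) := rfl
      rw [h2] at h1
      rw [← h1, ← add_assoc, QC134.add_self', zero_add])
    (fun K c => Submodule.mem_pi.2 fun i _ => val K i _)
  obtain ⟨c, hc, rfl⟩ := exists_lift x hx
  refine ⟨H K c, fun i => ?_⟩
  have h3 := h K c
  rw [hc, map_zero, add_zero] at h3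
  exact congrFun h3 i

/-- uniqueness of natural `Z/2`-families up to homotopy, on cycles -/
theorem MF.family (F : MF F2) (t : ∀ K, F.T K →ₗ[F2] F.T K)
    (t_map : ∀ {K L : SS} (f : SS.Hom K L) (x : F.T K), F.map f (t K x) = t L (F.map f x))
    (d_t : ∀ (K : SS) (x : F.T K), F.d K (t K x) = t K (F.d K x))
    (t_t : ∀ (K : SS) (x : F.T K), t K (t K x) = x)
    (t_T0 : ∀ (K : SS) (x : F.T K), x ∈ F.T0 K → t K x ∈ F.T0 K)
    (θ θ' : ∀ K, ℕ → N F2 K →ₗ[F2] F.T K)
    (nat : ∀ {K L : SS} (f : SS.Hom K L) (i : ℕ) (x : N F2 K), F.map f (θ K i x) = θ L i (N.map F2 f x))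
    (nat' : ∀ {K L : SS} (f : SS.Hom K L) (i : ℕ) (x : N F2 K),
      F.map f (θ' K i x) = θ' L i (N.map F2 f x))
    (ch : ∀ (K : SS) (i : ℕ) (x : N F2 K), F.d K (θ K i x) + θ K i (N.bd F2 K x) =
      prev (fun j => θ K j x) i + t K (prev (fun j => θ K j x) i))
    (ch' : ∀ (K : SS) (i : ℕ) (x : N F2 K), F.d K (θ' K i x) + θ' K i (N.bd F2 K x) =
      prev (fun j => θ' K j x) i + t K (prev (fun j => θ' K j x) i))
    (val : ∀ (K : SS) (i : ℕ) (x : N F2 K), θ K i x + θ' K i x ∈ F.T0 K)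
    (K : SS) (x : N F2 K) (hx : N.bd F2 K x = 0) :
    ∃ w : ℕ → F.T K, ∀ i, θ K i x + θ' K i x = F.d K (w i) + (prev w i + t K (prev w i)) := by
  refine F.family0 t t_map d_t t_t t_T0 (fun K i => θ K i + θ' K i) ?_ ?_ val K x hx
  · intro K L f i x
    simp only [LinearMap.add_apply, map_add, nat, nat']
  · intro K i x
    have h1 : ∀ i, prev (fun j => (θ K j + θ' K j) x) i =
        prev (fun j => θ K j x) i + prev (fun j => θ' K j x) i := by
      intro i; cases i <;> simp
    rw [h1, LinearMap.add_apply, LinearMap.add_apply, map_add, map_add]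
    have h2 := ch K i x
    have h3 := ch' K i x
    calc _ = (F.d K (θ K i x) + θ K i (N.bd F2 K x)) + (F.d K (θ' K i x) + θ' K i (N.bd F2 K x)) := by
          abel
      _ = _ := by rw [h2, h3]; abel




end fam

end Crest.Agent.R204.AMU898
private theorem rz_0ad9c4734c : type_of% @_root_.Crest.Agent.R204.AMU898.famW.eq_def := @_root_.Crest.Agent.R204.AMU898.famW.eq_def -- L250
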