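import Crest.Agent.R204.E_803

/-!
# Products, actions, invariants on `E = Co J (Co X (Co Y R))` (row 204, leaf G5; helper803)
-/

set_option autoImplicit false
set_option linter.unusedSectionVars false

namespace Crest.Agent.R204.SQ803

open Co

theorem cupl_eq_zero {J B M : Type*} [NonUnitalRing B] [AddCommGroup M] (φ : B → M) (h0 : φ 0 = 0)
    (hφ : ∀ a b, φ (a + b) = φ a + φ b) {l : List J}
    {f g : List J → B} (h : ∀ a b : List J, a.length + b.length = l.length + 1 → φ (f a * g b) = 0) :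
    φ (cupl l f g) = 0 := by
  induction l generalizing f with
  | nil => rw [cupl_nil, h0]
  | cons x l ih =>
    rw [cupl_cons, hφ, h [x] (x :: l) (by simp; omega), zero_add]
    exact ih fun a b hab => h (x :: a) b (by simp at hab ⊢; omega)

section nzs
variable {X Y R : Type*} [NonUnitalRing R]

theorem NzS.mul (s t : Co X (Co Y R)) : NzS (s * t) := by
  refine ⟨rfl, fun x => ?_⟩
  rw [mul_f]
  exact cupl_eq_zero (B := Co Y R) (fun F => F.f []) rfl (fun _ _ => rfl) fun a b _ => mul_nil _ _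

theorem cupl_Co_cons {B : Type*} [NonUnitalRing B] (y : List Y) (f g : List Y → Co X B) (a : X)
    (x : List X) : (cupl y f g).f (a :: x) =
      cupl y (fun y' => (f y').f [a]) (fun y' => (g y').f (a :: x)) +
      (cupl y (fun y' => ⟨fun x' => (f y').f (a :: x')⟩) g).f x := by
  induction y generalizing f with
  | nil => simp
  | cons b y ih =>
    rw [cupl_cons, cupl_cons, cupl_cons, add_f, ih, add_f, mul_f, mul_f, cupl_cons]
    abel

theorem cupl_swap {B : Type*} [NonUnitalRing B] (x : List X) (y : List Y) (F G : List X → List Y → B) :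
    (cupl x (fun x' => (⟨fun y' => F x' y'⟩ : Co Y B)) (fun x' => ⟨fun y' => G x' y'⟩)).f y =
    (cupl y (fun y' => (⟨fun x' => F x' y'⟩ : Co X B)) (fun y' => ⟨fun x' => G x' y'⟩)).f x := by
  induction x generalizing F with
  | nil =>
    rw [cupl_nil, zero_f]
    exact (cupl_eq_zero (B := Co X B) (fun F => F.f []) rfl (fun _ _ => rfl)
      fun a b _ => mul_nil _ _).symm
  | cons a x ih =>
    rw [cupl_cons, add_f, ih, cupl_Co_cons, mul_f]

end nzs

section two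
variable {X Y : Type*}

theorem zsmul_two_odd (k : ℕ) (b : ZMod 2) : ((-1 : ℤ) ^ k) • b = b := by
  rcases neg_one_pow_eq_or ℤ k with h | h
  · rw [h, one_smul]
  · rw [h, neg_smul, one_smul, neg_eq_iff_add_eq_zero]; exact DG2.two b

theorem Tn_f2 (s : Co X (Co Y (ZMod 2))) (x : List X) (y : List Y) :
    ((Tn s).f y).f x = vv s x y := by
  rw [Tn_f]; exact zsmul_two_odd _ _

theorem Tn_mul (s t : Co X (Co Y (ZMod 2))) : Tn (s * t) = Tn s * Tn t := by
  refine Co.ext fun y => Co.ext fun x => ?_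
  rw [Tn_f2, (NzS.mul s t).vv, mul_f, mul_f]
  have h := cupl_swap x y (fun x' y' => vv s x' y') (fun x' y' => vv t x' y')
  have e1 : (fun y' => (⟨fun x' => vv s x' y'⟩ : Co X (ZMod 2))) = (Tn s).f := by
    funext y'; exact Co.ext fun x' => (Tn_f2 s x' y').symm
  have e2 : (fun y' => (⟨fun x' => vv t x' y'⟩ : Co X (ZMod 2))) = (Tn t).f := by
    funext y'; exact Co.ext fun x' => (Tn_f2 t x' y').symm
  rw [e1, e2] at h
  rw [← h]
  have key : ∀ (x : List X) (f f' g g' : List X → Co Y (ZMod 2)),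
      (∀ a l b m, (f (a :: l)).f (b :: m) = (f' (a :: l)).f (b :: m)) →
      (∀ a l b m, (g (a :: l)).f (b :: m) = (g' (a :: l)).f (b :: m)) →
      (cupl x f g).f y = (cupl x f' g').f y := by
    intro x
    induction x with
    | nil => intros; simp
    | cons a x ih =>
      intro f f' g g' hf hg
      rw [cupl_cons, cupl_cons, add_f, add_f, mul_f, mul_f]
      congr 1
      · exact cupl_congr (fun b m => hf a [] b m) (fun b m => hg a x b m)
      · exact ih _ _ _ _ (fun a' l b m => hf a (a' :: l) b m) hg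
  exact key x _ _ _ _ (fun _ _ _ _ => rfl) (fun _ _ _ _ => rfl)

end two

section act
variable {J X Y : Type*} [Group X] [Group Y] [MulAction (X × Y) J] {n : ℕ}

/-- action on `S` -/
def aS (g : X × Y) : Co X (Co Y (ZMod n)) →+ Co X (Co Y (ZMod n)) :=
  pull (fun a => g.1 * a) (pull (fun b => g.2 * b) (AddMonoidHom.id _))

@[simp] theorem aS_f (g : X × Y) (s : Co X (Co Y (ZMod n))) (x : List X) (y : List Y) :
    ((aS g s).f x).f y = (s.f (x.map fun a => g.1 * a)).f (y.map fun b => g.2 * b) := rfl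

theorem δ_aS (g : X × Y) (s : Co X (Co Y (ZMod n))) : Cx.δ (aS g s) = aS g (Cx.δ s) :=
  δ_pull (fun a => g.1 * a) (pull (fun b => g.2 * b) (AddMonoidHom.id (ZMod n)))
    (fun b => δ_pull (fun b => g.2 * b) (AddMonoidHom.id (ZMod n)) (fun _ => rfl) b) s

theorem aS_mul (g : X × Y) (s t : Co X (Co Y (ZMod n))) : aS g (s * t) = aS g s * aS g t :=
  pull_mul _ _ (fun b c => pull_mul _ _ (fun _ _ => rfl) b c) s t

/-- action on `E` -/
def aA (g : X × Y) : Co J (Co X (Co Y (ZMod n))) →+ Co J (Co X (Co Y (ZMod n))) :=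
  pull (fun j => g • j) (aS g)

@[simp] theorem aA_f (g : X × Y) (F : Co J (Co X (Co Y (ZMod n)))) (l : List J) :
    (aA g F).f l = aS g (F.f (l.map fun j => g • j)) := rfl

theorem δ_aA (g : X × Y) (F : Co J (Co X (Co Y (ZMod n)))) : Cx.δ (aA g F) = aA g (Cx.δ F) :=
  δ_pull _ _ (fun b => δ_aS g b) F

theorem aA_mul (g : X × Y) (F G : Co J (Co X (Co Y (ZMod n)))) : aA g (F * G) = aA g F * aA g G :=
  pull_mul _ _ (fun b c => aS_mul g b c) F G

/-- normalised elements of `E` -/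
def NzE (F : Co J (Co X (Co Y (ZMod n)))) : Prop := F.f [] = 0 ∧ ∀ l, NzS (F.f l)

theorem NzE.zero : NzE (0 : Co J (Co X (Co Y (ZMod n)))) := 
  ⟨rfl, fun _ => (NzS.zero : NzS (0 : Co X (Co Y (ZMod n))))⟩
theorem NzE.add {F G : Co J (Co X (Co Y (ZMod n)))} (hF : NzE F) (hG : NzE G) : NzE (F + G) :=
  ⟨by rw [add_f, hF.1, hG.1, add_zero], fun l => (hF.2 l).add (hG.2 l)⟩
theorem NzE.neg {F : Co J (Co X (Co Y (ZMod n)))} (hF : NzE F) : NzE (-F) :=
  ⟨by rw [neg_f, hF.1, neg_zero], fun l => (hF.2 l).neg⟩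

theorem NzE.δ_f {F : Co J (Co X (Co Y (ZMod n)))} (h : NzE F) (l : List J) (x : List X) (y : List Y) :
    (((Cx.δ F).f l).f x).f y = dl l (fun l' => ((F.f l').f x).f y) +
      sg l.length • (dl x (fun x' => ((F.f l).f x').f y) + sg x.length • dl y ((F.f l).f x).f) := by
  rw [δ_of h.1, add_f, add_f, dl_f, dl_f, zsmul_f, zsmul_f, (h.2 l).δ_fz]

theorem NzE.δ {F : Co J (Co X (Co Y (ZMod n)))} (h : NzE F) : NzE (Cx.δ F) := by
  refine ⟨δ_nil F, fun l => ⟨Co.ext fun y => ?_, fun x => ?_⟩⟩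
  · have e : dl y (0 : Co Y (ZMod n)).f = 0 := dl_zero y
    rw [h.δ_f, dl_eq_zero fun l' _ => by rw [(h.2 l').1]; rfl, (h.2 l).1, e]
    simp
  · rw [h.δ_f, dl_eq_zero fun l' _ => (h.2 l').2 x, dl_eq_zero fun x' _ => (h.2 l).2 x']
    simp

/-- total length `L` -/
def HmE (L : ℕ) (F : Co J (Co X (Co Y (ZMod n)))) : Prop :=
  ∀ l x y, l.length + x.length + y.length ≠ L → ((F.f l).f x).f y = 0

theorem HmE.δ {L : ℕ} {F : Co J (Co X (Co Y (ZMod n)))} (h : NzE F) (hF : HmE L F) :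
    HmE (L + 1) (Cx.δ F) := by
  intro l x y hL
  rw [h.δ_f, dl_eq_zero fun l' hl' => hF _ _ _ (by omega),
    dl_eq_zero fun x' hx' => hF _ _ _ (by omega), dl_eq_zero fun y' hy' => hF _ _ _ (by omega)]
  simp

/-- invariant normalised cochains of total length `L` -/
def PA (J X Y : Type*) [Group X] [Group Y] [MulAction (X × Y) J] (n L : ℕ) :
    AddSubgroup (Co J (Co X (Co Y (ZMod n)))) where
  carrier := {F | NzE F ∧ HmE L F ∧ ∀ g : X × Y, aA g F = F}
  zero_mem' := ⟨NzE.zero, fun _ _ _ _ => rfl, fun g => map_zero _⟩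
  add_mem' {F G} hF hG := ⟨hF.1.add hG.1, fun l x y h => by
    rw [add_f, add_f, add_f, hF.2.1 l x y h, hG.2.1 l x y h, add_zero], fun g => by
    rw [map_add, hF.2.2, hG.2.2]⟩
  neg_mem' {F} hF := ⟨hF.1.neg, fun l x y h => by
    rw [neg_f, neg_f, neg_f, hF.2.1 l x y h, neg_zero], fun g => by rw [map_neg, hF.2.2]⟩


theorem δ_mem_PA {L : ℕ} {F : Co J (Co X (Co Y (ZMod n)))} (hF : F ∈ PA J X Y n L) :
    Cx.δ F ∈ PA J X Y n (L + 1) :=
  ⟨hF.1.δ, hF.2.1.δ hF.1, fun g => by rw [← δ_aA, hF.2.2]⟩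

/-- `J`-level -/
def cJ (k : ℕ) : Co J (Co X (Co Y (ZMod n))) →+ Co J (Co X (Co Y (ZMod n))) where
  toFun F := ⟨fun l => if l.length = k then F.f l else 0⟩
  map_zero' := Co.ext fun l => by simp
  map_add' F G := Co.ext fun l => by simp only [add_f]; split_ifs <;> simp

theorem cJ_f (k : ℕ) (F : Co J (Co X (Co Y (ZMod n)))) (l : List J) :
    (cJ k F).f l = if l.length = k then F.f l else 0 := rfl

/-- `S`-level on `S` -/
def cSS (k : ℕ) : Co X (Co Y (ZMod n)) →+ Co X (Co Y (ZMod n)) where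
  toFun s := ⟨fun x => ⟨fun y => if x.length + y.length = k then (s.f x).f y else 0⟩⟩
  map_zero' := Co.ext fun x => Co.ext fun y => by simp
  map_add' F G := Co.ext fun x => Co.ext fun y => by simp only [add_f]; split_ifs <;> simp

theorem cSS_f (k : ℕ) (s : Co X (Co Y (ZMod n))) (x : List X) (y : List Y) :
    ((cSS k s).f x).f y = if x.length + y.length = k then (s.f x).f y else 0 := rfl

/-- `S`-level -/
def cS (k : ℕ) : Co J (Co X (Co Y (ZMod n))) →+ Co J (Co X (Co Y (ZMod n))) :=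
  pull (fun j => j) (cSS k)

theorem cS_f (k : ℕ) (F : Co J (Co X (Co Y (ZMod n)))) (l : List J) :
    (cS k F).f l = cSS k (F.f l) := by
  show cSS k (F.f (l.map fun j => j)) = _
  rw [List.map_id']

theorem NzE.cJ {F : Co J (Co X (Co Y (ZMod n)))} (h : NzE F) (k : ℕ) : NzE (cJ k F) :=
  ⟨by rw [cJ_f, h.1]; simp, fun l => by rw [cJ_f]; split_ifs; exacts [h.2 l, NzS.zero]⟩

theorem NzS.cSS {s : Co X (Co Y (ZMod n))} (h : NzS s) (k : ℕ) : NzS (cSS k s) :=
  ⟨Co.ext fun y => by rw [cSS_f, h.1]; simp, fun x => by rw [cSS_f, h.2]; simp⟩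

theorem NzE.cS {F : Co J (Co X (Co Y (ZMod n)))} (h : NzE F) (k : ℕ) : NzE (cS k F) :=
  ⟨by rw [cS_f, h.1, map_zero], fun l => by rw [cS_f]; exact (h.2 l).cSS k⟩

theorem cJ_mem_PA {L : ℕ} {F : Co J (Co X (Co Y (ZMod n)))} (hF : F ∈ PA J X Y n L) (k : ℕ) :
    cJ k F ∈ PA J X Y n L := by
  refine ⟨hF.1.cJ k, fun l x y h => ?_, fun g => Co.ext fun l => ?_⟩
  · rw [cJ_f]; split_ifs
    · exact hF.2.1 l x y h
    · rfl
  · rw [aA_f, cJ_f, cJ_f, List.length_map]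
    split_ifs
    · rw [← aA_f, hF.2.2]
    · exact map_zero _

theorem cSS_aS (g : X × Y) (k : ℕ) (s : Co X (Co Y (ZMod n))) : aS g (cSS k s) = cSS k (aS g s) := by
  refine Co.ext fun x => Co.ext fun y => ?_
  rw [aS_f, cSS_f, cSS_f, List.length_map, List.length_map, aS_f]

theorem cS_aA (g : X × Y) (k : ℕ) (F : Co J (Co X (Co Y (ZMod n)))) : aA g (cS k F) = cS k (aA g F) := by
  refine Co.ext fun l => ?_
  rw [aA_f, cS_f, cS_f, aA_f, cSS_aS]

/-- `S`-bounded -/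
def BdE (F : Co J (Co X (Co Y (ZMod n)))) : Prop :=
  ∃ K : ℕ, ∀ l x y, K < x.length + y.length → ((F.f l).f x).f y = 0

theorem HmE.bd {L : ℕ} {F : Co J (Co X (Co Y (ZMod n)))} (h : HmE L F) : BdE F :=
  ⟨L, fun l x y hL => h l x y (by omega)⟩

theorem BdE.δ {F : Co J (Co X (Co Y (ZMod n)))} (h : NzE F) (hF : BdE F) : BdE (Cx.δ F) := by
  obtain ⟨K, hK⟩ := hF
  refine ⟨K + 1, fun l x y hL => ?_⟩
  rw [h.δ_f, dl_eq_zero fun l' hl' => hK _ _ _ (by omega),
    dl_eq_zero fun x' hx' => hK _ _ _ (by omega), dl_eq_zero fun y' hy' => hK _ _ _ (by omega)]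
  simp

theorem mulS_eq_zero {K K' : ℕ} {s t : Co X (Co Y (ZMod n))}
    (hs : ∀ x y, K < x.length + y.length → (s.f x).f y = 0)
    (ht : ∀ x y, K' < x.length + y.length → (t.f x).f y = 0) (x : List X) (y : List Y)
    (h : K + K' < x.length + y.length) : ((s * t).f x).f y = 0 := by
  rw [mul_f]
  refine cupl_eq_zero (B := Co Y (ZMod n)) (fun F => F.f y) rfl (fun _ _ => rfl) fun a b hab => ?_
  show (s.f a * t.f b).f y = 0
  rw [mul_f]
  refine cupl_eq_zero (B := ZMod n) (fun F => F) rfl (fun _ _ => rfl) fun c d hcd => ?_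
  show (s.f a).f c * (t.f b).f d = 0
  by_cases h1 : K < a.length + c.length
  · rw [hs a c h1, zero_mul]
  · rw [ht b d (by omega), mul_zero]

theorem BdE.mul {F G : Co J (Co X (Co Y (ZMod n)))} (hF : BdE F) (hG : BdE G) : BdE (F * G) := by
  obtain ⟨K, hK⟩ := hF
  obtain ⟨K', hK'⟩ := hG
  refine ⟨K + K', fun l x y h => ?_⟩
  rw [mul_f]
  refine cupl_eq_zero (B := Co X (Co Y (ZMod n))) (fun F => (F.f x).f y) rfl (fun _ _ => rfl)
    fun a b _ => ?_
  exact mulS_eq_zero (hK a) (hK' b) x y h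

theorem NzE.mul (F G : Co J (Co X (Co Y (ZMod n)))) : NzE (F * G) := by
  refine ⟨rfl, fun l => ?_⟩
  rw [mul_f]
  have key : ∀ (l : List J) (f g : List J → Co X (Co Y (ZMod n))), NzS (cupl l f g) := by
    intro l
    induction l with
    | nil => intro f g; exact NzS.zero
    | cons a l ih => intro f g; rw [cupl_cons]; exact (NzS.mul _ _).add (ih _ _)
  exact key l _ _

/-- invariant normalised `S`-bounded cochains -/
def QA (J X Y : Type*) [Group X] [Group Y] [MulAction (X × Y) J] (n : ℕ) :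
    AddSubgroup (Co J (Co X (Co Y (ZMod n)))) where
  carrier := {F | NzE F ∧ BdE F ∧ ∀ g : X × Y, aA g F = F}
  zero_mem' := ⟨NzE.zero, ⟨0, fun _ _ _ _ => rfl⟩, fun g => map_zero _⟩
  add_mem' {F G} hF hG := by
    refine ⟨hF.1.add hG.1, ?_, fun g => by rw [map_add, hF.2.2, hG.2.2]⟩
    obtain ⟨K, hK⟩ := hF.2.1
    obtain ⟨K', hK'⟩ := hG.2.1
    refine ⟨max K K', fun l x y h => ?_⟩
    rw [add_f, add_f, add_f, hK l x y (lt_of_le_of_lt (le_max_left _ _) h),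
      hK' l x y (lt_of_le_of_lt (le_max_right _ _) h), add_zero]
  neg_mem' {F} hF := by
    refine ⟨hF.1.neg, ?_, fun g => by rw [map_neg, hF.2.2]⟩
    obtain ⟨K, hK⟩ := hF.2.1
    exact ⟨K, fun l x y h => by rw [neg_f, neg_f, neg_f, hK l x y h, neg_zero]⟩


theorem PA_le_QA (L : ℕ) : PA J X Y n L ≤ QA J X Y n := fun _ hF => ⟨hF.1, hF.2.1.bd, hF.2.2⟩

theorem δ_mem_QA {F : Co J (Co X (Co Y (ZMod n)))} (hF : F ∈ QA J X Y n) : Cx.δ F ∈ QA J X Y n :=
  ⟨hF.1.δ, hF.2.1.δ hF.1, fun g => by rw [← δ_aA, hF.2.2]⟩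

theorem mul_mem_QA {F G : Co J (Co X (Co Y (ZMod n)))} (hF : F ∈ QA J X Y n) (hG : G ∈ QA J X Y n) :
    F * G ∈ QA J X Y n :=
  ⟨NzE.mul F G, hF.2.1.mul hG.2.1, fun g => by rw [aA_mul, hF.2.2, hG.2.2]⟩

theorem cS_mem_QA {F : Co J (Co X (Co Y (ZMod n)))} (hF : F ∈ QA J X Y n) (k : ℕ) :
    cS k F ∈ QA J X Y n := by
  refine ⟨hF.1.cS k, ⟨k, fun l x y h => ?_⟩, fun g => by rw [cS_aA, hF.2.2]⟩
  rw [cS_f, cSS_f, if_neg (by omega)]

end act

section sig
variable {J X : Type*} [Group X] [MulAction (X × X) J] {n : ℕ}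

/-- the swap on `E` -/
def aT (σ : J → J) : Co J (Co X (Co X (ZMod n))) →+ Co J (Co X (Co X (ZMod n))) := pull σ Tn

@[simp] theorem aT_f (σ : J → J) (F : Co J (Co X (Co X (ZMod n)))) (l : List J) :
    (aT σ F).f l = Tn (F.f (l.map σ)) := rfl

theorem δ_aT (σ : J → J) (F : Co J (Co X (Co X (ZMod n)))) : Cx.δ (aT σ F) = aT σ (Cx.δ F) :=
  δ_pull _ _ (fun b => Tn_δ b) F

theorem aT_mul (σ : J → J) (F G : Co J (Co X (Co X (ZMod 2)))) : aT σ (F * G) = aT σ F * aT σ G :=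
  pull_mul _ _ (fun b c => Tn_mul b c) F G

theorem aT_aT {σ : J → J} (hσ : ∀ j, σ (σ j) = j) {F : Co J (Co X (Co X (ZMod n)))} (hF : NzE F) :
    aT σ (aT σ F) = F := by
  refine Co.ext fun l => ?_
  rw [aT_f, aT_f, Tn_Tn (hF.2 _), List.map_map]
  have : σ ∘ σ = id := funext hσ
  rw [this, List.map_id]

theorem NzE.aT {σ : J → J} {F : Co J (Co X (Co X (ZMod n)))} (hF : NzE F) : NzE (aT σ F) :=
  ⟨by rw [aT_f]; simp [hF.1], fun l => Tn_nz _⟩

theorem Tn_aS (g : X × X) (s : Co X (Co X (ZMod n))) : aS g (Tn s) = Tn (aS (g.2, g.1) s) := by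
  refine Co.ext fun x => Co.ext fun y => ?_
  rw [aS_f, Tn_f, Tn_f, List.length_map, List.length_map]
  congr 1
  rcases x with _ | ⟨a, x⟩ <;> rcases y with _ | ⟨b, y⟩ <;> simp

theorem Tn_cSS (k : ℕ) (s : Co X (Co X (ZMod n))) : cSS k (Tn s) = Tn (cSS k s) := by
  refine Co.ext fun x => Co.ext fun y => ?_
  rw [cSS_f, Tn_f, Tn_f]
  rcases x with _ | ⟨a, x⟩
  · simp
  · rcases y with _ | ⟨b, y⟩
    · simp
    · rw [vv_cons, vv_cons, cSS_f, add_comm (List.length (b :: y))]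
      split_ifs <;> simp

/-- the data of a wreath product situation: `σ` an involution of `J` compatible with the action -/
structure Sig (J X : Type*) [Group X] [MulAction (X × X) J] where
  σ : J → J
  inv : ∀ j, σ (σ j) = j
  smul : ∀ (g : X × X) (j : J), σ (g • j) = (g.2, g.1) • σ j
  c1 : J → X
  c2 : J → X
  ε : J → Bool
  c1_smul : ∀ (g : X × X) (j : J), c1 (g • j) = g.1 * c1 j
  c2_smul : ∀ (g : X × X) (j : J), c2 (g • j) = g.2 * c2 j
  c1_σ : ∀ j, c1 (σ j) = c2 j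
  ε_smul : ∀ (g : X × X) (j : J), ε (g • j) = ε j
  ε_σ : ∀ j, ε (σ j) = !ε j

theorem aA_aT (W : Sig J X) (g : X × X) (F : Co J (Co X (Co X (ZMod n)))) :
    aA g (aT W.σ F) = aT W.σ (aA (g.2, g.1) F) := by
  refine Co.ext fun l => ?_
  rw [aA_f, aT_f, aT_f, aA_f, Tn_aS]
  congr 3
  rw [List.map_map, List.map_map]
  congr 1
  funext j
  exact W.smul g j

theorem BdE.aT {σ : J → J} {F : Co J (Co X (Co X (ZMod n)))} (hF : NzE F) (h : BdE F) :
    BdE (aT σ F) := by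
  obtain ⟨K, hK⟩ := h
  refine ⟨K, fun l x y h => ?_⟩
  rw [aT_f, Tn_f, (hF.2 _).vv, hK _ _ _ (by omega), smul_zero]

theorem HmE.aT {σ : J → J} {L : ℕ} {F : Co J (Co X (Co X (ZMod n)))} (hF : NzE F) (h : HmE L F) :
    HmE L (aT σ F) := by
  intro l x y hL
  rw [aT_f, Tn_f, (hF.2 _).vv, h _ _ _ (by rw [List.length_map]; omega), smul_zero]

theorem aT_mem_PA (W : Sig J X) {L : ℕ} {F : Co J (Co X (Co X (ZMod n)))} (hF : F ∈ PA J X X n L) :
    aT W.σ F ∈ PA J X X n L :=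
  ⟨hF.1.aT, hF.2.1.aT hF.1, fun g => by rw [aA_aT, hF.2.2]⟩

theorem aT_mem_QA (W : Sig J X) {F : Co J (Co X (Co X (ZMod n)))} (hF : F ∈ QA J X X n) :
    aT W.σ F ∈ QA J X X n :=
  ⟨hF.1.aT, hF.2.1.aT hF.1, fun g => by rw [aA_aT, hF.2.2]⟩

/-- swap-invariant elements of `QA` -/
def QB (W : Sig J X) (n : ℕ) : AddSubgroup (Co J (Co X (Co X (ZMod n)))) where
  carrier := {F | F ∈ QA J X X n ∧ aT W.σ F = F}
  zero_mem' := ⟨AddSubgroup.zero_mem _, map_zero _⟩
  add_mem' {F G} hF hG := ⟨AddSubgroup.add_mem _ hF.1 hG.1, by rw [map_add, hF.2, hG.2]⟩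
  neg_mem' {F} hF := ⟨AddSubgroup.neg_mem _ hF.1, by rw [map_neg, hF.2]⟩

/-- swap-invariant elements of `PA` -/
def PB (W : Sig J X) (n L : ℕ) : AddSubgroup (Co J (Co X (Co X (ZMod n)))) where
  carrier := {F | F ∈ PA J X X n L ∧ aT W.σ F = F}
  zero_mem' := ⟨AddSubgroup.zero_mem _, map_zero _⟩
  add_mem' {F G} hF hG := ⟨AddSubgroup.add_mem _ hF.1 hG.1, by rw [map_add, hF.2, hG.2]⟩
  neg_mem' {F} hF := ⟨AddSubgroup.neg_mem _ hF.1, by rw [map_neg, hF.2]⟩



theorem δ_mem_QB {W : Sig J X} {F : Co J (Co X (Co X (ZMod n)))} (hF : F ∈ QB W n) :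
    Cx.δ F ∈ QB W n := ⟨δ_mem_QA hF.1, by rw [← δ_aT, hF.2]⟩

theorem mul_mem_QB {W : Sig J X} {F G : Co J (Co X (Co X (ZMod 2)))} (hF : F ∈ QB W 2)
    (hG : G ∈ QB W 2) : F * G ∈ QB W 2 :=
  ⟨mul_mem_QA hF.1 hG.1, by rw [aT_mul, hF.2, hG.2]⟩

theorem cS_mem_QB {W : Sig J X} {F : Co J (Co X (Co X (ZMod n)))} (hF : F ∈ QB W n) (k : ℕ) :
    cS k F ∈ QB W n := by
  refine ⟨cS_mem_QA hF.1 k, ?_⟩
  have h := hF.2
  conv_rhs => rw [← h]
  refine Co.ext fun l => ?_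
  rw [aT_f, cS_f, cS_f, aT_f, Tn_cSS]

end sig

end Crest.Agent.R204.SQ803
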