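import Crest.Agent.R204.Defs

/-!
# Row 204, block E (helper330): cell attachment `Cone K b x`

`x : K.S M` spherical simplex (all proper faces are the base simplex).  `Cone K b x` attaches one
`(M+1)`-cell `e` with `d₀ e = x`, `dᵢ e = base` for `i > 0`.
-/

set_option autoImplicit false

namespace Crest.Agent.R204.Cone330

open Finsupp Crest.Agent.R204

/-! ## monotone maps -/

/-- the unique monotone map to `[0]` -/
def cst (q : ℕ) : Op q 0 := ⟨fun _ => 0, fun _ _ _ => le_rfl⟩

theorem op_zero_eq {q : ℕ} (f : Op q 0) : f = cst q := by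
  ext a
  have h1 := (f a).isLt
  have h2 := (cst q a).isLt
  omega

/-- shift down by one (truncated at `0`) -/
def dn {q M : ℕ} (θ : Op q (M + 1)) : Op q M :=
  ⟨fun a => ⟨(θ a : ℕ) - 1, by have := (θ a).isLt; omega⟩, fun a b h => by
    have := θ.monotone h
    rw [Fin.le_def] at this ⊢
    simp only
    omega⟩

theorem dn_val {q M : ℕ} (θ : Op q (M + 1)) (a : Fin (q + 1)) : (dn θ a : ℕ) = (θ a : ℕ) - 1 := rfl

theorem dn_comp {p q M : ℕ} (θ : Op q (M + 1)) (f : Op p q) : dn (θ.comp f) = (dn θ).comp f := rfl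

theorem face_zero_comp_dn {q M : ℕ} (θ : Op q (M + 1)) (h : θ 0 ≠ 0) :
    (Op.face 0).comp (dn θ) = θ := by
  ext a
  have h1 : θ 0 ≤ θ a := θ.monotone (Fin.zero_le a)
  have h2 : (θ 0 : ℕ) ≠ 0 := fun h' => h (Fin.ext h')
  rw [Fin.le_def] at h1
  simp only [OrderHom.comp_coe, Function.comp_apply, Ch.face_val, dn_val]
  simp
  omega

theorem dn_face_zero {M : ℕ} : dn (Op.face (0 : Fin (M + 2))) = OrderHom.id := by
  ext a
  simp [dn_val, Ch.face_val]

/-- a monotone map missing `i` factors through the `i`-th face -/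
theorem exists_factor {p n : ℕ} (g : Op p (n + 1)) (i : Fin (n + 2)) (hi : ∀ a, g a ≠ i) :
    ∃ g' : Op p n, g = (Op.face i).comp g' := by
  have hi' : ∀ a, (g a : ℕ) ≠ i := fun a h => hi a (Fin.ext h)
  refine ⟨⟨fun a => ⟨if (g a : ℕ) < i then (g a : ℕ) else (g a : ℕ) - 1, ?_⟩, ?_⟩, ?_⟩
  · have h1 := (g a).isLt
    have h2 := i.isLt
    have h3 := hi' a
    split_ifs <;> omega
  · intro a b h
    have := g.monotone h
    rw [Fin.le_def] at this ⊢
    simp only
    have h3 := hi' a
    have h4 := hi' b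
    split_ifs <;> omega
  · ext a
    simp only [OrderHom.comp_coe, Function.comp_apply, Ch.face_val, OrderHom.coe_mk]
    have h3 := hi' a
    split_ifs <;> omega

/-- if `θ` takes the same value at `j` and `j+1` it factors through the `j`-th degeneracy -/
theorem factor_dgn {q n : ℕ} (θ : Op (q + 1) n) (j : Fin (q + 1)) (h : θ j.castSucc = θ j.succ) :
    θ = (θ.comp (Op.face j.castSucc)).comp (Op.dgn j) := by
  ext a
  simp only [OrderHom.comp_coe, Function.comp_apply]
  have h' : (θ j.castSucc : ℕ) = θ j.succ := by rw [h]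
  by_cases ha : (a : ℕ) = j
  · have e1 : a = j.castSucc := Fin.ext ha
    have e2 : Op.face j.castSucc (Op.dgn j a) = j.succ := by
      ext
      simp only [Ch.face_val, Ch.dgn_val, Fin.val_castSucc, Fin.val_succ]
      split_ifs <;> omega
    rw [e2, e1, h']
  · have e2 : Op.face j.castSucc (Op.dgn j a) = a := by
      ext
      simp only [Ch.face_val, Ch.dgn_val, Fin.val_castSucc]
      split_ifs <;> omega
    rw [e2]

theorem exists_eq_succ_of_not_injective {q n : ℕ} (θ : Op (q + 1) n)
    (h : ¬ Function.Injective θ) : ∃ j : Fin (q + 1), θ j.castSucc = θ j.succ := by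
  by_contra hcon
  push Not at hcon
  refine h ?_
  have : StrictMono θ := by
    rw [Fin.strictMono_iff_lt_succ]
    intro i
    exact lt_of_le_of_ne (θ.monotone i.castSucc_lt_succ.le) (hcon i)
  exact this.injective

/-- a simplex pulled back along a non-injective map is degenerate -/
theorem sx_act_of_not_injective {R : Type} [CommRing R] {K : SS} {m n : ℕ} (θ : Op m n) (y : K.S n)
    (h : ¬ Function.Injective θ) : N.sx R (K.act θ y) = 0 := by
  rcases m with _ | m
  · exact absurd (fun a b _ => Fin.ext (by have := a.isLt; have := b.isLt; omega)) h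
  · obtain ⟨j, hj⟩ := exists_eq_succ_of_not_injective θ h
    rw [factor_dgn θ j hj, K.act_comp]
    exact N.sx_dgn _ _

theorem sx_act_of_lt {R : Type} [CommRing R] {K : SS} {m n : ℕ} (θ : Op m n) (y : K.S n)
    (h : n < m) : N.sx R (K.act θ y) = 0 :=
  sx_act_of_not_injective θ y fun hi => by
    have := Fintype.card_le_of_injective _ hi
    simp at this
    omega

/-- a surjective monotone map with equal dimensions is the identity -/
theorem eq_id_of_surjective {n : ℕ} (θ : Op n n) (h : Function.Surjective θ) :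
    θ = OrderHom.id := by
  have hb : Function.Bijective θ := ⟨Finite.injective_iff_surjective.2 h, h⟩
  have hs : StrictMono θ := θ.monotone.strictMono_of_injective hb.1
  have : (hs.orderIsoOfSurjective _ h) = OrderIso.refl _ := Subsingleton.elim _ _
  ext a
  have := congrArg (fun f => f a) this
  simpa using congrArg Fin.val this

theorem le_of_surjective {m n : ℕ} (θ : Op m n) (h : Function.Surjective θ) : n ≤ m := by
  have := Fintype.card_le_of_surjective _ h
  simp at this
  omega

/-! ## base simplices and spherical simplices -/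

variable (K : SS) (b : K.S 0)

/-- the base simplex in dimension `q` -/
def base (q : ℕ) : K.S q := K.act (cst q) b

theorem act_base {p q : ℕ} (f : Op p q) : K.act f (base K b q) = base K b p := by
  rw [base, ← K.act_comp]
  rfl

theorem base_zero : base K b 0 = b := by
  rw [base, ← op_zero_eq OrderHom.id, K.act_id]

theorem sx_base (R : Type) [CommRing R] {q : ℕ} (hq : 0 < q) : N.sx R (base K b q) = 0 :=
  sx_act_of_lt _ _ hq

variable {K} {b}

theorem map_base {L : SS} (f : SS.Hom K L) (q : ℕ) : f.app q (base K b q) = base L (f.app 0 b) q := by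
  rw [base, f.nat]; rfl

/-- all proper faces are the base simplex -/
def IsSph (b : K.S 0) {M : ℕ} (x : K.S M) : Prop :=
  ∀ {p : ℕ} (g : Op p M), ¬ Function.Surjective g → K.act g x = base K b p

theorem isSph_of_face {M : ℕ} {x : K.S (M + 1)}
    (h : ∀ i : Fin (M + 2), K.act (Op.face i) x = base K b M) : IsSph b x := by
  intro p g hg
  rw [Function.Surjective] at hg
  push Not at hg
  obtain ⟨i, hi⟩ := hg
  obtain ⟨g', rfl⟩ := exists_factor g i hi
  rw [K.act_comp, h, act_base]

theorem isSph_zero {x : K.S 0} : IsSph b x := by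
  intro p g hg
  exact absurd (fun a => ⟨0, Fin.ext (by have := a.isLt; have := (g 0).isLt; omega)⟩) hg

theorem IsSph.face {M : ℕ} {x : K.S (M + 1)} (h : IsSph b x) (i : Fin (M + 2)) :
    K.act (Op.face i) x = base K b M :=
  h _ fun hs => by
    obtain ⟨a, ha⟩ := hs i
    have := congrArg Fin.val ha
    rw [Ch.face_val] at this
    split_ifs at this <;> omega

theorem IsSph.map {L : SS} (f : SS.Hom K L) {M : ℕ} {x : K.S M} (h : IsSph b x) :
    IsSph (f.app 0 b) (f.app M x) := by
  intro p g hg
  rw [← f.nat, h g hg, map_base]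

/-- a spherical simplex is a cycle -/
theorem IsSph.bd {R : Type} [CommRing R] {M : ℕ} {x : K.S (M + 1)} (hM : 0 < M) (h : IsSph b x) :
    N.bd R K (N.sx R x) = 0 := by
  rw [N.sx, N.bd_mk, Ch.bd_single_succ]
  rw [← Submodule.mkQ_apply, map_sum]
  refine Finset.sum_eq_zero fun i _ => ?_
  rw [h.face i]
  have e : (single (⟨M, base K b M⟩ : K.T) ((1 : R) * (-1) ^ (i : ℕ)) : Ch R K) =
      ((-1 : R) ^ (i : ℕ)) • single ⟨M, base K b M⟩ 1 := by simp
  rw [e, map_smul]
  have := sx_base K b R hM
  rw [N.sx] at this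
  rw [Submodule.mkQ_apply, this, smul_zero]

/-! ## the cone -/

section Cone

variable (K b)
variable {M : ℕ} (x : K.S M)

open Classical in
/-- the simplex of the cone given by a map to `Δ^{M+1}` -/
noncomputable def Phi {q : ℕ} (θ : Op q (M + 1)) :
    K.S q ⊕ {θ : Op q (M + 1) // Function.Surjective θ} :=
  if h : Function.Surjective θ then Sum.inr ⟨θ, h⟩
  else if θ 0 = 0 then Sum.inl (base K b q) else Sum.inl (K.act (dn θ) x)

theorem Phi_surj {q : ℕ} (θ : Op q (M + 1)) (h : Function.Surjective θ) :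
    Phi K b x θ = Sum.inr ⟨θ, h⟩ := dif_pos h

theorem Phi_zero {q : ℕ} (θ : Op q (M + 1)) (h : ¬ Function.Surjective θ) (h0 : θ 0 = 0) :
    Phi K b x θ = Sum.inl (base K b q) := by
  rw [Phi, dif_neg h, if_pos h0]

theorem not_surj_of_ne {q : ℕ} (θ : Op q (M + 1)) (h0 : θ 0 ≠ 0) : ¬ Function.Surjective θ :=
  fun hs => by
    obtain ⟨a, ha⟩ := hs 0
    have h1 : θ 0 ≤ θ a := θ.monotone (Fin.zero_le a)
    rw [ha] at h1
    exact h0 (Fin.le_zero_iff.1 h1)

theorem Phi_ne {q : ℕ} (θ : Op q (M + 1)) (h0 : θ 0 ≠ 0) :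
    Phi K b x θ = Sum.inl (K.act (dn θ) x) := by
  rw [Phi, dif_neg (not_surj_of_ne θ h0), if_neg h0]

/-- action of operators on the simplices of the cone -/
noncomputable def coneAct {p q : ℕ} (f : Op p q) :
    K.S q ⊕ {θ : Op q (M + 1) // Function.Surjective θ} →
      K.S p ⊕ {θ : Op p (M + 1) // Function.Surjective θ}
  | Sum.inl y => Sum.inl (K.act f y)
  | Sum.inr θ => Phi K b x (θ.1.comp f)

variable {K b x}

theorem coneAct_Phi (hx : IsSph b x) {p q : ℕ} (f : Op p q) (θ : Op q (M + 1)) :
    coneAct K b x f (Phi K b x θ) = Phi K b x (θ.comp f) := by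
  by_cases hs : Function.Surjective θ
  · rw [Phi_surj K b x θ hs]; rfl
  · have hs' : ¬ Function.Surjective (θ.comp f) := fun h => hs fun c => by
      obtain ⟨a, ha⟩ := h c
      exact ⟨f a, ha⟩
    by_cases h0 : θ 0 = 0
    · rw [Phi_zero K b x θ hs h0]
      show Sum.inl (K.act f (base K b q)) = _
      rw [act_base]
      by_cases h1 : (θ.comp f) 0 = 0
      · rw [Phi_zero K b x _ hs' h1]
      · rw [Phi_ne K b x _ h1]
        congr 1
        refine (hx _ ?_).symm
        intro hd
        refine hs fun c => ?_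
        by_cases hc : c = 0
        · exact ⟨0, by rw [h0, hc]⟩
        · have hc' : (c : ℕ) ≠ 0 := fun h => hc (Fin.ext h)
          obtain ⟨a, ha⟩ := hd ⟨(c : ℕ) - 1, by have := c.isLt; omega⟩
          have ha' := congrArg Fin.val ha
          rw [dn_val] at ha'
          simp only at ha'
          have h2 : (θ.comp f) 0 ≤ (θ.comp f) a := (θ.comp f).monotone (Fin.zero_le a)
          rw [Fin.le_def] at h2
          have h3 : ((θ.comp f) 0 : ℕ) ≠ 0 := fun h => h1 (Fin.ext h)
          refine ⟨f a, Fin.ext ?_⟩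
          have : ((θ.comp f) a : ℕ) = (θ (f a) : ℕ) := rfl
          omega
    · have h1 : (θ.comp f) 0 ≠ 0 := by
        intro h
        have h2 : θ 0 ≤ θ (f 0) := θ.monotone (Fin.zero_le _)
        have h3 : θ (f 0) = 0 := h
        rw [h3] at h2
        exact h0 (Fin.le_zero_iff.1 h2)
      rw [Phi_ne K b x θ h0, Phi_ne K b x _ h1, dn_comp, K.act_comp]
      rfl

variable (K b x)

/-- attach one `(M+1)`-cell along the spherical simplex `x` -/
noncomputable def Cone (hx : IsSph b x) : SS where
  S q := K.S q ⊕ {θ : Op q (M + 1) // Function.Surjective θ}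
  act f y := coneAct K b x f y
  act_id y := by
    rcases y with y | ⟨θ, hθ⟩
    · show Sum.inl (K.act _ y) = _
      rw [K.act_id]
    · show Phi K b x _ = _
      exact Phi_surj K b x θ hθ
  act_comp f g y := by
    rcases y with y | ⟨θ, hθ⟩
    · show Sum.inl (K.act _ y) = Sum.inl (K.act _ (K.act _ y))
      rw [K.act_comp]
    · show Phi K b x _ = coneAct K b x f (Phi K b x (θ.comp g))
      rw [coneAct_Phi hx]
      rfl

variable {K b x} (hx : IsSph b x)

/-- inclusion of `K` -/
noncomputable def incl : SS.Hom K (Cone K b x hx) := ⟨fun _ y => Sum.inl y, fun _ _ => rfl⟩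

/-- characteristic map of the cell -/
noncomputable def cell : SS.Hom (SS.std (M + 1)) (Cone K b x hx) :=
  ⟨fun _ θ => Phi K b x θ, fun f θ => (coneAct_Phi hx f θ).symm⟩

/-- the top simplex -/
noncomputable def top : (Cone K b x hx).S (M + 1) := Phi K b x OrderHom.id

theorem top_eq : top hx = Sum.inr ⟨OrderHom.id, Function.surjective_id⟩ :=
  Phi_surj K b x _ Function.surjective_id

theorem act_top {q : ℕ} (θ : Op q (M + 1)) : (Cone K b x hx).act θ (top hx) = Phi K b x θ :=
  coneAct_Phi hx θ OrderHom.id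

theorem act_top_zero {q : ℕ} (θ : Op q (M + 1)) (h : ¬ Function.Surjective θ) (h0 : θ 0 = 0) :
    (Cone K b x hx).act θ (top hx) = base _ (Sum.inl b) q := by
  rw [act_top, Phi_zero K b x θ h h0]
  rfl

theorem act_top_ne {q : ℕ} (θ : Op q (M + 1)) (h0 : θ 0 ≠ 0) :
    (Cone K b x hx).act θ (top hx) = (incl hx).app q (K.act (dn θ) x) := by
  rw [act_top, Phi_ne K b x θ h0]
  rfl

theorem face_zero_top : (Cone K b x hx).act (Op.face 0) (top hx) = (incl hx).app M x := by
  rw [act_top_ne hx _ (by rw [Ne, Fin.ext_iff, Ch.face_val]; simp), dn_face_zero, K.act_id]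

theorem face_succ_top (i : Fin (M + 1)) :
    (Cone K b x hx).act (Op.face i.succ) (top hx) = base _ (Sum.inl b) M := by
  refine act_top_zero hx _ ?_ ?_
  · intro hs
    obtain ⟨a, ha⟩ := hs i.succ
    have := congrArg Fin.val ha
    rw [Ch.face_val] at this
    split_ifs at this <;> omega
  · rw [Fin.ext_iff, Ch.face_val]
    simp

/-- the boundary of the new cell -/
theorem bd_top (R : Type) [CommRing R] (hM : 0 < M) :
    N.bd R _ (N.sx R (top hx)) = N.map R (incl hx) (N.sx R x) := by
  rw [N.sx, N.bd_mk, Ch.bd_single_succ, Fin.sum_univ_succ]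
  rw [← Submodule.mkQ_apply, map_add, map_sum]
  rw [Finset.sum_eq_zero (s := (Finset.univ : Finset (Fin (M + 1))))]
  · rw [face_zero_top, N.map_sx, add_zero]
    simp only [Fin.val_zero, pow_zero, mul_one]
    rfl
  · intro i _
    rw [face_succ_top hx i]
    have e : (single (⟨M, base (Cone K b x hx) (Sum.inl b) M⟩ : (Cone K b x hx).T)
        ((1 : R) * (-1) ^ ((i.succ : Fin (M + 2)) : ℕ)) : Ch R _) =
        ((-1 : R) ^ ((i.succ : Fin (M + 2)) : ℕ)) • single ⟨M, base _ (Sum.inl b) M⟩ 1 := by simp
    rw [e, map_smul]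
    have := sx_base (Cone K b x hx) (Sum.inl b) R hM
    rw [N.sx] at this
    rw [Submodule.mkQ_apply, this, smul_zero]

/-- underlying function of `lift` -/
def liftFun {L : SS} (f : SS.Hom K L) (y : L.S (M + 1)) (q : ℕ) :
    K.S q ⊕ {θ : Op q (M + 1) // Function.Surjective θ} → L.S q
  | Sum.inl z => f.app q z
  | Sum.inr θ => L.act θ.1 y

/-- universal property -/
noncomputable def lift {L : SS} (f : SS.Hom K L) (y : L.S (M + 1))
    (h0 : L.act (Op.face 0) y = f.app M x)
    (hi : ∀ i : Fin (M + 1), L.act (Op.face i.succ) y = base L (f.app 0 b) M) :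
    SS.Hom (Cone K b x hx) L where
  app q z := liftFun f y q z
  nat {p q} g z := by
    rcases z with z | ⟨θ, hθ⟩
    · exact f.nat g z
    · show liftFun f y p (Phi K b x (θ.comp g)) = L.act g (L.act θ y)
      rw [← L.act_comp]
      by_cases hs : Function.Surjective (θ.comp g)
      · rw [Phi_surj K b x _ hs]; rfl
      · by_cases hz : (θ.comp g) 0 = 0
        · rw [Phi_zero K b x _ hs hz]
          show f.app p (base K b p) = _
          rw [map_base]
          rw [Function.Surjective] at hs
          push Not at hs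
          obtain ⟨i, hi'⟩ := hs
          obtain ⟨j, rfl⟩ : ∃ j : Fin (M + 1), j.succ = i :=
            Fin.exists_succ_eq.2 (by rintro rfl; exact hi' 0 hz)
          obtain ⟨g', hg'⟩ := exists_factor _ _ hi'
          rw [hg', L.act_comp, hi, act_base]
        · rw [Phi_ne K b x _ hz]
          show f.app p (K.act _ x) = _
          rw [f.nat, ← h0, ← L.act_comp, face_zero_comp_dn _ hz]


theorem lift_top {L : SS} (f : SS.Hom K L) (y : L.S (M + 1)) (h0) (hi) :
    (lift hx f y h0 hi).app (M + 1) (top hx) = y := by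
  rw [top_eq]
  exact L.act_id y

end Cone

/-! ## normalised chains of the cone -/

section Chains

variable {M : ℕ} {x : K.S M} (hx : IsSph b x) (R : Type) [CommRing R]

/-- projection of chains to `K` -/
noncomputable def projCh : Ch R (Cone K b x hx) →ₗ[R] Ch R K :=
  Finsupp.linearCombination R (fun t : (Cone K b x hx).T =>
    match t with
    | ⟨q, Sum.inl y⟩ => (single ⟨q, y⟩ 1 : Ch R K)
    | ⟨_, Sum.inr _⟩ => 0)

/-- coefficient of the new cell -/
noncomputable def coefCh : Ch R (Cone K b x hx) →ₗ[R] R :=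
  Finsupp.linearCombination R (fun t : (Cone K b x hx).T =>
    match t with
    | ⟨_, Sum.inl _⟩ => (0 : R)
    | ⟨q, Sum.inr _⟩ => if q = M + 1 then 1 else 0)

theorem projCh_inl {q : ℕ} (y : K.S q) (r : R) :
    projCh hx R (single ⟨q, Sum.inl y⟩ r) = single ⟨q, y⟩ r := by
  rw [projCh, Finsupp.linearCombination_single]
  simp

theorem projCh_inr {q : ℕ} (θ : {θ : Op q (M + 1) // Function.Surjective θ}) (r : R) :
    projCh hx R (single ⟨q, Sum.inr θ⟩ r) = 0 := by
  rw [projCh, Finsupp.linearCombination_single]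
  simp

theorem coefCh_inl {q : ℕ} (y : K.S q) (r : R) :
    coefCh hx R (single ⟨q, Sum.inl y⟩ r) = 0 := by
  rw [coefCh, Finsupp.linearCombination_single]
  simp

theorem coefCh_inr {q : ℕ} (θ : {θ : Op q (M + 1) // Function.Surjective θ}) (r : R) :
    coefCh hx R (single ⟨q, Sum.inr θ⟩ r) = if q = M + 1 then r else 0 := by
  rw [coefCh, Finsupp.linearCombination_single]
  simp

theorem dgn_surj {q : ℕ} (j : Fin (q + 1)) : Function.Surjective (Op.dgn j) := by
  intro a
  by_cases h : (a : ℕ) ≤ j
  · refine ⟨a.castSucc, ?_⟩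
    ext
    rw [Ch.dgn_val]
    simp [h]
  · refine ⟨a.succ, ?_⟩
    ext
    rw [Ch.dgn_val]
    simp
    omega

theorem cone_dgn_inr {q : ℕ} (j : Fin (q + 1)) (θ : {θ : Op q (M + 1) // Function.Surjective θ}) :
    (Cone K b x hx).act (Op.dgn j) (Sum.inr θ) =
      Sum.inr ⟨θ.1.comp (Op.dgn j), θ.2.comp (dgn_surj j)⟩ :=
  Phi_surj K b x _ _

theorem projCh_Dg {c : Ch R (Cone K b x hx)} (hc : c ∈ Ch.Dg R (Cone K b x hx)) :
    projCh hx R c ∈ Ch.Dg R K := by
  refine Submodule.span_induction (p := fun c _ => projCh hx R c ∈ Ch.Dg R K) ?_ ?_ ?_ ?_ hc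
  · rintro _ ⟨⟨n, y⟩, hy, rfl⟩
    rcases n with _ | n
    · exact hy.elim
    · obtain ⟨j, y, rfl⟩ := hy
      rcases y with y | θ
      · show projCh hx R (single ⟨n + 1, Sum.inl (K.act (Op.dgn j) y)⟩ 1) ∈ _
        rw [projCh_inl]
        exact Submodule.subset_span ⟨_, Ch.isDgn_act _ _ _, rfl⟩
      · rw [cone_dgn_inr]
        rw [projCh_inr]
        exact Submodule.zero_mem _
  · simp
  · intro a b _ _ ha hb; rw [map_add]; exact Submodule.add_mem _ ha hb
  · intro r a _ ha; rw [map_smul]; exact Submodule.smul_mem _ _ ha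

theorem coefCh_Dg {c : Ch R (Cone K b x hx)} (hc : c ∈ Ch.Dg R (Cone K b x hx)) :
    coefCh hx R c = 0 := by
  refine Submodule.span_induction (p := fun c _ => coefCh hx R c = 0) ?_ ?_ ?_ ?_ hc
  · rintro _ ⟨⟨n, y⟩, hy, rfl⟩
    rcases n with _ | n
    · exact hy.elim
    · obtain ⟨j, y, rfl⟩ := hy
      rcases y with y | θ
      · exact coefCh_inl hx R _ _
      · rw [cone_dgn_inr]
        rw [coefCh_inr]
        have := le_of_surjective θ.1 θ.2
        rw [if_neg (by omega)]
  · simp
  · intro a b _ _ ha hb; rw [map_add, ha, hb, add_zero]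
  · intro r a _ ha; rw [map_smul, ha, smul_zero]

/-- projection of normalised chains to `K` -/
noncomputable def proj : N R (Cone K b x hx) →ₗ[R] N R K :=
  Submodule.mapQ _ _ (projCh hx R) (fun _ hc => projCh_Dg hx R hc)

/-- coefficient of the new cell -/
noncomputable def coef : N R (Cone K b x hx) →ₗ[R] R :=
  Submodule.liftQ _ (coefCh hx R) (fun _ hc => coefCh_Dg hx R hc)

theorem proj_inl {q : ℕ} (y : K.S q) : proj hx R (N.sx R ((incl hx).app q y)) = N.sx R y := by
  show Submodule.Quotient.mk (projCh hx R (single ⟨q, Sum.inl y⟩ 1)) = _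
  rw [projCh_inl]; rfl

theorem coef_inl {q : ℕ} (y : K.S q) : coef hx R (N.sx R ((incl hx).app q y)) = 0 :=
  coefCh_inl hx R y 1

theorem proj_top : proj hx R (N.sx R (top hx)) = 0 := by
  rw [top_eq]
  show Submodule.Quotient.mk (projCh hx R (single ⟨_, Sum.inr _⟩ 1)) = _
  rw [projCh_inr]; rfl

theorem coef_top : coef hx R (N.sx R (top hx)) = 1 := by
  rw [top_eq]
  show coefCh hx R (single ⟨_, Sum.inr _⟩ 1) = _
  rw [coefCh_inr, if_pos rfl]

variable {R}

theorem sx_inr_of_ne {q : ℕ} (θ : {θ : Op q (M + 1) // Function.Surjective θ}) (hq : q ≠ M + 1) :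
    N.sx R (K := Cone K b x hx) (n := q) (Sum.inr θ) = 0 := by
  have h1 := le_of_surjective θ.1 θ.2
  have h2 : (Sum.inr θ : (Cone K b x hx).S q) = (Cone K b x hx).act θ.1 (top hx) := by
    rw [act_top, Phi_surj K b x θ.1 θ.2]
  rw [h2]
  exact sx_act_of_lt _ _ (by omega)

/-- chain induction for normalised chains -/
theorem N_induction {L : SS} {p : N R L → Prop} (c : N R L) (h0 : p 0)
    (hadd : ∀ a b, p a → p b → p (a + b)) (hs : ∀ (r : R) (n : ℕ) (y : L.S n), p (r • N.sx R y)) :
    p c := by
  obtain ⟨c, rfl⟩ := Submodule.Quotient.mk_surjective _ c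
  induction c using Finsupp.induction_linear with
  | zero => exact h0
  | add f g hf hg => exact hadd _ _ hf hg
  | single t r =>
    obtain ⟨n, y⟩ := t
    have := hs r n y
    have e : (single (⟨n, y⟩ : L.T) r : Ch R L) = r • single ⟨n, y⟩ 1 := by simp
    rw [e]
    exact this

theorem decomp (c : N R (Cone K b x hx)) :
    c = N.map R (incl hx) (proj hx R c) + coef hx R c • N.sx R (top hx) := by
  refine N_induction (p := fun c => c = N.map R (incl hx) (proj hx R c) +
    coef hx R c • N.sx R (top hx)) c ?_ ?_ ?_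
  · simp
  · intro c d hc hd
    rw [map_add, map_add, map_add, add_smul]
    conv_lhs => rw [hc, hd]
    abel
  · intro r q y
    rw [map_smul, map_smul, map_smul, smul_eq_mul, mul_smul, ← smul_add]
    congr 1
    rcases y with y | θ
    · have h1 := proj_inl hx R y
      have h2 := coef_inl hx R y
      change _ = N.map R (incl hx) (proj hx R (N.sx R ((incl hx).app q y))) +
        coef hx R (N.sx R ((incl hx).app q y)) • _
      rw [h1, h2, zero_smul, add_zero, N.map_sx]
      rfl
    · by_cases hq : q = M + 1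
      · subst hq
        have : (Sum.inr θ : (Cone K b x hx).S (M + 1)) = top hx := by
          rw [top_eq]
          congr 1
          exact Subtype.ext (eq_id_of_surjective _ θ.2)
        rw [this, proj_top, coef_top, map_zero, one_smul, zero_add]
      · rw [sx_inr_of_ne hx θ hq]
        simp

theorem proj_incl (c : N R K) : proj hx R (N.map R (incl hx) c) = c := by
  refine N_induction (p := fun c => proj hx R (N.map R (incl hx) c) = c) c ?_ ?_ ?_
  · simp
  · intro c d hc hd
    rw [map_add, map_add, hc, hd]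
  · intro r q y
    rw [map_smul, map_smul, N.map_sx, proj_inl]

theorem coef_incl (c : N R K) : coef hx R (N.map R (incl hx) c) = 0 := by
  refine N_induction (p := fun c => coef hx R (N.map R (incl hx) c) = 0) c ?_ ?_ ?_
  · simp
  · intro c d hc hd
    rw [map_add, map_add, hc, hd, add_zero]
  · intro r q y
    rw [map_smul, map_smul, N.map_sx, coef_inl, smul_zero]

theorem map_incl_injective : Function.Injective (N.map R (incl hx)) := fun c d h => by
  rw [← proj_incl hx c, h, proj_incl]

/-- boundary in terms of the decomposition -/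
theorem bd_decomp (hM : 0 < M) (c : N R (Cone K b x hx)) :
    N.bd R _ c = N.map R (incl hx) (N.bd R K (proj hx R c) + coef hx R c • N.sx R x) := by
  conv_lhs => rw [decomp hx c]
  rw [map_add, map_smul, bd_top hx R hM, map_add, map_smul]
  congr 1
  exact (LinearMap.congr_fun (N.map_bd (incl hx)) _).symm

theorem bd_eq_zero_iff (hM : 0 < M) (c : N R (Cone K b x hx)) :
    N.bd R _ c = 0 ↔ N.bd R K (proj hx R c) + coef hx R c • N.sx R x = 0 := by
  rw [bd_decomp hx hM, ← map_zero (N.map R (incl hx))]
  exact (map_incl_injective hx).eq_iff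



end Chains

end Crest.Agent.R204.Cone330
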