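import Crest.Agent.R204.C1_735

/-!
Row 204, block C (helper735): spectator coordinates, evaluation at the last loop coordinate,
point configurations, the operations `theta` and `psi`.
-/

set_option autoImplicit false
set_option linter.unusedSectionVars false

open scoped Topology unitInterval Topology.Homotopy
open Set

noncomputable section

namespace Crest.Agent.R204.Cubes735

variable {J J' J₁ Z F : Type*} [TopologicalSpace Z] {z₀ : Z}

/-! ### Function.extend -/

lemma extend_emb {A : Type*} (k : J₁ ↪ J) (t : J₁ → A) (s : J → A) (j : J₁) :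
    Function.extend k t s (k j) = t j := k.injective.extend_apply t s j

lemma extend_not {A : Type*} (k : J₁ ↪ J) (t : J₁ → A) (s : J → A) {j : J}
    (hj : ¬ ∃ i, k i = j) : Function.extend k t s j = s j := Function.extend_apply' t s j hj

lemma continuous_extend {P A : Type*} [TopologicalSpace P] [TopologicalSpace A] (k : J₁ ↪ J)
    {t : P → J₁ → A} {s : P → J → A} (ht : Continuous t) (hs : Continuous s) :
    Continuous fun p => Function.extend k (t p) (s p) := by
  refine continuous_pi fun j => ?_
  by_cases hj : ∃ i, k i = j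
  · obtain ⟨i, rfl⟩ := hj
    simp only [extend_emb]
    exact (continuous_apply i).comp ht
  · simp only [extend_not k _ _ hj]
    exact (continuous_apply j).comp hs

/-! ### Spectator coordinates -/

namespace BoxConf

/-- extension of a box configuration by full sides in the coordinates outside of `J'` -/
def extend (c : BoxConf F J') (k : J' ↪ J) : BoxConf F J :=
  mk' (fun v => Function.extend k (c.a v) (fun _ => 0))
    (fun v => Function.extend k (c.r v) (fun _ => 1))
    (fun v j => by
      by_cases hj : ∃ i, k i = j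
      · obtain ⟨i, rfl⟩ := hj
        rw [extend_emb, extend_emb]
        exact ⟨c.a_nonneg _ _, c.r_pos _ _, c.add_le _ _⟩
      · rw [extend_not _ _ _ hj, extend_not _ _ _ hj]
        norm_num)
    (fun v w h => by
      obtain ⟨j, hj⟩ := c.sep h
      refine ⟨k j, ?_⟩
      simp only [extend_emb]
      exact hj)

@[simp] lemma extend_a_emb (c : BoxConf F J') (k : J' ↪ J) (v : F) (j : J') :
    (c.extend k).a v (k j) = c.a v j := by
  show Function.extend k (c.a v) (fun _ => (0 : ℝ)) (k j) = _
  exact extend_emb k _ _ _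
@[simp] lemma extend_r_emb (c : BoxConf F J') (k : J' ↪ J) (v : F) (j : J') :
    (c.extend k).r v (k j) = c.r v j := by
  show Function.extend k (c.r v) (fun _ => (1 : ℝ)) (k j) = _
  exact extend_emb k _ _ _
lemma extend_a_not (c : BoxConf F J') (k : J' ↪ J) (v : F) {j : J} (hj : ¬ ∃ i, k i = j) :
    (c.extend k).a v j = 0 := by
  show Function.extend k (c.a v) (fun _ => (0 : ℝ)) j = _
  exact extend_not k _ _ hj
lemma extend_r_not (c : BoxConf F J') (k : J' ↪ J) (v : F) {j : J} (hj : ¬ ∃ i, k i = j) :
    (c.extend k).r v j = 1 := by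
  show Function.extend k (c.r v) (fun _ => (1 : ℝ)) j = _
  exact extend_not k _ _ hj

lemma continuous_extend {P : Type*} [TopologicalSpace P] {c : P → BoxConf F J'}
    (hc : Continuous c) (k : J' ↪ J) : Continuous fun p => (c p).extend k := by
  refine continuous_mk (fun v j => ?_) (fun v j => ?_)
  · by_cases hj : ∃ i, k i = j
    · obtain ⟨i, rfl⟩ := hj
      simp only [extend_a_emb]
      exact (continuous_a v i).comp hc
    · simp only [extend_a_not _ _ _ hj]
      exact continuous_const
  · by_cases hj : ∃ i, k i = j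
    · obtain ⟨i, rfl⟩ := hj
      simp only [extend_r_emb]
      exact (continuous_r v i).comp hc
    · simp only [extend_r_not _ _ _ hj]
      exact continuous_const

lemma extend_relabel {F' : Type*} (c : BoxConf F J') (k : J' ↪ J) (e : F' ≃ F) :
    (c.relabel e).extend k = (c.extend k).relabel e := rfl


lemma extend_trans (c : BoxConf F J') (k : J' ↪ J₁) (l : J₁ ↪ J) :
    (c.extend k).extend l = c.extend (k.trans l) := by
  have key : ∀ j : J, ∀ (f : J' → ℝ) (y : ℝ),
      Function.extend l (Function.extend k f (fun _ => y)) (fun _ => y) j =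
        Function.extend (k.trans l) f (fun _ => y) j := by
    intro j f y
    by_cases h1 : ∃ i, l i = j
    · obtain ⟨i, rfl⟩ := h1
      rw [extend_emb]
      by_cases h2 : ∃ i', k i' = i
      · obtain ⟨i', rfl⟩ := h2
        rw [extend_emb, ← Function.Embedding.trans_apply, extend_emb]
      · rw [extend_not _ _ _ h2, extend_not]
        rintro ⟨i', hi'⟩
        exact h2 ⟨i', l.injective hi'⟩
    · rw [extend_not _ _ _ h1, extend_not]
      rintro ⟨i', hi'⟩
      exact h1 ⟨k i', hi'⟩
  ext v j
  · exact key j _ _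
  · exact key j _ _

lemma extend_comp {G : F → Type*} (c : BoxConf F J') (d : ∀ v, BoxConf (G v) J') (k : J' ↪ J) :
    (c.comp d).extend k = (c.extend k).comp (fun v => (d v).extend k) := by
  ext p j
  · by_cases hj : ∃ i, k i = j
    · obtain ⟨i, rfl⟩ := hj
      simp [comp]
    · rw [extend_a_not _ _ _ hj]
      simp only [comp, mk'_a]
      rw [extend_a_not _ _ _ hj, extend_r_not _ _ _ hj, extend_a_not _ _ _ hj]
      norm_num
  · by_cases hj : ∃ i, k i = j
    · obtain ⟨i, rfl⟩ := hj
      simp [comp]
    · rw [extend_r_not _ _ _ hj]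
      simp only [comp, mk'_r]
      rw [extend_r_not _ _ _ hj, extend_r_not _ _ _ hj]
      norm_num

end BoxConf

/-! ### Slices and evaluation -/

/-- freeze the coordinates outside of `J₁` -/
def slice (k : J₁ ↪ J) (s : J → I) (x : Ω^ J Z z₀) : Ω^ J₁ Z z₀ :=
  ⟨⟨fun t => x (Function.extend k t s), by
      refine Continuous.comp (map_continuous x) ?_
      exact continuous_extend k continuous_id continuous_const⟩, by
    rintro t ⟨j, hj⟩
    refine x.2 _ ⟨k j, ?_⟩
    rw [extend_emb]
    exact hj⟩

lemma slice_apply (k : J₁ ↪ J) (s : J → I) (x : Ω^ J Z z₀) (t : J₁ → I) :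
    slice k s x t = x (Function.extend k t s) := rfl

lemma continuous_slice {P : Type*} [TopologicalSpace P] [Finite J₁] (k : J₁ ↪ J)
    {s : P → J → I} {x : P → Ω^ J Z z₀} (hs : Continuous s) (hx : Continuous x) :
    Continuous fun p => slice k (s p) (x p) := by
  rw [continuous_genLoop_iff]
  have h : Continuous fun p : P × (J₁ → I) => x p.1 (Function.extend k p.2 (s p.1)) :=
    (hx.comp continuous_fst).eval (continuous_extend k continuous_snd (hs.comp continuous_fst))
  exact h

@[simp] lemma slice_const (k : J₁ ↪ J) (s : J → I) :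
    slice k s (GenLoop.const : Ω^ J Z z₀) = GenLoop.const := rfl

lemma slice_eq_const (k : J₁ ↪ J) (s : J → I) (x : Ω^ J Z z₀) {j : J} (hj : ¬ ∃ i, k i = j)
    (hs : s j = 0 ∨ s j = 1) : slice k s x = GenLoop.const := by
  ext t
  refine x.2 _ ⟨j, ?_⟩
  rw [extend_not _ _ _ hj]
  exact hs

lemma ext0_slice (k : J₁ ↪ J) (s : J → I) (x : Ω^ J Z z₀) (t : J₁ → ℝ) :
    ext0 (slice k s x) t = ext0 x (Function.extend k t (fun j => (s j : ℝ))) := by
  unfold ext0
  rw [slice_apply]
  congr 1
  funext j
  by_cases hj : ∃ i, k i = j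
  · obtain ⟨i, rfl⟩ := hj
    rw [extend_emb, extend_emb]
  · rw [extend_not _ _ _ hj, extend_not _ _ _ hj, clampI_coe]

/-- **Spectator law**: the little cube operations commute with freezing unused coordinates. -/
theorem slice_mu [Finite F] [Finite J] [Finite J₁] (k : J' ↪ J₁) (l : J₁ ↪ J) (c : BoxConf F J')
    (s : J → I) (x : F → Ω^ J Z z₀) :
    slice l s (mu (c.extend (k.trans l)) x) = mu (c.extend k) (fun v => slice l s (x v)) := by
  rw [← BoxConf.extend_trans]
  set d := c.extend k
  ext t
  rw [slice_apply, mu_apply, mu_apply]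
  have hin : ∀ v, (d.extend l).inside v (fun j => ((Function.extend l t s j : I) : ℝ)) ↔
      d.inside v (fun j => (t j : ℝ)) ∧ ∀ j, (¬ ∃ i, l i = j) → 0 < (s j : ℝ) ∧ (s j : ℝ) < 1 := by
    intro v
    constructor
    · intro h
      refine ⟨fun j => ?_, fun j hj => ?_⟩
      · have := h (l j)
        beta_reduce at this
        rwa [BoxConf.extend_a_emb, BoxConf.extend_r_emb, extend_emb] at this
      · have := h j
        beta_reduce at this
        rw [BoxConf.extend_a_not _ _ _ hj, BoxConf.extend_r_not _ _ _ hj,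
          extend_not _ _ _ hj] at this
        simpa using this
    · rintro ⟨h1, h2⟩ j
      beta_reduce
      by_cases hj : ∃ i, l i = j
      · obtain ⟨i, rfl⟩ := hj
        rw [BoxConf.extend_a_emb, BoxConf.extend_r_emb, extend_emb]
        exact h1 i
      · rw [BoxConf.extend_a_not _ _ _ hj, BoxConf.extend_r_not _ _ _ hj, extend_not _ _ _ hj]
        simpa using h2 j hj
  refine muFun_eq (fun v hv => ?_) (fun h => ?_)
  · rw [muFun_of_inside d _ ((hin v).1 hv).1, ext0_slice]
    congr 1
    funext j
    by_cases hj : ∃ i, l i = j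
    · obtain ⟨i, rfl⟩ := hj
      simp only [BoxConf.resc, BoxConf.extend_a_emb, BoxConf.extend_r_emb, extend_emb]
    · simp only [BoxConf.resc, BoxConf.extend_a_not _ _ _ hj, BoxConf.extend_r_not _ _ _ hj,
        extend_not _ _ _ hj, sub_zero, div_one]
  · refine muFun_eq (fun v hv => ?_) (fun _ => rfl)
    rw [ext0_slice, ext0_off]
    intro hall
    refine h v ((hin v).2 ⟨hv, fun j hj => ?_⟩)
    have := hall j
    rwa [extend_not _ _ _ hj] at this

/-- evaluation at the last loop coordinate -/
def ev {n : ℕ} (s : I) (x : Ω^ (Fin (n + 1)) Z z₀) : Ω^ (Fin n) Z z₀ :=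
  slice Fin.castSuccEmb (fun _ => s) x

lemma extend_castSucc {n : ℕ} {A : Type*} (t : Fin n → A) (s : A) :
    Function.extend (Fin.castSuccEmb (n := n)) t (fun _ => s) =
      (Fin.snoc (α := fun _ => A) t s) := by
  funext j
  refine Fin.lastCases ?_ (fun i => ?_) j
  · rw [Fin.snoc_last, extend_not]
    rintro ⟨i, hi⟩
    exact (Fin.castSucc_lt_last i).ne hi
  · rw [Fin.snoc_castSucc]
    exact extend_emb Fin.castSuccEmb t _ i

lemma ev_apply {n : ℕ} (s : I) (x : Ω^ (Fin (n + 1)) Z z₀) (t : Fin n → I) :
    ev s x t = x (Fin.snoc (α := fun _ => I) t s) := by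
  show x (Function.extend _ t _) = _
  rw [extend_castSucc]

lemma continuous_ev {P : Type*} [TopologicalSpace P] {n : ℕ} {s : P → I}
    {x : P → Ω^ (Fin (n + 1)) Z z₀} (hs : Continuous s) (hx : Continuous x) :
    Continuous fun p => ev (s p) (x p) :=
  continuous_slice _ (continuous_pi fun _ => hs) hx

@[simp] lemma ev_const {n : ℕ} (s : I) : ev s (GenLoop.const : Ω^ (Fin (n + 1)) Z z₀) =
    GenLoop.const := rfl

@[simp] lemma ev_zero {n : ℕ} (x : Ω^ (Fin (n + 1)) Z z₀) : ev 0 x = GenLoop.const :=
  slice_eq_const _ _ _ (j := Fin.last n)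
    (by rintro ⟨i, hi⟩; exact (Fin.castSucc_lt_last i).ne hi) (Or.inl rfl)

@[simp] lemma ev_one {n : ℕ} (x : Ω^ (Fin (n + 1)) Z z₀) : ev 1 x = GenLoop.const :=
  slice_eq_const _ _ _ (j := Fin.last n)
    (by rintro ⟨i, hi⟩; exact (Fin.castSucc_lt_last i).ne hi) (Or.inr rfl)


/-! ### Point configurations -/

/-- injective families of points of `ℝ^J` -/
def InjConf (F J : Type*) : Type _ := {p : F → J → ℝ // Function.Injective p}

instance (F J : Type*) : TopologicalSpace (InjConf F J) := by unfold InjConf; infer_instance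

namespace InjConf

/-- relabelling -/
def relabel {F' : Type*} (p : InjConf F J) (e : F' ≃ F) : InjConf F' J :=
  ⟨fun v => p.1 (e v), p.2.comp e.injective⟩

/-- push forward along an injective map -/
def map (f : (J → ℝ) → (J' → ℝ)) (hf : Function.Injective f) (p : InjConf F J) : InjConf F J' :=
  ⟨fun v => f (p.1 v), hf.comp p.2⟩

lemma continuous_map {P : Type*} [TopologicalSpace P] {p : P → InjConf F J} (hp : Continuous p)
    {f : (J → ℝ) → (J' → ℝ)} (hf : Function.Injective f) (hfc : Continuous f) :
    Continuous fun q => (p q).map f hf := by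
  refine Continuous.subtype_mk (f := fun q => fun v => f ((p q).1 v)) ?_ _
  exact continuous_pi fun v => hfc.comp ((continuous_apply v).comp (continuous_subtype_val.comp hp))

variable [Fintype F] [Fintype J]

/-- size of a point configuration -/
def R (p : F → J → ℝ) : ℝ := 1 + ∑ v, ∑ j, |p v j|

open Classical in
/-- separation of a point configuration -/
def δ (p : F → J → ℝ) : ℝ := ∏ v, ∏ w, if v = w then 1 else min 1 ‖p v - p w‖

lemma one_le_R (p : F → J → ℝ) : 1 ≤ R p := by
  unfold R
  have : 0 ≤ ∑ v, ∑ j, |p v j| :=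
    Finset.sum_nonneg fun v _ => Finset.sum_nonneg fun j _ => abs_nonneg _
  linarith

lemma abs_le_R (p : F → J → ℝ) (v : F) (j : J) : |p v j| ≤ R p := by
  unfold R
  have h1 : |p v j| ≤ ∑ j, |p v j| :=
    Finset.single_le_sum (f := fun j => |p v j|) (fun j _ => abs_nonneg _) (Finset.mem_univ j)
  have h2 : ∑ j, |p v j| ≤ ∑ v, ∑ j, |p v j| :=
    Finset.single_le_sum (f := fun v => ∑ j, |p v j|)
      (fun v _ => Finset.sum_nonneg fun j _ => abs_nonneg _) (Finset.mem_univ v)
  linarith

lemma δ_pos {p : F → J → ℝ} (hp : Function.Injective p) : 0 < δ p := by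
  unfold δ
  refine Finset.prod_pos fun v _ => Finset.prod_pos fun w _ => ?_
  split_ifs with h
  · norm_num
  · refine lt_min one_pos (norm_pos_iff.2 (sub_ne_zero.2 fun h' => h (hp h')))

lemma δ_factor_nonneg (p : F → J → ℝ) (v w : F) [Decidable (v = w)] :
    0 ≤ (if v = w then (1 : ℝ) else min 1 ‖p v - p w‖) := by
  split_ifs
  · norm_num
  · exact le_min zero_le_one (norm_nonneg _)

lemma δ_factor_le_one (p : F → J → ℝ) (v w : F) [Decidable (v = w)] :
    (if v = w then (1 : ℝ) else min 1 ‖p v - p w‖) ≤ 1 := by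
  split_ifs
  · exact le_rfl
  · exact min_le_left _ _

lemma prod_le_single {ι : Type*} [Fintype ι] (f : ι → ℝ) (h0 : ∀ i, 0 ≤ f i)
    (h1 : ∀ i, f i ≤ 1) (i : ι) : ∏ j, f j ≤ f i := by
  classical
  rw [← Finset.mul_prod_erase Finset.univ f (Finset.mem_univ i)]
  have : ∏ x ∈ Finset.univ.erase i, f x ≤ 1 := Finset.prod_le_one (fun j _ => h0 j) fun j _ => h1 j
  nlinarith [h0 i]


lemma δ_le_one (p : F → J → ℝ) : δ p ≤ 1 := by
  classical
  unfold δ
  exact Finset.prod_le_one (fun v _ => Finset.prod_nonneg fun w _ => δ_factor_nonneg p v w)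
    fun v _ => Finset.prod_le_one (fun w _ => δ_factor_nonneg p v w)
      fun w _ => δ_factor_le_one p v w

lemma δ_le (p : F → J → ℝ) {v w : F} (h : v ≠ w) : δ p ≤ ‖p v - p w‖ := by
  classical
  have h1 : δ p ≤ ∏ w, if v = w then (1 : ℝ) else min 1 ‖p v - p w‖ := by
    unfold δ
    convert prod_le_single (fun v => ∏ w, if v = w then (1 : ℝ) else min 1 ‖p v - p w‖)
      (fun v => Finset.prod_nonneg fun w _ => δ_factor_nonneg p v w)
      (fun v => Finset.prod_le_one (fun w _ => δ_factor_nonneg p v w)
        fun w _ => δ_factor_le_one p v w) v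
  have h2 := prod_le_single (fun w => if v = w then (1 : ℝ) else min 1 ‖p v - p w‖)
    (fun w => δ_factor_nonneg p v w) (fun w => δ_factor_le_one p v w) w
  simp only [if_neg h] at h2
  exact h1.trans (h2.trans (min_le_right _ _))

lemma continuous_R : Continuous (R : (F → J → ℝ) → ℝ) := by
  unfold R
  fun_prop

lemma continuous_δ : Continuous (δ : (F → J → ℝ) → ℝ) := by
  unfold δ
  refine continuous_finsetProd _ fun v _ => continuous_finsetProd _ fun w _ => ?_
  split_ifs
  · exact continuous_const
  · exact continuous_const.min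
      (((continuous_apply v).sub (continuous_apply w)).norm)

omit [Fintype F] in
lemma exists_coord {x : J → ℝ} (hx : x ≠ 0) : ∃ j, ‖x‖ ≤ |x j| := by
  by_contra h
  push Not at h
  have h1 : 0 < ‖x‖ := norm_pos_iff.2 hx
  have h2 : ‖x‖ < ‖x‖ := (pi_norm_lt_iff (x := x) h1).2 (fun j => by
    simpa [Real.norm_eq_abs] using h j)
  exact lt_irrefl _ h2

/-- the cube configuration of a point configuration: centres `1/2 + p/(4R)`, half width `δ/(8R)` -/
def cubes (p : InjConf F J) : BoxConf F J :=
  BoxConf.mk' (fun v j => 1 / 2 + p.1 v j / (4 * R p.1) - δ p.1 / (8 * R p.1))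
    (fun _ _ => δ p.1 / (4 * R p.1))
    (fun v j => by
      have h1 := one_le_R p.1
      have h2 := abs_le_R p.1 v j
      have h3 := δ_pos p.2
      have h4 := δ_le_one p.1
      have hR : 0 < R p.1 := by linarith
      have h5 : |p.1 v j / (4 * R p.1)| ≤ 1 / 4 := by
        rw [abs_div, abs_of_pos (by positivity : (0 : ℝ) < 4 * R p.1), div_le_iff₀ (by positivity)]
        linarith
      have h6 : δ p.1 / (8 * R p.1) ≤ 1 / 8 := by
        rw [div_le_iff₀ (by positivity)]
        linarith
      have h7 : δ p.1 / (4 * R p.1) = 2 * (δ p.1 / (8 * R p.1)) := by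
        field_simp
        ring
      have h8 := abs_le.1 h5
      refine ⟨by linarith, by positivity, ?_⟩
      rw [h7]
      linarith)
    (fun v w h => by
      have h1 := one_le_R p.1
      have hR : 0 < R p.1 := by linarith
      have hne : p.1 v - p.1 w ≠ 0 := sub_ne_zero.2 fun h' => h (p.2 h')
      obtain ⟨j, hj⟩ := exists_coord hne
      refine ⟨j, ?_⟩
      have h2 : δ p.1 ≤ |p.1 v j - p.1 w j| := (δ_le p.1 h).trans hj
      have h7 : δ p.1 / (4 * R p.1) = 2 * (δ p.1 / (8 * R p.1)) := by
        field_simp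
        ring
      rcases le_abs.1 h2 with h3 | h3
      · right
        have h4 : δ p.1 / (4 * R p.1) ≤ p.1 v j / (4 * R p.1) - p.1 w j / (4 * R p.1) := by
          rw [← sub_div]
          gcongr
        linarith
      · left
        have h4 : δ p.1 / (4 * R p.1) ≤ p.1 w j / (4 * R p.1) - p.1 v j / (4 * R p.1) := by
          rw [← sub_div]
          gcongr
          linarith
        linarith)

lemma cubes_a (p : InjConf F J) (v : F) (j : J) :
    (cubes p).a v j = 1 / 2 + p.1 v j / (4 * R p.1) - δ p.1 / (8 * R p.1) := rfl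
lemma cubes_r (p : InjConf F J) (v : F) (j : J) : (cubes p).r v j = δ p.1 / (4 * R p.1) := rfl

lemma continuous_cubes {P : Type*} [TopologicalSpace P] {p : P → InjConf F J}
    (hp : Continuous p) : Continuous fun q => cubes (p q) := by
  have hp' : Continuous fun q => (p q).1 := continuous_subtype_val.comp hp
  have hR : Continuous fun q => R (p q).1 := continuous_R.comp hp'
  have hδ : Continuous fun q => δ (p q).1 := continuous_δ.comp hp'
  have hR0 : ∀ q, R (p q).1 ≠ 0 := fun q => by
    have := one_le_R (p q).1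
    linarith
  refine BoxConf.continuous_mk (fun v j => ?_) (fun v j => ?_)
  · simp only [cubes_a]
    have h1 : Continuous fun q => (p q).1 v j :=
      (continuous_apply j).comp ((continuous_apply v).comp hp')
    refine Continuous.sub (continuous_const.add (h1.div (continuous_const.mul hR) fun q => ?_))
      (hδ.div (continuous_const.mul hR) fun q => ?_)
    · exact mul_ne_zero (by norm_num) (hR0 q)
    · exact mul_ne_zero (by norm_num) (hR0 q)
  · simp only [cubes_r]
    exact hδ.div (continuous_const.mul hR) fun q => mul_ne_zero (by norm_num) (hR0 q)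

lemma cubes_relabel {F' : Type*} [Fintype F'] (p : InjConf F J) (e : F' ≃ F) :
    cubes (p.relabel e) = (cubes p).relabel e := by
  classical
  have hR : R (p.relabel e).1 = R p.1 := by
    unfold R relabel
    simp only
    rw [Equiv.sum_comp e (fun v => ∑ j, |p.1 v j|)]
  have hδ : δ (p.relabel e).1 = δ p.1 := by
    unfold δ relabel
    simp only
    rw [← Equiv.prod_comp e (fun v => ∏ w, if v = w then (1 : ℝ) else min 1 ‖p.1 v - p.1 w‖)]
    refine Finset.prod_congr rfl fun v _ => ?_
    rw [← Equiv.prod_comp e (fun w => if e v = w then (1 : ℝ) else min 1 ‖p.1 (e v) - p.1 w‖)]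
    refine Finset.prod_congr rfl fun w _ => ?_
    simp only [EmbeddingLike.apply_eq_iff_eq]
  ext v j
  · rw [cubes_a, hR, hδ]
    rfl
  · rw [cubes_r, hR, hδ]
    rfl

end InjConf

/-! ### The operations `theta` and `psi` -/

/-- nonzero vectors -/
def NZ (J : Type*) : Type _ := {e : J → ℝ // e ≠ 0}

instance (J : Type*) : TopologicalSpace (NZ J) := by unfold NZ; infer_instance

instance (J : Type*) : Neg (NZ J) := ⟨fun e => ⟨-e.1, neg_ne_zero.2 e.2⟩⟩

@[simp] lemma NZ.coe_neg (e : NZ J) : (-e).1 = -e.1 := rfl

@[simp] lemma NZ.neg_neg' (e : NZ J) : -(-e) = e := Subtype.ext (by simp)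


/-- the two point configuration `±e` (`true ↦ e`, `false ↦ -e`) -/
def pm (e : NZ J) : InjConf Bool J :=
  ⟨fun b => cond b e.1 (-e.1), by
    have h : e.1 ≠ -e.1 := fun h => e.2 (self_eq_neg.1 h)
    intro b b' hb
    cases b <;> cases b' <;> simp_all [eq_comm]⟩

lemma continuous_pm : Continuous (pm : NZ J → InjConf Bool J) := by
  refine Continuous.subtype_mk (f := fun e : NZ J => fun b => cond b e.1 (-e.1)) ?_ _
  refine continuous_pi fun b => ?_
  cases b
  · exact continuous_subtype_val.neg
  · exact continuous_subtype_val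

lemma pm_neg (e : NZ J) : pm (-e) = (pm e).relabel Equiv.boolNot := by
  apply Subtype.ext
  funext b
  cases b <;> simp [pm, InjConf.relabel]

variable [Fintype J']

/-- the two box configuration of `e` -/
def thetaConf (e : NZ J') : BoxConf Bool J' := InjConf.cubes (pm e)

lemma continuous_thetaConf : Continuous (thetaConf : NZ J' → BoxConf Bool J') :=
  InjConf.continuous_cubes continuous_pm

lemma thetaConf_neg (e : NZ J') : thetaConf (-e) = (thetaConf e).relabel Equiv.boolNot := by
  unfold thetaConf
  rw [pm_neg, InjConf.cubes_relabel]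

variable [Finite J]

/-- `θ(e; x, y)`: `x` in the cube at `e`, `y` in the cube at `-e`; the coordinates outside of `J'`
are not touched -/
def theta (k : J' ↪ J) (e : NZ J') (x y : Ω^ J Z z₀) : Ω^ J Z z₀ :=
  mu ((thetaConf e).extend k) (fun b => cond b x y)

/-- `ψ(e; x) = θ(e; x, x)` -/
def psi (k : J' ↪ J) (e : NZ J') (x : Ω^ J Z z₀) : Ω^ J Z z₀ :=
  mu ((thetaConf e).extend k) (fun _ => x)

lemma psi_eq_theta (k : J' ↪ J) (e : NZ J') (x : Ω^ J Z z₀) : psi k e x = theta k e x x := by
  unfold psi theta
  congr 1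
  funext b
  cases b <;> rfl

lemma theta_neg (k : J' ↪ J) (e : NZ J') (x y : Ω^ J Z z₀) :
    theta k (-e) y x = theta k e x y := by
  unfold theta
  rw [thetaConf_neg, BoxConf.extend_relabel,
    ← mu_relabel ((thetaConf e).extend k) Equiv.boolNot (fun b => cond b x y)]
  congr 1
  funext b
  cases b <;> rfl


@[simp] lemma psi_const (k : J' ↪ J) (e : NZ J') :
    psi k e (GenLoop.const : Ω^ J Z z₀) = GenLoop.const := mu_const _

@[simp] lemma theta_const (k : J' ↪ J) (e : NZ J') :
    theta k e (GenLoop.const : Ω^ J Z z₀) GenLoop.const = GenLoop.const := by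
  rw [← psi_eq_theta, psi_const]

lemma continuous_theta {P : Type*} [TopologicalSpace P] (k : J' ↪ J) {e : P → NZ J'}
    {x y : P → Ω^ J Z z₀} (he : Continuous e) (hx : Continuous x) (hy : Continuous y) :
    Continuous fun p => theta k (e p) (x p) (y p) := by
  refine continuous_mu (BoxConf.continuous_extend (continuous_thetaConf.comp he) k) ?_
  refine continuous_pi fun b => ?_
  cases b
  · exact hy
  · exact hx

lemma continuous_psi {P : Type*} [TopologicalSpace P] (k : J' ↪ J) {e : P → NZ J'}
    {x : P → Ω^ J Z z₀} (he : Continuous e) (hx : Continuous x) :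
    Continuous fun p => psi k (e p) (x p) :=
  continuous_mu (BoxConf.continuous_extend (continuous_thetaConf.comp he) k)
    (continuous_pi fun _ => hx)

/-- spectator law for `theta` -/
lemma slice_theta [Finite J₁] (k : J' ↪ J₁) (l : J₁ ↪ J) (s : J → I) (e : NZ J')
    (x y : Ω^ J Z z₀) :
    slice l s (theta (k.trans l) e x y) = theta k e (slice l s x) (slice l s y) := by
  unfold theta
  rw [slice_mu]
  congr 1
  funext b
  cases b <;> rfl


lemma ev_theta {n : ℕ} (k : J' ↪ Fin n) (s : I) (e : NZ J') (x y : Ω^ (Fin (n + 1)) Z z₀) :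
    ev s (theta (k.trans Fin.castSuccEmb) e x y) = theta k e (ev s x) (ev s y) :=
  slice_theta k Fin.castSuccEmb _ e x y


/-- two fold iterates as one operation -/
lemma psi_psi (k : J' ↪ J) (e₁ e₂ : NZ J') (x : Ω^ J Z z₀) :
    psi k e₁ (psi k e₂ x) =
      mu (((thetaConf e₁).comp (fun _ => thetaConf e₂)).extend k) (fun _ => x) := by
  rw [BoxConf.extend_comp]
  exact (mu_comp ((thetaConf e₁).extend k) (fun _ => (thetaConf e₂).extend k)
    (fun _ _ => x)).symm


end Crest.Agent.R204.Cubes735
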