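import Crest.Agent.R204.FreuD_297

-- ▼ part R204/FreuR_297
section

/-!
Row 204: the suspension step of Freudenthal RELATIVE to the boundary (`Dbl.step_rel`,
`step_loop_rel`): if `f : (I^ι × I) → Y` is of suspension form over `∂ I^ι`, it is homotopic rel
boundary to a map of suspension form.
-/

open Set Metric Module
open scoped unitInterval Topology NNReal ENNReal

namespace Crest.Agent.R204.Freu297

variable {F : Type*} [NormedAddCommGroup F] [NormedSpace ℝ F] {Y : Type*} [TopologicalSpace Y]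

theorem isClosed_cubeBoundary (ι : Type*) [Finite ι] : IsClosed (Cube.boundary ι) := by
  have : Cube.boundary ι = ⋃ i : ι, ({y | y i = 0} ∪ {y | y i = 1}) := by
    ext y; simp [Cube.boundary]
  rw [this]
  refine isClosed_iUnion_of_finite fun i => ?_
  exact (isClosed_eq (continuous_apply i) continuous_const).union
    (isClosed_eq (continuous_apply i) continuous_const)

theorem isClosed_Bd (ι : Type*) [Finite ι] : IsClosed (Bd ι) := by
  have h1 : Bd ι = (Prod.fst ⁻¹' Cube.boundary ι) ∪ ({z | z.2 = 0} ∪ {z | z.2 = 1}) := by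
    ext z; simp [Bd]
  rw [h1]
  exact ((isClosed_cubeBoundary ι).preimage continuous_fst).union
    ((isClosed_eq continuous_snd continuous_const).union
      (isClosed_eq continuous_snd continuous_const))

theorem isClosed_exists_of_compact {X T : Type*} [TopologicalSpace X] [TopologicalSpace T]
    [CompactSpace T] {S : Set (X × T)} (hS : IsClosed S) : IsClosed {x : X | ∃ t, (x, t) ∈ S} := by
  have : {x : X | ∃ t, (x, t) ∈ S} = Prod.fst '' S := by
    ext x; constructor
    · rintro ⟨t, ht⟩; exact ⟨_, ht, rfl⟩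
    · rintro ⟨⟨a, t⟩, ht, rfl⟩; exact ⟨t, ht⟩
  rw [this]
  exact isClosedMap_fst_of_compactSpace S hS

namespace Dbl

variable (D : Dbl F Y)

theorem E_le_half {x0 : F} (y : sphere (0 : F) 1) (t : I) (ht : (t : ℝ) ≤ 1 / 2) :
    D.E x0 (y, t) = D.lo (x0 + (2 * (t : ℝ)) • ((y : F) - x0)) := if_pos ht

theorem E_ge_half {x0 : F} (y : sphere (0 : F) 1) (t : I) (ht : 1 / 2 ≤ (t : ℝ)) :
    D.E x0 (y, t) = D.up (x0 + (2 - 2 * (t : ℝ)) • ((y : F) - x0)) := by
  have hy' : ‖(y : F)‖ = 1 := by simp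
  rcases ht.eq_or_lt with h | h
  · rw [E_le_half D y t h.symm.le, ← h]
    norm_num
    exact (D.up_eq_lo hy').symm
  · exact if_neg (not_le.2 h)

theorem hc_E_le {x0 : F} (y : sphere (0 : F) 1) (t : I) (ht : (t : ℝ) ≤ 1 / 2) :
    D.hc (D.E x0 (y, t)) ≤ 0 := by
  rw [E_le_half D y t ht]; exact D.hc_lo _

theorem hc_E_ge {x0 : F} (y : sphere (0 : F) 1) (t : I) (ht : 1 / 2 ≤ (t : ℝ)) :
    0 ≤ D.hc (D.E x0 (y, t)) := by
  rw [E_ge_half D y t ht]; exact D.hc_up _

theorem norm_segment_le {x0 y : F} (hx0 : ‖x0‖ = 1) (hy : ‖y‖ = 1) {s : ℝ} (h0 : 0 ≤ s)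
    (h1 : s ≤ 1) : ‖x0 + s • (y - x0)‖ ≤ 1 := by
  have e : x0 + s • (y - x0) = (1 - s) • x0 + s • y := by
    rw [smul_sub, sub_smul, one_smul]; abel
  rw [e]
  refine (norm_add_le _ _).trans ?_
  rw [norm_smul, norm_smul, hx0, hy, Real.norm_eq_abs, Real.norm_eq_abs, abs_of_nonneg h0,
    abs_of_nonneg (by linarith)]
  linarith

theorem yc_E_le {x0 : F} (hx0 : ‖x0‖ = 1) (y : sphere (0 : F) 1) (t : I)
    (ht : (t : ℝ) ≤ 1 / 2) :
    D.yc (D.E x0 (y, t)) = x0 + (2 * (t : ℝ)) • ((y : F) - x0) := by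
  rw [E_le_half D y t ht]
  exact D.yc_lo _ (norm_segment_le hx0 (by simp) (by have := t.2.1; positivity) (by linarith))

theorem yc_E_ge {x0 : F} (hx0 : ‖x0‖ = 1) (y : sphere (0 : F) 1) (t : I)
    (ht : 1 / 2 ≤ (t : ℝ)) :
    D.yc (D.E x0 (y, t)) = x0 + (2 - 2 * (t : ℝ)) • ((y : F) - x0) := by
  rw [E_ge_half D y t ht]
  exact D.yc_up _ (norm_segment_le hx0 (by simp) (by have := t.2.2; linarith) (by linarith))

end Dbl

/-- Relative form of `separate`. -/
theorem separate_rel {ι : Type*} [Fintype ι] [FiniteDimensional ℝ F] (D : Dbl F Y)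
    {x0 : F} (hx0 : ‖x0‖ = 1) (hcard : Fintype.card ι + 2 < 2 * finrank ℝ F)
    (f : C((ι → I) × I, Y))
    (hbd : ∀ x ∈ Cube.boundary ι, ∃ y : sphere (0 : F) 1, ∀ t, f (x, t) = D.E x0 (y, t))
    (hf0 : ∀ x, f (x, 0) = D.up x0) (hf1 : ∀ x, f (x, 1) = D.up x0) :
    ∃ (τ : C(ι → I, I)) (g : C((ι → I) × I, Y)), (∀ x ∈ Cube.boundary ι, (τ x : ℝ) = 1 / 2) ∧
      (∀ z ∈ Bd ι, g z = f z) ∧
      f.HomotopicRel g (Bd ι) ∧ ∀ (x : ι → I) (t : I),
        (t ≤ τ x → D.hc (g (x, t)) ≤ 0) ∧ (τ x ≤ t → 0 ≤ D.hc (g (x, t))) := by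
  classical
  let u : (ι → I) × I → F := fun z => D.yc (f z)
  have hu : Continuous u := by fun_prop
  have hu1 : ∀ z, ‖u z‖ ≤ 1 := fun z => D.yc_le _
  let h : (ι → I) × I → ℝ := fun z => D.hc (f z)
  have hh : Continuous h := by fun_prop
  have hh0 : ∀ z, h z = 0 ↔ ‖u z‖ = 1 := fun z => D.hc_eq _
  -- boundary facts
  have hlo : ∀ x ∈ Cube.boundary ι, ∀ t : I, (t : ℝ) ≤ 1 / 2 → h (x, t) ≤ 0 := by
    intro x hx t ht
    obtain ⟨y, hy⟩ := hbd x hx
    show D.hc (f (x, t)) ≤ 0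
    rw [hy t]; exact D.hc_E_le y t ht
  have hhi : ∀ x ∈ Cube.boundary ι, ∀ t : I, 1 / 2 ≤ (t : ℝ) → 0 ≤ h (x, t) := by
    intro x hx t ht
    obtain ⟨y, hy⟩ := hbd x hx
    show 0 ≤ D.hc (f (x, t))
    rw [hy t]; exact D.hc_E_ge y t ht
  have hu_end : ∀ z : (ι → I) × I, z.2 = 0 ∨ z.2 = 1 → ‖u z‖ = 1 := by
    rintro ⟨x, t⟩ (hz | hz)
    · simp only at hz; subst hz
      show ‖D.yc (f (x, 0))‖ = 1
      rw [hf0, D.yc_up_base hx0, hx0]
    · simp only at hz; subst hz
      show ‖D.yc (f (x, 1))‖ = 1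
      rw [hf1, D.yc_up_base hx0, hx0]
  -- the inversion defect
  let N : (ι → I) × (I × I) → ℝ := fun p =>
    max (‖u (p.1, p.2.1)‖ + max 0 (-h (p.1, p.2.1))) (‖u (p.1, p.2.2)‖ + max 0 (h (p.1, p.2.2)))
  have hN : Continuous N := by fun_prop
  have hN0 : ∀ p, 0 ≤ N p := fun p =>
    le_max_of_le_left (add_nonneg (norm_nonneg _) (le_max_left _ _))
  obtain ⟨ε₁, hε₁, hNbd⟩ := exists_pos_le_of_compact
    (K := {p : (ι → I) × (I × I) | p.1 ∈ Cube.boundary ι ∧ p.2.1 ≤ p.2.2})
    (IsClosed.isCompact (((isClosed_cubeBoundary ι).preimage continuous_fst).inter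
      (isClosed_le (by fun_prop) (by fun_prop)))) hN (by
      rintro ⟨x, t₁, t₂⟩ ⟨hx, ht⟩
      simp only at hx ht
      rcases (hN0 (x, t₁, t₂)).eq_or_lt with h0 | h0
      · exfalso
        have e1 : ‖u (x, t₁)‖ + max 0 (-h (x, t₁)) ≤ N (x, t₁, t₂) := le_max_left _ _
        have e2 : ‖u (x, t₂)‖ + max 0 (h (x, t₂)) ≤ N (x, t₁, t₂) := le_max_right _ _
        rw [← h0] at e1 e2
        have a1 := norm_nonneg (u (x, t₁))
        have a2 := norm_nonneg (u (x, t₂))
        have a3 : 0 ≤ max 0 (-h (x, t₁)) := le_max_left _ _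
        have a4 : 0 ≤ max 0 (h (x, t₂)) := le_max_left _ _
        have a5 : -h (x, t₁) ≤ max 0 (-h (x, t₁)) := le_max_right _ _
        have a6 : h (x, t₂) ≤ max 0 (h (x, t₂)) := le_max_right _ _
        have b1 : ‖u (x, t₁)‖ = 0 := by linarith
        have b2 : ‖u (x, t₂)‖ = 0 := by linarith
        have b3 : 0 ≤ h (x, t₁) := by linarith
        have b4 : h (x, t₂) ≤ 0 := by linarith
        have c1 : (1 : ℝ) / 2 < t₁ := by
          by_contra hc
          have : h (x, t₁) = 0 := le_antisymm (hlo x hx t₁ (not_lt.1 hc)) b3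
          rw [hh0] at this; linarith
        have c2 : (t₂ : ℝ) < 1 / 2 := by
          by_contra hc
          have : h (x, t₂) = 0 := le_antisymm b4 (hhi x hx t₂ (not_lt.1 hc))
          rw [hh0] at this; linarith
        have : (t₁ : ℝ) ≤ t₂ := ht
        linarith
      · exact h0)
  let ε : ℝ := min (1 / 4) (ε₁ / 4)
  have hε : 0 < ε := by positivity
  have hε4 : ε ≤ 1 / 4 := min_le_left _ _
  have hεε : ε ≤ ε₁ / 4 := min_le_right _ _
  -- approximation
  obtain ⟨g₀, ⟨K, hK⟩, hg₀⟩ := exists_lipschitz_approx u hu (ε := ε / 4) (by positivity)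
  let pr : (ι → ℝ) × ℝ → (ι → I) × I :=
    fun w => (fun i => projIcc 0 1 zero_le_one (w.1 i), projIcc 0 1 zero_le_one w.2)
  have hpr : LipschitzWith 1 pr := by
    have e1 : LipschitzWith 1 (fun w : (ι → ℝ) × ℝ =>
        (fun i => projIcc (0 : ℝ) 1 zero_le_one (w.1 i) : ι → I)) := by
      refine LipschitzWith.of_dist_le_mul fun a b => ?_
      rw [dist_pi_le_iff (by positivity)]
      intro i
      refine ((LipschitzWith.projIcc zero_le_one).dist_le_mul (a.1 i) (b.1 i)).trans ?_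
      gcongr
      exact (dist_le_pi_dist a.1 b.1 i).trans (le_max_left _ _)
    have e2 : LipschitzWith 1 (fun w : (ι → ℝ) × ℝ => projIcc (0 : ℝ) 1 zero_le_one w.2) := by
      have := (LipschitzWith.projIcc (zero_le_one (α := ℝ))).comp
        (LipschitzWith.prod_snd (α := ι → ℝ) (β := ℝ))
      rw [one_mul] at this
      exact this
    have := e1.prodMk e2
    rw [max_self] at this
    exact this
  have hpr_coe : ∀ z : (ι → I) × I, pr (fun i => (z.1 i : ℝ), (z.2 : ℝ)) = z := by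
    intro z
    simp only [pr, projIcc_val]
  obtain ⟨A, B, hA, hB, hAB⟩ := exists_generic hcard (fun w => g₀ (pr w)) (hK.comp hpr)
    (ε := ε / 4) (by positivity)
  have hg₀c : Continuous g₀ := hK.continuous
  let w : (ι → I) × I → F := fun z => g₀ z - u z + A + (z.2 : ℝ) • B
  have hw : Continuous w := by fun_prop
  have hwn : ∀ z, ‖w z‖ < ε := by
    intro z
    have h1 : ‖(z.2 : ℝ) • B‖ ≤ ‖B‖ := by
      rw [norm_smul, Real.norm_eq_abs, abs_of_nonneg z.2.2.1]
      exact mul_le_of_le_one_left (norm_nonneg _) z.2.2.2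
    calc ‖w z‖ ≤ ‖g₀ z - u z‖ + ‖A‖ + ‖(z.2 : ℝ) • B‖ := norm_add₃_le
      _ < ε := by
        have h3 : ‖g₀ z - u z‖ < ε / 4 := hg₀ z
        linarith
  -- cut off near the boundary
  let Bad0 : Set (ι → I) := {x | ∃ p : I × I, (x, p) ∈
    {q : (ι → I) × (I × I) | q.2.1 ≤ q.2.2 ∧ N q ≤ ε₁ / 2}}
  have hBad0 : IsClosed Bad0 := isClosed_exists_of_compact
    ((isClosed_le (by fun_prop) (by fun_prop)).inter (isClosed_le hN continuous_const))
  have hdisj0 : Disjoint (Cube.boundary ι) Bad0 := by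
    rw [Set.disjoint_left]
    rintro x hx ⟨⟨t₁, t₂⟩, ht, hNle⟩
    have h2 : N (x, t₁, t₂) ≤ ε₁ / 2 := hNle
    have := hNbd (x, t₁, t₂) ⟨hx, ht⟩
    linarith
  obtain ⟨χ, hχ0, hχ1, hχI⟩ :=
    exists_continuous_zero_one_of_isClosed (isClosed_cubeBoundary ι) hBad0 hdisj0
  have hχ0' : ∀ x ∈ Cube.boundary ι, χ x = 0 := fun x hx => by simpa using hχ0 hx
  have hχ1' : ∀ x ∈ Bad0, χ x = 1 := fun x hx => by simpa using hχ1 hx
  let ρ : (ι → I) × I → ℝ := fun z => min 1 (2 * (1 - ‖u z‖)) * χ z.1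
  have hρ : Continuous ρ := by fun_prop
  have hρa : ∀ z, 0 ≤ min 1 (2 * (1 - ‖u z‖)) := fun z =>
    le_min zero_le_one (by have := hu1 z; linarith)
  have hρ0 : ∀ z, 0 ≤ ρ z := fun z => mul_nonneg (hρa z) (hχI _).1
  have hρ1 : ∀ z, ρ z ≤ 1 := fun z => mul_le_one₀ (min_le_left _ _) (hχI _).1 (hχI _).2
  have hρz : ∀ z, ‖u z‖ = 1 → ρ z = 0 := by
    intro z hz; simp [ρ, hz]
  have hρbd : ∀ z ∈ Bd ι, ρ z = 0 := by
    rintro z (hz | hz)
    · simp [ρ, hχ0' _ hz]
    · exact hρz z (hu_end z hz)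
  let us : ℝ → (ι → I) × I → F := fun s z => u z + (s * ρ z) • w z
  have husc : Continuous (fun p : ℝ × ((ι → I) × I) => us p.1 p.2) := by fun_prop
  have hus_of : ∀ s z, ρ z = 0 → us s z = u z := by
    intro s z hz; simp [us, hz]
  have hus0 : ∀ z, us 0 z = u z := by intro z; simp [us]
  have hzn : ∀ z, us 1 z = 0 → ‖u z‖ < ε := by
    intro z hz
    have h1 : ‖u z‖ = ‖(1 * ρ z) • w z‖ := by
      have : u z = -((1 * ρ z) • w z) := eq_neg_of_add_eq_zero_left hz
      rw [this, norm_neg]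
    rw [h1, norm_smul, one_mul, Real.norm_eq_abs, abs_of_nonneg (hρ0 z)]
    exact lt_of_le_of_lt (mul_le_of_le_one_left (norm_nonneg _) (hρ1 z)) (hwn z)
  have hzero : ∀ z, χ z.1 = 1 → us 1 z = 0 → g₀ z + A + (z.2 : ℝ) • B = 0 := by
    intro z hχz hz
    have h2 := hzn z hz
    have h3 : ρ z = 1 := by
      simp only [ρ, hχz, mul_one]
      rw [min_eq_left]; linarith
    have h4 : u z + w z = 0 := by simpa [us, h3] using hz
    have h5 : u z + w z = g₀ z + A + (z.2 : ℝ) • B := by simp only [w]; abel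
    rw [← h5, h4]
  have hus1c : Continuous (us 1) := husc.comp (by fun_prop : Continuous (fun z => ((1 : ℝ), z)))
  -- no inversions
  have hnoinv : ∀ (x : ι → I) (t₁ t₂ : I), us 1 (x, t₁) = 0 → 0 ≤ h (x, t₁) →
      us 1 (x, t₂) = 0 → h (x, t₂) ≤ 0 → t₂ < t₁ := by
    intro x t₁ t₂ h1 h1' h2 h2'
    by_contra hc
    rw [not_lt] at hc
    by_cases hx : x ∈ Bad0
    · have hχx := hχ1' x hx
      have e1 := hzero (x, t₁) hχx h1
      have e2 := hzero (x, t₂) hχx h2
      have := hAB (fun i => (x i : ℝ)) t₁ t₂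
        (by have h := hpr_coe (x, t₁); simp only at h; rw [h]; exact e1)
        (by have h := hpr_coe (x, t₂); simp only at h; rw [h]; exact e2)
      have e3 : t₁ = t₂ := Subtype.ext this
      subst e3
      have h3 : h (x, t₁) = 0 := le_antisymm h2' h1'
      rw [hh0] at h3
      have := hzn _ h1
      linarith
    · apply hx
      refine ⟨(t₁, t₂), hc, ?_⟩
      show N (x, t₁, t₂) ≤ ε₁ / 2
      have e1 := hzn _ h1
      have e2 := hzn _ h2
      refine max_le ?_ ?_
      · have : max 0 (-h (x, t₁)) = 0 := max_eq_left (by linarith)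
        simp only
        rw [this]; linarith
      · have : max 0 (h (x, t₂)) = 0 := max_eq_left (by linarith)
        simp only
        rw [this]; linarith
  have hne_end : ∀ z : (ι → I) × I, z.2 = 0 ∨ z.2 = 1 → us 1 z ≠ 0 := by
    intro z hz h0
    have h1 := hzn z h0
    rw [hu_end z hz] at h1
    linarith
  -- the level function τ
  let Ct : (ι → I) → Set ℝ := fun x => {c | 0 ≤ c ∧ c ≤ 1 ∧
    (∀ t : I, us 1 (x, t) = 0 → 0 ≤ h (x, t) → c < t) ∧
    (∀ t : I, us 1 (x, t) = 0 → h (x, t) ≤ 0 → (t : ℝ) < c) ∧ (x ∈ Cube.boundary ι → c = 1 / 2)}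
  have hCt : ∀ x, Convex ℝ (Ct x) := by
    intro x a ha b hb s t hs ht hst
    obtain ⟨a1, a2, a3, a4, a5⟩ := ha
    obtain ⟨b1, b2, b3, b4, b5⟩ := hb
    have ht' : t = 1 - s := by linarith
    subst ht'
    have hs1 : s ≤ 1 := by linarith
    refine ⟨?_, ?_, ?_, ?_, ?_⟩
    · simp only [smul_eq_mul]; positivity
    · simp only [smul_eq_mul]; nlinarith
    · intro r hr hr'
      have e1 := a3 r hr hr'
      have e2 := b3 r hr hr'
      simp only [smul_eq_mul]
      rcases hs.eq_or_lt with h | h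
      · rw [← h]; linarith
      · nlinarith
    · intro r hr hr'
      have e1 := a4 r hr hr'
      have e2 := b4 r hr hr'
      simp only [smul_eq_mul]
      rcases hs.eq_or_lt with h | h
      · rw [← h]; linarith
      · nlinarith
    · intro hx
      simp only [smul_eq_mul]
      rw [a5 hx, b5 hx]; ring
  have hCtloc : ∀ x₁ : ι → I, ∃ c : ℝ, ∀ᶠ x in 𝓝 x₁, c ∈ Ct x := by
    intro x₁
    -- a constant c good at x₁
    have hc : ∃ c : ℝ, c ∈ Ct x₁ := by
      by_cases hx₁ : x₁ ∈ Cube.boundary ι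
      · refine ⟨1 / 2, by norm_num, by norm_num, ?_, ?_, fun _ => rfl⟩
        · intro t ht ht'
          by_contra hc
          have h1 : h (x₁, t) = 0 := le_antisymm (hlo x₁ hx₁ t (not_lt.1 hc)) ht'
          rw [hh0] at h1
          have := hzn _ ht
          linarith
        · intro t ht ht'
          by_contra hc
          have h1 : h (x₁, t) = 0 := le_antisymm ht' (hhi x₁ hx₁ t (not_lt.1 hc))
          rw [hh0] at h1
          have := hzn _ ht
          linarith
      · have hsec : Continuous (fun t : I => (x₁, t)) := by fun_prop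
        let Up : Set I := {t | us 1 (x₁, t) = 0 ∧ 0 ≤ h (x₁, t)} ∪ {1}
        let Lo : Set I := {t | us 1 (x₁, t) = 0 ∧ h (x₁, t) ≤ 0} ∪ {0}
        have hUp : IsCompact Up := (((isClosed_eq (hus1c.comp hsec) continuous_const).inter
          (isClosed_le continuous_const (hh.comp hsec))).union isClosed_singleton).isCompact
        have hLo : IsCompact Lo := (((isClosed_eq (hus1c.comp hsec) continuous_const).inter
          (isClosed_le (hh.comp hsec) continuous_const)).union isClosed_singleton).isCompact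
        obtain ⟨r, hrU, hr⟩ := hUp.exists_isLeast ⟨1, Or.inr rfl⟩
        obtain ⟨l, hlL, hl⟩ := hLo.exists_isGreatest ⟨0, Or.inr rfl⟩
        have hlr : l < r := by
          rcases hrU with ⟨r1, r2⟩ | hr1
          · rcases hlL with ⟨l1, l2⟩ | hl0
            · exact hnoinv x₁ r l r1 r2 l1 l2
            · rw [mem_singleton_iff] at hl0
              rw [hl0]
              rcases (unitInterval.nonneg' (t := r)).eq_or_lt with h0 | h0
              · exact absurd r1 (hne_end _ (Or.inl h0.symm))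
              · exact h0
          · rw [mem_singleton_iff] at hr1
            rw [hr1]
            rcases hlL with ⟨l1, l2⟩ | hl0
            · rcases (unitInterval.le_one' (t := l)).eq_or_lt with h0 | h0
              · exact absurd l1 (hne_end _ (Or.inr h0))
              · exact h0
            · rw [mem_singleton_iff] at hl0
              rw [hl0]; exact zero_lt_one
        have hlr' : (l : ℝ) < r := hlr
        refine ⟨((l : ℝ) + r) / 2, ?_, ?_, ?_, ?_, fun h => absurd h hx₁⟩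
        · have := l.2.1; have := r.2.1; linarith
        · have := l.2.2; have := r.2.2; linarith
        · intro t ht ht'
          have : r ≤ t := hr (Or.inl ⟨ht, ht'⟩)
          have : (r : ℝ) ≤ t := this
          linarith
        · intro t ht ht'
          have : t ≤ l := hl (Or.inl ⟨ht, ht'⟩)
          have : (t : ℝ) ≤ l := this
          linarith
    obtain ⟨c, c1, c2, c3, c4, c5⟩ := hc
    refine ⟨c, ?_⟩
    have n1 : IsClosed {x : ι → I | ∃ t : I, (x, t) ∈ {z : (ι → I) × I |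
        (us 1 z = 0 ∧ 0 ≤ h z) ∧ (z.2 : ℝ) ≤ c}} := isClosed_exists_of_compact
      (((isClosed_eq hus1c continuous_const).inter (isClosed_le continuous_const hh)).inter
        (isClosed_le (continuous_subtype_val.comp continuous_snd) continuous_const))
    have n2 : IsClosed {x : ι → I | ∃ t : I, (x, t) ∈ {z : (ι → I) × I |
        (us 1 z = 0 ∧ h z ≤ 0) ∧ c ≤ (z.2 : ℝ)}} := isClosed_exists_of_compact
      (((isClosed_eq hus1c continuous_const).inter (isClosed_le hh continuous_const)).inter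
        (isClosed_le continuous_const (continuous_subtype_val.comp continuous_snd)))
    have m1 : ∀ᶠ x in 𝓝 x₁, x ∉ {x : ι → I | ∃ t : I, (x, t) ∈ {z : (ι → I) × I |
        (us 1 z = 0 ∧ 0 ≤ h z) ∧ (z.2 : ℝ) ≤ c}} :=
      n1.isOpen_compl.mem_nhds (by
        rintro ⟨t, ⟨h1, h2⟩, h3⟩
        exact absurd (c3 t h1 h2) (not_lt.2 h3))
    have m2 : ∀ᶠ x in 𝓝 x₁, x ∉ {x : ι → I | ∃ t : I, (x, t) ∈ {z : (ι → I) × I |
        (us 1 z = 0 ∧ h z ≤ 0) ∧ c ≤ (z.2 : ℝ)}} :=
      n2.isOpen_compl.mem_nhds (by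
        rintro ⟨t, ⟨h1, h2⟩, h3⟩
        exact absurd (c4 t h1 h2) (not_lt.2 h3))
    have m3 : ∀ᶠ x in 𝓝 x₁, x ∈ Cube.boundary ι → c = 1 / 2 := by
      by_cases hx₁ : x₁ ∈ Cube.boundary ι
      · exact Filter.Eventually.of_forall fun _ _ => c5 hx₁
      · filter_upwards [(isClosed_cubeBoundary ι).isOpen_compl.mem_nhds hx₁] with x hx hx'
        exact absurd hx' hx
    filter_upwards [m1, m2, m3] with x k1 k2 k3
    refine ⟨c1, c2, ?_, ?_, k3⟩
    · intro t ht ht'
      by_contra hc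
      exact k1 ⟨t, ⟨ht, ht'⟩, not_lt.1 hc⟩
    · intro t ht ht'
      by_contra hc
      exact k2 ⟨t, ⟨ht, ht'⟩, not_lt.1 hc⟩
  obtain ⟨τ₀, hτ₀⟩ := exists_continuous_forall_mem_convex_of_local_const hCt hCtloc
  let τ : C(ι → I, I) := ⟨fun x => ⟨τ₀ x, (hτ₀ x).1, (hτ₀ x).2.1⟩, by fun_prop⟩
  have hτv : ∀ x, (τ x : ℝ) = τ₀ x := fun _ => rfl
  have hτbd : ∀ x ∈ Cube.boundary ι, (τ x : ℝ) = 1 / 2 := fun x hx => (hτ₀ x).2.2.2.2 hx
  -- the wrong set
  let Wr : Set ((ι → I) × I) := {z | z.2 ≤ τ z.1 ∧ 0 ≤ h z} ∪ {z | τ z.1 ≤ z.2 ∧ h z ≤ 0}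
  have hWr : IsClosed Wr := ((isClosed_le (by fun_prop) (by fun_prop)).inter
    (isClosed_le continuous_const hh)).union ((isClosed_le (by fun_prop) (by fun_prop)).inter
    (isClosed_le hh continuous_const))
  have hWrne : ∀ z ∈ Wr, 0 < ‖us 1 z‖ := by
    rintro ⟨x, t⟩ (⟨h1, h2⟩ | ⟨h1, h2⟩)
    · rw [norm_pos_iff]
      intro h0
      have : (τ₀ x : ℝ) < t := (hτ₀ x).2.2.1 t h0 h2
      have h3 : (t : ℝ) ≤ τ x := h1
      rw [hτv] at h3
      linarith
    · rw [norm_pos_iff]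
      intro h0
      have : (t : ℝ) < τ₀ x := (hτ₀ x).2.2.2.1 t h0 h2
      have h3 : (τ x : ℝ) ≤ t := h1
      rw [hτv] at h3
      linarith
  obtain ⟨δ₀, hδ₀, hδ₀'⟩ := exists_pos_le_of_compact hWr.isCompact hus1c.norm hWrne
  have hWrBd : ∀ z ∈ Wr, z ∈ Bd ι → ‖us 1 z‖ = 1 := by
    rintro ⟨x, t⟩ hz hzb
    rw [hus_of 1 _ (hρbd _ hzb)]
    rcases hzb with hx | hx
    · simp only at hx
      rw [← hh0]
      rcases hz with ⟨h1, h2⟩ | ⟨h1, h2⟩
      · have h3 : (t : ℝ) ≤ 1 / 2 := by rw [← hτbd x hx]; exact h1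
        exact le_antisymm (hlo x hx t h3) h2
      · have h3 : 1 / 2 ≤ (t : ℝ) := by rw [← hτbd x hx]; exact h1
        exact le_antisymm h2 (hhi x hx t h3)
    · exact hu_end _ hx
  let φ : (ι → I) × I → ℝ := fun z => if z ∈ Bd ι then 1 else min 1 ‖us 1 z‖
  have hφ : ContinuousOn φ (Bd ι ∪ Wr) := by
    refine ContinuousOn.union_of_isClosed ?_ ?_ (isClosed_Bd ι) hWr
    · refine (continuousOn_const (c := (1 : ℝ))).congr fun z hz => ?_
      exact if_pos hz
    · refine (Continuous.continuousOn (f := fun z => min 1 ‖us 1 z‖) (by fun_prop)).congr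
        fun z hz => ?_
      simp only [φ]
      split_ifs with hz'
      · rw [hWrBd z hz hz']; simp
      · rfl
  obtain ⟨κ₀, hκ₀⟩ := ContinuousMap.exists_restrict_eq (Y := ℝ) ((isClosed_Bd ι).union hWr)
    ⟨fun z : ↥(Bd ι ∪ Wr) => φ z, continuousOn_iff_continuous_domRestrict.1 hφ⟩
  have hκ₀' : ∀ z ∈ Bd ι ∪ Wr, κ₀ z = φ z := fun z hz => congrArg (fun k => k ⟨z, hz⟩) hκ₀
  let δ : ℝ := min 1 δ₀
  have hδ : 0 < δ := by positivity
  have hδ1 : δ ≤ 1 := min_le_left _ _
  let κ : (ι → I) × I → ℝ := fun z => max δ (min 1 (κ₀ z))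
  have hκc : Continuous κ := by fun_prop
  have hκpos : ∀ z, 0 < κ z := fun z => lt_max_of_lt_left hδ
  have hκ1 : ∀ z, κ z ≤ 1 := fun z => max_le hδ1 (min_le_left _ _)
  have hκBd : ∀ z ∈ Bd ι, κ z = 1 := by
    intro z hz
    simp only [κ]
    rw [hκ₀' z (Or.inl hz)]
    simp only [φ, if_pos hz, min_self]
    exact max_eq_right hδ1
  have hκWr : ∀ z ∈ Wr, κ z ≤ ‖us 1 z‖ := by
    intro z hz
    by_cases hzb : z ∈ Bd ι
    · rw [hκBd z hzb, hWrBd z hz hzb]
    · simp only [κ]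
      rw [hκ₀' z (Or.inr hz)]
      simp only [φ, if_neg hzb]
      refine max_le ((min_le_right _ _).trans (hδ₀' z hz)) ?_
      exact (min_le_right _ _).trans (min_le_right _ _)
  -- the homotopy
  let κs : I × ((ι → I) × I) → ℝ := fun p => 1 - (p.1 : ℝ) * (1 - κ p.2)
  have hκsc : Continuous κs := by fun_prop
  have hκs : ∀ p, 0 < κs p ∧ κs p ≤ 1 := by
    intro p
    have h1 := p.1.2.1
    have h2 := p.1.2.2
    have h3 := hκpos p.2
    have h4 := hκ1 p.2
    constructor
    · simp only [κs]; nlinarith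
    · simp only [κs]; nlinarith
  let V : I × ((ι → I) × I) → F := fun p => (max (κs p) ‖us p.1 p.2‖)⁻¹ • us p.1 p.2
  have hmax : ∀ p : I × ((ι → I) × I), 0 < max (κs p) ‖us p.1 p.2‖ :=
    fun p => lt_max_of_lt_left (hκs p).1
  have hus' : Continuous (fun p : I × ((ι → I) × I) => us p.1 p.2) :=
    husc.comp (by fun_prop : Continuous (fun p : I × ((ι → I) × I) => ((p.1 : ℝ), p.2)))
  have hV : Continuous V := by
    refine Continuous.smul (Continuous.inv₀ ?_ fun p => (hmax p).ne') hus'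
    exact hκsc.max hus'.norm
  have hVof : ∀ (s : I) z, ‖u z‖ = 1 → V (s, z) = u z := by
    intro s z hz
    simp only [V]
    rw [hus_of _ z (hρz z hz), hz, max_eq_right (hκs _).2]
    simp
  have hVbd : ∀ (s : I) z, z ∈ Bd ι → V (s, z) = u z := by
    intro s z hz
    simp only [V]
    have h1 : κs (s, z) = 1 := by simp [κs, hκBd z hz]
    rw [hus_of _ z (hρbd z hz), h1, max_eq_left (hu1 z)]
    simp
  have hV0 : ∀ z, V (0, z) = u z := by
    intro z
    have : κs (0, z) = 1 := by simp [κs]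
    simp only [V]
    rw [this]
    simp only [Icc.coe_zero, hus0]
    rw [max_eq_left (hu1 z)]
    simp
  let H : I × ((ι → I) × I) → Y := fun p => if 0 ≤ h p.2 then D.up (V p) else D.lo (V p)
  have hH : Continuous H := by
    refine Continuous.if_le (by fun_prop) (by fun_prop) continuous_const (by fun_prop) ?_
    intro p hp
    have h1 : ‖u p.2‖ = 1 := (hh0 _).1 hp.symm
    have h2 : V p = u p.2 := hVof p.1 p.2 h1
    rw [h2]
    exact D.up_eq_lo h1
  have hlift : ∀ z, (if 0 ≤ h z then D.up (u z) else D.lo (u z)) = f z := by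
    intro z
    split_ifs with h1
    · exact D.up_yc _ h1
    · exact D.lo_yc _ (not_le.1 h1).le
  have hH0 : ∀ z, H (0, z) = f z := by
    intro z
    simp only [H, hV0]
    exact hlift z
  have hHbd : ∀ (s : I), ∀ z ∈ Bd ι, H (s, z) = f z := by
    intro s z hz
    simp only [H, hVbd s z hz]
    exact hlift z
  let g : C((ι → I) × I, Y) := ⟨fun z => H (1, z), by fun_prop⟩
  have hκs1 : ∀ z, κs (1, z) = κ z := by intro z; simp [κs]
  have hV1' : ∀ z ∈ Wr, ‖V (1, z)‖ = 1 := by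
    intro z hz
    simp only [V]
    rw [hκs1]
    simp only [Icc.coe_one]
    rw [max_eq_right (hκWr z hz), norm_smul, norm_inv, norm_norm]
    exact inv_mul_cancel₀ (hWrne z hz).ne'
  refine ⟨τ, g, hτbd, fun z hz => hHbd 1 z hz, homotopicRel_mk H hH hH0 (fun _ => rfl) hHbd, ?_⟩
  intro x t
  constructor
  · intro ht
    show D.hc (H (1, (x, t))) ≤ 0
    simp only [H]
    split_ifs with h1
    · rw [D.hc_up_base (hV1' _ (Or.inl ⟨ht, h1⟩))]
    · exact D.hc_lo _
  · intro ht
    show 0 ≤ D.hc (H (1, (x, t)))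
    simp only [H]
    split_ifs with h1
    · exact D.hc_up _
    · have h2 := hV1' _ (Or.inr ⟨ht, (not_le.1 h1).le⟩)
      rw [← D.up_eq_lo h2, D.hc_up_base h2]

/-- Relative form of `Dbl.straighten`. -/
theorem Dbl.straighten_rel {ι : Type*} (D : Dbl F Y) {x0 : F} (hx0 : ‖x0‖ = 1)
    (τ : C(ι → I, I)) (g : C((ι → I) × I, Y)) (hτbd : ∀ x ∈ Cube.boundary ι, (τ x : ℝ) = 1 / 2)
    (hbd : ∀ x ∈ Cube.boundary ι, ∃ y : sphere (0 : F) 1, ∀ t, g (x, t) = D.E x0 (y, t))
    (hg0 : ∀ x, g (x, 0) = D.up x0) (hg1 : ∀ x, g (x, 1) = D.up x0)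
    (hτ : ∀ (x : ι → I) (t : I),
        (t ≤ τ x → D.hc (g (x, t)) ≤ 0) ∧ (τ x ≤ t → 0 ≤ D.hc (g (x, t)))) :
    ∃ b : C(ι → I, sphere (0 : F) 1),
      g.HomotopicRel ((D.E x0).comp (b.prodMap (ContinuousMap.id I))) (Bd ι) := by
  classical
  have hb1 : ∀ x : ι → I, ‖D.yc (g (x, τ x))‖ = 1 := by
    intro x
    rw [← D.hc_eq]
    exact le_antisymm ((hτ x (τ x)).1 le_rfl) ((hτ x (τ x)).2 le_rfl)
  let b : C(ι → I, sphere (0 : F) 1) :=
    ⟨fun x => ⟨D.yc (g (x, τ x)), by simpa using hb1 x⟩, by fun_prop⟩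
  have hb : ∀ x, (b x : F) = D.yc (g (x, τ x)) := fun _ => rfl
  have hbbd : ∀ x ∈ Cube.boundary ι, ∀ t, g (x, t) = D.E x0 (b x, t) := by
    intro x hx t
    obtain ⟨y, hy⟩ := hbd x hx
    have h1 : (b x : F) = y := by
      rw [hb, hy, D.yc_E_le hx0 y (τ x) (hτbd x hx).le, hτbd x hx]
      norm_num
    have h2 : b x = y := Subtype.ext h1
    rw [h2]; exact hy t
  refine ⟨b, ?_⟩
  let g' : (ι → I) × ℝ → Y := fun p => g (p.1, projIcc 0 1 zero_le_one p.2)
  have hg' : Continuous g' := by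
    have : Continuous (fun p : (ι → I) × ℝ => (p.1, projIcc (0 : ℝ) 1 zero_le_one p.2)) :=
      continuous_fst.prodMk (continuous_projIcc.comp continuous_snd)
    exact g.continuous.comp this
  have hg'I : ∀ (x : ι → I) (t : I), g' (x, (t : ℝ)) = g (x, t) := by
    intro x t; simp only [g', projIcc_val]
  let θ : (ι → I) × I → ℝ := fun z => if (z.2 : ℝ) ≤ 1 / 2 then 2 * (z.2 : ℝ) * (τ z.1 : ℝ)
    else (τ z.1 : ℝ) + (2 * (z.2 : ℝ) - 1) * (1 - (τ z.1 : ℝ))
  have hθ : Continuous θ := by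
    refine Continuous.if_le (by fun_prop) (by fun_prop) (by fun_prop) (by fun_prop) ?_
    rintro ⟨x, t⟩ ht
    simp only at ht ⊢
    rw [ht]; ring
  have hθI : ∀ z, 0 ≤ θ z ∧ θ z ≤ 1 := by
    rintro ⟨x, t⟩
    have h1 := (τ x).2.1
    have h2 := (τ x).2.2
    have h3 := t.2.1
    have h4 := t.2.2
    simp only [θ]
    split_ifs with h
    · constructor
      · positivity
      · nlinarith
    · have h' : (1 : ℝ) / 2 < t := not_le.1 h
      constructor
      · nlinarith
      · nlinarith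
  have hθlo : ∀ x (t : I), (t : ℝ) ≤ 1 / 2 → θ (x, t) ≤ τ x := by
    intro x t h
    have h1 := (τ x).2.1
    simp only [θ]
    rw [if_pos h]
    nlinarith
  have hθhi : ∀ x (t : I), 1 / 2 ≤ (t : ℝ) → (τ x : ℝ) ≤ θ (x, t) := by
    intro x t h
    have h1 := (τ x).2.2
    simp only [θ]
    split_ifs with h'
    · have : (t : ℝ) = 1 / 2 := le_antisymm h' h
      rw [this]; linarith
    · nlinarith
  have hθ0 : ∀ x, θ (x, 0) = 0 := by
    intro x; simp only [θ]; rw [if_pos (by norm_num)]; simp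
  have hθ1 : ∀ x, θ (x, 1) = 1 := by
    intro x; simp only [θ]; rw [if_neg (by norm_num)]; simp; ring
  have hθbd : ∀ x ∈ Cube.boundary ι, ∀ t : I, θ (x, t) = t := by
    intro x hx t
    simp only [θ, hτbd x hx]
    split_ifs
    · ring
    · ring
  let g2 : C((ι → I) × I, Y) := ⟨fun z => g' (z.1, θ z), hg'.comp (by fun_prop)⟩
  have hg2 : ∀ z, g2 z = g' (z.1, θ z) := fun _ => rfl
  have hg2bd : ∀ z ∈ Bd ι, g2 z = g z := by
    rintro ⟨x, t⟩ (hx | hx | hx)
    · rw [hg2, hθbd x hx t]; exact hg'I x t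
    · simp only at hx; subst hx
      rw [hg2]; simp only [hθ0]
      exact hg'I x 0
    · simp only at hx; subst hx
      rw [hg2]; simp only [hθ1]
      exact hg'I x 1
  have step1 : g.HomotopicRel g2 (Bd ι) := by
    refine homotopicRel_mk
      (fun p => g' (p.2.1, (1 - (p.1 : ℝ)) * (p.2.2 : ℝ) + (p.1 : ℝ) * θ p.2)) ?_ ?_ ?_ ?_
    · exact hg'.comp (by fun_prop)
    · rintro ⟨x, t⟩
      simp [hg'I]
    · rintro ⟨x, t⟩
      simp [hg2]
    · rintro s ⟨x, t⟩ (hx | hx | hx)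
      · simp only [hθbd x hx t]
        rw [show (1 - (s : ℝ)) * (t : ℝ) + (s : ℝ) * (t : ℝ) = (t : ℝ) by ring]
        exact hg'I x t
      · simp only at hx
        subst hx
        simp only [hθ0]
        simp [g']
      · simp only at hx
        subst hx
        simp only [hθ1]
        simp only [Icc.coe_one]
        rw [show (1 - (s : ℝ)) * 1 + (s : ℝ) * 1 = ((1 : I) : ℝ) by simp]
        rw [hg'I]
  refine step1.trans ?_
  let P : I × ((ι → I) × I) → F := fun p =>
    (1 - (p.1 : ℝ)) • D.yc (g2 p.2) + (p.1 : ℝ) • (x0 + (2 * (p.2.2 : ℝ)) • ((b p.2.1 : F) - x0))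
  let Q : I × ((ι → I) × I) → F := fun p =>
    (1 - (p.1 : ℝ)) • D.yc (g2 p.2) +
      (p.1 : ℝ) • (x0 + (2 - 2 * (p.2.2 : ℝ)) • ((b p.2.1 : F) - x0))
  have hbc : Continuous (fun x => (b x : F)) := by fun_prop
  have hP : Continuous P := by fun_prop
  have hQ : Continuous Q := by fun_prop
  have hg2half : ∀ x (t : I), (t : ℝ) = 1 / 2 → g2 (x, t) = g (x, τ x) := by
    intro x t ht
    rw [hg2]
    have : θ (x, t) = τ x := le_antisymm (hθlo x t ht.le) (hθhi x t ht.ge)
    simp only [this]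
    exact hg'I x _
  have hmem : ∀ z, ∃ t' : I, (t' : ℝ) = θ z ∧ g2 z = g (z.1, t') := by
    intro z
    refine ⟨⟨θ z, hθI z⟩, rfl, ?_⟩
    rw [hg2, ← hg'I]
  have hsv : ∀ (s : I) (v : F), (1 - (s : ℝ)) • v + (s : ℝ) • v = v := by
    intro s v; rw [← add_smul]; simp
  refine homotopicRel_mk
    (fun p => if (p.2.2 : ℝ) ≤ 1 / 2 then D.lo (P p) else D.up (Q p)) ?_ ?_ ?_ ?_
  · refine Continuous.if_le (by fun_prop) (by fun_prop) (by fun_prop) (by fun_prop) ?_
    rintro ⟨s, x, t⟩ ht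
    simp only at ht
    have h1 : P (s, x, t) = b x := by
      simp only [P]
      rw [hg2half x t ht, ← hb, ht]
      norm_num
      rw [← add_smul]; simp
    have h2 : Q (s, x, t) = b x := by
      simp only [Q]
      rw [hg2half x t ht, ← hb, ht]
      norm_num
      rw [← add_smul]; simp
    rw [h1, h2]
    exact (D.up_eq_lo (by rw [hb]; exact hb1 x)).symm
  · rintro ⟨x, t⟩
    have h1 : P (0, x, t) = D.yc (g2 (x, t)) := by simp [P]
    have h2 : Q (0, x, t) = D.yc (g2 (x, t)) := by simp [Q]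
    rw [h1, h2]
    obtain ⟨t', ht', e⟩ := hmem (x, t)
    simp only at e
    split_ifs with h
    · refine D.lo_yc _ ?_
      rw [e]
      refine (hτ x t').1 ?_
      rw [← Subtype.coe_le_coe, ht']
      exact hθlo x t h
    · refine D.up_yc _ ?_
      rw [e]
      refine (hτ x t').2 ?_
      rw [← Subtype.coe_le_coe, ht']
      exact hθhi x t (not_le.1 h).le
  · rintro ⟨x, t⟩
    have h1 : P (1, x, t) = x0 + (2 * (t : ℝ)) • ((b x : F) - x0) := by simp [P]
    have h2 : Q (1, x, t) = x0 + (2 - 2 * (t : ℝ)) • ((b x : F) - x0) := by simp [Q]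
    rw [h1, h2]
    rfl
  · rintro s ⟨x, t⟩ hz
    rw [hg2bd _ hz]
    rcases hz with hx | hx | hx
    · simp only at hx
      have hx2 := hg2bd (x, t) (Or.inl hx)
      simp only
      split_ifs with ht
      · have h1 : P (s, x, t) = x0 + (2 * (t : ℝ)) • ((b x : F) - x0) := by
          simp only [P]
          rw [hx2, hbbd x hx t, D.yc_E_le hx0 (b x) t ht]
          exact hsv s _
        rw [h1, hbbd x hx t, D.E_le_half (b x) t ht]
      · have ht' : 1 / 2 ≤ (t : ℝ) := (not_le.1 ht).le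
        have h1 : Q (s, x, t) = x0 + (2 - 2 * (t : ℝ)) • ((b x : F) - x0) := by
          simp only [Q]
          rw [hx2, hbbd x hx t, D.yc_E_ge hx0 (b x) t ht']
          exact hsv s _
        rw [h1, hbbd x hx t, D.E_ge_half (b x) t ht']
    · simp only at hx; subst hx
      have hx2 := hg2bd (x, 0) (Or.inr (Or.inl rfl))
      have h1 : P (s, x, 0) = x0 := by
        simp only [P]
        rw [hx2, hg0, D.yc_up_base hx0]
        simp only [Icc.coe_zero, mul_zero, zero_smul, add_zero]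
        exact hsv s _
      rw [h1, hg0]
      rw [if_pos (by norm_num)]
      exact (D.up_eq_lo hx0).symm
    · simp only at hx; subst hx
      have hx2 := hg2bd (x, 1) (Or.inr (Or.inr rfl))
      have h1 : Q (s, x, 1) = x0 := by
        simp only [Q]
        rw [hx2, hg1, D.yc_up_base hx0]
        simp only [Icc.coe_one, mul_one, sub_self, zero_smul, add_zero]
        exact hsv s _
      rw [h1, hg1]
      rw [if_neg (by norm_num)]

/-- **Relative Freudenthal step.** -/
theorem Dbl.step_rel {ι : Type*} [Fintype ι] [FiniteDimensional ℝ F] (D : Dbl F Y)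
    {x0 : F} (hx0 : ‖x0‖ = 1) (hcard : Fintype.card ι + 2 < 2 * finrank ℝ F)
    (f : C((ι → I) × I, Y))
    (hbd : ∀ x ∈ Cube.boundary ι, ∃ y : sphere (0 : F) 1, ∀ t, f (x, t) = D.E x0 (y, t))
    (hf0 : ∀ x, f (x, 0) = D.up x0) (hf1 : ∀ x, f (x, 1) = D.up x0) :
    ∃ b : C(ι → I, sphere (0 : F) 1),
      f.HomotopicRel ((D.E x0).comp (b.prodMap (ContinuousMap.id I))) (Bd ι) := by
  obtain ⟨τ, g, hτbd, hgf, hfg, hτ⟩ := separate_rel D hx0 hcard f hbd hf0 hf1
  obtain ⟨b, hb⟩ := D.straighten_rel hx0 τ g hτbd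
    (fun x hx => by
      obtain ⟨y, hy⟩ := hbd x hx
      exact ⟨y, fun t => by rw [hgf _ (Or.inl hx), hy]⟩)
    (fun x => by rw [hgf _ (Or.inr (Or.inl rfl)), hf0])
    (fun x => by rw [hgf _ (Or.inr (Or.inr rfl)), hf1]) hτ
  exact ⟨b, hfg.trans hb⟩

end Crest.Agent.R204.Freu297
end

-- ▼ part R204/FreuS_297
section

/-!
Row 204: relative Freudenthal step for `susp n J : Ω^J S^n → Ω^{J+1} S^{n+1}` on cubes of loops.
-/

open Set Metric Module
open scoped unitInterval Topology NNReal ENNReal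

namespace Crest.Agent.R204.Freu297

theorem half_mem : (1 / 2 : ℝ) ∈ I := by constructor <;> norm_num

theorem E_injective {F : Type*} [NormedAddCommGroup F] [NormedSpace ℝ F] {Y : Type*}
    [TopologicalSpace Y] (D : Dbl F Y) {x0 : F} (hx0 : ‖x0‖ = 1) {y y' : sphere (0 : F) 1}
    (h : D.E x0 (y, ⟨1 / 2, half_mem⟩) = D.E x0 (y', ⟨1 / 2, half_mem⟩)) : y = y' := by
  have h1 := D.yc_E_le hx0 y ⟨1 / 2, half_mem⟩ le_rfl
  have h2 := D.yc_E_le hx0 y' ⟨1 / 2, half_mem⟩ le_rfl
  rw [h] at h1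
  rw [h1] at h2
  apply Subtype.ext
  simpa using h2

theorem susp_injective (n J : ℕ) : Function.Injective (susp n J) := by
  intro β β' h
  apply GenLoop.ext
  intro w
  have h1 : susp n J β (Fin.snoc (α := fun _ => I) w ⟨1 / 2, half_mem⟩) =
      susp n J β' (Fin.snoc (α := fun _ => I) w ⟨1 / 2, half_mem⟩) := by rw [h]
  rw [susp_apply, susp_apply, Fin.init_snoc, Fin.snoc_last] at h1
  exact E_injective (sphDbl n) (norm_pt n) h1

theorem step_loop_rel {q n J : ℕ} (hq : q + J + 2 < 2 * (n + 1))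
    (a : C(Fin q → I, GenLoop (Fin (J + 1)) (Sph (n + 1)) (pt (n + 1))))
    (ha : ∀ x ∈ Cube.boundary (Fin q), a x ∈ Set.range (susp n J)) :
    ∃ b : C(Fin q → I, GenLoop (Fin J) (Sph n) (pt n)),
      a.HomotopicRel ((susp n J).comp b) (Cube.boundary (Fin q)) := by
  classical
  let D := sphDbl n
  have hsn : Continuous (fun z : ((Fin q ⊕ Fin J) → I) × I =>
      (Fin.snoc (α := fun _ => I) (fun j => z.1 (Sum.inr j)) z.2 : Fin (J + 1) → I)) := by
    refine continuous_pi fun i => ?_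
    refine Fin.lastCases ?_ (fun j => ?_) i
    · simp only [Fin.snoc_last]; fun_prop
    · simp only [Fin.snoc_castSucc]; fun_prop
  let A : C(((Fin q ⊕ Fin J) → I) × I, Sph (n + 1)) :=
    ⟨fun z => a (fun i => z.1 (Sum.inl i))
      (Fin.snoc (α := fun _ => I) (fun j => z.1 (Sum.inr j)) z.2), by
      have h1 : Continuous (fun z : ((Fin q ⊕ Fin J) → I) × I => a (fun i => z.1 (Sum.inl i))) :=
        a.continuous.comp (by fun_prop)
      exact continuous_eval.comp (h1.prodMk hsn)⟩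
  have hAv : ∀ z t, A (z, t) = a (fun i => z (Sum.inl i))
      (Fin.snoc (α := fun _ => I) (fun j => z (Sum.inr j)) t) := fun _ _ => rfl
  have hAr : ∀ (z : (Fin q ⊕ Fin J) → I) (j : Fin J), (z (Sum.inr j) = 0 ∨ z (Sum.inr j) = 1) →
      ∀ t, A (z, t) = D.E (pt n : Sph n) (pt n, t) := by
    intro z j hj t
    rw [hAv, D.E_base (norm_pt n), pt_succ]
    refine (a _).2 _ ⟨Fin.castSucc j, ?_⟩
    rw [Fin.snoc_castSucc]; exact hj
  have hbd : ∀ z ∈ Cube.boundary (Fin q ⊕ Fin J), ∃ y : Sph n, ∀ t,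
      A (z, t) = D.E (pt n : Sph n) (y, t) := by
    rintro z ⟨i | j, hi⟩
    · obtain ⟨β, hβ⟩ := ha (fun i => z (Sum.inl i)) ⟨i, hi⟩
      refine ⟨β (fun j => z (Sum.inr j)), fun t => ?_⟩
      rw [hAv, ← hβ, susp_apply, Fin.init_snoc, Fin.snoc_last]
    · exact ⟨pt n, hAr z j hi⟩
  have h0 : ∀ z, A (z, 0) = D.up ((pt n : Sph n) : EuclideanSpace ℝ (Fin (n + 1))) := by
    intro z
    rw [hAv, pt_succ]
    refine (a _).2 _ ⟨Fin.last J, ?_⟩
    rw [Fin.snoc_last]; exact Or.inl rfl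
  have h1 : ∀ z, A (z, 1) = D.up ((pt n : Sph n) : EuclideanSpace ℝ (Fin (n + 1))) := by
    intro z
    rw [hAv, pt_succ]
    refine (a _).2 _ ⟨Fin.last J, ?_⟩
    rw [Fin.snoc_last]; exact Or.inr rfl
  obtain ⟨b₀, ⟨H⟩⟩ := D.step_rel (norm_pt n) (ι := Fin q ⊕ Fin J) (by simpa using hq) A hbd h0 h1
  have hb₀ : ∀ z t, (z, t) ∈ Bd (Fin q ⊕ Fin J) → A (z, t) = D.E (pt n : Sph n) (b₀ z, t) := by
    intro z t hz
    have e1 := H.eq_fst 1 hz
    have e2 := H.apply_one (z, t)
    rw [e1] at e2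
    exact e2
  have hb₀r : ∀ (z : (Fin q ⊕ Fin J) → I) (j : Fin J), (z (Sum.inr j) = 0 ∨ z (Sum.inr j) = 1) →
      b₀ z = pt n := by
    intro z j hj
    have e1 := hb₀ z ⟨1 / 2, half_mem⟩ (Or.inl ⟨Sum.inr j, hj⟩)
    rw [hAr z j hj] at e1
    exact (E_injective D (norm_pt n) e1).symm
  have hsum : Continuous (fun p : (Fin q → I) × (Fin J → I) =>
      (Sum.elim p.1 p.2 : (Fin q ⊕ Fin J) → I)) := by
    refine continuous_pi fun i => ?_
    rcases i with i | j
    · simp only [Sum.elim_inl]; fun_prop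
    · simp only [Sum.elim_inr]; fun_prop
  let b : C(Fin q → I, GenLoop (Fin J) (Sph n) (pt n)) :=
    curryLoop ⟨fun p => b₀ (Sum.elim p.1 p.2), b₀.continuous.comp hsum⟩ (by
      rintro x w ⟨j, hj⟩
      exact hb₀r _ j hj)
  refine ⟨b, ?_⟩
  have hinit : Continuous (fun w : Fin (J + 1) → I => (Fin.init w : Fin J → I)) :=
    continuous_pi fun i => by
      show Continuous fun w : Fin (J + 1) → I => w (Fin.castSucc i)
      fun_prop
  have hc1 : Continuous (fun p : (I × (Fin q → I)) × (Fin (J + 1) → I) =>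
      (p.1.1, ((Sum.elim p.1.2 (Fin.init p.2) : (Fin q ⊕ Fin J) → I), p.2 (Fin.last J)))) := by
    refine (by fun_prop : Continuous (fun p : (I × (Fin q → I)) × (Fin (J + 1) → I) =>
      p.1.1)).prodMk (Continuous.prodMk ?_ (by fun_prop))
    exact hsum.comp ((by fun_prop : Continuous (fun p : (I × (Fin q → I)) × (Fin (J + 1) → I) =>
      p.1.2)).prodMk (hinit.comp continuous_snd))
  have hHbd : ∀ (x : Fin q → I) (w : Fin (J + 1) → I), w ∈ Cube.boundary (Fin (J + 1)) →
      ((Sum.elim x (Fin.init w) : (Fin q ⊕ Fin J) → I), w (Fin.last J)) ∈ Bd (Fin q ⊕ Fin J) := by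
    rintro x w ⟨i, hi⟩
    refine Fin.lastCases (motive := fun i => w i = 0 ∨ w i = 1 → _) ?_ (fun j => ?_) i hi
    · intro h; exact Or.inr h
    · intro h; exact Or.inl ⟨Sum.inr j, h⟩
  have hAa : ∀ (x : Fin q → I) (w : Fin (J + 1) → I),
      A ((Sum.elim x (Fin.init w) : (Fin q ⊕ Fin J) → I), w (Fin.last J)) = a x w := by
    intro x w
    show a x (Fin.snoc (α := fun _ => I) (Fin.init w) (w (Fin.last J))) = a x w
    rw [Fin.snoc_init_self]
  let G : C(I × (Fin q → I), GenLoop (Fin (J + 1)) (Sph (n + 1)) (pt (n + 1))) :=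
    curryLoop ⟨fun p => H (p.1.1, ((Sum.elim p.1.2 (Fin.init p.2) : (Fin q ⊕ Fin J) → I),
      p.2 (Fin.last J))), H.continuous.comp hc1⟩ (by
      rintro ⟨s, x⟩ w hw
      show H (s, _) = _
      rw [H.eq_fst s (hHbd x w hw), hAa]
      exact (a x).2 w hw)
  have hG : ∀ s x w, G (s, x) w = H (s, ((Sum.elim x (Fin.init w) : (Fin q ⊕ Fin J) → I),
      w (Fin.last J))) := fun _ _ _ => rfl
  refine homotopicRel_mk (fun p => G p) G.continuous ?_ ?_ ?_
  · intro x
    apply GenLoop.ext; intro w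
    rw [hG, H.apply_zero, hAa]
  · intro x
    apply GenLoop.ext; intro w
    rw [hG, H.apply_one]
    rfl
  · rintro s x ⟨i, hi⟩
    apply GenLoop.ext; intro w
    rw [hG, H.eq_fst s (Or.inl ⟨Sum.inl i, hi⟩), hAa]

end Crest.Agent.R204.Freu297
end

-- ▼ part R204/FreuT_297

/-!
Row 204: simplex version of the relative Freudenthal step.
-/

open Set Metric Module
open scoped unitInterval Topology NNReal ENNReal

namespace Crest.Agent.R204.Freu297

/-- the corner simplex in `ℝ^q` -/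
def cornerK (q : ℕ) : Set (Fin q → ℝ) := {y | (∀ i, 0 ≤ y i) ∧ ∑ i, y i ≤ 1}

theorem isClosed_cornerK (q : ℕ) : IsClosed (cornerK q) := by
  have : cornerK q = (⋂ i, {y : Fin q → ℝ | 0 ≤ y i}) ∩ {y | ∑ i, y i ≤ 1} := by
    ext y; simp [cornerK]
  rw [this]
  refine (isClosed_iInter fun i => isClosed_le continuous_const (continuous_apply i)).inter
    (isClosed_le (by fun_prop) continuous_const)

theorem convex_cornerK (q : ℕ) : Convex ℝ (cornerK q) := by
  intro a ha b hb s t hs ht hst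
  refine ⟨fun i => ?_, ?_⟩
  · simp only [Pi.add_apply, Pi.smul_apply, smul_eq_mul]
    have := ha.1 i; have := hb.1 i; positivity
  · simp only [Pi.add_apply, Pi.smul_apply, smul_eq_mul, Finset.sum_add_distrib,
      ← Finset.mul_sum]
    nlinarith [ha.2, hb.2]

theorem interior_cornerK (q : ℕ) :
    interior (cornerK q) = {y | (∀ i, 0 < y i) ∧ ∑ i, y i < 1} := by
  apply Set.Subset.antisymm
  · intro y hy
    have hyK : cornerK q ∈ 𝓝 y := mem_interior_iff_mem_nhds.1 hy
    have hy0 : y ∈ cornerK q := interior_subset hy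
    have key : ∀ (i : Fin q) (c : ℝ), ∃ t : ℝ, 0 < t ∧ y + (t * c) • Pi.single i (1 : ℝ) ∈
        cornerK q := by
      intro i c
      have hcont : ContinuousAt (fun t : ℝ => y + (t * c) • Pi.single (M := fun _ => ℝ) i (1 : ℝ))
          0 := by fun_prop
      have h0 : (fun t : ℝ => y + (t * c) • Pi.single (M := fun _ => ℝ) i (1 : ℝ)) 0 = y := by
        simp
      have hev : ∀ᶠ t in 𝓝 (0 : ℝ), y + (t * c) • Pi.single (M := fun _ => ℝ) i (1 : ℝ) ∈
          cornerK q := hcont.eventually (by rw [h0]; exact hyK)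
      have := (hev.filter_mono (nhdsWithin_le_nhds (s := Set.Ioi (0 : ℝ)))).and
        (self_mem_nhdsWithin (a := (0 : ℝ)) (s := Set.Ioi (0 : ℝ)))
      obtain ⟨t, ht1, ht2⟩ := this.exists
      exact ⟨t, ht2, ht1⟩
    refine ⟨fun i => ?_, ?_⟩
    · rcases (hy0.1 i).eq_or_lt with h | h
      · exfalso
        obtain ⟨t, ht, hm⟩ := key i (-1)
        have := hm.1 i
        simp only [Pi.add_apply, Pi.smul_apply, Pi.single_eq_same, smul_eq_mul, ← h] at this
        linarith
      · exact h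
    · rcases hy0.2.eq_or_lt with h | h
      · exfalso
        have hne : ∃ i : Fin q, True := by
          by_contra hc
          push Not at hc
          have : ∑ i, y i = 0 := Finset.sum_eq_zero fun i _ => (hc i).elim
          rw [this] at h
          exact zero_ne_one h
        obtain ⟨i, _⟩ := hne
        obtain ⟨t, ht, hm⟩ := key i 1
        have := hm.2
        simp only [Pi.add_apply, Pi.smul_apply, smul_eq_mul, Finset.sum_add_distrib,
          ← Finset.mul_sum, h, Finset.sum_pi_single', Finset.mem_univ, if_true] at this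
        linarith
      · exact h
  · rw [Set.subset_def]
    intro y hy
    rw [mem_interior]
    refine ⟨{y | (∀ i, 0 < y i) ∧ ∑ i, y i < 1}, ?_, ?_, hy⟩
    · rintro z ⟨h1, h2⟩
      exact ⟨fun i => (h1 i).le, h2.le⟩
    · have : {y : Fin q → ℝ | (∀ i, 0 < y i) ∧ ∑ i, y i < 1} =
          (⋂ i, {y : Fin q → ℝ | 0 < y i}) ∩ {y | ∑ i, y i < 1} := by
        ext y; simp
      rw [this]
      exact (isOpen_iInter_of_finite fun i => isOpen_lt continuous_const (continuous_apply i)).inter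
        (isOpen_lt (by fun_prop) continuous_const)

theorem frontier_cornerK (q : ℕ) (y : Fin q → ℝ) (hy : y ∈ cornerK q) :
    y ∈ frontier (cornerK q) ↔ (∃ i, y i = 0) ∨ ∑ i, y i = 1 := by
  rw [(isClosed_cornerK q).frontier_eq, Set.mem_sdiff, interior_cornerK]
  simp only [hy, true_and]
  constructor
  · intro h
    by_contra hc
    push Not at hc
    apply h
    exact ⟨fun i => lt_of_le_of_ne (hy.1 i) (Ne.symm (hc.1 i)), lt_of_le_of_ne hy.2 hc.2⟩
  · rintro (⟨i, hi⟩ | h) ⟨h1, h2⟩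
    · exact (h1 i).ne' hi
    · exact h2.ne h

/-- the unit cube as a subset of `ℝ^q` -/
def cubeC (q : ℕ) : Set (Fin q → ℝ) := {y | ∀ i, 0 ≤ y i ∧ y i ≤ 1}

theorem cubeC_eq (q : ℕ) : cubeC q = Set.univ.pi fun _ => Icc (0 : ℝ) 1 := by
  ext y
  simp only [cubeC, Set.mem_pi, Set.mem_univ, true_implies, Set.mem_Icc]
  rfl

theorem isClosed_cubeC (q : ℕ) : IsClosed (cubeC q) := by
  rw [cubeC_eq]; exact isClosed_set_pi fun _ _ => isClosed_Icc

theorem frontier_cubeC (q : ℕ) (y : Fin q → ℝ) (hy : y ∈ cubeC q) :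
    y ∈ frontier (cubeC q) ↔ ∃ i, y i = 0 ∨ y i = 1 := by
  rw [(isClosed_cubeC q).frontier_eq, Set.mem_sdiff]
  simp only [hy, true_and]
  rw [cubeC_eq, interior_pi_set Set.finite_univ]
  simp only [interior_Icc, Set.mem_pi, Set.mem_univ, true_implies, not_forall]
  constructor
  · rintro ⟨i, hi⟩
    refine ⟨i, ?_⟩
    by_contra hc
    push Not at hc
    exact hi ⟨lt_of_le_of_ne (hy i).1 (Ne.symm hc.1), lt_of_le_of_ne (hy i).2 hc.2⟩
  · rintro ⟨i, hi⟩
    refine ⟨i, ?_⟩
    rintro ⟨h1, h2⟩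
    rcases hi with hi | hi
    · exact h1.ne' hi
    · exact h2.ne hi

theorem exists_homeo_corner_cube (q : ℕ) : ∃ e : (Fin q → ℝ) ≃ₜ (Fin q → ℝ),
    e '' cornerK q = cubeC q ∧ e '' frontier (cornerK q) = frontier (cubeC q) := by
  have h1 : (interior (cornerK q)).Nonempty := by
    refine ⟨fun _ => 1 / (q + 1 : ℝ), ?_⟩
    rw [interior_cornerK]
    refine ⟨fun i => by positivity, ?_⟩
    simp only [Finset.sum_const, Finset.card_univ, Fintype.card_fin, nsmul_eq_mul]
    rw [mul_one_div, div_lt_one (by positivity)]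
    linarith
  have h2 : Bornology.IsBounded (cornerK q) := by
    refine (Metric.isBounded_closedBall (x := (0 : Fin q → ℝ)) (r := 1)).subset fun y hy => ?_
    rw [mem_closedBall, dist_zero_right, pi_norm_le_iff_of_nonneg zero_le_one]
    intro i
    rw [Real.norm_eq_abs, abs_of_nonneg (hy.1 i)]
    exact (Finset.single_le_sum (f := y) (fun i _ => hy.1 i) (Finset.mem_univ i)).trans hy.2
  have h3 : (interior (cubeC q)).Nonempty := by
    refine ⟨fun _ => 1 / 2, ?_⟩
    rw [cubeC_eq, interior_pi_set Set.finite_univ]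
    simp only [interior_Icc, Set.mem_pi, Set.mem_univ, true_implies]
    intro i
    constructor <;> norm_num
  have h4 : Bornology.IsBounded (cubeC q) := by
    refine (Metric.isBounded_closedBall (x := (0 : Fin q → ℝ)) (r := 1)).subset fun y hy => ?_
    rw [mem_closedBall, dist_zero_right, pi_norm_le_iff_of_nonneg zero_le_one]
    intro i
    rw [Real.norm_eq_abs, abs_of_nonneg (hy i).1]
    exact (hy i).2
  have h5 : Convex ℝ (cubeC q) := by
    rw [cubeC_eq]; exact convex_pi fun _ _ => convex_Icc 0 1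
  obtain ⟨e, -, he1, he2⟩ := exists_homeomorph_image_eq (convex_cornerK q) h1
    (NormedSpace.isVonNBounded_of_isBounded ℝ h2) h5 h3 (NormedSpace.isVonNBounded_of_isBounded ℝ h4)
  rw [(isClosed_cornerK q).closure_eq, (isClosed_cubeC q).closure_eq] at he1
  exact ⟨e, he1, he2⟩

/-- **Homeomorphism of pairs** `(Δ^q, ∂Δ^q) ≃ (I^q, ∂I^q)`. -/
theorem exists_simplexCube (q : ℕ) : ∃ h : stdSimplex ℝ (Fin (q + 1)) ≃ₜ (Fin q → I),
    ∀ x, (∃ i, x.1 i = 0) ↔ h x ∈ Cube.boundary (Fin q) := by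
  obtain ⟨e, he1, he2⟩ := exists_homeo_corner_cube q
  have hK : ∀ x : stdSimplex ℝ (Fin (q + 1)), (fun j : Fin q => x.1 j.succ) ∈ cornerK q := by
    intro x
    refine ⟨fun i => x.2.1 _, ?_⟩
    have := x.2.2
    rw [Fin.sum_univ_succ] at this
    have h0 := x.2.1 0
    linarith
  have hC : ∀ k ∈ cornerK q, e k ∈ cubeC q := fun k hk => by
    rw [← he1]; exact ⟨k, hk, rfl⟩
  have hCi : ∀ y ∈ cubeC q, e.symm y ∈ cornerK q := fun y hy => by
    rw [← he1] at hy
    obtain ⟨k, hk, rfl⟩ := hy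
    rw [e.symm_apply_apply]; exact hk
  have hy : ∀ y : Fin q → I, (fun i => (y i : ℝ)) ∈ cubeC q := fun y i => (y i).2
  have hS : ∀ k ∈ cornerK q, (Fin.cons (1 - ∑ i, k i) k : Fin (q + 1) → ℝ) ∈
      stdSimplex ℝ (Fin (q + 1)) := by
    intro k hk
    refine ⟨fun i => ?_, ?_⟩
    · refine Fin.cases ?_ (fun j => ?_) i
      · simp only [Fin.cons_zero]; linarith [hk.2]
      · simp only [Fin.cons_succ]; exact hk.1 j
    · rw [Fin.sum_univ_succ]
      simp
  let h : stdSimplex ℝ (Fin (q + 1)) ≃ₜ (Fin q → I) :=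
    { toFun := fun x i => ⟨e (fun j : Fin q => x.1 j.succ) i, hC _ (hK x) i⟩
      invFun := fun y => ⟨Fin.cons (1 - ∑ i, e.symm (fun i => (y i : ℝ)) i)
        (e.symm (fun i => (y i : ℝ))), hS _ (hCi _ (hy y))⟩
      left_inv := by
        intro x
        apply Subtype.ext
        have h1 : e.symm (fun i => e (fun j : Fin q => x.1 j.succ) i) =
            fun j : Fin q => x.1 j.succ := by
          rw [show (fun i => e (fun j : Fin q => x.1 j.succ) i) =
            e (fun j : Fin q => x.1 j.succ) from rfl, e.symm_apply_apply]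
        funext i
        simp only [h1]
        refine Fin.cases ?_ (fun j => ?_) i
        · simp only [Fin.cons_zero]
          have := x.2.2
          rw [Fin.sum_univ_succ] at this
          linarith
        · simp only [Fin.cons_succ]
      right_inv := by
        intro y
        funext i
        apply Subtype.ext
        simp only [Fin.cons_succ]
        rw [show (fun j : Fin q => e.symm (fun i => (y i : ℝ)) j) = e.symm (fun i => (y i : ℝ))
          from rfl, e.apply_symm_apply]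
      continuous_toFun := by
        refine continuous_pi fun i => Continuous.subtype_mk ?_ _
        refine (continuous_apply i).comp (e.continuous.comp ?_)
        exact continuous_pi fun j => (continuous_apply _).comp continuous_subtype_val
      continuous_invFun := by
        refine Continuous.subtype_mk ?_ _
        have h1 : Continuous (fun y : Fin q → I => e.symm (fun i => (y i : ℝ))) :=
          e.symm.continuous.comp (by fun_prop)
        refine continuous_pi fun i => ?_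
        refine Fin.cases ?_ (fun j => ?_) i
        · simp only [Fin.cons_zero]
          fun_prop
        · simp only [Fin.cons_succ]
          exact (continuous_apply j).comp h1 }
  have hv : ∀ x i, ((h x i : I) : ℝ) = e (fun j : Fin q => x.1 j.succ) i := fun _ _ => rfl
  refine ⟨h, fun x => ?_⟩
  have e1 : (∃ i, x.1 i = 0) ↔ (fun j : Fin q => x.1 j.succ) ∈ frontier (cornerK q) := by
    rw [frontier_cornerK q _ (hK x)]
    have hs := x.2.2
    rw [Fin.sum_univ_succ] at hs
    constructor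
    · rintro ⟨i, hi⟩
      revert hi
      refine Fin.cases ?_ (fun j => ?_) i
      · intro h0; right; linarith
      · intro h0; left; exact ⟨j, h0⟩
    · rintro (⟨j, hj⟩ | h0)
      · exact ⟨j.succ, hj⟩
      · exact ⟨0, by linarith⟩
  have e2 : (fun j : Fin q => x.1 j.succ) ∈ frontier (cornerK q) ↔
      e (fun j : Fin q => x.1 j.succ) ∈ frontier (cubeC q) := by
    rw [← he2]
    constructor
    · intro h; exact ⟨_, h, rfl⟩
    · rintro ⟨k, hk, hke⟩
      rw [← e.injective hke]; exact hk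
  rw [e1, e2, frontier_cubeC q _ (hC _ (hK x))]
  constructor
  · rintro ⟨i, hi | hi⟩
    · exact ⟨i, Or.inl (Subtype.ext (by rw [hv]; exact hi))⟩
    · exact ⟨i, Or.inr (Subtype.ext (by rw [hv]; exact hi))⟩
  · rintro ⟨i, hi | hi⟩
    · exact ⟨i, Or.inl (by rw [← hv, hi]; rfl)⟩
    · exact ⟨i, Or.inr (by rw [← hv, hi]; rfl)⟩

/-- **Relative Freudenthal step, simplex version.** -/
theorem step_simplex_rel {q n J : ℕ} (hq : q + J + 2 < 2 * (n + 1))
    (a : C(stdSimplex ℝ (Fin (q + 1)), GenLoop (Fin (J + 1)) (Sph (n + 1)) (pt (n + 1))))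
    (ha : ∀ x : stdSimplex ℝ (Fin (q + 1)), (∃ i, x.1 i = 0) → a x ∈ Set.range (susp n J)) :
    ∃ b : C(stdSimplex ℝ (Fin (q + 1)), GenLoop (Fin J) (Sph n) (pt n)),
      a.HomotopicRel ((susp n J).comp b) {x | ∃ i, x.1 i = 0} := by
  obtain ⟨h, hh⟩ := exists_simplexCube q
  let a' : C(Fin q → I, GenLoop (Fin (J + 1)) (Sph (n + 1)) (pt (n + 1))) :=
    ⟨fun y => a (h.symm y), a.continuous.comp h.symm.continuous⟩
  obtain ⟨b', ⟨H⟩⟩ := step_loop_rel hq a' (by
    intro y hy
    refine ha (h.symm y) ?_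
    rw [hh, h.apply_symm_apply]; exact hy)
  refine ⟨⟨fun x => b' (h x), b'.continuous.comp h.continuous⟩, ?_⟩
  have ha' : ∀ x, a' (h x) = a x := fun x => by
    show a (h.symm (h x)) = a x
    rw [h.symm_apply_apply]
  refine homotopicRel_mk (fun p => H (p.1, h p.2)) ?_ ?_ ?_ ?_
  · exact H.continuous.comp (by fun_prop)
  · intro x
    simp only
    rw [H.apply_zero, ha']
  · intro x
    simp only
    rw [H.apply_one]
    rfl
  · intro s x hx
    simp only
    rw [H.eq_fst s ((hh x).1 hx), ha']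

end Crest.Agent.R204.Freu297
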