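import Crest.Agent.R204.Defs

/-!
# Row 204, leaf A0 (helper334): gradings and bases of `N R K` and `H R K`

* `N.basis'`-type statement: `nbasis R K : Basis {t : K.T // ¬ Ch.IsDgn K t} R (N R K)`
* `isDgn_of_lt` / `isDgn_iff` : degeneracy via arbitrary operators; Eilenberg-Zilber lemma
* `prN`, `prH` : projections to the homogeneous parts; `isInternal_N`, `isInternal_H`
* `mem_H_gr`, `mk_gr_eq_zero` : homogeneous classes and homogeneous bounding chains
-/

set_option autoImplicit false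

noncomputable section

namespace Crest.Agent.R204.Gr334

open Finsupp

/-! ## degeneracy through arbitrary operators -/

section dgn
variable {K : SS}

/-- a monotone map which takes the same value at `j` and `j+1` factors through `dgn j` -/
theorem factor_dgn {n m : ℕ} (σ : Op (n + 1) m) (j : Fin (n + 1)) (h : σ j.castSucc = σ j.succ) :
    (σ.comp (Op.face j.succ)).comp (Op.dgn j) = σ := by
  ext a
  simp only [OrderHom.comp_coe, Function.comp_apply]
  have key : (Op.face j.succ (Op.dgn j a) = a) ∨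
      (a = j.succ ∧ Op.face j.succ (Op.dgn j a) = j.castSucc) := by
    rcases lt_trichotomy (a : ℕ) (j + 1) with h1 | h1 | h1
    · left
      apply Fin.ext
      rw [Ch.face_val, Ch.dgn_val, Fin.val_succ]
      split_ifs <;> omega
    · right
      refine ⟨Fin.ext (by simpa using h1), Fin.ext ?_⟩
      rw [Ch.face_val, Ch.dgn_val, Fin.val_succ, Fin.val_castSucc]
      split_ifs <;> omega
    · left
      apply Fin.ext
      rw [Ch.face_val, Ch.dgn_val, Fin.val_succ]
      split_ifs <;> omega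
  rcases key with h1 | ⟨h1, h2⟩
  · rw [h1]
  · rw [h2, h1, h]

/-- a monotone map to a smaller simplex takes the same value at two successive vertices -/
theorem exists_eq_succ {n m : ℕ} (h : m < n + 1) (σ : Op (n + 1) m) :
    ∃ j : Fin (n + 1), σ j.castSucc = σ j.succ := by
  by_contra hcon
  push Not at hcon
  have hmono : StrictMono σ := by
    rw [Fin.strictMono_iff_lt_succ]
    intro j
    exact lt_of_le_of_ne (σ.monotone (Fin.castSucc_le_succ j)) (hcon j)
  have := Fintype.card_le_of_injective σ hmono.injective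
  simp only [Fintype.card_fin] at this
  omega

theorem isDgn_of_lt {n m : ℕ} (h : m < n) (σ : Op n m) (y : K.S m) : Ch.IsDgn K ⟨n, K.act σ y⟩ := by
  obtain ⟨n, rfl⟩ : ∃ n', n = n' + 1 := ⟨n - 1, by omega⟩
  obtain ⟨j, hj⟩ := exists_eq_succ h σ
  refine ⟨j, K.act (σ.comp (Op.face j.succ)) y, ?_⟩
  rw [← K.act_comp, factor_dgn σ j hj]




/-- a surjective monotone map has a monotone section through any prescribed point -/
theorem exists_section {n m : ℕ} (σ : Op n m) (hσ : Function.Surjective σ) (a : Fin (n + 1)) :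
    ∃ s : Op m n, σ.comp s = OrderHom.id ∧ s (σ a) = a := by
  classical
  choose g hg using hσ
  let s : Fin (m + 1) → Fin (n + 1) := fun k => if k = σ a then a else g k
  have hs : ∀ k, σ (s k) = k := by
    intro k
    by_cases h : k = σ a
    · simp only [s, if_pos h]; exact h.symm
    · simp only [s, if_neg h]; exact hg k
  have hmono : Monotone s := by
    intro k l hkl
    rcases hkl.lt_or_eq with h | h
    · by_contra hcon
      push Not at hcon
      have := σ.monotone hcon.le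
      rw [hs, hs] at this
      exact absurd h (not_lt.2 this)
    · rw [h]
  refine ⟨⟨s, hmono⟩, ?_, ?_⟩
  · ext k
    have h1 : σ.comp ⟨s, hmono⟩ k = σ (s k) := rfl
    rw [h1, hs]; rfl
  · show (if σ a = σ a then a else g (σ a)) = a
    rw [if_pos rfl]


end dgn

/-! ## the basis of `N` -/

section basis
variable (R : Type) [CommRing R] (K : SS)

theorem Dg_eq_supported : Ch.Dg R K = Finsupp.supported R R {t : K.T | Ch.IsDgn K t} := by
  rw [Ch.Dg, Finsupp.supported_eq_span_single]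
  congr 1
  ext c
  constructor
  · rintro ⟨t, h, rfl⟩; exact ⟨t, h, rfl⟩
  · rintro ⟨t, h, rfl⟩; exact ⟨t, h, rfl⟩


theorem mem_Dg {c : Ch R K} : c ∈ Ch.Dg R K ↔ ∀ t ∈ c.support, Ch.IsDgn K t := by
  rw [Dg_eq_supported, Finsupp.mem_supported]; rfl


/-- nondegenerate simplices -/
abbrev ND (K : SS) : Type := {t : K.T // ¬ Ch.IsDgn K t}

/-- `N` is free on the nondegenerate simplices -/
def nequiv : N R K ≃ₗ[R] (ND K →₀ R) := by
  classical
  refine LinearEquiv.ofLinearMap
    (Submodule.liftQ (Ch.Dg R K) (Finsupp.lcomapDomain (fun t : ND K => (t : K.T)) Subtype.val_injective)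
      fun c hc => ?_)
    ((Ch.Dg R K).mkQ ∘ₗ Finsupp.lmapDomain R R (fun t : ND K => (t : K.T))) ?_ ?_
  · rw [LinearMap.mem_ker]
    ext t
    rw [mem_Dg] at hc
    by_contra h
    exact t.2 (hc t.1 (by simpa [Finsupp.lcomapDomain] using h))
  · ext t s
    simp [Finsupp.lcomapDomain, Finsupp.single_apply, Subtype.ext_iff]
  · apply LinearMap.ext
    intro c
    obtain ⟨c, rfl⟩ := Submodule.Quotient.mk_surjective _ c
    rw [LinearMap.id_apply, LinearMap.comp_apply, Submodule.liftQ_apply,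
      LinearMap.comp_apply, Submodule.mkQ_apply, Submodule.Quotient.eq, mem_Dg]
    intro t ht
    by_contra hd
    rw [Finsupp.mem_support_iff] at ht
    apply ht
    rw [Finsupp.sub_apply, sub_eq_zero, Finsupp.lmapDomain_apply]
    have := Finsupp.mapDomain_apply (f := fun t : ND K => (t : K.T)) Subtype.val_injective
      (Finsupp.lcomapDomain (R := R) (fun t : ND K => (t : K.T)) Subtype.val_injective c) ⟨t, hd⟩
    rw [this]
    simp [Finsupp.lcomapDomain]

@[simp] theorem nequiv_symm_single (t : ND K) (r : R) :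
    (nequiv R K).symm (single t r) = r • N.sx R t.1.2 := by
  show (Ch.Dg R K).mkQ (Finsupp.lmapDomain R R (fun t : ND K => (t : K.T)) (single t r)) = _
  rw [Finsupp.lmapDomain_apply, Finsupp.mapDomain_single]
  rw [N.sx, ← Submodule.Quotient.mk_smul, Finsupp.smul_single, smul_eq_mul, mul_one]
  rfl

/-- the basis of nondegenerate simplices -/
def nbasis : Module.Basis (ND K) R (N R K) := ⟨nequiv R K⟩

@[simp] theorem nbasis_apply (t : ND K) : nbasis R K t = N.sx R t.1.2 := by
  show (nequiv R K).symm (single t 1) = _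
  rw [nequiv_symm_single, one_smul]

instance : Module.Free R (N R K) := Module.Free.of_basis (nbasis R K)

variable {R K}

theorem sx_eq_zero_of_dgn {n : ℕ} {x : K.S n} (h : Ch.IsDgn K ⟨n, x⟩) : N.sx R x = 0 :=
  (Submodule.Quotient.mk_eq_zero _).2 (Submodule.subset_span ⟨_, h, rfl⟩)

theorem sx_act_of_lt {n m : ℕ} (h : m < n) (σ : Op n m) (y : K.S m) : N.sx R (K.act σ y) = 0 :=
  sx_eq_zero_of_dgn (isDgn_of_lt h σ y)


/-- the coefficient of a chain at a nondegenerate simplex -/
def coef {n : ℕ} (x : K.S n) (h : ¬ Ch.IsDgn K ⟨n, x⟩) : N R K →ₗ[R] R :=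
  (nbasis R K).coord ⟨⟨n, x⟩, h⟩

end basis

/-! ## projections to homogeneous parts -/

section proj
variable (R : Type) [CommRing R] (K : SS)

/-- projection of `Ch` to degree `n` -/
def prC (n : ℕ) : Ch R K →ₗ[R] Ch R K := by
  classical exact (Finsupp.supported R R {t : K.T | t.1 = n}).subtype ∘ₗ
    Finsupp.restrictDom R R {t : K.T | t.1 = n}

theorem prC_single_self {n : ℕ} (x : K.S n) (r : R) : prC R K n (single ⟨n, x⟩ r) = single ⟨n, x⟩ r := by
  classical
  simp [prC, Finsupp.restrictDom_apply, Finsupp.filter_single_of_pos]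

theorem prC_single_ne {n m : ℕ} (h : m ≠ n) (x : K.S m) (r : R) : prC R K n (single ⟨m, x⟩ r) = 0 := by
  classical
  simp [prC, Finsupp.restrictDom_apply, Finsupp.filter_single_of_neg, h]

theorem prC_mem_Dg (n : ℕ) {c : Ch R K} (hc : c ∈ Ch.Dg R K) : prC R K n c ∈ Ch.Dg R K := by
  refine Submodule.span_induction (p := fun c _ => prC R K n c ∈ Ch.Dg R K) ?_ ?_ ?_ ?_ hc
  · rintro _ ⟨⟨m, x⟩, h, rfl⟩
    by_cases e : m = n
    · subst e
      rw [prC_single_self]; exact Submodule.subset_span ⟨_, h, rfl⟩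
    · rw [prC_single_ne R K e]; exact zero_mem _
  · rw [map_zero]; exact zero_mem _
  · intro x y _ _ hx hy; rw [map_add]; exact add_mem hx hy
  · intro r x _ hx; rw [map_smul]; exact Submodule.smul_mem _ _ hx

/-- projection of `N` to degree `n` -/
def prN (n : ℕ) : N R K →ₗ[R] N R K := Submodule.mapQ _ _ (prC R K n) fun _ h => prC_mem_Dg R K n h

theorem prN_mk (n : ℕ) (c : Ch R K) :
    prN R K n (Submodule.Quotient.mk c) = Submodule.Quotient.mk (prC R K n c) := rfl

variable {R K}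

/-- two linear maps on `N` which agree on simplices are equal -/
theorem N_ext {M : Type*} [AddCommGroup M] [Module R M] {f g : N R K →ₗ[R] M}
    (h : ∀ (n : ℕ) (x : K.S n), f (N.sx R x) = g (N.sx R x)) : f = g := by
  apply Submodule.linearMap_qext
  apply Finsupp.lhom_ext'
  rintro ⟨n, x⟩
  apply LinearMap.ext_ring
  exact h n x

theorem sx_mem_gr {n : ℕ} (x : K.S n) : N.sx R x ∈ N.gr R K n :=
  Submodule.mem_map_of_mem (Submodule.subset_span ⟨x, rfl⟩)

theorem N_gr_eq_span (n : ℕ) : N.gr R K n = Submodule.span R {c | ∃ x : K.S n, c = N.sx R x} := by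
  rw [N.gr, Ch.gr, Submodule.map_span]
  congr 1
  ext c
  constructor
  · rintro ⟨_, ⟨x, rfl⟩, rfl⟩; exact ⟨x, rfl⟩
  · rintro ⟨x, rfl⟩; exact ⟨_, ⟨x, rfl⟩, rfl⟩

theorem gr_induction {n : ℕ} {p : N R K → Prop} {c : N R K} (hc : c ∈ N.gr R K n) (h0 : p 0)
    (hadd : ∀ a b, p a → p b → p (a + b)) (hsmul : ∀ (r : R) (a : N R K), p a → p (r • a))
    (hx : ∀ x : K.S n, p (N.sx R x)) : p c := by
  rw [N_gr_eq_span] at hc
  refine Submodule.span_induction (p := fun c _ => p c) ?_ h0 (fun a b _ _ => hadd a b)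
    (fun r a _ => hsmul r a) hc
  rintro _ ⟨x, rfl⟩; exact hx x

@[simp] theorem prN_sx_self {n : ℕ} (x : K.S n) : prN R K n (N.sx R x) = N.sx R x := by
  rw [N.sx, prN_mk, prC_single_self]

theorem prN_sx_ne {n m : ℕ} (h : m ≠ n) (x : K.S m) : prN R K n (N.sx R x) = 0 := by
  rw [N.sx, prN_mk, prC_single_ne R K h]; rfl

theorem prN_sx {n m : ℕ} (x : K.S m) : prN R K n (N.sx R x) = if m = n then N.sx R x else 0 := by
  split_ifs with h
  · subst h; rw [prN_sx_self]
  · exact prN_sx_ne h x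

theorem prN_of_mem {n : ℕ} {c : N R K} (hc : c ∈ N.gr R K n) : prN R K n c = c := by
  refine gr_induction (p := fun c => prN R K n c = c) hc (map_zero _) ?_ ?_ fun x => prN_sx_self x
  · intro a b ha hb; rw [map_add, ha, hb]
  · intro r a ha; rw [map_smul, ha]

theorem prN_of_mem_ne {n m : ℕ} (h : m ≠ n) {c : N R K} (hc : c ∈ N.gr R K m) : prN R K n c = 0 := by
  refine gr_induction (p := fun c => prN R K n c = 0) hc (map_zero _) ?_ ?_ fun x => prN_sx_ne h x
  · intro a b ha hb; rw [map_add, ha, hb, add_zero]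
  · intro r a ha; rw [map_smul, ha, smul_zero]

theorem prN_mem (n : ℕ) (c : N R K) : prN R K n c ∈ N.gr R K n := by
  have h : (N.gr R K n).mkQ ∘ₗ prN R K n = 0 := by
    apply N_ext
    intro m x
    rw [LinearMap.comp_apply, prN_sx, LinearMap.zero_apply, Submodule.mkQ_apply,
      Submodule.Quotient.mk_eq_zero]
    split_ifs with e
    · subst e; exact sx_mem_gr x
    · exact zero_mem _
  have := LinearMap.congr_fun h c
  rwa [LinearMap.comp_apply, LinearMap.zero_apply, Submodule.mkQ_apply,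
    Submodule.Quotient.mk_eq_zero] at this

theorem mem_gr_iff {n : ℕ} {c : N R K} : c ∈ N.gr R K n ↔ prN R K n c = c :=
  ⟨prN_of_mem, fun h => h ▸ prN_mem n c⟩

/-- every chain is the sum of its homogeneous parts -/
theorem exists_sum_prN (c : N R K) : ∃ M : ℕ, (∀ n, M ≤ n → prN R K n c = 0) ∧
    c = ∑ n ∈ Finset.range M, prN R K n c := by
  obtain ⟨c, rfl⟩ := Submodule.Quotient.mk_surjective _ c
  induction c using Finsupp.induction_linear with
  | zero => exact ⟨0, fun n _ => map_zero _, by simp⟩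
  | add f g hf hg =>
    obtain ⟨M, h1, h2⟩ := hf
    obtain ⟨M', h1', h2'⟩ := hg
    have key : ∀ (M M' : ℕ) (c : N R K), M ≤ M' → (∀ n, M ≤ n → prN R K n c = 0) →
        c = ∑ n ∈ Finset.range M, prN R K n c → c = ∑ n ∈ Finset.range M', prN R K n c := by
      intro M M' c hM h3 h4
      conv_lhs => rw [h4]
      refine Finset.sum_subset (Finset.range_mono hM) fun n _ hn => h3 n ?_
      simpa using hn
    refine ⟨max M M', fun n hn => ?_, ?_⟩
    · rw [Submodule.Quotient.mk_add, map_add, h1 n (le_trans (le_max_left _ _) hn),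
        h1' n (le_trans (le_max_right _ _) hn), add_zero]
    · rw [Submodule.Quotient.mk_add]
      simp only [map_add, Finset.sum_add_distrib]
      rw [← key M (max M M') _ (le_max_left _ _) h1 h2, ← key M' (max M M') _ (le_max_right _ _) h1' h2']
  | single t r =>
    obtain ⟨m, x⟩ := t
    have h : ∀ n, prN R K n (Submodule.Quotient.mk (single ⟨m, x⟩ r)) =
        if m = n then Submodule.Quotient.mk (single ⟨m, x⟩ r) else 0 := by
      intro n
      rw [prN_mk]
      split_ifs with e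
      · subst e; rw [prC_single_self]
      · rw [prC_single_ne R K e]; rfl
    refine ⟨m + 1, fun n hn => by rw [h, if_neg (by omega)], ?_⟩
    simp only [h]
    rw [Finset.sum_ite_eq, if_pos (by simp)]



theorem bd_sx_zero (x : K.S 0) : N.bd R K (N.sx R x) = 0 := by
  rw [N.sx, N.bd_mk, Ch.bd_single_zero]; rfl

theorem bd_sx_succ {n : ℕ} (x : K.S (n + 1)) : N.bd R K (N.sx R x) =
    ∑ i : Fin (n + 2), ((-1 : R) ^ (i : ℕ)) • N.sx R (K.act (Op.face i) x) := by
  rw [N.sx, N.bd_mk, Ch.bd_single_succ, ← Submodule.mkQ_apply, map_sum]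
  refine Finset.sum_congr rfl fun i _ => ?_
  rw [N.sx, Submodule.mkQ_apply, ← Submodule.Quotient.mk_smul, Finsupp.smul_single, smul_eq_mul, one_mul,
    mul_one]

theorem bd_mem_gr {n : ℕ} {c : N R K} (hc : c ∈ N.gr R K (n + 1)) : N.bd R K c ∈ N.gr R K n := by
  refine gr_induction (p := fun c => N.bd R K c ∈ N.gr R K n) hc ?_ ?_ ?_ fun x => ?_
  · rw [map_zero]; exact zero_mem _
  · intro a b ha hb; rw [map_add]; exact add_mem ha hb
  · intro r a ha; rw [map_smul]; exact Submodule.smul_mem _ _ ha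
  · rw [bd_sx_succ]
    exact Submodule.sum_mem _ fun i _ => Submodule.smul_mem _ _ (sx_mem_gr _)

theorem bd_gr_zero {c : N R K} (hc : c ∈ N.gr R K 0) : N.bd R K c = 0 := by
  refine gr_induction (p := fun c => N.bd R K c = 0) hc (map_zero _) ?_ ?_ fun x => bd_sx_zero x
  · intro a b ha hb; rw [map_add, ha, hb, add_zero]
  · intro r a ha; rw [map_smul, ha, smul_zero]

theorem prN_bd (n : ℕ) (c : N R K) : prN R K n (N.bd R K c) = N.bd R K (prN R K (n + 1) c) := by
  have h : prN R K n ∘ₗ N.bd R K = N.bd R K ∘ₗ prN R K (n + 1) := by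
    apply N_ext
    intro m x
    rw [LinearMap.comp_apply, LinearMap.comp_apply]
    rcases m with _ | m
    · rw [bd_sx_zero, map_zero, prN_sx_ne (by omega), map_zero]
    · by_cases e : m = n
      · subst e
        rw [prN_sx_self, prN_of_mem (bd_mem_gr (sx_mem_gr x))]
      · rw [prN_sx_ne (by omega), map_zero, prN_of_mem_ne e (bd_mem_gr (sx_mem_gr x))]
  exact LinearMap.congr_fun h c

theorem map_mem_gr {L : SS} (f : SS.Hom K L) {n : ℕ} {c : N R K} (hc : c ∈ N.gr R K n) :
    N.map R f c ∈ N.gr R L n := by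
  refine gr_induction (p := fun c => N.map R f c ∈ N.gr R L n) hc ?_ ?_ ?_ fun x => ?_
  · rw [map_zero]; exact zero_mem _
  · intro a b ha hb; rw [map_add]; exact add_mem ha hb
  · intro r a ha; rw [map_smul]; exact Submodule.smul_mem _ _ ha
  · rw [N.map_sx]; exact sx_mem_gr _

theorem prN_map {L : SS} (f : SS.Hom K L) (n : ℕ) (c : N R K) :
    prN R L n (N.map R f c) = N.map R f (prN R K n c) := by
  have h : prN R L n ∘ₗ N.map R f = N.map R f ∘ₗ prN R K n := by
    apply N_ext
    intro m x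
    rw [LinearMap.comp_apply, LinearMap.comp_apply, N.map_sx, prN_sx, prN_sx]
    split_ifs
    · rw [N.map_sx]
    · rw [map_zero]
  exact LinearMap.congr_fun h c

/-- generic criterion for an internal direct sum -/
theorem isInternal_of_pr {M : Type*} [AddCommGroup M] [Module R M] (g : ℕ → Submodule R M)
    (pr : ℕ → M →ₗ[R] M) (h1 : ∀ n, ∀ x ∈ g n, pr n x = x) (h2 : ∀ n m, m ≠ n → ∀ x ∈ g m, pr n x = 0)
    (h3 : ∀ x, ∃ s : Finset ℕ, ∃ y : ℕ → M, (∀ n, y n ∈ g n) ∧ x = ∑ n ∈ s, y n) :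
    DirectSum.IsInternal g := by
  classical
  rw [DirectSum.isInternal_submodule_iff_iSupIndep_and_iSup_eq_top]
  constructor
  · rw [iSupIndep_def]
    intro n
    rw [Submodule.disjoint_def]
    intro x hx hx'
    rw [← h1 n x hx]
    have : ∀ x ∈ ⨆ j, ⨆ (_ : j ≠ n), g j, pr n x = 0 := by
      intro x hx
      have h4 : (⨆ j, ⨆ (_ : j ≠ n), g j) ≤ LinearMap.ker (pr n) := by
        refine iSup_le fun j => iSup_le fun hj => fun y hy => ?_
        exact h2 n j hj y hy
      exact h4 hx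
    exact this x hx'
  · rw [eq_top_iff]
    intro x _
    obtain ⟨s, y, h4, rfl⟩ := h3 x
    exact Submodule.sum_mem _ fun n _ => (le_iSup g n) (h4 n)

variable (R K)


end proj

/-! ## homology -/

section homology
variable (R : Type) [CommRing R] (K : SS)

/-- the projection of the homology to degree `n` -/
def prH (n : ℕ) : H R K →ₗ[R] H R K :=
  Submodule.mapQ _ _ ((prN R K n).restrict (p := LinearMap.ker (N.bd R K))
    (q := LinearMap.ker (N.bd R K)) (fun x hx => by
      rw [LinearMap.mem_ker] at hx ⊢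
      rcases n with _ | n
      · exact bd_gr_zero (prN_mem 0 x)
      · rw [← prN_bd, hx, map_zero]))
    (by
      rintro ⟨x, hx⟩ hx'
      simp only [Submodule.mem_comap, Submodule.subtype_apply, LinearMap.mem_range] at hx' ⊢
      obtain ⟨y, hy⟩ := hx'
      refine ⟨prN R K (n + 1) y, ?_⟩
      rw [← prN_bd, hy]; rfl)

variable {R K}

theorem bd_prN_eq_zero {z : N R K} (hz : N.bd R K z = 0) (n : ℕ) : N.bd R K (prN R K n z) = 0 := by
  rcases n with _ | n
  · exact bd_gr_zero (prN_mem 0 z)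
  · rw [← prN_bd, hz, map_zero]

theorem prH_mk (n : ℕ) (z : N R K) (hz : N.bd R K z = 0) :
    prH R K n (Hd.mk _ z hz) = Hd.mk _ (prN R K n z) (bd_prN_eq_zero hz n) := rfl

/-- classes of degree `n` are represented by cycles of degree `n` -/
theorem mem_H_gr {n : ℕ} {x : H R K} : x ∈ H.gr R K n ↔ ∃ z ∈ N.gr R K n, ∃ hz, x = Hd.mk (N.bd R K) z hz := by
  constructor
  · rintro ⟨⟨z, hz⟩, h, rfl⟩
    exact ⟨z, h, hz, rfl⟩
  · rintro ⟨z, h, hz, rfl⟩
    exact ⟨⟨z, hz⟩, h, rfl⟩

theorem mk_mem_gr {n : ℕ} {z : N R K} (h : z ∈ N.gr R K n) (hz : N.bd R K z = 0) :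
    Hd.mk (N.bd R K) z hz ∈ H.gr R K n := mem_H_gr.2 ⟨z, h, hz, rfl⟩


theorem mk_gr_eq_mk {n : ℕ} {z z' : N R K} (h : z ∈ N.gr R K n) (h' : z' ∈ N.gr R K n)
    {hz : N.bd R K z = 0} {hz' : N.bd R K z' = 0} :
    Hd.mk (N.bd R K) z hz = Hd.mk (N.bd R K) z' hz' ↔ ∃ w ∈ N.gr R K (n + 1), N.bd R K w = z - z' := by
  rw [Hd.mk_eq_mk]
  constructor
  · rintro ⟨w, hw⟩
    exact ⟨prN R K (n + 1) w, prN_mem _ _, by rw [← prN_bd, hw, prN_of_mem (sub_mem h h')]⟩
  · rintro ⟨w, -, h⟩; exact ⟨w, h⟩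

theorem prH_mem (n : ℕ) (x : H R K) : prH R K n x ∈ H.gr R K n := by
  obtain ⟨z, hz, rfl⟩ := Hd.mk_surj _ x
  rw [prH_mk]; exact mk_mem_gr (prN_mem n z) _

theorem prH_of_mem {n : ℕ} {x : H R K} (hx : x ∈ H.gr R K n) : prH R K n x = x := by
  obtain ⟨z, h, hz, rfl⟩ := mem_H_gr.1 hx
  rw [prH_mk, Hd.mk_eq_mk]
  exact ⟨0, by rw [map_zero, prN_of_mem h, sub_self]⟩

theorem prH_of_mem_ne {n m : ℕ} (e : m ≠ n) {x : H R K} (hx : x ∈ H.gr R K m) : prH R K n x = 0 := by
  obtain ⟨z, h, hz, rfl⟩ := mem_H_gr.1 hx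
  rw [prH_mk, Hd.mk_eq_zero]
  exact ⟨0, by rw [map_zero, prN_of_mem_ne e h]⟩


theorem mk_sum {ι : Type*} (s : Finset ι) (z : ι → N R K) (hz : ∀ i, N.bd R K (z i) = 0)
    (h : N.bd R K (∑ i ∈ s, z i) = 0) :
    Hd.mk (N.bd R K) (∑ i ∈ s, z i) h = ∑ i ∈ s, Hd.mk (N.bd R K) (z i) (hz i) := by
  have e : (⟨∑ i ∈ s, z i, h⟩ : LinearMap.ker (N.bd R K)) = ∑ i ∈ s, ⟨z i, hz i⟩ := by
    apply Subtype.ext
    rw [AddSubmonoidClass.coe_finsetSum]
  show (Submodule.mkQ _) (⟨∑ i ∈ s, z i, h⟩ : LinearMap.ker (N.bd R K)) = _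
  rw [e, map_sum]
  rfl

theorem exists_sum_prH (x : H R K) : ∃ M : ℕ, (∀ n, M ≤ n → prH R K n x = 0) ∧
    x = ∑ n ∈ Finset.range M, prH R K n x := by
  obtain ⟨z, hz, rfl⟩ := Hd.mk_surj _ x
  obtain ⟨M, h1, h2⟩ := exists_sum_prN z
  refine ⟨M, fun n hn => ?_, ?_⟩
  · rw [prH_mk, Hd.mk_eq_zero]
    exact ⟨0, by rw [map_zero, h1 n hn]⟩
  · simp only [prH_mk]
    rw [← mk_sum (Finset.range M) (fun n => prN R K n z) (fun n => bd_prN_eq_zero hz n)
      (by rw [← h2]; exact hz)]
    rw [Hd.mk_eq_mk]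
    exact ⟨0, by rw [map_zero, ← h2, sub_self]⟩

variable (R K) in
/-- `H R K` is the internal direct sum of its homogeneous parts -/
theorem isInternal_H : DirectSum.IsInternal (H.gr R K) := by
  refine isInternal_of_pr (H.gr R K) (prH R K) (fun n x hx => prH_of_mem hx)
    (fun n m h x hx => prH_of_mem_ne h hx) fun x => ?_
  obtain ⟨M, -, h⟩ := exists_sum_prH x
  exact ⟨Finset.range M, fun n => prH R K n x, fun n => prH_mem n x, h⟩

/-- induction: a property closed under addition and valid for homogeneous classes holds for all -/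
theorem H_induction {p : H R K → Prop} (x : H R K) (h0 : p 0) (hadd : ∀ a b, p a → p b → p (a + b))
    (hx : ∀ n, ∀ a ∈ H.gr R K n, p a) : p x := by
  obtain ⟨M, -, h⟩ := exists_sum_prH x
  rw [h]
  exact Finset.sum_induction _ p hadd h0 fun n _ => hx n _ (prH_mem n x)

theorem H_map_mem_gr {L : SS} (f : SS.Hom K L) {n : ℕ} {x : H R K} (hx : x ∈ H.gr R K n) :
    H.map R f x ∈ H.gr R L n := by
  obtain ⟨z, h, hz, rfl⟩ := mem_H_gr.1 hx
  exact mk_mem_gr (map_mem_gr f h) _

theorem prH_map {L : SS} (f : SS.Hom K L) (n : ℕ) (x : H R K) :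
    prH R L n (H.map R f x) = H.map R f (prH R K n x) := by
  obtain ⟨z, hz, rfl⟩ := Hd.mk_surj _ x
  rw [prH_mk]
  show prH R L n (Hd.mk (N.bd R L) (N.map R f z) _) = Hd.mk (N.bd R L) (N.map R f (prN R K n z)) _
  rw [prH_mk, Hd.mk_eq_mk]
  exact ⟨0, by rw [map_zero, prN_map, sub_self]⟩


end homology

end Crest.Agent.R204.Gr334
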