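import Crest.Agent.R204.Defs
import Crest.Agent.R224.T.Defs

/-!
# Row 204, block A: statements of the leaves (helper334)

Every leaf is a `def … : Prop`.  Prove it in your own file, `theorem xxx : SpecA.Leaf := …`.
-/

set_option autoImplicit false

noncomputable section

open Function

namespace Crest.Agent.R204.SpecA

/-! ## A0' normalisation theorem -/

/-- A0' (normalisation theorem): the complex of degenerate chains is acyclic, any coefficients. -/
def DgAcyclic : Prop := ∀ (R : Type) [CommRing R] (K : SS) (c : Ch R K), c ∈ Ch.Dg R K →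
  Ch.bd R K c = 0 → ∃ w ∈ Ch.Dg R K, Ch.bd R K w = c

/-! ## A6 homotopies -/

/-- the vertex `i` of the interval as a map `K → K × Δ¹` -/
def endMap (K : SS) (i : Fin 2) : SS.Hom K (K.prod (SS.std 1)) :=
  SS.pair (SS.Hom.id K) ⟨fun _ _ => ⟨fun _ => i, fun _ _ _ => le_rfl⟩, fun _ _ => rfl⟩

/-- A6a: simplicially homotopic maps agree in homology (helper271) -/
def HomotopyInv : Prop := ∀ (R : Type) [CommRing R] (K L : SS) (h : SS.Hom (K.prod (SS.std 1)) L),
  H.map R (SS.Hom.comp h (endMap K 0)) = H.map R (SS.Hom.comp h (endMap K 1))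

/-- A6b: homotopic maps of spaces agree in homology (helper265) -/
def TopHomotopyInv : Prop := ∀ (R : Type) [CommRing R] (X Y : Type) [TopologicalSpace X]
  [TopologicalSpace Y] (f g : C(X, Y)), f.Homotopic g →
  H.map R (SS.SingMap f) = H.map R (SS.SingMap g)

/-- A6c: a contractible space has the homology of a point -/
def Contr : Prop := ∀ (R : Type) [CommRing R] (X : Type) [TopologicalSpace X] [ContractibleSpace X],
  Bijective (H.map R (SS.toPt (SS.Sing X)))

/-! ## A7 homological algebra for `Hd` -/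


/-! ## A8 topology, mod 2 -/

/-- the mod 2 singular chains of `R224/T` inside `Ch F2 (Sing Y)` -/
def emb (Y : Type) [TopologicalSpace Y] (n : ℕ) : R224.T.Ch n Y →ₗ[F2] Ch F2 (SS.Sing Y) :=
  Finsupp.lmapDomain F2 F2 (fun σ => (⟨n, σ⟩ : (SS.Sing Y).T))


/-- inclusion of a subspace -/
def inc {Y : Type} [TopologicalSpace Y] (A : Set Y) : C(A, Y) := ⟨Subtype.val, continuous_subtype_val⟩

/-- inclusion between subspaces -/
def inc₂ {Y : Type} [TopologicalSpace Y] {A B : Set Y} (h : A ⊆ B) : C(A, B) :=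
  ⟨Set.inclusion h, continuous_inclusion h⟩

/-- homology map of a continuous map -/
abbrev Hm {Y Z : Type} [TopologicalSpace Y] [TopologicalSpace Z] (f : C(Y, Z)) :
    H F2 (SS.Sing Y) →ₗ[F2] H F2 (SS.Sing Z) := H.map F2 (SS.SingMap f)


/-- the unit sphere -/
abbrev Sph (n : ℕ) : Type := Metric.sphere (0 : EuclideanSpace ℝ (Fin (n + 1))) 1

/-- constant simplex -/
def cst {Y : Type} [TopologicalSpace Y] (y : Y) (n : ℕ) : (SS.Sing Y).S n := ContinuousMap.const _ y

/-- A8b: homology of the spheres, with a spherical fundamental class: a singular simplex all of whose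
faces are constant. -/
def Spheres : Prop := ∀ (n : ℕ) (y : Sph (n + 1)),
  ∃ x : (SS.Sing (Sph (n + 1))).S (n + 1),
    (∀ i, (SS.Sing (Sph (n + 1))).act (Op.face i) x = cst y n) ∧
    (∀ hz : N.bd F2 _ (N.sx F2 x) = 0,
      Hd.mk (N.bd F2 _) (N.sx F2 x) hz ≠ 0 ∧
      H.gr F2 (SS.Sing (Sph (n + 1))) (n + 1) = Submodule.span F2 {Hd.mk (N.bd F2 _) (N.sx F2 x) hz}) ∧
    (∀ m, m ≠ 0 → m ≠ n + 1 → H.gr F2 (SS.Sing (Sph (n + 1))) m = ⊥)

/-- A8c: the quotient simplex.  `x` collapses the boundary of the simplex to a point and is injective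
inside; its class is the fundamental class. -/
def CollapseGen : Prop := ∀ (n : ℕ) (y : Sph (n + 1)) (x : C(stdSimplex ℝ (Fin (n + 2)), Sph (n + 1))),
  (∀ i, (SS.Sing (Sph (n + 1))).act (Op.face i) x = cst y n) →
  Surjective x →
  (∀ p q : stdSimplex ℝ (Fin (n + 2)), x p = x q → p = q ∨ ((∃ i, p i = 0) ∧ ∃ i, q i = 0)) →
  ∀ hz : N.bd F2 (SS.Sing (Sph (n + 1))) (N.sx (K := SS.Sing (Sph (n + 1))) (n := n + 1) F2 x) = 0,
    Hd.mk (N.bd F2 (SS.Sing (Sph (n + 1)))) (N.sx (K := SS.Sing (Sph (n + 1))) (n := n + 1) F2 x) hz ≠ 0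

/-- A8d: connected spaces -/
def HZero : Prop := ∀ (Y : Type) [TopologicalSpace Y] [PathConnectedSpace Y],
  ∀ x ∈ H.gr F2 (SS.Sing Y) 0, H.map F2 (SS.toPt (SS.Sing Y)) x = 0 → x = 0


end Crest.Agent.R204.SpecA
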