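import Mathlib
import Crest.Agent.R204.Defs
import Crest.Agent.R204.SpecA_334

-- ▼ part R204/Bridge_478
section

/-!
# Row 204, block I0a: bridge from Mathlib's singular homology (mod 2) to explicit chains

`Ch X d` = finitely supported functions on `X _⦋d⦌` with values in `ZMod 2`, `bd` = sum of faces.
Main results: `homologyMap_eq_of_chains`, `homologyMap_eq_zero_of_chains`,
`singular_map_eq_of_chains`, `singular_map_eq_zero_of_chains`.
-/

set_option autoImplicit false

open CategoryTheory Limits Simplicial AlgebraicTopology Opposite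

namespace Crest.Agent.R204.Bridge478

/-- the coefficient module -/
noncomputable abbrev R2 : ModuleCat.{0} (ZMod 2) := ModuleCat.of (ZMod 2) (ZMod 2)

/-- explicit mod 2 chains of a simplicial set -/
abbrev Ch (X : SSet.{0}) (d : ℕ) : Type := (X.obj (op ⦋d⦌)) →₀ ZMod 2

/-- the face operators -/
abbrev face (X : SSet.{0}) {d : ℕ} (i : Fin (d + 2)) (x : X.obj (op ⦋d + 1⦌)) : X.obj (op ⦋d⦌) :=
  X.map (SimplexCategory.δ i).op x

/-- the boundary: the sum of all faces -/
noncomputable def bd (X : SSet.{0}) (d : ℕ) : Ch X (d + 1) →ₗ[ZMod 2] Ch X d :=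
  ∑ i : Fin (d + 2), Finsupp.lmapDomain (ZMod 2) (ZMod 2) (face X i)

/-- the induced map on chains -/
noncomputable def mapC {X Y : SSet.{0}} (F : X ⟶ Y) (d : ℕ) : Ch X d →ₗ[ZMod 2] Ch Y d :=
  Finsupp.lmapDomain (ZMod 2) (ZMod 2) (F.app (op ⦋d⦌))

lemma comp_apply_hom {A B C : ModuleCat.{0} (ZMod 2)} {f : A ⟶ B} {g : B ⟶ C} {h : A ⟶ C}
    (e : f ≫ g = h) (x : A) : g.hom (f.hom x) = h.hom x := by rw [← e]; rfl

lemma comp_apply_zero {A B C : ModuleCat.{0} (ZMod 2)} {f : A ⟶ B} {g : B ⟶ C}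
    (e : f ≫ g = 0) (x : A) : g.hom (f.hom x) = 0 := by rw [comp_apply_hom e]; rfl

lemma comp_apply_hom₂ {A B B' C : ModuleCat.{0} (ZMod 2)} {f : A ⟶ B} {g : B ⟶ C}
    {f' : A ⟶ B'} {g' : B' ⟶ C} (e : f ≫ g = f' ≫ g') (x : A) :
    g.hom (f.hom x) = g'.hom (f'.hom x) := comp_apply_hom e x

lemma bd_single (X : SSet.{0}) (d : ℕ) (x : X.obj (op ⦋d + 1⦌)) (a : ZMod 2) :
    bd X d (Finsupp.single x a) = ∑ i : Fin (d + 2), Finsupp.single (face X i x) a := by
  simp [bd, LinearMap.sum_apply, Finsupp.lmapDomain_apply, Finsupp.mapDomain_single]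

lemma mapC_single {X Y : SSet.{0}} (F : X ⟶ Y) (d : ℕ) (x : X.obj (op ⦋d⦌)) (a : ZMod 2) :
    mapC F d (Finsupp.single x a) = Finsupp.single (F.app (op ⦋d⦌) x) a := by
  simp [mapC, Finsupp.lmapDomain_apply, Finsupp.mapDomain_single]

/-! ### the comparison of chain groups -/

/-- from explicit chains to Mathlib's chains -/
noncomputable def fromFin (X : SSet.{0}) (d : ℕ) :
    ModuleCat.of (ZMod 2) (Ch X d) ⟶ (X.chainComplex R2).X d :=
  ModuleCat.ofHom (Finsupp.lsum (ZMod 2) (fun x => (X.ιChainComplex (R := R2) x).hom))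

/-- from Mathlib's chains to explicit chains -/
noncomputable def toFin (X : SSet.{0}) (d : ℕ) :
    (X.chainComplex R2).X d ⟶ ModuleCat.of (ZMod 2) (Ch X d) :=
  Cofan.IsColimit.desc (X.isColimitChainComplexXCofan R2 d)
    (fun x => ModuleCat.ofHom (Finsupp.lsingle x))

lemma ι_toFin (X : SSet.{0}) (d : ℕ) (x : X.obj (op ⦋d⦌)) :
    X.ιChainComplex (R := R2) x ≫ toFin X d = ModuleCat.ofHom (Finsupp.lsingle x) :=
  Cofan.IsColimit.fac (X.isColimitChainComplexXCofan R2 d) _ x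

lemma ofHom_lsingle_fromFin (X : SSet.{0}) (d : ℕ) (x : X.obj (op ⦋d⦌)) :
    ModuleCat.ofHom (Finsupp.lsingle x) ≫ fromFin X d = X.ιChainComplex (R := R2) x := by
  apply ModuleCat.hom_ext
  apply LinearMap.ext
  intro a
  change (Finsupp.lsum (ZMod 2) (fun x => (X.ιChainComplex (R := R2) x).hom)) (Finsupp.single x a)
    = _
  rw [Finsupp.lsum_single]

lemma toFin_fromFin (X : SSet.{0}) (d : ℕ) : toFin X d ≫ fromFin X d = 𝟙 _ := by
  apply SSet.chainComplex_hom_ext
  intro x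
  rw [← Category.assoc, ι_toFin, ofHom_lsingle_fromFin, Category.comp_id]

lemma fromFin_toFin (X : SSet.{0}) (d : ℕ) : fromFin X d ≫ toFin X d = 𝟙 _ := by
  apply ModuleCat.hom_ext
  apply Finsupp.lhom_ext'
  intro x
  have h : ModuleCat.ofHom (Finsupp.lsingle x) ≫ (fromFin X d ≫ toFin X d)
      = ModuleCat.ofHom (Finsupp.lsingle x) ≫ 𝟙 (ModuleCat.of (ZMod 2) (Ch X d)) := by
    rw [← Category.assoc, ofHom_lsingle_fromFin, ι_toFin, Category.comp_id]
  exact congrArg ModuleCat.Hom.hom h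

lemma fromFin_d (X : SSet.{0}) (d : ℕ) :
    fromFin X (d + 1) ≫ (X.chainComplex R2).d (d + 1) d
      = ModuleCat.ofHom (bd X d) ≫ fromFin X d := by
  apply ModuleCat.hom_ext
  apply Finsupp.lhom_ext'
  intro x
  have h1 : ModuleCat.ofHom (Finsupp.lsingle x) ≫
      (fromFin X (d + 1) ≫ (X.chainComplex R2).d (d + 1) d)
      = ∑ i : Fin (d + 2), X.ιChainComplex (R := R2) (X.δ i x) := by
    rw [← Category.assoc, ofHom_lsingle_fromFin, SSet.ιChainComplex_d]
    refine Finset.sum_congr rfl fun i _ => ?_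
    rcases neg_one_pow_eq_or ℤ i.val with h | h
    · rw [h]; simp
    · rw [h]
      apply ModuleCat.hom_ext
      apply LinearMap.ext
      intro y
      simp only [neg_smul, one_smul, ModuleCat.hom_neg, LinearMap.neg_apply]
      exact ZModModule.neg_eq_self _
  have h2 : ModuleCat.ofHom (Finsupp.lsingle x) ≫ (ModuleCat.ofHom (bd X d) ≫ fromFin X d)
      = ∑ i : Fin (d + 2), X.ιChainComplex (R := R2) (X.δ i x) := by
    have h3 : ModuleCat.ofHom (Finsupp.lsingle x) ≫ ModuleCat.ofHom (bd X d)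
        = ∑ i : Fin (d + 2), ModuleCat.ofHom (Finsupp.lsingle (R := ZMod 2) (M := ZMod 2)
            (X.δ i x)) := by
      apply ModuleCat.hom_ext
      apply LinearMap.ext
      intro a
      simp only [ModuleCat.hom_comp, ModuleCat.hom_ofHom, LinearMap.comp_apply,
        ModuleCat.hom_sum, LinearMap.sum_apply]
      exact bd_single X d x a
    rw [← Category.assoc, h3, Preadditive.sum_comp]
    exact Finset.sum_congr rfl fun i _ => ofHom_lsingle_fromFin X d _
  exact congrArg ModuleCat.Hom.hom (h1.trans h2.symm)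

lemma d_toFin (X : SSet.{0}) (d : ℕ) :
    (X.chainComplex R2).d (d + 1) d ≫ toFin X d = toFin X (d + 1) ≫ ModuleCat.ofHom (bd X d) := by
  have h := congrArg (fun q => toFin X (d + 1) ≫ q ≫ toFin X d) (fromFin_d X d)
  simp only [Category.assoc] at h
  rw [fromFin_toFin, Category.comp_id] at h
  rw [← h, ← Category.assoc, toFin_fromFin, Category.id_comp]

lemma fromFin_map {X Y : SSet.{0}} (F : X ⟶ Y) (d : ℕ) :
    fromFin X d ≫ (SSet.chainComplexMap F R2).f d = ModuleCat.ofHom (mapC F d) ≫ fromFin Y d := by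
  apply ModuleCat.hom_ext
  apply Finsupp.lhom_ext'
  intro x
  have h1 : ModuleCat.ofHom (Finsupp.lsingle x) ≫
      (fromFin X d ≫ (SSet.chainComplexMap F R2).f d)
      = Y.ιChainComplex (R := R2) (F.app _ x) := by
    rw [← Category.assoc, ofHom_lsingle_fromFin, SSet.ι_chainComplexMap_f]
  have h2 : ModuleCat.ofHom (Finsupp.lsingle x) ≫ (ModuleCat.ofHom (mapC F d) ≫ fromFin Y d)
      = Y.ιChainComplex (R := R2) (F.app _ x) := by
    have h3 : ModuleCat.ofHom (Finsupp.lsingle x) ≫ ModuleCat.ofHom (mapC F d)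
        = ModuleCat.ofHom (Finsupp.lsingle (R := ZMod 2) (M := ZMod 2) (F.app _ x)) := by
      apply ModuleCat.hom_ext
      apply LinearMap.ext
      intro a
      simp only [ModuleCat.hom_comp, ModuleCat.hom_ofHom, LinearMap.comp_apply]
      exact mapC_single F d x a
    rw [← Category.assoc, h3, ofHom_lsingle_fromFin]
  exact congrArg ModuleCat.Hom.hom (h1.trans h2.symm)

/-! ### general lemma on chain complexes of modules -/

theorem homologyMap_eq_of_elements {K L : ChainComplex (ModuleCat.{0} (ZMod 2)) ℕ}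
    (φ ψ : K ⟶ L) (d : ℕ)
    (h : ∀ z : K.X d, (∀ j, (K.d d j).hom z = 0) →
      ∃ w : L.X (d + 1), (φ.f d).hom z - (ψ.f d).hom z = (L.d (d + 1) d).hom w) :
    HomologicalComplex.homologyMap φ d = HomologicalComplex.homologyMap ψ d := by
  rw [← cancel_epi (K.homologyπ d), HomologicalComplex.homologyπ_naturality,
    HomologicalComplex.homologyπ_naturality]
  apply ModuleCat.hom_ext
  apply LinearMap.ext
  intro c
  obtain ⟨w, hw⟩ := h ((K.iCycles d).hom c) (fun j => comp_apply_zero (K.iCycles_d d j) c)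
  have e1 : (HomologicalComplex.cyclesMap φ d).hom c - (HomologicalComplex.cyclesMap ψ d).hom c
      = (L.toCycles (d + 1) d).hom w := by
    have hmono : Function.Injective (L.iCycles d).hom :=
      (ModuleCat.mono_iff_injective (L.iCycles d)).1 inferInstance
    apply hmono
    rw [map_sub, comp_apply_hom₂ (HomologicalComplex.cyclesMap_i φ d) c,
      comp_apply_hom₂ (HomologicalComplex.cyclesMap_i ψ d) c,
      comp_apply_hom (L.toCycles_i (d + 1) d) w, hw]
  have e2 : (L.homologyπ d).hom ((L.toCycles (d + 1) d).hom w) = 0 :=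
    comp_apply_zero (L.toCycles_comp_homologyπ (d + 1) d) w
  have e3 : (L.homologyπ d).hom ((HomologicalComplex.cyclesMap φ d).hom c)
      - (L.homologyπ d).hom ((HomologicalComplex.cyclesMap ψ d).hom c) = 0 := by
    rw [← map_sub, e1, e2]
  exact sub_eq_zero.1 e3

/-- equality of maps in simplicial homology from explicit chains -/
theorem homologyMap_eq_of_chains {X Y : SSet.{0}} (F G : X ⟶ Y) (e : ℕ)
    (h : ∀ z : Ch X (e + 1), bd X e z = 0 →
      ∃ w : Ch Y (e + 2), mapC F (e + 1) z + mapC G (e + 1) z = bd Y (e + 1) w) :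
    HomologicalComplex.homologyMap (SSet.chainComplexMap F R2) (e + 1) =
      HomologicalComplex.homologyMap (SSet.chainComplexMap G R2) (e + 1) := by
  apply homologyMap_eq_of_elements
  intro z hz
  obtain ⟨w, hw⟩ := h ((toFin X (e + 1)).hom z) (by
    have h1 := comp_apply_hom₂ (d_toFin X e) z
    rw [hz e, map_zero] at h1
    exact h1.symm)
  have key : ∀ (H : X ⟶ Y), ((SSet.chainComplexMap H R2).f (e + 1)).hom z
      = (fromFin Y (e + 1)).hom (mapC H (e + 1) ((toFin X (e + 1)).hom z)) := by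
    intro H
    have h2 := comp_apply_hom₂ (fromFin_map H (e + 1)) ((toFin X (e + 1)).hom z)
    rw [comp_apply_hom (toFin_fromFin X (e + 1)) z] at h2
    exact h2
  refine ⟨(fromFin Y (e + 2)).hom w, ?_⟩
  have h3 := comp_apply_hom₂ (fromFin_d Y (e + 1)) w
  rw [h3, key F, key G, ← map_sub]
  congr 1
  rw [ModuleCat.hom_ofHom, ← hw]
  rw [sub_eq_add_neg, ZModModule.neg_eq_self]

/-- vanishing of a map in simplicial homology from explicit chains -/
theorem homologyMap_eq_zero_of_chains {X Y : SSet.{0}} (F : X ⟶ Y) (e : ℕ)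
    (h : ∀ z : Ch X (e + 1), bd X e z = 0 →
      ∃ w : Ch Y (e + 2), mapC F (e + 1) z = bd Y (e + 1) w) :
    HomologicalComplex.homologyMap (SSet.chainComplexMap F R2) (e + 1) = 0 := by
  rw [← HomologicalComplex.homologyMap_zero (X.chainComplex R2) (Y.chainComplex R2) (e + 1)]
  apply homologyMap_eq_of_elements
  intro z hz
  obtain ⟨w, hw⟩ := h ((toFin X (e + 1)).hom z) (by
    have h1 := comp_apply_hom₂ (d_toFin X e) z
    rw [hz e, map_zero] at h1
    exact h1.symm)
  have key : ∀ (H : X ⟶ Y), ((SSet.chainComplexMap H R2).f (e + 1)).hom z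
      = (fromFin Y (e + 1)).hom (mapC H (e + 1) ((toFin X (e + 1)).hom z)) := by
    intro H
    have h2 := comp_apply_hom₂ (fromFin_map H (e + 1)) ((toFin X (e + 1)).hom z)
    rw [comp_apply_hom (toFin_fromFin X (e + 1)) z] at h2
    exact h2
  refine ⟨(fromFin Y (e + 2)).hom w, ?_⟩
  have h3 := comp_apply_hom₂ (fromFin_d Y (e + 1)) w
  rw [h3, key F, ModuleCat.hom_ofHom, ← hw]
  simp

/-! ### singular homology -/

/-- **Bridge (equality).** Two continuous maps induce the same map on Mathlib's mod 2 singular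
homology in degree `e + 1` as soon as they agree on explicit cycles modulo explicit boundaries. -/
theorem singular_map_eq_of_chains {X Y : TopCat.{0}} (f g : X ⟶ Y) (e : ℕ)
    (h : ∀ z : Ch (TopCat.toSSet.obj X) (e + 1), bd _ e z = 0 →
      ∃ w : Ch (TopCat.toSSet.obj Y) (e + 2),
        mapC (TopCat.toSSet.map f) (e + 1) z + mapC (TopCat.toSSet.map g) (e + 1) z
          = bd _ (e + 1) w) :
    ((singularHomologyFunctor (ModuleCat.{0} (ZMod 2)) (e + 1)).obj
        (ModuleCat.of (ZMod 2) (ZMod 2))).map f =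
      ((singularHomologyFunctor (ModuleCat.{0} (ZMod 2)) (e + 1)).obj
        (ModuleCat.of (ZMod 2) (ZMod 2))).map g :=
  homologyMap_eq_of_chains (TopCat.toSSet.map f) (TopCat.toSSet.map g) e h

/-- **Bridge (vanishing).** -/
theorem singular_map_eq_zero_of_chains {X Y : TopCat.{0}} (f : X ⟶ Y) (e : ℕ)
    (h : ∀ z : Ch (TopCat.toSSet.obj X) (e + 1), bd _ e z = 0 →
      ∃ w : Ch (TopCat.toSSet.obj Y) (e + 2),
        mapC (TopCat.toSSet.map f) (e + 1) z = bd _ (e + 1) w) :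
    ((singularHomologyFunctor (ModuleCat.{0} (ZMod 2)) (e + 1)).obj
        (ModuleCat.of (ZMod 2) (ZMod 2))).map f = 0 :=
  homologyMap_eq_zero_of_chains (TopCat.toSSet.map f) e h

end Crest.Agent.R204.Bridge478
end

-- ▼ part R204/BridgeSing_478
section

/-!
# Row 204, block I0a': Mathlib's mod 2 singular homology and `H F2 (Sing Y)` of `Defs.lean`

`sing_map_eq_zero`, `sing_map_eq`: vanishing / equality of the maps on Mathlib's singular homology
from vanishing / equality on `H.gr F2 (Sing X) (e+1)`.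
-/

set_option autoImplicit false

open CategoryTheory Limits Simplicial AlgebraicTopology Opposite

namespace Crest.Agent.R204.BridgeSing478

open Crest.Agent.R204 Bridge478

/-- the simplices of `Mathlib`'s singular simplicial set, as continuous maps -/
noncomputable def E (X : TopCat.{0}) (n : ℕ) :
    (TopCat.toSSet.obj X).obj (op ⦋n⦌) ≃ (SS.Sing X).S n :=
  TopCat.toSSetObjEquiv X (op ⦋n⦌)

lemma E_face (X : TopCat.{0}) (n : ℕ) (i : Fin (n + 2))
    (x : (TopCat.toSSet.obj X).obj (op ⦋n + 1⦌)) :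
    E X n (face (TopCat.toSSet.obj X) i x) = (SS.Sing X).act (Op.face i) (E X (n + 1) x) := by
  apply ContinuousMap.ext
  intro p
  rfl

lemma E_map {X Y : TopCat.{0}} (f : X ⟶ Y) (n : ℕ)
    (x : (TopCat.toSSet.obj X).obj (op ⦋n⦌)) :
    E Y n ((TopCat.toSSet.map f).app (op ⦋n⦌) x) = (SS.SingMap f.hom).app n (E X n x) := by
  apply ContinuousMap.ext
  intro p
  rfl

/-- the simplex of `Defs` attached to a simplex of Mathlib's singular set -/
noncomputable def tot (X : TopCat.{0}) (n : ℕ) (x : (TopCat.toSSet.obj X).obj (op ⦋n⦌)) :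
    (SS.Sing X).T := ⟨n, E X n x⟩

lemma tot_injective (X : TopCat.{0}) (n : ℕ) : Function.Injective (tot X n) := by
  intro a b h
  simp only [tot, Sigma.mk.injEq, heq_eq_eq, true_and] at h
  exact (E X n).injective h

/-- Mathlib's chains in degree `n` to the total chains of `Defs` -/
noncomputable def J (X : TopCat.{0}) (n : ℕ) :
    Bridge478.Ch (TopCat.toSSet.obj X) n →ₗ[F2] R204.Ch F2 (SS.Sing X) :=
  Finsupp.lmapDomain F2 F2 (tot X n)

/-- the degree `n` component -/
noncomputable def P (X : TopCat.{0}) (n : ℕ) :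
    R204.Ch F2 (SS.Sing X) →ₗ[F2] Bridge478.Ch (TopCat.toSSet.obj X) n :=
  Finsupp.lcomapDomain (tot X n) (tot_injective X n)

lemma J_single (X : TopCat.{0}) (n : ℕ) (x : (TopCat.toSSet.obj X).obj (op ⦋n⦌)) (r : F2) :
    J X n (Finsupp.single x r) = Finsupp.single ⟨n, E X n x⟩ r := by
  simp [J, tot, Finsupp.lmapDomain_apply, Finsupp.mapDomain_single]

lemma P_apply (X : TopCat.{0}) (n : ℕ) (c : R204.Ch F2 (SS.Sing X))
    (x : (TopCat.toSSet.obj X).obj (op ⦋n⦌)) : P X n c x = c ⟨n, E X n x⟩ := rfl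

lemma P_single (X : TopCat.{0}) (n : ℕ) (σ : (SS.Sing X).S n) (r : F2) :
    P X n (Finsupp.single ⟨n, σ⟩ r) = Finsupp.single ((E X n).symm σ) r := by
  classical
  ext x
  rw [P_apply, Finsupp.single_apply, Finsupp.single_apply]
  congr 1
  simp only [Sigma.mk.injEq, heq_eq_eq, true_and, eq_iff_iff]
  exact (Equiv.symm_apply_eq (E X n)).symm

lemma P_single_ne (X : TopCat.{0}) (n m : ℕ) (h : m ≠ n) (σ : (SS.Sing X).S m) (r : F2) :
    P X n (Finsupp.single ⟨m, σ⟩ r) = 0 := by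
  classical
  ext x
  rw [P_apply, Finsupp.single_apply, if_neg]
  · rfl
  · intro h'
    exact h (congrArg Sigma.fst h')

lemma P_J (X : TopCat.{0}) (n : ℕ) (z : Bridge478.Ch (TopCat.toSSet.obj X) n) :
    P X n (J X n z) = z := by
  induction z using Finsupp.induction_linear with
  | zero => simp
  | add a b ha hb => rw [map_add, map_add, ha, hb]
  | single x r => rw [J_single, P_single, Equiv.symm_apply_apply]

lemma neg_one_pow_F2 (i : ℕ) : (-1 : F2) ^ i = 1 := by
  have : (-1 : F2) = 1 := by decide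
  rw [this, one_pow]

lemma bd_J (X : TopCat.{0}) (n : ℕ) (z : Bridge478.Ch (TopCat.toSSet.obj X) (n + 1)) :
    R204.Ch.bd F2 (SS.Sing X) (J X (n + 1) z) = J X n (Bridge478.bd _ n z) := by
  induction z using Finsupp.induction_linear with
  | zero => simp
  | add a b ha hb => simp only [map_add, ha, hb]
  | single x r =>
    rw [J_single, R204.Ch.bd_single_succ, Bridge478.bd_single, map_sum]
    refine Finset.sum_congr rfl fun i _ => ?_
    rw [J_single, neg_one_pow_F2, mul_one, E_face]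

lemma P_bd (X : TopCat.{0}) (n : ℕ) (c : R204.Ch F2 (SS.Sing X)) :
    P X n (R204.Ch.bd F2 (SS.Sing X) c) = Bridge478.bd _ n (P X (n + 1) c) := by
  induction c using Finsupp.induction_linear with
  | zero => simp
  | add a b ha hb => simp only [map_add, ha, hb]
  | single t r =>
    obtain ⟨m, σ⟩ := t
    rcases m with _ | m
    · rw [R204.Ch.bd_single_zero, P_single_ne X (n + 1) 0 (by omega), map_zero, map_zero]
    · by_cases h : m = n
      · subst h
        rw [P_single, R204.Ch.bd_single_succ, Bridge478.bd_single, map_sum]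
        refine Finset.sum_congr rfl fun i _ => ?_
        rw [P_single, neg_one_pow_F2, mul_one]
        have h1 : (E X m).symm ((SS.Sing X).act (Op.face i) σ)
            = face (TopCat.toSSet.obj X) i ((E X (m + 1)).symm σ) :=
          (Equiv.symm_apply_eq (E X m)).2 (by rw [E_face, Equiv.apply_symm_apply])
        rw [h1]
      · rw [P_single_ne X (n + 1) (m + 1) (by omega), map_zero, R204.Ch.bd_single_succ, map_sum]
        exact Finset.sum_eq_zero fun i _ => P_single_ne X n m h _ _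

lemma J_map {X Y : TopCat.{0}} (f : X ⟶ Y) (n : ℕ)
    (z : Bridge478.Ch (TopCat.toSSet.obj X) n) :
    R204.Ch.map F2 (SS.SingMap f.hom) (J X n z) = J Y n (mapC (TopCat.toSSet.map f) n z) := by
  induction z using Finsupp.induction_linear with
  | zero => simp
  | add a b ha hb => simp only [map_add, ha, hb]
  | single x r =>
    rw [J_single, R204.Ch.map_single, mapC_single, J_single, E_map]

/-- the class in `Defs` homology of a Mathlib cycle -/
noncomputable def cl (X : TopCat.{0}) (e : ℕ) (z : Bridge478.Ch (TopCat.toSSet.obj X) (e + 1))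
    (hz : Bridge478.bd _ e z = 0) : H F2 (SS.Sing X) :=
  Hd.mk (N.bd F2 (SS.Sing X)) (Submodule.Quotient.mk (J X (e + 1) z)) (by
    rw [N.bd_mk, bd_J, hz, map_zero]; rfl)

lemma J_mem_gr (X : TopCat.{0}) (n : ℕ) (z : Bridge478.Ch (TopCat.toSSet.obj X) n) :
    J X n z ∈ R204.Ch.gr F2 (SS.Sing X) n := by
  induction z using Finsupp.induction_linear with
  | zero => simp
  | add a b ha hb => rw [map_add]; exact Submodule.add_mem _ ha hb
  | single x r =>
    rw [J_single]
    have : (Finsupp.single (⟨n, E X n x⟩ : (SS.Sing X).T) r) = r • Finsupp.single ⟨n, E X n x⟩ 1 := by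
      simp
    rw [this]
    exact Submodule.smul_mem _ _ (Submodule.subset_span ⟨_, rfl⟩)

lemma cl_mem_gr (X : TopCat.{0}) (e : ℕ) (z : Bridge478.Ch (TopCat.toSSet.obj X) (e + 1))
    (hz : Bridge478.bd _ e z = 0) : cl X e z hz ∈ H.gr F2 (SS.Sing X) (e + 1) := by
  refine Submodule.mem_map.2 ⟨⟨Submodule.Quotient.mk (J X (e + 1) z), ?_⟩, ?_, rfl⟩
  · rw [LinearMap.mem_ker, N.bd_mk, bd_J, hz, map_zero]; rfl
  · exact Submodule.mem_map.2 ⟨J X (e + 1) z, J_mem_gr X (e + 1) z, rfl⟩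

/-- acyclicity of the degenerate chains (normalisation theorem), as a proposition -/
def DgAcyclic (K : SS) : Prop :=
  ∀ c ∈ R204.Ch.Dg F2 K, R204.Ch.bd F2 K c = 0 → ∃ w : R204.Ch F2 K, R204.Ch.bd F2 K w = c

lemma chain_of_H {Y : TopCat.{0}} (hN : DgAcyclic (SS.Sing Y)) (e : ℕ)
    (c : Bridge478.Ch (TopCat.toSSet.obj Y) (e + 1)) (hc : Bridge478.bd _ e c = 0)
    (h : cl Y e c hc = 0) : ∃ w : Bridge478.Ch (TopCat.toSSet.obj Y) (e + 2),
      c = Bridge478.bd _ (e + 1) w := by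
  obtain ⟨w, hw⟩ := Hd.mk_eq_zero.1 h
  obtain ⟨w, rfl⟩ := Submodule.Quotient.mk_surjective _ w
  rw [N.bd_mk] at hw
  have h1 : R204.Ch.bd F2 (SS.Sing Y) w - J Y (e + 1) c ∈ R204.Ch.Dg F2 (SS.Sing Y) :=
    (Submodule.Quotient.eq _).1 hw
  obtain ⟨v, hv⟩ := hN _ h1 (by
    rw [map_sub, R204.Ch.bd_bd, bd_J, hc, map_zero, sub_zero])
  refine ⟨P Y (e + 2) (w - v), ?_⟩
  rw [← P_bd, map_sub, hv, sub_sub_cancel, P_J]

lemma mapC_cycle {X Y : TopCat.{0}} (f : X ⟶ Y) (e : ℕ)
    {z : Bridge478.Ch (TopCat.toSSet.obj X) (e + 1)} (hz : Bridge478.bd _ e z = 0) :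
    Bridge478.bd _ e (mapC (TopCat.toSSet.map f) (e + 1) z) = 0 := by
  have h1 := congrArg (P Y e) (R204.Ch.map_bd (SS.SingMap f.hom) (J X (e + 1) z))
  rw [bd_J, hz, map_zero, map_zero, map_zero, J_map, bd_J, P_J] at h1
  exact h1.symm

lemma map_cl {X Y : TopCat.{0}} (f : X ⟶ Y) (e : ℕ)
    {z : Bridge478.Ch (TopCat.toSSet.obj X) (e + 1)} (hz : Bridge478.bd _ e z = 0) :
    H.map F2 (SS.SingMap f.hom) (cl X e z hz)
      = cl Y e (mapC (TopCat.toSSet.map f) (e + 1) z) (mapC_cycle f e hz) := by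
  have key : N.map F2 (SS.SingMap f.hom) (Submodule.Quotient.mk (J X (e + 1) z))
      = Submodule.Quotient.mk (J Y (e + 1) (mapC (TopCat.toSSet.map f) (e + 1) z)) := by
    rw [N.map_mk, J_map]
  refine Hd.mk_eq_mk.2 ⟨0, ?_⟩
  rw [map_zero]
  exact (sub_eq_zero.2 key).symm

lemma cl_add (X : TopCat.{0}) (e : ℕ)
    {z z' : Bridge478.Ch (TopCat.toSSet.obj X) (e + 1)} (hz : Bridge478.bd _ e z = 0)
    (hz' : Bridge478.bd _ e z' = 0) (hzz : Bridge478.bd _ e (z + z') = 0) :
    cl X e (z + z') hzz = cl X e z hz + cl X e z' hz' := by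
  have key : (Submodule.Quotient.mk (J X (e + 1) (z + z')) : N F2 (SS.Sing X))
      = Submodule.Quotient.mk (J X (e + 1) z) + Submodule.Quotient.mk (J X (e + 1) z') := by
    rw [map_add]; rfl
  refine Hd.mk_eq_mk.2 ⟨0, ?_⟩
  rw [map_zero]
  exact (sub_eq_zero.2 key).symm

/-- **vanishing on Mathlib's singular homology from vanishing on `H.gr F2 (Sing X) (e+1)`.** -/
theorem sing_map_eq_zero {X Y : TopCat.{0}} (hN : DgAcyclic (SS.Sing Y)) (f : X ⟶ Y) (e : ℕ)
    (h : ∀ x ∈ H.gr F2 (SS.Sing X) (e + 1), H.map F2 (SS.SingMap f.hom) x = 0) :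
    ((singularHomologyFunctor (ModuleCat.{0} (ZMod 2)) (e + 1)).obj
        (ModuleCat.of (ZMod 2) (ZMod 2))).map f = 0 := by
  apply singular_map_eq_zero_of_chains
  intro z hz
  apply chain_of_H hN e _ (mapC_cycle f e hz)
  rw [← map_cl f e hz]
  exact h _ (cl_mem_gr X e z hz)

/-- **equality on Mathlib's singular homology from equality on `H.gr F2 (Sing X) (e+1)`.** -/
theorem sing_map_eq {X Y : TopCat.{0}} (hN : DgAcyclic (SS.Sing Y)) (f g : X ⟶ Y) (e : ℕ)
    (h : ∀ x ∈ H.gr F2 (SS.Sing X) (e + 1),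
      H.map F2 (SS.SingMap f.hom) x = H.map F2 (SS.SingMap g.hom) x) :
    ((singularHomologyFunctor (ModuleCat.{0} (ZMod 2)) (e + 1)).obj
        (ModuleCat.of (ZMod 2) (ZMod 2))).map f =
      ((singularHomologyFunctor (ModuleCat.{0} (ZMod 2)) (e + 1)).obj
        (ModuleCat.of (ZMod 2) (ZMod 2))).map g := by
  apply singular_map_eq_of_chains
  intro z hz
  have hc2 : Bridge478.bd _ e (mapC (TopCat.toSSet.map f) (e + 1) z +
      mapC (TopCat.toSSet.map g) (e + 1) z) = 0 := by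
    rw [map_add, mapC_cycle f e hz, mapC_cycle g e hz, add_zero]
  apply chain_of_H hN e _ hc2
  rw [cl_add Y e (mapC_cycle f e hz) (mapC_cycle g e hz), ← map_cl f e hz, ← map_cl g e hz,
    h _ (cl_mem_gr X e z hz), ← two_smul F2, show (2 : F2) = 0 from rfl, zero_smul]

end Crest.Agent.R204.BridgeSing478
end

-- ▼ part R204/Red_478

/-!
# Row 204, block I0b: S0314 and S0315 from statements on spherical simplices of `GenLoop`

`Core314`, `Core315`: the statements on based simplices `Δ^d → Ω^n S^n` with constant faces.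
`s0314_of`, `s0315_of`: the exact statements of S0314 and S0315.
-/

set_option autoImplicit false

open scoped Topology
open CategoryTheory Limits Simplicial AlgebraicTopology Opposite

namespace Crest.Agent.R204.Red478

open Crest.Agent.R204 Bridge478 BridgeSing478

section Spherical

variable {Y : Type} [TopologicalSpace Y]

/-- a singular simplex of positive dimension all of whose faces are the constant simplex at `y` -/
def IsSph (y : Y) {e : ℕ} (a : (SS.Sing Y).S (e + 1)) : Prop :=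
  ∀ i : Fin (e + 2), (SS.Sing Y).act (Op.face i) a = SpecA.cst y e

theorem cst_degenerate (y : Y) (e : ℕ) :
    SpecA.cst y (e + 1) = (SS.Sing Y).act (Op.dgn (0 : Fin (e + 1))) (SpecA.cst y e) := by
  apply ContinuousMap.ext
  intro p
  rfl

theorem sx_cst (y : Y) (e : ℕ) : N.sx (K := SS.Sing Y) F2 (SpecA.cst y (e + 1)) = 0 := by
  rw [cst_degenerate]
  exact N.sx_dgn _ _

theorem bd_sx {y : Y} {e : ℕ} {a : (SS.Sing Y).S (e + 1)} (ha : IsSph y a) :
    N.bd F2 (SS.Sing Y) (N.sx F2 a) = 0 := by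
  have h1 : N.bd F2 (SS.Sing Y) (N.sx F2 a)
      = ∑ _i : Fin (e + 2), N.sx (K := SS.Sing Y) F2 (SpecA.cst y e) := by
    rw [N.sx, N.bd_mk, Ch.bd_single_succ]
    have : ∀ i : Fin (e + 2), (Finsupp.single (⟨e, (SS.Sing Y).act (Op.face i) a⟩ : (SS.Sing Y).T)
        ((1 : F2) * (-1) ^ (i : ℕ)) : Ch F2 (SS.Sing Y))
        = Finsupp.single ⟨e, SpecA.cst y e⟩ 1 := by
      intro i
      rw [ha i, neg_one_pow_F2, mul_one]
    rw [Finset.sum_congr rfl fun i _ => this i]
    exact map_sum (Submodule.mkQ (Ch.Dg F2 (SS.Sing Y))) _ _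
  rw [h1]
  rcases e with _ | e
  · rw [Fin.sum_univ_two, ← two_smul F2, show (2 : F2) = 0 from rfl, zero_smul]
  · exact Finset.sum_eq_zero fun i _ => sx_cst y e

/-- the homology class of a spherical simplex -/
noncomputable def sphCl {y : Y} {e : ℕ} (a : (SS.Sing Y).S (e + 1)) (ha : IsSph y a) :
    H F2 (SS.Sing Y) := Hd.mk (N.bd F2 (SS.Sing Y)) (N.sx F2 a) (bd_sx ha)

theorem IsSph.map {Z : Type} [TopologicalSpace Z] (f : C(Y, Z)) {y : Y} {e : ℕ}
    {a : (SS.Sing Y).S (e + 1)} (ha : IsSph y a) :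
    IsSph (f y) ((SS.SingMap f).app (e + 1) a) := by
  intro i
  rw [← (SS.SingMap f).nat, ha i]
  rfl

theorem map_sphCl {Z : Type} [TopologicalSpace Z] (f : C(Y, Z)) {y : Y} {e : ℕ}
    {a : (SS.Sing Y).S (e + 1)} (ha : IsSph y a) {z : Z} (hz : f y = z) :
    H.map F2 (SS.SingMap f) (sphCl a ha)
      = sphCl (y := z) ((SS.SingMap f).app (e + 1) a) (hz ▸ ha.map f) := by
  refine Hd.mk_eq_mk.2 ⟨0, ?_⟩
  rw [map_zero]
  exact (sub_eq_zero.2 (N.map_sx (SS.SingMap f) a)).symm

end Spherical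

/-- the unit sphere of `ℝ^(n+1)` -/
abbrev S (n : ℕ) : Type := Metric.sphere (0 : EuclideanSpace ℝ (Fin (n + 1))) 1

/-- **core statement of S0314** -/
def Core314 : Prop := ∀ (e n : ℕ), e + 1 ≠ 1 → e + 1 ≠ 3 → e + 1 ≠ 7 → (∀ j : ℕ, e + 1 + 2 ≠ 2 ^ j) →
  e + 1 + 2 ≤ n → ∀ (x : S n) (a : (SS.Sing (GenLoop (Fin n) (S n) x)).S (e + 1))
    (ha : IsSph (GenLoop.const : GenLoop (Fin n) (S n) x) a), sphCl a ha = 0

/-- **core statement of S0315** -/
def Core315 : Prop := ∀ (e n : ℕ), e + 1 + 2 ≤ n → ∀ (x : S n)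
  (a b : (SS.Sing (GenLoop (Fin n) (S n) x)).S (e + 1))
  (ha : IsSph (GenLoop.const : GenLoop (Fin n) (S n) x) a)
  (hb : IsSph (GenLoop.const : GenLoop (Fin n) (S n) x) b),
    sphCl a ha = 0 ∨ sphCl b hb = 0 ∨ sphCl a ha = sphCl b hb

/-- the generator of the top homology of the sphere -/
theorem sphere_gen (hS : SpecA.Spheres) (e : ℕ) (s : S (e + 1)) :
    ∃ (σ : (SS.Sing (S (e + 1))).S (e + 1)) (hσ : IsSph s σ),
      ∀ u ∈ H.gr F2 (SS.Sing (S (e + 1))) (e + 1), ∃ c : F2, u = c • sphCl σ hσ := by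
  obtain ⟨σ, hσ, h2, -⟩ := hS e s
  refine ⟨σ, hσ, fun u hu => ?_⟩
  have h3 := (h2 (bd_sx hσ)).2
  rw [h3] at hu
  obtain ⟨c, hc⟩ := Submodule.mem_span_singleton.1 hu
  exact ⟨c, hc.symm⟩

theorem map_zero_of {Y : TopCat.{0}} (hN : DgAcyclic (SS.Sing Y)) (hS : SpecA.Spheres) (e : ℕ)
    (s : S (e + 1)) (f : C(S (e + 1), Y)) (y : Y) (hf : f s = y)
    (h : ∀ (a : (SS.Sing Y).S (e + 1)) (ha : IsSph y a), sphCl a ha = 0) :
    ((singularHomologyFunctor (ModuleCat.{0} (ZMod 2)) (e + 1)).obj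
        (ModuleCat.of (ZMod 2) (ZMod 2))).map (TopCat.ofHom f) = 0 := by
  apply sing_map_eq_zero hN
  intro u hu
  obtain ⟨σ, hσ, hgen⟩ := sphere_gen hS e s
  obtain ⟨c, rfl⟩ := hgen u hu
  rw [map_smul, TopCat.hom_ofHom, map_sphCl f hσ hf, h, smul_zero]

theorem map_eq_of {Y : TopCat.{0}} (hN : DgAcyclic (SS.Sing Y)) (hS : SpecA.Spheres) (e : ℕ)
    (s : S (e + 1)) (f g : C(S (e + 1), Y)) (y : Y) (hf : f s = y) (hg : g s = y)
    (h : ∀ (a b : (SS.Sing Y).S (e + 1)) (ha : IsSph y a) (hb : IsSph y b),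
      sphCl a ha = 0 ∨ sphCl b hb = 0 ∨ sphCl a ha = sphCl b hb) :
    ((singularHomologyFunctor (ModuleCat.{0} (ZMod 2)) (e + 1)).obj
        (ModuleCat.of (ZMod 2) (ZMod 2))).map (TopCat.ofHom f) = 0 ∨
    ((singularHomologyFunctor (ModuleCat.{0} (ZMod 2)) (e + 1)).obj
        (ModuleCat.of (ZMod 2) (ZMod 2))).map (TopCat.ofHom g) = 0 ∨
    ((singularHomologyFunctor (ModuleCat.{0} (ZMod 2)) (e + 1)).obj
        (ModuleCat.of (ZMod 2) (ZMod 2))).map (TopCat.ofHom f) =
      ((singularHomologyFunctor (ModuleCat.{0} (ZMod 2)) (e + 1)).obj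
        (ModuleCat.of (ZMod 2) (ZMod 2))).map (TopCat.ofHom g) := by
  obtain ⟨σ, hσ, hgen⟩ := sphere_gen hS e s
  rcases h _ _ (hf ▸ hσ.map f) (hg ▸ hσ.map g) with h0 | h0 | h0
  · left
    apply sing_map_eq_zero hN
    intro u hu
    obtain ⟨c, rfl⟩ := hgen u hu
    rw [map_smul, TopCat.hom_ofHom, map_sphCl f hσ hf, h0, smul_zero]
  · right; left
    apply sing_map_eq_zero hN
    intro u hu
    obtain ⟨c, rfl⟩ := hgen u hu
    rw [map_smul, TopCat.hom_ofHom, map_sphCl g hσ hg, h0, smul_zero]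
  · right; right
    apply sing_map_eq hN
    intro u hu
    obtain ⟨c, rfl⟩ := hgen u hu
    rw [map_smul, map_smul, TopCat.hom_ofHom, TopCat.hom_ofHom, map_sphCl f hσ hf,
      map_sphCl g hσ hg, h0]

theorem dgAcyclic_of (hN : SpecA.DgAcyclic) (K : SS) : DgAcyclic K := by
  intro c hc hb
  obtain ⟨w, -, hw⟩ := hN F2 K c hc hb
  exact ⟨w, hw⟩

/-- **S0314, exact statement**, from the normalisation theorem, the homology of spheres and the
core statement on spherical simplices. -/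
theorem s0314_of (hN : SpecA.DgAcyclic) (hS : SpecA.Spheres) (hC : Core314)
    (d n : ℕ) (hd : 0 < d) (h1 : d ≠ 1) (h3 : d ≠ 3) (h7 : d ≠ 7) (hK : ∀ j : ℕ, d + 2 ≠ 2 ^ j)
    (hn : d + 2 ≤ n)
    (x : Metric.sphere (0 : EuclideanSpace ℝ (Fin (n + 1))) 1)
    (s : Metric.sphere (0 : EuclideanSpace ℝ (Fin (d + 1))) 1)
    (f : C(Metric.sphere (0 : EuclideanSpace ℝ (Fin (d + 1))) 1,
      GenLoop (Fin n) (Metric.sphere (0 : EuclideanSpace ℝ (Fin (n + 1))) 1) x))
    (hf : f s = GenLoop.const) :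
    ((AlgebraicTopology.singularHomologyFunctor (ModuleCat.{0} (ZMod 2)) d).obj
        (ModuleCat.of (ZMod 2) (ZMod 2))).map (TopCat.ofHom f) = 0 := by
  obtain ⟨e, rfl⟩ : ∃ e, d = e + 1 := ⟨d - 1, by omega⟩
  exact map_zero_of (Y := TopCat.of (GenLoop (Fin n) (S n) x)) (dgAcyclic_of hN _) hS e s f _ hf
    (fun a ha => hC e n h1 h3 h7 hK hn x a ha)

/-- **S0315, exact statement.** -/
theorem s0315_of (hN : SpecA.DgAcyclic) (hS : SpecA.Spheres) (hC : Core315)
    (d n : ℕ) (hd : 0 < d) (hn : d + 2 ≤ n)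
    (x : Metric.sphere (0 : EuclideanSpace ℝ (Fin (n + 1))) 1)
    (s : Metric.sphere (0 : EuclideanSpace ℝ (Fin (d + 1))) 1)
    (f g : C(Metric.sphere (0 : EuclideanSpace ℝ (Fin (d + 1))) 1,
      GenLoop (Fin n) (Metric.sphere (0 : EuclideanSpace ℝ (Fin (n + 1))) 1) x))
    (hf : f s = GenLoop.const) (hg : g s = GenLoop.const) :
    ((AlgebraicTopology.singularHomologyFunctor (ModuleCat.{0} (ZMod 2)) d).obj
        (ModuleCat.of (ZMod 2) (ZMod 2))).map (TopCat.ofHom f) = 0 ∨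
    ((AlgebraicTopology.singularHomologyFunctor (ModuleCat.{0} (ZMod 2)) d).obj
        (ModuleCat.of (ZMod 2) (ZMod 2))).map (TopCat.ofHom g) = 0 ∨
    ((AlgebraicTopology.singularHomologyFunctor (ModuleCat.{0} (ZMod 2)) d).obj
        (ModuleCat.of (ZMod 2) (ZMod 2))).map (TopCat.ofHom f) =
      ((AlgebraicTopology.singularHomologyFunctor (ModuleCat.{0} (ZMod 2)) d).obj
        (ModuleCat.of (ZMod 2) (ZMod 2))).map (TopCat.ofHom g) := by
  obtain ⟨e, rfl⟩ : ∃ e, d = e + 1 := ⟨d - 1, by omega⟩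
  exact map_eq_of (Y := TopCat.of (GenLoop (Fin n) (S n) x)) (dgAcyclic_of hN _) hS e s f g _ hf hg
    (fun a b ha hb => hC e n hn x a b ha hb)

end Crest.Agent.R204.Red478
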