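import Crest.Agent.R204.Defs
import Crest.Agent.R204.Norm_76
import Crest.Agent.R204.HZ_76
import Crest.Agent.R204.Gr_334
import Crest.Agent.R204.HDegA_160
import Crest.Agent.R204.C2_735
import Crest.Agent.R204.Red_478
import Crest.Agent.R204.FreuT_297

-- ▼ part R204/ConnA_747
section

/-!
# Row 204: geometry of the simplex for the compression argument (seat 747)

* `retr`: a continuous retraction of `ℝ^(n+1)` onto the standard simplex;
* `nu x = 1 - (n+1) min x_i` (gauge with respect to the barycentre), `dil r x = c + r (x - c)`.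
-/

set_option autoImplicit false

open Set
open scoped unitInterval Topology

noncomputable section

namespace Crest.Agent.R204.Conn747

/-- the standard simplex -/
abbrev Dl (n : ℕ) : Type := stdSimplex ℝ (Fin (n + 1))

variable {n : ℕ}

/-- sum of the positive parts -/
def psum (v : Fin (n + 1) → ℝ) : ℝ := ∑ i, max 0 (v i)


/-- retraction onto the simplex, as a function -/
def retrF (v : Fin (n + 1) → ℝ) : Fin (n + 1) → ℝ := fun i =>
  (max 0 (v i) + max 0 (1 - psum v) * ((n : ℝ) + 1)⁻¹) / max 1 (psum v)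

theorem retrF_mem (v : Fin (n + 1) → ℝ) : retrF v ∈ stdSimplex ℝ (Fin (n + 1)) := by
  have hpos : (0 : ℝ) < max 1 (psum v) := lt_max_of_lt_left one_pos
  constructor
  · intro i
    unfold retrF
    positivity
  · unfold retrF
    rw [← Finset.sum_div, Finset.sum_add_distrib, Finset.sum_const, Finset.card_univ,
      Fintype.card_fin, nsmul_eq_mul]
    have h1 : ((n + 1 : ℕ) : ℝ) * (max 0 (1 - psum v) * ((n : ℝ) + 1)⁻¹) = max 0 (1 - psum v) := by
      push_cast
      field_simp
    rw [h1, div_eq_one_iff_eq hpos.ne']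
    show psum v + max 0 (1 - psum v) = max 1 (psum v)
    rcases le_total 1 (psum v) with h | h
    · rw [max_eq_left (by linarith), max_eq_right h, add_zero]
    · rw [max_eq_right (by linarith), max_eq_left h]; ring

/-- retraction onto the simplex -/
def retr (v : Fin (n + 1) → ℝ) : Dl n := ⟨retrF v, retrF_mem v⟩

theorem continuous_retr : Continuous (retr : (Fin (n + 1) → ℝ) → Dl n) := by
  refine Continuous.subtype_mk (continuous_pi fun i => ?_) _
  have h1 : Continuous (psum : (Fin (n + 1) → ℝ) → ℝ) :=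
    continuous_finsetSum _ fun j _ => continuous_const.max (continuous_apply j)
  refine Continuous.div ?_ (continuous_const.max h1) fun v =>
    (lt_max_of_lt_left one_pos : (0 : ℝ) < max 1 (psum v)).ne'
  exact (continuous_const.max (continuous_apply i)).add
    ((continuous_const.max (continuous_const.sub h1)).mul continuous_const)

theorem retr_of_mem {v : Fin (n + 1) → ℝ} (hv : v ∈ stdSimplex ℝ (Fin (n + 1))) :
    retr v = ⟨v, hv⟩ := by
  apply Subtype.ext
  funext i
  have h1 : psum v = 1 := by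
    unfold psum
    rw [← hv.2]
    exact Finset.sum_congr rfl fun j _ => max_eq_right (hv.1 j)
  show retrF v i = v i
  unfold retrF
  rw [h1, max_eq_right (hv.1 i)]
  simp


/-- smallest coordinate -/
def mn (x : Dl n) : ℝ := Finset.univ.inf' Finset.univ_nonempty (fun i => x i)

theorem continuous_mn : Continuous (mn : Dl n → ℝ) := by
  unfold mn
  exact Continuous.finset_inf'_apply _ fun i _ => (continuous_apply i).comp continuous_subtype_val

theorem mn_le (x : Dl n) (i : Fin (n + 1)) : mn x ≤ x i := Finset.inf'_le _ (Finset.mem_univ i)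

theorem exists_mn (x : Dl n) : ∃ i, mn x = x i := by
  obtain ⟨i, -, hi⟩ := Finset.exists_mem_eq_inf' Finset.univ_nonempty (fun i => x i)
  exact ⟨i, hi⟩

theorem le_mn {x : Dl n} {a : ℝ} (h : ∀ i, a ≤ x i) : a ≤ mn x := by
  obtain ⟨i, hi⟩ := exists_mn x
  rw [hi]; exact h i

theorem mn_nonneg (x : Dl n) : 0 ≤ mn x := le_mn fun i => x.2.1 i

/-- the gauge of the simplex -/
def nu (x : Dl n) : ℝ := 1 - ((n : ℝ) + 1) * mn x

theorem continuous_nu : Continuous (nu : Dl n → ℝ) :=
  continuous_const.sub (continuous_const.mul continuous_mn)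

theorem nu_le_one (x : Dl n) : nu x ≤ 1 := by
  have := mn_nonneg x
  unfold nu
  have : 0 ≤ ((n : ℝ) + 1) * mn x := by positivity
  linarith

theorem nu_nonneg (x : Dl n) : 0 ≤ nu x := by
  have h1 : ∑ _i : Fin (n + 1), mn x ≤ ∑ i, x i := Finset.sum_le_sum fun i _ => mn_le x i
  have h2 : ∑ i, x i = 1 := x.2.2
  rw [h2, Finset.sum_const, Finset.card_univ, Fintype.card_fin, nsmul_eq_mul] at h1
  unfold nu
  push_cast at h1
  linarith

theorem nu_eq_one {x : Dl n} : nu x = 1 ↔ ∃ i, x i = 0 := by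
  constructor
  · intro h
    obtain ⟨i, hi⟩ := exists_mn x
    refine ⟨i, ?_⟩
    rw [← hi]
    have h1 : ((n : ℝ) + 1) * mn x = 0 := by unfold nu at h; linarith
    have h2 : ((n : ℝ) + 1) ≠ 0 := by positivity
    exact (mul_eq_zero.1 h1).resolve_left h2
  · rintro ⟨i, hi⟩
    have h1 : mn x = 0 := le_antisymm (hi ▸ mn_le x i) (mn_nonneg x)
    unfold nu
    rw [h1]; ring

/-- barycentric coordinate -/
def bc (n : ℕ) : ℝ := ((n : ℝ) + 1)⁻¹

theorem bc_mul (n : ℕ) : ((n : ℝ) + 1) * bc n = 1 := by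
  unfold bc; field_simp

/-- dilation with centre the barycentre -/
def dil (r : ℝ) (x : Dl n) : Dl n := retr fun i => bc n + r * (x i - bc n)

theorem continuous_dil : Continuous (fun p : ℝ × Dl n => dil p.1 p.2) := by
  refine continuous_retr.comp (continuous_pi fun i => ?_)
  have h1 : Continuous (fun p : ℝ × Dl n => p.2 i) :=
    (continuous_apply i).comp (continuous_subtype_val.comp continuous_snd)
  exact continuous_const.add (continuous_fst.mul (h1.sub continuous_const))

theorem dil_mem {r : ℝ} {x : Dl n} (h0 : 0 ≤ r) (h1 : r * nu x ≤ 1) :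
    (fun i => bc n + r * (x i - bc n)) ∈ stdSimplex ℝ (Fin (n + 1)) := by
  constructor
  · intro i
    have h2 : (n + 1 : ℝ) * (bc n + r * (x i - bc n)) = 1 - r + r * ((n + 1) * x i) := by
      have := bc_mul n
      linear_combination (1 - r) * this
    have h3 : (n + 1 : ℝ) * mn x ≤ (n + 1) * x i :=
      mul_le_mul_of_nonneg_left (mn_le x i) (by positivity)
    have h4 : 0 ≤ (n + 1 : ℝ) * (bc n + r * (x i - bc n)) := by
      rw [h2]
      have h5 : r * ((n + 1 : ℝ) * mn x) ≤ r * ((n + 1) * x i) := mul_le_mul_of_nonneg_left h3 h0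
      have h6 : r * nu x = r - r * ((n + 1 : ℝ) * mn x) := by unfold nu; ring
      linarith
    exact nonneg_of_mul_nonneg_right h4 (by positivity)
  · rw [Finset.sum_add_distrib, Finset.sum_const, Finset.card_univ, Fintype.card_fin,
      nsmul_eq_mul, ← Finset.mul_sum, Finset.sum_sub_distrib, Finset.sum_const, Finset.card_univ,
      Fintype.card_fin, nsmul_eq_mul]
    have h2 : ∑ i, x i = 1 := x.2.2
    rw [h2]
    push_cast
    rw [bc_mul]; ring

theorem dil_apply {r : ℝ} {x : Dl n} (h0 : 0 ≤ r) (h1 : r * nu x ≤ 1) (i : Fin (n + 1)) :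
    dil r x i = bc n + r * (x i - bc n) := by
  unfold dil
  rw [retr_of_mem (dil_mem h0 h1)]
  rfl

theorem mn_dil {r : ℝ} {x : Dl n} (h0 : 0 ≤ r) (h1 : r * nu x ≤ 1) :
    mn (dil r x) = bc n + r * (mn x - bc n) := by
  apply le_antisymm
  · obtain ⟨i, hi⟩ := exists_mn x
    rw [hi, ← dil_apply h0 h1 i]
    exact mn_le _ _
  · refine le_mn fun i => ?_
    rw [dil_apply h0 h1 i]
    have := mul_le_mul_of_nonneg_left (mn_le x i) h0
    nlinarith

theorem nu_dil {r : ℝ} {x : Dl n} (h0 : 0 ≤ r) (h1 : r * nu x ≤ 1) : nu (dil r x) = r * nu x := by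
  unfold nu
  rw [mn_dil h0 h1]
  have := bc_mul n
  linear_combination (r - 1) * this

theorem dil_one (x : Dl n) : dil 1 x = x := by
  apply Subtype.ext
  funext i
  have := dil_apply (r := 1) (x := x) zero_le_one (by rw [one_mul]; exact nu_le_one x) i
  show dil 1 x i = x i
  rw [this]; ring

theorem dil_dil {r s : ℝ} {x : Dl n} (h0 : 0 ≤ r) (h1 : r * nu x ≤ 1) (h2 : 0 ≤ s)
    (h3 : s * r * nu x ≤ 1) : dil s (dil r x) = dil (s * r) x := by
  apply Subtype.ext
  funext i
  have e1 := dil_apply (r := s) (x := dil r x) h2 (by rw [nu_dil h0 h1, ← mul_assoc]; exact h3) i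
  have e2 := dil_apply (r := s * r) (x := x) (mul_nonneg h2 h0) h3 i
  show dil s (dil r x) i = dil (s * r) x i
  rw [e1, e2, dil_apply h0 h1]; ring

/-- boundary of the simplex -/
def bdry (n : ℕ) : Set (Dl n) := {x | ∃ i, x.1 i = 0}

theorem mem_bdry {x : Dl n} : x ∈ bdry n ↔ nu x = 1 := nu_eq_one.symm


end Crest.Agent.R204.Conn747
end
end

-- ▼ part R204/ConnB_747
section

/-!
# Row 204: compression ⇒ strict lifting for the mapping path space (seat 747)

`PE s = {(γ, a) | γ 1 = s a}`; if maps `(Δ^q, ∂Δ^q) → (Z, s(A))` can be compressed into `A` rel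
boundary, then `PE s → Z`, `(γ, a) ↦ γ 0`, has the strict lifting property for `∂Δ^q ⊆ Δ^q`.
-/

set_option autoImplicit false

open Set
open scoped unitInterval Topology

noncomputable section

namespace Crest.Agent.R204.Conn747

variable {A Z : Type} [TopologicalSpace A] [TopologicalSpace Z]

/-- the mapping path space of `s` -/
abbrev PE (s : C(A, Z)) : Type := {p : C(I, Z) × A // p.1 1 = s p.2}

/-- every map of pairs `(Δ^q, ∂Δ^q) → (Z, s A)` is homotopic rel boundary to a map into `A` -/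
def Compr (s : C(A, Z)) (q : ℕ) : Prop :=
  ∀ a : C(Dl q, Z), (∀ x ∈ bdry q, a x ∈ Set.range s) →
    ∃ b : C(Dl q, A), a.HomotopicRel (s.comp b) (bdry q)

theorem lift_of_compr {s : C(A, Z)} (hs : Function.Injective s) {q : ℕ} (hcomp : Compr s q)
    (sg : C(Dl q, Z)) (e : Dl q → PE s) (he : ContinuousOn e (bdry q))
    (hsg : ∀ x ∈ bdry q, (e x).1.1 0 = sg x) :
    ∃ E : C(Dl q, PE s), (∀ x, (E x).1.1 0 = sg x) ∧ ∀ x ∈ bdry q, E x = e x := by
  classical
  -- the radial projection
  let ri : Dl q → ℝ := fun x => (max (1 / 2) (nu x))⁻¹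
  have hmpos : ∀ x : Dl q, (0 : ℝ) < max (1 / 2) (nu x) := fun x => lt_max_of_lt_left (by norm_num)
  have hri : Continuous ri := (continuous_const.max continuous_nu).inv₀ fun x => (hmpos x).ne'
  have hri0 : ∀ x, 0 ≤ ri x := fun x => inv_nonneg.2 (hmpos x).le
  have hri1 : ∀ x, ri x * nu x ≤ 1 := by
    intro x
    simp only [ri]
    rw [inv_mul_le_iff₀ (hmpos x), mul_one]
    exact le_max_right _ _
  have hri2 : ∀ x, 1 / 2 ≤ nu x → ri x * nu x = 1 := by
    intro x hx
    simp only [ri]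
    rw [max_eq_right hx]
    exact inv_mul_cancel₀ (by linarith)
  let pj : Dl q → Dl q := fun x => dil (ri x) x
  have hpj : Continuous pj := continuous_dil.comp (hri.prodMk continuous_id)
  have hpjb : ∀ x, 1 / 2 ≤ nu x → pj x ∈ bdry q := by
    intro x hx
    rw [mem_bdry]
    simp only [pj]
    rw [nu_dil (hri0 x) (hri1 x), hri2 x hx]
  -- the folded map
  let f1 : Dl q → Z := fun x => sg (dil 2 x)
  let f2 : Dl q → Z := fun x => (e (pj x)).1.1 (projIcc 0 1 zero_le_one (2 * nu x - 1))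
  have hf1 : Continuous f1 :=
    sg.continuous.comp (continuous_dil.comp (continuous_const.prodMk continuous_id))
  have hf2 : ContinuousOn f2 {x | 1 / 2 ≤ nu x} := by
    have h1 : ContinuousOn (fun x => e (pj x)) {x | 1 / 2 ≤ nu x} :=
      he.comp hpj.continuousOn hpjb
    have h2 : ContinuousOn (fun x => (e (pj x)).1.1) {x | 1 / 2 ≤ nu x} :=
      (continuous_fst.comp continuous_subtype_val).comp_continuousOn h1
    have h3 : Continuous (fun x : Dl q => (projIcc (0 : ℝ) 1 zero_le_one (2 * nu x - 1) : I)) :=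
      continuous_projIcc.comp ((continuous_const.mul continuous_nu).sub continuous_const)
    have h4 : Continuous (fun p : C(I, Z) × I => p.1 p.2) := continuous_eval
    exact h4.comp_continuousOn (h2.prodMk h3.continuousOn)
  let f' : Dl q → Z := fun x => if nu x ≤ 1 / 2 then f1 x else f2 x
  have hf' : Continuous f' := by
    refine continuous_if_le continuous_nu continuous_const hf1.continuousOn hf2 ?_
    intro x hx
    have hb := hpjb x hx.ge
    have h1 : ri x = 2 := by simp only [ri]; rw [hx, max_self]; norm_num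
    simp only [f1, f2]
    rw [hx]
    norm_num
    have h2 := hsg (pj x) hb
    have h3 : pj x = dil 2 x := by simp only [pj, h1]
    rw [h3] at h2 ⊢
    exact h2.symm
  have hf'b : ∀ x ∈ bdry q, f' x = s (e x).1.2 := by
    intro x hx
    have h1 := mem_bdry.1 hx
    have h2 : ri x = 1 := by
      simp only [ri]; rw [h1, max_eq_right (by norm_num)]; norm_num
    simp only [f', f2, pj]
    rw [if_neg (by rw [h1]; norm_num), h1, h2, dil_one]
    norm_num
    exact (e x).2
  obtain ⟨b, ⟨K⟩⟩ := hcomp ⟨f', hf'⟩ (fun x hx => ⟨(e x).1.2, (hf'b x hx).symm⟩)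
  have hK0 : ∀ x, K (0, x) = f' x := fun x => K.apply_zero x
  have hK1 : ∀ x, K (1, x) = s (b x) := fun x => K.apply_one x
  have hKb : ∀ t, ∀ x ∈ bdry q, K (t, x) = f' x := fun t x hx => K.eq_fst t hx
  have hKb' : ∀ t, ∀ x ∈ bdry q, K (t, x) = s (b x) := fun t x hx => by
    rw [hKb t x hx, ← hKb 1 x hx, hK1]
  -- the final homotopy
  let rr : Dl q × I → ℝ := fun p => (1 - (p.2 : ℝ)) / 2 + (p.2 : ℝ) * ri p.1
  have hrr : Continuous rr := by
    have h1 : Continuous (fun p : Dl q × I => (p.2 : ℝ)) := by fun_prop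
    exact ((continuous_const.sub h1).div_const 2).add (h1.mul (hri.comp continuous_fst))
  have hrr0 : ∀ p, 0 ≤ rr p := by
    rintro ⟨x, t⟩
    have h1 := t.2.1
    have h2 := t.2.2
    have h3 := hri0 x
    have h4 : 0 ≤ (t : ℝ) * ri x := mul_nonneg h1 h3
    simp only [rr]; linarith
  have hrr1 : ∀ p : Dl q × I, rr p * nu p.1 ≤ 1 := by
    rintro ⟨x, t⟩
    have h1 := t.2.1
    have h2 := t.2.2
    have h3 := mul_le_mul_of_nonneg_left (hri1 x) h1
    have h5 := nu_le_one x
    have h6 := nu_nonneg x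
    simp only [rr]
    have h7 : (1 - (t : ℝ)) / 2 * nu x ≤ (1 - t) / 2 * 1 :=
      mul_le_mul_of_nonneg_left h5 (by linarith)
    nlinarith
  let hh : Dl q × I → I := fun p =>
    projIcc 0 1 zero_le_one ((p.2 : ℝ) * min 1 (2 * (1 - nu p.1)))
  have hhh : Continuous hh := by
    have h1 : Continuous (fun p : Dl q × I => (p.2 : ℝ)) := by fun_prop
    have h2 : Continuous (fun p : Dl q × I => nu p.1) := continuous_nu.comp continuous_fst
    exact continuous_projIcc.comp (h1.mul (continuous_const.min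
      (continuous_const.mul (continuous_const.sub h2))))
  have hdl : Continuous (fun p : Dl q × I => dil (rr p) p.1) :=
    continuous_dil.comp (hrr.prodMk continuous_fst)
  let Γ0 : C(Dl q × I, Z) := ⟨fun p => K (hh p, dil (rr p) p.1), K.continuous.comp (hhh.prodMk hdl)⟩
  let B : C(Dl q, A) := ⟨fun x => b (dil (rr (x, 1)) x), b.continuous.comp
    (hdl.comp (continuous_id.prodMk continuous_const))⟩
  have hΓ0 : ∀ p, Γ0 p = K (hh p, dil (rr p) p.1) := fun _ => rfl
  have hend : ∀ x, Γ0.curry x 1 = s (B x) := by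
    intro x
    show K (hh (x, 1), dil (rr (x, 1)) x) = s (b (dil (rr (x, 1)) x))
    rcases le_total (nu x) (1 / 2) with h | h
    · have h1 : hh (x, 1) = 1 := by
        simp only [hh]
        rw [min_eq_left (by linarith)]
        simp only [Icc.coe_one, mul_one]
        exact projIcc_right _
      rw [h1, hK1]
    · apply hKb'
      rw [mem_bdry, nu_dil (hrr0 _) (hrr1 (x, 1))]
      have h1 : rr (x, 1) = ri x := by simp [rr]
      rw [h1]; exact hri2 x h
  have hstart : ∀ x, Γ0.curry x 0 = sg x := by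
    intro x
    show K (hh (x, 0), dil (rr (x, 0)) x) = sg x
    have h1 : hh (x, 0) = 0 := by
      simp only [hh]
      simp only [Icc.coe_zero, zero_mul]
      exact projIcc_left _
    have h2 : rr (x, 0) = 1 / 2 := by simp [rr]
    have h5 := nu_le_one x
    rw [h1, hK0, h2]
    simp only [f']
    rw [if_pos (by rw [nu_dil (by norm_num) (by linarith)]; linarith)]
    simp only [f1]
    rw [dil_dil (by norm_num) (by linarith) (by norm_num) (by linarith)]
    norm_num
    rw [dil_one]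
  let E : C(Dl q, PE s) := ⟨fun x => ⟨(Γ0.curry x, B x), hend x⟩,
    Continuous.subtype_mk (Γ0.curry.continuous.prodMk B.continuous) _⟩
  refine ⟨E, hstart, ?_⟩
  intro x hx
  have hν := mem_bdry.1 hx
  have hrix : ri x = 1 := by
    simp only [ri]; rw [hν, max_eq_right (by norm_num)]; norm_num
  apply Subtype.ext
  refine Prod.ext ?_ ?_
  · apply ContinuousMap.ext
    intro t
    show K (hh (x, t), dil (rr (x, t)) x) = (e x).1.1 t
    have h1 : hh (x, t) = 0 := by
      simp only [hh]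
      rw [hν]
      norm_num
    have h2 : rr (x, t) = (1 + t) / 2 := by simp only [rr]; rw [hrix]; ring
    have ht0 := t.2.1
    have ht1 := t.2.2
    have h3 : nu (dil ((1 + (t : ℝ)) / 2) x) = (1 + t) / 2 := by
      rw [nu_dil (by linarith) (by rw [hν]; linarith), hν, mul_one]
    rw [h1, hK0, h2]
    simp only [f']
    split_ifs with h4
    · have h5 : (t : ℝ) = 0 := by rw [h3] at h4; linarith
      have h6 : t = 0 := Subtype.ext h5
      subst h6
      simp only [f1]
      rw [hsg x hx, dil_dil (by norm_num) (by rw [hν]; norm_num) (by norm_num)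
        (by rw [hν]; norm_num)]
      norm_num
      rw [dil_one]
    · have h5 : pj (dil ((1 + (t : ℝ)) / 2) x) = x := by
        simp only [pj, ri]
        rw [h3, max_eq_right (by rw [h3] at h4; linarith [not_le.1 h4])]
        have h6 : ((1 + (t : ℝ)) / 2)⁻¹ * ((1 + (t : ℝ)) / 2) = 1 := inv_mul_cancel₀ (by positivity)
        rw [dil_dil (by linarith) (by rw [hν]; linarith) (by positivity)
          (by rw [h6, hν]; norm_num), h6, dil_one]
      simp only [f2]
      rw [h5, h3]
      congr 1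
      have h6 : 2 * ((1 + (t : ℝ)) / 2) - 1 = t := by ring
      rw [h6, projIcc_val]
  · show b (dil (rr (x, 1)) x) = (e x).1.2
    apply hs
    have h1 : rr (x, 1) = 1 := by simp only [rr]; rw [hrix]; norm_num
    rw [h1, dil_one, ← hK1, hKb 1 x hx]
    exact hf'b x hx

end Crest.Agent.R204.Conn747
end
end

-- ▼ part R204/ConnC_747
section

/-!
# Row 204: gluing along the boundary of the simplex, section of `Sing (PE s) → Sing Z` (seat 747)
-/

set_option autoImplicit false

open Set
open scoped unitInterval Topology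

noncomputable section

namespace Crest.Agent.R204.Conn747

section Glue

theorem map_face_apply {m : ℕ} (i : Fin (m + 2)) (y : Dl m) (a : Fin (m + 1)) :
    stdSimplex.map (Op.face i) y (Op.face i a) = y a := by
  classical
  show (stdSimplex.map (Op.face i) y : Fin (m + 2) → ℝ) (Op.face i a) = y a
  rw [stdSimplex.map_coe, FunOnFinite.linearMap_apply_apply]
  have : Finset.univ.filter (fun b => Op.face i b = Op.face i a) = {a} := by
    ext b
    simp only [Finset.mem_filter, Finset.mem_univ, true_and, Finset.mem_singleton]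
    constructor
    · intro h
      exact (Fin.succAboveOrderEmb i).injective h
    · rintro rfl; rfl
  simp_all

theorem map_face_self {m : ℕ} (i : Fin (m + 2)) (y : Dl m) :
    stdSimplex.map (Op.face i) y i = 0 := by
  classical
  show (stdSimplex.map (Op.face i) y : Fin (m + 2) → ℝ) i = 0
  rw [stdSimplex.map_coe, FunOnFinite.linearMap_apply_apply]
  have : Finset.univ.filter (fun b => Op.face i b = i) = ∅ := by
    ext b
    simp only [Finset.mem_filter, Finset.mem_univ, true_and, Finset.notMem_empty, iff_false]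
    exact Fin.succAbove_ne i b
  simp_all

theorem exists_face {m : ℕ} {i b : Fin (m + 2)} (h : b ≠ i) : ∃ a, Op.face i a = b :=
  Fin.exists_succAbove_eq h

/-- delete the `i`-th coordinate (totalised) -/
def restr {m : ℕ} (i : Fin (m + 2)) (y : Dl (m + 1)) : Dl m := retr fun a => y (Op.face i a)

theorem continuous_restr {m : ℕ} (i : Fin (m + 2)) : Continuous (restr i : Dl (m + 1) → Dl m) :=
  continuous_retr.comp (continuous_pi fun a =>
    (continuous_apply (Op.face i a)).comp continuous_subtype_val)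

theorem restr_apply {m : ℕ} {i : Fin (m + 2)} {y : Dl (m + 1)} (h : y i = 0) (a : Fin (m + 1)) :
    restr i y a = y (Op.face i a) := by
  unfold restr
  rw [retr_of_mem (v := fun a => y (Op.face i a))]
  · rfl
  · refine ⟨fun a => y.2.1 _, ?_⟩
    have h1 : ∑ b, y b = 1 := y.2.2
    rw [Fin.sum_univ_succAbove _ i, h, zero_add] at h1
    exact h1

theorem restr_map {m : ℕ} (i : Fin (m + 2)) (y : Dl m) :
    restr i (stdSimplex.map (Op.face i) y) = y := by
  apply Subtype.ext
  funext a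
  show restr i (stdSimplex.map (Op.face i) y) a = y a
  rw [restr_apply (map_face_self i y), map_face_apply]

theorem map_restr {m : ℕ} {i : Fin (m + 2)} {y : Dl (m + 1)} (h : y i = 0) :
    stdSimplex.map (Op.face i) (restr i y) = y := by
  apply Subtype.ext
  funext b
  show stdSimplex.map (Op.face i) (restr i y) b = y b
  by_cases hb : b = i
  · subst hb
    rw [map_face_self, h]
  · obtain ⟨a, rfl⟩ := exists_face hb
    rw [map_face_apply, restr_apply h]

variable {W : Type} [TopologicalSpace W]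

/-- a singular simplex as a continuous map -/
def toC {m : ℕ} (x : (SS.Sing W).S m) : C(Dl m, W) := x

/-- compatible families of faces -/
def Cpt : (m : ℕ) → (Fin (m + 2) → (SS.Sing W).S m) → Prop
  | 0, _ => True
  | k + 1, x => ∀ (i : Fin (k + 3)) (j : Fin (k + 2)) (i' : Fin (k + 3)) (j' : Fin (k + 2)),
      (j : ℕ) < i → (i' : ℕ) = j → (j' : ℕ) + 1 = i →
        (SS.Sing W).act (Op.face j) (x i) = (SS.Sing W).act (Op.face j') (x i')


theorem glue_wd_lt {m : ℕ} (x : Fin (m + 2) → (SS.Sing W).S m) (hx : Cpt m x)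
    {i i' : Fin (m + 2)} {y : Dl (m + 1)} (hi : y i = 0) (hi' : y i' = 0) (hlt : i' < i) :
    toC (x i) (restr i y) = toC (x i') (restr i' y) := by
  rcases m with _ | k
  · exfalso
    have h1 : ∑ b, y b = 1 := y.2.2
    have hlt' : (i' : ℕ) < i := hlt
    have hi2 := i.2
    have h0 : i' = 0 := by ext; show (i' : ℕ) = 0; omega
    have h2 : i = 1 := by ext; show (i : ℕ) = 1; omega
    subst h0; subst h2
    rw [Fin.sum_univ_two, hi, hi'] at h1
    norm_num at h1
  · have hlt' : (i' : ℕ) < i := hlt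
    have hi2 := i.2
    let j : Fin (k + 2) := ⟨i', by omega⟩
    let j' : Fin (k + 2) := ⟨i - 1, by omega⟩
    have hj : (j : ℕ) = i' := rfl
    have hj' : (j' : ℕ) = i - 1 := rfl
    have hc := hx i j i' j' (by omega) (by omega) (by omega)
    have hff := Ch.face_face i j i' j' (by omega) (by omega) (by omega)
    have e1 : Op.face i j = i' := by
      ext; rw [Ch.face_val]; rw [if_pos (by omega)]
    have e2 : Op.face i' j' = i := by
      ext; rw [Ch.face_val]; rw [if_neg (by omega)]; omega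
    have z1 : restr i y j = 0 := by rw [restr_apply hi, e1, hi']
    have z2 : restr i' y j' = 0 := by rw [restr_apply hi', e2, hi]
    have hz : restr j (restr i y) = restr j' (restr i' y) := by
      apply Subtype.ext
      funext a
      show restr j (restr i y) a = restr j' (restr i' y) a
      rw [restr_apply z1, restr_apply z2, restr_apply hi, restr_apply hi']
      have := DFunLike.congr_fun hff a
      simp only [OrderHom.comp_coe, Function.comp_apply] at this
      rw [this]
    calc toC (x i) (restr i y)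
        = toC (x i) (stdSimplex.map (Op.face j) (restr j (restr i y))) := by
          rw [map_restr z1]
      _ = toC ((SS.Sing W).act (Op.face j) (x i)) (restr j (restr i y)) := rfl
      _ = toC ((SS.Sing W).act (Op.face j') (x i')) (restr j' (restr i' y)) := by
          rw [hc, hz]
      _ = toC (x i') (stdSimplex.map (Op.face j') (restr j' (restr i' y))) := rfl
      _ = toC (x i') (restr i' y) := by rw [map_restr z2]

theorem glue_wd {m : ℕ} (x : Fin (m + 2) → (SS.Sing W).S m) (hx : Cpt m x)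
    {i i' : Fin (m + 2)} {y : Dl (m + 1)} (hi : y i = 0) (hi' : y i' = 0) :
    toC (x i) (restr i y) = toC (x i') (restr i' y) := by
  rcases lt_trichotomy i i' with h | h | h
  · exact (glue_wd_lt x hx hi' hi h).symm
  · subst h; rfl
  · exact glue_wd_lt x hx hi hi' h

/-- gluing a compatible family of faces -/
theorem glue {m : ℕ} (x : Fin (m + 2) → (SS.Sing W).S m) (hx : Cpt m x) :
    ∃ e : Dl (m + 1) → W, ContinuousOn e (bdry (m + 1)) ∧
      ∀ (i : Fin (m + 2)) (y : Dl m), e (stdSimplex.map (Op.face i) y) = toC (x i) y := by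
  classical
  let e : Dl (m + 1) → W := fun y =>
    if h : ∃ i, y i = 0 then toC (x h.choose) (restr h.choose y)
    else toC (x 0) (restr 0 y)
  have he : ∀ (i : Fin (m + 2)) (y : Dl (m + 1)), y i = 0 →
      e y = toC (x i) (restr i y) := by
    intro i y hy
    have h : ∃ i, y i = 0 := ⟨i, hy⟩
    show (if h : ∃ i, y i = 0 then toC (x h.choose) (restr h.choose y)
      else toC (x 0) (restr 0 y)) = _
    rw [dif_pos h]
    exact glue_wd x hx h.choose_spec hy
  refine ⟨e, ?_, ?_⟩
  · have hU : bdry (m + 1) = ⋃ i : Fin (m + 2), {y : Dl (m + 1) | y i = 0} := by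
      ext y; simp only [bdry, Set.mem_ofPred_eq, Set.mem_iUnion]; rfl
    rw [hU]
    refine (locallyFinite_of_finite _).continuousOn_iUnion (fun i => ?_) (fun i => ?_)
    · exact isClosed_eq ((continuous_apply i).comp continuous_subtype_val) continuous_const
    · have hc : ContinuousOn (fun y => toC (x i) (restr i y)) {y : Dl (m + 1) | y i = 0} :=
        ((toC (x i)).continuous.comp (continuous_restr i)).continuousOn
      exact hc.congr fun y hy => he i y hy
  · intro i y
    rw [he i _ (map_face_self i y), restr_map]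

end Glue

variable {A Z : Type} [TopologicalSpace A] [TopologicalSpace Z]

/-- start of the path -/
def pr0 (s : C(A, Z)) : C(PE s, Z) :=
  ⟨fun p => p.1.1 0, (ContinuousEvalConst.continuous_eval_const (0 : I)).comp
    (continuous_fst.comp continuous_subtype_val)⟩

/-- the end point in `A` -/
def prA (s : C(A, Z)) : C(PE s, A) := ⟨fun p => p.1.2, continuous_snd.comp continuous_subtype_val⟩

/-- constant paths -/
def cstP (s : C(A, Z)) : C(A, PE s) :=
  ⟨fun a => ⟨(ContinuousMap.const I (s a), a), rfl⟩,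
    Continuous.subtype_mk ((ContinuousMap.continuous_const'.comp s.continuous).prodMk
      continuous_id) _⟩


theorem lift_faces {s : C(A, Z)} (hs : Function.Injective s) {m : ℕ} (hcomp : Compr s (m + 1))
    (x : Fin (m + 2) → (SS.Sing (PE s)).S m) (hx : Cpt m x) (sg : (SS.Sing Z).S (m + 1))
    (hsg : ∀ i, (SS.SingMap (pr0 s)).app m (x i) = (SS.Sing Z).act (Op.face i) sg) :
    ∃ e : (SS.Sing (PE s)).S (m + 1), (∀ i, (SS.Sing (PE s)).act (Op.face i) e = x i) ∧
      (SS.SingMap (pr0 s)).app (m + 1) e = sg := by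
  obtain ⟨e, he, hex⟩ := glue x hx
  obtain ⟨E, hE, hEb⟩ := lift_of_compr hs hcomp (toC sg) e he (by
    rintro y ⟨i, hi⟩
    have h1 := hex i (restr i y)
    rw [map_restr hi] at h1
    rw [h1]
    have h2 := ContinuousMap.congr_fun (hsg i) (restr i y)
    have h3 : toC ((SS.Sing Z).act (Op.face i) sg) (restr i y) =
        toC sg (stdSimplex.map (Op.face i) (restr i y)) := rfl
    rw [map_restr hi] at h3
    exact h2.trans h3)
  refine ⟨E, fun i => ?_, ?_⟩
  · apply ContinuousMap.ext
    intro y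
    show E (stdSimplex.map (Op.face i) y) = _
    rw [hEb _ ⟨i, map_face_self i y⟩]
    exact hex i y
  · exact ContinuousMap.ext hE

theorem lift_zero {s : C(A, Z)} (hcomp : Compr s 0)
    (sg : (SS.Sing Z).S 0) : ∃ e : (SS.Sing (PE s)).S 0, (SS.SingMap (pr0 s)).app 0 e = sg := by
  have hb : bdry 0 = (∅ : Set (Dl 0)) := by
    rw [Set.eq_empty_iff_forall_notMem]
    rintro y ⟨i, hi⟩
    have h1 : ∑ b, y b = 1 := y.2.2
    rw [Fin.sum_univ_one] at h1
    have : i = 0 := Fin.ext (by have := i.2; simp only [Fin.val_zero]; omega)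
    subst this
    have h2 : y 0 = 0 := hi
    rw [h2] at h1
    norm_num at h1
  -- a lift of the point exists
  obtain ⟨b, ⟨K⟩⟩ := hcomp (toC sg) (by rw [hb]; simp)
  let E : C(Dl 0, PE s) := ⟨fun y => ⟨((K.toContinuousMap.comp ContinuousMap.prodSwap).curry y, b y),
    K.apply_one y⟩, Continuous.subtype_mk
      ((K.toContinuousMap.comp ContinuousMap.prodSwap).curry.continuous.prodMk b.continuous) _⟩
  refine ⟨E, ?_⟩
  apply ContinuousMap.ext
  intro y
  exact K.apply_zero y

end Crest.Agent.R204.Conn747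
end
end

-- ▼ part R204/ConnD_747
section

/-!
# Row 204: compression in dimensions `≤ m` ⇒ `H_i(A) → H_i(Z)` injective for `i < m`,
surjective for `i ≤ m` (seat 747)
-/

set_option autoImplicit false

open Set Finsupp
open scoped unitInterval Topology

noncomputable section

namespace Crest.Agent.R204.Conn747

variable {A Z : Type} [TopologicalSpace A] [TopologicalSpace Z]

/-! ## the section -/

/-- a good lift of the simplex `x`, given the lifts `r` of its faces -/
def Good (s : C(A, Z)) (k : ℕ) (r : (SS.Sing Z).S k → (SS.Sing (PE s)).S k)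
    (x : (SS.Sing Z).S (k + 1)) (e : (SS.Sing (PE s)).S (k + 1)) : Prop :=
  (∀ i : Fin (k + 2), (SS.Sing (PE s)).act (Op.face i) e = r ((SS.Sing Z).act (Op.face i) x)) ∧
    (SS.SingMap (pr0 s)).app (k + 1) e = x ∧
    ∀ y : (SS.Sing A).S (k + 1), x = (SS.SingMap s).app (k + 1) y →
      e = (SS.SingMap (cstP s)).app (k + 1) y

/-- a good lift of a vertex -/
def Good0 (s : C(A, Z)) (x : (SS.Sing Z).S 0) (e : (SS.Sing (PE s)).S 0) : Prop :=
  (SS.SingMap (pr0 s)).app 0 e = x ∧
    ∀ y : (SS.Sing A).S 0, x = (SS.SingMap s).app 0 y → e = (SS.SingMap (cstP s)).app 0 y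

theorem singMap_injective {s : C(A, Z)} (hs : Function.Injective s) (k : ℕ) :
    Function.Injective ((SS.SingMap s).app k) := by
  intro y y' h
  apply ContinuousMap.ext
  intro p
  exact hs (ContinuousMap.congr_fun h p)

theorem exists_good0 {s : C(A, Z)} (hs : Function.Injective s) (h0 : Compr s 0)
    (x : (SS.Sing Z).S 0) : ∃ e, Good0 s x e := by
  by_cases h : ∃ y, x = (SS.SingMap s).app 0 y
  · obtain ⟨y, rfl⟩ := h
    refine ⟨(SS.SingMap (cstP s)).app 0 y, rfl, fun y' h' => ?_⟩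
    rw [singMap_injective hs 0 h']
  · obtain ⟨e, he⟩ := lift_zero h0 x
    exact ⟨e, he, fun y hy => absurd ⟨y, hy⟩ h⟩

open Classical in
/-- the lifts -/
def rho (s : C(A, Z)) (h0 : ∀ x : (SS.Sing Z).S 0, ∃ e, Good0 s x e) :
    ∀ k, (SS.Sing Z).S k → (SS.Sing (PE s)).S k
  | 0, x => (h0 x).choose
  | k + 1, x => if h : ∃ e, Good s k (rho s h0 k) x e then h.choose
      else (SS.Sing (PE s)).act (Op.dgn 0) (rho s h0 k ((SS.Sing Z).act (Op.face 0) x))

theorem rho_good {s : C(A, Z)} (hs : Function.Injective s)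
    (h0 : ∀ x : (SS.Sing Z).S 0, ∃ e, Good0 s x e) {m : ℕ} (hc : ∀ q ≤ m, Compr s q) :
    ∀ k, k + 1 ≤ m → ∀ x : (SS.Sing Z).S (k + 1), Good s k (rho s h0 k) x (rho s h0 (k + 1) x) := by
  intro k
  induction k with
  | zero =>
    intro hk x
    have h : ∃ e, Good s 0 (rho s h0 0) x e := by
      by_cases hy : ∃ y, x = (SS.SingMap s).app 1 y
      · obtain ⟨y, rfl⟩ := hy
        refine ⟨(SS.SingMap (cstP s)).app 1 y, ?_, rfl, fun y' h' => ?_⟩
        · intro i
          exact ((h0 ((SS.Sing Z).act (Op.face i) ((SS.SingMap s).app 1 y))).choose_spec.2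
            ((SS.Sing A).act (Op.face i) y) rfl).symm
        · rw [singMap_injective hs 1 h']
      · obtain ⟨e, he1, he2⟩ := lift_faces hs (hc 1 hk)
          (fun i => rho s h0 0 ((SS.Sing Z).act (Op.face i) x)) trivial x
          (fun i => (h0 ((SS.Sing Z).act (Op.face i) x)).choose_spec.1)
        exact ⟨e, he1, he2, fun y hy' => absurd ⟨y, hy'⟩ hy⟩
    have : rho s h0 1 x = h.choose := dif_pos h
    rw [this]
    exact h.choose_spec
  | succ k ih =>
    intro hk x
    have ih' := ih (by omega)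
    have h : ∃ e, Good s (k + 1) (rho s h0 (k + 1)) x e := by
      by_cases hy : ∃ y, x = (SS.SingMap s).app (k + 2) y
      · obtain ⟨y, rfl⟩ := hy
        refine ⟨(SS.SingMap (cstP s)).app (k + 2) y, ?_, rfl, fun y' h' => ?_⟩
        · intro i
          exact ((ih' ((SS.Sing Z).act (Op.face i) ((SS.SingMap s).app (k + 2) y))).2.2
            ((SS.Sing A).act (Op.face i) y) rfl).symm
        · rw [singMap_injective hs (k + 2) h']
      · obtain ⟨e, he1, he2⟩ := lift_faces hs (hc (k + 2) hk)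
          (fun i => rho s h0 (k + 1) ((SS.Sing Z).act (Op.face i) x)) (by
            intro i j i' j' h1 h2 h3
            show (SS.Sing (PE s)).act (Op.face j) (rho s h0 (k + 1) ((SS.Sing Z).act (Op.face i) x)) =
              (SS.Sing (PE s)).act (Op.face j') (rho s h0 (k + 1) ((SS.Sing Z).act (Op.face i') x))
            rw [(ih' _).1 j, (ih' _).1 j', ← (SS.Sing Z).act_comp, ← (SS.Sing Z).act_comp,
              Ch.face_face i j i' j' h1 h2 h3]) x
          (fun i => (ih' ((SS.Sing Z).act (Op.face i) x)).2.1)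
        exact ⟨e, he1, he2, fun y hy' => absurd ⟨y, hy'⟩ hy⟩
    have : rho s h0 (k + 2) x = h.choose := dif_pos h
    rw [this]
    exact h.choose_spec

theorem exists_section {s : C(A, Z)} (hs : Function.Injective s) {m : ℕ}
    (hc : ∀ q ≤ m, Compr s q) :
    ∃ ρ : ∀ k, (SS.Sing Z).S k → (SS.Sing (PE s)).S k,
      (∀ k ≤ m, ∀ x, (SS.SingMap (pr0 s)).app k (ρ k x) = x) ∧
      (∀ k < m, ∀ (x : (SS.Sing Z).S (k + 1)) (i : Fin (k + 2)),
        (SS.Sing (PE s)).act (Op.face i) (ρ (k + 1) x) = ρ k ((SS.Sing Z).act (Op.face i) x)) ∧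
      (∀ k ≤ m, ∀ y : (SS.Sing A).S k,
        ρ k ((SS.SingMap s).app k y) = (SS.SingMap (cstP s)).app k y) := by
  have h0 := exists_good0 hs (hc 0 (by omega))
  have hg := rho_good hs h0 hc
  refine ⟨rho s h0, ?_, ?_, ?_⟩
  · intro k hk x
    rcases k with _ | k
    · exact (h0 x).choose_spec.1
    · exact (hg k hk x).2.1
  · intro k hk x i
    exact (hg k hk x).1 i
  · intro k hk y
    rcases k with _ | k
    · exact (h0 _).choose_spec.2 y rfl
    · exact (hg k hk _).2.2 y rfl

/-! ## chains -/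

variable (R : Type) [CommRing R]

/-- the induced map on chains of a family of functions -/
def chF {K L : SS} (ρ : ∀ k, K.S k → L.S k) : Ch R K →ₗ[R] Ch R L :=
  Finsupp.lmapDomain R R (fun t : K.T => (⟨t.1, ρ t.1 t.2⟩ : L.T))

theorem chF_single {K L : SS} (ρ : ∀ k, K.S k → L.S k) (n : ℕ) (x : K.S n) (r : R) :
    chF R ρ (single ⟨n, x⟩ r) = single ⟨n, ρ n x⟩ r := by
  simp [chF, Finsupp.mapDomain_single]

variable {R}

theorem gr_ext {K : SS} {n : ℕ} {M : Type*} [AddCommGroup M] [Module R M] (f g : Ch R K →ₗ[R] M)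
    (h : ∀ (x : K.S n) (r : R), f (single ⟨n, x⟩ r) = g (single ⟨n, x⟩ r)) {c : Ch R K}
    (hc : c ∈ Ch.gr R K n) : f c = g c := by
  have hle : Ch.gr R K n ≤ LinearMap.eqLocus f g := by
    refine Submodule.span_le.2 ?_
    rintro _ ⟨x, rfl⟩
    exact h x 1
  exact hle hc

theorem chF_gr {K L : SS} (ρ : ∀ k, K.S k → L.S k) {n : ℕ} {c : Ch R K} (hc : c ∈ Ch.gr R K n) :
    chF R ρ c ∈ Ch.gr R L n := by
  have hle : Ch.gr R K n ≤ (Ch.gr R L n).comap (chF R ρ) := by
    refine Submodule.span_le.2 ?_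
    rintro _ ⟨x, rfl⟩
    show chF R ρ (single ⟨n, x⟩ 1) ∈ Ch.gr R L n
    rw [chF_single]
    exact Submodule.subset_span ⟨_, rfl⟩
  exact hle hc

theorem bd_chF {K L : SS} (ρ : ∀ k, K.S k → L.S k) {m : ℕ}
    (hρ : ∀ k < m, ∀ (x : K.S (k + 1)) (i : Fin (k + 2)),
      L.act (Op.face i) (ρ (k + 1) x) = ρ k (K.act (Op.face i) x)) {n : ℕ} (hn : n ≤ m)
    {c : Ch R K} (hc : c ∈ Ch.gr R K n) : Ch.bd R L (chF R ρ c) = chF R ρ (Ch.bd R K c) := by
  refine gr_ext (Ch.bd R L ∘ₗ chF R ρ) (chF R ρ ∘ₗ Ch.bd R K) ?_ hc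
  intro x r
  show Ch.bd R L (chF R ρ _) = chF R ρ (Ch.bd R K _)
  rcases n with _ | k
  · rw [chF_single, Ch.bd_single_zero, Ch.bd_single_zero, map_zero]
  · rw [chF_single, Ch.bd_single_succ, Ch.bd_single_succ, map_sum]
    refine Finset.sum_congr rfl fun i _ => ?_
    rw [chF_single, hρ k (by omega)]

theorem prC_gr {K : SS} {n : ℕ} {c : Ch R K} (hc : c ∈ Ch.gr R K n) : Gr334.prC R K n c = c :=
  gr_ext (Gr334.prC R K n) LinearMap.id (fun x r => Gr334.prC_single_self _ _ x r) hc

theorem prC_mem_gr {K : SS} (n : ℕ) (c : Ch R K) : Gr334.prC R K n c ∈ Ch.gr R K n := by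
  induction c using Finsupp.induction_linear with
  | zero => simp
  | add f g hf hg => rw [map_add]; exact Submodule.add_mem _ hf hg
  | single t r =>
    obtain ⟨k, x⟩ := t
    by_cases h : k = n
    · subst h
      rw [Gr334.prC_single_self]
      have : single (⟨k, x⟩ : K.T) r = r • single (⟨k, x⟩ : K.T) (1 : R) := by
        rw [Finsupp.smul_single, smul_eq_mul, mul_one]
      rw [this]
      exact Submodule.smul_mem _ _ (Submodule.subset_span ⟨_, rfl⟩)
    · rw [Gr334.prC_single_ne _ _ h]; exact Submodule.zero_mem _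

theorem prC_bd {K : SS} (n : ℕ) (c : Ch R K) :
    Gr334.prC R K n (Ch.bd R K c) = Ch.bd R K (Gr334.prC R K (n + 1) c) := by
  induction c using Finsupp.induction_linear with
  | zero => simp
  | add f g hf hg => simp only [map_add, hf, hg]
  | single t r =>
    obtain ⟨k, x⟩ := t
    rcases k with _ | k
    · rw [Ch.bd_single_zero, map_zero, Gr334.prC_single_ne _ _ (by omega), map_zero]
    · by_cases h : k = n
      · subst h
        rw [Gr334.prC_single_self, Ch.bd_single_succ, map_sum]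
        exact Finset.sum_congr rfl fun i _ => Gr334.prC_single_self _ _ _ _
      · rw [Gr334.prC_single_ne _ _ (by omega), map_zero, Ch.bd_single_succ, map_sum]
        exact Finset.sum_eq_zero fun i _ => Gr334.prC_single_ne _ _ h _ _

theorem bd_gr_zero' {K : SS} {c : Ch R K} (hc : c ∈ Ch.gr R K 0) : Ch.bd R K c = 0 :=
  gr_ext (Ch.bd R K) 0 (fun x r => Ch.bd_single_zero x r) hc

/-- every homogeneous class is represented by a homogeneous cycle of unnormalised chains -/
theorem exists_rep {K : SS} {n : ℕ} {x : H R K} (hx : x ∈ H.gr R K n) :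
    ∃ c ∈ Ch.gr R K n, ∃ _ : Ch.bd R K c = 0, ∃ hz : N.bd R K (Submodule.Quotient.mk c) = 0,
      x = Hd.mk (N.bd R K) (Submodule.Quotient.mk c) hz := by
  obtain ⟨z, hz, hbz, rfl⟩ := Gr334.mem_H_gr.1 hx
  obtain ⟨c₀, hc₀, rfl⟩ := hz
  have h1 : Ch.bd R K c₀ ∈ Ch.Dg R K := by
    have h2 : (Submodule.Quotient.mk (Ch.bd R K c₀) : N R K) = 0 := hbz
    exact (Submodule.Quotient.mk_eq_zero _).1 h2
  obtain ⟨w, hw, hbw⟩ := dgAcyclic R K _ h1 (Ch.bd_bd c₀)
  have hw' : Gr334.prC R K n w ∈ Ch.Dg R K := Gr334.prC_mem_Dg R K n hw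
  have hb : Ch.bd R K (c₀ - Gr334.prC R K n w) = 0 := by
    rcases n with _ | n
    · rw [bd_gr_zero' (Submodule.sub_mem _ hc₀ (prC_mem_gr 0 w))]
    · rw [map_sub, ← prC_bd, hbw, prC_bd, prC_gr hc₀, sub_self]
  have hq : (Submodule.Quotient.mk (c₀ - Gr334.prC R K n w) : N R K) = Submodule.Quotient.mk c₀ := by
    rw [Submodule.Quotient.eq]
    have : c₀ - Gr334.prC R K n w - c₀ = -Gr334.prC R K n w := by abel
    rw [this]; exact Submodule.neg_mem _ hw'
  refine ⟨c₀ - Gr334.prC R K n w, Submodule.sub_mem _ hc₀ (prC_mem_gr n w), hb, ?_, ?_⟩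
  · rw [N.bd_mk, hb]; rfl
  · exact Hd.mk_eq_mk.2 ⟨0, by
      rw [map_zero, hq]
      exact (sub_self _).symm⟩

/-- a homogeneous cycle whose class vanishes is a boundary of unnormalised chains -/
theorem exists_bd {K : SS} {n : ℕ} {c : Ch R K} (hc : c ∈ Ch.gr R K n) (hb : Ch.bd R K c = 0)
    {hz : N.bd R K (Submodule.Quotient.mk c) = 0}
    (h : Hd.mk (N.bd R K) (Submodule.Quotient.mk c) hz = 0) :
    ∃ w ∈ Ch.gr R K (n + 1), Ch.bd R K w = c := by
  obtain ⟨z, hz'⟩ := Hd.mk_eq_zero.1 h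
  obtain ⟨w₀, rfl⟩ := Submodule.Quotient.mk_surjective _ z
  have h1 : c - Ch.bd R K w₀ ∈ Ch.Dg R K := by
    rw [← Submodule.Quotient.mk_eq_zero, Submodule.Quotient.mk_sub, sub_eq_zero]
    exact hz'.symm
  obtain ⟨w₁, -, hw₁⟩ := dgAcyclic R K _ h1 (by rw [map_sub, hb, Ch.bd_bd, sub_zero])
  refine ⟨Gr334.prC R K (n + 1) (w₀ + w₁), prC_mem_gr _ _, ?_⟩
  rw [← prC_bd, map_add, hw₁]
  have : Ch.bd R K w₀ + (c - Ch.bd R K w₀) = c := by abel
  rw [this, prC_gr hc]

theorem chmap_gr {K L : SS} (f : SS.Hom K L) {n : ℕ} {c : Ch R K} (hc : c ∈ Ch.gr R K n) :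
    Ch.map R f c ∈ Ch.gr R L n := chF_gr f.app hc

theorem map_cls {K L : SS} (f : SS.Hom K L) {c : Ch R K}
    {hz : N.bd R K (Submodule.Quotient.mk c) = 0}
    {hz' : N.bd R L (Submodule.Quotient.mk (Ch.map R f c)) = 0} :
    H.map R f (Hd.mk (N.bd R K) (Submodule.Quotient.mk c) hz) =
      Hd.mk (N.bd R L) (Submodule.Quotient.mk (Ch.map R f c)) hz' := rfl

theorem bd_mk_zero {K : SS} {c : Ch R K} (h : Ch.bd R K c = 0) :
    N.bd R K (Submodule.Quotient.mk c) = 0 := by
  rw [N.bd_mk, h]; rfl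

/-- homotopy between the two projections -/
theorem pr0_homotopic (s : C(A, Z)) : (pr0 s).Homotopic (s.comp (prA s)) :=
  ⟨{ toFun := fun p => p.2.1.1 p.1
     continuous_toFun := by
       have h4 : Continuous (fun p : C(I, Z) × I => p.1 p.2) := continuous_eval
       exact h4.comp ((continuous_fst.comp (continuous_subtype_val.comp continuous_snd)).prodMk
         continuous_fst)
     map_zero_left := fun _ => rfl
     map_one_left := fun p => p.2 }⟩

/-- **injectivity** -/
theorem homology_inj {s : C(A, Z)} (hs : Function.Injective s) {m : ℕ}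
    (hc : ∀ q ≤ m, Compr s q) {i : ℕ} (hi : i < m) {u : H R (SS.Sing A)}
    (hu : u ∈ H.gr R (SS.Sing A) i) (h : H.map R (SS.SingMap s) u = 0) : u = 0 := by
  obtain ⟨ρ, h1, h2, h3⟩ := exists_section hs hc
  obtain ⟨c, hcg, hcb, hz, rfl⟩ := exists_rep hu
  have hb' : Ch.bd R (SS.Sing Z) (Ch.map R (SS.SingMap s) c) = 0 := by
    rw [← Ch.map_bd, hcb, map_zero]
  rw [map_cls (hz' := bd_mk_zero hb')] at h
  obtain ⟨w, hw, hbw⟩ := exists_bd (chmap_gr _ hcg) hb' h
  have e1 : Ch.bd R (SS.Sing (PE s)) (chF R ρ w) = chF R ρ (Ch.map R (SS.SingMap s) c) := by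
    rw [bd_chF ρ h2 (by omega) hw, hbw]
  have e2 : chF R ρ (Ch.map R (SS.SingMap s) c) = Ch.map R (SS.SingMap (cstP s)) c := by
    refine gr_ext (chF R ρ ∘ₗ Ch.map R (SS.SingMap s)) (Ch.map R (SS.SingMap (cstP s))) ?_ hcg
    intro x r
    show chF R ρ (Ch.map R (SS.SingMap s) _) = _
    rw [Ch.map_single, Ch.map_single, chF_single, h3 i (by omega)]
  have e3 : Ch.map R (SS.SingMap (prA s)) (Ch.map R (SS.SingMap (cstP s)) c) = c := by
    refine gr_ext (Ch.map R (SS.SingMap (prA s)) ∘ₗ Ch.map R (SS.SingMap (cstP s))) LinearMap.id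
      ?_ hcg
    intro x r
    show Ch.map R (SS.SingMap (prA s)) (Ch.map R (SS.SingMap (cstP s)) _) = _
    rw [Ch.map_single, Ch.map_single]
    rfl
  have e4 : Ch.bd R (SS.Sing A) (Ch.map R (SS.SingMap (prA s)) (chF R ρ w)) = c := by
    rw [← Ch.map_bd, e1, e2, e3]
  exact Hd.mk_eq_zero.2 ⟨Submodule.Quotient.mk (Ch.map R (SS.SingMap (prA s)) (chF R ρ w)), by
    rw [N.bd_mk, e4]⟩

/-- **surjectivity** -/
theorem homology_surj {s : C(A, Z)} (hs : Function.Injective s) {m : ℕ}
    (hc : ∀ q ≤ m, Compr s q) {i : ℕ} (hi : i ≤ m) {v : H R (SS.Sing Z)}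
    (hv : v ∈ H.gr R (SS.Sing Z) i) :
    ∃ u ∈ H.gr R (SS.Sing A) i, H.map R (SS.SingMap s) u = v := by
  obtain ⟨ρ, h1, h2, h3⟩ := exists_section hs hc
  obtain ⟨c, hcg, hcb, hz, rfl⟩ := exists_rep hv
  have e1 : Ch.bd R (SS.Sing (PE s)) (chF R ρ c) = 0 := by
    rw [bd_chF ρ h2 hi hcg, hcb, map_zero]
  let v' : H R (SS.Sing (PE s)) := Hd.mk (N.bd R _) (Submodule.Quotient.mk (chF R ρ c)) (bd_mk_zero e1)
  have hv' : v' ∈ H.gr R (SS.Sing (PE s)) i :=
    Gr334.mk_mem_gr (Submodule.mem_map_of_mem (chF_gr ρ hcg)) _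
  have e2 : Ch.map R (SS.SingMap (pr0 s)) (chF R ρ c) = c := by
    refine gr_ext (Ch.map R (SS.SingMap (pr0 s)) ∘ₗ chF R ρ) LinearMap.id ?_ hcg
    intro x r
    show Ch.map R (SS.SingMap (pr0 s)) (chF R ρ _) = _
    rw [chF_single, Ch.map_single, h1 i hi]
    rfl
  refine ⟨H.map R (SS.SingMap (prA s)) v', Gr334.H_map_mem_gr _ hv', ?_⟩
  have e3 : H.map R (SS.SingMap s) (H.map R (SS.SingMap (prA s)) v') =
      H.map R (SS.SingMap (s.comp (prA s))) v' := (HZ76.H_map_comp _ _ _ _).symm
  rw [e3, ← HZ76.topHomotopyInv R _ _ _ _ (pr0_homotopic s)]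
  refine Hd.mk_eq_mk.2 ⟨0, ?_⟩
  rw [map_zero]
  refine (sub_eq_zero.2 ?_).symm
  show (Submodule.Quotient.mk (Ch.map R (SS.SingMap (pr0 s)) (chF R ρ c)) : N R (SS.Sing Z)) = _
  rw [e2]

end Crest.Agent.R204.Conn747
end
end

-- ▼ part R204/SusMap_478
section

/-!
# Row 204, block I0: the suspension map `Ω^n S^n → Ω^(n+1) S^(n+1)`, change of base point and the
reduction of S0314 / S0315 to large `n`
-/

set_option autoImplicit false

open scoped unitInterval Topology Topology.Homotopy

noncomputable section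

namespace Crest.Agent.R204.SusMap478

open Crest.Agent.R204 HDeg160 Cubes735 Red478

/-! ## continuity of suspensions -/

section Cont

variable {Y Z : Type*} [TopologicalSpace Y] [TopologicalSpace Z] {y₀ : Y} {z₀ : Z}

/-- the suspension `Ω^J Y → Ω^(J+1) Z` as a continuous map -/
def suspC (D : SuspData Y Z y₀ z₀) (J : ℕ) : C(Ω^ (Fin J) Y y₀, Ω^ (Fin (J + 1)) Z z₀) :=
  ⟨D.susp, by
    rw [continuous_genLoop_iff]
    refine D.e.continuous.comp (Continuous.prodMk ?_ ?_)
    · have h1 : Continuous fun g : Ω^ (Fin J) Y y₀ => g := continuous_id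
      rw [continuous_genLoop_iff] at h1
      refine h1.comp (continuous_fst.prodMk ?_)
      exact continuous_pi fun i => (continuous_apply (Fin.castSucc i)).comp continuous_snd
    · exact (continuous_apply _).comp continuous_snd⟩

@[simp] theorem suspC_apply (D : SuspData Y Z y₀ z₀) {J : ℕ} (g : Ω^ (Fin J) Y y₀)
    (t : I^ Fin (J + 1)) : suspC D J g t = D.e (g (Fin.init t), t (Fin.last J)) := rfl


/-- functoriality of `Ω^J`, as a continuous map -/
def mapC {J : Type*} [Finite J] (g : C(Y, Z)) (hg : g y₀ = z₀) : C(Ω^ J Y y₀, Ω^ J Z z₀) :=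
  ⟨GenLoop.map g hg, by
    rw [continuous_genLoop_iff]
    have h1 : Continuous fun x : Ω^ J Y y₀ => x := continuous_id
    rw [continuous_genLoop_iff] at h1
    exact g.continuous.comp h1⟩

@[simp] theorem mapC_apply {J : Type*} [Finite J] (g : C(Y, Z)) (hg : g y₀ = z₀) (x : Ω^ J Y y₀)
    (t : J → I) : mapC (J := J) g hg x t = g (x t) := rfl

theorem mapC_const {J : Type*} [Finite J] (g : C(Y, Z)) (hg : g y₀ = z₀) :
    mapC (J := J) g hg (GenLoop.const : Ω^ J Y y₀) = GenLoop.const := by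
  ext t
  exact hg

end Cont

/-! ## the explicit suspension of unit spheres -/

section Sphere

/-- the vector `(v, s)` of `ℝ^(n+2)` -/
def app {n : ℕ} (v : EuclideanSpace ℝ (Fin (n + 1))) (s : ℝ) : EuclideanSpace ℝ (Fin (n + 2)) :=
  WithLp.toLp 2 (Fin.snoc (α := fun _ => ℝ) v s)



variable {n : ℕ}










/-! ## change of base point -/

/-- rotation of the sphere taking `x` to `y` -/
theorem exists_rot (x y : S n) : ∃ g h : C(S n, S n), g x = y ∧ h y = x ∧
    (∀ z, g (h z) = z) ∧ ∀ z, h (g z) = z := by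
  obtain ⟨L, hL⟩ : ∃ L : EuclideanSpace ℝ (Fin (n + 1)) ≃ₗᵢ[ℝ] EuclideanSpace ℝ (Fin (n + 1)),
      L x.1 = y.1 := by
    refine ⟨(ℝ ∙ ((x : EuclideanSpace ℝ (Fin (n + 1))) - y))ᗮ.reflection, ?_⟩
    apply Submodule.reflection_sub
    rw [mem_sphere_zero_iff_norm.1 x.2, mem_sphere_zero_iff_norm.1 y.2]
  refine ⟨⟨fun z => ⟨L z.1, ?_⟩, ?_⟩, ⟨fun z => ⟨L.symm z.1, ?_⟩, ?_⟩, ?_, ?_, ?_, ?_⟩
  · rw [mem_sphere_zero_iff_norm, L.norm_map]; exact mem_sphere_zero_iff_norm.1 z.2
  · exact Continuous.subtype_mk (L.continuous.comp continuous_subtype_val) _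
  · rw [mem_sphere_zero_iff_norm, L.symm.norm_map]; exact mem_sphere_zero_iff_norm.1 z.2
  · exact Continuous.subtype_mk (L.symm.continuous.comp continuous_subtype_val) _
  · exact Subtype.ext hL
  · refine Subtype.ext ?_
    show L.symm y.1 = x.1
    rw [← hL, L.symm_apply_apply]
  · exact fun z => Subtype.ext (L.apply_symm_apply _)
  · exact fun z => Subtype.ext (L.symm_apply_apply _)

end Sphere

/-! ## the reduction to large `n` -/

/-- all spherical classes of degree `e+1` in `Ω^n S^n` vanish -/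
def P314 (e n : ℕ) (x : S n) : Prop :=
  ∀ (a : (SS.Sing (GenLoop (Fin n) (S n) x)).S (e + 1))
    (ha : IsSph (GenLoop.const : GenLoop (Fin n) (S n) x) a), sphCl a ha = 0

/-- there is at most one nonzero spherical class of degree `e+1` in `Ω^n S^n` -/
def P315 (e n : ℕ) (x : S n) : Prop :=
  ∀ (a b : (SS.Sing (GenLoop (Fin n) (S n) x)).S (e + 1))
    (ha : IsSph (GenLoop.const : GenLoop (Fin n) (S n) x) a)
    (hb : IsSph (GenLoop.const : GenLoop (Fin n) (S n) x) b),
    sphCl a ha = 0 ∨ sphCl b hb = 0 ∨ sphCl a ha = sphCl b hb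

theorem sphCl_mem_gr {Y : Type} [TopologicalSpace Y] {y : Y} {e : ℕ} (a : (SS.Sing Y).S (e + 1))
    (ha : IsSph y a) : sphCl a ha ∈ H.gr F2 (SS.Sing Y) (e + 1) := by
  refine Submodule.mem_map.2 ⟨⟨N.sx F2 a, ?_⟩, ?_, rfl⟩
  · rw [LinearMap.mem_ker]; exact bd_sx ha
  · exact Submodule.mem_map.2 ⟨Finsupp.single ⟨e + 1, a⟩ 1, Submodule.subset_span ⟨a, rfl⟩, rfl⟩

theorem sphCl_congr {Y : Type} [TopologicalSpace Y] {y : Y} {e : ℕ} {a b : (SS.Sing Y).S (e + 1)}
    (ha : IsSph y a) (hb : IsSph y b) (h : a = b) : sphCl a ha = sphCl b hb := by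
  subst h; rfl

/-- a spherical class is the image of the class transported by an inverse map -/
theorem sphCl_transport {Y Z : Type} [TopologicalSpace Y] [TopologicalSpace Z] (g : C(Y, Z))
    (h : C(Z, Y)) {y : Y} {z : Z} (hh : h z = y) (hgh : ∀ w, g (h w) = w) {e : ℕ}
    (a : (SS.Sing Z).S (e + 1)) (ha : IsSph z a) :
    ∃ (a' : (SS.Sing Y).S (e + 1)) (ha' : IsSph y a'),
      H.map F2 (SS.SingMap g) (sphCl a' ha') = sphCl a ha := by
  have hg : g y = z := by rw [← hh, hgh]
  refine ⟨(SS.SingMap h).app (e + 1) a, hh ▸ ha.map h, ?_⟩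
  rw [map_sphCl g _ hg]
  apply sphCl_congr
  apply ContinuousMap.ext
  intro p
  exact hgh _

theorem P314_rot {e n : ℕ} {x y : S n} (h : P314 e n x) : P314 e n y := by
  obtain ⟨g, g', h1, h2, h3, -⟩ := exists_rot x y
  intro a ha
  obtain ⟨a', ha', h4⟩ := sphCl_transport (mapC (J := Fin n) g h1) (mapC (J := Fin n) g' h2)
    (mapC_const g' h2) (fun w => GenLoop.ext _ _ fun t => h3 _) a ha
  rw [← h4, h a' ha', map_zero]

theorem P315_rot {e n : ℕ} {x y : S n} (h : P315 e n x) : P315 e n y := by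
  obtain ⟨g, g', h1, h2, h3, -⟩ := exists_rot x y
  intro a b ha hb
  obtain ⟨a', ha', h4⟩ := sphCl_transport (mapC (J := Fin n) g h1) (mapC (J := Fin n) g' h2)
    (mapC_const g' h2) (fun w => GenLoop.ext _ _ fun t => h3 _) a ha
  obtain ⟨b', hb', h5⟩ := sphCl_transport (mapC (J := Fin n) g h1) (mapC (J := Fin n) g' h2)
    (mapC_const g' h2) (fun w => GenLoop.ext _ _ fun t => h3 _) b hb
  rcases h a' b' ha' hb' with h6 | h6 | h6
  · exact Or.inl (h4.symm.trans ((congrArg _ h6).trans (map_zero _)))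
  · exact Or.inr (Or.inl (h5.symm.trans ((congrArg _ h6).trans (map_zero _))))
  · exact Or.inr (Or.inr (h4.symm.trans ((congrArg _ h6).trans h5)))

/-- **(R4), final form**: there is a based map `Ω^n S^n → Ω^(n+1) S^(n+1)` injective on `H_d` for
`1 ≤ d ≤ n - 2` (some suspension map, some base point) -/
def Stab : Prop := ∀ (n : ℕ) (x : S n), ∃ (x' : S (n + 1))
  (F : C(GenLoop (Fin n) (S n) x, GenLoop (Fin (n + 1)) (S (n + 1)) x')),
  F GenLoop.const = GenLoop.const ∧ ∀ e : ℕ, e + 1 + 2 ≤ n →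
  ∀ u ∈ H.gr F2 (SS.Sing (GenLoop (Fin n) (S n) x)) (e + 1), H.map F2 (SS.SingMap F) u = 0 → u = 0


theorem P314_down (hs : Stab) {e n : ℕ} (hn : e + 1 + 2 ≤ n) {x : S n}
    (h : ∀ x' : S (n + 1), P314 e (n + 1) x') : P314 e n x := by
  obtain ⟨x', F, hF, hs⟩ := hs n x
  intro a ha
  apply hs e hn _ (sphCl_mem_gr a ha)
  rw [map_sphCl F ha hF]
  exact h x' _ _

theorem P315_down (hs : Stab) {e n : ℕ} (hn : e + 1 + 2 ≤ n) {x : S n}
    (h : ∀ x' : S (n + 1), P315 e (n + 1) x') : P315 e n x := by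
  obtain ⟨x', F, hF, hs⟩ := hs n x
  intro a b ha hb
  have ea := map_sphCl F ha hF
  have eb := map_sphCl F hb hF
  rcases h x' _ _ (hF ▸ ha.map F) (hF ▸ hb.map F) with h1 | h1 | h1
  · exact Or.inl (hs e hn _ (sphCl_mem_gr a ha) (ea.trans h1))
  · exact Or.inr (Or.inl (hs e hn _ (sphCl_mem_gr b hb) (eb.trans h1)))
  · refine Or.inr (Or.inr (sub_eq_zero.1 ?_))
    apply hs e hn _ (Submodule.sub_mem _ (sphCl_mem_gr a ha) (sphCl_mem_gr b hb))
    exact (map_sub _ _ _).trans (sub_eq_zero.2 (ea.trans (h1.trans eb.symm)))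

theorem P314_of_huge (hs : Stab) {e : ℕ} (h : ∀ N, ∃ n, N ≤ n ∧ ∃ x : S n, P314 e n x) {n : ℕ}
    (hn : e + 1 + 2 ≤ n) (x : S n) : P314 e n x := by
  obtain ⟨m, hm, hy⟩ := h n
  obtain ⟨k, rfl⟩ := Nat.exists_eq_add_of_le hm
  clear h hm
  induction k generalizing n with
  | zero =>
    obtain ⟨y, hy⟩ := hy
    exact P314_rot hy
  | succ k ih =>
    apply P314_down hs hn
    refine fun x' => ih (by omega) x' ?_
    rw [show n + 1 + k = n + (k + 1) by omega]
    exact hy

theorem P315_of_huge (hs : Stab) {e : ℕ} (h : ∀ N, ∃ n, N ≤ n ∧ ∃ x : S n, P315 e n x) {n : ℕ}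
    (hn : e + 1 + 2 ≤ n) (x : S n) : P315 e n x := by
  obtain ⟨m, hm, hy⟩ := h n
  obtain ⟨k, rfl⟩ := Nat.exists_eq_add_of_le hm
  clear h hm
  induction k generalizing n with
  | zero =>
    obtain ⟨y, hy⟩ := hy
    exact P315_rot hy
  | succ k ih =>
    apply P315_down hs hn
    refine fun x' => ih (by omega) x' ?_
    rw [show n + 1 + k = n + (k + 1) by omega]
    exact hy

/-- core statement for arbitrarily large `n` -/
def Huge314 : Prop := ∀ e : ℕ, e + 1 ≠ 1 → e + 1 ≠ 3 → e + 1 ≠ 7 → (∀ j : ℕ, e + 1 + 2 ≠ 2 ^ j) →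
  ∀ N, ∃ n, N ≤ n ∧ ∃ x : S n, P314 e n x

/-- core statement for arbitrarily large `n` -/
def Huge315 : Prop := ∀ e N : ℕ, ∃ n, N ≤ n ∧ ∃ x : S n, P315 e n x

theorem core314_of_huge (hs : Stab) (h : Huge314) : Core314 :=
  fun e _n h1 h3 h7 hj hn x a ha => P314_of_huge hs (h e h1 h3 h7 hj) hn x a ha

theorem core315_of_huge (hs : Stab) (h : Huge315) : Core315 :=
  fun e _n hn x a b ha hb => P315_of_huge hs (h e) hn x a b ha hb

end Crest.Agent.R204.SusMap478
end
end

-- ▼ part R204/ConnE_747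

/-!
# Row 204: homology suspension ranges (seat 747)

* `susp_inj`, `susp_surj`: `H_i(Ω^J S^n) → H_i(Ω^(J+1) S^(n+1))` is injective for `i + J + 1 < 2 n`
  and surjective for `i + J < 2 n`;
* `EJ_inj`, `EJ_surj`: `H_i(S^m) → H_i(Ω^J S^(m+J))` is injective for `i + 1 < 2 m`, surjective for
  `i < 2 m`;
* `stab : SusMap478.Stab`.
-/

set_option autoImplicit false

open scoped unitInterval Topology Topology.Homotopy

noncomputable section

namespace Crest.Agent.R204.Conn747

open Crest.Agent.R204.Freu297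

theorem compr_susp {q n J : ℕ} (hq : q + J + 2 < 2 * (n + 1)) : Compr (susp n J) q :=
  fun a ha => step_simplex_rel hq a ha

variable (R : Type) [CommRing R]

theorem susp_inj {n J i : ℕ} (hi : i + J + 1 < 2 * n)
    {u : H R (SS.Sing (GenLoop (Fin J) (Sph n) (pt n)))} (hu : u ∈ H.gr R _ i)
    (h : H.map R (SS.SingMap (susp n J)) u = 0) : u = 0 :=
  homology_inj (susp_injective n J) (m := i + 1) (fun _ _ => compr_susp (by omega)) (by omega) hu h

theorem susp_surj {n J i : ℕ} (hi : i + J < 2 * n)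
    {v : H R (SS.Sing (GenLoop (Fin (J + 1)) (Sph (n + 1)) (pt (n + 1))))} (hv : v ∈ H.gr R _ i) :
    ∃ u ∈ H.gr R (SS.Sing (GenLoop (Fin J) (Sph n) (pt n))) i,
      H.map R (SS.SingMap (susp n J)) u = v :=
  homology_surj (susp_injective n J) (m := i) (fun _ _ => compr_susp (by omega)) le_rfl hv

theorem Hmap_comp {X Y Z : Type} [TopologicalSpace X] [TopologicalSpace Y] [TopologicalSpace Z]
    (g : C(Y, Z)) (f : C(X, Y)) (u : H R (SS.Sing X)) :
    H.map R (SS.SingMap (g.comp f)) u = H.map R (SS.SingMap g) (H.map R (SS.SingMap f) u) := by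
  have h1 : SS.SingMap (g.comp f) = SS.Hom.comp (SS.SingMap g) (SS.SingMap f) := by
    ext n x; rfl
  rw [h1]
  exact HZ76.H_map_comp R (SS.SingMap g) (SS.SingMap f) u

theorem Hmap_id {X : Type} [TopologicalSpace X] (u : H R (SS.Sing X)) :
    H.map R (SS.SingMap (ContinuousMap.id X)) u = u := by
  have : SS.SingMap (ContinuousMap.id X) = SS.Hom.id (SS.Sing X) := by
    ext n x; rfl
  rw [this]; exact HZ76.H_map_id R u

/-- a map with a left inverse is injective on homology -/
theorem Hmap_inj_of_leftInv {X Y : Type} [TopologicalSpace X] [TopologicalSpace Y] (f : C(X, Y))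
    (g : C(Y, X)) (h : ∀ x, g (f x) = x) {u : H R (SS.Sing X)}
    (hu : H.map R (SS.SingMap f) u = 0) : u = 0 := by
  have h1 : g.comp f = ContinuousMap.id X := ContinuousMap.ext h
  have h2 := Hmap_comp R g f u
  rw [h1, Hmap_id, hu, map_zero] at h2
  exact h2

/-- evaluation `Ω^0 S^m → S^m` -/
def ofLoop0 (m : ℕ) : C(GenLoop (Fin 0) (Sph m) (pt m), Sph m) :=
  ⟨fun g => g (fun i => i.elim0), continuous_eval_const (F := GenLoop (Fin 0) (Sph m) (pt m))
    (fun i : Fin 0 => i.elim0)⟩

theorem toLoop0_ofLoop0 (m : ℕ) (g : GenLoop (Fin 0) (Sph m) (pt m)) :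
    toLoop0 m (ofLoop0 m g) = g := by
  apply GenLoop.ext
  intro w
  show g _ = g w
  congr 1
  ext i; exact i.elim0

theorem toLoop0_surj {m i : ℕ} {v : H R (SS.Sing (GenLoop (Fin 0) (Sph m) (pt m)))}
    (hv : v ∈ H.gr R _ i) :
    ∃ u ∈ H.gr R (SS.Sing (Sph m)) i, H.map R (SS.SingMap (toLoop0 m)) u = v := by
  refine ⟨H.map R (SS.SingMap (ofLoop0 m)) v, Gr334.H_map_mem_gr _ hv, ?_⟩
  have h1 : (toLoop0 m).comp (ofLoop0 m) = ContinuousMap.id _ :=
    ContinuousMap.ext (toLoop0_ofLoop0 m)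
  rw [← Hmap_comp, h1, Hmap_id]


theorem EJ_surj {m : ℕ} {i : ℕ} (hi : i < 2 * m) : ∀ (J : ℕ)
    {v : H R (SS.Sing (GenLoop (Fin J) (Sph (m + J)) (pt (m + J))))} (_ : v ∈ H.gr R _ i),
    ∃ u ∈ H.gr R (SS.Sing (Sph m)) i, H.map R (SS.SingMap (EJ m J)) u = v := by
  intro J
  induction J with
  | zero =>
    intro v hv
    exact @toLoop0_surj R _ m i v hv
  | succ J ih =>
    intro v hv
    obtain ⟨w, hw, hwv⟩ := susp_surj R (n := m + J) (J := J) (i := i) (by omega) hv
    obtain ⟨u, hu, huw⟩ := ih hw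
    refine ⟨u, hu, ?_⟩
    have h' : H.map R (SS.SingMap ((susp (m + J) J).comp (EJ m J))) u = v :=
      (Hmap_comp R (susp (m + J) J) (EJ m J) u).trans
        ((congrArg (fun z => H.map R (SS.SingMap (susp (m + J) J)) z) huw).trans hwv)
    exact h'

open SusMap478 in
/-- (R4) in 478's form -/
theorem stab : SusMap478.Stab := by
  intro n x
  obtain ⟨g, h, hg, hh, -, hhg⟩ := exists_rot x (pt n)
  let G := mapC (J := Fin n) g hg
  let G' := mapC (J := Fin n) h hh
  have hGG : ∀ w, G' (G w) = w := fun w => GenLoop.ext _ _ fun t => hhg _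
  refine ⟨pt (n + 1), (susp n n).comp G, ?_, ?_⟩
  · show susp n n (G GenLoop.const) = _
    rw [mapC_const g hg, susp_const]
  · intro e he u hu h0
    rw [Hmap_comp] at h0
    exact Hmap_inj_of_leftInv F2 G G' hGG
      (susp_inj F2 (n := n) (J := n) (i := e + 1) (by omega) (Gr334.H_map_mem_gr _ hu) h0)

end Crest.Agent.R204.Conn747
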