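import Crest.Agent.R204.DicksonC_91

-- ▼ part R204/DicksonD_91
section

/-!
# Dickson algebra (row 204, leaf F3), part D: adjacent generators; graded bases
-/

set_option autoImplicit false
set_option linter.unusedSectionVars false

namespace Crest.Agent.R204.Dickson91

open MvPolynomial

/-! ### adjacent generators -/

theorem rename_tv {r : ℕ} (π : Equiv.Perm (Fin r)) (i j : Fin r) (f : S r) :
    rename π (tv i j (rename π.symm f)) = tv (π i) (π j) f := by
  have : ((rename π : S r →ₐ[ZMod 2] S r).comp ((tv i j).comp (rename π.symm))) =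
      tv (π i) (π j) := by
    apply MvPolynomial.algHom_ext
    intro k
    simp only [AlgHom.comp_apply, rename_X, tv_X]
    by_cases hk : π.symm k = i
    · have : k = π i := by rw [← hk, Equiv.apply_symm_apply]
      rw [if_pos hk, if_pos this, map_add, rename_X, rename_X]
    · have : ¬ k = π i := by
        rintro rfl
        exact hk (by simp)
      rw [if_neg hk, if_neg this, rename_X, Equiv.apply_symm_apply]
  exact DFunLike.congr_fun this f

/-- invariance under adjacent swaps and one adjacent transvection implies `Inv` -/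
theorem inv_of_adjacent {r : ℕ} {f : S r}
    (hswap : ∀ i : Fin r, ∀ h : (i : ℕ) + 1 < r, rename (Equiv.swap i ⟨i + 1, h⟩) f = f)
    (htv : ∀ i : Fin r, ∀ h : (i : ℕ) + 1 < r, tv i ⟨i + 1, h⟩ f = f) : Inv f := by
  rcases r with _ | n
  · intro i; exact i.elim0
  have hperm : ∀ π : Equiv.Perm (Fin (n + 1)), rename π f = f := by
    intro π
    have hπ : π ∈ Submonoid.closure (Set.range fun i : Fin n ↦ Equiv.swap i.castSucc i.succ) := by
      rw [Equiv.Perm.mclosure_swap_castSucc_succ]; trivial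
    induction hπ using Submonoid.closure_induction with
    | mem x hx =>
      obtain ⟨i, rfl⟩ := hx
      exact hswap i.castSucc (by simp)
    | one => simp
    | mul x y _ _ hx hy =>
      rw [Equiv.Perm.coe_mul, ← rename_rename, hy, hx]
  intro i j hij
  rcases n with _ | n
  · exact absurd (Subsingleton.elim (α := Fin 1) i j) hij
  -- a permutation with `0 ↦ i`, `1 ↦ j`
  obtain ⟨π, h0, h1⟩ : ∃ π : Equiv.Perm (Fin (n + 1 + 1)), π 0 = i ∧ π 1 = j := by
    set σ := Equiv.swap (0 : Fin (n + 1 + 1)) i with hσ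
    have hb : σ 1 ≠ i := by
      intro h
      have h2 : σ 1 = σ 0 := by rw [h, hσ, Equiv.swap_apply_left]
      have := σ.injective h2
      exact absurd this (by simp)
    refine ⟨Equiv.swap (σ 1) j * σ, ?_, ?_⟩
    · rw [Equiv.Perm.mul_apply]
      have : σ 0 = i := by rw [hσ, Equiv.swap_apply_left]
      rw [this, Equiv.swap_apply_of_ne_of_ne hb.symm hij]
    · rw [Equiv.Perm.mul_apply, Equiv.swap_apply_left]
  rw [← h0, ← h1, ← rename_tv, hperm π.symm]
  have ht : tv (0 : Fin (n + 1 + 1)) 1 f = f := htv 0 (by simp)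
  rw [ht, hperm π]


/-- invariance under all permutations -/
theorem Inv.rename {r : ℕ} {f : S r} (hf : Inv f) (π : Equiv.Perm (Fin r)) :
    MvPolynomial.rename π f = f := by
  rw [inv_iff] at hf
  have h : (MvPolynomial.rename π : S r →ₐ[ZMod 2] S r) =
      gsub (π.permMatrix (ZMod 2)) := by
    apply MvPolynomial.algHom_ext
    intro k
    have h2 : (π.permMatrix (ZMod 2)) k = Pi.single (π k) 1 := by
      ext j
      rw [Equiv.Perm.permMatrix, PEquiv.toMatrix_apply]
      simp [Pi.single_apply, eq_comm]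
    simp only [gsub, rename_X, aeval_X]
    rw [h2, lin_single]
  rw [h]
  apply gsub_of_mem_D hf
  rw [Matrix.isUnit_iff_isUnit_det]
  rw [Matrix.det_permutation]
  simp only [isUnit_iff_ne_zero]
  intro h3
  rcases Int.units_eq_one_or (Equiv.Perm.sign π) with h4 | h4 <;> rw [h4] at h3 <;> simp at h3

/-! ### graded bases -/

theorem Qmon_eq_aeval {r : ℕ} (a : Fin r →₀ ℕ) :
    Qmon (a : Fin r → ℕ) = aeval (fun j : Fin r => Q r j) (monomial a (1 : ZMod 2)) := by
  rw [aeval_monomial, map_one, one_mul, Finsupp.prod_fintype _ _ (by simp)]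
  rfl



/-- `D r` is spanned by the monomials -/
theorem D_toSubmodule (r : ℕ) : Subalgebra.toSubmodule (D r) =
    Submodule.span (ZMod 2) (Set.range fun a : Fin r → ℕ => (Qmon a : S r)) := by
  apply le_antisymm
  · intro f hf
    have hf' : f ∈ D r := hf
    have := dickson_aux r _ f ((inv_iff f).mpr hf') le_rfl
    refine Submodule.span_mono ?_ this
    rintro _ ⟨a, _, rfl⟩
    exact ⟨a, rfl⟩
  · rw [Submodule.span_le]
    rintro _ ⟨a, rfl⟩
    exact Qmon_mem_D a

/-- the submodule `M_k = Q_0^k D_r` (here as the span of the monomials with `k ≤ a_0`) -/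
noncomputable def Mk (m k : ℕ) : Submodule (ZMod 2) (S (m + 1)) :=
  Submodule.span (ZMod 2) {f | ∃ a : Fin (m + 1) → ℕ, k ≤ a 0 ∧ Qmon a = f}

theorem Q_pow_mul_Qmon {m : ℕ} (k : ℕ) (a : Fin (m + 1) → ℕ) :
    Q (m + 1) 0 ^ k * Qmon a = Qmon (k • (Pi.single 0 1) + a) := by
  rw [← Qmon_mul]
  congr 1
  classical
  unfold Qmon
  rw [Finset.prod_eq_single 0]
  · simp
  · intro b _ hb
    simp [Pi.single_eq_of_ne hb]
  · simp

theorem mem_Mk_iff {m k : ℕ} {f : S (m + 1)} :
    f ∈ Mk m k ↔ ∃ d ∈ D (m + 1), f = Q (m + 1) 0 ^ k * d := by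
  constructor
  · intro hf
    induction hf using Submodule.span_induction with
    | mem x hx =>
      obtain ⟨a, ha, rfl⟩ := hx
      refine ⟨Qmon (a - k • (Pi.single 0 1)), Qmon_mem_D _, ?_⟩
      rw [Q_pow_mul_Qmon]
      congr 1
      funext i
      simp only [Pi.add_apply, Pi.smul_apply, Pi.sub_apply, smul_eq_mul]
      by_cases hi : i = 0
      · subst hi; simp only [Pi.single_eq_same]; omega
      · rw [Pi.single_eq_of_ne hi]; simp
    | zero => exact ⟨0, Subalgebra.zero_mem _, by simp⟩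
    | add x y _ _ hx hy =>
      obtain ⟨d, hd, rfl⟩ := hx
      obtain ⟨d', hd', rfl⟩ := hy
      exact ⟨d + d', Subalgebra.add_mem _ hd hd', by ring⟩
    | smul c x _ hx =>
      obtain ⟨d, hd, rfl⟩ := hx
      exact ⟨c • d, Subalgebra.smul_mem _ hd c, by rw [mul_smul_comm]⟩
  · rintro ⟨d, hd, rfl⟩
    have hd' : d ∈ Subalgebra.toSubmodule (D (m + 1)) := hd
    rw [D_toSubmodule] at hd'
    induction hd' using Submodule.span_induction with
    | mem x hx =>
      obtain ⟨a, rfl⟩ := hx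
      apply Submodule.subset_span
      refine ⟨k • (Pi.single 0 1) + a, ?_, (Q_pow_mul_Qmon k a).symm⟩
      simp
    | zero => rw [mul_zero]; exact Submodule.zero_mem _
    | add x y hx' hy' hx hy =>
      rw [mul_add]
      rw [← D_toSubmodule] at hx' hy'
      exact Submodule.add_mem _ (hx hx') (hy hy')
    | smul c x hx' hx =>
      rw [mul_smul_comm]
      rw [← D_toSubmodule] at hx'
      exact Submodule.smul_mem _ _ (hx hx')

/-- invariants divisible by `x_0^k` are exactly `M_k` -/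
theorem mem_Mk_iff_inv {m k : ℕ} {f : S (m + 1)} :
    f ∈ Mk m k ↔ Inv f ∧ (X 0) ^ k ∣ f := by
  rw [mem_Mk_iff]
  constructor
  · rintro ⟨d, hd, rfl⟩
    refine ⟨((inv_Q _ _).pow k).mul ((inv_iff d).mpr hd), ?_⟩
    apply Dvd.dvd.mul_right
    apply pow_dvd_pow_of_dvd
    classical
    unfold Q
    rw [dQ_zero]
    have hmem : (Pi.single 0 1 : Fin (m + 1) → ZMod 2) ∈
        Finset.univ.erase (0 : Fin (m + 1) → ZMod 2) := by
      refine Finset.mem_erase.mpr ⟨?_, Finset.mem_univ _⟩
      intro h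
      have := congrFun h 0
      simp at this
    have h := Finset.dvd_prod_of_mem
      (fun v : Fin (m + 1) → ZMod 2 => lin (X : Fin (m + 1) → S (m + 1)) v) hmem
    simpa only [lin_single] using h
  · rintro ⟨h1, h2⟩
    exact exists_of_pow_dvd k h1 h2

/-- the degree `n` part of `M_k` is spanned by the monomials `Qmon a`, `k ≤ a_0`, `wt a = n` -/
theorem Mk_homog {m k n : ℕ} {f : S (m + 1)} (hf : f ∈ Mk m k) (hn : f.IsHomogeneous n) :
    f ∈ Submodule.span (ZMod 2) {g | ∃ a : Fin (m + 1) → ℕ, k ≤ a 0 ∧ wt a = n ∧ Qmon a = g} := by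
  have h : ∀ f ∈ Mk m k, homogeneousComponent n f ∈ Submodule.span (ZMod 2)
      {g | ∃ a : Fin (m + 1) → ℕ, k ≤ a 0 ∧ wt a = n ∧ Qmon a = g} := by
    intro f hf
    induction hf using Submodule.span_induction with
    | mem x hx =>
      obtain ⟨a, ha, rfl⟩ := hx
      by_cases hw : wt a = n
      · rw [homogeneousComponent_of_mem (Qmon_homog a), if_pos hw.symm]
        exact Submodule.subset_span ⟨a, ha, hw, rfl⟩
      · rw [homogeneousComponent_of_mem (Qmon_homog a), if_neg (fun h => hw h.symm)]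
        exact Submodule.zero_mem _
    | zero => rw [map_zero]; exact Submodule.zero_mem _
    | add x y _ _ hx hy => rw [map_add]; exact Submodule.add_mem _ hx hy
    | smul c x _ hx => rw [map_smul]; exact Submodule.smul_mem _ _ hx
  have h2 := h f hf
  rwa [homogeneousComponent_of_mem hn, if_pos rfl] at h2


end Crest.Agent.R204.Dickson91
end

-- ▼ part R204/DicksonE_91

/-!
# Dickson algebra (row 204, leaf F3), part E: the total Steenrod square
-/

set_option autoImplicit false
set_option linter.unusedSectionVars false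

namespace Crest.Agent.R204.Dickson91

section General

open Polynomial

variable {A : Type*} [CommRing A] [CharP A 2] [Algebra (ZMod 2) A]

omit [CharP A 2] in
theorem lin_smul {r : ℕ} (t : A) (x : Fin r → A) (v : Fin r → ZMod 2) :
    lin (fun i => t * x i) v = t * lin x v := by
  simp [lin, Finset.mul_sum]

omit [CharP A 2] in
theorem dq_smul_eval {r : ℕ} (t : A) (x : Fin r → A) (a : A) :
    (dq (fun i => t * x i)).eval (t * a) = t ^ (2 ^ r) * (dq x).eval a := by
  rw [dq_eval_prod, dq_eval_prod]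
  simp only [lin_smul, ← mul_add, Finset.prod_mul_distrib]
  simp

theorem dQ_smul : ∀ {r : ℕ} (t : A) (x : Fin r → A) (j : ℕ),
    dQ (fun i => t * x i) j = t ^ (2 ^ r - 2 ^ j) * dQ x j := by
  intro r
  induction r with
  | zero =>
    intro t x j
    rcases Nat.eq_zero_or_pos j with rfl | hj
    · rw [dQ_top, dQ_top]; simp
    · rw [dQ_gt _ hj, dQ_gt _ hj, mul_zero]
  | succ r ih =>
    intro t x j
    have htail : Fin.tail (fun i => t * x i) = fun i => t * Fin.tail x i := rfl
    rcases j with _ | j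
    · rw [dQ_succ_zero, dQ_succ_zero x, htail, dq_smul_eval, ih]
      have h1 : 2 ^ (r + 1) - 2 ^ 0 = 2 ^ r + (2 ^ r - 2 ^ 0) := by
        have : 1 ≤ 2 ^ r := Nat.one_le_two_pow
        rw [pow_succ]; omega
      rw [h1, pow_add]
      ring
    · rw [dQ_succ_succ, dQ_succ_succ x, htail, dq_smul_eval, ih, ih, mul_add]
      congr 1
      · rw [mul_pow, ← pow_mul, Nat.sub_mul, ← pow_succ, ← pow_succ]
      · by_cases hj : j + 1 ≤ r
        · have h1 : 2 ^ (r + 1) - 2 ^ (j + 1) = 2 ^ r + (2 ^ r - 2 ^ (j + 1)) := by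
            have : 2 ^ (j + 1) ≤ 2 ^ r := Nat.pow_le_pow_right (by norm_num) hj
            rw [pow_succ 2 r]; omega
          rw [h1, pow_add]
          ring
        · rw [dQ_gt _ (not_le.mp hj)]
          ring

omit [Algebra (ZMod 2) A] [CharP A 2] in
theorem coeff_addpoly (n : ℕ) (c : ℕ → A) (i : ℕ) :
    (∑ j ∈ Finset.range n, C (c j) * X ^ (2 ^ j)).coeff (2 ^ i) = if i < n then c i else 0 := by
  rw [finsetSum_coeff]
  simp only [coeff_C_mul, coeff_X_pow]
  by_cases hi : i < n
  · rw [if_pos hi, Finset.sum_eq_single i]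
    · simp
    · intro b _ hb
      rw [if_neg, mul_zero]
      intro h
      exact hb (Nat.pow_right_injective le_rfl h).symm
    · intro h
      exact absurd (Finset.mem_range.mpr hi) h
  · rw [if_neg hi]
    apply Finset.sum_eq_zero
    intro b hb
    rw [if_neg, mul_zero]
    intro h
    have := Nat.pow_right_injective le_rfl h
    rw [Finset.mem_range] at hb
    omega

omit [Algebra (ZMod 2) A] [CharP A 2] in
theorem coeff_addpoly_zero (n : ℕ) (c : ℕ → A) :
    (∑ j ∈ Finset.range n, C (c j) * X ^ (2 ^ (j + 1))).coeff (2 ^ 0) = 0 := by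
  rw [finsetSum_coeff]
  simp only [coeff_C_mul, coeff_X_pow]
  apply Finset.sum_eq_zero
  intro b hb
  rw [if_neg, mul_zero]
  intro h
  have := Nat.pow_right_injective le_rfl h
  omega

omit [Algebra (ZMod 2) A] [CharP A 2] in
theorem coeff_addpoly_succ (n : ℕ) (c : ℕ → A) (i : ℕ) :
    (∑ j ∈ Finset.range n, C (c j) * X ^ (2 ^ (j + 1))).coeff (2 ^ (i + 1)) =
      if i < n then c i else 0 := by
  rw [finsetSum_coeff]
  simp only [coeff_C_mul, coeff_X_pow]
  by_cases hi : i < n
  · rw [if_pos hi, Finset.sum_eq_single i]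
    · simp
    · intro b _ hb
      rw [if_neg, mul_zero]
      intro h
      have := Nat.pow_right_injective le_rfl h
      omega
    · intro h
      exact absurd (Finset.mem_range.mpr hi) h
  · rw [if_neg hi]
    apply Finset.sum_eq_zero
    intro b hb
    rw [if_neg, mul_zero]
    intro h
    have := Nat.pow_right_injective le_rfl h
    rw [Finset.mem_range] at hb
    omega

/-- `s_t = ∑_a Q_a t^{2^r - 2^a}` -/
noncomputable def sT {r : ℕ} (t : A) (x : Fin r → A) : A :=
  ∑ a ∈ Finset.range (r + 1), dQ x a * t ^ (2 ^ r - 2 ^ a)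

/-- `∏_v (1 + t (u + ℓ_v)) = s_t + t^{2^r} q(u)` -/
theorem prod_one_add {r : ℕ} (t : A) (x : Fin r → A) (u : A) :
    ∏ v : Fin r → ZMod 2, (1 + t * (u + lin x v)) = sT t x + t ^ (2 ^ r) * (dq x).eval u := by
  have h1 : ∏ v : Fin r → ZMod 2, (1 + t * (u + lin x v)) =
      (dq (fun i => t * x i)).eval (1 + t * u) := by
    rw [dq_eval_prod]
    refine Finset.prod_congr rfl fun v _ => ?_
    rw [lin_smul]; ring
  rw [h1, dq_eval_add, dq_smul_eval, dq_eval]
  congr 1
  unfold sT
  refine Finset.sum_congr rfl fun a _ => ?_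
  rw [dQ_smul]
  ring

theorem lin_sq {r : ℕ} (x : Fin r → A) (v : Fin r → ZMod 2) :
    lin (fun i => x i ^ 2) v = lin x v ^ 2 := by
  unfold lin
  rw [sum_pow_char]
  refine Finset.sum_congr rfl fun i _ => ?_
  have hc : ∀ a : ZMod 2, a ^ 2 = a := by decide
  rw [_root_.smul_pow, hc]

theorem lin_sqT {r : ℕ} (t : A) (x : Fin r → A) (v : Fin r → ZMod 2) :
    lin (fun i => x i + t * x i ^ 2) v = lin x v + t * lin x v ^ 2 := by
  rw [← lin_sq, ← lin_smul]
  simp [lin, smul_add, Finset.sum_add_distrib]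

/-- the key product formula -/
theorem dq_sqT_eval {r : ℕ} (t : A) (x : Fin r → A) (u : A) :
    (dq (fun i => x i + t * x i ^ 2)).eval (u + t * u ^ 2) =
      (dq x).eval u * (sT t x + t ^ (2 ^ r) * (dq x).eval u) := by
  rw [← prod_one_add, dq_eval_prod, dq_eval_prod, ← Finset.prod_mul_distrib]
  refine Finset.prod_congr rfl fun v _ => ?_
  rw [lin_sqT]
  have h2 : (u + lin x v) ^ 2 = u ^ 2 + lin x v ^ 2 := add_pow_char _ _ _
  calc u + t * u ^ 2 + (lin x v + t * lin x v ^ 2) =
      (u + lin x v) + t * (u ^ 2 + lin x v ^ 2) := by ring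
    _ = (u + lin x v) + t * (u + lin x v) ^ 2 := by rw [h2]
    _ = _ := by ring

/-- recursion for the total square of the Dickson invariants -/
theorem dQ_sqT_rec {r : ℕ} (t : A) (x : Fin r → A) :
    dQ (fun i => x i + t * x i ^ 2) 0 = sT t x * dQ x 0 ∧
    ∀ j, dQ (fun i => x i + t * x i ^ 2) (j + 1) + t ^ (2 ^ j) *
      dQ (fun i => x i + t * x i ^ 2) j = sT t x * dQ x (j + 1) + t ^ (2 ^ r) * dQ x j ^ 2 := by
  -- work in `A[U]`
  set y : Fin r → A := fun i => x i + t * x i ^ 2 with hy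
  let φ : A →ₐ[ZMod 2] A[X] := (Polynomial.CAlgHom (R := A) (A := A)).restrictScalars (ZMod 2)
  have hφ : ∀ a, φ a = C a := fun a => rfl
  have h1 := dq_sqT_eval (φ t) (fun i => φ (x i)) (X : A[X])
  have hyφ : (fun i => φ (x i) + φ t * φ (x i) ^ 2) = fun i => φ (y i) := by
    funext i; rw [hy]; simp
  rw [hyφ] at h1
  have hs : sT (φ t) (fun i => φ (x i)) = C (sT t x) := by
    unfold sT
    rw [map_sum]
    refine Finset.sum_congr rfl fun a _ => ?_
    rw [dQ_map, hφ, hφ, C_mul, C_pow]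
  have he : ∀ (z : Fin r → A) (u : A[X]), (dq (fun i => φ (z i))).eval u =
      ∑ j ∈ Finset.range (r + 1), C (dQ z j) * u ^ (2 ^ j) := by
    intro z u
    rw [dq_eval]
    refine Finset.sum_congr rfl fun a _ => ?_
    rw [dQ_map, hφ]
  rw [he y, he x, hs] at h1
  -- left side
  have hL : ∑ j ∈ Finset.range (r + 1), C (dQ y j) * ((X : A[X]) + φ t * X ^ 2) ^ (2 ^ j) =
      (∑ j ∈ Finset.range (r + 1), C (dQ y j) * X ^ (2 ^ j)) +
      ∑ j ∈ Finset.range (r + 1), C (t ^ (2 ^ j) * dQ y j) * X ^ (2 ^ (j + 1)) := by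
    rw [← Finset.sum_add_distrib]
    refine Finset.sum_congr rfl fun j _ => ?_
    rw [add_pow_char_pow, mul_pow, hφ, ← pow_mul, ← pow_succ', C_mul, C_pow]
    ring
  have hR : (∑ j ∈ Finset.range (r + 1), C (dQ x j) * (X : A[X]) ^ (2 ^ j)) *
      (C (sT t x) + φ t ^ (2 ^ r) * ∑ j ∈ Finset.range (r + 1), C (dQ x j) * X ^ (2 ^ j)) =
      (∑ j ∈ Finset.range (r + 1), C (sT t x * dQ x j) * X ^ (2 ^ j)) +
      ∑ j ∈ Finset.range (r + 1), C (t ^ (2 ^ r) * dQ x j ^ 2) * X ^ (2 ^ (j + 1)) := by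
    rw [mul_add]
    congr 1
    · rw [mul_comm, Finset.mul_sum]
      refine Finset.sum_congr rfl fun j _ => ?_
      rw [C_mul]; ring
    · have e2 : (∑ j ∈ Finset.range (r + 1), C (dQ x j) * (X : A[X]) ^ (2 ^ j)) ^ 2 =
          ∑ j ∈ Finset.range (r + 1), C (dQ x j ^ 2) * X ^ (2 ^ (j + 1)) := by
        rw [sum_pow_char]
        refine Finset.sum_congr rfl fun j _ => ?_
        rw [mul_pow, C_pow, ← pow_mul, pow_succ 2 j]
      calc _ = φ t ^ (2 ^ r) * (∑ j ∈ Finset.range (r + 1), C (dQ x j) * (X : A[X]) ^ (2 ^ j)) ^ 2 := by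
            ring
        _ = _ := by
            rw [e2, Finset.mul_sum]
            refine Finset.sum_congr rfl fun j _ => ?_
            simp only [hφ, C_mul, C_pow]
            ring
  rw [hL, hR] at h1
  have hz : ∀ (z : Fin r → A) (i : ℕ), (if i < r + 1 then dQ z i else 0) = dQ z i := by
    intro z i
    split_ifs with h
    · rfl
    · rw [dQ_gt _ (by omega)]
  constructor
  · have h2 := congrArg (fun p => p.coeff (2 ^ 0)) h1
    simp only [coeff_add] at h2
    rw [coeff_addpoly, coeff_addpoly_zero, coeff_addpoly, coeff_addpoly_zero, if_pos (by omega),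
      if_pos (by omega), add_zero, add_zero] at h2
    exact h2
  · intro j
    have h2 := congrArg (fun p => p.coeff (2 ^ (j + 1))) h1
    simp only [coeff_add] at h2
    rw [coeff_addpoly, coeff_addpoly_succ, coeff_addpoly, coeff_addpoly_succ] at h2
    have e1 : (if j < r + 1 then t ^ 2 ^ j * dQ y j else 0) = t ^ 2 ^ j * dQ y j := by
      rw [← mul_ite_zero, hz]
    have e2 : (if j < r + 1 then t ^ 2 ^ r * dQ x j ^ 2 else 0) = t ^ 2 ^ r * dQ x j ^ 2 := by
      split_ifs with h
      · rfl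
      · rw [dQ_gt x (by omega)]; ring
    have e3 : (if j + 1 < r + 1 then sT t x * dQ x (j + 1) else 0) = sT t x * dQ x (j + 1) := by
      rw [← mul_ite_zero, hz]
    rw [hz, e1, e2, e3] at h2
    exact h2

/-- **total Steenrod square of the Dickson invariants** (algebra form) -/
theorem dQ_sqT {r : ℕ} (t : A) (x : Fin r → A) : ∀ j ≤ r,
    dQ (fun i => x i + t * x i ^ 2) j =
      sT t x * (∑ b ∈ Finset.range (j + 1), dQ x b * t ^ (2 ^ j - 2 ^ b)) +
      ∑ b ∈ Finset.range j, dQ x b ^ 2 * t ^ (2 ^ r + 2 ^ j - 2 ^ (b + 1)) := by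
  intro j
  obtain ⟨h0, hs⟩ := dQ_sqT_rec t x
  induction j with
  | zero => intro _; rw [h0]; simp
  | succ j ih =>
    intro hj
    have h := hs j
    rw [ih (by omega)] at h
    have h2 : dQ (fun i => x i + t * x i ^ 2) (j + 1) =
        sT t x * dQ x (j + 1) + t ^ (2 ^ r) * dQ x j ^ 2 + t ^ (2 ^ j) *
        (sT t x * (∑ b ∈ Finset.range (j + 1), dQ x b * t ^ (2 ^ j - 2 ^ b)) +
          ∑ b ∈ Finset.range j, dQ x b ^ 2 * t ^ (2 ^ r + 2 ^ j - 2 ^ (b + 1))) := by
      rw [← h, add_assoc, CharTwo.add_self_eq_zero, add_zero]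
    rw [h2, Finset.sum_range_succ _ (j + 1), Finset.sum_range_succ (fun b =>
      dQ x b ^ 2 * t ^ (2 ^ r + 2 ^ (j + 1) - 2 ^ (b + 1))) j]
    have e1 : ∑ b ∈ Finset.range (j + 1), dQ x b * t ^ (2 ^ (j + 1) - 2 ^ b) =
        t ^ (2 ^ j) * ∑ b ∈ Finset.range (j + 1), dQ x b * t ^ (2 ^ j - 2 ^ b) := by
      rw [Finset.mul_sum]
      refine Finset.sum_congr rfl fun b hb => ?_
      rw [Finset.mem_range] at hb
      have : 2 ^ b ≤ 2 ^ j := Nat.pow_le_pow_right (by norm_num) (by omega)
      have h3 : 2 ^ (j + 1) - 2 ^ b = 2 ^ j + (2 ^ j - 2 ^ b) := by rw [pow_succ]; omega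
      rw [h3, pow_add]; ring
    have e2 : ∑ b ∈ Finset.range j, dQ x b ^ 2 * t ^ (2 ^ r + 2 ^ (j + 1) - 2 ^ (b + 1)) =
        t ^ (2 ^ j) * ∑ b ∈ Finset.range j, dQ x b ^ 2 * t ^ (2 ^ r + 2 ^ j - 2 ^ (b + 1)) := by
      rw [Finset.mul_sum]
      refine Finset.sum_congr rfl fun b hb => ?_
      rw [Finset.mem_range] at hb
      have : 2 ^ (b + 1) ≤ 2 ^ j := Nat.pow_le_pow_right (by norm_num) (by omega)
      have hr1 : 0 < 2 ^ r := Nat.two_pow_pos r
      have h3 : 2 ^ r + 2 ^ (j + 1) - 2 ^ (b + 1) = 2 ^ j + (2 ^ r + 2 ^ j - 2 ^ (b + 1)) := by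
        have hj2 : 2 ^ (j + 1) = 2 ^ j + 2 ^ j := by rw [pow_succ]; ring
        generalize 2 ^ (b + 1) = B at *
        generalize 2 ^ (j + 1) = J' at *
        generalize 2 ^ j = J at *
        generalize 2 ^ r = R at *
        omega
      rw [h3, pow_add]; ring
    rw [e1, e2]
    have h4 : 2 ^ r + 2 ^ (j + 1) - 2 ^ (j + 1) = 2 ^ r := Nat.add_sub_cancel _ _
    have h5 : 2 ^ (j + 1) - 2 ^ (j + 1) = 0 := Nat.sub_self _
    rw [h4, h5]
    ring

end General

section Sq

open MvPolynomial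

/-- the (graded) total Steenrod square on `F₂[x]`: `x ↦ x + T x²` -/
noncomputable def sqT {σ : Type*} : MvPolynomial σ (ZMod 2) →ₐ[ZMod 2]
    Polynomial (MvPolynomial σ (ZMod 2)) :=
  aeval (fun i => Polynomial.C (X i) + Polynomial.X * Polynomial.C (X i) ^ 2)

@[simp] theorem sqT_X {σ : Type*} (i : σ) : sqT (X i : MvPolynomial σ (ZMod 2)) =
    Polynomial.C (X i) + Polynomial.X * Polynomial.C (X i) ^ 2 := by
  simp [sqT]

/-- the Steenrod square `Sq^a` on `F₂[x]` -/
noncomputable def Sq {σ : Type*} (a : ℕ) : MvPolynomial σ (ZMod 2) →ₗ[ZMod 2]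
    MvPolynomial σ (ZMod 2) where
  toFun f := (sqT f).coeff a
  map_add' f g := by simp
  map_smul' c f := by simp

theorem Sq_apply {σ : Type*} (a : ℕ) (f : MvPolynomial σ (ZMod 2)) : Sq a f = (sqT f).coeff a := rfl

/-- **total Steenrod square of the Dickson invariants** -/
theorem sqT_Q {r j : ℕ} (hj : j ≤ r) : sqT (Q r j) =
    (∑ a ∈ Finset.range (r + 1), Polynomial.C (Q r a) * Polynomial.X ^ (2 ^ r - 2 ^ a)) *
      (∑ b ∈ Finset.range (j + 1), Polynomial.C (Q r b) * Polynomial.X ^ (2 ^ j - 2 ^ b)) +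
      ∑ b ∈ Finset.range j, Polynomial.C (Q r b) ^ 2 *
        Polynomial.X ^ (2 ^ r + 2 ^ j - 2 ^ (b + 1)) := by
  let φ : S r →ₐ[ZMod 2] Polynomial (S r) :=
    (Polynomial.CAlgHom (R := S r) (A := S r)).restrictScalars (ZMod 2)
  have hφ : ∀ a, φ a = Polynomial.C a := fun a => rfl
  have h := dQ_sqT (Polynomial.X : Polynomial (S r)) (fun i => φ (X i)) j hj
  have h1 : sqT (Q r j) = dQ (fun i => φ (X i) + Polynomial.X * φ (X i) ^ 2) j := by
    unfold Q
    rw [← dQ_map]
    congr 1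
    funext i
    rw [sqT_X, hφ]
  have hb : ∀ b, dQ (fun i => φ (X i)) b = Polynomial.C (Q r b) := fun b => dQ_map φ X b
  rw [h1, h]
  simp only [sT, hb]

/-! ### basic properties of `Sq` -/

theorem Sq_zero {σ : Type*} (f : MvPolynomial σ (ZMod 2)) : Sq 0 f = f := by
  rw [Sq_apply]
  induction f using MvPolynomial.induction_on with
  | C a => simp [sqT]
  | add p q hp hq => rw [map_add, Polynomial.coeff_add, hp, hq]
  | mul_X p i hp => rw [map_mul, Polynomial.mul_coeff_zero, hp]; simp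

/-- Cartan formula -/
theorem Sq_mul {σ : Type*} (a : ℕ) (f g : MvPolynomial σ (ZMod 2)) :
    Sq a (f * g) = ∑ p ∈ Finset.HasAntidiagonal.antidiagonal a, Sq p.1 f * Sq p.2 g := by
  simp only [Sq_apply, map_mul, Polynomial.coeff_mul]

/-- naturality under linear substitutions -/
theorem sqT_gsub {r : ℕ} (g : Matrix (Fin r) (Fin r) (ZMod 2)) (f : S r) :
    sqT (gsub g f) = (sqT f).map (gsub g : S r →+* S r) := by
  let ψ : Polynomial (S r) →ₐ[ZMod 2] Polynomial (S r) := Polynomial.mapAlgHom (gsub g)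
  have h : sqT.comp (gsub g) = ψ.comp sqT := by
    apply MvPolynomial.algHom_ext
    intro i
    simp only [AlgHom.comp_apply, sqT_X, gsub, aeval_X, ψ]
    have h1 : sqT (lin (X : Fin r → S r) (g i)) = lin (fun k => sqT (X k : S r)) (g i) :=
      (lin_map _ _ _).symm
    rw [h1]
    simp only [sqT_X]
    rw [lin_sqT]
    have h2 : lin (fun k => Polynomial.C (X k : S r)) (g i) = Polynomial.C (lin X (g i)) := by
      unfold lin
      rw [map_sum]
      refine Finset.sum_congr rfl fun k _ => ?_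
      rw [Polynomial.smul_C]
    rw [h2]
    simp
  have := DFunLike.congr_fun h f
  simpa [ψ] using this

theorem Sq_gsub {r : ℕ} (g : Matrix (Fin r) (Fin r) (ZMod 2)) (a : ℕ) (f : S r) :
    Sq a (gsub g f) = gsub g (Sq a f) := by
  rw [Sq_apply, Sq_apply, sqT_gsub, Polynomial.coeff_map]
  rfl

/-- the Dickson algebra is stable under `Sq^a` -/
theorem Sq_mem_D {r : ℕ} {f : S r} (hf : f ∈ D r) (a : ℕ) : Sq a f ∈ D r := by
  rw [← gl_inv_iff]
  intro g hg
  rw [← Sq_gsub, gsub_of_mem_D hf g hg]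

/-- `M_k` is stable under `Sq^a` -/
theorem Sq_mem_Mk {m k : ℕ} {f : S (m + 1)} (hf : f ∈ Mk m k) (a : ℕ) : Sq a f ∈ Mk m k := by
  rw [mem_Mk_iff] at hf ⊢
  obtain ⟨d, hd, rfl⟩ := hf
  -- total square of `Q_0`
  set s : Polynomial (S (m + 1)) := ∑ a ∈ Finset.range (m + 1 + 1),
    Polynomial.C (Q (m + 1) a) * Polynomial.X ^ (2 ^ (m + 1) - 2 ^ a) with hs
  have h0 : sqT (Q (m + 1) 0) = Polynomial.C (Q (m + 1) 0) * s := by
    rw [sqT_Q (Nat.zero_le _), ← hs, Finset.sum_range_zero, add_zero, Finset.sum_range_one,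
      Nat.sub_self, pow_zero, mul_one, mul_comm]
  have h1 : sqT (Q (m + 1) 0 ^ k * d) = Polynomial.C (Q (m + 1) 0 ^ k) * (s ^ k * sqT d) := by
    rw [map_mul, map_pow, h0, mul_pow, Polynomial.C_pow, mul_assoc]
  refine ⟨(s ^ k * sqT d).coeff a, ?_, ?_⟩
  · -- coefficients in `D`
    have hsub : ∀ n, s.coeff n ∈ D (m + 1) := by
      intro n
      rw [hs, Polynomial.finsetSum_coeff]
      apply Subalgebra.sum_mem
      intro i _
      rw [Polynomial.coeff_C_mul, Polynomial.coeff_X_pow]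
      split_ifs
      · rw [mul_one]; exact Q_mem_D _ _
      · rw [mul_zero]; exact Subalgebra.zero_mem _
    have hmul : ∀ p q : Polynomial (S (m + 1)), (∀ n, p.coeff n ∈ D (m + 1)) →
        (∀ n, q.coeff n ∈ D (m + 1)) → ∀ n, (p * q).coeff n ∈ D (m + 1) := by
      intro p q hp hq n
      rw [Polynomial.coeff_mul]
      exact Subalgebra.sum_mem _ fun x _ => Subalgebra.mul_mem _ (hp _) (hq _)
    have hpow : ∀ k n, (s ^ k).coeff n ∈ D (m + 1) := by
      intro k
      induction k with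
      | zero =>
        intro n
        rw [pow_zero, Polynomial.coeff_one]
        split_ifs
        · exact Subalgebra.one_mem _
        · exact Subalgebra.zero_mem _
      | succ k ih => rw [pow_succ]; exact hmul _ _ ih hsub
    exact hmul _ _ (hpow k) (fun n => Sq_mem_D hd n) a
  · rw [Sq_apply, h1, Polynomial.coeff_C_mul]

end Sq

end Crest.Agent.R204.Dickson91
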