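import Mathlib

/-!
# Row 204, block F-A: the abstract Dickson algebra `D r = F₂[Q_0, …, Q_{r-1}]` with its Steenrod action

* `SQ r : D r →ₐ (D r)[T]` the (graded) total square, `Sq r a` its `T^a`-coefficient;
* `del r j` the Milnor derivations.
-/

set_option autoImplicit false

namespace Crest.Agent.R204.FA550

open MvPolynomial

/-- the abstract Dickson algebra on `Q_0, …, Q_{r-1}` -/
abbrev D (r : ℕ) := MvPolynomial (Fin r) (ZMod 2)

/-- `Q_j` (`Q_r = 1`, `Q_j = 0` for `j > r`) -/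
noncomputable def Q (r j : ℕ) : D r := if h : j < r then X ⟨j, h⟩ else if j = r then 1 else 0

/-- the weight `|Q_j| = 2^r - 2^j` -/
def wt (r : ℕ) (j : Fin r) : ℕ := 2 ^ r - 2 ^ (j : ℕ)

/-- the total square of `Q_j`, `T` recording the degree -/
noncomputable def SQgen (r j : ℕ) : Polynomial (D r) :=
  Polynomial.X ^ (2 ^ r - 2 ^ j) * Polynomial.C (Q r j) ^ 2
    + (∑ b ∈ Finset.range (j + 1), Polynomial.X ^ (2 ^ j - 2 ^ b) * Polynomial.C (Q r b))
      * (∑ a ∈ Finset.Ioc j r, Polynomial.X ^ (2 ^ r - 2 ^ a) * Polynomial.C (Q r a))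

/-- the graded total square -/
noncomputable def SQ (r : ℕ) : D r →ₐ[ZMod 2] Polynomial (D r) :=
  MvPolynomial.aeval (fun j : Fin r => SQgen r j)

/-- the Steenrod square `Sq^a` on `D r` -/
noncomputable def Sq (r a : ℕ) : D r →ₗ[ZMod 2] D r :=
  ((Polynomial.lcoeff (D r) a).restrictScalars (ZMod 2)).comp (SQ r).toLinearMap

lemma Sq_apply (r a : ℕ) (g : D r) : Sq r a g = (SQ r g).coeff a := rfl

/-- the Milnor derivations `P_j` (`j ≤ r + 1`) on `D r`; `del 0` is the degree derivation -/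
noncomputable def del0 (r j : ℕ) : Derivation (ZMod 2) (D r) (D r) :=
  MvPolynomial.mkDerivation (ZMod 2) (fun i : Fin r => if (i : ℕ) = j then Q r 0 else 0)

noncomputable def delr (r : ℕ) : Derivation (ZMod 2) (D r) (D r) :=
  MvPolynomial.mkDerivation (ZMod 2) (fun i : Fin r => Q r 0 * X i)

/-- the Milnor derivations `P_j` (`j ≤ r + 1`) on `D r`; `del 0` is the degree derivation -/
noncomputable def del (r j : ℕ) : Derivation (ZMod 2) (D r) (D r) :=
  if j < r then del0 r j
  else if j = r then delr r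
  else if j = r + 1 then
    ∑ l ∈ Finset.range r, (Q r l) ^ 2 • (if l + 1 < r then del0 r (l + 1) else delr r)
  else 0

lemma Q_lt {r j : ℕ} (h : j < r) : Q r j = X ⟨j, h⟩ := by simp [Q, h]
@[simp] lemma Q_self (r : ℕ) : Q r r = 1 := by simp [Q]
lemma Q_coe {r : ℕ} (i : Fin r) : Q r i = X i := by simp [Q]

instance (r : ℕ) : CharP (Polynomial (D r)) 2 := inferInstance

lemma two_eq_zero' (r : ℕ) (p : Polynomial (D r)) : p + p = 0 := CharTwo.add_self_eq_zero p
lemma two_eq_zero (r : ℕ) (p : D r) : p + p = 0 := CharTwo.add_self_eq_zero p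

/-! ### The grading coaction elements -/

/-- `u_b = T^{|Q_b|} Q_b` -/
noncomputable def u (r b : ℕ) : Polynomial (D r) := Polynomial.X ^ (2 ^ r - 2 ^ b) * Polynomial.C (Q r b)

/-- `S_i = u_0 + … + u_i` -/
noncomputable def S (r i : ℕ) : Polynomial (D r) := ∑ b ∈ Finset.range (i + 1), u r b

/-- `S_{i-1}` -/
noncomputable def S' (r i : ℕ) : Polynomial (D r) := ∑ b ∈ Finset.range i, u r b

lemma S_eq (r i : ℕ) : S r i = S' r i + u r i := by simp [S, S', Finset.sum_range_succ]
lemma S'_succ (r i : ℕ) : S' r (i + 1) = S r i := rfl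
@[simp] lemma S'_zero (r : ℕ) : S' r 0 = 0 := by simp [S']
@[simp] lemma u_self (r : ℕ) : u r r = 1 := by simp [u]

lemma S_top (r : ℕ) : S r r = S' r r + 1 := by rw [S_eq, u_self]

lemma pow_mul_SQgen {r j : ℕ} (h : j ≤ r) :
    Polynomial.X ^ (2 ^ r - 2 ^ j) * SQgen r j = S r r * S r j + (S' r j) ^ 2 := by
  have h2 : (2:ℕ) ^ j ≤ 2 ^ r := Nat.pow_le_pow_right (by norm_num) h
  have h3 : S r r = S r j + ∑ a ∈ Finset.Ioc j r, u r a := by
    have : Finset.range (r + 1) = Finset.range (j + 1) ∪ Finset.Ioc j r := by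
      ext a; simp; omega
    rw [S, this, Finset.sum_union, S]
    rw [Finset.disjoint_left]; intro a; simp; omega
  have h4 : Polynomial.X ^ (2 ^ r - 2 ^ j)
      * (∑ b ∈ Finset.range (j + 1), Polynomial.X ^ (2 ^ j - 2 ^ b) * Polynomial.C (Q r b)) = S r j := by
    rw [S, Finset.mul_sum]
    refine Finset.sum_congr rfl fun b hb => ?_
    have hb' : (2:ℕ) ^ b ≤ 2 ^ j := Nat.pow_le_pow_right (by norm_num) (by simpa [Nat.lt_succ_iff] using hb)
    rw [u, ← mul_assoc, ← pow_add]
    congr 2; omega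
  have h5 : Polynomial.X ^ (2 ^ r - 2 ^ j) * (Polynomial.X ^ (2 ^ r - 2 ^ j) * Polynomial.C (Q r j) ^ 2)
      = (u r j) ^ 2 := by rw [u]; ring
  rw [SQgen, mul_add, h5, ← mul_assoc, h4]
  change (u r j) ^ 2 + S r j * ∑ a ∈ Finset.Ioc j r, u r a = _
  have h6 : ∑ a ∈ Finset.Ioc j r, u r a = S r r + S r j := by
    rw [h3, add_assoc, add_comm _ (S r j), ← add_assoc, two_eq_zero', zero_add]
  rw [h6]
  have h7 : S' r j = S r j + u r j := by rw [S_eq, add_assoc, two_eq_zero', add_zero]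
  rw [h7, CharTwo.add_sq]
  linear_combination (two_eq_zero' r (S r j ^ 2)) * 0


/-! ### coefficientwise extension of derivations -/

/-- coefficientwise extension of a derivation to polynomials -/
noncomputable def lift {r : ℕ} (d : Derivation (ZMod 2) (D r) (D r)) :
    Derivation (ZMod 2) (Polynomial (D r)) (Polynomial (D r)) :=
  (PolynomialModule.equivPolynomialSelf (R := D r)).toLinearMap.compDer d.mapCoeffs

lemma coeff_lift {r : ℕ} (d : Derivation (ZMod 2) (D r) (D r)) (p : Polynomial (D r)) (n : ℕ) :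
    (lift d p).coeff n = d (p.coeff n) := rfl

lemma lift_C {r : ℕ} (d : Derivation (ZMod 2) (D r) (D r)) (g : D r) :
    lift d (Polynomial.C g) = Polynomial.C (d g) := by
  ext n : 1
  rw [coeff_lift, Polynomial.coeff_C, Polynomial.coeff_C]
  split_ifs <;> simp

lemma lift_X_pow {r : ℕ} (d : Derivation (ZMod 2) (D r) (D r)) (k : ℕ) :
    lift d (Polynomial.X ^ k) = 0 := by
  ext n : 1
  rw [coeff_lift, Polynomial.coeff_X_pow]
  split_ifs <;> simp

lemma lift_mul_C {r : ℕ} (d : Derivation (ZMod 2) (D r) (D r)) (k : ℕ) (g : D r) :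
    lift d (Polynomial.X ^ k * Polynomial.C g) = Polynomial.X ^ k * Polynomial.C (d g) := by
  rw [Derivation.leibniz, lift_X_pow, lift_C]; simp

lemma lift_pow_mul {r : ℕ} (d : Derivation (ZMod 2) (D r) (D r)) (k : ℕ) (p : Polynomial (D r)) :
    lift d (Polynomial.X ^ k * p) = Polynomial.X ^ k * lift d p := by
  rw [Derivation.leibniz, lift_X_pow]; simp

lemma der_sq {A : Type*} [CommRing A] [Algebra (ZMod 2) A] [CharP A 2] (d : Derivation (ZMod 2) A A)
    (x : A) : d (x ^ 2) = 0 := by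
  rw [sq, Derivation.leibniz, smul_eq_mul]; exact CharTwo.add_self_eq_zero _


/-! ### values of the Milnor derivations -/

lemma del_lt {r j : ℕ} (h : j < r) : del r j = del0 r j := by simp [del, h]
lemma del_self (r : ℕ) : del r r = delr r := by simp [del]
lemma del_top (r : ℕ) : del r (r + 1) = ∑ l ∈ Finset.range r, (Q r l) ^ 2 • del r (l + 1) := by
  rw [del, if_neg (by omega), if_neg (by omega), if_pos rfl]
  refine Finset.sum_congr rfl fun l hl => ?_
  have hl' := Finset.mem_range.1 hl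
  split_ifs with h
  · rw [del_lt h]
  · have : l + 1 = r := by omega
    rw [this, del_self]

lemma del0_Q {r j b : ℕ} (h : j < r) (hb : b ≤ r) : del r j (Q r b) = if b = j then Q r 0 else 0 := by
  rw [del_lt h]
  rcases Nat.lt_or_ge b r with hb' | hb'
  · rw [Q_lt hb', del0, mkDerivation_X]
  · have : b = r := le_antisymm hb hb'
    subst this
    rw [Q_self, Derivation.map_one_eq_zero, if_neg (by omega)]

lemma delr_Q {r b : ℕ} (hb : b < r) : del r r (Q r b) = Q r 0 * Q r b := by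
  rw [del_self, Q_lt hb, delr, mkDerivation_X, ← Q_lt hb]

/-- the Leibniz-type defect -/
noncomputable def dd (r j : ℕ) (p : Polynomial (D r)) : Polynomial (D r) :=
  lift (del r j) p + Polynomial.X ^ (2 ^ j) * lift (del r (j + 1)) p

lemma dd_add (r j : ℕ) (p q : Polynomial (D r)) : dd r j (p + q) = dd r j p + dd r j q := by
  simp only [dd, map_add]; ring

lemma dd_mul (r j : ℕ) (p q : Polynomial (D r)) : dd r j (p * q) = p * dd r j q + q * dd r j p := by
  simp only [dd, Derivation.leibniz, smul_eq_mul]; ring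

lemma dd_sq (r j : ℕ) (p : Polynomial (D r)) : dd r j (p ^ 2) = 0 := by
  rw [dd, der_sq, der_sq, mul_zero, add_zero]


lemma dd_pow_mul (r j k : ℕ) (p : Polynomial (D r)) :
    dd r j (Polynomial.X ^ k * p) = Polynomial.X ^ k * dd r j p := by
  simp only [dd, lift_pow_mul]; ring

lemma lift_u {r : ℕ} (j b : ℕ) :
    lift (del r j) (u r b) = Polynomial.X ^ (2 ^ r - 2 ^ b) * Polynomial.C (del r j (Q r b)) := by
  rw [u, lift_mul_C]

lemma lift0_S' {r j : ℕ} (h : j < r) {i : ℕ} (hi : i ≤ r + 1) : lift (del r j) (S' r i) =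
    if j < i then Polynomial.X ^ (2 ^ r - 2 ^ j) * Polynomial.C (Q r 0) else 0 := by
  rw [S', map_sum]
  have : ∀ b ∈ Finset.range i, lift (del r j) (u r b) =
      if b = j then Polynomial.X ^ (2 ^ r - 2 ^ j) * Polynomial.C (Q r 0) else 0 := by
    intro b hb
    have := Finset.mem_range.1 hb
    rw [lift_u, del0_Q h (by omega)]
    split_ifs with h1
    · rw [h1]
    · simp
  rw [Finset.sum_congr rfl this, Finset.sum_ite_eq']
  simp

lemma liftr_S' {r : ℕ} {i : ℕ} (hi : i ≤ r) : lift (del r r) (S' r i) =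
    Polynomial.C (Q r 0) * S' r i := by
  rw [S', map_sum, Finset.mul_sum]
  refine Finset.sum_congr rfl fun b hb => ?_
  have := Finset.mem_range.1 hb
  rw [lift_u, delr_Q (by omega), u, map_mul]; ring



lemma SQ_Q {r j : ℕ} (h : j < r) : SQ r (Q r j) = SQgen r j := by
  rw [Q_lt h, SQ, aeval_X]

lemma pow_mul_SQ_Q {r j : ℕ} (h : j < r) :
    Polynomial.X ^ (2 ^ r - 2 ^ j) * SQ r (Q r j) = S r r * S r j + (S' r j) ^ 2 := by
  rw [SQ_Q h, pow_mul_SQgen h.le]

lemma Xpow_cancel {r k : ℕ} {p q : Polynomial (D r)}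
    (h : Polynomial.X ^ k * p = Polynomial.X ^ k * q) : p = q :=
  mul_left_cancel₀ (pow_ne_zero _ Polynomial.X_ne_zero) h

lemma SQ_Q0 {r : ℕ} (h : 0 < r) : SQ r (Q r 0) = Polynomial.C (Q r 0) * S r r := by
  refine Xpow_cancel (k := 2 ^ r - 2 ^ 0) ?_
  rw [pow_mul_SQ_Q h, S'_zero, S_eq r 0, S'_zero, u]; ring

lemma dd_S_lt {r j : ℕ} (h : j + 1 < r) {i : ℕ} (hi : i ≤ r) : dd r j (S r i) =
    if i = j then Polynomial.X ^ (2 ^ r - 2 ^ j) * Polynomial.C (Q r 0) else 0 := by
  have h2 : (2:ℕ) ^ (j + 1) ≤ 2 ^ r := Nat.pow_le_pow_right (by norm_num) h.le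
  have h3 : 2 ^ j + (2 ^ r - 2 ^ (j + 1)) = 2 ^ r - 2 ^ j := by rw [pow_succ] at *; omega
  rw [← S'_succ, dd, lift0_S' (by omega) (by omega), lift0_S' h (by omega)]
  by_cases h1 : j + 1 < i + 1
  · rw [if_pos (by omega), if_pos h1, if_neg (by omega), ← mul_assoc, ← pow_add, h3, two_eq_zero']
  · rw [if_neg h1, mul_zero, add_zero]
    by_cases h4 : i = j
    · rw [if_pos (by omega), if_pos h4]
    · rw [if_neg (by omega), if_neg h4]

lemma dd_S'_pred {j : ℕ} {i : ℕ} (hi : i ≤ j + 1) : dd (j + 1) j (S' (j + 1) i) =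
    Polynomial.X ^ (2 ^ j) * Polynomial.C (Q (j + 1) 0) * ((if i = j + 1 then 1 else 0) + S' (j + 1) i) := by
  have h3 : 2 ^ (j + 1) - 2 ^ j = 2 ^ j := by rw [pow_succ]; omega
  rw [dd, lift0_S' (by omega) (by omega), liftr_S' hi, h3]
  by_cases h1 : i = j + 1
  · rw [if_pos (by omega), if_pos h1]; ring
  · rw [if_neg (by omega), if_neg h1]; ring

lemma S'_sq (r i : ℕ) : (S' r i) ^ 2 = ∑ b ∈ Finset.range i, (u r b) ^ 2 := by
  rw [S', sum_pow_char]

lemma der_sum_apply {A : Type*} [CommRing A] [Algebra (ZMod 2) A] {ι : Type*} (s : Finset ι)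
    (f : ι → Derivation (ZMod 2) A A) (x : A) : (∑ l ∈ s, f l) x = ∑ l ∈ s, f l x := by
  classical
  induction s using Finset.induction_on with
  | empty => simp
  | insert a s ha ih => rw [Finset.sum_insert ha, Finset.sum_insert ha, Derivation.add_apply, ih]

lemma del_top_apply {r : ℕ} (x : D r) : del r (r + 1) x =
    ∑ l ∈ Finset.range r, (Q r l) ^ 2 * del r (l + 1) x := by
  rw [del_top, der_sum_apply]
  rfl

lemma lift_del_top {r : ℕ} (p : Polynomial (D r)) : lift (del r (r + 1)) p =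
    ∑ l ∈ Finset.range r, Polynomial.C (Q r l) ^ 2 * lift (del r (l + 1)) p := by
  ext n : 1
  rw [coeff_lift, del_top_apply, Polynomial.finsetSum_coeff]
  simp only [← map_pow, Polynomial.coeff_C_mul, coeff_lift]

/-- `dd` at the top -/
lemma dd_S'_top {s : ℕ} {i : ℕ} (hi : i ≤ s + 1) : dd (s + 1) (s + 1) (S' (s + 1) i) =
    Polynomial.C (Q (s + 1) 0) *
      (S' (s + 1) i + (S' (s + 1) (i - 1)) ^ 2 + (u (s + 1) s) ^ 2 * S' (s + 1) i) := by
  rw [dd, liftr_S' hi, lift_del_top, Finset.sum_range_succ, liftr_S' hi]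
  have h1 : ∀ l ∈ Finset.range s, Polynomial.C (Q (s + 1) l) ^ 2 * lift (del (s + 1) (l + 1)) (S' (s + 1) i)
      = if l < i - 1 then Polynomial.C (Q (s + 1) l) ^ 2 *
        (Polynomial.X ^ (2 ^ (s + 1) - 2 ^ (l + 1)) * Polynomial.C (Q (s + 1) 0)) else 0 := by
    intro l hl
    have hl' := Finset.mem_range.1 hl
    rw [lift0_S' (by omega) (by omega)]
    split_ifs with h1 h2 h2
    · rfl
    · omega
    · omega
    · simp
  rw [Finset.sum_congr rfl h1, ← Finset.sum_filter]
  have h2 : (Finset.range s).filter (fun l => l < i - 1) = Finset.range (i - 1) := by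
    ext l; simp; omega
  rw [h2, mul_add, Finset.mul_sum, S'_sq]
  have h3 : ∀ l ∈ Finset.range (i - 1), Polynomial.X ^ 2 ^ (s + 1) * (Polynomial.C (Q (s + 1) l) ^ 2 *
        (Polynomial.X ^ (2 ^ (s + 1) - 2 ^ (l + 1)) * Polynomial.C (Q (s + 1) 0)))
        = Polynomial.C (Q (s + 1) 0) * (u (s + 1) l) ^ 2 := by
    intro l hl
    have hl' := Finset.mem_range.1 hl
    have h4 : (2:ℕ) ^ (l + 1) ≤ 2 ^ (s + 1) := Nat.pow_le_pow_right (by norm_num) (by omega)
    have h5 : 2 ^ (s + 1) + (2 ^ (s + 1) - 2 ^ (l + 1)) = 2 * (2 ^ (s + 1) - 2 ^ l) := by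
      rw [pow_succ 2 l] at *; omega
    rw [u, mul_pow, ← pow_mul, mul_comm (2 ^ (s + 1) - 2 ^ l) 2, ← h5, pow_add]
    ring
  rw [Finset.sum_congr rfl h3, ← Finset.mul_sum]
  have h6 : Polynomial.X ^ 2 ^ (s + 1) * (Polynomial.C (Q (s + 1) s) ^ 2 : Polynomial (D (s + 1)))
      = (u (s + 1) s) ^ 2 := by
    have h5 : 2 ^ (s + 1) = 2 * (2 ^ (s + 1) - 2 ^ s) := by
      rw [pow_succ 2 s]; omega
    rw [u, mul_pow, ← pow_mul, mul_comm (2 ^ (s + 1) - 2 ^ s) 2, ← h5]
  linear_combination (Polynomial.C (Q (s + 1) 0) * S' (s + 1) i) * h6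


lemma S'_top_eq (r : ℕ) : S' r r = S r r + 1 := by
  rw [S_top, add_assoc, two_eq_zero', add_zero]

/-- the relation on generators -/
lemma SQ_del_Q {r j i : ℕ} (hr : 0 < r) (hj : j ≤ r) (hi : i < r) :
    SQ r (del r j (Q r i)) = dd r j (SQ r (Q r i)) := by
  refine Xpow_cancel (k := 2 ^ r - 2 ^ i) ?_
  rw [← dd_pow_mul, pow_mul_SQ_Q hi, dd_add, dd_sq, add_zero, dd_mul]
  rcases Nat.lt_or_ge (j + 1) r with h | h
  · -- j + 1 < r
    rw [dd_S_lt h hi.le, dd_S_lt h le_rfl, if_neg (by omega : ¬ r = j), mul_zero, add_zero,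
      del0_Q (by omega) hi.le]
    split_ifs with h1
    · rw [SQ_Q0 hr, h1]; ring
    · simp
  rcases Nat.lt_or_ge j r with h' | h'
  · -- j + 1 = r
    obtain rfl : r = j + 1 := by omega
    have h3 : 2 ^ (j + 1) - 2 ^ j = 2 ^ j := by rw [pow_succ]; omega
    rw [← S'_succ (j + 1) i, dd_S'_pred (by omega), S_top, dd_add, dd_S'_pred le_rfl, if_pos rfl]
    have h4 : dd (j + 1) j (1 : Polynomial (D (j + 1))) = 0 := by
      simp [dd]
    rw [h4, add_zero, del0_Q (by omega) hi.le, ← S_top]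
    by_cases h1 : i = j
    · subst h1
      rw [if_pos rfl, if_pos rfl, SQ_Q0 hr, h3]
      have h2 : (2 : Polynomial (D (i + 1))) = 0 := CharTwo.two_eq_zero
      rw [S'_top_eq]
      linear_combination (-(Polynomial.X ^ 2 ^ i * Polynomial.C (Q (i + 1) 0) * S (i + 1) (i + 1)
        * (S (i + 1) (i + 1) + 1)) - Polynomial.X ^ 2 ^ i * Polynomial.C (Q (i + 1) 0)
        - Polynomial.X ^ 2 ^ i * Polynomial.C (Q (i + 1) 0) * S (i + 1) (i + 1)) * h2
    · rw [if_neg h1, if_neg (by omega)]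
      have h2 : (2 : Polynomial (D (j + 1))) = 0 := CharTwo.two_eq_zero
      rw [S'_top_eq (j + 1)]
      simp only [map_zero, mul_zero]
      linear_combination (-(Polynomial.X ^ 2 ^ j * Polynomial.C (Q (j + 1) 0) * S (j + 1) (j + 1)
        * S' (j + 1) (i + 1)) - Polynomial.X ^ 2 ^ j * Polynomial.C (Q (j + 1) 0)
        * S' (j + 1) (i + 1)) * h2
  · -- j = r
    obtain rfl : j = r := le_antisymm hj h'
    obtain ⟨s, rfl⟩ : ∃ s, j = s + 1 := ⟨j - 1, by omega⟩
    rw [delr_Q hi, map_mul, ← mul_assoc, mul_comm _ (SQ (s + 1) (Q (s + 1) 0)), mul_assoc,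
      pow_mul_SQ_Q hi, SQ_Q0 hr, ← S'_succ (s + 1) i, dd_S'_top (by omega), S_top, dd_add,
      dd_S'_top le_rfl]
    have h4 : dd (s + 1) (s + 1) (1 : Polynomial (D (s + 1))) = 0 := by simp [dd]
    rw [h4, add_zero, ← S_top]
    simp only [Nat.add_sub_cancel]
    have h5 : (S' (s + 1) s) ^ 2 = (S (s + 1) (s + 1) + 1) ^ 2 + (u (s + 1) s) ^ 2 := by
      rw [← S'_top_eq, S'_succ, S_eq, CharTwo.add_sq, add_assoc, two_eq_zero', add_zero]
    rw [h5, S'_top_eq, CharTwo.add_sq, one_pow]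
    set SS := S (s + 1) (s + 1)
    set Si := S' (s + 1) (i + 1)
    set Si' := S' (s + 1) i
    set uu := u (s + 1) s
    set q := Polynomial.C (Q (s + 1) 0)
    have h2 : (2 : Polynomial (D (s + 1))) = 0 := CharTwo.two_eq_zero
    linear_combination (-(q * SS * Si * uu ^ 2) - q * Si * (1 + SS) - q * Si * uu ^ 2) * h2

theorem SQ_del {r j : ℕ} (hr : 0 < r) (hj : j ≤ r) (x : D r) :
    SQ r (del r j x) = dd r j (SQ r x) := by
  induction x using MvPolynomial.induction_on with
  | C a =>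
    have h1 : (C a : D r) = algebraMap (ZMod 2) (D r) a := rfl
    rw [h1, Derivation.map_algebraMap, map_zero, AlgHom.commutes, dd, Derivation.map_algebraMap,
      Derivation.map_algebraMap]; simp
  | add p q hp hq => rw [map_add, map_add, map_add, dd_add, hp, hq]
  | mul_X p i hp =>
    rw [Derivation.leibniz, smul_eq_mul, smul_eq_mul, map_add, map_mul, map_mul, hp, ← Q_coe i,
      SQ_del_Q hr hj i.2, map_mul, dd_mul]


/-- coefficient form of `SQ_del` (Milnor relation on `D r`) -/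
theorem Sq_del {r j : ℕ} (hr : 0 < r) (hj : j ≤ r) (a : ℕ) (x : D r) :
    Sq r a (del r j x) = del r j (Sq r a x) +
      if 2 ^ j ≤ a then del r (j + 1) (Sq r (a - 2 ^ j) x) else 0 := by
  rw [Sq_apply, SQ_del hr hj, dd, Polynomial.coeff_add, coeff_lift, Polynomial.coeff_X_pow_mul',
    Sq_apply]
  split_ifs with h
  · rw [coeff_lift, Sq_apply]
  · rfl

/-! ### commutation of the Milnor derivations -/

lemma der_ext {r : ℕ} {d d' : Derivation (ZMod 2) (D r) (D r)} (h : ∀ i < r, d (Q r i) = d' (Q r i)) :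
    d = d' := by
  apply MvPolynomial.derivation_ext
  intro i
  have := h i i.2
  rwa [Q_coe] at this

lemma lie_apply' {r : ℕ} (d d' : Derivation (ZMod 2) (D r) (D r)) (x : D r) :
    ⁅d, d'⁆ x = d (d' x) + d' (d x) := by
  rw [Derivation.commutator_apply, sub_eq_add_neg, CharTwo.neg_eq]

lemma del_comm_low {r i j : ℕ} (hi : 1 ≤ i) (hi' : i < r) (hj : 1 ≤ j) (hj' : j < r) :
    ⁅del r i, del r j⁆ = 0 := by
  refine der_ext fun b hb => ?_
  rw [lie_apply', del0_Q hj' hb.le, del0_Q hi' hb.le]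
  have h1 : del r i (Q r 0) = 0 := by rw [del0_Q hi' (by omega), if_neg (by omega)]
  have h2 : del r j (Q r 0) = 0 := by rw [del0_Q hj' (by omega), if_neg (by omega)]
  split_ifs <;> simp [h1, h2]

lemma del_comm_mid {r i : ℕ} (hi : 1 ≤ i) (hi' : i < r) : ⁅del r i, del r r⁆ = 0 := by
  refine der_ext fun b hb => ?_
  have h1 : del r i (Q r 0) = 0 := by rw [del0_Q hi' (by omega), if_neg (by omega)]
  rw [lie_apply', delr_Q hb, Derivation.leibniz, h1, smul_zero, add_zero, smul_eq_mul,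
    del0_Q hi' hb.le]
  split_ifs
  · rw [delr_Q (by omega)]; exact (two_eq_zero r _)
  · simp

theorem del_comm {r i j : ℕ} (hi : 1 ≤ i) (hi' : i ≤ r) (hj : 1 ≤ j) (hj' : j ≤ r) (x : D r) :
    del r i (del r j x) = del r j (del r i x) := by
  have key : ⁅del r i, del r j⁆ = 0 := by
    rcases Nat.lt_or_ge i r with h | h
    · rcases Nat.lt_or_ge j r with h' | h'
      · exact del_comm_low hi h hj h'
      · obtain rfl : j = r := le_antisymm hj' h'
        exact del_comm_mid hi h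
    · obtain rfl : i = r := le_antisymm hi' h
      rcases Nat.lt_or_ge j i with h' | h'
      · rw [← lie_skew, del_comm_mid hj h', neg_zero]
      · obtain rfl : j = i := le_antisymm hj' h'
        exact lie_self _
  have h := lie_apply' (del r i) (del r j) x
  rw [key] at h
  have h2 : del r i (del r j x) + del r j (del r i x) = 0 := by rw [← h]; rfl
  exact CharTwo.add_eq_zero.1 h2

/-- square of a derivation as a derivation (characteristic two) -/
noncomputable def sqDer {r : ℕ} (d : Derivation (ZMod 2) (D r) (D r)) :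
    Derivation (ZMod 2) (D r) (D r) where
  toLinearMap := d.toLinearMap ∘ₗ d.toLinearMap
  map_one_eq_zero' := by simp
  leibniz' a b := by
    change d (d (a * b)) = a • d (d b) + b • d (d a)
    rw [Derivation.leibniz, map_add, smul_eq_mul, smul_eq_mul, Derivation.leibniz, Derivation.leibniz]
    simp only [smul_eq_mul]
    have := two_eq_zero r (d a * d b)
    linear_combination this

theorem del_del {r j : ℕ} (hj : 1 ≤ j) (hj' : j ≤ r) (x : D r) : del r j (del r j x) = 0 := by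
  have key : sqDer (del r j) = 0 := by
    refine der_ext fun b hb => ?_
    change del r j (del r j (Q r b)) = 0
    rcases Nat.lt_or_ge j r with h | h
    · rw [del0_Q h hb.le]
      split_ifs
      · rw [del0_Q h (by omega), if_neg (by omega)]
      · simp
    · obtain rfl : j = r := le_antisymm hj' h
      rw [delr_Q hb, Derivation.leibniz, delr_Q hb, delr_Q (by omega), smul_eq_mul, smul_eq_mul]
      have := two_eq_zero j (Q j 0 ^ 2 * Q j b)
      linear_combination this
  have : sqDer (del r j) x = 0 := by rw [key]; rfl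
  exact this

end Crest.Agent.R204.FA550
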