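import Crest.Agent.R204.StMod_85
import Crest.Agent.R204.DicksonE_91
import Crest.Agent.R204.FA_550
import Crest.Agent.R204.Spine_693

-- ▼ part R204/StMod2_85
section

/-!
# Row 204 (helper85): Steenrod modules, part 2

Halving, transfer along injections/surjections, commutative algebras with a total square
(Cartan formula, Milnor primitives are derivations), polynomial rings.
-/

set_option autoImplicit false
set_option linter.unusedSectionVars false

noncomputable section

namespace Crest.Agent.R204.StMod85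

open Finset Polynomial

section basic

variable {R : Type*} [Ring R] [Algebra (ZMod 2) R] {Sq : ℕ → R}







end basic

section modules

variable {E E' : Type*} [AddCommGroup E] [Module (ZMod 2) E] [AddCommGroup E']
  [Module (ZMod 2) E'] {Sq : ℕ → Module.End (ZMod 2) E} {Sq' : ℕ → Module.End (ZMod 2) E'}

lemma phi_apply (n i : ℕ) (x : E) :
    phi Sq n i x = ∑ p ∈ antidiagonal n, bmc p.1 i • (Sq p.1 (Sq p.2 x)) := by
  unfold phi
  rw [LinearMap.sum_apply]
  rfl

lemma phi_comm (f : E →ₗ[ZMod 2] E') (hc : ∀ n x, f (Sq n x) = Sq' n (f x)) (n i : ℕ) (x : E) :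
    f (phi Sq n i x) = phi Sq' n i (f x) := by
  rw [phi_apply, phi_apply, map_sum]
  refine Finset.sum_congr rfl fun p _ => ?_
  rw [map_smul, hc, hc]


/-- transfer along an injection -/
theorem IsBM.of_injective (h : IsBM Sq') (f : E →ₗ[ZMod 2] E') (hf : Function.Injective f)
    (hc : ∀ n x, f (Sq n x) = Sq' n (f x)) : IsBM Sq := by
  refine ⟨LinearMap.ext fun x => hf ?_, fun n i hi => LinearMap.ext fun x => hf ?_⟩
  · rw [hc, h.zero]; rfl
  · rw [phi_comm f hc, phi_comm f hc, h.bm n i hi]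









end modules

section algebra

variable {A : Type*} [CommRing A] [Algebra (ZMod 2) A]

/-- coefficients of a total square -/
def sqOf (SQ : A →ₐ[ZMod 2] A[X]) (n : ℕ) : Module.End (ZMod 2) A :=
  ((Polynomial.lcoeff A n).restrictScalars (ZMod 2)).comp SQ.toLinearMap

lemma sqOf_apply (SQ : A →ₐ[ZMod 2] A[X]) (n : ℕ) (x : A) : sqOf SQ n x = (SQ x).coeff n := rfl



end algebra

end Crest.Agent.R204.StMod85
end
end

-- ▼ part R204/StMod3_85
section

/-!
# Row 204 (helper85): Steenrod modules, part 3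

Commutative `F₂`-algebras generated by classes `x` with `SQ x = x + T x²` (e.g. polynomial rings)
satisfy the Bullett–Macdonald identity; `P_j x = x^{2^j}`.
-/

set_option autoImplicit false
set_option linter.unusedSectionVars false

noncomputable section

namespace Crest.Agent.R204.StMod85

open Finset Polynomial

section algebra

variable {A : Type*} [CommRing A] [Algebra (ZMod 2) A] (SQ : A →ₐ[ZMod 2] A[X])

/-- `f ↦ ∑ uⁿ Sqⁿ f Tⁿ` -/
def Ph (u : A[X]) : A →+* A[X][X] :=
  (Polynomial.eval₂RingHom ((Polynomial.C : A[X] →+* A[X][X]).comp Polynomial.C)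
    (Polynomial.C u * Polynomial.X)).comp (SQ : A →+* A[X])

lemma coeff_eval₂_aux (u p : A[X]) (n : ℕ) :
    (Polynomial.eval₂ ((Polynomial.C : A[X] →+* A[X][X]).comp Polynomial.C)
      (Polynomial.C u * Polynomial.X) p).coeff n = u ^ n * Polynomial.C (p.coeff n) := by
  induction p using Polynomial.induction_on' with
  | add p q hp hq =>
    rw [Polynomial.eval₂_add, Polynomial.coeff_add, hp, hq, Polynomial.coeff_add, map_add, mul_add]
  | monomial k a =>
    rw [Polynomial.eval₂_monomial, mul_pow, ← map_pow, ← mul_assoc, RingHom.comp_apply, ← map_mul,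
      Polynomial.coeff_C_mul_X_pow, Polynomial.coeff_monomial]
    by_cases h : n = k
    · rw [if_pos h, if_pos h.symm, h, mul_comm]
    · rw [if_neg h, if_neg (Ne.symm h), map_zero, mul_zero]

lemma coeff_Ph (u : A[X]) (f : A) (n : ℕ) :
    (Ph SQ u f).coeff n = u ^ n * Polynomial.C (sqOf SQ n f) :=
  coeff_eval₂_aux u (SQ f) n

/-- extension of `Ph` to `A[s][T]` -/
def Pt (u : A[X]) : A[X][X] →+* A[X][X] :=
  Polynomial.eval₂RingHom (Polynomial.eval₂RingHom (Ph SQ u) (Polynomial.C Polynomial.X))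
    Polynomial.X

lemma Pt_X (u : A[X]) : Pt SQ u Polynomial.X = Polynomial.X := by
  rw [Pt, Polynomial.coe_eval₂RingHom, Polynomial.eval₂_X]

lemma Pt_C (u w : A[X]) : Pt SQ u (Polynomial.C w) =
    Polynomial.eval₂ (Ph SQ u) (Polynomial.C Polynomial.X) w := by
  rw [Pt, Polynomial.coe_eval₂RingHom, Polynomial.eval₂_C, Polynomial.coe_eval₂RingHom]

lemma Pt_C_C (u : A[X]) (a : A) : Pt SQ u (Polynomial.C (Polynomial.C a)) = Ph SQ u a := by
  rw [Pt_C, Polynomial.eval₂_C]

lemma Pt_C_X (u : A[X]) : Pt SQ u (Polynomial.C Polynomial.X) = Polynomial.C Polynomial.X := by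
  rw [Pt_C, Polynomial.eval₂_X]

/-- scalars -/
def io : (ZMod 2)[X] →+* A[X] := Polynomial.mapRingHom (algebraMap (ZMod 2) A)

lemma Pt_io (u : A[X]) (w : (ZMod 2)[X]) :
    Pt SQ u (Polynomial.C (io w)) = Polynomial.C (io w) := by
  have h : ((Pt SQ u).comp (Polynomial.C : A[X] →+* A[X][X])).comp (io (A := A)) =
      (Polynomial.C : A[X] →+* A[X][X]).comp (io (A := A)) := by
    refine Polynomial.ringHom_ext' (RingHom.ext_zmod _ _) ?_
    simp only [RingHom.comp_apply, io, Polynomial.coe_mapRingHom, Polynomial.map_X]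
    exact Pt_C_X SQ u
  exact RingHom.congr_fun h w

lemma coeff_Pt (u : A[X]) (q : A[X][X]) (n : ℕ) :
    (Pt SQ u q).coeff n = ∑ p ∈ antidiagonal n, (Pt SQ u (Polynomial.C (q.coeff p.2))).coeff p.1 := by
  induction q using Polynomial.induction_on' with
  | add p q hp hq =>
    rw [map_add, Polynomial.coeff_add, hp, hq, ← Finset.sum_add_distrib]
    refine Finset.sum_congr rfl fun x _ => ?_
    rw [Polynomial.coeff_add, map_add, map_add, Polynomial.coeff_add]
  | monomial k a =>
    rw [← Polynomial.C_mul_X_pow_eq_monomial, map_mul, map_pow, Pt_X,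
      Polynomial.coeff_mul_X_pow']
    split_ifs with h
    · rw [Finset.sum_eq_single (n - k, k)]
      · rw [Polynomial.coeff_C_mul_X_pow, if_pos rfl]
      · intro p hp hne
        have hp' := Finset.HasAntidiagonal.mem_antidiagonal.1 hp
        rw [Polynomial.coeff_C_mul_X_pow, if_neg, map_zero, map_zero, Polynomial.coeff_zero]
        intro h2
        apply hne
        ext
        · show p.1 = n - k
          omega
        · exact h2
      · intro h2
        exact absurd (Finset.HasAntidiagonal.mem_antidiagonal.2 (by show n - k + k = n; omega)) h2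
    · symm
      refine Finset.sum_eq_zero fun p hp => ?_
      have hp' := Finset.HasAntidiagonal.mem_antidiagonal.1 hp
      rw [Polynomial.coeff_C_mul_X_pow, if_neg (by omega), map_zero, map_zero,
        Polynomial.coeff_zero]

lemma coeff_Pt_Ph (u v : (ZMod 2)[X]) (f : A) (n : ℕ) :
    (Pt SQ (io u) (Ph SQ (io v) f)).coeff n = ∑ p ∈ antidiagonal n,
      io (u ^ p.1 * v ^ p.2) * Polynomial.C (sqOf SQ p.1 (sqOf SQ p.2 f)) := by
  rw [coeff_Pt]
  refine Finset.sum_congr rfl fun p _ => ?_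
  rw [coeff_Ph, map_mul, map_mul, ← map_pow io v, Pt_io, Pt_C_C, Polynomial.coeff_C_mul, coeff_Ph,
    map_mul, map_pow io u]
  ring

lemma coeff_io_mul_C (w : (ZMod 2)[X]) (r : A) (i : ℕ) :
    (io w * Polynomial.C r).coeff i = w.coeff i • r := by
  rw [Polynomial.coeff_mul_C, io, Polynomial.coe_mapRingHom, Polynomial.coeff_map, Algebra.smul_def]

/-- the Bullett–Macdonald identity for a total square on a commutative algebra -/
theorem isBM_of_ringHom (h0 : ∀ a, (SQ a).coeff 0 = a)
    (h : ∀ f, Pt SQ (io (X * (X + 1))) (Ph SQ (io 1) f) = Pt SQ (io (X + 1)) (Ph SQ (io (X ^ 2)) f)) :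
    IsBM (sqOf SQ) := by
  refine ⟨LinearMap.ext fun a => h0 a, fun n i hi => LinearMap.ext fun x => ?_⟩
  rw [phi_apply, phi_apply]
  have h1 := congrArg (fun q => (Polynomial.coeff q n).coeff i) (h x)
  simp only [coeff_Pt_Ph, Polynomial.finsetSum_coeff, coeff_io_mul_C, one_pow, mul_one,
    coeff_bm1] at h1
  rw [h1]
  refine Finset.sum_congr rfl fun p hp => ?_
  have hp' := Finset.HasAntidiagonal.mem_antidiagonal.1 hp
  rw [coeff_bm2 _ _ _ (by rw [hp']; exact hi), hp']

/-- a class of degree one -/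
def Deg1 (x : A) : Prop := SQ x = Polynomial.C x + Polynomial.C (x ^ 2) * Polynomial.X

lemma Ph_deg1 (u : A[X]) {x : A} (hx : Deg1 SQ x) : Ph SQ u x =
    Polynomial.C (Polynomial.C x) +
      Polynomial.C (Polynomial.C (x ^ 2)) * (Polynomial.C u * Polynomial.X) := by
  rw [Ph, RingHom.comp_apply]
  show Polynomial.eval₂ _ _ (SQ x) = _
  rw [show SQ x = _ from hx, Polynomial.eval₂_add, Polynomial.eval₂_mul, Polynomial.eval₂_C,
    Polynomial.eval₂_C, Polynomial.eval₂_X]
  rfl

lemma two_eq_zero' {B : Type*} [CommRing B] [Algebra (ZMod 2) B] : (2 : B) = 0 := by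
  have h : (2 : B) = 1 + 1 := by norm_num
  rw [h]
  exact add_self' (M := B) 1

lemma Pt_Ph_deg1 (u v : (ZMod 2)[X]) {x : A} (hx : Deg1 SQ x) :
    Pt SQ (io u) (Ph SQ (io v) x) = Polynomial.C (Polynomial.C x) +
      Polynomial.C (Polynomial.C (x ^ 2)) * Polynomial.C (io (u + v)) * Polynomial.X +
      Polynomial.C (Polynomial.C (x ^ 4)) * Polynomial.C (io (u ^ 2 * v)) * Polynomial.X ^ 3 := by
  rw [Ph_deg1 SQ _ hx, map_add, map_mul, map_mul, Pt_C_C, Pt_C_C, Pt_io, Pt_X, map_pow,
    Ph_deg1 SQ _ hx]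
  have h2 : (2 : A[X][X]) = 0 := by
    have h3 : (2 : A[X][X]) = Polynomial.C (Polynomial.C (2 : A)) := by
      rw [map_ofNat, map_ofNat]
    rw [h3, two_eq_zero' (B := A), map_zero, map_zero]
  simp only [map_add, map_mul, map_pow]
  linear_combination (Polynomial.C (Polynomial.C x)) ^ 3 * Polynomial.C (io u) *
    Polynomial.C (io v) * Polynomial.X ^ 2 * h2

/-- algebras generated by classes of degree one -/
theorem isBM_of_adjoin (h0 : ∀ a, (SQ a).coeff 0 = a) {S : Set A}
    (hS : Algebra.adjoin (ZMod 2) S = ⊤) (hd : ∀ x ∈ S, Deg1 SQ x) : IsBM (sqOf SQ) := by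
  refine isBM_of_ringHom SQ h0 fun f => ?_
  have hf : f ∈ Algebra.adjoin (ZMod 2) S := by rw [hS]; exact Algebra.mem_top
  induction hf using Algebra.adjoin_induction with
  | mem x hx =>
    rw [Pt_Ph_deg1 SQ _ _ (hd x hx), Pt_Ph_deg1 SQ _ _ (hd x hx)]
    have e1 : (X * (X + 1) + 1 : (ZMod 2)[X]) = X + 1 + X ^ 2 := by ring
    have e2 : ((X * (X + 1)) ^ 2 * 1 : (ZMod 2)[X]) = (X + 1) ^ 2 * X ^ 2 := by ring
    rw [e1, e2]
  | algebraMap r =>
    have : ∀ g g' : A →+* A[X][X], g (algebraMap (ZMod 2) A r) = g' (algebraMap (ZMod 2) A r) := by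
      intro g g'
      exact RingHom.congr_fun (RingHom.ext_zmod (g.comp (algebraMap (ZMod 2) A))
        (g'.comp (algebraMap (ZMod 2) A))) r
    exact this ((Pt SQ (io (X * (X + 1)))).comp (Ph SQ (io 1)))
      ((Pt SQ (io (X + 1))).comp (Ph SQ (io (X ^ 2))))
  | add x y _ _ hx hy =>
    rw [map_add (Ph SQ _), map_add (Pt SQ _), map_add (Ph SQ _), map_add (Pt SQ _), hx, hy]
  | mul x y _ _ hx hy =>
    rw [map_mul (Ph SQ _), map_mul (Pt SQ _), map_mul (Ph SQ _), map_mul (Pt SQ _), hx, hy]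


end algebra

/-! ### polynomial rings -/

section mv

variable {σ : Type*}

/-- total square on `F₂[x_i]` -/
def SQmv : MvPolynomial σ (ZMod 2) →ₐ[ZMod 2] (MvPolynomial σ (ZMod 2))[X] :=
  MvPolynomial.aeval fun i => Polynomial.C (MvPolynomial.X i) +
    Polynomial.C (MvPolynomial.X i ^ 2) * Polynomial.X

lemma SQmv_X (i : σ) : Deg1 SQmv (MvPolynomial.X i : MvPolynomial σ (ZMod 2)) := by
  rw [Deg1, SQmv, MvPolynomial.aeval_X]

lemma SQmv_coeff_zero (f : MvPolynomial σ (ZMod 2)) : (SQmv f).coeff 0 = f := by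
  have h : ((Polynomial.evalRingHom (0 : MvPolynomial σ (ZMod 2))).comp
      (SQmv (σ := σ) : MvPolynomial σ (ZMod 2) →+* _)) = RingHom.id _ := by
    refine MvPolynomial.ringHom_ext' (RingHom.ext_zmod _ _) fun i => ?_
    show Polynomial.eval 0 (SQmv (MvPolynomial.X i)) = MvPolynomial.X i
    rw [show SQmv (MvPolynomial.X i) = _ from SQmv_X i]
    simp
  have h2 := RingHom.congr_fun h f
  rw [RingHom.comp_apply, RingHom.id_apply] at h2
  rw [Polynomial.coeff_zero_eq_eval_zero]
  exact h2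

/-- polynomial rings are Steenrod modules -/
theorem isBM_mv : IsBM (sqOf (SQmv (σ := σ))) :=
  isBM_of_adjoin SQmv SQmv_coeff_zero (S := Set.range MvPolynomial.X)
    (MvPolynomial.adjoin_range_X) (by rintro _ ⟨i, rfl⟩; exact SQmv_X i)

end mv

end Crest.Agent.R204.StMod85
end
end

-- ▼ part R204/DickInst_91

/-!
# Row 204: realisation of the abstract Dickson algebra and the instance `Spine693.Dick` (helper91)
-/

set_option autoImplicit false
set_option linter.unusedSectionVars false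

namespace Crest.Agent.R204.DickInst91

open MvPolynomial Crest.Agent.R204 Crest.Agent.R204.Dickson91 Crest.Agent.R204.StMod85

/-- realisation of the abstract Dickson algebra in `F₂[x_0..x_{r-1}]` -/
noncomputable def real (r : ℕ) : FA550.D r →ₐ[ZMod 2] S r :=
  aeval (fun j : Fin r => Dickson91.Q r j)

theorem real_injective (r : ℕ) : Function.Injective (real r) := aeval_Q_inj


theorem real_Q {r j : ℕ} (h : j ≤ r) : real r (FA550.Q r j) = Dickson91.Q r j := by
  rcases h.lt_or_eq with h | h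
  · rw [FA550.Q_lt h, real, aeval_X]
  · subst h
    rw [FA550.Q_self, map_one, Q_top]

theorem real_monomial {r : ℕ} (a : Fin r →₀ ℕ) : real r (monomial a 1) = Qmon (a : Fin r → ℕ) :=
  (Qmon_eq_aeval a).symm

theorem sqT_eq_SQmv {σ : Type*} : (sqT : MvPolynomial σ (ZMod 2) →ₐ[ZMod 2] _) = SQmv := by
  apply MvPolynomial.algHom_ext
  intro i
  rw [sqT_X, SQmv, aeval_X, Polynomial.C_pow, mul_comm]

/-- the two forms of the total square of a Dickson invariant agree -/
theorem gen_identity {B : Type*} [CommRing B] [CharP B 2] (T : B) (q : ℕ → B) {r j : ℕ}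
    (hj : j ≤ r) : T ^ (2 ^ r - 2 ^ j) * q j ^ 2 +
        (∑ b ∈ Finset.range (j + 1), T ^ (2 ^ j - 2 ^ b) * q b) *
        (∑ a ∈ Finset.Ioc j r, T ^ (2 ^ r - 2 ^ a) * q a) =
      (∑ a ∈ Finset.range (r + 1), q a * T ^ (2 ^ r - 2 ^ a)) *
      (∑ b ∈ Finset.range (j + 1), q b * T ^ (2 ^ j - 2 ^ b)) +
      ∑ b ∈ Finset.range j, q b ^ 2 * T ^ (2 ^ r + 2 ^ j - 2 ^ (b + 1)) := by
  have e1 : ∑ a ∈ Finset.range (r + 1), q a * T ^ (2 ^ r - 2 ^ a) = T ^ (2 ^ r - 2 ^ j) *
        (∑ b ∈ Finset.range (j + 1), T ^ (2 ^ j - 2 ^ b) * q b) +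
        (∑ a ∈ Finset.Ioc j r, T ^ (2 ^ r - 2 ^ a) * q a) := by
    have hU : Finset.range (r + 1) = Finset.range (j + 1) ∪ Finset.Ioc j r := by
      ext a; simp; omega
    rw [hU, Finset.sum_union (by rw [Finset.disjoint_left]; intro a; simp; omega), Finset.mul_sum]
    congr 1
    · refine Finset.sum_congr rfl fun b hb => ?_
      rw [Finset.mem_range] at hb
      have h1 : 2 ^ b ≤ 2 ^ j := Nat.pow_le_pow_right (by norm_num) (by omega)
      have h2 : 2 ^ j ≤ 2 ^ r := Nat.pow_le_pow_right (by norm_num) hj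
      have h3 : 2 ^ r - 2 ^ b = (2 ^ r - 2 ^ j) + (2 ^ j - 2 ^ b) := by omega
      rw [h3, pow_add]
      ring
    · refine Finset.sum_congr rfl fun b _ => ?_
      rw [mul_comm]
  have e2 : ∑ b ∈ Finset.range (j + 1), q b * T ^ (2 ^ j - 2 ^ b) =
      ∑ b ∈ Finset.range (j + 1), T ^ (2 ^ j - 2 ^ b) * q b := by
    refine Finset.sum_congr rfl fun b _ => ?_
    rw [mul_comm]
  have e3 : ∑ b ∈ Finset.range j, q b ^ 2 * T ^ (2 ^ r + 2 ^ j - 2 ^ (b + 1)) +
      T ^ (2 ^ r - 2 ^ j) * q j ^ 2 =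
        T ^ (2 ^ r - 2 ^ j) * (∑ b ∈ Finset.range (j + 1), T ^ (2 ^ j - 2 ^ b) * q b) ^ 2 := by
    rw [sum_pow_char, Finset.sum_range_succ, mul_add, Finset.mul_sum]
    congr 1
    · refine Finset.sum_congr rfl fun b hb => ?_
      rw [Finset.mem_range] at hb
      have h1 : 2 ^ (b + 1) ≤ 2 ^ j := Nat.pow_le_pow_right (by norm_num) (by omega)
      have h2 : 2 ^ j ≤ 2 ^ r := Nat.pow_le_pow_right (by norm_num) hj
      have h3 : 2 ^ r + 2 ^ j - 2 ^ (b + 1) = (2 ^ r - 2 ^ j) + (2 ^ j - 2 ^ b) * 2 := by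
        rw [Nat.sub_mul, ← pow_succ, ← pow_succ, pow_succ 2 j]
        omega
      rw [h3, pow_add, pow_mul, mul_pow]
      ring
    · rw [Nat.sub_self, pow_zero, one_mul]
  rw [e1, e2]
  set P := ∑ b ∈ Finset.range (j + 1), T ^ (2 ^ j - 2 ^ b) * q b
  set A := ∑ a ∈ Finset.Ioc j r, T ^ (2 ^ r - 2 ^ a) * q a
  set E := ∑ b ∈ Finset.range j, q b ^ 2 * T ^ (2 ^ r + 2 ^ j - 2 ^ (b + 1)) with hE
  have h4 : E = T ^ (2 ^ r - 2 ^ j) * P ^ 2 + T ^ (2 ^ r - 2 ^ j) * q j ^ 2 := by
    rw [← e3, add_assoc, CharTwo.add_self_eq_zero, add_zero]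
  rw [h4]
  have h5 : (T ^ (2 ^ r - 2 ^ j) * P ^ 2) + (T ^ (2 ^ r - 2 ^ j) * P ^ 2) = 0 :=
    CharTwo.add_self_eq_zero _
  linear_combination -h5

/-- the total squares agree on generators -/
theorem map_SQgen {r j : ℕ} (hj : j ≤ r) :
    (FA550.SQgen r j).map (real r : FA550.D r →+* S r) = sqT (Dickson91.Q r j) := by
  have hC : ∀ b ≤ r, (Polynomial.C (FA550.Q r b)).map (real r : FA550.D r →+* S r) =
      Polynomial.C (Dickson91.Q r b) := by
    intro b hb
    rw [Polynomial.map_C]
    congr 1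
    exact real_Q hb
  rw [sqT_Q hj, ← gen_identity Polynomial.X (fun b => Polynomial.C (Dickson91.Q r b)) hj]
  unfold FA550.SQgen
  rw [Polynomial.map_add, Polynomial.map_mul, Polynomial.map_mul, Polynomial.map_pow,
    Polynomial.map_pow, Polynomial.map_X, hC j hj, Polynomial.map_sum, Polynomial.map_sum]
  congr 2
  · refine Finset.sum_congr rfl fun b hb => ?_
    rw [Finset.mem_range] at hb
    rw [Polynomial.map_mul, Polynomial.map_pow, Polynomial.map_X, hC b (by omega)]
  · refine Finset.sum_congr rfl fun b hb => ?_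
    rw [Finset.mem_Ioc] at hb
    rw [Polynomial.map_mul, Polynomial.map_pow, Polynomial.map_X, hC b (by omega)]

/-- **the realisation commutes with the total squares** -/
theorem map_SQ {r : ℕ} (f : FA550.D r) :
    (FA550.SQ r f).map (real r : FA550.D r →+* S r) = sqT (real r f) := by
  let ψ : Polynomial (FA550.D r) →ₐ[ZMod 2] Polynomial (S r) := Polynomial.mapAlgHom (real r)
  have h : ψ.comp (FA550.SQ r) = sqT.comp (real r) := by
    apply MvPolynomial.algHom_ext
    intro i
    simp only [AlgHom.comp_apply]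
    have h1 : FA550.SQ r (X i) = FA550.SQgen r i := by simp [FA550.SQ]
    have h2 : real r (X i) = Dickson91.Q r i := by simp [real]
    rw [h1, h2, ← map_SQgen i.2.le]
    rfl
  exact DFunLike.congr_fun h f

theorem real_Sq {r : ℕ} (a : ℕ) (f : FA550.D r) :
    real r (FA550.Sq r a f) = Dickson91.Sq a (real r f) := by
  rw [Dickson91.Sq_apply, ← map_SQ, Polynomial.coeff_map]
  rfl

/-- Bullett–Macdonald on `F₂[x]` -/
theorem isBM_Sq (r : ℕ) : IsBM (fun n => (Dickson91.Sq n : S r →ₗ[ZMod 2] S r)) := by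
  have h : (fun n => (Dickson91.Sq n : S r →ₗ[ZMod 2] S r)) = sqOf SQmv := by
    funext n
    apply LinearMap.ext
    intro f
    rw [Dickson91.Sq_apply, sqOf_apply, sqT_eq_SQmv]
  rw [h]
  exact isBM_mv

/-- Bullett–Macdonald on the abstract Dickson algebra -/
theorem isBM_D (r : ℕ) : IsBM (fun n => (FA550.Sq r n : FA550.D r →ₗ[ZMod 2] FA550.D r)) :=
  (isBM_Sq r).of_injective (real r).toLinearMap (real_injective r) (fun n x => real_Sq n x)

theorem Sq_zero_D (r : ℕ) : FA550.Sq r 0 = LinearMap.id := (isBM_D r).zero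

/-- `IsBM` in the form of the spine -/
theorem BM_of_isBM {E : Type} [AddCommGroup E] [Module (ZMod 2) E]
    {Sq : ℕ → (E →ₗ[ZMod 2] E)} (h : IsBM (fun n => (Sq n : Module.End (ZMod 2) E))) :
    Spine693.BM Sq := by
  intro n i hi
  have hb : ∀ a i, Spine693.bmc a i = StMod85.bmc a i := by
    intro a i
    unfold Spine693.bmc StMod85.bmc
    by_cases h : a ≤ i
    · rw [if_pos h, if_neg (by omega)]
    · rw [if_neg h, if_pos (by omega)]
  have hs : ∀ i, phi (fun n => (Sq n : Module.End (ZMod 2) E)) n i =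
      ∑ a ∈ Finset.range (n + 1), Spine693.bmc a i • (Sq a ∘ₗ Sq (n - a)) := by
    intro i
    unfold phi
    rw [Finset.Nat.sum_antidiagonal_eq_sum_range_succ_mk]
    refine Finset.sum_congr rfl fun a _ => ?_
    rw [hb]
    rfl
  rw [← hs, ← hs]
  exact h.bm n i hi

/-! ### `M_k` -/

/-- `M r k` is spanned by the monomials with `k ≤ s 0` -/
theorem M_eq_span (r k : ℕ) : Spine693.M r k =
    Submodule.span (ZMod 2) {f | ∃ s : Fin (r + 1) →₀ ℕ, k ≤ s 0 ∧ monomial s (1 : ZMod 2) = f} := by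
  apply le_antisymm
  · intro f hf
    rw [f.as_sum]
    apply Submodule.sum_mem
    intro s hs
    have hs' : coeff s f ≠ 0 := by simpa using hs
    have h1 : coeff s f = 1 := by
      have : ∀ a : ZMod 2, a ≠ 0 → a = 1 := by decide
      exact this _ hs'
    rw [h1]
    exact Submodule.subset_span ⟨s, hf s hs', rfl⟩
  · rw [Submodule.span_le]
    rintro _ ⟨s, hs, rfl⟩
    intro t ht
    classical
    rw [coeff_monomial] at ht
    by_cases hst : s = t
    · subst hst; exact hs
    · rw [if_neg hst] at ht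
      exact absurd rfl ht

/-- `M r k` maps onto `Mk r k` -/
theorem map_M (r k : ℕ) : (Spine693.M r k).map (real (r + 1)).toLinearMap = Mk r k := by
  rw [M_eq_span, Submodule.map_span, Mk]
  congr 1
  ext f
  constructor
  · rintro ⟨_, ⟨s, hs, rfl⟩, rfl⟩
    exact ⟨s, hs, (real_monomial s).symm⟩
  · rintro ⟨a, ha, rfl⟩
    refine ⟨monomial (Finsupp.equivFunOnFinite.symm a) 1, ⟨_, ha, rfl⟩, ?_⟩
    exact real_monomial _

theorem mem_M_iff {r k : ℕ} (f : Spine693.D (r + 1)) :
    f ∈ Spine693.M r k ↔ real (r + 1) f ∈ Mk r k := by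
  rw [← map_M]
  constructor
  · intro h
    exact ⟨f, h, rfl⟩
  · rintro ⟨g, hg, hgf⟩
    have : g = f := real_injective (r + 1) hgf
    rwa [← this]

/-- `M_k` is stable under the Steenrod operations -/
theorem M_mem {r k : ℕ} {g : Spine693.D (r + 1)} (hg : g ∈ Spine693.M r k) (a : ℕ) :
    FA550.Sq (r + 1) a g ∈ Spine693.M r k := by
  have hg' : real (r + 1) g ∈ Mk r k := (mem_M_iff g).mp hg
  have h := Sq_mem_Mk hg' a
  rw [← real_Sq] at h
  exact (mem_M_iff _).mpr h

/-- **the Steenrod operations on the Dickson algebras** (spine interface) -/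
noncomputable def dick : Spine693.Dick where
  Sq r a := FA550.Sq (r + 1) a
  mem _ _ a _ hg := M_mem hg a
  zero r := Sq_zero_D (r + 1)
  bm r := BM_of_isBM (isBM_D (r + 1))

/-! ### degrees -/

/-- weighted homogeneous elements are realised by homogeneous polynomials -/
theorem real_homog {r n : ℕ} {f : Spine693.D (r + 1)}
    (hf : IsWeightedHomogeneous (Spine693.wt r) f n) : (real (r + 1) f).IsHomogeneous n := by
  rw [f.as_sum, map_sum]
  apply IsHomogeneous.sum
  intro s hs
  have hs' : coeff s f ≠ 0 := by simpa using hs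
  have h1 : coeff s f = 1 := by
    have : ∀ a : ZMod 2, a ≠ 0 → a = 1 := by decide
    exact this _ hs'
  rw [h1]
  have h2 := hf hs'
  have h3 : Dickson91.wt (s : Fin (r + 1) → ℕ) = n := by
    rw [← h2]
    unfold Dickson91.wt
    rw [Finsupp.weight_apply, Finsupp.sum_fintype _ _ (by simp)]
    rfl
  rw [real_monomial, ← h3]
  exact Qmon_homog _


end Crest.Agent.R204.DickInst91
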