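import Crest.Agent.R204.EZCross_271

/-!
# Row 204, block A-EZ (helper271): induction principles, Alexander-Whitney coproduct `cop`,
`aw : N (K × L) → N K ⊗ N L`, projections, units, `aw (cross a b) = a ⊗ b`.
Everything over an arbitrary commutative ring `R`.
-/

set_option autoImplicit false

namespace Crest.Agent.R204.EZ271

open Finsupp TensorProduct

section

variable (R : Type) [CommRing R]

/-! ## induction principles (cones) -/

/-- the universal simplex -/
def iota (p : ℕ) : (SS.std p).S p := (OrderHom.id : Op p p)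

theorem iota_succ (p : ℕ) : N.sx R (iota (p + 1)) =
    (Cone.std (p + 1)).c R (N.map R (stdMap (Op.face 0)) (N.sx R (iota p))) := by
  rw [N.map_sx, Cone.c_sx]
  congr 1
  refine OrderHom.ext _ _ (funext fun a => ?_)
  induction a using Fin.cases with
  | zero => rfl
  | succ a => rfl

theorem iota_zero : N.sx R (iota 0) = N.sx R (Cone.std 0).bot := by
  congr 1
  refine OrderHom.ext _ _ (funext fun a => Fin.ext (by omega))

theorem sx_eq_map_iota {K : SS} {n : ℕ} (x : K.S n) :
    N.sx R x = N.map R (K.yo x) (N.sx R (iota n)) := by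
  rw [N.map_sx]
  congr 1
  exact (yo_iota x).symm

/-- cone induction, one variable: two natural families of linear maps agreeing on bottom vertices
and stable under cones agree. -/
theorem ind1 {M : SS → Type*} [∀ K, AddCommMonoid (M K)] [∀ K, Module R (M K)]
    (f f' : ∀ K : SS, N R K →ₗ[R] M K)
    (hnat : ∀ {K L : SS} (g : SS.Hom K L) (z : N R K), f K z = f' K z →
      f L (N.map R g z) = f' L (N.map R g z))
    (hbot : ∀ {K : SS} (A : Cone K), f K (N.sx R A.bot) = f' K (N.sx R A.bot))
    (hc : ∀ {K : SS} (A : Cone K) (z : N R K), f K z = f' K z → f K (A.c R z) = f' K (A.c R z)) :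
    ∀ (K : SS) (z : N R K), f K z = f' K z := by
  have key : ∀ n : ℕ, f (SS.std n) (N.sx R (iota n)) = f' (SS.std n) (N.sx R (iota n)) := by
    intro n
    induction n with
    | zero => rw [iota_zero]; exact hbot _
    | succ n ih => rw [iota_succ]; exact hc _ _ (hnat _ _ ih)
  intro K z
  have : f K = f' K := by
    refine hom_ext fun n x => ?_
    rw [sx_eq_map_iota]
    exact hnat _ _ (key n)
  rw [this]

/-- cone induction, two variables. -/
theorem ind2 {M : SS → SS → Type*} [∀ K L, AddCommMonoid (M K L)] [∀ K L, Module R (M K L)]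
    (f f' : ∀ K L : SS, N R K →ₗ[R] N R L →ₗ[R] M K L)
    (hnat : ∀ {K L K' L' : SS} (g : SS.Hom K K') (h : SS.Hom L L') (a : N R K) (b : N R L),
      f K L a b = f' K L a b →
        f K' L' (N.map R g a) (N.map R h b) = f' K' L' (N.map R g a) (N.map R h b))
    (h00 : ∀ {K L : SS} (A : Cone K) (B : Cone L),
      f K L (N.sx R A.bot) (N.sx R B.bot) = f' K L (N.sx R A.bot) (N.sx R B.bot))
    (h10 : ∀ {K L : SS} (A : Cone K) (B : Cone L) (a : N R K),
      f K L a (N.sx R B.bot) = f' K L a (N.sx R B.bot) →
      f K L (A.c R a) (N.sx R B.bot) = f' K L (A.c R a) (N.sx R B.bot))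
    (h01 : ∀ {K L : SS} (A : Cone K) (B : Cone L) (b : N R L),
      f K L (N.sx R A.bot) b = f' K L (N.sx R A.bot) b →
      f K L (N.sx R A.bot) (B.c R b) = f' K L (N.sx R A.bot) (B.c R b))
    (h11 : ∀ {K L : SS} (A : Cone K) (B : Cone L) (a : N R K) (b : N R L),
      f K L a (B.c R b) = f' K L a (B.c R b) → f K L (A.c R a) b = f' K L (A.c R a) b →
      f K L (sg R (A.c R a)) b = f' K L (sg R (A.c R a)) b →
        f K L (A.c R a) (B.c R b) = f' K L (A.c R a) (B.c R b)) :
    ∀ (K L : SS) (a : N R K) (b : N R L), f K L a b = f' K L a b := by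
  have toall : ∀ p q : ℕ, f (SS.std p) (SS.std q) (N.sx R (iota p)) (N.sx R (iota q)) =
        f' (SS.std p) (SS.std q) (N.sx R (iota p)) (N.sx R (iota q)) →
      ∀ (K L : SS) (x : K.S p) (y : L.S q), f K L (N.sx R x) (N.sx R y) =
        f' K L (N.sx R x) (N.sx R y) := by
    intro p q h K L x y
    rw [sx_eq_map_iota R x, sx_eq_map_iota R y]
    exact hnat _ _ _ _ h
  have key : ∀ n p q : ℕ, p + q = n →
      f (SS.std p) (SS.std q) (N.sx R (iota p)) (N.sx R (iota q)) =
        f' (SS.std p) (SS.std q) (N.sx R (iota p)) (N.sx R (iota q)) := by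
    intro n
    induction n with
    | zero =>
      intro p q hpq
      obtain rfl : p = 0 := by omega
      obtain rfl : q = 0 := by omega
      rw [iota_zero]; exact h00 _ _
    | succ n ih =>
      intro p q hpq
      rcases p with _ | p <;> rcases q with _ | q
      · omega
      · rw [iota_zero, iota_succ]
        refine h01 _ _ _ ?_
        have := hnat (SS.Hom.id _) (stdMap (Op.face 0)) _ _ (ih 0 q (by omega))
        rwa [map_idHom, iota_zero] at this
      · rw [iota_zero, iota_succ]
        refine h10 _ _ _ ?_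
        have := hnat (stdMap (Op.face 0)) (SS.Hom.id _) _ _ (ih p 0 (by omega))
        rwa [map_idHom, iota_zero] at this
      · have h1 : f (SS.std (p + 1)) (SS.std (q + 1)) (N.map R (stdMap (Op.face 0)) (N.sx R (iota p)))
            (N.sx R (iota (q + 1))) = f' (SS.std (p + 1)) (SS.std (q + 1))
              (N.map R (stdMap (Op.face 0)) (N.sx R (iota p))) (N.sx R (iota (q + 1))) := by
          rw [N.map_sx]
          exact toall _ _ (ih p (q + 1) (by omega)) _ _ _ _
        have h2 : f (SS.std (p + 1)) (SS.std (q + 1)) (N.sx R (iota (p + 1)))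
            (N.map R (stdMap (Op.face 0)) (N.sx R (iota q))) =
            f' (SS.std (p + 1)) (SS.std (q + 1)) (N.sx R (iota (p + 1)))
            (N.map R (stdMap (Op.face 0)) (N.sx R (iota q))) := by
          rw [N.map_sx]
          exact toall _ _ (ih (p + 1) q (by omega)) _ _ _ _
        have h3 : f (SS.std (p + 1)) (SS.std (q + 1)) (sg R (N.sx R (iota (p + 1))))
            (N.map R (stdMap (Op.face 0)) (N.sx R (iota q))) =
            f' (SS.std (p + 1)) (SS.std (q + 1)) (sg R (N.sx R (iota (p + 1))))
            (N.map R (stdMap (Op.face 0)) (N.sx R (iota q))) := by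
          rw [sg_sx, map_smul, map_smul, LinearMap.smul_apply, LinearMap.smul_apply, h2]
        rw [iota_succ] at h1 h2 h3 ⊢
        rw [iota_succ]
        exact h11 _ _ _ _ h1 h2 h3
  intro K L a b
  have : f K L = f' K L := by
    refine bilin_ext R fun p x q y => ?_
    exact toall p q (key _ p q rfl) _ _ _ _
  rw [this]

/-! ## degenerate operators, front and back faces -/

variable {R} in
theorem sx_act_eq_zero {K : SS} {m n : ℕ} (α : Op (m + 1) n) (j : Fin (m + 1))
    (h : α j.castSucc = α j.succ) (x : K.S n) : N.sx R (K.act α x) = 0 := by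
  have : α = (α.comp (Op.face j.succ)).comp (Op.dgn j) := by
    refine OrderHom.ext _ _ (funext fun a => ?_)
    simp only [OrderHom.comp_coe, Function.comp_apply]
    rcases lt_trichotomy (a : ℕ) ((j : ℕ) + 1) with ha | ha | ha
    · congr 1
      refine Fin.ext ?_
      rw [Ch.face_val, Ch.dgn_val, Fin.val_succ]
      split_ifs <;> omega
    · have e1 : a = j.succ := Fin.ext (by simpa using ha)
      have e2 : Op.face j.succ (Op.dgn j a) = j.castSucc := by
        refine Fin.ext ?_
        rw [Ch.face_val, Ch.dgn_val, Fin.val_succ, Fin.val_castSucc]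
        split_ifs <;> omega
      rw [e2, e1, h]
    · congr 1
      refine Fin.ext ?_
      rw [Ch.face_val, Ch.dgn_val, Fin.val_succ]
      split_ifs <;> omega
  rw [this, K.act_comp, N.sx_dgn]

/-- front face `[a] → [n]` (truncated at `n`) -/
def front (a n : ℕ) : Op a n :=
  ⟨fun i => ⟨min i n, by omega⟩, fun i j h => Fin.mk_le_mk.2 (min_le_min_right _ h)⟩

/-- back face `[b] → [n]` -/
def back (b n : ℕ) : Op b n :=
  ⟨fun i => ⟨min (i + (n - b)) n, by omega⟩, fun i j h =>
    Fin.mk_le_mk.2 (min_le_min_right _ (Nat.add_le_add_right h _))⟩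

theorem front_val {a n : ℕ} (i : Fin (a + 1)) : ((front a n i : Fin (n + 1)) : ℕ) = min (i : ℕ) n :=
  rfl
theorem back_val {b n : ℕ} (i : Fin (b + 1)) :
    ((back b n i : Fin (n + 1)) : ℕ) = min ((i : ℕ) + (n - b)) n := rfl

theorem front_self (n : ℕ) : front n n = OrderHom.id := by
  refine OrderHom.ext _ _ (funext fun a => Fin.ext ?_)
  rw [front_val]
  exact min_eq_left (by omega)

theorem back_self (n : ℕ) : back n n = OrderHom.id := by
  refine OrderHom.ext _ _ (funext fun a => Fin.ext ?_)
  rw [back_val]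
  simp only [OrderHom.id_coe, id]
  omega

theorem star_front (a n : ℕ) : Op.star (front a n) = front (a + 1) (n + 1) := by
  refine OrderHom.ext _ _ (funext fun i => Fin.ext ?_)
  induction i using Fin.cases with
  | zero => simp [front_val]
  | succ i => rw [Op.star_succ, Fin.val_succ, front_val, front_val, Fin.val_succ]; omega

theorem face_comp_back (b n : ℕ) (h : b ≤ n) : (Op.face 0).comp (back b n) = back b (n + 1) := by
  refine OrderHom.ext _ _ (funext fun i => Fin.ext ?_)
  rw [OrderHom.comp_coe, Function.comp_apply, face_zero_apply, Fin.val_succ, back_val, back_val]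
  omega

/-- Alexander-Whitney coproduct -/
noncomputable def cop {K : SS} : N R K →ₗ[R] N R K ⊗[R] N R K :=
  liftN (fun n x => ∑ a ∈ Finset.range (n + 1),
    N.sx R (K.act (front a n) x) ⊗ₜ[R] N.sx R (K.act (back (n - a) n) x)) (by
    intro n j y
    refine Finset.sum_eq_zero fun a ha => ?_
    rw [Finset.mem_range] at ha
    rw [← K.act_comp, ← K.act_comp]
    by_cases h : (j : ℕ) < a
    · obtain ⟨b, rfl⟩ : ∃ b, a = b + 1 := ⟨a - 1, by omega⟩
      rw [sx_act_eq_zero _ ⟨j, by omega⟩, TensorProduct.zero_tmul]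
      refine Fin.ext ?_
      simp only [OrderHom.comp_coe, Function.comp_apply, Ch.dgn_val, front_val, Fin.val_castSucc,
        Fin.val_succ]
      split_ifs <;> omega
    · obtain ⟨b, hb⟩ : ∃ b, n + 1 - a = b + 1 := ⟨n - a, by omega⟩
      rw [hb, sx_act_eq_zero ((Op.dgn j).comp (back (b + 1) (n + 1))) ⟨j - a, by omega⟩,
        TensorProduct.tmul_zero]
      refine Fin.ext ?_
      simp only [OrderHom.comp_coe, Function.comp_apply, Ch.dgn_val, back_val, Fin.val_castSucc,
        Fin.val_succ]
      split_ifs <;> omega)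

theorem cop_sx {K : SS} {n : ℕ} (x : K.S n) : cop R (N.sx R x) = ∑ a ∈ Finset.range (n + 1),
    N.sx R (K.act (front a n) x) ⊗ₜ[R] N.sx R (K.act (back (n - a) n) x) := by
  simp [cop]

theorem cop_map {K L : SS} (f : SS.Hom K L) (z : N R K) :
    cop R (N.map R f z) = TensorProduct.map (N.map R f) (N.map R f) (cop R z) := by
  have : cop R ∘ₗ N.map R f = TensorProduct.map (N.map R f) (N.map R f) ∘ₗ cop R := by
    refine hom_ext fun n x => ?_
    simp only [LinearMap.comp_apply, N.map_sx, cop_sx, map_sum, TensorProduct.map_tmul, f.nat]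
  exact LinearMap.congr_fun this z

theorem cop_bot {K : SS} (A : Cone K) :
    cop R (N.sx R A.bot) = N.sx R A.bot ⊗ₜ[R] N.sx R A.bot := by
  rw [cop_sx]
  simp only [zero_add, Finset.range_one, Finset.sum_singleton, Nat.sub_zero, front_self, back_self,
    K.act_id]

/-- vertices are group-like -/
theorem cop_vertex {K : SS} (v : K.S 0) : cop R (N.sx R v) = N.sx R v ⊗ₜ[R] N.sx R v := by
  rw [cop_sx]
  simp only [zero_add, Finset.range_one, Finset.sum_singleton, Nat.sub_zero, front_self, back_self,
    K.act_id]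

theorem cop_c {K : SS} (A : Cone K) (z : N R K) :
    cop R (A.c R z) = N.sx R A.bot ⊗ₜ[R] A.c R z + TensorProduct.map (A.c R) LinearMap.id (cop R z) := by
  have : cop R ∘ₗ A.c R = (TensorProduct.mk R _ _ (N.sx R A.bot)) ∘ₗ A.c R +
      TensorProduct.map (A.c R) LinearMap.id ∘ₗ cop R := by
    refine hom_ext fun n x => ?_
    simp only [LinearMap.comp_apply, LinearMap.add_apply, Cone.c_sx, TensorProduct.mk_apply]
    rw [cop_sx, cop_sx, Finset.sum_range_succ', add_comm, map_sum]
    congr 1
    · rw [Nat.sub_zero, back_self, K.act_id, A.h_vert _ _ rfl]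
    · refine Finset.sum_congr rfl fun a ha => ?_
      rw [Nat.add_sub_add_right, TensorProduct.map_tmul, Cone.c_sx, A.h_star, star_front,
        ← face_comp_back _ _ (Nat.sub_le _ _), K.act_comp _ (Op.face 0), A.h_face]
      rfl
  exact LinearMap.congr_fun this z

theorem aug_cop_left {K : SS} (z : N R K) :
    TensorProduct.lid R _ (TensorProduct.map (aug R) LinearMap.id (cop R z)) = z := by
  have : (TensorProduct.lid R _).toLinearMap ∘ₗ TensorProduct.map (aug R) LinearMap.id ∘ₗ
      cop R (K := K) = LinearMap.id := by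
    refine hom_ext fun n x => ?_
    simp only [LinearMap.comp_apply, LinearEquiv.coe_coe, LinearMap.id_apply]
    rw [cop_sx, map_sum, map_sum, Finset.sum_range_succ']
    simp [back_self, K.act_id]
  exact LinearMap.congr_fun this z

theorem aug_cop_right {K : SS} (z : N R K) :
    TensorProduct.rid R _ (TensorProduct.map LinearMap.id (aug R) (cop R z)) = z := by
  have : (TensorProduct.rid R _).toLinearMap ∘ₗ TensorProduct.map LinearMap.id (aug R) ∘ₗ
      cop R (K := K) = LinearMap.id := by
    refine hom_ext fun n x => ?_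
    simp only [LinearMap.comp_apply, LinearEquiv.coe_coe, LinearMap.id_apply]
    rw [cop_sx, map_sum, map_sum, Finset.sum_range_succ, Finset.sum_eq_zero, zero_add]
    · have e : aug R (N.sx R (K.act (back (n - n) n) x)) = 1 := by
        rw [Nat.sub_self]; exact aug_sx_zero R _
      simp [front_self, K.act_id, e]
    · intro a ha
      rw [Finset.mem_range] at ha
      obtain ⟨b, hb⟩ : ∃ b, n - a = b + 1 := ⟨n - a - 1, by omega⟩
      rw [hb]
      simp
  exact LinearMap.congr_fun this z

/-- tensor product differential -/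
noncomputable def tbd (K L : SS) : N R K ⊗[R] N R L →ₗ[R] N R K ⊗[R] N R L :=
  TensorProduct.map (N.bd R K) LinearMap.id + TensorProduct.map (sg R) (N.bd R L)

theorem tbd_tmul {K L : SS} (a : N R K) (b : N R L) :
    tbd R K L (a ⊗ₜ b) = (N.bd R K a) ⊗ₜ b + (sg R a) ⊗ₜ (N.bd R L b) := by
  simp [tbd]

theorem tbd_map {K L K' L' : SS} (f : SS.Hom K K') (g : SS.Hom L L') (t : N R K ⊗[R] N R L) :
    tbd R K' L' (TensorProduct.map (N.map R f) (N.map R g) t) =
      TensorProduct.map (N.map R f) (N.map R g) (tbd R K L t) := by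
  induction t using TensorProduct.induction_on with
  | zero => simp
  | add x y hx hy => simp only [map_add, hx, hy]
  | tmul a b =>
    rw [TensorProduct.map_tmul, tbd_tmul, tbd_tmul, map_add, TensorProduct.map_tmul,
      TensorProduct.map_tmul, map_bd', map_bd', map_sg]

theorem tbd_c {K L : SS} (A : Cone K) (t : N R K ⊗[R] N R L) :
    tbd R K L (TensorProduct.map (A.c R) LinearMap.id t) =
      t - TensorProduct.map (A.c R) LinearMap.id (tbd R K L t) -
        N.sx R A.bot ⊗ₜ[R] (TensorProduct.lid R _ (TensorProduct.map (aug R) LinearMap.id t)) := by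
  induction t using TensorProduct.induction_on with
  | zero => simp
  | add x y hx hy =>
    simp only [map_add, hx, hy, TensorProduct.tmul_add]
    abel
  | tmul a b =>
    simp only [TensorProduct.map_tmul, tbd_tmul, map_add, LinearMap.id_apply, Cone.bd_c,
      TensorProduct.lid_tmul, TensorProduct.sub_tmul, Cone.c_sg, TensorProduct.neg_tmul,
      TensorProduct.smul_tmul, TensorProduct.tmul_smul]
    abel

theorem bd_cop {K : SS} (z : N R K) : tbd R K K (cop R z) = cop R (N.bd R K z) := by
  refine ind1 R (M := fun K => N R K ⊗[R] N R K) (fun K => tbd R K K ∘ₗ cop R)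
    (fun K => cop R ∘ₗ N.bd R K) ?_ ?_ ?_ K z
  · intro K L g z hz
    simp only [LinearMap.comp_apply] at hz ⊢
    rw [cop_map, tbd_map, hz, ← cop_map, map_bd']
  · intro K A
    simp only [LinearMap.comp_apply]
    rw [cop_bot, tbd_tmul, bd_sx_zero]
    simp
  · intro K A z hz
    simp only [LinearMap.comp_apply] at hz ⊢
    rw [Cone.bd_c, map_sub, map_sub, map_smul, cop_bot, cop_c, cop_c, map_add, tbd_c, hz,
      aug_cop_left, tbd_tmul, bd_sx_zero, Cone.bd_c]
    simp only [TensorProduct.zero_tmul, sg_sx, pow_zero, one_smul, TensorProduct.tmul_sub,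
      TensorProduct.tmul_smul, zero_add]
    abel


/-! ## projections and units of the cross product -/

variable {R} in
theorem map_fst_c {K L : SS} (A : Cone K) (B : Cone L) (z : N R (K.prod L)) :
    N.map R (SS.fst K L) ((A.prod B).c R z) = A.c R (N.map R (SS.fst K L) z) :=
  IsConeMap.c (A := A.prod B) (B := A) ⟨fun _ => rfl⟩ R z

variable {R} in
theorem map_snd_c {K L : SS} (A : Cone K) (B : Cone L) (z : N R (K.prod L)) :
    N.map R (SS.snd K L) ((A.prod B).c R z) = B.c R (N.map R (SS.snd K L) z) :=
  IsConeMap.c (A := A.prod B) (B := B) ⟨fun _ => rfl⟩ R z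

theorem fst_cross {K L : SS} (a : N R K) (b : N R L) :
    N.map R (SS.fst K L) (cross R a b) = aug R b • a := by
  refine ind2 R (M := fun K _ => N R K) (fun K L =>
    (cross R (K := K) (L := L)).compr₂ (N.map R (SS.fst K L)))
    (fun K L => (((LinearMap.lsmul R (N R K)).comp (aug R (K := L))).flip)) ?_ ?_ ?_ ?_ ?_ K L a b
  · intro K L K' L' g h a b hab
    simp only [LinearMap.compr₂_apply, LinearMap.flip_apply,
      LinearMap.comp_apply, LinearMap.lsmul_apply] at hab ⊢
    rw [← map_cross, map_map, aug_map, ← map_smul, ← hab, map_map]; rfl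
  · intro K L A B
    simp only [LinearMap.compr₂_apply, LinearMap.flip_apply,
      LinearMap.comp_apply, LinearMap.lsmul_apply]
    rw [cross_bot, N.map_sx, aug_sx_zero, one_smul]; rfl
  · intro K L A B a h
    simp only [LinearMap.compr₂_apply, LinearMap.flip_apply,
      LinearMap.comp_apply, LinearMap.lsmul_apply] at h ⊢
    rw [cross_c_bot, map_fst_c, h, map_smul]
  · intro K L A B b h
    simp only [LinearMap.compr₂_apply, LinearMap.flip_apply,
      LinearMap.comp_apply, LinearMap.lsmul_apply] at h ⊢
    rw [cross_bot_c, map_fst_c, h, map_smul, Cone.c_bot, Cone.aug_c, smul_zero, zero_smul]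
  · intro K L A B a b h1 _ h2
    simp only [LinearMap.compr₂_apply, LinearMap.flip_apply,
      LinearMap.comp_apply, LinearMap.lsmul_apply] at h1 h2 ⊢
    rw [cross_c_c, map_fst_c, map_add, h1, h2, Cone.aug_c, zero_smul, zero_add, map_smul,
      Cone.sg_c, map_neg, Cone.c_c, neg_zero, smul_zero, zero_smul]

theorem snd_cross {K L : SS} (a : N R K) (b : N R L) :
    N.map R (SS.snd K L) (cross R a b) = aug R a • b := by
  refine ind2 R (M := fun _ L => N R L) (fun K L =>
    (cross R (K := K) (L := L)).compr₂ (N.map R (SS.snd K L)))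
    (fun K L => (((LinearMap.lsmul R (N R L)).comp (aug R (K := K))))) ?_ ?_ ?_ ?_ ?_ K L a b
  · intro K L K' L' g h a b hab
    simp only [LinearMap.compr₂_apply,
      LinearMap.comp_apply, LinearMap.lsmul_apply] at hab ⊢
    rw [← map_cross, map_map, aug_map, ← map_smul, ← hab, map_map]; rfl
  · intro K L A B
    simp only [LinearMap.compr₂_apply,
      LinearMap.comp_apply, LinearMap.lsmul_apply]
    rw [cross_bot, N.map_sx, aug_sx_zero, one_smul]; rfl
  · intro K L A B a h
    simp only [LinearMap.compr₂_apply,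
      LinearMap.comp_apply, LinearMap.lsmul_apply] at h ⊢
    rw [cross_c_bot, map_snd_c, h, map_smul, Cone.c_bot, Cone.aug_c, smul_zero, zero_smul]
  · intro K L A B b h
    simp only [LinearMap.compr₂_apply,
      LinearMap.comp_apply, LinearMap.lsmul_apply] at h ⊢
    rw [cross_bot_c, map_snd_c, h, map_smul]
  · intro K L A B a b h1 _ h2
    simp only [LinearMap.compr₂_apply,
      LinearMap.comp_apply, LinearMap.lsmul_apply] at h1 h2 ⊢
    rw [cross_c_c, map_snd_c, map_add, h1, h2, map_add, map_smul, map_smul, Cone.c_c, Cone.sg_c,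
      map_neg, Cone.aug_c]
    simp

/-- Alexander-Whitney map -/
noncomputable def aw {K L : SS} : N R (K.prod L) →ₗ[R] N R K ⊗[R] N R L :=
  TensorProduct.map (N.map R (SS.fst K L)) (N.map R (SS.snd K L)) ∘ₗ cop R

theorem aw_sx {K L : SS} {n : ℕ} (x : K.S n) (y : L.S n) :
    aw R (N.sx R (K := K.prod L) (x, y)) = ∑ a ∈ Finset.range (n + 1),
      N.sx R (K.act (front a n) x) ⊗ₜ[R] N.sx R (L.act (back (n - a) n) y) := by
  rw [aw, LinearMap.comp_apply, cop_sx, map_sum]
  refine Finset.sum_congr rfl fun a _ => ?_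
  rw [TensorProduct.map_tmul, N.map_sx, N.map_sx]
  rfl

theorem aw_map {K L K' L' : SS} (f : SS.Hom K K') (g : SS.Hom L L') (z : N R (K.prod L)) :
    aw R (N.map R (SS.prodMap f g) z) = TensorProduct.map (N.map R f) (N.map R g) (aw R z) := by
  simp only [aw, LinearMap.comp_apply, cop_map]
  generalize cop R z = t
  induction t using TensorProduct.induction_on with
  | zero => simp
  | add x y hx hy => simp only [map_add, hx, hy]
  | tmul a b =>
    simp only [TensorProduct.map_tmul, map_map]
    rfl

theorem bd_aw {K L : SS} (z : N R (K.prod L)) :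
    tbd R K L (aw R z) = aw R (N.bd R _ z) := by
  rw [aw, LinearMap.comp_apply, LinearMap.comp_apply, ← bd_cop, tbd_map]

theorem aw_bot {K L : SS} (A : Cone K) (B : Cone L) :
    aw R (N.sx R (A.prod B).bot) = N.sx R A.bot ⊗ₜ[R] N.sx R B.bot := by
  rw [aw, LinearMap.comp_apply, cop_bot, TensorProduct.map_tmul, N.map_sx, N.map_sx]
  rfl

theorem aw_c {K L : SS} (A : Cone K) (B : Cone L) (z : N R (K.prod L)) :
    aw R ((A.prod B).c R z) = N.sx R A.bot ⊗ₜ[R] B.c R (N.map R (SS.snd K L) z) +
      TensorProduct.map (A.c R) LinearMap.id (aw R z) := by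
  rw [aw, LinearMap.comp_apply, LinearMap.comp_apply, cop_c, map_add, TensorProduct.map_tmul,
    map_snd_c, N.map_sx]
  congr 1
  generalize cop R z = t
  induction t using TensorProduct.induction_on with
  | zero => simp
  | add x y hx hy => simp only [map_add, hx, hy]
  | tmul a b =>
    simp only [TensorProduct.map_tmul, LinearMap.id_apply, map_fst_c]

/-- `AW ∘ ∇ = id` -/
theorem aw_cross {K L : SS} (a : N R K) (b : N R L) : aw R (cross R a b) = a ⊗ₜ[R] b := by
  refine ind2 R (M := fun K L => N R K ⊗[R] N R L) (fun K L =>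
    (cross R (K := K) (L := L)).compr₂ (aw R)) (fun K L => TensorProduct.mk R _ _)
    ?_ ?_ ?_ ?_ ?_ K L a b
  · intro K L K' L' g h a b hab
    simp only [LinearMap.compr₂_apply,
      TensorProduct.mk_apply] at hab ⊢
    rw [← map_cross, aw_map, hab, TensorProduct.map_tmul]
  · intro K L A B
    simp only [LinearMap.compr₂_apply, TensorProduct.mk_apply]
    rw [cross_bot, aw_bot]
  · intro K L A B a h
    simp only [LinearMap.compr₂_apply,
      TensorProduct.mk_apply] at h ⊢
    rw [cross_c_bot, aw_c, h, snd_cross, map_smul, Cone.c_bot, smul_zero, TensorProduct.tmul_zero,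
      zero_add, TensorProduct.map_tmul, LinearMap.id_apply]
  · intro K L A B b h
    simp only [LinearMap.compr₂_apply,
      TensorProduct.mk_apply] at h ⊢
    rw [cross_bot_c, aw_c, h, snd_cross, aug_sx_zero, one_smul, TensorProduct.map_tmul, Cone.c_bot,
      TensorProduct.zero_tmul, add_zero]
  · intro K L A B a b h1 _ h2
    simp only [LinearMap.compr₂_apply,
      TensorProduct.mk_apply] at h1 h2 ⊢
    rw [cross_c_c, aw_c, map_add, map_add, map_add, h1, h2, snd_cross, snd_cross, map_smul, map_smul,
      Cone.c_c, Cone.sg_c, map_neg, Cone.aug_c]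
    simp [Cone.c_c]

end

end Crest.Agent.R204.EZ271
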