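import Crest.Agent.R204.EZHtp_271
import Crest.Agent.R204.EZSym_847
import Crest.Agent.R204.CoalgGr_847
import Crest.Agent.R204.Gr_334

/-!
# Row 204, A4 (helper847): the instance of `EZData`, Kuenneth isomorphism and coalgebra structure of
`H F2 K`, unconditionally, and their chain level descriptions.

* `ezd : EZData`
* `crH K L : H F2 K ⊗ H F2 L ≃ₗ H F2 (K.prod L)`, `crH_mk`
* `copH K : H F2 K →ₗ H F2 K ⊗ H F2 K`, `cr_copH`
* `kun_copH` : `kun (copH [z]) = [cop z]`, `copH_of_cop`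
-/

set_option autoImplicit false

namespace Crest.Agent.R204.EZ847

open TensorProduct Coalg847 EZ271

variable {K L J K' L' : SS}

theorem tbd_F2 : tbd F2 K L = tD (N.bd F2 K) (N.bd F2 L) := by
  refine TensorProduct.ext' fun a b => ?_
  rw [tbd_tmul, tD_tmul, sg_F2]

theorem crossT_bd' (t : N F2 K ⊗[F2] N F2 L) :
    crossT F2 (tD (N.bd F2 K) (N.bd F2 L) t) = N.bd F2 (K.prod L) (crossT F2 t) := by
  rw [bd_crossT, tbd_F2]

theorem crossT_bd : crossT F2 ∘ₗ tD (N.bd F2 K) (N.bd F2 L) =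
    N.bd F2 (K.prod L) ∘ₗ crossT F2 := LinearMap.ext crossT_bd'

theorem aw_bd (z : N F2 (K.prod L)) :
    aw F2 (N.bd F2 (K.prod L) z) = tD (N.bd F2 K) (N.bd F2 L) (aw F2 z) := by
  rw [← bd_aw, tbd_F2]

/-- **the Eilenberg-Zilber data** -/
noncomputable def ezd : EZData where
  ez K L := cross F2
  bd K L x y := by rw [bd_cross, sg_F2]
  nat f g x y := map_cross F2 f g x y
  assoc K L J x y z := cross_assoc F2 x y z
  swap K L x y := cross_swap_F2 x y
  unit K x := cross_unit x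
  gr K L m n x y hx hy := cross_mem_gr F2 hx hy
  bij K L := by
    constructor
    · rw [injective_iff_map_eq_zero]
      intro t ht
      obtain ⟨t, h, rfl⟩ := Hd.mk_surj _ t
      rw [Hd.map_mk, Hd.mk_eq_zero] at ht
      obtain ⟨w, hw⟩ := ht
      rw [Hd.mk_eq_zero]
      refine ⟨aw F2 w, ?_⟩
      rw [← aw_bd, hw]
      exact aw_crossT F2 t
    · intro z
      obtain ⟨z, h, rfl⟩ := Hd.mk_surj _ z
      refine ⟨Hd.mk _ (aw F2 z) (by rw [← aw_bd, h, map_zero]), ?_⟩
      rw [Hd.map_mk, Hd.mk_eq_mk]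
      refine ⟨hEZ F2 z, ?_⟩
      have := hEZ_homotopy F2 z
      rw [h, map_zero, add_zero] at this
      exact this

@[simp] theorem ezd_ez (x : N F2 K) (y : N F2 L) : ezd.ez K L x y = cross F2 x y := rfl

/-- **Kuenneth isomorphism** -/
noncomputable def crH (K L : SS) : (H F2 K ⊗[F2] H F2 L) ≃ₗ[F2] H F2 (K.prod L) := ezd.cr K L

theorem cross_cyc {z : N F2 K} (hz : N.bd F2 K z = 0) {z' : N F2 L} (hz' : N.bd F2 L z' = 0) :
    N.bd F2 (K.prod L) (cross F2 z z') = 0 := ezd.ez_cyc hz hz'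

theorem crH_mk (z : N F2 K) (hz : N.bd F2 K z = 0) (z' : N F2 L) (hz' : N.bd F2 L z' = 0) :
    crH K L (Hd.mk _ z hz ⊗ₜ Hd.mk _ z' hz') = Hd.mk _ (cross F2 z z') (cross_cyc hz hz') :=
  ezd.cr_mk z hz z' hz'

/-- the chain level Kuenneth map is the Eilenberg-Zilber map after the algebraic Kuenneth map -/
theorem crH_eq (t : H F2 K ⊗[F2] H F2 L) :
    crH K L t = Hd.map (crossT F2) crossT_bd
      (kun (N.bd F2 K) (N.bd F2 L) N.bd_bd N.bd_bd t) := rfl

/-- **coproduct** -/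
noncomputable def copH (K : SS) : H F2 K →ₗ[F2] H F2 K ⊗[F2] H F2 K := ezd.cop K

theorem crH_copH (x : H F2 K) : crH K K (copH K x) = H.map F2 (SS.diag K) x := ezd.cr_cop x


theorem cop_cyc {z : N F2 K} (hz : N.bd F2 K z = 0) :
    tD (N.bd F2 K) (N.bd F2 K) (EZ271.cop F2 z) = 0 := by
  rw [← tbd_F2, bd_cop, hz, map_zero]

theorem aw_diag (z : N F2 K) : aw F2 (N.map F2 (SS.diag K) z) = EZ271.cop F2 z := by
  rw [aw, LinearMap.comp_apply, cop_map]
  generalize EZ271.cop F2 z = t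
  induction t using TensorProduct.induction_on with
  | zero => simp
  | add x y hx hy => simp only [map_add, hx, hy]
  | tmul a b =>
    rw [TensorProduct.map_tmul, TensorProduct.map_tmul, ← nMap_comp, ← nMap_comp]
    congr 1
    · exact nMap_id a
    · exact nMap_id b

/-- **chain level description of the coproduct** by the Alexander-Whitney coproduct of 271 -/
theorem kun_copH (z : N F2 K) (hz : N.bd F2 K z = 0) :
    kun (N.bd F2 K) (N.bd F2 K) N.bd_bd N.bd_bd (copH K (Hd.mk _ z hz)) =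
      Hd.mk _ (EZ271.cop F2 z) (cop_cyc hz) := by
  have hb : Function.Injective (Hd.map (crossT F2) (crossT_bd (K := K) (L := K))) :=
    (ezd.bij K K).1
  apply hb
  have h1 : Hd.map (crossT F2) crossT_bd
      (kun (N.bd F2 K) (N.bd F2 K) N.bd_bd N.bd_bd (copH K (Hd.mk _ z hz))) =
      H.map F2 (SS.diag K) (Hd.mk _ z hz) := crH_copH _
  rw [h1, hMap_mk, Hd.map_mk, Hd.mk_eq_mk]
  refine ⟨hEZ F2 (N.map F2 (SS.diag K) z), ?_⟩
  have := hEZ_homotopy F2 (N.map F2 (SS.diag K) z)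
  have h3 : N.bd F2 _ (N.map F2 (SS.diag K) z) = 0 := by
    rw [← map_bd', hz, map_zero]
  rw [h3, map_zero, add_zero, aw_diag] at this
  rw [this]
  have h2 : ∀ a b : N F2 (K.prod K), a - b = b - a := fun a b => by
    rw [sub_F2, sub_F2, add_comm]
  exact h2 _ _

end Crest.Agent.R204.EZ847
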