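import Mathlib
import Crest.Agent.R204.FA_550
import Crest.Agent.R204.SpecF_166

-- ▼ part R204/FA2_550
section

/-!
# Row 204, block F-A, part 2: facts on `D (r+1)` in the Spine_693 types (helper550)
-/

set_option autoImplicit false

noncomputable section

namespace Crest.Agent.R204.FA550

open MvPolynomial Crest.Agent.R204.Spine693 Crest.Agent.R204.F166

lemma mem_M_iff {r k : ℕ} {g : D (r + 1)} : g ∈ M r k ↔ (X 0 : D (r + 1)) ^ k ∣ g := by
  have h1 : (X 0 : D (r + 1)) ^ k = monomial (Finsupp.single 0 k) 1 := by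
    rw [X_pow_eq_monomial]
  rw [h1, monomial_one_dvd_iff_modMonomial_eq_zero]
  constructor
  · intro h
    ext s
    rw [coeff_zero]
    by_cases hs : Finsupp.single 0 k ≤ s
    · exact coeff_modMonomial_of_le _ hs
    · rw [coeff_modMonomial_of_not_le _ hs]
      by_contra h2
      exact hs (Finsupp.single_le_iff.2 (h s h2))
  · intro h s hs
    by_contra h2
    have h3 : ¬ Finsupp.single 0 k ≤ s := fun h4 => h2 (Finsupp.single_le_iff.1 h4)
    have h4 := coeff_modMonomial_of_not_le g h3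
    rw [h, coeff_zero] at h4
    exact hs h4.symm

lemma Q_zero_eq (r : ℕ) : Q (r + 1) 0 = X 0 := by
  rw [Q_lt (by omega)]; rfl




lemma mul_mem_M' {r k : ℕ} {f : D (r + 1)} (g : D (r + 1)) (hf : f ∈ M r k) : f * g ∈ M r k := by
  rw [mem_M_iff] at *
  exact hf.mul_right _





/-! ### `Sq^0 = id` and the Milnor operators -/

lemma two_pow_lt {a b : ℕ} (h : a < b) : (2:ℕ) ^ a < 2 ^ b := Nat.pow_lt_pow_right (by norm_num) h
lemma two_pow_le {a b : ℕ} (h : a ≤ b) : (2:ℕ) ^ a ≤ 2 ^ b := Nat.pow_le_pow_right (by norm_num) h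

lemma coeff_sum_XC {R : ℕ} (s : Finset ℕ) (e : ℕ → ℕ) (q : ℕ → D R) (n : ℕ) :
    (∑ b ∈ s, Polynomial.X ^ (e b) * Polynomial.C (q b) : Polynomial (D R)).coeff n =
      ∑ b ∈ s, if n = e b then q b else 0 := by
  rw [Polynomial.finsetSum_coeff]
  refine Finset.sum_congr rfl fun b _ => ?_
  rw [Polynomial.coeff_mul_C, Polynomial.coeff_X_pow]
  split_ifs <;> simp

/-- first factor -/
def fA (R j : ℕ) : Polynomial (D R) :=
  ∑ b ∈ Finset.range (j + 1), Polynomial.X ^ (2 ^ j - 2 ^ b) * Polynomial.C (Q R b)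
/-- second factor -/
def fB (R j : ℕ) : Polynomial (D R) :=
  ∑ a ∈ Finset.Ioc j R, Polynomial.X ^ (2 ^ R - 2 ^ a) * Polynomial.C (Q R a)

lemma SQgen_eq (R j : ℕ) : SQgen R j =
    Polynomial.X ^ (2 ^ R - 2 ^ j) * Polynomial.C (Q R j ^ 2) + fA R j * fB R j := by
  rw [SQgen, map_pow]; rfl

lemma fA_coeff (R j n : ℕ) : (fA R j).coeff n =
    ∑ b ∈ Finset.range (j + 1), if n = 2 ^ j - 2 ^ b then Q R b else 0 := coeff_sum_XC _ _ _ _

lemma fB_coeff (R j n : ℕ) : (fB R j).coeff n =
    ∑ a ∈ Finset.Ioc j R, if n = 2 ^ R - 2 ^ a then Q R a else 0 := coeff_sum_XC _ _ _ _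

lemma fA_zero (R j : ℕ) : (fA R j).coeff 0 = Q R j := by
  rw [fA_coeff, Finset.sum_eq_single j]
  · simp
  · intro b hb hbj
    have h1 := Finset.mem_range.1 hb
    have := two_pow_lt (show b < j by omega)
    rw [if_neg (by omega)]
  · intro h; simp at h

lemma fB_zero {R j : ℕ} (h : j < R) : (fB R j).coeff 0 = 1 := by
  rw [fB_coeff, Finset.sum_eq_single R]
  · simp
  · intro b hb hbj
    have h1 := Finset.mem_Ioc.1 hb
    have := two_pow_lt (show b < R by omega)
    rw [if_neg (by omega)]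
  · intro h'; simp at h'; omega

lemma SQgen_coeff_zero {R j : ℕ} (h : j < R) : (SQgen R j).coeff 0 = Q R j := by
  have := two_pow_lt h
  rw [SQgen_eq, Polynomial.coeff_add, Polynomial.coeff_mul_C, Polynomial.coeff_X_pow,
    if_neg (by omega), zero_mul, zero_add, Polynomial.mul_coeff_zero, fA_zero, fB_zero h, mul_one]

lemma Sq_zero_apply (R : ℕ) (g : D R) : Sq R 0 g = g := by
  have h : ((Polynomial.aeval (0 : D R)).restrictScalars (ZMod 2)).comp (SQ R) = AlgHom.id (ZMod 2) (D R) := by
    apply MvPolynomial.algHom_ext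
    intro i
    rw [AlgHom.comp_apply, ← Q_coe i, SQ_Q i.2, AlgHom.restrictScalars_apply,
      Polynomial.coe_aeval_eq_eval, ← Polynomial.coeff_zero_eq_eval_zero, SQgen_coeff_zero i.2]
    rfl
  have h1 := congrArg (fun f => f g) h
  simpa [Polynomial.coe_aeval_eq_eval, ← Polynomial.coeff_zero_eq_eval_zero, Sq_apply] using h1

lemma Sq_one_mul (R : ℕ) (x y : D R) : Sq R 1 (x * y) = x * Sq R 1 y + y * Sq R 1 x := by
  have h0 := Sq_zero_apply R
  rw [Sq_apply, map_mul, Polynomial.mul_coeff_one]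
  rw [show (SQ R x).coeff 0 = x from h0 x, show (SQ R y).coeff 0 = y from h0 y, Sq_apply, Sq_apply]
  ring

lemma SQgen_coeff_one {R j : ℕ} (h : j < R) : (SQgen R j).coeff 1 = del R 1 (Q R j) := by
  have h1 := two_pow_lt h
  have hR : 1 ≤ R := by omega
  have hA : (fA R j).coeff 1 = if j = 1 then Q R 0 else 0 := by
    rw [fA_coeff]
    split_ifs with hj
    · subst hj
      rw [Finset.sum_range_succ, Finset.sum_range_one]; simp
    · refine Finset.sum_eq_zero fun b hb => ?_
      have hb1 := Finset.mem_range.1 hb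
      rw [if_neg]
      intro h2
      have hb2 := two_pow_le (show b ≤ j by omega)
      rcases Nat.eq_zero_or_pos j with rfl | hj0
      · have : b = 0 := by omega
        subst this; simp at h2
      · have h3 : 2 ^ 1 ∣ 2 ^ j := pow_dvd_pow 2 (by omega)
        rcases Nat.eq_zero_or_pos b with rfl | hb0
        · have h4 := two_pow_le (show 2 ≤ j by omega)
          simp at h2; omega
        · have h5 : 2 ^ 1 ∣ 2 ^ b := pow_dvd_pow 2 (by omega)
          omega
  have hB : (fB R j).coeff 1 = 0 := by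
    rw [fB_coeff]
    refine Finset.sum_eq_zero fun b hb => ?_
    have hb1 := Finset.mem_Ioc.1 hb
    rw [if_neg]
    intro h2
    have h3 : 2 ^ 1 ∣ 2 ^ R := pow_dvd_pow 2 (by omega)
    have h5 : 2 ^ 1 ∣ 2 ^ b := pow_dvd_pow 2 (by omega)
    omega
  rw [SQgen_eq, Polynomial.coeff_add, Polynomial.coeff_mul_C, Polynomial.coeff_X_pow,
    Polynomial.mul_coeff_one, fA_zero, fB_zero h, hA, hB, mul_zero, zero_add, mul_one]
  rcases Nat.lt_or_ge 1 R with h2 | h2
  · have h3 : ¬ (1 = 2 ^ R - 2 ^ j) := by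
      intro h4
      have h6 := two_pow_le (show j ≤ R - 1 by omega)
      have h7 : 2 ^ R = 2 * 2 ^ (R - 1) := by rw [← pow_succ']; congr 1; omega
      have h8 := two_pow_le (show 1 ≤ R - 1 by omega)
      omega
    rw [if_neg h3, zero_mul, zero_add, del0_Q h2 h.le]
  · obtain rfl : R = 1 := by omega
    obtain rfl : j = 0 := by omega
    rw [delr_Q h]; simp [sq]

lemma Sq_one_eq {R : ℕ} (x : D R) : Sq R 1 x = del R 1 x := by
  induction x using MvPolynomial.induction_on with
  | C a =>
    have h1 : (C a : D R) = algebraMap (ZMod 2) (D R) a := rfl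
    rw [h1, Derivation.map_algebraMap, Sq_apply, AlgHom.commutes]
    exact Polynomial.coeff_C_succ
  | add p q hp hq => rw [map_add, map_add, hp, hq]
  | mul_X p i hp =>
    rw [Sq_one_mul, Derivation.leibniz, hp, ← Q_coe i, Sq_apply R 1 (Q R i), SQ_Q i.2,
      SQgen_coeff_one i.2]; rfl

theorem mil_eq (r : ℕ) : ∀ j, 1 ≤ j → j ≤ r + 2 → ∀ x, mil (Sq (r + 1)) j x = del (r + 1) j x := by
  intro j
  induction j with
  | zero => intro h; omega
  | succ j ih =>
    intro _ hj x
    rcases Nat.eq_zero_or_pos j with rfl | hj0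
    · exact Sq_one_eq x
    · obtain ⟨i, rfl⟩ : ∃ i, j = i + 1 := ⟨j - 1, by omega⟩
      change Sq (r + 1) (2 ^ (i + 1)) (mil (Sq (r + 1)) (i + 1) x)
        + mil (Sq (r + 1)) (i + 1) (Sq (r + 1) (2 ^ (i + 1)) x) = _
      rw [ih (by omega) (by omega), ih (by omega) (by omega),
        Sq_del (by omega) (by omega), if_pos le_rfl, Nat.sub_self, Sq_zero_apply]
      have := two_eq_zero (r + 1) (del (r + 1) (i + 1) (Sq (r + 1) (2 ^ (i + 1)) x))
      linear_combination this

end Crest.Agent.R204.FA550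
end
end

-- ▼ part R204/FA3_550

/-!
# Row 204, block F-A, part 3: degrees, instability, the composite `P = P_1 ⋯ P_R` (helper550)
-/

set_option autoImplicit false

noncomputable section

namespace Crest.Agent.R204.FA550

open MvPolynomial Crest.Agent.R204.Spine693 Crest.Agent.R204.F166

/-! ### degrees -/

/-- all coefficients `p_a` are homogeneous of degree `n + a` -/
def HB (r n : ℕ) (p : Polynomial (D (r + 1))) : Prop :=
  ∀ a, IsWeightedHomogeneous (Spine693.wt r) (p.coeff a) (n + a)

lemma HB.add {r n : ℕ} {p q : Polynomial (D (r + 1))} (hp : HB r n p) (hq : HB r n q) :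
    HB r n (p + q) := fun a => by
  rw [Polynomial.coeff_add]; exact (hp a).add (hq a)

lemma HB.zero (r n : ℕ) : HB r n 0 := fun a => by
  rw [Polynomial.coeff_zero]; exact isWeightedHomogeneous_zero _ _ _

lemma HB.sum {r n : ℕ} {ι : Type*} (s : Finset ι) (f : ι → Polynomial (D (r + 1)))
    (h : ∀ i ∈ s, HB r n (f i)) : HB r n (∑ i ∈ s, f i) := by
  classical
  induction s using Finset.induction_on with
  | empty => exact HB.zero r n
  | insert a s ha ih =>
    rw [Finset.sum_insert ha]
    exact (h a (Finset.mem_insert_self _ _)).add (ih fun i hi => h i (Finset.mem_insert_of_mem hi))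

lemma HB.mul {r n m : ℕ} {p q : Polynomial (D (r + 1))} (hp : HB r n p) (hq : HB r m q) :
    HB r (n + m) (p * q) := fun a => by
  rw [Polynomial.coeff_mul]
  refine Submodule.sum_mem (weightedHomogeneousSubmodule (ZMod 2) (Spine693.wt r) (n + m + a)) ?_
  rintro ⟨i, j⟩ hij
  have hij' := Finset.HasAntidiagonal.mem_antidiagonal.1 hij
  rw [mem_weightedHomogeneousSubmodule]
  have := (hp i).mul (hq j)
  have h2 : n + i + (m + j) = n + m + a := by simp at hij'; omega
  rwa [h2] at this

lemma HB.XC {r n k m : ℕ} {g : D (r + 1)} (hg : IsWeightedHomogeneous (Spine693.wt r) g m)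
    (h : n + k = m) : HB r n (Polynomial.X ^ k * Polynomial.C g) := fun a => by
  rw [Polynomial.coeff_mul_C, Polynomial.coeff_X_pow]
  split_ifs with h1
  · rw [one_mul, h1, h]; exact hg
  · rw [zero_mul]; exact isWeightedHomogeneous_zero _ _ _

lemma HB.one (r : ℕ) : HB r 0 1 := by
  have := HB.XC (r := r) (n := 0) (k := 0) (g := 1) (isWeightedHomogeneous_one _ _) rfl
  simpa using this

lemma Q_homog (r b : ℕ) (h : b ≤ r + 1) :
    IsWeightedHomogeneous (Spine693.wt r) (Q (r + 1) b) (2 ^ (r + 1) - 2 ^ b) := by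
  rcases Nat.lt_or_ge b (r + 1) with h1 | h1
  · rw [Q_lt h1]
    exact isWeightedHomogeneous_X (R := ZMod 2) (Spine693.wt r) ⟨b, h1⟩
  · obtain rfl : b = r + 1 := le_antisymm h h1
    rw [Q_self, Nat.sub_self]
    exact isWeightedHomogeneous_one _ _

lemma SQgen_HB {r j : ℕ} (h : j < r + 1) : HB r (2 ^ (r + 1) - 2 ^ j) (SQgen (r + 1) j) := by
  have hj := two_pow_le h.le
  rw [SQgen_eq]
  refine HB.add ?_ ?_
  · refine HB.XC (m := (2 ^ (r + 1) - 2 ^ j) + (2 ^ (r + 1) - 2 ^ j)) ?_ rfl
    rw [sq]; exact (Q_homog r j h.le).mul (Q_homog r j h.le)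
  · rw [show 2 ^ (r + 1) - 2 ^ j = 2 ^ (r + 1) - 2 ^ j + 0 by rfl]
    refine HB.mul ?_ ?_
    · refine HB.sum _ _ fun b hb => HB.XC (Q_homog r b (by have := Finset.mem_range.1 hb; omega)) ?_
      have := two_pow_le (show b ≤ j by have := Finset.mem_range.1 hb; omega)
      omega
    · refine HB.sum _ _ fun b hb => HB.XC (Q_homog r b (Finset.mem_Ioc.1 hb).2) (by omega)

lemma HB.pow {r n : ℕ} {p : Polynomial (D (r + 1))} (hp : HB r n p) (k : ℕ) : HB r (k * n) (p ^ k) := by
  induction k with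
  | zero => simpa using HB.one r
  | succ k ih => rw [pow_succ, Nat.succ_mul]; exact ih.mul hp

lemma HB.prod {r : ℕ} {ι : Type*} (s : Finset ι) (f : ι → Polynomial (D (r + 1))) (n : ι → ℕ)
    (h : ∀ i ∈ s, HB r (n i) (f i)) : HB r (∑ i ∈ s, n i) (∏ i ∈ s, f i) := by
  classical
  induction s using Finset.induction_on with
  | empty => simpa using HB.one r
  | insert a s ha ih =>
    rw [Finset.sum_insert ha, Finset.prod_insert ha]
    exact (h a (Finset.mem_insert_self _ _)).mul (ih fun i hi => h i (Finset.mem_insert_of_mem hi))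

/-- weight of an exponent -/
lemma weight_eq (r : ℕ) (s : Fin (r + 1) →₀ ℕ) :
    Finsupp.weight (Spine693.wt r) s = ∑ i, s i * Spine693.wt r i := by
  rw [Finsupp.weight_apply, Finsupp.sum_fintype] <;> simp

lemma SQ_monomial (R : ℕ) (s : Fin R →₀ ℕ) :
    SQ R (monomial s 1) = ∏ i : Fin R, SQgen R (i : ℕ) ^ s i := by
  rw [SQ, aeval_monomial, map_one, one_mul, Finsupp.prod_fintype]
  intro i; simp

lemma SQ_monomial_HB (r : ℕ) (s : Fin (r + 1) →₀ ℕ) :
    HB r (Finsupp.weight (Spine693.wt r) s) (SQ (r + 1) (monomial s 1)) := by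
  rw [SQ_monomial, weight_eq]
  exact HB.prod _ _ _ fun i _ => (SQgen_HB i.2).pow _

/-- a homogeneous polynomial is a sum of monomials of the right weight -/
lemma homog_induction {r n : ℕ} {P : D (r + 1) → Prop} (h0 : P 0)
    (hadd : ∀ f g, P f → P g → P (f + g))
    (hmon : ∀ s : Fin (r + 1) →₀ ℕ, Finsupp.weight (Spine693.wt r) s = n → P (monomial s 1))
    {g : D (r + 1)} (hg : IsWeightedHomogeneous (Spine693.wt r) g n) : P g := by
  classical
  rw [← support_sum_monomial_coeff g]
  have : ∀ t : Finset (Fin (r + 1) →₀ ℕ), t ⊆ g.support → P (∑ s ∈ t, monomial s (coeff s g)) := by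
    intro t
    induction t using Finset.induction_on with
    | empty => intro _; simpa using h0
    | insert a t ha ih =>
      intro hsub
      rw [Finset.sum_insert ha]
      refine hadd _ _ ?_ (ih fun x hx => hsub (Finset.mem_insert_of_mem hx))
      have ha' : coeff a g ≠ 0 := mem_support_iff.1 (hsub (Finset.mem_insert_self _ _))
      have hc1 : coeff a g = 1 := by
        have : ∀ c : ZMod 2, c ≠ 0 → c = 1 := by decide
        exact this _ ha'
      rw [hc1]
      exact hmon a (hg ha')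
  exact this _ (Finset.Subset.refl _)

theorem Sq_homog {r n : ℕ} {g : D (r + 1)} (hg : IsWeightedHomogeneous (Spine693.wt r) g n) (a : ℕ) :
    IsWeightedHomogeneous (Spine693.wt r) (Sq (r + 1) a g) (n + a) := by
  refine homog_induction (P := fun g => IsWeightedHomogeneous (Spine693.wt r) (Sq (r + 1) a g) (n + a))
    ?_ ?_ ?_ hg
  · rw [map_zero]; exact isWeightedHomogeneous_zero _ _ _
  · intro f g hf hg; rw [map_add]; exact hf.add hg
  · intro s hs; rw [← hs]; exact SQ_monomial_HB r s a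

/-! ### instability and the top square -/

/-- degree at most `n`, with top coefficients `t`, `t'` -/
def Top (r n : ℕ) (g g' : D (r + 1)) (p : Polynomial (D (r + 1))) : Prop :=
  p.natDegree ≤ n ∧ p.coeff n = g ∧ (1 ≤ n → p.coeff (n - 1) = g') ∧ (n = 0 → g' = 0)

lemma Top.mul {r n m : ℕ} {g g' h h' : D (r + 1)} {p q : Polynomial (D (r + 1))}
    (hp : Top r n g g' p) (hq : Top r m h h' q) : Top r (n + m) (g * h) (g * h' + g' * h) (p * q) := by
  obtain ⟨p1, p2, p3, p4⟩ := hp
  obtain ⟨q1, q2, q3, q4⟩ := hq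
  refine ⟨Polynomial.natDegree_mul_le.trans (add_le_add p1 q1), ?_, ?_, ?_⟩
  · rw [Polynomial.coeff_mul_add_eq_of_natDegree_le p1 q1, p2, q2]
  · intro hnm
    rcases Nat.eq_zero_or_pos n with rfl | hn
    · have hp0 : p = Polynomial.C g := by
        rw [← p2]; exact Polynomial.eq_C_of_natDegree_le_zero p1
      rw [p4 rfl, zero_mul, add_zero, hp0, Polynomial.coeff_C_mul, zero_add]
      rw [q3 (by omega)]
    rcases Nat.eq_zero_or_pos m with rfl | hm
    · have hq0 : q = Polynomial.C h := by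
        rw [← q2]; exact Polynomial.eq_C_of_natDegree_le_zero q1
      rw [q4 rfl, mul_zero, zero_add, hq0, Polynomial.coeff_mul_C, add_zero, p3 hn]
    rw [Polynomial.coeff_mul]
    have hsub : ({(n, m - 1), (n - 1, m)} : Finset (ℕ × ℕ)) ⊆ Finset.HasAntidiagonal.antidiagonal (n + m - 1) := by
      intro x hx
      simp only [Finset.mem_insert, Finset.mem_singleton] at hx
      rw [Finset.HasAntidiagonal.mem_antidiagonal]
      rcases hx with rfl | rfl <;> simp <;> omega
    rw [← Finset.sum_subset hsub, Finset.sum_pair, q3 hm, p3 hn, p2, q2]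
    · intro h; simp only [Prod.mk.injEq] at h; omega
    · rintro ⟨a, b⟩ hab hnot
      have hab' := Finset.HasAntidiagonal.mem_antidiagonal.1 hab
      simp only [Finset.mem_insert, Finset.mem_singleton, Prod.mk.injEq, not_or] at hnot
      simp only at hab'
      rcases Nat.lt_or_ge n a with h1 | h1
      · rw [Polynomial.coeff_eq_zero_of_natDegree_lt (lt_of_le_of_lt p1 h1), zero_mul]
      rcases Nat.lt_or_ge m b with h2 | h2
      · rw [Polynomial.coeff_eq_zero_of_natDegree_lt (lt_of_le_of_lt q1 h2), mul_zero]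
      omega
  · intro h0
    rw [p4 (by omega), q4 (by omega)]; simp

lemma Top.one (r : ℕ) : Top r 0 1 0 1 := ⟨by simp, by simp, by intro h; omega, fun _ => rfl⟩


lemma fAB_coeff (R j n : ℕ) : (fA R j * fB R j).coeff n =
    ∑ b ∈ Finset.range (j + 1), ∑ a ∈ Finset.Ioc j R,
      if n = (2 ^ j - 2 ^ b) + (2 ^ R - 2 ^ a) then Q R b * Q R a else 0 := by
  rw [fA, fB, Finset.sum_mul_sum, Polynomial.finsetSum_coeff]
  refine Finset.sum_congr rfl fun b _ => ?_
  rw [Polynomial.finsetSum_coeff]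
  refine Finset.sum_congr rfl fun a _ => ?_
  have : (Polynomial.X ^ (2 ^ j - 2 ^ b) * Polynomial.C (Q R b) *
      (Polynomial.X ^ (2 ^ R - 2 ^ a) * Polynomial.C (Q R a)) : Polynomial (D R)) =
      Polynomial.X ^ ((2 ^ j - 2 ^ b) + (2 ^ R - 2 ^ a)) * Polynomial.C (Q R b * Q R a) := by
    rw [pow_add, map_mul]; ring
  rw [this, Polynomial.coeff_mul_C, Polynomial.coeff_X_pow]
  split_ifs <;> simp

lemma SQgen_Top {r j : ℕ} (h : j < r + 1) :
    Top r (2 ^ (r + 1) - 2 ^ j) (Q (r + 1) j ^ 2) (Q (r + 1) 0 * Q (r + 1) (j + 1)) (SQgen (r + 1) j) := by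
  have hj := two_pow_lt h
  have h2 : (2:ℕ) ^ (j + 1) = 2 * 2 ^ j := pow_succ' 2 j
  refine ⟨?_, ?_, ?_, by omega⟩
  · rw [SQgen_eq]
    refine (Polynomial.natDegree_add_le _ _).trans (max_le ?_ ?_)
    · refine (Polynomial.natDegree_mul_C_le _ _).trans ?_
      rw [Polynomial.natDegree_X_pow]
    · rw [Polynomial.natDegree_le_iff_coeff_eq_zero]
      intro n hn
      rw [fAB_coeff]
      refine Finset.sum_eq_zero fun b hb => Finset.sum_eq_zero fun a ha => ?_
      have hb1 := two_pow_le (show b ≤ j by have := Finset.mem_range.1 hb; omega)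
      have ha0 := Finset.mem_Ioc.1 ha
      have ha1 := two_pow_le (show j + 1 ≤ a by omega)
      have ha2 := two_pow_le (show a ≤ r + 1 by omega)
      have hb2 := Nat.one_le_two_pow (n := b)
      rw [if_neg (by omega)]
  · rw [SQgen_eq, Polynomial.coeff_add, Polynomial.coeff_mul_C, Polynomial.coeff_X_pow, if_pos rfl,
      one_mul, fAB_coeff]
    have : ∑ b ∈ Finset.range (j + 1), ∑ a ∈ Finset.Ioc j (r + 1),
        (if 2 ^ (r + 1) - 2 ^ j = (2 ^ j - 2 ^ b) + (2 ^ (r + 1) - 2 ^ a) then
          Q (r + 1) b * Q (r + 1) a else 0) = 0 := by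
      refine Finset.sum_eq_zero fun b hb => Finset.sum_eq_zero fun a ha => ?_
      have hb1 := two_pow_le (show b ≤ j by have := Finset.mem_range.1 hb; omega)
      have ha0 := Finset.mem_Ioc.1 ha
      have ha1 := two_pow_le (show j + 1 ≤ a by omega)
      have ha2 := two_pow_le (show a ≤ r + 1 by omega)
      have hb2 := Nat.one_le_two_pow (n := b)
      rw [if_neg (by omega)]
    rw [this, add_zero]
  · intro _
    rw [SQgen_eq, Polynomial.coeff_add, Polynomial.coeff_mul_C, Polynomial.coeff_X_pow,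
      if_neg (by omega), zero_mul, zero_add, fAB_coeff, Finset.sum_eq_single 0, Finset.sum_eq_single (j + 1)]
    · have := two_pow_le (show j + 1 ≤ r + 1 by omega)
      have h3 := Nat.one_le_two_pow (n := j)
      rw [if_pos (by simp only [pow_zero]; omega)]
    · intro a ha haj
      have ha0 := Finset.mem_Ioc.1 ha
      have ha1 := two_pow_le (show j + 2 ≤ a by omega)
      have ha2 := two_pow_le (show a ≤ r + 1 by omega)
      have h3 := Nat.one_le_two_pow (n := j)
      have h4 : (2:ℕ) ^ (j + 2) = 4 * 2 ^ j := by rw [pow_add]; ring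
      rw [if_neg (by simp only [pow_zero]; omega)]
    · intro h'; simp at h'; omega
    · intro b hb hb0
      refine Finset.sum_eq_zero fun a ha => ?_
      have hb1 := two_pow_le (show b ≤ j by have := Finset.mem_range.1 hb; omega)
      have ha0 := Finset.mem_Ioc.1 ha
      have ha1 := two_pow_le (show j + 1 ≤ a by omega)
      have ha2 := two_pow_le (show a ≤ r + 1 by omega)
      have e1 : 2 ^ 1 ∣ 2 ^ b := pow_dvd_pow 2 (by omega)
      have e2 : 2 ^ 1 ∣ 2 ^ a := pow_dvd_pow 2 (by omega)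
      have e3 : 2 ^ 1 ∣ 2 ^ (r + 1) := pow_dvd_pow 2 (by omega)
      rw [if_neg (by omega)]
    · intro h'; simp at h'

/-- the value of `Sq_1 = Sq^{|·|-1}` on `Q^s` divided out: existence of some second coefficient -/
lemma SQ_monomial_Top (r : ℕ) (s : Fin (r + 1) →₀ ℕ) :
    ∃ g', Top r (Finsupp.weight (Spine693.wt r) s) ((monomial s 1) ^ 2) g'
      (SQ (r + 1) (monomial s 1)) := by
  induction s using Finsupp.induction_linear with
  | zero =>
    refine ⟨0, ?_⟩
    have := Top.one r
    simpa using this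
  | add s t hs ht =>
    obtain ⟨a, ha⟩ := hs
    obtain ⟨b, hb⟩ := ht
    refine ⟨monomial s 1 ^ 2 * b + a * monomial t 1 ^ 2, ?_⟩
    rw [show (monomial (s + t) 1 : D (r + 1)) = monomial s 1 * monomial t 1 by
      rw [monomial_mul, one_mul], map_mul, map_add, mul_pow]
    exact ha.mul hb
  | single i k =>
    induction k with
    | zero =>
      refine ⟨0, ?_⟩
      have := Top.one r
      simpa using this
    | succ k ih =>
      obtain ⟨a, ha⟩ := ih
      refine ⟨monomial (Finsupp.single i k) 1 ^ 2 * (Q (r + 1) 0 * Q (r + 1) ((i : ℕ) + 1))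
        + a * Q (r + 1) i ^ 2, ?_⟩
      rw [show (Finsupp.single i (k + 1) : Fin (r + 1) →₀ ℕ) = Finsupp.single i k + Finsupp.single i 1 by
        rw [← Finsupp.single_add],
        show (monomial (Finsupp.single i k + Finsupp.single i 1) 1 : D (r + 1)) =
          monomial (Finsupp.single i k) 1 * Q (r + 1) i by
        rw [Q_coe, ← mul_one (1 : ZMod 2), ← monomial_mul, mul_one]; rfl,
        map_mul, map_add, mul_pow, SQ_Q i.2]
      have h1 : Finsupp.weight (Spine693.wt r) (Finsupp.single i 1) = 2 ^ (r + 1) - 2 ^ (i : ℕ) := by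
        rw [Finsupp.weight_apply, Finsupp.sum_single_index (by simp)]; simp [Spine693.wt]
      rw [h1]
      exact ha.mul (SQgen_Top i.2)

/-- instability -/
theorem Sq_gt {r n : ℕ} {g : D (r + 1)} (hg : IsWeightedHomogeneous (Spine693.wt r) g n) {a : ℕ}
    (ha : n < a) : Sq (r + 1) a g = 0 := by
  refine homog_induction (P := fun g => Sq (r + 1) a g = 0) (map_zero _) ?_ ?_ hg
  · intro f g hf hg; rw [map_add, hf, hg, add_zero]
  · intro s hs
    obtain ⟨g', h1, _⟩ := SQ_monomial_Top r s
    exact Polynomial.coeff_eq_zero_of_natDegree_lt (lt_of_le_of_lt h1 (by omega))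

/-- the top square -/
theorem Sq_top {r n : ℕ} {g : D (r + 1)} (hg : IsWeightedHomogeneous (Spine693.wt r) g n) :
    Sq (r + 1) n g = g ^ 2 := by
  refine homog_induction (P := fun g => Sq (r + 1) n g = g ^ 2) (by simp) ?_ ?_ hg
  · intro f g hf hg; rw [map_add, hf, hg, CharTwo.add_sq]
  · intro s hs
    obtain ⟨g', _, h2, _⟩ := SQ_monomial_Top r s
    rw [Sq_apply, ← hs, h2]

end Crest.Agent.R204.FA550
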