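import Mathlib

/-!
# Row 204 (helper85): Steenrod modules through the Bullett–Macdonald identity

`Sq : ℕ → R` with values in an `F₂`-algebra `R` (e.g. `Module.End (ZMod 2) E`); total square
`P(u) = ∑ Sqⁱ uⁱ`. Bullett–Macdonald: `P(s²+st) P(t²)` is symmetric in `s, t`.

* `IsBM.adem` : Adem relations;
* `IsBM.rel` : `P(u) P_j = (P_j + u^{2^j} P_{j+1}) P(u)` for the Milnor primitives;
* `IsBM.comm`, `IsBM.sq` : they commute and have square zero.
-/

set_option autoImplicit false
set_option linter.unusedSectionVars false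

noncomputable section

namespace Crest.Agent.R204.StMod85

open Finset Polynomial

variable {R : Type*} [Ring R] [Algebra (ZMod 2) R]

/-- coefficient of `sⁱ` in `(s²+s)^a` -/
def bmc (a i : ℕ) : ZMod 2 := if i < a then 0 else (Nat.choose a (i - a) : ZMod 2)

/-- coefficient of `sⁱ t^(2n-i)` in `P(s²+st) P(t²)`, part of degree `n` -/
def phi (Sq : ℕ → R) (n i : ℕ) : R := ∑ p ∈ antidiagonal n, bmc p.1 i • (Sq p.1 * Sq p.2)

/-- Bullett–Macdonald identity -/
structure IsBM (Sq : ℕ → R) : Prop where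
  zero : Sq 0 = 1
  bm : ∀ n i, i ≤ 2 * n → phi Sq n i = phi Sq n (2 * n - i)

lemma add_self' {M : Type*} [AddCommGroup M] [Module (ZMod 2) M] (x : M) : x + x = 0 := by
  have : (2 : ZMod 2) • x = 0 := by
    rw [show (2 : ZMod 2) = 0 from rfl, zero_smul]
  rwa [two_smul] at this


/-! ### scalars `F₂[s]` -/

/-- central scalars -/
def z : (ZMod 2)[X] →+* R[X] := Polynomial.mapRingHom (algebraMap (ZMod 2) R)

lemma coeff_z_mul_C (w : (ZMod 2)[X]) (r : R) (i : ℕ) :
    (z w * Polynomial.C r).coeff i = w.coeff i • r := by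
  rw [Polynomial.coeff_mul_C, z, Polynomial.coe_mapRingHom, Polynomial.coeff_map, Algebra.smul_def]

lemma z_comm (w : (ZMod 2)[X]) (f : R[X]) : Commute (z w) f := by
  induction f using Polynomial.induction_on' with
  | add p q hp hq => exact hp.add_right hq
  | monomial n a =>
    rw [← Polynomial.C_mul_X_pow_eq_monomial]
    refine Commute.mul_right ?_ ((Polynomial.commute_X_pow _ n).symm)
    ext i
    rw [coeff_z_mul_C, Polynomial.coeff_C_mul, z, Polynomial.coe_mapRingHom, Polynomial.coeff_map,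
      Algebra.smul_def, Algebra.commutes]

/-! ### power series with coefficients in `R[s]` -/

/-- `f(u T)` -/
def th (u : (ZMod 2)[X]) (f : PowerSeries R) : PowerSeries R[X] :=
  PowerSeries.mk fun n => z (u ^ n) * Polynomial.C (PowerSeries.coeff n f)

/-- constants -/
def cc (r : R) : PowerSeries R[X] := PowerSeries.C (Polynomial.C r)

/-- central scalars -/
def zt (w : (ZMod 2)[X]) : PowerSeries R[X] := PowerSeries.C (z w)

lemma coeff_th (u : (ZMod 2)[X]) (f : PowerSeries R) (n : ℕ) :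
    PowerSeries.coeff n (th u f) = z (u ^ n) * Polynomial.C (PowerSeries.coeff n f) :=
  PowerSeries.coeff_mk _ _

lemma th_mul (u : (ZMod 2)[X]) (f g : PowerSeries R) : th u (f * g) = th u f * th u g := by
  ext1 n
  rw [coeff_th, PowerSeries.coeff_mul, PowerSeries.coeff_mul, map_sum, Finset.mul_sum]
  refine Finset.sum_congr rfl fun p hp => ?_
  have hp' := Finset.HasAntidiagonal.mem_antidiagonal.1 hp
  rw [coeff_th, coeff_th, map_mul, ← hp', pow_add, map_mul]
  have h := (z_comm (R := R) (u ^ p.2) (Polynomial.C (PowerSeries.coeff p.1 f))).eq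
  calc z (u ^ p.1) * z (u ^ p.2) * (Polynomial.C (PowerSeries.coeff p.1 f) *
        Polynomial.C (PowerSeries.coeff p.2 g))
      = z (u ^ p.1) * (z (u ^ p.2) * Polynomial.C (PowerSeries.coeff p.1 f)) *
        Polynomial.C (PowerSeries.coeff p.2 g) := by noncomm_ring
    _ = _ := by rw [h]; noncomm_ring

lemma th_add (u : (ZMod 2)[X]) (f g : PowerSeries R) : th u (f + g) = th u f + th u g := by
  ext1 n
  rw [map_add, coeff_th, coeff_th, coeff_th, map_add, map_add, mul_add]

lemma th_one (u : (ZMod 2)[X]) : th u (1 : PowerSeries R) = 1 := by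
  ext1 n
  rw [coeff_th, PowerSeries.coeff_one, PowerSeries.coeff_one]
  by_cases h : n = 0
  · subst h; simp
  · simp [h]

lemma th_C (u : (ZMod 2)[X]) (r : R) : th u (PowerSeries.C r) = cc r := by
  ext1 n
  rw [coeff_th, cc, PowerSeries.coeff_C, PowerSeries.coeff_C]
  by_cases h : n = 0
  · subst h; simp
  · simp [h]

lemma th_X_pow (u : (ZMod 2)[X]) (k : ℕ) :
    th u (PowerSeries.X ^ k : PowerSeries R) = zt (u ^ k) * PowerSeries.X ^ k := by
  ext1 n
  rw [coeff_th, zt, PowerSeries.coeff_C_mul, PowerSeries.coeff_X_pow, PowerSeries.coeff_X_pow]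
  by_cases h : n = k
  · subst h; simp
  · simp [h]

lemma zt_comm (w : (ZMod 2)[X]) (f : PowerSeries R[X]) : Commute (zt w) f := by
  ext1 n
  rw [zt, PowerSeries.coeff_C_mul, PowerSeries.coeff_mul_C]
  exact (z_comm w _).eq





/-! ### the Bullett–Macdonald identity for polynomials -/

lemma coeff_bm1 (a i : ℕ) : ((X * (X + 1)) ^ a : (ZMod 2)[X]).coeff i = bmc a i := by
  rw [mul_pow, Polynomial.coeff_X_pow_mul', bmc]
  by_cases h : a ≤ i
  · rw [if_pos h, if_neg (by omega), Polynomial.coeff_X_add_one_pow]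
  · rw [if_neg h, if_pos (by omega)]

lemma coeff_bm2 (a b i : ℕ) (hi : i ≤ 2 * (a + b)) :
    ((X + 1) ^ a * (X ^ 2) ^ b : (ZMod 2)[X]).coeff i = bmc a (2 * (a + b) - i) := by
  rw [← pow_mul, Polynomial.coeff_mul_X_pow', bmc]
  by_cases h : 2 * b ≤ i
  · rw [if_pos h, Polynomial.coeff_X_add_one_pow]
    by_cases h2 : 2 * (a + b) - i < a
    · rw [if_pos h2, Nat.choose_eq_zero_of_lt (by omega), Nat.cast_zero]
    · rw [if_neg h2, ← Nat.choose_symm (show i - 2 * b ≤ a by omega)]
      congr 2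
      omega
  · rw [if_neg h, if_neg (by omega), Nat.choose_eq_zero_of_lt (by omega), Nat.cast_zero]

lemma coeff_bm2_zero (a b i : ℕ) (hi : 2 * (a + b) < i) :
    ((X + 1) ^ a * (X ^ 2) ^ b : (ZMod 2)[X]).coeff i = 0 := by
  rw [← pow_mul, Polynomial.coeff_mul_X_pow']
  split_ifs with h
  · rw [Polynomial.coeff_X_add_one_pow, Nat.choose_eq_zero_of_lt (by omega), Nat.cast_zero]
  · rfl

lemma coeff_bm1_zero (a i : ℕ) (hi : 2 * a < i) : bmc a i = 0 := by
  rw [bmc]
  split_ifs with h
  · rfl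
  · rw [Nat.choose_eq_zero_of_lt (by omega), Nat.cast_zero]

/-- the total operation with values in `R⟦T⟧` -/
def pw (Sq : ℕ → R) : PowerSeries R := PowerSeries.mk Sq

lemma coeff_th_pw_mul (Sq : ℕ → R) (u v : (ZMod 2)[X]) (n : ℕ) :
    PowerSeries.coeff n (th u (pw Sq) * th v (pw Sq)) =
      ∑ p ∈ antidiagonal n, z (u ^ p.1 * v ^ p.2) * Polynomial.C (Sq p.1 * Sq p.2) := by
  rw [PowerSeries.coeff_mul]
  refine Finset.sum_congr rfl fun p _ => ?_
  rw [coeff_th, coeff_th, pw, PowerSeries.coeff_mk, PowerSeries.coeff_mk, map_mul, map_mul]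
  have h := (z_comm (R := R) (v ^ p.2) (Polynomial.C (Sq p.1))).eq
  calc z (u ^ p.1) * Polynomial.C (Sq p.1) * (z (v ^ p.2) * Polynomial.C (Sq p.2))
      = z (u ^ p.1) * (Polynomial.C (Sq p.1) * z (v ^ p.2)) * Polynomial.C (Sq p.2) := by
        noncomm_ring
    _ = _ := by rw [← h]; noncomm_ring

variable {Sq : ℕ → R}

theorem IsBM.poly (h : IsBM Sq) :
    th (X * (X + 1)) (pw Sq) * th 1 (pw Sq) = th (X + 1) (pw Sq) * th (X ^ 2) (pw Sq) := by
  ext1 n
  rw [coeff_th_pw_mul, coeff_th_pw_mul]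
  ext i
  rw [Polynomial.finsetSum_coeff, Polynomial.finsetSum_coeff]
  simp only [coeff_z_mul_C, one_pow, mul_one, coeff_bm1]
  by_cases hi : i ≤ 2 * n
  · have h1 := h.bm n i hi
    unfold phi at h1
    rw [h1]
    refine Finset.sum_congr rfl fun p hp => ?_
    have hp' := Finset.HasAntidiagonal.mem_antidiagonal.1 hp
    rw [coeff_bm2 _ _ _ (by rw [hp']; exact hi), hp']
  · rw [Finset.sum_eq_zero, Finset.sum_eq_zero]
    · intro p hp
      have hp' := Finset.HasAntidiagonal.mem_antidiagonal.1 hp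
      rw [coeff_bm2_zero _ _ _ (by omega), zero_smul]
    · intro p hp
      have hp' := Finset.HasAntidiagonal.mem_antidiagonal.1 hp
      rw [coeff_bm1_zero _ _ (by omega), zero_smul]

/-- inverse of the total operation -/
def pinv (Sq : ℕ → R) : PowerSeries R := PowerSeries.invOfUnit (pw Sq) 1

lemma IsBM.pw_mul_inv (h : IsBM Sq) : pw Sq * pinv Sq = 1 := by
  refine PowerSeries.mul_invOfUnit _ _ ?_
  rw [← PowerSeries.coeff_zero_eq_constantCoeff_apply, pw, PowerSeries.coeff_mk, h.zero]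
  rfl

lemma IsBM.inv_mul_pw (h : IsBM Sq) : pinv Sq * pw Sq = 1 := by
  refine PowerSeries.invOfUnit_mul _ _ ?_
  rw [← PowerSeries.coeff_zero_eq_constantCoeff_apply, pw, PowerSeries.coeff_mk, h.zero]
  rfl

lemma IsBM.th_inv (h : IsBM Sq) (u : (ZMod 2)[X]) : th u (pw Sq) * th u (pinv Sq) = 1 := by
  rw [← th_mul, h.pw_mul_inv, th_one]

/-- right cancellation by the double total operation -/
lemma IsBM.cancel (h : IsBM Sq) {u v : (ZMod 2)[X]} {A B : PowerSeries R[X]}
    (hab : A * (th u (pw Sq) * th v (pw Sq)) = B * (th u (pw Sq) * th v (pw Sq))) : A = B := by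
  have h1 := congrArg (fun x => x * th v (pinv Sq) * th u (pinv Sq)) hab
  have h2 : ∀ A : PowerSeries R[X], A * (th u (pw Sq) * th v (pw Sq)) * th v (pinv Sq) *
      th u (pinv Sq) = A := fun A => by
    calc A * (th u (pw Sq) * th v (pw Sq)) * th v (pinv Sq) * th u (pinv Sq)
        = A * (th u (pw Sq) * (th v (pw Sq) * th v (pinv Sq)) * th u (pinv Sq)) := by
          noncomm_ring
      _ = A := by rw [h.th_inv, mul_one, h.th_inv, mul_one]
  simpa only [h2] using h1

/-- conjugate of a constant -/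
def cj (Sq : ℕ → R) (a : R) : PowerSeries R := pw Sq * PowerSeries.C a * pinv Sq

lemma IsBM.cj_mul (h : IsBM Sq) (a : R) : cj Sq a * pw Sq = pw Sq * PowerSeries.C a := by
  rw [cj, mul_assoc, h.inv_mul_pw, mul_one]

lemma IsBM.th_cj_mul (h : IsBM Sq) (a : R) (u : (ZMod 2)[X]) :
    th u (cj Sq a) * th u (pw Sq) = th u (pw Sq) * cc a := by
  rw [← th_mul, h.cj_mul, th_mul, th_C]

lemma IsBM.cj_zero (h : IsBM Sq) (a : R) : PowerSeries.coeff 0 (cj Sq a) = a := by
  have h1 := congrArg (PowerSeries.coeff 0) (h.cj_mul a)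
  rw [PowerSeries.coeff_mul, PowerSeries.coeff_mul] at h1
  simpa [pw, h.zero] using h1

/-- a relation `P(u) a = (a + u^k b) P(u)` -/
def Rel (Sq : ℕ → R) (k : ℕ) (a b : R) : Prop :=
  pw Sq * PowerSeries.C a = (PowerSeries.C a + PowerSeries.X ^ k * PowerSeries.C b) * pw Sq

/-- **key lemma** -/
theorem IsBM.key (h : IsBM Sq) {a : R} {q : ℕ} (hq : 0 < q)
    (hE : zt ((X * (X + 1)) ^ q) * cc a + th (X * (X + 1)) (cj Sq a) =
      zt ((X + 1) ^ q) * cc a + zt ((X ^ 2) ^ q) * th (X + 1) (cj Sq a)) :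
    ∃ b, Rel Sq (2 * q) a b := by
  have h1 : ∀ k, 0 < k → k ≠ 2 * q → PowerSeries.coeff k (cj Sq a) = 0 := by
    intro k hk hkq
    have h2 := congrArg (PowerSeries.coeff k) hE
    have h3 : ∀ w : (ZMod 2)[X], PowerSeries.coeff k (zt w * cc a) = 0 := by
      intro w
      rw [zt, cc, PowerSeries.coeff_C_mul, PowerSeries.coeff_C, if_neg (by omega), mul_zero]
    rw [map_add, map_add, h3, h3, zero_add, zero_add, zt, PowerSeries.coeff_C_mul, coeff_th,
      coeff_th, ← mul_assoc, ← map_mul] at h2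
    have h4 := congrArg (fun f => Polynomial.coeff f (min k (2 * q))) h2
    simp only [coeff_z_mul_C, coeff_bm1] at h4
    rw [← pow_mul, Polynomial.coeff_X_pow_mul'] at h4
    rcases lt_or_gt_of_ne hkq with hlt | hgt
    · rw [min_eq_left hlt.le, if_neg (by omega), zero_smul, bmc, if_neg (by omega), Nat.sub_self,
        Nat.choose_zero_right, Nat.cast_one, one_smul] at h4
      exact h4
    · rw [min_eq_right hgt.le, if_pos le_rfl, Nat.sub_self, bmc, if_pos hgt, zero_smul,
        Polynomial.coeff_X_add_one_pow, Nat.choose_zero_right, Nat.cast_one, one_smul] at h4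
      exact h4.symm
  refine ⟨PowerSeries.coeff (2 * q) (cj Sq a), ?_⟩
  rw [Rel, ← h.cj_mul]
  congr 1
  ext k
  rw [map_add, PowerSeries.coeff_C, PowerSeries.coeff_mul_C, PowerSeries.coeff_X_pow]
  by_cases hk0 : k = 0
  · subst hk0
    rw [if_pos rfl, if_neg (by omega), zero_mul, add_zero, h.cj_zero]
  · rw [if_neg hk0, zero_add]
    by_cases hk : k = 2 * q
    · rw [if_pos hk, one_mul, hk]
    · rw [if_neg hk, zero_mul, h1 k (by omega) hk]


/-- `Sqⁱ a = a Sqⁱ + b Sqⁱ⁻ᵏ` -/
lemma Rel.coeff {k : ℕ} {a b : R} (hr : Rel Sq k a b) (i : ℕ) :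
    Sq i * a = a * Sq i + if k ≤ i then b * Sq (i - k) else 0 := by
  have h1 := congrArg (PowerSeries.coeff i) hr
  rw [PowerSeries.coeff_mul_C, add_mul, map_add, PowerSeries.coeff_C_mul, mul_assoc,
    PowerSeries.coeff_X_pow_mul'] at h1
  simpa only [pw, PowerSeries.coeff_mk, PowerSeries.coeff_C_mul] using h1

lemma Rel.right_eq {k : ℕ} {a b : R} (h : IsBM Sq) (hr : Rel Sq k a b) :
    b = Sq k * a + a * Sq k := by
  have := hr.coeff k
  rw [if_pos le_rfl, Nat.sub_self, h.zero, mul_one] at this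
  rw [this, add_comm (a * Sq k), add_assoc, add_self', add_zero]

/-- **inductive step** -/
theorem IsBM.rel_step (h : IsBM Sq) {a b : R} {q : ℕ} (hq : 0 < q) (hr : Rel Sq q a b) :
    ∃ c, Rel Sq (2 * q) b c := by
  refine h.key hq ?_
  -- conjugate `a` by both sides of the Bullett–Macdonald identity
  have hth : ∀ u : (ZMod 2)[X], th u (pw Sq) * cc a =
      (cc a + zt (u ^ q) * PowerSeries.X ^ q * cc b) * th u (pw Sq) := by
    intro u
    rw [← th_C u a, ← th_mul, show pw Sq * PowerSeries.C a = _ from hr, th_mul, th_add, th_mul,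
      th_X_pow, th_C, th_C]
  have hcomm : ∀ (w : (ZMod 2)[X]) (f : PowerSeries R[X]),
      f * (zt w * PowerSeries.X ^ q) = (zt w * PowerSeries.X ^ q) * f := fun w f =>
    ((zt_comm w f).mul_left ((PowerSeries.commute_X_pow f q).symm)).eq.symm
  have hdouble : ∀ u v : (ZMod 2)[X], th u (pw Sq) * th v (pw Sq) * cc a =
      (cc a + PowerSeries.X ^ q * (zt (u ^ q) * cc b + zt (v ^ q) * th u (cj Sq b))) *
        (th u (pw Sq) * th v (pw Sq)) := by
    intro u v
    calc th u (pw Sq) * th v (pw Sq) * cc a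
        = th u (pw Sq) * ((cc a + zt (v ^ q) * PowerSeries.X ^ q * cc b) * th v (pw Sq)) := by
          rw [mul_assoc, hth]
      _ = (th u (pw Sq) * cc a + (th u (pw Sq) * (zt (v ^ q) * PowerSeries.X ^ q)) * cc b) *
            th v (pw Sq) := by noncomm_ring
      _ = (th u (pw Sq) * cc a + (zt (v ^ q) * PowerSeries.X ^ q) * (th u (pw Sq) * cc b)) *
            th v (pw Sq) := by rw [hcomm]; noncomm_ring
      _ = ((cc a + zt (u ^ q) * PowerSeries.X ^ q * cc b) * th u (pw Sq) +
            (zt (v ^ q) * PowerSeries.X ^ q) * (th u (cj Sq b) * th u (pw Sq))) *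
            th v (pw Sq) := by rw [hth, h.th_cj_mul]
      _ = (cc a + (zt (u ^ q) * PowerSeries.X ^ q * cc b +
            zt (v ^ q) * PowerSeries.X ^ q * th u (cj Sq b))) *
            (th u (pw Sq) * th v (pw Sq)) := by noncomm_ring
      _ = _ := by
          have h5 : ∀ w : (ZMod 2)[X], (zt w : PowerSeries R[X]) * PowerSeries.X ^ q =
            PowerSeries.X ^ q * zt w := fun w => (PowerSeries.commute_X_pow (zt w) q).eq
          rw [h5, h5]
          noncomm_ring
  have h1 := hdouble (X * (X + 1)) 1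
  have h2 := hdouble (X + 1) (X ^ 2)
  rw [← h.poly, h1] at h2
  have h3 := add_left_cancel (h.cancel h2)
  have h4 : (zt ((1 : (ZMod 2)[X]) ^ q) : PowerSeries R[X]) = 1 := by
    rw [one_pow, zt, map_one, map_one]
  rw [h4, one_mul] at h3
  have h6 : ∀ A B : PowerSeries R[X], PowerSeries.X ^ q * A = PowerSeries.X ^ q * B → A = B := by
    intro A B hAB
    ext1 n
    have := congrArg (PowerSeries.coeff (n + q)) hAB
    rwa [PowerSeries.coeff_X_pow_mul, PowerSeries.coeff_X_pow_mul] at this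
  exact h6 _ _ h3

/-! ### the Euler derivation and the start of the induction -/

/-- Euler derivation -/
def eul {S : Type*} [Ring S] (f : PowerSeries S) : PowerSeries S :=
  PowerSeries.mk fun n => n • PowerSeries.coeff n f

lemma coeff_eul {S : Type*} [Ring S] (f : PowerSeries S) (n : ℕ) :
    PowerSeries.coeff n (eul f) = n • PowerSeries.coeff n f := PowerSeries.coeff_mk _ _

lemma eul_mul {S : Type*} [Ring S] (f g : PowerSeries S) :
    eul (f * g) = eul f * g + f * eul g := by
  ext1 n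
  rw [coeff_eul, map_add, PowerSeries.coeff_mul, PowerSeries.coeff_mul, PowerSeries.coeff_mul,
    Finset.smul_sum, ← Finset.sum_add_distrib]
  refine Finset.sum_congr rfl fun p hp => ?_
  have hp' := Finset.HasAntidiagonal.mem_antidiagonal.1 hp
  rw [coeff_eul, coeff_eul, ← hp', add_smul, smul_mul_assoc, mul_smul_comm]

lemma th_eul (u : (ZMod 2)[X]) (f : PowerSeries R) : th u (eul f) = eul (th u f) := by
  ext1 n
  rw [coeff_th, coeff_eul, coeff_eul, coeff_th, map_nsmul, mul_smul_comm]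

lemma bmc_one (a : ℕ) : bmc a 1 = if a = 1 then 1 else 0 := by
  rcases a with _ | _ | a
  · simp [bmc]
  · simp [bmc]
  · rw [if_neg (by omega), bmc, if_pos (by omega)]

/-- `Sq¹ Sqⁿ = (n+1) Sqⁿ⁺¹` -/
theorem IsBM.sq_one (h : IsBM Sq) (n : ℕ) : Sq 1 * Sq n = (n + 1) • Sq (n + 1) := by
  have h1 := h.bm (n + 1) 1 (by omega)
  have e1 : phi Sq (n + 1) 1 = Sq 1 * Sq n := by
    rw [phi, Finset.sum_eq_single (1, n)]
    · rw [bmc_one, if_pos rfl, one_smul]
    · intro p hp hne
      rw [bmc_one, if_neg, zero_smul]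
      intro h2
      apply hne
      have hp' := Finset.HasAntidiagonal.mem_antidiagonal.1 hp
      ext
      · exact h2
      · show p.2 = n
        omega
    · intro h2
      exact absurd (Finset.HasAntidiagonal.mem_antidiagonal.2 (by show 1 + n = n + 1; omega)) h2
  have e2 : phi Sq (n + 1) (2 * (n + 1) - 1) = (n + 1) • Sq (n + 1) := by
    rw [phi, Finset.sum_eq_single (n + 1, 0)]
    · rw [h.zero, mul_one, bmc, if_neg (by simp only; omega)]
      simp only
      rw [show 2 * (n + 1) - 1 - (n + 1) = n by omega, Nat.choose_succ_self_right, ← Nat.cast_smul_eq_nsmul (ZMod 2)]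
    · intro p hp hne
      have hp' := Finset.HasAntidiagonal.mem_antidiagonal.1 hp
      have h3 : p.1 ≤ n := by
        by_contra h4
        apply hne
        ext
        · show p.1 = n + 1
          omega
        · show p.2 = 0
          omega
      rw [coeff_bm1_zero _ _ (by omega), zero_smul]
    · intro h2
      exact absurd (Finset.HasAntidiagonal.mem_antidiagonal.2 (by show n + 1 + 0 = n + 1; omega)) h2
  rw [← e1, h1, e2]

lemma IsBM.eul_pw (h : IsBM Sq) :
    eul (pw Sq) = PowerSeries.X * PowerSeries.C (Sq 1) * pw Sq := by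
  ext n
  rw [coeff_eul, mul_assoc]
  rcases n with _ | n
  · rw [zero_smul, PowerSeries.coeff_zero_X_mul]
  · rw [PowerSeries.coeff_succ_X_mul, PowerSeries.coeff_C_mul, pw, PowerSeries.coeff_mk,
      PowerSeries.coeff_mk, h.sq_one]

/-- **start of the induction** -/
theorem IsBM.rel_one (h : IsBM Sq) : ∃ c, Rel Sq 2 (Sq 1) c := by
  refine h.key (q := 1) one_pos ?_
  have hX : ∀ f : PowerSeries R[X], f * PowerSeries.X = PowerSeries.X * f := fun f =>
    (PowerSeries.commute_X f).eq
  have hth : ∀ u : (ZMod 2)[X], eul (th u (pw Sq)) =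
      PowerSeries.X * (zt u * cc (Sq 1)) * th u (pw Sq) := by
    intro u
    rw [← th_eul, h.eul_pw, th_mul, th_mul, th_C]
    have : th u (PowerSeries.X : PowerSeries R) = zt u * PowerSeries.X := by
      have := th_X_pow (R := R) u 1
      rwa [pow_one, pow_one, pow_one] at this
    rw [this, hX, mul_assoc PowerSeries.X]
  have hd : ∀ u v : (ZMod 2)[X], eul (th u (pw Sq) * th v (pw Sq)) =
      PowerSeries.X * (zt u * cc (Sq 1) + zt v * th u (cj Sq (Sq 1))) *
        (th u (pw Sq) * th v (pw Sq)) := by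
    intro u v
    have hc := (zt_comm v (th u (pw Sq))).eq
    calc eul (th u (pw Sq) * th v (pw Sq))
        = PowerSeries.X * (zt u * cc (Sq 1)) * th u (pw Sq) * th v (pw Sq) +
          th u (pw Sq) * (PowerSeries.X * (zt v * cc (Sq 1)) * th v (pw Sq)) := by
          rw [eul_mul, hth, hth]
      _ = PowerSeries.X * (zt u * cc (Sq 1)) * th u (pw Sq) * th v (pw Sq) +
          (th u (pw Sq) * PowerSeries.X) * zt v * cc (Sq 1) * th v (pw Sq) := by noncomm_ring
      _ = PowerSeries.X * (zt u * cc (Sq 1)) * th u (pw Sq) * th v (pw Sq) +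
          PowerSeries.X * (th u (pw Sq) * zt v) * cc (Sq 1) * th v (pw Sq) := by
          rw [hX]; noncomm_ring
      _ = PowerSeries.X * (zt u * cc (Sq 1)) * th u (pw Sq) * th v (pw Sq) +
          PowerSeries.X * zt v * (th u (pw Sq) * cc (Sq 1)) * th v (pw Sq) := by
          rw [← hc]; noncomm_ring
      _ = _ := by rw [← h.th_cj_mul]; noncomm_ring
  have h1 := hd (X * (X + 1)) 1
  have h2 := hd (X + 1) (X ^ 2)
  rw [← h.poly, h1] at h2
  have h3 := h.cancel h2
  have h4 : (zt (1 : (ZMod 2)[X]) : PowerSeries R[X]) = 1 := by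
    rw [zt, map_one, map_one]
  rw [h4, one_mul] at h3
  simp only [pow_one]
  ext1 n
  have := congrArg (PowerSeries.coeff (n + 1)) h3
  rwa [PowerSeries.coeff_succ_X_mul, PowerSeries.coeff_succ_X_mul] at this

/-! ### Milnor primitives -/

/-- `P_j`, with `P_{j+1} = [Sq^{2^j}, P_j]`, `P_1 = Sq¹` (`P 0 := 1` by convention, unused) -/
def P (Sq : ℕ → R) : ℕ → R
  | 0 => 1
  | 1 => Sq 1
  | (j + 2) => Sq (2 ^ (j + 1)) * P Sq (j + 1) + P Sq (j + 1) * Sq (2 ^ (j + 1))

lemma P_one : P Sq 1 = Sq 1 := rfl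

lemma P_succ (j : ℕ) (hj : 1 ≤ j) : P Sq (j + 1) = Sq (2 ^ j) * P Sq j + P Sq j * Sq (2 ^ j) := by
  obtain ⟨i, rfl⟩ : ∃ i, j = i + 1 := ⟨j - 1, by omega⟩
  rfl

/-- `P(u) P_j = (P_j + u^{2^j} P_{j+1}) P(u)` -/
theorem IsBM.rel (h : IsBM Sq) (j : ℕ) (hj : 1 ≤ j) : Rel Sq (2 ^ j) (P Sq j) (P Sq (j + 1)) := by
  induction j, hj using Nat.le_induction with
  | base =>
    obtain ⟨c, hc⟩ := h.rel_one
    have : c = P Sq 2 := by rw [hc.right_eq h]; rfl
    rw [← this]; exact hc
  | succ j hj ih =>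
    obtain ⟨c, hc⟩ := h.rel_step (pow_pos two_pos j) ih
    rw [← pow_succ'] at hc
    have : c = P Sq (j + 1 + 1) := by rw [hc.right_eq h]; rfl
    rw [← this]; exact hc

/-- `Sqⁱ P_j = P_j Sqⁱ + P_{j+1} Sq^{i-2^j}` -/
theorem IsBM.sq_P (h : IsBM Sq) (i j : ℕ) (hj : 1 ≤ j) :
    Sq i * P Sq j = P Sq j * Sq i + if 2 ^ j ≤ i then P Sq (j + 1) * Sq (i - 2 ^ j) else 0 :=
  (h.rel j hj).coeff i


lemma Rel.mul_rel {k l : ℕ} {a b c d : R} (h1 : Rel Sq k a b) (h2 : Rel Sq l c d) :
    pw Sq * PowerSeries.C (a * c) = (PowerSeries.C (a * c) + PowerSeries.X ^ k *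
      PowerSeries.C (b * c) + PowerSeries.X ^ l * PowerSeries.C (a * d) +
      PowerSeries.X ^ (k + l) * PowerSeries.C (b * d)) * pw Sq := by
  have hX : ∀ f : PowerSeries R, f * PowerSeries.X ^ l = PowerSeries.X ^ l * f := fun f =>
    (PowerSeries.commute_X_pow f l).eq
  calc pw Sq * PowerSeries.C (a * c) = (pw Sq * PowerSeries.C a) * PowerSeries.C c := by
        rw [map_mul, mul_assoc]
    _ = (PowerSeries.C a + PowerSeries.X ^ k * PowerSeries.C b) *
        (pw Sq * PowerSeries.C c) := by rw [show pw Sq * PowerSeries.C a = _ from h1, mul_assoc]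
    _ = (PowerSeries.C a + PowerSeries.X ^ k * PowerSeries.C b) *
        (PowerSeries.C c + PowerSeries.X ^ l * PowerSeries.C d) * pw Sq := by
        rw [show pw Sq * PowerSeries.C c = _ from h2, mul_assoc]
    _ = (PowerSeries.C a * PowerSeries.C c +
          PowerSeries.X ^ k * (PowerSeries.C b * PowerSeries.C c) +
          (PowerSeries.C a * PowerSeries.X ^ l) * PowerSeries.C d +
          PowerSeries.X ^ k * (PowerSeries.C b * PowerSeries.X ^ l) * PowerSeries.C d) *
          pw Sq := by noncomm_ring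
    _ = _ := by
        rw [hX, hX, map_mul, map_mul, map_mul, map_mul, pow_add]
        noncomm_ring

lemma coeff_X_pow_mul_C' (k n : ℕ) (r : R) :
    PowerSeries.coeff n (PowerSeries.X ^ k * PowerSeries.C r) = if n = k then r else 0 := by
  rw [PowerSeries.coeff_mul_C, PowerSeries.coeff_X_pow]
  split_ifs <;> simp

lemma IsBM.cancel_pw (h : IsBM Sq) {A B : PowerSeries R} (hab : A * pw Sq = B * pw Sq) :
    A = B := by
  have := congrArg (· * pinv Sq) hab
  simpa only [mul_assoc, h.pw_mul_inv, mul_one] using this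

/-- commuting relations propagate -/
lemma IsBM.comm_step (h : IsBM Sq) {k l : ℕ} {a b c d : R} (h1 : Rel Sq k a b)
    (h2 : Rel Sq l c d) (hk : 0 < k) (hkl : k < l) (hac : a * c = c * a) : a * d = d * a := by
  have e1 := h1.mul_rel h2
  have e2 := h2.mul_rel h1
  rw [hac, e2] at e1
  have e3 := h.cancel_pw e1
  have e4 := congrArg (PowerSeries.coeff l) e3
  simp only [map_add, coeff_X_pow_mul_C', PowerSeries.coeff_C] at e4
  have f1 : l ≠ 0 := by omega
  have f2 : l ≠ k := by omega
  have f3 : l ≠ l + k := by omega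
  have f4 : l ≠ k + l := by omega
  simp only [f1, f2, f3, f4, if_true, if_false, zero_add, add_zero] at e4
  exact e4.symm

/-- square zero propagates -/
lemma IsBM.sq_step (h : IsBM Sq) {k : ℕ} {a b : R} (h1 : Rel Sq k a b) (hk : 0 < k)
    (ha : a * a = 0) : a * b = b * a ∧ b * b = 0 := by
  have e1 := h1.mul_rel h1
  have e0 := (show (0 : PowerSeries R) * pw Sq = pw Sq * PowerSeries.C (a * a) by
      rw [ha, map_zero, mul_zero, zero_mul]).trans e1
  have e3 := h.cancel_pw e0
  constructor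
  · have e4 := congrArg (PowerSeries.coeff k) e3
    simp only [map_add, coeff_X_pow_mul_C', PowerSeries.coeff_C, map_zero] at e4
    have f1 : k ≠ 0 := by omega
    have f2 : k ≠ k + k := by omega
    simp only [f1, f2, if_true, if_false, zero_add, add_zero] at e4
    have e5 : a * b = a * b + (b * a + a * b) := by rw [← e4, add_zero]
    rw [e5, add_comm (b * a), ← add_assoc, add_self', zero_add]
  · have e4 := congrArg (PowerSeries.coeff (k + k)) e3
    simp only [map_add, coeff_X_pow_mul_C', PowerSeries.coeff_C, map_zero] at e4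
    have f1 : k + k ≠ 0 := by omega
    have f2 : k + k ≠ k := by omega
    simp only [f1, f2, if_true, if_false, zero_add, add_zero] at e4
    exact e4.symm

/-- `P_j² = 0` -/
theorem IsBM.P_sq (h : IsBM Sq) (j : ℕ) (hj : 1 ≤ j) : P Sq j * P Sq j = 0 := by
  induction j, hj using Nat.le_induction with
  | base =>
    rw [P_one, h.sq_one, show (1 + 1 : ℕ) = 2 from rfl, two_nsmul, add_self']
  | succ j hj ih => exact (h.sq_step (h.rel j hj) (by positivity) ih).2

lemma IsBM.P_comm_lt (h : IsBM Sq) (i k : ℕ) (hi : 1 ≤ i) (hk : i < k) :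
    P Sq i * P Sq k = P Sq k * P Sq i := by
  induction k, hk using Nat.le_induction with
  | base => exact (h.sq_step (h.rel i hi) (by positivity) (h.P_sq i hi)).1
  | succ k hk ih =>
    exact h.comm_step (h.rel i hi) (h.rel k (by omega)) (by positivity)
      (Nat.pow_lt_pow_right (by norm_num) hk) ih

/-- `P_i P_k = P_k P_i` -/
theorem IsBM.P_comm (h : IsBM Sq) (i k : ℕ) (hi : 1 ≤ i) (hk : 1 ≤ k) :
    P Sq i * P Sq k = P Sq k * P Sq i := by
  rcases lt_trichotomy i k with hlt | heq | hgt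
  · exact h.P_comm_lt i k hi hlt
  · rw [heq]
  · exact (h.P_comm_lt k i hk hgt).symm

/-! ### Adem relations -/

lemma cast_choose_two_pow_add (K m l : ℕ) (hl : l < 2 ^ K) :
    ((Nat.choose (2 ^ K + m) l : ℕ) : ZMod 2) = (Nat.choose m l : ℕ) := by
  have h1 : ((X + 1) ^ (2 ^ K + m) : (ZMod 2)[X]) = X ^ 2 ^ K * (X + 1) ^ m + (X + 1) ^ m := by
    rw [pow_add, add_pow_char_pow, one_pow, add_mul, one_mul]
  have h2 := congrArg (fun f => Polynomial.coeff f l) h1
  simp only [Polynomial.coeff_add, Polynomial.coeff_X_add_one_pow, Polynomial.coeff_X_pow_mul'] at h2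
  rw [if_neg (by omega), zero_add] at h2
  exact h2

lemma cast_choose_lucas (n k : ℕ) : ((Nat.choose n k : ℕ) : ZMod 2) =
    (Nat.choose (n % 2) (k % 2) : ℕ) * (Nat.choose (n / 2) (k / 2) : ℕ) := by
  rw [← Nat.cast_mul]
  exact (ZMod.natCast_eq_natCast_iff _ _ _).2 (Choose.choose_modEq_choose_mod_mul_choose_div_nat)

lemma cast_choose_sub (K k : ℕ) (hk : k < 2 ^ K) :
    ((Nat.choose (2 ^ K - 1 - k) k : ℕ) : ZMod 2) = if k = 0 then 1 else 0 := by
  induction K generalizing k with
  | zero =>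
    have : k = 0 := by simpa using hk
    subst this; simp
  | succ K ih =>
    rw [cast_choose_lucas]
    rw [pow_succ] at hk ⊢
    rcases Nat.even_or_odd' k with ⟨l, hl | hl⟩
    · have hl' : l < 2 ^ K := by omega
      rw [show (2 ^ K * 2 - 1 - k) % 2 = 1 by omega, show k % 2 = 0 by omega,
        show (2 ^ K * 2 - 1 - k) / 2 = 2 ^ K - 1 - l by omega, show k / 2 = l by omega, ih l hl']
      by_cases h0 : l = 0
      · rw [if_pos h0, if_pos (by omega)]; simp
      · rw [if_neg h0, if_neg (by omega)]; simp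
    · rw [show (2 ^ K * 2 - 1 - k) % 2 = 0 by omega, show k % 2 = 1 by omega]
      rw [if_neg (by omega)]
      simp

/-- **Adem relations** -/
theorem IsBM.adem (h : IsBM Sq) (a b : ℕ) (hab : a < 2 * b) :
    Sq a * Sq b = ∑ j ∈ range (a / 2 + 1),
      ((Nat.choose (b - 1 - j) (a - 2 * j) : ℕ) : ZMod 2) • (Sq (a + b - j) * Sq j) := by
  obtain ⟨K, hK⟩ : ∃ K, 2 * (a + b) < 2 ^ K := ⟨2 * (a + b), Nat.lt_two_pow_self⟩
  set v : (ZMod 2)[X] := (X + 1) ^ (2 ^ K - a - 1) with hv
  have h1 := congrArg (PowerSeries.coeff (a + b)) h.poly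
  rw [coeff_th_pw_mul, coeff_th_pw_mul] at h1
  have h2 := congrArg (fun f => Polynomial.coeff (z v * f) a) h1
  simp only [Finset.mul_sum, Polynomial.finsetSum_coeff, ← mul_assoc, ← map_mul,
    coeff_z_mul_C] at h2
  have hl : ∑ p ∈ antidiagonal (a + b), (v * (X * (X + 1)) ^ p.1 * 1 ^ p.2 : (ZMod 2)[X]).coeff a •
      (Sq p.1 * Sq p.2) = Sq a * Sq b := by
    rw [Finset.sum_eq_single (a, b)]
    · have : (v * (X * (X + 1)) ^ a * 1 ^ b : (ZMod 2)[X]).coeff a = 1 := by
        rw [one_pow, mul_one, hv, mul_pow, mul_left_comm, ← pow_add, Polynomial.coeff_X_pow_mul',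
          if_pos le_rfl, Nat.sub_self, Polynomial.coeff_X_add_one_pow, Nat.choose_zero_right,
          Nat.cast_one]
      rw [this, one_smul]
    · intro p hp hne
      have hp' := Finset.HasAntidiagonal.mem_antidiagonal.1 hp
      have : (v * (X * (X + 1)) ^ p.1 * 1 ^ p.2 : (ZMod 2)[X]).coeff a = 0 := by
        rw [one_pow, mul_one, hv, mul_pow, mul_left_comm, ← pow_add, Polynomial.coeff_X_pow_mul']
        split_ifs with h3
        · rw [Polynomial.coeff_X_add_one_pow]
          have h4 : 2 ^ K - a - 1 + p.1 = 2 ^ K - 1 - (a - p.1) := by omega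
          rw [h4, cast_choose_sub K _ (by omega), if_neg]
          intro h5
          apply hne
          ext
          · show p.1 = a
            omega
          · show p.2 = b
            omega
        · rfl
      rw [this, zero_smul]
    · intro h3
      exact absurd (Finset.HasAntidiagonal.mem_antidiagonal.2 (show a + b = a + b from rfl)) h3
  rw [hl] at h2
  rw [h2]
  have hsub : ∀ j ∈ range (a / 2 + 1), (a + b - j, j) ∈ antidiagonal (a + b) := by
    intro j hj
    rw [Finset.mem_range] at hj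
    exact Finset.HasAntidiagonal.mem_antidiagonal.2 (by show a + b - j + j = a + b; omega)
  have hc : ∀ p : ℕ × ℕ, p ∈ antidiagonal (a + b) →
      (v * (X + 1) ^ p.1 * (X ^ 2) ^ p.2 : (ZMod 2)[X]).coeff a =
        if 2 * p.2 ≤ a then ((Nat.choose (b - 1 - p.2) (a - 2 * p.2) : ℕ) : ZMod 2) else 0 := by
    intro p hp
    have hp' := Finset.HasAntidiagonal.mem_antidiagonal.1 hp
    rw [← pow_mul, Polynomial.coeff_mul_X_pow', hv, ← pow_add]
    split_ifs with h3
    · rw [Polynomial.coeff_X_add_one_pow,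
        show 2 ^ K - a - 1 + p.1 = 2 ^ K + (b - 1 - p.2) by omega,
        cast_choose_two_pow_add _ _ _ (by omega)]
    · rfl
  rw [Finset.sum_congr rfl fun p hp => by rw [hc p hp]]
  symm
  refine (Finset.sum_bij_ne_zero (fun j _ _ => (a + b - j, j)) ?_ ?_ ?_ ?_)
  · intro j hj _
    exact hsub j hj
  · intro j hj _ j' hj' _ he
    exact (Prod.ext_iff.1 he).2
  · intro p hp hne
    have hp' := Finset.HasAntidiagonal.mem_antidiagonal.1 hp
    have h3 : 2 * p.2 ≤ a := by
      by_contra h4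
      rw [if_neg h4, zero_smul] at hne
      exact hne rfl
    refine ⟨p.2, Finset.mem_range.2 (by omega), ?_, ?_⟩
    · rw [if_pos h3] at hne
      rwa [show a + b - p.2 = p.1 by omega]
    · ext
      · show a + b - p.2 = p.1
        omega
      · rfl
  · intro j hj _
    rw [Finset.mem_range] at hj
    simp only
    rw [if_pos (by omega)]

end Crest.Agent.R204.StMod85
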