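import Mathlib
import Crest.Agent.R204.SpecF_166
import Crest.Agent.R204.StMod_85

/-!
# Row 204, block F-B (helper166): Milnor operators of the extension, 6.1 and 6.2
-/

set_option autoImplicit false

noncomputable section

namespace Crest.Agent.R204.F166

open MvPolynomial Crest.Agent.R204 Crest.Agent.R204.Spine693

/-! ### abstract Steenrod modules in the Spine form -/

theorem add_self2 {M : Type*} [AddCommGroup M] [Module F2 M] (x : M) : x + x = 0 :=
  StMod85.add_self' x

theorem bmc_eq (a i : ℕ) : Spine693.bmc a i = StMod85.bmc a i := by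
  unfold Spine693.bmc StMod85.bmc
  by_cases h : a ≤ i
  · rw [if_pos h, if_neg (by omega)]
  · rw [if_neg h, if_pos (by omega)]

section Abstract

variable {E : Type} [AddCommGroup E] [Module F2 E] {S : ℕ → (E →ₗ[F2] E)}

theorem phi_eq (n i : ℕ) : StMod85.phi (R := Module.End F2 E) S n i =
    ∑ a ∈ Finset.range (n + 1), Spine693.bmc a i • (S a ∘ₗ S (n - a)) := by
  unfold StMod85.phi
  rw [Finset.Nat.sum_antidiagonal_eq_sum_range_succ_mk]
  refine Finset.sum_congr rfl fun a _ => ?_
  rw [bmc_eq]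
  rfl

theorem BM.isBM (h0 : S 0 = LinearMap.id) (h : BM S) : StMod85.IsBM (R := Module.End F2 E) S where
  zero := h0
  bm := fun n i hi => by
    rw [phi_eq, phi_eq]
    exact h n i hi


theorem mil_eq (j : ℕ) (hj : 1 ≤ j) : mil S j = StMod85.P (R := Module.End F2 E) S j := by
  induction j, hj using Nat.le_induction with
  | base => rfl
  | succ j hj ih =>
    rw [StMod85.P_succ j hj, ← ih]
    obtain ⟨i, rfl⟩ : ∃ i, j = i + 1 := ⟨j - 1, by omega⟩
    rfl

theorem mil_comm (h0 : S 0 = LinearMap.id) (h : BM S) {i j : ℕ} (hi : 1 ≤ i) (hj : 1 ≤ j) (x : E) :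
    mil S i (mil S j x) = mil S j (mil S i x) := by
  have := (BM.isBM h0 h).P_comm i j hi hj
  rw [← mil_eq i hi, ← mil_eq j hj] at this
  exact LinearMap.congr_fun this x

theorem mil_sq (h0 : S 0 = LinearMap.id) (h : BM S) {j : ℕ} (hj : 1 ≤ j) (x : E) :
    mil S j (mil S j x) = 0 := by
  have := (BM.isBM h0 h).P_sq j hj
  rw [← mil_eq j hj] at this
  exact LinearMap.congr_fun this x


/-- `Sq^1 Sq^n = (n+1) Sq^{n+1}` -/
theorem sq_one_sq (h0 : S 0 = LinearMap.id) (h : BM S) (n : ℕ) (x : E) :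
    S 1 (S n x) = ((n + 1 : ℕ) : F2) • S (n + 1) x := by
  have := (BM.isBM h0 h).sq_one n
  have h2 := LinearMap.congr_fun this x
  rw [Nat.cast_smul_eq_nsmul]
  exact h2

theorem sq_odd (h0 : S 0 = LinearMap.id) (h : BM S) (n : ℕ) (hn : Even n) (x : E) :
    S (n + 1) x = S 1 (S n x) := by
  rw [sq_one_sq h0 h]
  obtain ⟨m, rfl⟩ := hn
  have : ((m + m + 1 : ℕ) : F2) = 1 := by
    have h2 : (2 : F2) = 0 := rfl
    push_cast
    rw [← two_mul, h2, zero_mul, zero_add]
  rw [this, one_smul]

theorem mil_succ (j : ℕ) (hj : 1 ≤ j) (x : E) :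
    mil S (j + 1) x = S (2 ^ j) (mil S j x) + mil S j (S (2 ^ j) x) := by
  obtain ⟨i, rfl⟩ : ∃ i, j = i + 1 := ⟨j - 1, by omega⟩
  rfl

theorem mil_one (x : E) : mil S 1 x = S 1 x := rfl

end Abstract

/-! ### operators on `M_e` and on the extension -/

section Ext

variable {S : Dick} {r e : ℕ} {φ : ℕ → (M r e →ₗ[F2] F2)}

theorem ext_zero : extSq S r e φ 0 = LinearMap.id := by
  unfold extSq; rw [if_pos rfl]

theorem ext_apply {a : ℕ} (ha : 1 ≤ a) (g : M r e) (c : F2) :
    extSq S r e φ a (g, c) = (S.SqM r e a g, φ a g) := by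
  unfold extSq
  rw [if_neg (by omega)]
  simp

theorem SqM_coe (a : ℕ) (g : M r e) : ((S.SqM r e a g : M r e) : D (r + 1)) = S.Sq r a g := rfl

theorem SqM_zero : S.SqM r e 0 = LinearMap.id := by
  ext1 g
  apply Subtype.ext
  rw [SqM_coe, S.zero]
  rfl

theorem ext_fst (a : ℕ) (x : M r e × F2) : (extSq S r e φ a x).1 = S.SqM r e a x.1 := by
  obtain ⟨g, c⟩ := x
  rcases Nat.eq_zero_or_pos a with rfl | ha
  · rw [ext_zero, SqM_zero]; rfl
  · rw [ext_apply ha]

theorem mil_ext_fst (j : ℕ) (x : M r e × F2) :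
    (mil (extSq S r e φ) j x).1 = mil (S.SqM r e) j x.1 := by
  rcases Nat.eq_zero_or_pos j with rfl | hj
  · rfl
  · induction j, hj using Nat.le_induction generalizing x with
    | base => rw [mil_one, mil_one, ext_fst]
    | succ j hj ih =>
      rw [mil_succ j hj, mil_succ j hj, Prod.fst_add, ext_fst, ih, ih, ext_fst]

theorem mil_SqM_coe (j : ℕ) (g : M r e) :
    ((mil (S.SqM r e) j g : M r e) : D (r + 1)) = mil (S.Sq r) j g := by
  rcases Nat.eq_zero_or_pos j with rfl | hj
  · rfl
  · induction j, hj using Nat.le_induction generalizing g with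
    | base => rfl
    | succ j hj ih =>
      rw [mil_succ j hj, mil_succ j hj, Submodule.coe_add, SqM_coe, ih, ih, SqM_coe]

theorem mil_mem (j : ℕ) {g : D (r + 1)} (hg : g ∈ M r e) : mil (S.Sq r) j g ∈ M r e := by
  have := mil_SqM_coe (S := S) j (⟨g, hg⟩ : M r e)
  rw [← this]
  exact Subtype.mem _

theorem mil_ext_t {j : ℕ} (hj : 1 ≤ j) (c : F2) : mil (extSq S r e φ) j (0, c) = 0 := by
  induction j, hj using Nat.le_induction with
  | base => rw [mil_one, ext_apply le_rfl, map_zero, map_zero]; rfl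
  | succ j hj ih =>
    rw [mil_succ j hj, ih, map_zero, ext_apply Nat.one_le_two_pow, map_zero, map_zero, zero_add]
    exact map_zero _

/-- the functional `φ_{P_j}` -/
def phiP (S : Dick) (r e : ℕ) (φ : ℕ → (M r e →ₗ[F2] F2)) (j : ℕ) : M r e →ₗ[F2] F2 :=
  LinearMap.snd F2 _ _ ∘ₗ mil (extSq S r e φ) j ∘ₗ LinearMap.inl F2 _ _

theorem phiP_apply (j : ℕ) (g : M r e) : phiP S r e φ j g = (mil (extSq S r e φ) j (g, 0)).2 := rfl

theorem mil_ext_apply {j : ℕ} (hj : 1 ≤ j) (g : M r e) (c : F2) :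
    mil (extSq S r e φ) j (g, c) = (mil (S.SqM r e) j g, phiP S r e φ j g) := by
  have h1 : ((g, c) : M r e × F2) = (g, 0) + (0, c) := by simp
  rw [h1, map_add, mil_ext_t hj, add_zero]
  apply Prod.ext
  · exact mil_ext_fst j (g, 0)
  · rfl

theorem phiP_comm (h : BM (extSq S r e φ)) {i j : ℕ} (hi : 1 ≤ i) (hj : 1 ≤ j) (g : M r e) :
    phiP S r e φ i (mil (S.SqM r e) j g) = phiP S r e φ j (mil (S.SqM r e) i g) := by
  have := mil_comm ext_zero h hi hj (g, 0)
  rw [mil_ext_apply hj, mil_ext_apply hi, mil_ext_apply hi, mil_ext_apply hj] at this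
  exact (Prod.ext_iff.mp this).2

theorem phiP_sq (h : BM (extSq S r e φ)) {j : ℕ} (hj : 1 ≤ j) (g : M r e) :
    phiP S r e φ j (mil (S.SqM r e) j g) = 0 := by
  have := mil_sq ext_zero h hj (g, 0)
  rw [mil_ext_apply hj, mil_ext_apply hj] at this
  exact (Prod.ext_iff.mp this).2

theorem phiP_succ {j : ℕ} (hj : 1 ≤ j) (g : M r e) :
    phiP S r e φ (j + 1) g = φ (2 ^ j) (mil (S.SqM r e) j g) +
      phiP S r e φ j (S.SqM r e (2 ^ j) g) := by
  rw [phiP_apply, mil_succ j hj, ext_apply Nat.one_le_two_pow, mil_ext_apply hj,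
    ext_apply Nat.one_le_two_pow, mil_ext_apply hj]
  rfl

theorem phiP_one (g : M r e) : phiP S r e φ 1 g = φ 1 g := by
  rw [phiP_apply, mil_one, ext_apply le_rfl]

end Ext

/-! ### D-level facts used by block F (supplied by FA_550) -/

/-- D-level facts on the Dickson algebra with its Steenrod operations -/
structure Facts (S : Dick) : Prop where
  /-- `P_j`, `1 ≤ j < R = r+1`, on monomials -/
  mil_lt : ∀ (r : ℕ) (j : Fin (r + 1)), j ≠ 0 → ∀ s : Fin (r + 1) →₀ ℕ,
    mil (S.Sq r) j (monomial s 1) =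
      (s j : F2) • monomial (s + Finsupp.single 0 1 - Finsupp.single j 1) 1
  /-- `P_R` on monomials -/
  mil_top : ∀ (r : ℕ) (s : Fin (r + 1) →₀ ℕ),
    mil (S.Sq r) (r + 1) (monomial s 1) =
      ((∑ i, s i : ℕ) : F2) • monomial (s + Finsupp.single 0 1) 1
  /-- `Sq^a` raises the degree by `a` -/
  hom : ∀ (r a : ℕ) (g : D (r + 1)) (n : ℕ), IsWeightedHomogeneous (wt r) g n →
    IsWeightedHomogeneous (wt r) (S.Sq r a g) (n + a)

/-- the weighted degree of an exponent -/
abbrev wd (r : ℕ) (s : Fin (r + 1) →₀ ℕ) : ℕ := Finsupp.weight (wt r) s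

theorem wd_eq (r : ℕ) (s : Fin (r + 1) →₀ ℕ) : wd r s = ∑ i, s i * wt r i := by
  unfold wd
  rw [Finsupp.weight_apply, Finsupp.sum_fintype _ _ (fun i => by simp)]
  simp [smul_eq_mul]

theorem wt_zero_odd (r : ℕ) : Odd (wt r 0) := by
  unfold wt
  have : 1 ≤ 2 ^ (r + 1) := Nat.one_le_two_pow
  refine Nat.Even.sub_odd (by simpa using this) ?_ (by simp)
  exact (Nat.even_pow.2 ⟨even_two, by omega⟩)

theorem wt_even (r : ℕ) {j : Fin (r + 1)} (hj : j ≠ 0) : Even (wt r j) := by
  unfold wt
  have h1 : Even (2 ^ (r + 1)) := Nat.even_pow.2 ⟨even_two, by omega⟩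
  have h2 : Even (2 ^ (j : ℕ)) := Nat.even_pow.2 ⟨even_two, fun h => hj (Fin.ext h)⟩
  rw [Nat.even_sub (Nat.pow_le_pow_right (by norm_num) j.2.le)]
  exact iff_of_true h1 h2

theorem wd_parity (r : ℕ) (s : Fin (r + 1) →₀ ℕ) : Even (wd r s) ↔ Even (s 0) := by
  rw [wd_eq, Fin.sum_univ_succ]
  have h1 : Even (∑ i : Fin r, s i.succ * wt r i.succ) := by
    refine Finset.even_sum _ fun i _ => ?_
    exact (wt_even r (Fin.succ_ne_zero i)).mul_left _
  have h2 := wt_zero_odd r
  rw [Nat.even_add, Nat.even_mul]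
  have h3 : ¬ Even (wt r 0) := Nat.not_even_iff_odd.2 h2
  tauto

theorem homog_monomial (r : ℕ) (s : Fin (r + 1) →₀ ℕ) (c : F2) :
    IsWeightedHomogeneous (wt r) (monomial s c) (wd r s) :=
  isWeightedHomogeneous_monomial _ _ _ rfl

theorem mil_hom {S : Dick} (F : Facts S) (r : ℕ) {j : ℕ} (hj : 1 ≤ j) (g : D (r + 1)) (n : ℕ)
    (hg : IsWeightedHomogeneous (wt r) g n) :
    IsWeightedHomogeneous (wt r) (mil (S.Sq r) j g) (n + (2 ^ j - 1)) := by
  induction j, hj using Nat.le_induction generalizing g n with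
  | base => exact F.hom r 1 g n hg
  | succ j hj ih =>
    rw [mil_succ j hj]
    have h1 := F.hom r (2 ^ j) _ _ (ih g n hg)
    have h2 := ih _ _ (F.hom r (2 ^ j) g n hg)
    have e1 : n + (2 ^ j - 1) + 2 ^ j = n + (2 ^ (j + 1) - 1) := by
      have : 1 ≤ 2 ^ j := Nat.one_le_two_pow
      rw [pow_succ]; omega
    have e2 : n + 2 ^ j + (2 ^ j - 1) = n + (2 ^ (j + 1) - 1) := by
      have : 1 ≤ 2 ^ j := Nat.one_le_two_pow
      rw [pow_succ]; omega
    rw [e1] at h1
    rw [e2] at h2
    exact Submodule.add_mem (weightedHomogeneousSubmodule F2 (wt r) _) h1 h2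

/-! ### 6.1 -/

theorem annih_mil {S : Dick} {r k : ℕ} (f : M r k →ₗ[F2] F2)
    (hf : ∀ a, 1 ≤ a → f ∘ₗ S.SqM r k a = 0) {j : ℕ} (hj : 1 ≤ j) (g : M r k) :
    f (mil (S.SqM r k) j g) = 0 := by
  induction j, hj using Nat.le_induction generalizing g with
  | base => exact LinearMap.congr_fun (hf 1 le_rfl) g
  | succ j hj ih =>
    rw [mil_succ j hj, map_add, ih, add_zero]
    exact LinearMap.congr_fun (hf (2 ^ j) Nat.one_le_two_pow) _

theorem cast_odd {n : ℕ} (h : Odd n) : (n : F2) = 1 := by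
  obtain ⟨m, rfl⟩ := h
  have h2 : (2 : F2) = 0 := rfl
  push_cast
  rw [h2, zero_mul, zero_add]

theorem cast_even {n : ℕ} (h : Even n) : (n : F2) = 0 := by
  obtain ⟨m, rfl⟩ := h
  have h2 : (2 : F2) = 0 := rfl
  push_cast
  rw [← two_mul, h2, zero_mul]

/-- every monomial with `a_0 ≥ k+1` not of type A is `P_j` of a monomial of `M_k` -/
theorem exists_preimage {S : Dick} (F : Facts S) (r k : ℕ) (s : Fin (r + 1) →₀ ℕ)
    (hs : k + 1 ≤ s 0) (hA : ¬ TypeA s) :
    ∃ (j : ℕ) (u : Fin (r + 1) →₀ ℕ), 1 ≤ j ∧ j ≤ r + 1 ∧ k ≤ u 0 ∧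
      mil (S.Sq r) j (monomial u 1) = monomial s 1 := by
  by_cases h : ∀ j : Fin (r + 1), j ≠ 0 → Odd (s j)
  · have h2 : ¬ Odd (∑ j, s j) := fun h3 => hA ⟨h, h3⟩
    rw [Nat.not_odd_iff_even] at h2
    refine ⟨r + 1, s - Finsupp.single 0 1, by omega, le_rfl, ?_, ?_⟩
    · rw [Finsupp.tsub_apply, Finsupp.single_eq_same]; omega
    · rw [F.mil_top]
      have h3 : s - Finsupp.single 0 1 + Finsupp.single 0 1 = s := by
        ext i
        rw [Finsupp.add_apply, Finsupp.tsub_apply]
        by_cases hi : i = 0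
        · subst hi; rw [Finsupp.single_eq_same]; omega
        · rw [Finsupp.single_eq_of_ne (by simpa using hi)]; omega
      rw [h3]
      have h4 : ∑ j, s j = ∑ j, (s - Finsupp.single 0 1 : Fin (r + 1) →₀ ℕ) j + 1 := by
        conv_lhs => rw [← h3]
        simp only [Finsupp.add_apply, Finset.sum_add_distrib]
        congr 1
        rw [Finset.sum_eq_single (0 : Fin (r + 1))]
        · rw [Finsupp.single_eq_same]
        · intro b _ hb; exact Finsupp.single_eq_of_ne (by simpa using hb)
        · intro hb; exact absurd (Finset.mem_univ _) hb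
      have h5 : Odd (∑ j, (s - Finsupp.single 0 1 : Fin (r + 1) →₀ ℕ) j) := by
        rw [h4, Nat.even_add_one, Nat.not_even_iff_odd] at h2
        exact h2
      rw [cast_odd h5, one_smul]
  · simp only [not_forall] at h
    obtain ⟨j, hj0, hj⟩ := h
    rw [Nat.not_odd_iff_even] at hj
    refine ⟨j, s - Finsupp.single 0 1 + Finsupp.single j 1, ?_, by omega, ?_, ?_⟩
    · exact Nat.one_le_iff_ne_zero.2 fun h => hj0 (Fin.ext h)
    · rw [Finsupp.add_apply, Finsupp.tsub_apply, Finsupp.single_eq_same,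
        Finsupp.single_eq_of_ne (by simpa using hj0.symm)]
      omega
    · rw [F.mil_lt r j hj0]
      have h3 : s - Finsupp.single 0 1 + Finsupp.single j 1 + Finsupp.single 0 1 -
          Finsupp.single j 1 = s := by
        ext i
        rw [Finsupp.tsub_apply, Finsupp.add_apply, Finsupp.add_apply, Finsupp.tsub_apply]
        by_cases hi : i = 0
        · subst hi
          rw [Finsupp.single_eq_same, Finsupp.single_eq_of_ne (by simpa using hj0.symm)]; omega
        · rw [Finsupp.single_eq_of_ne (by simpa using hi)]; omega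
      rw [h3]
      have h5 : (s - Finsupp.single 0 1 + Finsupp.single j 1 : Fin (r + 1) →₀ ℕ) j = s j + 1 := by
        rw [Finsupp.add_apply, Finsupp.tsub_apply, Finsupp.single_eq_same,
          Finsupp.single_eq_of_ne (by simpa using hj0)]
        omega
      rw [h5, cast_odd (Even.add_one hj), one_smul]

/-- two linear maps agreeing on the monomials of `M_e` agree on `M_e` -/
theorem eqOn_M {A : Type*} [AddCommGroup A] [Module F2 A] {r e : ℕ} (f g : D (r + 1) →ₗ[F2] A)
    (h : ∀ s : Fin (r + 1) →₀ ℕ, e ≤ s 0 → f (monomial s 1) = g (monomial s 1)) :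
    ∀ x ∈ M r e, f x = g x := by
  intro x hx
  have h1 : x = ∑ s ∈ x.support, monomial s (x.coeff s) := (support_sum_monomial_coeff x).symm
  rw [h1, map_sum, map_sum]
  refine Finset.sum_congr rfl fun s hs => ?_
  have h2 : (monomial s (x.coeff s) : D (r + 1)) = x.coeff s • monomial s 1 := by
    rw [smul_monomial, smul_eq_mul, mul_one]
  rw [h2, map_smul, map_smul, h s (hx s (mem_support_iff.1 hs))]

/-- **Lemma 6.1** -/
theorem lem61 {S : Dick} (F : Facts S) : Lem61 S := by
  intro r k f hf s hs hA g hg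
  obtain ⟨j, u, hj, _, hu, huj⟩ := exists_preimage F r k s hs hA
  have h1 : g = mil (S.SqM r k) j ⟨monomial u 1, monomial_mem_M hu 1⟩ := by
    apply Subtype.ext
    rw [mil_SqM_coe, hg, huj]
  rw [h1]
  exact annih_mil f hf hj _

/-! ### 6.2 : normal form of the extension -/

section Split

variable {S : Dick} {r e : ℕ} {φ : ℕ → (M r e →ₗ[F2] F2)}

/-- `φ_a` is concentrated in internal degree `T - a` -/
def ConcT (r e T : ℕ) (φ : ℕ → (M r e →ₗ[F2] F2)) : Prop :=
  ∀ a, 1 ≤ a → ∀ (g : M r e) (i : ℕ), IsWeightedHomogeneous (wt r) (g : D (r + 1)) i →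
    i + a ≠ T → φ a g = 0

theorem phiP_conc (F : Facts S) {T : ℕ} (hc : ConcT r e T φ) {j : ℕ} (hj : 1 ≤ j) (g : M r e)
    (i : ℕ) (hg : IsWeightedHomogeneous (wt r) (g : D (r + 1)) i) (hi : i + (2 ^ j - 1) ≠ T) :
    phiP S r e φ j g = 0 := by
  induction j, hj using Nat.le_induction generalizing g i with
  | base => rw [phiP_one]; exact hc 1 le_rfl g i hg (by simpa using hi)
  | succ j hj ih =>
    have h1 : 1 ≤ 2 ^ j := Nat.one_le_two_pow
    have h2 : 2 ^ (j + 1) = 2 ^ j + 2 ^ j := by rw [pow_succ]; omega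
    rw [phiP_succ hj, hc (2 ^ j) h1 _ (i + (2 ^ j - 1)) _ (by omega), zero_add]
    · refine ih _ (i + 2 ^ j) ?_ (by omega)
      rw [SqM_coe]
      exact F.hom r _ _ _ hg
    · rw [mil_SqM_coe]
      exact mil_hom F r hj _ _ hg

/-- `φ_{P_j}` extended by zero to `D` -/
def Ph (S : Dick) (r e : ℕ) (φ : ℕ → (M r e →ₗ[F2] F2)) (j : ℕ) : D (r + 1) →ₗ[F2] F2 :=
  extD (phiP S r e φ j)

theorem Ph_apply (j : ℕ) (g : D (r + 1)) (hg : g ∈ M r e) :
    Ph S r e φ j g = phiP S r e φ j ⟨g, hg⟩ := extD_apply _ _ _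

theorem Ph_mil (i j : ℕ) (g : D (r + 1)) (hg : g ∈ M r e) :
    Ph S r e φ i (mil (S.Sq r) j g) = phiP S r e φ i (mil (S.SqM r e) j ⟨g, hg⟩) := by
  rw [Ph_apply i _ (mil_mem j hg)]
  congr 1
  exact Subtype.ext (mil_SqM_coe j ⟨g, hg⟩).symm

theorem Ph_comm (h : BM (extSq S r e φ)) {i j : ℕ} (hi : 1 ≤ i) (hj : 1 ≤ j) (g : D (r + 1))
    (hg : g ∈ M r e) :
    Ph S r e φ i (mil (S.Sq r) j g) = Ph S r e φ j (mil (S.Sq r) i g) := by
  rw [Ph_mil i j g hg, Ph_mil j i g hg, phiP_comm h hi hj]

theorem Ph_sq (h : BM (extSq S r e φ)) {i : ℕ} (hi : 1 ≤ i) (g : D (r + 1))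
    (hg : g ∈ M r e) : Ph S r e φ i (mil (S.Sq r) i g) = 0 := by
  rw [Ph_mil i i g hg, phiP_sq h hi]

theorem Ph_conc (F : Facts S) {T : ℕ} (hc : ConcT r e T φ) {j : ℕ} (hj : 1 ≤ j)
    (s : Fin (r + 1) →₀ ℕ) (hi : wd r s + (2 ^ j - 1) ≠ T) : Ph S r e φ j (monomial s 1) = 0 := by
  by_cases hs : e ≤ s 0
  · rw [Ph_apply j _ (monomial_mem_M hs 1)]
    exact phiP_conc F hc hj _ (wd r s) (homog_monomial r s 1) hi
  · have := (basisMonomials (Fin (r + 1)) F2).constr_basis F2
      (fun s => if h : e ≤ s 0 then phiP S r e φ j ⟨monomial s 1, monomial_mem_M h 1⟩ else 0) s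
    rw [coe_basisMonomials, dif_neg hs] at this
    exact this

open Classical in
/-- the functional `λ` on monomials -/
def lamE (S : Dick) (r e : ℕ) (φ : ℕ → (M r e →ₗ[F2] F2)) (s : Fin (r + 1) →₀ ℕ) : F2 :=
  if e < s 0 then
    if Even (∑ i, s i) then Ph S r e φ (r + 1) (monomial (s - Finsupp.single 0 1) 1)
    else if h : ∃ i : Fin (r + 1), i ≠ 0 ∧ Even (s i) then
      Ph S r e φ h.choose (monomial (s - Finsupp.single 0 1 + Finsupp.single h.choose 1) 1)
    else 0
  else 0

/-- the functional `λ` -/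
def lam (S : Dick) (r e : ℕ) (φ : ℕ → (M r e →ₗ[F2] F2)) : D (r + 1) →ₗ[F2] F2 :=
  (basisMonomials (Fin (r + 1)) F2).constr F2 (lamE S r e φ)

theorem lam_monomial (s : Fin (r + 1) →₀ ℕ) :
    lam S r e φ (monomial s 1) = lamE S r e φ s := by
  have := (basisMonomials (Fin (r + 1)) F2).constr_basis F2 (lamE S r e φ) s
  rw [coe_basisMonomials] at this
  exact this

theorem wd_add (r : ℕ) (s t : Fin (r + 1) →₀ ℕ) : wd r (s + t) = wd r s + wd r t := map_add _ _ _

theorem wd_single (r : ℕ) (i : Fin (r + 1)) : wd r (Finsupp.single i 1) = wt r i := by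
  unfold wd
  rw [Finsupp.weight_apply, Finsupp.sum_single_index (by simp), one_smul]

theorem sub_add_single {r : ℕ} {s : Fin (r + 1) →₀ ℕ} {i : Fin (r + 1)} (h : 1 ≤ s i) :
    s - Finsupp.single i 1 + Finsupp.single i 1 = s := by
  ext l
  rw [Finsupp.add_apply, Finsupp.tsub_apply]
  by_cases hl : l = i
  · subst hl; rw [Finsupp.single_eq_same]; omega
  · rw [Finsupp.single_eq_of_ne (by simpa using hl)]; omega

theorem lamE_conc (F : Facts S) {T : ℕ} (hc : ConcT r e T φ) (s : Fin (r + 1) →₀ ℕ)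
    (hs : wd r s ≠ T) : lamE S r e φ s = 0 := by
  unfold lamE
  by_cases h0 : e < s 0
  · rw [if_pos h0]
    have h1 : wd r (s - Finsupp.single 0 1) + (2 ^ (r + 1) - 1) = wd r s := by
      have := sub_add_single (s := s) (i := 0) (by omega)
      conv_rhs => rw [← this]
      rw [wd_add, wd_single]
      rfl
    by_cases h2 : Even (∑ i, s i)
    · rw [if_pos h2]
      exact Ph_conc F hc (by omega) _ (by omega)
    · rw [if_neg h2]
      by_cases h3 : ∃ i : Fin (r + 1), i ≠ 0 ∧ Even (s i)
      · rw [dif_pos h3]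
        have h4 := h3.choose_spec.1
        refine Ph_conc F hc (Nat.one_le_iff_ne_zero.2 fun h => h4 (Fin.ext h)) _ ?_
        rw [wd_add, wd_single]
        have h5 : 2 ^ (h3.choose : ℕ) ≤ 2 ^ (r + 1) :=
          Nat.pow_le_pow_right (by norm_num) h3.choose.2.le
        have h6 : 1 ≤ 2 ^ (h3.choose : ℕ) := Nat.one_le_two_pow
        unfold wt
        omega
      · rw [dif_neg h3]
  · rw [if_neg h0]

theorem lam_conc (F : Facts S) {T : ℕ} (hc : ConcT r e T φ) (g : D (r + 1)) (n : ℕ)
    (hg : IsWeightedHomogeneous (wt r) g n) (hn : n ≠ T) : lam S r e φ g = 0 := by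
  rw [← support_sum_monomial_coeff g, map_sum]
  refine Finset.sum_eq_zero fun s hs => ?_
  have h2 : (monomial s (g.coeff s) : D (r + 1)) = g.coeff s • monomial s 1 := by
    rw [smul_monomial, smul_eq_mul, mul_one]
  have h3 : wd r s = n := hg (mem_support_iff.1 hs)
  rw [h2, map_smul, lam_monomial, lamE_conc F hc s (by omega), smul_zero]

theorem sum_add_single {r : ℕ} (s : Fin (r + 1) →₀ ℕ) (i : Fin (r + 1)) :
    ∑ l, (s + Finsupp.single i 1 : Fin (r + 1) →₀ ℕ) l = ∑ l, s l + 1 := by
  simp only [Finsupp.add_apply, Finset.sum_add_distrib]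
  congr 1
  rw [Finset.sum_eq_single i]
  · rw [Finsupp.single_eq_same]
  · intro b _ hb; exact Finsupp.single_eq_of_ne (by simpa using hb)
  · intro hb; exact absurd (Finset.mem_univ _) hb

theorem sum_sub_single {r : ℕ} (s : Fin (r + 1) →₀ ℕ) {i : Fin (r + 1)} (h : 1 ≤ s i) :
    ∑ l, (s - Finsupp.single i 1 : Fin (r + 1) →₀ ℕ) l + 1 = ∑ l, s l := by
  conv_rhs => rw [← sub_add_single h]
  rw [sum_add_single]

theorem add_sub_single {r : ℕ} (s : Fin (r + 1) →₀ ℕ) (i : Fin (r + 1)) :
    s + Finsupp.single i 1 - Finsupp.single i 1 = s := add_tsub_cancel_right _ _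

theorem single_ne {r : ℕ} {i l : Fin (r + 1)} (h : l ≠ i) :
    (Finsupp.single i 1 : Fin (r + 1) →₀ ℕ) l = 0 := Finsupp.single_eq_of_ne (by simpa using h)

/-- the claim for `j ≤ R = r+1`, on monomials -/
theorem claim_mono (F : Facts S) {T : ℕ} (hBM : BM (extSq S r e φ)) (hc : ConcT r e T φ)
    (hpar : Even (T + e)) {j : ℕ} (hj : 1 ≤ j) (hj2 : j ≤ r + 1)
    (s : Fin (r + 1) →₀ ℕ) (hs : e ≤ s 0) :
    Ph S r e φ j (monomial s 1) = lam S r e φ (mil (S.Sq r) j (monomial s 1)) := by
  by_cases hdeg : wd r s + (2 ^ j - 1) = T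
  swap
  · rw [Ph_conc F hc hj s hdeg]
    rw [lam_conc F hc _ _ (mil_hom F r hj _ _ (homog_monomial r s 1)) hdeg]
  -- parity
  have hs1 : e + 1 ≤ s 0 := by
    have h1 : ¬ (s 0 = e) := by
      intro h0
      have h2 := wd_parity r s
      rw [h0] at h2
      have h3 : Odd (2 ^ j - 1) := by
        have : Even (2 ^ j) := Nat.even_pow.2 ⟨even_two, by omega⟩
        have h5 : 1 ≤ 2 ^ j := Nat.one_le_two_pow
        obtain ⟨m, hm⟩ := this
        exact ⟨m - 1, by omega⟩
      rw [← hdeg] at hpar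
      have h4 : Even (wd r s + e) := by
        rw [Nat.even_add]; exact h2
      have h6 : wd r s + (2 ^ j - 1) + e = (wd r s + e) + (2 ^ j - 1) := by ring
      rw [h6] at hpar
      exact (Nat.not_even_iff_odd.2 (h4.add_odd h3)) hpar
    omega
  rcases hj2.eq_or_lt with rfl | hjlt
  · -- `j = R`
    rw [F.mil_top, map_smul, lam_monomial]
    by_cases hodd : Odd (∑ i, s i)
    · rw [cast_odd hodd, one_smul]
      unfold lamE
      rw [if_pos, if_pos, add_sub_single]
      · rw [sum_add_single]; exact hodd.add_one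
      · rw [Finsupp.add_apply, Finsupp.single_eq_same]; omega
    · rw [Nat.not_odd_iff_even] at hodd
      rw [cast_even hodd, zero_smul]
      have h1 := sum_sub_single s (i := 0) (by omega)
      have h2 : Odd (∑ l, (s - Finsupp.single 0 1 : Fin (r + 1) →₀ ℕ) l) := by
        rw [← h1, Nat.even_add_one, Nat.not_even_iff_odd] at hodd; exact hodd
      have h3 : mil (S.Sq r) (r + 1) (monomial (s - Finsupp.single 0 1) 1) = monomial s 1 := by
        rw [F.mil_top, cast_odd h2, one_smul, sub_add_single (by omega)]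
      rw [← h3]
      refine Ph_sq hBM (by omega) _ (monomial_mem_M ?_ 1)
      rw [Finsupp.tsub_apply, Finsupp.single_eq_same]; omega
  · -- `1 ≤ j ≤ r`
    obtain ⟨jf, rfl⟩ : ∃ jf : Fin (r + 1), (jf : ℕ) = j := ⟨⟨j, hjlt⟩, rfl⟩
    have hj0 : jf ≠ 0 := by
      rintro rfl
      simp at hj
    rw [F.mil_lt r jf hj0, map_smul, lam_monomial]
    by_cases hodd : Odd (∑ i, s i)
    · by_cases hsj : Odd (s jf)
      · -- main case
        rw [cast_odd hsj, one_smul]
        set g := s + Finsupp.single 0 1 - Finsupp.single jf 1 with hg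
        have hsj1 : 1 ≤ s jf := by
          obtain ⟨m, hm⟩ := hsj; omega
        have g0 : g 0 = s 0 + 1 := by
          rw [hg, Finsupp.tsub_apply, Finsupp.add_apply, Finsupp.single_eq_same,
            single_ne hj0.symm]
          omega
        have gj : g jf + 1 = s jf := by
          rw [hg, Finsupp.tsub_apply, Finsupp.add_apply, Finsupp.single_eq_same, single_ne hj0]
          omega
        have gsum : ∑ l, g l = ∑ l, s l := by
          have h1 := sum_sub_single (s + Finsupp.single 0 1) (i := jf) (by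
            rw [Finsupp.add_apply]; omega)
          rw [sum_add_single] at h1
          rw [hg]; omega
        have hne : ¬ Even (∑ l, g l) := by rw [gsum, Nat.not_even_iff_odd]; exact hodd
        have hgj : Even (g jf) := by
          rw [← gj, Nat.odd_add_one, Nat.not_odd_iff_even] at hsj; exact hsj
        have hex : ∃ i : Fin (r + 1), i ≠ 0 ∧ Even (g i) := ⟨jf, hj0, hgj⟩
        have hlam : lamE S r e φ g = Ph S r e φ hex.choose
            (monomial (g - Finsupp.single 0 1 + Finsupp.single hex.choose 1) 1) := by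
          unfold lamE
          rw [if_pos (by omega), if_neg hne, dif_pos hex]
        rw [hlam]
        obtain ⟨hi0, hieven⟩ := hex.choose_spec
        generalize hex.choose = i at hi0 hieven
        have gback : g - Finsupp.single 0 1 + Finsupp.single jf 1 = s := by
          ext l
          rw [Finsupp.add_apply, Finsupp.tsub_apply]
          by_cases hl0 : l = 0
          · subst hl0
            rw [Finsupp.single_eq_same, single_ne hj0.symm]; omega
          · rw [single_ne hl0]
            by_cases hlj : l = jf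
            · subst hlj; rw [Finsupp.single_eq_same]; omega
            · rw [single_ne hlj, hg, Finsupp.tsub_apply, Finsupp.add_apply, single_ne hl0,
                single_ne hlj]
              omega
        by_cases hij : i = jf
        · subst hij
          rw [gback]
        · set y := g - Finsupp.single 0 1 - Finsupp.single 0 1 + Finsupp.single i 1 +
            Finsupp.single jf 1 with hy
          have y0 : y 0 + 2 = g 0 := by
            rw [hy, Finsupp.add_apply, Finsupp.add_apply, Finsupp.tsub_apply, Finsupp.tsub_apply,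
              Finsupp.single_eq_same, single_ne hi0.symm, single_ne hj0.symm]
            omega
          have yi : y i = g i + 1 := by
            rw [hy, Finsupp.add_apply, Finsupp.add_apply, Finsupp.tsub_apply, Finsupp.tsub_apply,
              Finsupp.single_eq_same, single_ne hi0, single_ne hij]
            omega
          have yj : y jf = g jf + 1 := by
            rw [hy, Finsupp.add_apply, Finsupp.add_apply, Finsupp.tsub_apply, Finsupp.tsub_apply,
              Finsupp.single_eq_same, single_ne hj0, single_ne (Ne.symm hij)]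
            omega
          have e1 : y + Finsupp.single 0 1 - Finsupp.single jf 1 =
              g - Finsupp.single 0 1 + Finsupp.single i 1 := by
            ext l
            rw [hy]
            simp only [Finsupp.add_apply, Finsupp.tsub_apply]
            by_cases hl0 : l = 0
            · subst hl0
              rw [Finsupp.single_eq_same, single_ne hj0.symm, single_ne hi0.symm]; omega
            · rw [single_ne hl0]; omega
          have e2 : y + Finsupp.single 0 1 - Finsupp.single i 1 = s := by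
            rw [← gback]
            ext l
            rw [hy]
            simp only [Finsupp.add_apply, Finsupp.tsub_apply]
            by_cases hl0 : l = 0
            · subst hl0
              rw [Finsupp.single_eq_same, single_ne hj0.symm, single_ne hi0.symm]; omega
            · rw [single_ne hl0]; omega
          have hyM : (monomial y 1 : D (r + 1)) ∈ M r e := monomial_mem_M (by omega) 1
          have m1 : mil (S.Sq r) jf (monomial y 1) =
              monomial (g - Finsupp.single 0 1 + Finsupp.single i 1) 1 := by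
            rw [F.mil_lt r jf hj0, yj, cast_odd hgj.add_one, one_smul, e1]
          have m2 : mil (S.Sq r) i (monomial y 1) = monomial s 1 := by
            rw [F.mil_lt r i hi0, yi, cast_odd hieven.add_one, one_smul, e2]
          rw [← m1, ← m2]
          exact Ph_comm hBM hj (Nat.one_le_iff_ne_zero.2 fun h => hi0 (Fin.ext h)) _ hyM
      · rw [Nat.not_odd_iff_even] at hsj
        rw [cast_even hsj, zero_smul]
        have h1 : (s - Finsupp.single 0 1 + Finsupp.single jf 1 : Fin (r + 1) →₀ ℕ) jf =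
            s jf + 1 := by
          rw [Finsupp.add_apply, Finsupp.tsub_apply, Finsupp.single_eq_same, single_ne hj0]
          omega
        have h2 : mil (S.Sq r) jf (monomial (s - Finsupp.single 0 1 + Finsupp.single jf 1) 1) =
            monomial s 1 := by
          have e6 : s - Finsupp.single 0 1 + Finsupp.single jf 1 + Finsupp.single 0 1 -
              Finsupp.single jf 1 = s := by
            ext l
            simp only [Finsupp.add_apply, Finsupp.tsub_apply]
            by_cases hl0 : l = 0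
            · subst hl0
              rw [Finsupp.single_eq_same, single_ne hj0.symm]; omega
            · rw [single_ne hl0]; omega
          rw [F.mil_lt r jf hj0, h1, cast_odd hsj.add_one, one_smul, e6]
        rw [← h2]
        refine Ph_sq hBM hj _ (monomial_mem_M ?_ 1)
        rw [Finsupp.add_apply, Finsupp.tsub_apply, Finsupp.single_eq_same, single_ne hj0.symm]
        omega
    · rw [Nat.not_odd_iff_even] at hodd
      have h1 := sum_sub_single s (i := 0) (by omega)
      have h2 : Odd (∑ l, (s - Finsupp.single 0 1 : Fin (r + 1) →₀ ℕ) l) := by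
        rw [← h1, Nat.even_add_one, Nat.not_even_iff_odd] at hodd; exact hodd
      have h3 : mil (S.Sq r) (r + 1) (monomial (s - Finsupp.single 0 1) 1) = monomial s 1 := by
        rw [F.mil_top, cast_odd h2, one_smul, sub_add_single (by omega)]
      have hyM : (monomial (s - Finsupp.single 0 1) 1 : D (r + 1)) ∈ M r e := by
        refine monomial_mem_M ?_ 1
        rw [Finsupp.tsub_apply, Finsupp.single_eq_same]; omega
      have h4 : (s - Finsupp.single 0 1 : Fin (r + 1) →₀ ℕ) jf = s jf := by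
        rw [Finsupp.tsub_apply, single_ne hj0]; omega
      conv_lhs => rw [← h3]
      rw [Ph_comm hBM hj (by omega) _ hyM, F.mil_lt r jf hj0, map_smul, h4]
      by_cases hsj : Odd (s jf)
      · rw [cast_odd hsj, one_smul, one_smul]
        have hsj1 : 1 ≤ s jf := by
          obtain ⟨m, hm⟩ := hsj; omega
        have gsum : ∑ l, (s + Finsupp.single 0 1 - Finsupp.single jf 1 : Fin (r + 1) →₀ ℕ) l =
            ∑ l, s l := by
          have h1 := sum_sub_single (s + Finsupp.single 0 1) (i := jf) (by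
            rw [Finsupp.add_apply]; omega)
          rw [sum_add_single] at h1
          omega
        unfold lamE
        rw [if_pos, if_pos]
        · have e5 : s - Finsupp.single 0 1 + Finsupp.single 0 1 - Finsupp.single jf 1 =
              s + Finsupp.single 0 1 - Finsupp.single jf 1 - Finsupp.single 0 1 := by
            ext l
            simp only [Finsupp.add_apply, Finsupp.tsub_apply]
            by_cases hl0 : l = 0
            · subst hl0
              rw [Finsupp.single_eq_same, single_ne hj0.symm]; omega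
            · rw [single_ne hl0]; omega
          rw [e5]
        · rw [gsum]; exact hodd
        · rw [Finsupp.tsub_apply, Finsupp.add_apply, Finsupp.single_eq_same, single_ne hj0.symm]
          omega
      · rw [Nat.not_odd_iff_even] at hsj
        rw [cast_even hsj, zero_smul, zero_smul]

/-- the claim for `j ≤ R`, on `M_e` -/
theorem claim_le (F : Facts S) {T : ℕ} (hBM : BM (extSq S r e φ)) (hc : ConcT r e T φ)
    (hpar : Even (T + e)) {j : ℕ} (hj : 1 ≤ j) (hj2 : j ≤ r + 1) (g : D (r + 1)) (hg : g ∈ M r e) :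
    Ph S r e φ j g = lam S r e φ (mil (S.Sq r) j g) :=
  eqOn_M (Ph S r e φ j) (lam S r e φ ∘ₗ mil (S.Sq r) j)
    (fun s hs => claim_mono F hBM hc hpar hj hj2 s hs) g hg

/-- the claim for `j = R + 1`, on `M_e`, when `e ≡ R` mod 2 -/
theorem claim_succ (F : Facts S) {T : ℕ} (hBM : BM (extSq S r e φ)) (hc : ConcT r e T φ)
    (hpar : Even (T + e)) (hpar2 : Even (e + (r + 1))) (g : D (r + 1)) (hg : g ∈ M r e) :
    Ph S r e φ (r + 2) g = lam S r e φ (mil (S.Sq r) (r + 2) g) := by
  refine eqOn_M (Ph S r e φ (r + 2)) (lam S r e φ ∘ₗ mil (S.Sq r) (r + 2)) ?_ g hg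
  intro s hs
  rw [LinearMap.comp_apply]
  by_cases hdeg : wd r s + (2 ^ (r + 2) - 1) = T
  swap
  · rw [Ph_conc F hc (by omega) s hdeg,
      lam_conc F hc _ _ (mil_hom F r (by omega) _ _ (homog_monomial r s 1)) hdeg]
  have hs0 : ¬ Even (s 0 + e) := by
    intro h0
    have h2 := wd_parity r s
    have h3 : Odd (2 ^ (r + 2) - 1) := by
      have : Even (2 ^ (r + 2)) := Nat.even_pow.2 ⟨even_two, by omega⟩
      have h5 : 1 ≤ 2 ^ (r + 2) := Nat.one_le_two_pow
      obtain ⟨m, hm⟩ := this
      exact ⟨m - 1, by omega⟩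
    have h4 : Even (wd r s + e) := by
      rw [Nat.even_add] at h0 ⊢; tauto
    rw [← hdeg] at hpar
    have h6 : wd r s + (2 ^ (r + 2) - 1) + e = (wd r s + e) + (2 ^ (r + 2) - 1) := by ring
    rw [h6] at hpar
    exact (Nat.not_even_iff_odd.2 (h4.add_odd h3)) hpar
  have hs1 : e + 1 ≤ s 0 := by
    by_contra h1
    apply hs0
    have : s 0 = e := by omega
    rw [this]
    exact Even.add_self e
  have hA : ¬ TypeA s := by
    rintro ⟨h1, h2⟩
    apply hs0
    rw [Fin.sum_univ_succ] at h2
    have h3 : Even (∑ i : Fin r, s i.succ + r) := by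
      have : ∑ i : Fin r, s i.succ + r = ∑ i : Fin r, (s i.succ + 1) := by
        rw [Finset.sum_add_distrib]; simp
      rw [this]
      exact Finset.even_sum _ fun i _ => (h1 i.succ (Fin.succ_ne_zero i)).add_one
    have h4 : Odd (s 0 + r) := by
      have h5 : Odd (s 0 + ∑ i : Fin r, s i.succ + (∑ i : Fin r, s i.succ + r)) := h2.add_even h3
      have h6 : s 0 + ∑ i : Fin r, s i.succ + (∑ i : Fin r, s i.succ + r) =
        (s 0 + r) + 2 * ∑ i : Fin r, s i.succ := by ring
      rw [h6] at h5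
      rw [← Nat.not_even_iff_odd] at h5 ⊢
      intro h7
      exact h5 (h7.add (even_two_mul _))
    have h8 : Even ((s 0 + r) + 1 + (e + (r + 1))) := (h4.add_one).add hpar2
    have h9 : (s 0 + r) + 1 + (e + (r + 1)) = (s 0 + e) + 2 * (r + 1) := by ring
    rw [h9, Nat.even_add] at h8
    exact h8.2 (even_two_mul _)
  obtain ⟨i, u, hi, hi2, hu, hiu⟩ := exists_preimage F r e s hs1 hA
  have huM : (monomial u 1 : D (r + 1)) ∈ M r e := monomial_mem_M hu 1
  rw [← hiu, Ph_comm hBM (by omega) hi _ huM,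
    claim_le F hBM hc hpar hi hi2 _ (mil_mem (r + 2) huM),
    mil_comm (S.zero r) (S.bm r) hi (by omega)]

/-- the functional `λ` on `M_e` -/
def lamM (S : Dick) (r e : ℕ) (φ : ℕ → (M r e →ₗ[F2] F2)) : M r e →ₗ[F2] F2 :=
  lam S r e φ ∘ₗ (M r e).subtype

theorem phiP_eq_lam (F : Facts S) {T : ℕ} (hBM : BM (extSq S r e φ)) (hc : ConcT r e T φ)
    (hpar : Even (T + e)) (hpar2 : Even (e + (r + 1))) {j : ℕ} (hj : 1 ≤ j) (hj2 : j ≤ r + 2)
    (g : M r e) : phiP S r e φ j g = lamM S r e φ (mil (S.SqM r e) j g) := by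
  have h1 : Ph S r e φ j g = phiP S r e φ j g := Ph_apply j _ g.2
  have h2 : lamM S r e φ (mil (S.SqM r e) j g) = lam S r e φ (mil (S.Sq r) j g) := by
    unfold lamM
    rw [LinearMap.comp_apply, Submodule.subtype_apply, mil_SqM_coe]
  rw [← h1, h2]
  rcases hj2.eq_or_lt with rfl | hlt
  · exact claim_succ F hBM hc hpar hpar2 _ g.2
  · exact claim_le F hBM hc hpar hj (by omega) _ g.2

/-- change of splitting -/
def phiN (S : Dick) (r e : ℕ) (φ : ℕ → (M r e →ₗ[F2] F2)) (l : M r e →ₗ[F2] F2) :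
    ℕ → (M r e →ₗ[F2] F2) := fun a => φ a + l ∘ₗ S.SqM r e a

/-- the automorphism `(g, c) ↦ (g, c + λ g)` -/
def theta (r e : ℕ) (l : M r e →ₗ[F2] F2) : (M r e × F2) →ₗ[F2] (M r e × F2) :=
  LinearMap.id + LinearMap.inr F2 _ _ ∘ₗ l ∘ₗ LinearMap.fst F2 _ _

theorem theta_apply (l : M r e →ₗ[F2] F2) (g : M r e) (c : F2) :
    theta r e l (g, c) = (g, c + l g) := by
  unfold theta; simp

theorem theta_theta (l : M r e →ₗ[F2] F2) (x : M r e × F2) : theta r e l (theta r e l x) = x := by
  obtain ⟨g, c⟩ := x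
  rw [theta_apply, theta_apply, add_assoc, add_self2, add_zero]

theorem ext_phiN (l : M r e →ₗ[F2] F2) (a : ℕ) (x : M r e × F2) :
    extSq S r e (phiN S r e φ l) a x = theta r e l (extSq S r e φ a (theta r e l x)) := by
  rcases Nat.eq_zero_or_pos a with rfl | ha
  · rw [ext_zero, ext_zero, LinearMap.id_apply, LinearMap.id_apply, theta_theta]
  · obtain ⟨g, c⟩ := x
    rw [ext_apply ha, theta_apply, ext_apply ha, theta_apply]
    rfl

theorem BM_phiN (l : M r e →ₗ[F2] F2) (h : BM (extSq S r e φ)) :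
    BM (extSq S r e (phiN S r e φ l)) := by
  intro n i hi
  have h1 := h n i hi
  have key : ∀ k : ℕ, ∑ a ∈ Finset.range (n + 1), Spine693.bmc a k •
      (extSq S r e (phiN S r e φ l) a ∘ₗ extSq S r e (phiN S r e φ l) (n - a)) =
      theta r e l ∘ₗ (∑ a ∈ Finset.range (n + 1), Spine693.bmc a k •
        (extSq S r e φ a ∘ₗ extSq S r e φ (n - a))) ∘ₗ theta r e l := by
    intro k
    refine LinearMap.ext fun x => ?_
    simp only [LinearMap.sum_apply, LinearMap.comp_apply, LinearMap.smul_apply, map_sum, map_smul,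
      ext_phiN, theta_theta]
  rw [key, key, h1]

theorem mil_phiN (l : M r e →ₗ[F2] F2) {j : ℕ} (hj : 1 ≤ j) (x : M r e × F2) :
    mil (extSq S r e (phiN S r e φ l)) j x = theta r e l (mil (extSq S r e φ) j (theta r e l x)) := by
  induction j, hj using Nat.le_induction generalizing x with
  | base => rw [mil_one, mil_one, ext_phiN]
  | succ j hj ih =>
    rw [mil_succ j hj, mil_succ j hj, ih, ih, ext_phiN, ext_phiN, theta_theta, theta_theta, map_add]

theorem phiN_lam_zero (F : Facts S) {T : ℕ} (hBM : BM (extSq S r e φ)) (hc : ConcT r e T φ)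
    (hpar : Even (T + e)) (hpar2 : Even (e + (r + 1))) {j : ℕ} (hj : 1 ≤ j) (hj2 : j ≤ r + 2)
    (g : M r e) : (mil (extSq S r e (phiN S r e φ (lamM S r e φ))) j (g, 0)).2 = 0 := by
  rw [mil_phiN _ hj, theta_apply, mil_ext_apply hj, theta_apply,
    phiP_eq_lam F hBM hc hpar hpar2 hj hj2, add_self2]

theorem lamM_conc (F : Facts S) {T : ℕ} (hc : ConcT r e T φ) (g : M r e) (n : ℕ)
    (hg : IsWeightedHomogeneous (wt r) (g : D (r + 1)) n) (hn : n ≠ T) : lamM S r e φ g = 0 :=
  lam_conc F hc _ n hg hn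

theorem ConcT_phiN (F : Facts S) {T : ℕ} (hc : ConcT r e T φ) (l : M r e →ₗ[F2] F2)
    (hl : ∀ (g : M r e) (n : ℕ), IsWeightedHomogeneous (wt r) (g : D (r + 1)) n → n ≠ T → l g = 0) :
    ConcT r e T (phiN S r e φ l) := by
  intro a ha g i hg hi
  show φ a g + l (S.SqM r e a g) = 0
  rw [hc a ha g i hg hi, zero_add]
  exact hl _ _ (F.hom r a _ i hg) hi

end Split

/-- **6.2: normal form.** -/
theorem normalForm {S : Dick} (F : Facts S) {r e T : ℕ} (φ : ℕ → (M r e →ₗ[F2] F2))
    (hBM : BM (extSq S r e φ)) (hc : ConcT r e T φ) (hpar : Even (T + e))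
    (hpar2 : Even (e + (r + 1))) :
    ∃ l : M r e →ₗ[F2] F2,
      BM (extSq S r e (phiN S r e φ l)) ∧ ConcT r e T (phiN S r e φ l) ∧
      ∀ j, 1 ≤ j → j ≤ r + 2 → ∀ g : M r e,
        (mil (extSq S r e (phiN S r e φ l)) j (g, 0)).2 = 0 :=
  ⟨lamM S r e φ, BM_phiN _ hBM, ConcT_phiN F hc _ (lamM_conc F hc),
    fun _ hj hj2 g => phiN_lam_zero F hBM hc hpar hpar2 hj hj2 g⟩

end Crest.Agent.R204.F166
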