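import Mathlib
import Crest.Agent.R204.SpecF_166
import Crest.Agent.R204.StMod_85
import Crest.Agent.R204.FA3_550
import Crest.Agent.R204.SpineA_693
import Crest.Agent.R204.FB_166

-- ▼ part R204/FC_787
section

/-!
# Row 204, block F-C (helper787): halving (6.3 (ii), (iii))

`HalfInput S` = the facts on the Dickson algebra itself that are used;
`halving : HalfInput S → Halving S`, `halvingXi : HalfInput S → HalvingXi S`.
-/

set_option autoImplicit false

noncomputable section

namespace Crest.Agent.R204.FC787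

open MvPolynomial Crest.Agent.R204 Crest.Agent.R204.Spine693 Crest.Agent.R204.F166

/-- `∑_{1 ≤ j ≤ R} P_j M_k` -/
def NN (S : Dick) (r k : ℕ) : Submodule F2 (D (r + 1)) :=
  ⨆ j : {j : ℕ // 1 ≤ j ∧ j ≤ r + 1}, (M r k).map (mil (S.Sq r) j.1)

/-- the facts on the Dickson algebras used by the halving step -/
structure HalfInput (S : Dick) : Prop where
  /-- (3.3) `P_{R+1} M_k ⊆ ∑_{j ≤ R} P_j M_k` -/
  last : ∀ r k, ∀ g ∈ M r k, mil (S.Sq r) (r + 2) g ∈ NN S r k
  /-- the operator `P = P_1 ⋯ P_R` -/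
  top : ∀ r, ∃ P : D (r + 1) →ₗ[F2] D (r + 1),
    (∀ j, 1 ≤ j → j ≤ r + 1 → ∀ g, P (mil (S.Sq r) j g) = 0) ∧
    (∀ c, r ≤ 2 * c + 1 → ∀ f ∈ M r c, P (kap r f) = (X 0 * f) ^ 2)
  /-- 6.3 (ii) -/
  sq : ∀ r c a, r ≤ 2 * c → ∀ f ∈ M r c,
    S.Sq r (2 * a) (kap r f) + kap r (S.Sq r a f) ∈ NN S r (2 * c - r)

/-! ### linear algebra in characteristic two -/

lemma add_self2 {E : Type} [AddCommGroup E] [Module F2 E] (x : E) : x + x = 0 := by
  have h : (2 : F2) • x = 0 := by
    rw [show (2 : F2) = 0 from rfl, zero_smul]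
  rwa [two_smul] at h

lemma sub_eq_add2 {E : Type} [AddCommGroup E] [Module F2 E] (x y : E) : x - y = x + y := by
  rw [sub_eq_iff_eq_add, add_assoc, add_self2, add_zero]

/-! ### Milnor operators -/

section mil

variable {E : Type} [AddCommGroup E] [Module F2 E] (T : ℕ → (E →ₗ[F2] E))

lemma mil_succ_succ (j : ℕ) : mil T (j + 2) =
    T (2 ^ (j + 1)) ∘ₗ mil T (j + 1) + mil T (j + 1) ∘ₗ T (2 ^ (j + 1)) := rfl


/-- induction principle -/
lemma mil_ind {Q : (E →ₗ[F2] E) → Prop} (h1 : Q (T 1))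
    (h2 : ∀ (A : E →ₗ[F2] E) (j : ℕ), Q A → Q (T (2 ^ (j + 1)) ∘ₗ A + A ∘ₗ T (2 ^ (j + 1)))) :
    ∀ j, 1 ≤ j → Q (mil T j) := by
  intro j hj
  induction j, hj using Nat.le_induction with
  | base => exact h1
  | succ j hj ih =>
    obtain ⟨i, rfl⟩ : ∃ i, j = i + 1 := ⟨j - 1, by omega⟩
    exact h2 _ _ ih

lemma mil_eq_P (j : ℕ) (hj : 1 ≤ j) :
    mil T j = StMod85.P (R := Module.End F2 E) T j := by
  induction j, hj using Nat.le_induction with
  | base => rfl
  | succ j hj ih =>
    obtain ⟨i, rfl⟩ : ∃ i, j = i + 1 := ⟨j - 1, by omega⟩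
    rw [mil_succ_succ, ih]
    rfl

end mil

lemma mil_mem (S : Dick) (r k j : ℕ) (hj : 1 ≤ j) : ∀ g ∈ M r k, mil (S.Sq r) j g ∈ M r k := by
  refine mil_ind (S.Sq r) (Q := fun A => ∀ g ∈ M r k, A g ∈ M r k) ?_ ?_ j hj
  · intro g hg; exact S.mem r k 1 g hg
  · intro A j hA g hg
    exact (M r k).add_mem (S.mem r k _ _ (hA g hg)) (hA _ (S.mem r k _ _ hg))


lemma NN_mono (S : Dick) (r : ℕ) {k l : ℕ} (h : k ≤ l) : NN S r l ≤ NN S r k := by
  refine iSup_mono fun j => Submodule.map_mono (M_anti r h)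

lemma mem_NN (S : Dick) (r k j : ℕ) (h1 : 1 ≤ j) (h2 : j ≤ r + 1) {g : D (r + 1)}
    (hg : g ∈ M r k) : mil (S.Sq r) j g ∈ NN S r k := by
  refine (le_iSup (fun j : {j : ℕ // 1 ≤ j ∧ j ≤ r + 1} => (M r k).map (mil (S.Sq r) j.1))
    ⟨j, h1, h2⟩) ?_
  exact ⟨g, hg, rfl⟩

/-! ### the map `kap` -/

lemma kap_mem (r c : ℕ) {f : D (r + 1)} (hf : f ∈ M r c) : kap r f ∈ M r (2 * c + 1 - r) := by
  rw [← support_sum_monomial_coeff f, map_sum]
  refine Submodule.sum_mem _ fun s hs => ?_
  have hs' : coeff s f ≠ 0 := by simpa [mem_support_iff] using hs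
  have h1 : (monomial s (coeff s f) : D (r + 1)) = coeff s f • monomial s 1 := by
    rw [smul_monomial, smul_eq_mul, mul_one]
  rw [h1, map_smul, kap_monomial]
  refine Submodule.smul_mem _ _ (monomial_mem_M ?_ 1)
  rw [kapE_zero]
  have := hf s hs'
  omega

/-! ### F-C2 -/

/-- a functional on `M_k` killed by all `Sq^a`, `a ≥ 1`, kills `∑ P_j M_k` -/
lemma extD_NN (S : Dick) (r k : ℕ) (ξ : M r k →ₗ[F2] F2)
    (hξ : ∀ a, 1 ≤ a → ξ ∘ₗ S.SqM r k a = 0) : ∀ g ∈ NN S r k, extD ξ g = 0 := by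
  have hS : ∀ a, 1 ≤ a → ∀ g ∈ M r k, extD ξ (S.Sq r a g) = 0 := by
    intro a ha g hg
    rw [extD_apply ξ _ (S.mem r k a g hg)]
    exact LinearMap.congr_fun (hξ a ha) ⟨g, hg⟩
  have hm : ∀ j, 1 ≤ j → ∀ g ∈ M r k, extD ξ (mil (S.Sq r) j g) = 0 := by
    intro j hj
    have := mil_ind (S.Sq r) (Q := fun A => (∀ g ∈ M r k, A g ∈ M r k) ∧
      ∀ g ∈ M r k, extD ξ (A g) = 0) ⟨fun g hg => S.mem r k 1 g hg, hS 1 le_rfl⟩ ?_ j hj
    · exact this.2
    · rintro A j ⟨hA1, hA2⟩
      refine ⟨fun g hg => (M r k).add_mem (S.mem r k _ _ (hA1 g hg)) (hA1 _ (S.mem r k _ _ hg)),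
        fun g hg => ?_⟩
      rw [LinearMap.add_apply, map_add, LinearMap.comp_apply, LinearMap.comp_apply,
        hS _ Nat.one_le_two_pow _ (hA1 g hg), hA2 _ (S.mem r k _ _ hg), add_zero]
  intro g hg
  have h2 : NN S r k ≤ LinearMap.ker (extD ξ) := by
    refine iSup_le ?_
    rintro ⟨j, hj1, hj2⟩
    rintro _ ⟨g, hg, rfl⟩
    exact hm j hj1 g hg
  exact h2 hg

theorem halvingXi (S : Dick) (h : HalfInput S) : HalvingXi S := by
  intro r k e' ξ he hξ a ha
  ext ⟨f, hf⟩
  have hc : r ≤ 2 * (e' - 1) := by omega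
  have hk : 2 * (e' - 1) - r = k := by omega
  have hk1 : 2 * (e' - 1) + 1 - r = k + 1 := by omega
  have h1 := h.sq r (e' - 1) a hc f hf
  rw [hk] at h1
  have h2 := extD_NN S r k ξ hξ _ h1
  have h3 := kap_mem r (e' - 1) hf
  rw [hk1] at h3
  have h4 : extD ξ (S.Sq r (2 * a) (kap r f)) = 0 := by
    have h5 := M_anti r (Nat.le_succ k) h3
    rw [extD_apply ξ _ (S.mem r k _ _ h5)]
    exact LinearMap.congr_fun (hξ (2 * a) (by omega)) ⟨kap r f, h5⟩
  rw [map_add, h4, zero_add] at h2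
  exact h2

/-! ### F-C1 -/

lemma bmc_two_mul (a i : ℕ) : Spine693.bmc (2 * a) (2 * i) = Spine693.bmc a i := by
  unfold Spine693.bmc
  by_cases h : a ≤ i
  · rw [if_pos h, if_pos (by omega)]
    have := StMod85.cast_choose_lucas (2 * a) (2 * i - 2 * a)
    rw [show (2 * a) % 2 = 0 by omega, show (2 * i - 2 * a) % 2 = 0 by omega,
      show (2 * a) / 2 = a by omega, show (2 * i - 2 * a) / 2 = i - a by omega] at this
    simpa using this
  · rw [if_neg h, if_neg (by omega)]

lemma sum_parity {E : Type} [AddCommMonoid E] (f : ℕ → E) (n : ℕ) :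
    ∑ a ∈ Finset.range (2 * n + 1), f a =
      ∑ a ∈ Finset.range (n + 1), f (2 * a) + ∑ a ∈ Finset.range n, f (2 * a + 1) := by
  induction n with
  | zero => simp
  | succ n ih =>
    rw [show 2 * (n + 1) + 1 = (2 * n + 1) + 1 + 1 by ring, Finset.sum_range_succ,
      Finset.sum_range_succ, ih, Finset.sum_range_succ (fun a => f (2 * a)) (n + 1),
      Finset.sum_range_succ (fun a => f (2 * a + 1)) n,
      show 2 * (n + 1) = 2 * n + 1 + 1 by ring]
    abel

/-- Bullett–Macdonald in the form of `StMod_85` -/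
lemma isBM_of {E : Type} [AddCommGroup E] [Module F2 E] (T : ℕ → (E →ₗ[F2] E)) (h0 : T 0 = LinearMap.id)
    (h : BM T) : StMod85.IsBM (R := Module.End F2 E) T := by
  have key : ∀ n i, StMod85.phi (R := Module.End F2 E) T n i =
      ∑ a ∈ Finset.range (n + 1), Spine693.bmc a i • (T a ∘ₗ T (n - a)) := by
    intro n i
    unfold StMod85.phi
    rw [Finset.Nat.sum_antidiagonal_eq_sum_range_succ
      (fun a b => StMod85.bmc a i • ((T a : Module.End F2 E) * T b))]
    refine Finset.sum_congr rfl fun a _ => ?_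
    have : StMod85.bmc a i = Spine693.bmc a i := by
      unfold StMod85.bmc Spine693.bmc
      by_cases hh : a ≤ i
      · rw [if_pos hh, if_neg (by omega)]
      · rw [if_neg hh, if_pos (by omega)]
    rw [this]
    rfl
  refine ⟨h0, fun n i hi => ?_⟩
  rw [key, key]
  exact h n i hi

section halving

variable (S : Dick) (r e : ℕ) (φ : ℕ → (M r e →ₗ[F2] F2))

lemma extSq_zero : extSq S r e φ 0 = LinearMap.id := by
  rw [extSq, if_pos rfl]

lemma extSq_fst (a : ℕ) (x : M r e × F2) :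
    ((extSq S r e φ a x).1 : D (r + 1)) = S.Sq r a x.1 := by
  unfold extSq
  by_cases ha : a = 0
  · subst ha
    rw [if_pos rfl, S.zero]; rfl
  · rw [if_neg ha]
    simp [Dick.SqM]

lemma extSq_snd (a : ℕ) (ha : a ≠ 0) (x : M r e × F2) :
    (extSq S r e φ a x).2 = φ a x.1 := by
  unfold extSq
  rw [if_neg ha]
  simp

lemma extSq_t (a : ℕ) (ha : a ≠ 0) (c : F2) : extSq S r e φ a (0, c) = 0 := by
  unfold extSq
  rw [if_neg ha]
  simp

lemma mil_fst (j : ℕ) (hj : 1 ≤ j) (x : M r e × F2) :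
    ((mil (extSq S r e φ) j x).1 : D (r + 1)) = mil (S.Sq r) j x.1 := by
  induction j, hj using Nat.le_induction generalizing x with
  | base => exact extSq_fst S r e φ 1 x
  | succ j hj ih =>
    obtain ⟨i, rfl⟩ : ∃ i, j = i + 1 := ⟨j - 1, by omega⟩
    rw [mil_succ_succ, mil_succ_succ]
    simp only [LinearMap.add_apply, LinearMap.comp_apply, Prod.fst_add, Submodule.coe_add]
    rw [extSq_fst, ih, ih, extSq_fst]

lemma mil_t (j : ℕ) (hj : 1 ≤ j) (c : F2) : mil (extSq S r e φ) j (0, c) = 0 := by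
  induction j, hj using Nat.le_induction with
  | base => exact extSq_t S r e φ 1 one_ne_zero c
  | succ j hj ih =>
    obtain ⟨i, rfl⟩ : ∃ i, j = i + 1 := ⟨j - 1, by omega⟩
    rw [mil_succ_succ]
    simp only [LinearMap.add_apply, LinearMap.comp_apply]
    rw [ih, map_zero, zero_add, extSq_t S r e φ _ (by positivity) c, map_zero]

/-- `(∑ P_j M_e) × 0` -/
def NV : Submodule F2 (M r e × F2) := ((NN S r e).comap (M r e).subtype).prod ⊥

lemma mem_NV (x : M r e × F2) : x ∈ NV S r e ↔ (x.1 : D (r + 1)) ∈ NN S r e ∧ x.2 = 0 := by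
  unfold NV
  rw [Submodule.mem_prod]
  rfl

variable (hm : ∀ j, 1 ≤ j → j ≤ r + 2 → ∀ g : M r e, (mil (extSq S r e φ) j (g, 0)).2 = 0)

include hm in
lemma mil_snd (j : ℕ) (h1 : 1 ≤ j) (h2 : j ≤ r + 2) (x : M r e × F2) :
    (mil (extSq S r e φ) j x).2 = 0 := by
  have hx : x = (x.1, 0) + (0, x.2) := by simp
  rw [hx, map_add, mil_t S r e φ j h1, add_zero]
  exact hm j h1 h2 _

include hm in
lemma mil_mem_NV (h : HalfInput S) (j : ℕ) (h1 : 1 ≤ j) (h2 : j ≤ r + 2) (x : M r e × F2) :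
    mil (extSq S r e φ) j x ∈ NV S r e := by
  rw [mem_NV]
  refine ⟨?_, mil_snd S r e φ hm j h1 h2 x⟩
  rw [mil_fst S r e φ j h1]
  by_cases hj : j = r + 2
  · rw [hj]
    exact h.last r e _ x.1.2
  · exact mem_NN S r e j h1 (by omega) x.1.2

include hm in
/-- `NV` is stable under the operations -/
lemma extSq_mem_NV (h : HalfInput S) (hBM : BM (extSq S r e φ)) (a : ℕ) :
    ∀ x ∈ NV S r e, extSq S r e φ a x ∈ NV S r e := by
  have hI := isBM_of (extSq S r e φ) (extSq_zero S r e φ) hBM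
  -- generators
  have hgen : ∀ j, 1 ≤ j → j ≤ r + 1 → ∀ y : M r e × F2,
      extSq S r e φ a (mil (extSq S r e φ) j y) ∈ NV S r e := by
    intro j h1 h2 y
    have h3 := hI.sq_P a j h1
    rw [← mil_eq_P _ j h1, ← mil_eq_P _ (j + 1) (by omega)] at h3
    have h4 := LinearMap.congr_fun h3 y
    have h5 : extSq S r e φ a (mil (extSq S r e φ) j y) =
        mil (extSq S r e φ) j (extSq S r e φ a y) +
          (if 2 ^ j ≤ a then mil (extSq S r e φ) (j + 1) (extSq S r e φ (a - 2 ^ j) y) else 0) := by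
      refine h4.trans ?_
      by_cases hja : 2 ^ j ≤ a
      · rw [if_pos hja, if_pos hja]; rfl
      · rw [if_neg hja, if_neg hja]; rfl
    rw [h5]
    refine Submodule.add_mem _ (mil_mem_NV S r e φ hm h j h1 (by omega) _) ?_
    split_ifs
    · exact mil_mem_NV S r e φ hm h (j + 1) (by omega) (by omega) _
    · exact Submodule.zero_mem _
  have hall : ∀ g ∈ NN S r e, ∃ hg : g ∈ M r e, extSq S r e φ a (⟨g, hg⟩, 0) ∈ NV S r e := by
    intro g hg
    refine Submodule.iSup_induction _ (motive := fun g => ∃ hg : g ∈ M r e,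
      extSq S r e φ a (⟨g, hg⟩, 0) ∈ NV S r e) hg ?_ ?_ ?_
    · rintro ⟨j, hj1, hj2⟩ _ ⟨g', hg', rfl⟩
      refine ⟨mil_mem S r e j hj1 g' hg', ?_⟩
      have h6 := hgen j hj1 hj2 (⟨g', hg'⟩, 0)
      have h7 : mil (extSq S r e φ) j (⟨g', hg'⟩, 0) =
          (⟨mil (S.Sq r) j g', mil_mem S r e j hj1 g' hg'⟩, 0) := by
        refine Prod.ext (Subtype.ext ?_) ?_
        · exact mil_fst S r e φ j hj1 (⟨g', hg'⟩, 0)
        · exact mil_snd S r e φ hm j hj1 (by omega) _
      rw [h7] at h6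
      exact h6
    · refine ⟨Submodule.zero_mem _, ?_⟩
      have : ((⟨0, Submodule.zero_mem _⟩, 0) : M r e × F2) = 0 := rfl
      rw [this, map_zero]
      exact Submodule.zero_mem _
    · rintro g1 g2 ⟨h1, k1⟩ ⟨h2, k2⟩
      refine ⟨Submodule.add_mem _ h1 h2, ?_⟩
      have : ((⟨g1 + g2, Submodule.add_mem _ h1 h2⟩, 0) : M r e × F2) =
          (⟨g1, h1⟩, 0) + (⟨g2, h2⟩, 0) := by
        refine Prod.ext (Subtype.ext rfl) ?_
        simp
      rw [this, map_add]
      exact Submodule.add_mem _ k1 k2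
  intro x hx
  rw [mem_NV] at hx
  obtain ⟨hg, h8⟩ := hall _ hx.1
  have : x = (⟨(x.1 : D (r + 1)), hg⟩, 0) := Prod.ext (Subtype.ext rfl) hx.2
  rw [this]
  exact h8

include hm in
lemma odd_mem_NV (h : HalfInput S) (hBM : BM (extSq S r e φ)) (a : ℕ) (x : M r e × F2) :
    extSq S r e φ (2 * a + 1) x ∈ NV S r e := by
  have hI := isBM_of (extSq S r e φ) (extSq_zero S r e φ) hBM
  have h1 := LinearMap.congr_fun (hI.sq_one (2 * a)) x
  have h2 : extSq S r e φ 1 (extSq S r e φ (2 * a) x) =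
      (2 * a + 1) • extSq S r e φ (2 * a + 1) x := h1
  rw [add_smul, one_smul, mul_smul, two_smul, add_self2, zero_add] at h2
  rw [← h2]
  exact mil_mem_NV S r e φ hm h 1 le_rfl (by omega) _

end halving

/-- the map `(f, c) ↦ (κ f², c)` -/
def hmap (r e e' : ℕ) (he : e ≤ 2 * e' + 1 - r) : (M r e' × F2) →ₗ[F2] (M r e × F2) :=
  ((kap r ∘ₗ (M r e').subtype).codRestrict (M r e)
    (fun f => M_anti r he (kap_mem r e' f.2))).prodMap LinearMap.id

lemma hmap_fst (r e e' : ℕ) (he : e ≤ 2 * e' + 1 - r) (x : M r e' × F2) :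
    ((hmap r e e' he x).1 : D (r + 1)) = kap r x.1 := rfl

lemma hmap_snd (r e e' : ℕ) (he : e ≤ 2 * e' + 1 - r) (x : M r e' × F2) :
    (hmap r e e' he x).2 = x.2 := rfl

theorem halving (S : Dick) (h : HalfInput S) : Halving S := by
  intro r e e' φ he1 he hBM hm
  have he' : e ≤ 2 * e' + 1 - r := by omega
  have hr : r ≤ 2 * e' := by omega
  have hee : 2 * e' - r = e + 1 := by omega
  set T := extSq S r e φ with hT
  set U := extSq S r e' (half φ e') with hU
  set H := hmap r e e' he' with hH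
  -- intertwining
  have hint : ∀ a x, T (2 * a) (H x) - H (U a x) ∈ NV S r e := by
    intro a x
    by_cases ha : a = 0
    · subst ha
      rw [mul_zero, hT, hU, extSq_zero, extSq_zero, LinearMap.id_apply, LinearMap.id_apply, sub_self]
      exact Submodule.zero_mem _
    · rw [mem_NV]
      constructor
      · rw [Prod.fst_sub, Submodule.coe_sub, hT, hU, extSq_fst, hH, hmap_fst, hmap_fst, extSq_fst,
          sub_eq_add2]
        have h1 := h.sq r e' a hr x.1 x.1.2
        rw [hee] at h1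
        exact NN_mono S r (Nat.le_succ e) h1
      · rw [Prod.snd_sub, hT, extSq_snd S r e φ _ (by omega), hH, hmap_snd, hU,
          extSq_snd S r e' _ _ ha, sub_eq_zero]
        unfold half
        rw [LinearMap.comp_apply, LinearMap.comp_apply]
        have h2 : kap r ((M r e').subtype x.1) ∈ M r e := M_anti r he' (kap_mem r e' x.1.2)
        rw [extD_apply _ _ h2]
        rfl
  -- injectivity
  have hinj : ∀ x, H x ∈ NV S r e → x = 0 := by
    intro x hx
    rw [mem_NV, hH, hmap_fst, hmap_snd] at hx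
    obtain ⟨P, hP1, hP2⟩ := h.top r
    have h3 : NN S r e ≤ LinearMap.ker P := by
      refine iSup_le ?_
      rintro ⟨j, hj1, hj2⟩
      rintro _ ⟨g, hg, rfl⟩
      exact hP1 j hj1 hj2 g
    have h4 : P (kap r x.1) = 0 := h3 hx.1
    rw [hP2 e' (by omega) x.1 x.1.2] at h4
    have h5 : (X 0 * (x.1 : D (r + 1))) = 0 := pow_eq_zero_iff (two_ne_zero) |>.1 h4
    have h6 : (x.1 : D (r + 1)) = 0 := by
      rcases mul_eq_zero.1 h5 with h7 | h7
      · exact absurd h7 (X_ne_zero _)
      · exact h7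
    exact Prod.ext (Subtype.ext h6) hx.2
  have hst := extSq_mem_NV S r e φ hm h hBM
  have hodd := odd_mem_NV S r e φ hm h hBM
  -- comparison of double operations
  have hdouble : ∀ a b x, T (2 * a) (T (2 * b) (H x)) - H (U a (U b x)) ∈ NV S r e := by
    intro a b x
    have h1 := hst (2 * a) _ (hint b x)
    have h2 := hint a (U b x)
    rw [map_sub] at h1
    have := Submodule.add_mem _ h1 h2
    rwa [sub_add_sub_cancel] at this
  -- both sides
  have hside : ∀ n i x, (∑ a ∈ Finset.range (2 * n + 1), Spine693.bmc a (2 * i) •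
      (T a ∘ₗ T (2 * n - a))) (H x) -
      H ((∑ a ∈ Finset.range (n + 1), Spine693.bmc a i • (U a ∘ₗ U (n - a))) x) ∈ NV S r e := by
    intro n i x
    rw [sum_parity, LinearMap.add_apply, LinearMap.sum_apply, LinearMap.sum_apply,
      LinearMap.sum_apply, map_sum, add_sub_right_comm, ← Finset.sum_sub_distrib]
    refine Submodule.add_mem _ (Submodule.sum_mem _ fun a ha => ?_)
      (Submodule.sum_mem _ fun a ha => ?_)
    · rw [bmc_two_mul, LinearMap.smul_apply, LinearMap.smul_apply, map_smul, ← smul_sub,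
        LinearMap.comp_apply, LinearMap.comp_apply, show 2 * n - 2 * a = 2 * (n - a) by omega]
      exact Submodule.smul_mem _ _ (hdouble a (n - a) x)
    · rw [LinearMap.smul_apply, LinearMap.comp_apply]
      exact Submodule.smul_mem _ _ (hodd a _)
  intro n i hi
  refine LinearMap.ext fun x => ?_
  rw [← sub_eq_zero]
  apply hinj
  have h1 := hside n i x
  have h2 := hside n (2 * n - i) x
  have h3 := hBM (2 * n) (2 * i) (by omega)
  rw [show 2 * (2 * n) - 2 * i = 2 * (2 * n - i) by omega] at h3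
  have h5 := LinearMap.congr_fun h3 (H x)
  rw [← h5] at h2
  have h4 := Submodule.sub_mem _ h2 h1
  rw [sub_sub_sub_cancel_left] at h4
  rw [map_sub]
  exact h4

end Crest.Agent.R204.FC787
end
end

-- ▼ part R204/FA4_550
section

/-!
# Row 204, block F-A, part 4: the composite `P = P_1 ⋯ P_R` and `HalfInput` (helper550)
-/

set_option autoImplicit false

noncomputable section

namespace Crest.Agent.R204.FA550

open MvPolynomial Crest.Agent.R204.Spine693 Crest.Agent.R204.F166

/-! ### the composite and its lift -/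

/-- `P_1 ∘ ⋯ ∘ P_i` -/
def PiD (R : ℕ) : ℕ → (D R →ₗ[ZMod 2] D R)
  | 0 => LinearMap.id
  | (i + 1) => PiD R i ∘ₗ (del R (i + 1)).toLinearMap

lemma PiD_succ (R i : ℕ) (x : D R) : PiD R (i + 1) x = PiD R i (del R (i + 1) x) := rfl

lemma PiD_del {R : ℕ} : ∀ i j : ℕ, 1 ≤ j → j ≤ i → i ≤ R → ∀ x : D R, PiD R i (del R j x) = 0 := by
  intro i
  induction i with
  | zero => intro j h1 h2; omega
  | succ i ih =>
    intro j h1 h2 h3 x
    rw [PiD_succ]
    rcases Nat.lt_or_ge j (i + 1) with h | h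
    · rw [del_comm (by omega) h3 h1 (by omega), ih j h1 (by omega) (by omega)]
    · obtain rfl : j = i + 1 := by omega
      rw [del_del h1 h3, map_zero]

/-- lift of `PiD` -/
def PiL (R : ℕ) : ℕ → Polynomial (D R) → Polynomial (D R)
  | 0 => fun p => p
  | (i + 1) => fun p => PiL R i (lift (del R (i + 1)) p)

lemma PiL_succ (R i : ℕ) (p : Polynomial (D R)) :
    PiL R (i + 1) p = PiL R i (lift (del R (i + 1)) p) := rfl

lemma coeff_PiL (R : ℕ) : ∀ (i : ℕ) (p : Polynomial (D R)) (n : ℕ),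
    (PiL R i p).coeff n = PiD R i (p.coeff n) := by
  intro i
  induction i with
  | zero => intro p n; rfl
  | succ i ih => intro p n; rw [PiL_succ, ih, coeff_lift, PiD_succ]

lemma PiL_lift {R : ℕ} {i j : ℕ} (h1 : 1 ≤ j) (h2 : j ≤ i) (h3 : i ≤ R) (p : Polynomial (D R)) :
    PiL R i (lift (del R j) p) = 0 := by
  ext n : 1
  rw [coeff_PiL, coeff_lift, PiD_del i j h1 h2 h3, Polynomial.coeff_zero]

lemma lift_comm {R : ℕ} {i j : ℕ} (hi : 1 ≤ i) (hi' : i ≤ R) (hj : 1 ≤ j) (hj' : j ≤ R)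
    (p : Polynomial (D R)) : lift (del R i) (lift (del R j) p) = lift (del R j) (lift (del R i) p) := by
  ext n : 1
  simp only [coeff_lift]
  exact del_comm hi hi' hj hj' _

lemma lift_lift {R : ℕ} {j : ℕ} (hj : 1 ≤ j) (hj' : j ≤ R) (p : Polynomial (D R)) :
    lift (del R j) (lift (del R j) p) = 0 := by
  ext n : 1
  simp only [coeff_lift, Polynomial.coeff_zero]
  exact del_del hj hj' _

/-- the composite of the `dd`s -/
def DD (R : ℕ) : ℕ → Polynomial (D R) → Polynomial (D R)
  | 0 => fun p => p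
  | (i + 1) => fun p => DD R i (dd R (i + 1) p)

lemma DD_succ (R i : ℕ) (p : Polynomial (D R)) : DD R (i + 1) p = DD R i (dd R (i + 1) p) := rfl

lemma DD_add (R : ℕ) : ∀ (i : ℕ) (p q : Polynomial (D R)), DD R i (p + q) = DD R i p + DD R i q := by
  intro i
  induction i with
  | zero => intro p q; rfl
  | succ i ih => intro p q; rw [DD_succ, dd_add, ih]; rfl

lemma dd_zero (R j : ℕ) : dd R j 0 = 0 := by simp [dd]

lemma DD_zero (R : ℕ) : ∀ i : ℕ, DD R i 0 = 0 := by
  intro i
  induction i with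
  | zero => rfl
  | succ i ih => rw [DD_succ, dd_zero, ih]

lemma DD_sum (R i : ℕ) {ι : Type*} (s : Finset ι) (f : ι → Polynomial (D R)) :
    DD R i (∑ l ∈ s, f l) = ∑ l ∈ s, DD R i (f l) := by
  classical
  induction s using Finset.induction_on with
  | empty => simp [DD_zero]
  | insert a s ha ih => rw [Finset.sum_insert ha, Finset.sum_insert ha, DD_add, ih]

lemma DD_Xpow (R k : ℕ) : ∀ (i : ℕ) (p : Polynomial (D R)),
    DD R i (Polynomial.X ^ k * p) = Polynomial.X ^ k * DD R i p := by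
  intro i
  induction i with
  | zero => intro p; rfl
  | succ i ih => intro p; rw [DD_succ, dd_pow_mul, ih]; rfl

lemma dd_sq_mul (R j : ℕ) (c p : Polynomial (D R)) : dd R j (c ^ 2 * p) = c ^ 2 * dd R j p := by
  rw [dd_mul, dd_sq]; ring

lemma DD_sq_mul (R : ℕ) (c : Polynomial (D R)) : ∀ (i : ℕ) (p : Polynomial (D R)),
    DD R i (c ^ 2 * p) = c ^ 2 * DD R i p := by
  intro i
  induction i with
  | zero => intro p; rfl
  | succ i ih => intro p; rw [DD_succ, dd_sq_mul, ih]; rfl

lemma SQ_PiD {R : ℕ} (hR : 0 < R) : ∀ (i : ℕ), i ≤ R → ∀ x : D R, SQ R (PiD R i x) = DD R i (SQ R x) := by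
  intro i
  induction i with
  | zero => intro _ x; rfl
  | succ i ih =>
    intro h x
    rw [PiD_succ, ih (by omega), SQ_del hR h, DD_succ]

/-- the key formula -/
lemma DD_lift {R : ℕ} : ∀ (i : ℕ), i + 1 ≤ R → ∀ j, 1 ≤ j → j ≤ i + 1 → ∀ p : Polynomial (D R),
    DD R i (lift (del R j) p) = Polynomial.X ^ (2 ^ (i + 1) - 2 ^ j) * PiL R (i + 1) p := by
  intro i
  induction i with
  | zero =>
    intro h j h1 h2 p
    obtain rfl : j = 1 := by omega
    rw [Nat.sub_self, pow_zero, one_mul]; rfl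
  | succ i ih =>
    intro h j h1 h2 p
    rw [DD_succ, dd, DD_add, DD_Xpow]
    rcases Nat.lt_or_ge j (i + 2) with h3 | h3
    · have h4 := two_pow_le (show j ≤ i + 1 by omega)
      have h5 : (2:ℕ) ^ (i + 1 + 1) = 2 * 2 ^ (i + 1) := pow_succ' 2 (i + 1)
      rw [lift_comm (by omega) (by omega) h1 (by omega), ih (by omega) j h1 (by omega),
        PiL_lift (by omega) le_rfl (by omega), mul_zero, zero_add,
        lift_comm (by omega) (by omega) h1 (by omega), ih (by omega) j h1 (by omega),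
        ← mul_assoc, ← pow_add, PiL_succ R (i + 1)]
      congr 2; omega
    · obtain rfl : j = i + 2 := by omega
      rw [lift_lift (by omega) (by omega), DD_zero, mul_zero, add_zero,
        ih (by omega) (i + 1) (by omega) le_rfl, Nat.sub_self, Nat.sub_self, PiL_succ R (i + 1)]

theorem DD_top {r : ℕ} (p : Polynomial (D (r + 1))) :
    DD (r + 1) (r + 1) p = S (r + 1) (r + 1) ^ 2 * PiL (r + 1) (r + 1) p := by
  rw [DD_succ, dd, DD_add, DD_Xpow, DD_lift r le_rfl (r + 1) (by omega) le_rfl, Nat.sub_self, pow_zero,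
    one_mul, lift_del_top, DD_sum]
  have h1 : ∀ l ∈ Finset.range (r + 1), DD (r + 1) r (Polynomial.C (Q (r + 1) l) ^ 2 *
      lift (del (r + 1) (l + 1)) p) = Polynomial.C (Q (r + 1) l) ^ 2 *
      (Polynomial.X ^ (2 ^ (r + 1) - 2 ^ (l + 1)) * PiL (r + 1) (r + 1) p) := by
    intro l hl
    have := Finset.mem_range.1 hl
    rw [DD_sq_mul, DD_lift r le_rfl (l + 1) (by omega) (by omega)]
  rw [Finset.sum_congr rfl h1, Finset.mul_sum]
  have h2 : ∀ l ∈ Finset.range (r + 1), Polynomial.X ^ 2 ^ (r + 1) * (Polynomial.C (Q (r + 1) l) ^ 2 *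
      (Polynomial.X ^ (2 ^ (r + 1) - 2 ^ (l + 1)) * PiL (r + 1) (r + 1) p)) =
      (u (r + 1) l) ^ 2 * PiL (r + 1) (r + 1) p := by
    intro l hl
    have := Finset.mem_range.1 hl
    have h4 := two_pow_le (show l + 1 ≤ r + 1 by omega)
    have h6 : (2:ℕ) ^ (l + 1) = 2 * 2 ^ l := pow_succ' 2 l
    have h5 : 2 ^ (r + 1) + (2 ^ (r + 1) - 2 ^ (l + 1)) = 2 * (2 ^ (r + 1) - 2 ^ l) := by omega
    rw [u, mul_pow, ← pow_mul, mul_comm (2 ^ (r + 1) - 2 ^ l) 2, ← h5, pow_add]; ring
  rw [Finset.sum_congr rfl h2, ← Finset.sum_mul, ← S'_sq, S_top, CharTwo.add_sq]; ring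

/-! ### squares of polynomials in characteristic two -/

lemma coeff_sq_even {A : Type*} [CommRing A] [CharP A 2] (p : Polynomial A) (a : ℕ) :
    (p ^ 2).coeff (2 * a) = (p.coeff a) ^ 2 := by
  induction p using Polynomial.induction_on' with
  | add p q hp hq =>
    rw [CharTwo.add_sq, Polynomial.coeff_add, hp, hq, Polynomial.coeff_add, CharTwo.add_sq]
  | monomial n c =>
    rw [Polynomial.monomial_pow, Polynomial.coeff_monomial, Polynomial.coeff_monomial]
    by_cases h : n = a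
    · rw [if_pos (by omega), if_pos h]
    · rw [if_neg (by omega), if_neg h]; simp


/-! ### `P` -/

/-- `P = P_1 ⋯ P_R`, `R = r + 1` -/
def PP (r : ℕ) : D (r + 1) →ₗ[ZMod 2] D (r + 1) := PiD (r + 1) (r + 1)

lemma PP_del {r j : ℕ} (h1 : 1 ≤ j) (h2 : j ≤ r + 1) (x : D (r + 1)) : PP r (del (r + 1) j x) = 0 :=
  PiD_del _ _ h1 h2 le_rfl x

lemma S_ne_zero (r : ℕ) : S (r + 1) (r + 1) ≠ 0 := by
  intro h
  have h1 := congrArg (fun p => Polynomial.coeff p 0) h
  simp only [Polynomial.coeff_zero] at h1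
  rw [S, Finset.sum_range_succ, Polynomial.coeff_add, Polynomial.finsetSum_coeff, u_self,
    Polynomial.coeff_one_zero, Finset.sum_eq_zero] at h1
  · simp at h1
  · intro b hb
    have := two_pow_lt (Finset.mem_range.1 hb)
    rw [u, Polynomial.coeff_mul_C, Polynomial.coeff_X_pow, if_neg (by omega), zero_mul]

/-- 6.3 (i) in generating form -/
theorem PiL_SQ {r : ℕ} {x f : D (r + 1)} (h : PP r x = (X 0 * f) ^ 2) :
    PiL (r + 1) (r + 1) (SQ (r + 1) x) = (Polynomial.C (X 0) * SQ (r + 1) f) ^ 2 := by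
  have h1 : SQ (r + 1) (PP r x) = S (r + 1) (r + 1) ^ 2 * PiL (r + 1) (r + 1) (SQ (r + 1) x) := by
    rw [PP, SQ_PiD (by omega) _ le_rfl, DD_top]
  rw [h, map_pow, map_mul, ← Q_zero_eq, SQ_Q0 (by omega)] at h1
  have h2 : S (r + 1) (r + 1) ^ 2 * (Polynomial.C (Q (r + 1) 0) * SQ (r + 1) f) ^ 2 =
      S (r + 1) (r + 1) ^ 2 * PiL (r + 1) (r + 1) (SQ (r + 1) x) := by rw [← h1]; ring
  rw [← Q_zero_eq]
  exact (mul_left_cancel₀ (pow_ne_zero 2 (S_ne_zero r)) h2).symm

theorem PP_Sq_even {r : ℕ} {x f : D (r + 1)} (h : PP r x = (X 0 * f) ^ 2) (a : ℕ) :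
    PP r (Sq (r + 1) (2 * a) x) = (X 0 * Sq (r + 1) a f) ^ 2 := by
  rw [PP, Sq_apply, ← coeff_PiL, PiL_SQ h, coeff_sq_even, Polynomial.coeff_C_mul, Sq_apply]


end Crest.Agent.R204.FA550
end
end

-- ▼ part R204/LemEven_693
section

/-!
# Row 204: `LemEven` from four elementary facts on the Dickson algebra operations (helper693)
-/

set_option autoImplicit false

noncomputable section

namespace Crest.Agent.R204.Spine693

open MvPolynomial Crest.Agent.R204

/-- the elementary facts used -/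
structure DickElem (S : Dick) : Prop where
  instab : ∀ (r a n : ℕ) (g : D (r + 1)), IsWeightedHomogeneous (wt r) g n → n < a → S.Sq r a g = 0
  top : ∀ (r n : ℕ) (g : D (r + 1)), IsWeightedHomogeneous (wt r) g n → S.Sq r n g = g ^ 2
  /-- `Sq^1 (Q_0^{a-1} Q_1^{b+1} ...) = Q_0^a Q_1^b ...` for `b` even (rank ≥ 2) -/
  one_succ : ∀ (r : ℕ) (s u : Fin (r + 1 + 1) →₀ ℕ), s + Finsupp.single 1 1 = u + Finsupp.single 0 1 →
    Even (s 1) → S.Sq (r + 1) 1 (monomial u 1) = monomial s 1
  /-- `Sq^1 x^k = x^{k+1}` for `k` odd (rank one) -/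
  one_zero : ∀ (u : Fin (0 + 1) →₀ ℕ), Odd (u 0) →
    S.Sq 0 1 (monomial u 1) = monomial (u + Finsupp.single 0 1) 1

theorem lemEven_of {S : Dick} (H : DickElem S) : LemEven S := by
  intro r e n he hen hn h3 f φ1 hc h1 hf
  refine mon_ext f fun s hs => ?_
  by_cases hdeg : Finsupp.weight (wt r) s = n - e
  swap
  · exact hc _ _ (mon_hom s hs) hdeg
  have hfv : f (mon s hs) = φ1 (S.SqM r e (n - 1) (mon s hs)) := by rw [hf]; rfl
  rw [hfv]
  rcases Nat.lt_or_ge 1 e with he1 | he1
  · -- `e ≥ 2`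
    have : S.SqM r e (n - 1) (mon s hs) = 0 := by
      apply Subtype.ext
      exact H.instab r (n - 1) (n - e) _ (by rw [← hdeg]; exact mon_hom s hs) (by omega)
    rw [this, map_zero]
  · have hee : e = 1 := by omega
    subst hee
    -- `Sq^{n-1} g = g^2`
    have hsq : ((S.SqM r 1 (n - 1) (mon s hs) : M r 1) : D (r + 1)) = monomial (2 • s) 1 := by
      have := H.top r (n - 1) (monomial s 1) (by rw [← hdeg]; exact mon_hom s hs)
      show S.Sq r (n - 1) (monomial s 1) = _
      rw [this, monomial_pow]; simp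
    -- `g^2 = Sq^1 (mon u)` with `u` in `M_1`
    obtain ⟨u, hu, hSu⟩ : ∃ (u : Fin (r + 1) →₀ ℕ), 1 ≤ u 0 ∧
        S.Sq r 1 (monomial u 1) = monomial (2 • s) (1 : F2) := by
      rcases Nat.eq_zero_or_pos r with hr | hr
      · subst hr
        refine ⟨2 • s - Finsupp.single 0 1, ?_, ?_⟩
        · simp only [Finsupp.coe_tsub, Pi.sub_apply, Finsupp.smul_apply, smul_eq_mul,
            Finsupp.single_eq_same]
          omega
        · have hle : (Finsupp.single 0 1 : Fin (0 + 1) →₀ ℕ) ≤ 2 • s := by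
            rw [Finsupp.single_le_iff]
            simp only [Finsupp.smul_apply, smul_eq_mul]; omega
          have := H.one_zero (2 • s - Finsupp.single 0 1) (by
            simp only [Finsupp.coe_tsub, Pi.sub_apply, Finsupp.smul_apply, smul_eq_mul,
              Finsupp.single_eq_same]
            exact ⟨s 0 - 1, by omega⟩)
          rw [this, tsub_add_cancel_of_le hle]
      · obtain ⟨r, rfl⟩ : ∃ q, r = q + 1 := ⟨r - 1, by omega⟩
        refine ⟨2 • s + Finsupp.single 1 1 - Finsupp.single 0 1, ?_, ?_⟩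
        · have h01 : (1 : Fin (r + 1 + 1)) ≠ 0 := by simp
          simp only [Finsupp.coe_tsub, Finsupp.coe_add, Pi.sub_apply, Pi.add_apply,
            Finsupp.smul_apply, smul_eq_mul, Finsupp.single_eq_same]
          have : (Finsupp.single (1 : Fin (r + 1 + 1)) 1 : Fin (r + 1 + 1) →₀ ℕ) 0 = 0 := by
            rw [Finsupp.single_apply, if_neg h01]
          rw [this]; omega
        · refine H.one_succ r (2 • s) _ ?_ ?_
          · rw [tsub_add_cancel_of_le]
            rw [Finsupp.single_le_iff]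
            simp only [Finsupp.coe_add, Pi.add_apply, Finsupp.smul_apply, smul_eq_mul]
            omega
          · simp only [Finsupp.smul_apply, smul_eq_mul]
            exact even_two_mul _
    have hEq : S.SqM r 1 (n - 1) (mon s hs) = S.SqM r 1 1 (mon u hu) := by
      apply Subtype.ext
      rw [hsq]
      exact hSu.symm
    rw [hEq]
    exact LinearMap.congr_fun h1 (mon u hu)

end Crest.Agent.R204.Spine693
end
end

-- ▼ part R204/DickElem_693
section

/-!
# Row 204: `DickElem` (hence `LemEven`) and `F166.Facts` for the Dickson operations of FA_550 (helper693)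
-/

set_option autoImplicit false

noncomputable section

namespace Crest.Agent.R204.Spine693

open MvPolynomial Crest.Agent.R204

/-- `del j` on monomials, `1 ≤ j < R` -/
theorem del_lt_mon (r : ℕ) (j : Fin (r + 1)) (hj : j ≠ 0) (s : Fin (r + 1) →₀ ℕ) :
    FA550.del (r + 1) j (monomial s 1) =
      (s j : F2) • monomial (s + Finsupp.single 0 1 - Finsupp.single j 1) 1 := by
  rw [FA550.del_lt j.2, FA550.del0, mkDerivation_monomial, one_smul, Finsupp.sum]
  have e1 : (X 0 : MvPolynomial (Fin (r + 1)) (ZMod 2)) =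
      monomial (Finsupp.single 0 1) 1 := rfl
  by_cases hs : s j = 0
  · rw [hs, Nat.cast_zero, zero_smul]
    refine Finset.sum_eq_zero fun b hb => ?_
    have : (b : ℕ) ≠ j := by
      intro hc
      have : b = j := Fin.ext hc
      subst this
      exact (Finsupp.mem_support_iff.1 hb) hs
    rw [if_neg this, smul_zero]
  · rw [Finset.sum_eq_single j]
    · rw [if_pos rfl, FA550.Q_zero_eq, smul_eq_mul, e1, monomial_mul, mul_one]
      have e3 : s - Finsupp.single j 1 + Finsupp.single 0 1 =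
          s + Finsupp.single 0 1 - Finsupp.single j 1 := by
        ext i
        simp only [Finsupp.coe_add, Pi.add_apply, Finsupp.coe_tsub, Pi.sub_apply]
        by_cases hi : i = j
        · subst hi
          rw [Finsupp.single_eq_same]
          omega
        · have h1 : (Finsupp.single j 1 : Fin (r + 1) →₀ ℕ) i = 0 := by
            rw [Finsupp.single_apply, if_neg (Ne.symm hi)]
          rw [h1]; omega
      rw [e3, smul_monomial, smul_eq_mul, mul_one]
    · intro b _ hb
      have : (b : ℕ) ≠ j := fun hc => hb (Fin.ext hc)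
      rw [if_neg this, smul_zero]
    · intro hc
      exact absurd (Finsupp.mem_support_iff.2 hs) hc

/-- `del R` on monomials -/
theorem del_top_mon (r : ℕ) (s : Fin (r + 1) →₀ ℕ) :
    FA550.del (r + 1) (r + 1) (monomial s 1) =
      ((∑ i, s i : ℕ) : F2) • monomial (s + Finsupp.single 0 1) 1 := by
  rw [FA550.del_self, FA550.delr, mkDerivation_monomial, one_smul, Finsupp.sum]
  have h1 : ∀ i ∈ s.support, (monomial (s - Finsupp.single i 1) ((s i : ℕ) : ZMod 2) :
      MvPolynomial (Fin (r + 1)) (ZMod 2)) • (FA550.Q (r + 1) 0 * X i) =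
      ((s i : ℕ) : F2) • monomial (s + Finsupp.single 0 1) 1 := by
    intro i hi
    have hs := Finsupp.mem_support_iff.1 hi
    have e1 : (X 0 : MvPolynomial (Fin (r + 1)) (ZMod 2)) =
      monomial (Finsupp.single 0 1) 1 := rfl
    have e2 : (X i : MvPolynomial (Fin (r + 1)) (ZMod 2)) =
      monomial (Finsupp.single i 1) 1 := rfl
    rw [FA550.Q_zero_eq, smul_eq_mul, e1, e2, monomial_mul, monomial_mul, mul_one, mul_one]
    have e3 : s - Finsupp.single i 1 + (Finsupp.single 0 1 + Finsupp.single i 1) =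
        s + Finsupp.single 0 1 := by
      ext t
      simp only [Finsupp.coe_add, Pi.add_apply, Finsupp.coe_tsub, Pi.sub_apply]
      by_cases ht : t = i
      · subst ht
        rw [Finsupp.single_eq_same]
        omega
      · have h1 : (Finsupp.single i 1 : Fin (r + 1) →₀ ℕ) t = 0 := by
          rw [Finsupp.single_apply, if_neg (Ne.symm ht)]
        rw [h1]; omega
    rw [e3, smul_monomial, smul_eq_mul, mul_one]
  rw [Finset.sum_congr rfl h1, ← Finset.sum_smul]
  congr 1
  push_cast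
  refine Finset.sum_subset (Finset.subset_univ _) fun i _ hi => ?_
  rw [Finsupp.notMem_support_iff.1 hi, Nat.cast_zero]

theorem dickElem_of {S : Dick} (h : ∀ r a, S.Sq r a = FA550.Sq (r + 1) a) : DickElem S where
  instab r a n g hg hn := by
    rw [h]; exact FA550.Sq_gt hg hn
  top r n g hg := by
    rw [h]; exact FA550.Sq_top hg
  one_succ r s u hsu he := by
    have h10 : (1 : Fin (r + 1 + 1)) ≠ 0 := by simp
    have h1c : ((1 : Fin (r + 1 + 1)) : ℕ) = 1 := by simp
    have key := del_lt_mon (r + 1) 1 h10 u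
    rw [h1c] at key
    rw [h, FA550.Sq_one_eq, key]
    have hu1 : u 1 = s 1 + 1 := by
      have := DFunLike.congr_fun hsu 1
      simp only [Finsupp.coe_add, Pi.add_apply, Finsupp.single_eq_same] at this
      rw [Finsupp.single_apply, if_neg (Ne.symm h10)] at this
      omega
    have e2 : ((u 1 : ℕ) : F2) = 1 := by
      rw [hu1]
      obtain ⟨q, hq⟩ := he
      rw [hq]; push_cast
      have : ∀ x : F2, x + x + 1 = 1 := by decide
      exact this _
    rw [e2, one_smul, ← hsu, add_tsub_cancel_right]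
  one_zero u hu := by
    have key := del_top_mon 0 u
    rw [h, FA550.Sq_one_eq]
    refine key.trans ?_
    have e2 : ((∑ i, u i : ℕ) : F2) = 1 := by
      rw [Fin.sum_univ_one]
      obtain ⟨q, hq⟩ := hu
      rw [hq]; push_cast
      have : ∀ x : F2, 2 * x + 1 = 1 := by decide
      exact this _
    rw [e2, one_smul]

/-- `LemEven` for the Dickson operations of FA_550 -/
theorem lemEven_dick {S : Dick} (h : ∀ r a, S.Sq r a = FA550.Sq (r + 1) a) : LemEven S :=
  lemEven_of (dickElem_of h)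

/-- the facts used by block F-B -/
theorem facts_dick {S : Dick} (h : ∀ r a, S.Sq r a = FA550.Sq (r + 1) a) : F166.Facts S where
  mil_lt r j hj s := by
    have e : S.Sq r = FA550.Sq (r + 1) := funext (h r)
    have hj1 : 1 ≤ (j : ℕ) := Nat.one_le_iff_ne_zero.2 (fun hc => hj (Fin.ext hc))
    rw [e, FA550.mil_eq r j hj1 (by omega)]
    exact del_lt_mon r j hj s
  mil_top r s := by
    have e : S.Sq r = FA550.Sq (r + 1) := funext (h r)
    rw [e, FA550.mil_eq r (r + 1) (by omega) (by omega)]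
    exact del_top_mon r s
  hom r a g n hg := by
    rw [h]; exact FA550.Sq_homog hg a

end Crest.Agent.R204.Spine693
end
end

-- ▼ part R204/FA5_550

/-!
# Row 204, block F-A, part 5: `HalfInput` for the Dickson operations (helper550)
-/

set_option autoImplicit false

noncomputable section

namespace Crest.Agent.R204.FA550

open MvPolynomial Crest.Agent.R204.Spine693 Crest.Agent.R204.F166 Crest.Agent.R204.FC787

/-! ### `P` on monomials -/


/-- the derivations `1, …, i` on a monomial with odd exponents at `1, …, i` -/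
lemma PiD_mon (r : ℕ) : ∀ (i : ℕ), i ≤ r → ∀ s t : Fin (r + 1) →₀ ℕ,
    (∀ j : Fin (r + 1), 1 ≤ (j : ℕ) → (j : ℕ) ≤ i → Odd (s j)) →
    t 0 = s 0 + i → (∀ j : Fin (r + 1), 1 ≤ (j : ℕ) → (j : ℕ) ≤ i → t j + 1 = s j) →
    (∀ j : Fin (r + 1), i < (j : ℕ) → t j = s j) →
    PiD (r + 1) i (monomial s 1) = monomial t 1 := by
  intro i
  induction i with
  | zero =>
    intro _ s t _ h0 _ h2
    have : t = s := by
      ext j
      by_cases hj : j = 0
      · subst hj; omega
      · exact h2 j (by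
          rcases Nat.eq_zero_or_pos (j : ℕ) with h | h
          · exact absurd (Fin.ext h) hj
          · exact h)
    rw [this]; rfl
  | succ i ih =>
    intro hi s t ho h0 h1 h2
    have hne : (⟨i + 1, by omega⟩ : Fin (r + 1)) ≠ 0 := by
      intro h; exact absurd (congrArg Fin.val h) (by simp)
    have hodd : Odd (s ⟨i + 1, by omega⟩) := ho ⟨i + 1, by omega⟩ (by simp) (by simp)
    rw [PiD_succ]
    have h3 := del_lt_mon r ⟨i + 1, by omega⟩ hne s
    rw [cast_odd hodd, one_smul] at h3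
    rw [h3]
    have hv : ∀ j : Fin (r + 1), j ≠ ⟨i + 1, by omega⟩ → j ≠ 0 →
        (s + Finsupp.single 0 1 - Finsupp.single ⟨i + 1, by omega⟩ 1 : Fin (r + 1) →₀ ℕ) j = s j := by
      intro j hj1 hj0
      rw [Finsupp.tsub_apply, Finsupp.add_apply, Finsupp.single_eq_of_ne (by simpa using hj0),
        Finsupp.single_eq_of_ne (by simpa using hj1)]
      omega
    apply ih (by omega)
    · intro j hj1 hj2
      rw [hv j (by rintro rfl; simp at hj2) (by rintro rfl; simp at hj1)]
      exact ho j hj1 (by omega)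
    · rw [Finsupp.tsub_apply, Finsupp.add_apply, Finsupp.single_eq_same,
        Finsupp.single_eq_of_ne (by simpa using hne.symm)]
      omega
    · intro j hj1 hj2
      rw [hv j (by rintro rfl; simp at hj2) (by rintro rfl; simp at hj1)]
      exact h1 j hj1 (by omega)
    · intro j hj
      have hj0 : j ≠ 0 := by rintro rfl; simp at hj
      by_cases hj3 : j = ⟨i + 1, by omega⟩
      · have := h1 ⟨i + 1, by omega⟩ (by simp) (by simp)
        rw [hj3, Finsupp.tsub_apply, Finsupp.add_apply, Finsupp.single_eq_of_ne (by simpa using hne),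
          Finsupp.single_eq_same]
        omega
      · rw [hv j hj3 hj0]
        refine h2 j ?_
        rcases Nat.lt_or_ge (i + 1) (j : ℕ) with h | h
        · exact h
        · exact absurd (Fin.ext (by simp only; omega)) hj3

/-- `sigE s = (s_0 + r + 1, s_j - 1)` -/
def sigE (r : ℕ) (s : Fin (r + 1) →₀ ℕ) : Fin (r + 1) →₀ ℕ :=
  Finsupp.equivFunOnFinite.symm (fun i => if i = 0 then s 0 + (r + 1) else s i - 1)

lemma sigE_zero (r : ℕ) (s : Fin (r + 1) →₀ ℕ) : sigE r s 0 = s 0 + (r + 1) := by simp [sigE]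

lemma sigE_ne (r : ℕ) (s : Fin (r + 1) →₀ ℕ) {i : Fin (r + 1)} (h : i ≠ 0) :
    sigE r s i = s i - 1 := by simp [sigE, h]

lemma one_le_of_ne {r : ℕ} {j : Fin (r + 1)} (h : j ≠ 0) : 1 ≤ (j : ℕ) :=
  Nat.one_le_iff_ne_zero.2 (fun hc => h (Fin.ext hc))

lemma PP_typeA (r : ℕ) (s : Fin (r + 1) →₀ ℕ) (hA : TypeA s) :
    PP r (monomial s 1) = monomial (sigE r s) 1 := by
  have h1 : PP r (monomial s 1) = PiD (r + 1) r (del (r + 1) (r + 1) (monomial s 1)) := rfl
  rw [h1, del_top_mon, cast_odd hA.2, one_smul]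
  have hs : ∀ j : Fin (r + 1), j ≠ 0 → (s + Finsupp.single 0 1 : Fin (r + 1) →₀ ℕ) j = s j := by
    intro j hj
    rw [Finsupp.add_apply, Finsupp.single_eq_of_ne (by simpa using hj), add_zero]
  apply PiD_mon r r le_rfl
  · intro j hj _
    have hj0 : j ≠ 0 := by rintro rfl; simp at hj
    rw [hs j hj0]
    exact hA.1 j hj0
  · rw [sigE_zero, Finsupp.add_apply, Finsupp.single_eq_same]; omega
  · intro j hj _
    have hj0 : j ≠ 0 := by rintro rfl; simp at hj
    rw [hs j hj0, sigE_ne r s hj0]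
    have := (hA.1 j hj0).pos
    omega
  · intro j hj
    have := j.2
    omega

lemma del_sq_mul (R j : ℕ) (c x : D R) : del R j (c ^ 2 * x) = c ^ 2 * del R j x := by
  rw [Derivation.leibniz, pow_two, Derivation.leibniz, CharTwo.add_self_eq_zero, smul_zero, add_zero,
    smul_eq_mul]

lemma PiD_sq_mul (R : ℕ) (c : D R) : ∀ (i : ℕ) (x : D R), PiD R i (c ^ 2 * x) = c ^ 2 * PiD R i x := by
  intro i
  induction i with
  | zero => intro x; rfl
  | succ i ih => intro x; rw [PiD_succ, del_sq_mul, ih, PiD_succ]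

lemma PP_not_typeA (r : ℕ) (s : Fin (r + 1) →₀ ℕ) (hA : ¬ TypeA s) :
    PP r (monomial s 1) = 0 := by
  by_cases h : ∀ j : Fin (r + 1), j ≠ 0 → Odd (s j)
  · have h2 : ¬ Odd (∑ j, s j) := fun h3 => hA ⟨h, h3⟩
    rw [Nat.not_odd_iff_even] at h2
    have h1 : PP r (monomial s 1) = PiD (r + 1) r (del (r + 1) (r + 1) (monomial s 1)) := rfl
    rw [h1, del_top_mon, cast_even h2, zero_smul, map_zero]
  · simp only [not_forall] at h
    obtain ⟨j, hj0, hj⟩ := h
    rw [Nat.not_odd_iff_even] at hj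
    have h3 : (X 0) ^ 2 * PP r (monomial s 1) = 0 := by
      have h4 := del_lt_mon r j hj0 (s + Finsupp.single 0 1 + Finsupp.single j 1)
      have h5 : (s + Finsupp.single 0 1 + Finsupp.single j 1 : Fin (r + 1) →₀ ℕ) j = s j + 1 := by
        rw [Finsupp.add_apply, Finsupp.add_apply, Finsupp.single_eq_same,
          Finsupp.single_eq_of_ne (by simpa using hj0), add_zero]
      have h6 : s + Finsupp.single 0 1 + Finsupp.single j 1 + Finsupp.single 0 1 -
          Finsupp.single j 1 = Finsupp.single 0 2 + s := by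
        ext i
        have e2 : (Finsupp.single 0 2 : Fin (r + 1) →₀ ℕ) = Finsupp.single 0 1 + Finsupp.single 0 1 := by
          rw [← Finsupp.single_add]
        rw [e2]
        simp only [Finsupp.tsub_apply, Finsupp.add_apply]
        omega
      rw [h5, cast_odd (Even.add_one hj), one_smul, h6] at h4
      have h7 : (X 0 : D (r + 1)) ^ 2 * monomial s 1 = monomial (Finsupp.single 0 2 + s) 1 := by
        rw [X_pow_eq_monomial, monomial_mul, one_mul]
      rw [PP, ← PiD_sq_mul, h7, ← h4]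
      exact PiD_del _ _ (one_le_of_ne hj0) (by omega) le_rfl _
    exact (mul_eq_zero.1 h3).resolve_left (pow_ne_zero 2 (X_ne_zero 0))

lemma coeff_single (r : ℕ) (s t : Fin (r + 1) →₀ ℕ) (hA : TypeA s) :
    coeff (sigE r s) (PP r (monomial t 1)) = coeff s (monomial t (1 : ZMod 2)) := by
  by_cases ht : TypeA t
  · rw [PP_typeA r t ht, coeff_monomial, coeff_monomial]
    have : sigE r t = sigE r s ↔ t = s := by
      refine ⟨fun h => ?_, fun h => by rw [h]⟩
      ext j
      have h1 := DFunLike.congr_fun h j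
      by_cases hj : j = 0
      · subst hj; rw [sigE_zero, sigE_zero] at h1; omega
      · rw [sigE_ne r t hj, sigE_ne r s hj] at h1
        have h2 := (ht.1 j hj).pos
        have h3 := (hA.1 j hj).pos
        omega
    simp only [this]
  · rw [PP_not_typeA r t ht, coeff_zero, coeff_monomial, if_neg]
    rintro rfl
    exact ht hA

/-- the coefficients at type A exponents are detected by `P` -/
lemma coeff_typeA (r : ℕ) (s : Fin (r + 1) →₀ ℕ) (hA : TypeA s) (y : D (r + 1)) :
    coeff (sigE r s) (PP r y) = coeff s y := by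
  induction y using MvPolynomial.induction_on' with
  | monomial t c =>
    have h1 : (monomial t c : D (r + 1)) = c • monomial t 1 := by
      rw [smul_monomial, smul_eq_mul, mul_one]
    rw [h1, map_smul, coeff_smul, coeff_smul, coeff_single r s t hA]
  | add p q hp hq => rw [map_add, coeff_add, coeff_add, hp, hq]

/-! ### `P (κ f²) = (Q_0 f)²` -/

lemma typeA_kapE (r : ℕ) (J : Fin (r + 1) →₀ ℕ) (hJ : r ≤ 2 * J 0 + 1) : TypeA (kapE r J) := by
  refine ⟨fun j hj => ?_, ?_⟩
  · rw [kapE_ne r J hj]; exact ⟨J j, rfl⟩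
  · rw [Fin.sum_univ_succ, kapE_zero]
    have h1 : ∀ i : Fin r, kapE r J i.succ = 2 * J i.succ + 1 := fun i =>
      kapE_ne r J (Fin.succ_ne_zero i)
    rw [Finset.sum_congr rfl fun i _ => h1 i, Finset.sum_add_distrib, ← Finset.mul_sum]
    simp only [Finset.sum_const, Finset.card_univ, Fintype.card_fin, smul_eq_mul, mul_one]
    refine ⟨J 0 + ∑ i : Fin r, J i.succ, ?_⟩
    omega

lemma PP_kap_mon (r : ℕ) (J : Fin (r + 1) →₀ ℕ) (hJ : r ≤ 2 * J 0 + 1) :
    PP r (kap r (monomial J 1)) = (X 0 * monomial J 1) ^ 2 := by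
  rw [kap_monomial, PP_typeA r _ (typeA_kapE r J hJ)]
  have e1 : (X 0 : D (r + 1)) = monomial (Finsupp.single 0 1) 1 := rfl
  rw [e1, monomial_mul, one_mul, monomial_pow, one_pow]
  refine congrArg (fun t => (monomial t (1 : ZMod 2) : D (r + 1))) ?_
  ext j
  rw [Finsupp.smul_apply, Finsupp.add_apply, smul_eq_mul]
  by_cases hj : j = 0
  · subst hj
    rw [sigE_zero, kapE_zero, Finsupp.single_eq_same]; omega
  · rw [sigE_ne r _ hj, kapE_ne r J hj, Finsupp.single_eq_of_ne (by simpa using hj)]; omega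

theorem PP_kap {r c : ℕ} (hc : r ≤ 2 * c + 1) {f : D (r + 1)} (hf : f ∈ M r c) :
    PP r (kap r f) = (X 0 * f) ^ 2 := by
  have h1 : f = ∑ s ∈ f.support, monomial s (f.coeff s) := (support_sum_monomial_coeff f).symm
  have h2 : ∀ s ∈ f.support, (monomial s (f.coeff s) : D (r + 1)) = monomial s 1 := by
    intro s hs
    have h3 : f.coeff s ≠ 0 := mem_support_iff.1 hs
    have h4 : f.coeff s = 1 := by
      have : ∀ x : ZMod 2, x ≠ 0 → x = 1 := by decide
      exact this _ h3
    rw [h4]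
  rw [h1, Finset.sum_congr rfl h2, map_sum, map_sum, Finset.mul_sum, CharTwo.sum_sq]
  refine Finset.sum_congr rfl fun s hs => ?_
  have := hf s (mem_support_iff.1 hs)
  exact PP_kap_mon r s (by omega)

/-! ### `HalfInput` -/

/-- elements of `M_{k+1}` killed by `P` are in `∑ P_j M_k` -/
theorem mem_NN_of_PP {S : Dick} (h : ∀ r a, S.Sq r a = Sq (r + 1) a) {r k : ℕ} {y : D (r + 1)}
    (hy : y ∈ M r (k + 1)) (hP : PP r y = 0) : y ∈ NN S r k := by
  rw [← support_sum_monomial_coeff y]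
  refine Submodule.sum_mem _ fun s hs => ?_
  have hs' : coeff s y ≠ 0 := mem_support_iff.1 hs
  have hA : ¬ TypeA s := by
    intro hA
    apply hs'
    rw [← coeff_typeA r s hA y, hP, coeff_zero]
  obtain ⟨j, u, h1, h2, hu, huj⟩ := exists_preimage (facts_dick h) r k s (hy s hs') hA
  have h3 : (monomial s (coeff s y) : D (r + 1)) = coeff s y • monomial s 1 := by
    rw [smul_monomial, smul_eq_mul, mul_one]
  rw [h3, ← huj]
  exact Submodule.smul_mem _ _ (FC787.mem_NN S r k j h1 h2 (monomial_mem_M hu 1))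

theorem last_dick {S : Dick} (h : ∀ r a, S.Sq r a = Sq (r + 1) a) (r k : ℕ) (g : D (r + 1))
    (hg : g ∈ M r k) : mil (S.Sq r) (r + 2) g ∈ NN S r k := by
  have e : S.Sq r = Sq (r + 1) := funext (h r)
  have h0 : mil (S.Sq r) (r + 2) g = ∑ l ∈ Finset.range (r + 1),
      mil (S.Sq r) (l + 1) (Q (r + 1) l ^ 2 * g) := by
    rw [e, mil_eq r (r + 2) (by omega) le_rfl, del_top_apply]
    refine Finset.sum_congr rfl fun l hl => ?_
    have hl' := Finset.mem_range.1 hl
    rw [mil_eq r (l + 1) (by omega) (by omega), del_sq_mul]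
  rw [h0]
  refine Submodule.sum_mem _ fun l hl => ?_
  have hl' := Finset.mem_range.1 hl
  refine FC787.mem_NN S r k (l + 1) (by omega) (by omega) ?_
  rw [mul_comm]
  exact mul_mem_M' _ hg

theorem top_dick {S : Dick} (h : ∀ r a, S.Sq r a = Sq (r + 1) a) (r : ℕ) :
    ∀ j, 1 ≤ j → j ≤ r + 1 → ∀ g, PP r (mil (S.Sq r) j g) = 0 := by
  have e : S.Sq r = Sq (r + 1) := funext (h r)
  intro j h1 h2 g
  rw [e, mil_eq r j h1 (by omega)]
  exact PP_del h1 h2 g

theorem sq_dick {S : Dick} (h : ∀ r a, S.Sq r a = Sq (r + 1) a) (r c a : ℕ) (hc : r ≤ 2 * c)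
    (f : D (r + 1)) (hf : f ∈ M r c) :
    S.Sq r (2 * a) (kap r f) + kap r (S.Sq r a f) ∈ NN S r (2 * c - r) := by
  have hk : 2 * c + 1 - r = 2 * c - r + 1 := by omega
  have h1 : kap r f ∈ M r (2 * c - r + 1) := hk ▸ kap_mem r c hf
  have h2 : kap r (S.Sq r a f) ∈ M r (2 * c - r + 1) := hk ▸ kap_mem r c (S.mem r c a f hf)
  apply mem_NN_of_PP h
  · exact (M r _).add_mem (S.mem r _ _ _ h1) h2
  · rw [map_add, PP_kap (by omega) (S.mem r c a f hf), h r, h r,
      PP_Sq_even (PP_kap (by omega) hf) a, CharTwo.add_self_eq_zero]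

theorem halfInput {S : Dick} (h : ∀ r a, S.Sq r a = Sq (r + 1) a) : HalfInput S :=
  ⟨last_dick h, fun r => ⟨PP r, top_dick h r, fun _ hc _ hf => PP_kap hc hf⟩, sq_dick h⟩

end Crest.Agent.R204.FA550
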