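import Crest.Agent.R204.Hsp2_696
import Crest.Agent.R204.C2_735
import Crest.Agent.R204.SingAct_265

-- ▼ part R204/Hsp3_696
section

/-!
# Row 204, block C (helper696): `Ω^(n+1) Z` as the loop space of `Ω^n Z`

`loopLast : Ω^(Fin (n+1)) Z ≃ₜ Path const const` (the last coordinate is the looping coordinate,
compatible with `Cubes735.ev`).
-/

set_option autoImplicit false
set_option linter.unusedSectionVars false

open scoped Topology unitInterval Topology.Homotopy
open Set

noncomputable section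

namespace Crest.Agent.R204.Hsp696

open Cubes735 BoxConf

variable {F J Z : Type*} [TopologicalSpace Z] {z₀ : Z}

/-- The base point of `Ω^n Z`. -/
abbrev cst {n : ℕ} : Ω^ (Fin n) Z z₀ := GenLoop.const

/-- a generalized loop as a path of generalized loops -/
def toPath {n : ℕ} (x : Ω^ (Fin (n + 1)) Z z₀) :
    Path (cst : Ω^ (Fin n) Z z₀) (cst : Ω^ (Fin n) Z z₀) where
  toFun s := ev s x
  continuous_toFun := continuous_ev continuous_id continuous_const
  source' := ev_zero x
  target' := ev_one x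

@[simp] theorem toPath_apply {n : ℕ} (x : Ω^ (Fin (n + 1)) Z z₀) (s : I) : toPath x s = ev s x := rfl

theorem snoc_init_last {n : ℕ} (t : Fin (n + 1) → I) :
    Fin.snoc (α := fun _ => I) (fun i : Fin n => t i.castSucc) (t (Fin.last n)) = t := by
  funext j
  refine Fin.lastCases ?_ (fun i => ?_) j
  · rw [Fin.snoc_last]
  · rw [Fin.snoc_castSucc]

/-- a path of generalized loops as a generalized loop -/
def ofPath {n : ℕ} (p : Path (cst : Ω^ (Fin n) Z z₀) (cst : Ω^ (Fin n) Z z₀)) :
    Ω^ (Fin (n + 1)) Z z₀ :=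
  ⟨⟨fun t => p (t (Fin.last n)) (fun i : Fin n => t i.castSucc), by
      refine Continuous.eval ?_ ?_
      · exact p.continuous.comp (continuous_apply _)
      · exact continuous_pi fun i => continuous_apply _⟩, by
    rintro t ⟨j, hj⟩
    show p (t (Fin.last n)) (fun i : Fin n => t i.castSucc) = z₀
    refine Fin.lastCases (motive := fun j => (t j = 0 ∨ t j = 1) → _) ?_ (fun i => ?_) j hj
    · rintro (h | h)
      · rw [h, p.source]; rfl
      · rw [h, p.target]; rfl
    · intro h
      exact GenLoop.boundary _ _ ⟨i, h⟩⟩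

theorem ofPath_apply {n : ℕ} (p : Path (cst : Ω^ (Fin n) Z z₀) (cst : Ω^ (Fin n) Z z₀))
    (t : Fin (n + 1) → I) : ofPath p t = p (t (Fin.last n)) (fun i : Fin n => t i.castSucc) := rfl

@[simp] theorem ev_ofPath {n : ℕ} (p : Path (cst : Ω^ (Fin n) Z z₀) (cst : Ω^ (Fin n) Z z₀))
    (s : I) : ev s (ofPath p) = p s := by
  ext t
  rw [ev_apply, ofPath_apply, Fin.snoc_last]
  congr 1
  funext i
  rw [Fin.snoc_castSucc]

@[simp] theorem ofPath_toPath {n : ℕ} (x : Ω^ (Fin (n + 1)) Z z₀) : ofPath (toPath x) = x := by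
  ext t
  rw [ofPath_apply, toPath_apply, ev_apply, snoc_init_last]

@[simp] theorem toPath_ofPath {n : ℕ} (p : Path (cst : Ω^ (Fin n) Z z₀) (cst : Ω^ (Fin n) Z z₀)) :
    toPath (ofPath p) = p := by
  apply Path.ext
  funext s
  rw [toPath_apply, ev_ofPath]

theorem continuous_toPath {n : ℕ} :
    Continuous (toPath : Ω^ (Fin (n + 1)) Z z₀ → Path (cst : Ω^ (Fin n) Z z₀) cst) := by
  rw [← Path.continuous_uncurry_iff]
  exact continuous_ev continuous_snd continuous_fst

theorem continuous_ofPath {n : ℕ} :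
    Continuous (ofPath : Path (cst : Ω^ (Fin n) Z z₀) cst → Ω^ (Fin (n + 1)) Z z₀) := by
  rw [continuous_genLoop_iff]
  simp only [ofPath_apply]
  refine Continuous.eval ?_ ?_
  · exact Continuous.eval continuous_fst ((continuous_apply _).comp continuous_snd)
  · exact continuous_pi fun i => (continuous_apply _).comp continuous_snd

/-- **`Ω^(n+1) Z ≃ₜ Ω (Ω^n Z)`**, the last coordinate being the loop coordinate. -/
def loopLast (n : ℕ) : Ω^ (Fin (n + 1)) Z z₀ ≃ₜ Path (cst : Ω^ (Fin n) Z z₀) cst where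
  toFun := toPath
  invFun := ofPath
  left_inv := ofPath_toPath
  right_inv := toPath_ofPath
  continuous_toFun := continuous_toPath
  continuous_invFun := continuous_ofPath

@[simp] theorem loopLast_apply (n : ℕ) (x : Ω^ (Fin (n + 1)) Z z₀) (s : I) :
    loopLast n x s = ev s x := rfl

@[simp] theorem loopLast_symm_apply (n : ℕ)
    (p : Path (cst : Ω^ (Fin n) Z z₀) (cst : Ω^ (Fin n) Z z₀)) :
    (loopLast n).symm p = ofPath p := rfl

@[simp] theorem loopLast_const (n : ℕ) :
    loopLast n (GenLoop.const : Ω^ (Fin (n + 1)) Z z₀) = Path.refl _ := rfl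



/-- **concatenation in the last coordinate is concatenation of paths** -/
theorem loopLast_transAt {n : ℕ} (x y : Ω^ (Fin (n + 1)) Z z₀) :
    loopLast n (GenLoop.transAt (Fin.last n) x y) = (loopLast n x).trans (loopLast n y) := by
  have hinit : ∀ (z : Ω^ (Fin (n + 1)) Z z₀) (t : Fin n → I) (s s' : I),
      z (Function.update (Fin.snoc (α := fun _ => I) t s) (Fin.last n) s') = ev s' z t := by
    intro z t s s'
    rw [ev_apply]
    congr 1
    funext j
    refine Fin.lastCases ?_ (fun i => ?_) j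
    · rw [Function.update_self, Fin.snoc_last]
    · rw [Function.update_of_ne (Fin.castSucc_lt_last i).ne, Fin.snoc_castSucc, Fin.snoc_castSucc]
  ext s t
  rw [loopLast_apply, ev_apply]
  unfold GenLoop.transAt
  rw [GenLoop.coe_copy]
  rw [Path.trans_apply]
  simp only [Fin.snoc_last]
  by_cases h : ((s : I) : ℝ) ≤ 1 / 2
  · simp only [h, if_true, dif_pos]
    rw [hinit, loopLast_apply]
    congr 2
    exact (Set.projIcc_of_mem zero_le_one _)
  · simp only [h, if_false, dif_neg, not_false_eq_true]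
    rw [hinit, loopLast_apply]
    congr 2
    exact (Set.projIcc_of_mem zero_le_one _)


/-- configurations of `Ω^n` acting on `Ω^(n+1)` -/
abbrev ext1 {n : ℕ} (c : BoxConf F (Fin n)) : BoxConf F (Fin (n + 1)) := c.extend Fin.castSuccEmb





end Crest.Agent.R204.Hsp696
end
end

-- ▼ part R204/HspSS_696

/-!
# Row 204, block C (helper696): the simplicial H-space `Sing (Ω^J Z)`

`mulS c : Hom (Sing X × Sing X) (Sing X)` for `c : BoxConf (Fin 2) J`, with simplicial homotopies for
unit, associativity, commutativity, inverse, independence of `c`; strict interchange and strict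
compatibility with `ev`.
-/

set_option autoImplicit false
set_option linter.unusedSectionVars false

open scoped Topology unitInterval Topology.Homotopy

noncomputable section

namespace Crest.Agent.R204.HspSS696

open Crest.Agent.R204 SS SingAct265 Cubes735 Hsp696

/-! ## generalities -/

theorem Hom.ext' {K L : SS} {f g : Hom K L} (h : ∀ n x, f.app n x = g.app n x) : f = g := by
  ext n x; exact h n x


theorem singMap_id {X : Type} [TopologicalSpace X] :
    SingMap (ContinuousMap.id X) = Hom.id (Sing X) := by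
  apply Hom.ext'; intro n x; rfl

/-- homotopic maps of spaces induce homotopic maps of singular sets -/
theorem nonempty_htpy {X Y : Type} [TopologicalSpace X] [TopologicalSpace Y] {f g : C(X, Y)}
    (h : f.Homotopic g) : Nonempty (Htpy (SingMap f) (SingMap g)) :=
  h.elim fun H => ⟨Htpy.ofHomotopy H⟩

theorem nonempty_htpy_rel {X Y : Type} [TopologicalSpace X] [TopologicalSpace Y] {f g : C(X, Y)}
    {S : Set X} (h : f.HomotopicRel g S) : Nonempty (Htpy (SingMap f) (SingMap g)) :=
  nonempty_htpy h.homotopic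

/-- constant map of simplicial sets onto a vertex given by a point -/
def ptS {X : Type} [TopologicalSpace X] (x : X) : (Sing X).S 0 := mkS (fun _ => x) continuous_const

/-- the constant map to a point -/
theorem singMap_const {X Y : Type} [TopologicalSpace X] [TopologicalSpace Y] (y : Y) :
    SingMap (ContinuousMap.const X y) = constHom (Sing X) (Sing Y) (ptS y) := by
  apply Hom.ext'; intro n x; rfl

variable {F J : Type} [Finite F] [Finite J] {Z : Type} [TopologicalSpace Z] {z₀ : Z}

/-- The space `Ω^J Z` -/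
abbrev Om (J Z : Type) [TopologicalSpace Z] (z₀ : Z) : Type := Ω^ J Z z₀

/-- multiplication on `Sing (Ω^J Z)` -/
def mulS (c : BoxConf (Fin 2) J) : Hom ((Sing (Om J Z z₀)).prod (Sing (Om J Z z₀))) (Sing (Om J Z z₀)) :=
  (SingMap (mu2 c)).comp (singPair _ _)

/-- the base vertex of `Sing (Ω^J Z)` -/
def eS : (Sing (Om J Z z₀)).S 0 := ptS GenLoop.const

@[simp] theorem ev_mulS (c : BoxConf (Fin 2) J) {n : ℕ} (x y : (Sing (Om J Z z₀)).S n)
    (t : stdSimplex ℝ (Fin (n + 1))) :
    SingAct265.ev ((mulS c).app n (x, y)) t = mu c ![SingAct265.ev x t, SingAct265.ev y t] := rfl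

/-- `n`-ary operations -/
def opS (c : BoxConf F J) : Hom (pow F (Sing (Om J Z z₀))) (Sing (Om J Z z₀)) :=
  (SingMap (muC c)).comp (singPi F _)

@[simp] theorem ev_opS (c : BoxConf F J) {n : ℕ} (x : (pow F (Sing (Om J Z z₀))).S n)
    (t : stdSimplex ℝ (Fin (n + 1))) :
    SingAct265.ev ((opS c).app n x) t = mu c (fun v => SingAct265.ev (x v) t) := rfl

/-! ## independence of the configuration -/


theorem mulS_htpy {c d : BoxConf (Fin 2) J} (h : Joined c d) :
    Nonempty (Htpy (mulS c : Hom ((Sing (Om J Z z₀)).prod (Sing (Om J Z z₀))) _) (mulS d)) := by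
  obtain ⟨H⟩ := nonempty_htpy_rel (mu2_homotopicRel (Z := Z) (z₀ := z₀) h)
  exact ⟨H.pre (singPair _ _)⟩

theorem mulS_htpy' [Nontrivial J] (c d : BoxConf (Fin 2) J) :
    Nonempty (Htpy (mulS c : Hom ((Sing (Om J Z z₀)).prod (Sing (Om J Z z₀))) _) (mulS d)) :=
  mulS_htpy (joined c d)

/-! ## commutativity -/

theorem mulS_comm [Nontrivial J] (c : BoxConf (Fin 2) J) :
    Nonempty (Htpy (mulS c : Hom ((Sing (Om J Z z₀)).prod (Sing (Om J Z z₀))) _)
      ((mulS c).comp (SS.swap _ _))) := by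
  obtain ⟨H⟩ := nonempty_htpy_rel (mu2_comm (Z := Z) (z₀ := z₀) c)
  exact ⟨H.pre (singPair _ _)⟩

/-! ## unit -/

/-- `x ↦ (e, x)` -/
def inS_left : Hom (Sing (Om J Z z₀)) ((Sing (Om J Z z₀)).prod (Sing (Om J Z z₀))) :=
  SS.pair (constHom _ _ eS) (Hom.id _)

/-- `x ↦ (x, e)` -/
def inS_right : Hom (Sing (Om J Z z₀)) ((Sing (Om J Z z₀)).prod (Sing (Om J Z z₀))) :=
  SS.pair (Hom.id _) (constHom _ _ eS)

theorem mulS_unit_left (c : BoxConf (Fin 2) J) :
    Nonempty (Htpy ((mulS c).comp (inS_left (Z := Z) (z₀ := z₀))) (Hom.id _)) := by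
  obtain ⟨H⟩ := nonempty_htpy_rel (mu2_const_left (Z := Z) (z₀ := z₀) c)
  rw [singMap_id] at H
  exact ⟨H⟩

theorem mulS_unit_right (c : BoxConf (Fin 2) J) :
    Nonempty (Htpy ((mulS c).comp (inS_right (Z := Z) (z₀ := z₀))) (Hom.id _)) := by
  obtain ⟨H⟩ := nonempty_htpy_rel (mu2_const_right (Z := Z) (z₀ := z₀) c)
  rw [singMap_id] at H
  exact ⟨H⟩

/-! ## associativity -/

/-- `((x, y), z) ↦ (x y) z` -/
def mulSL (c : BoxConf (Fin 2) J) :
    Hom (((Sing (Om J Z z₀)).prod (Sing (Om J Z z₀))).prod (Sing (Om J Z z₀))) (Sing (Om J Z z₀)) :=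
  (mulS c).comp (SS.prodMap (mulS c) (Hom.id _))

/-- `((x, y), z) ↦ x (y z)` -/
def mulSR (c : BoxConf (Fin 2) J) :
    Hom (((Sing (Om J Z z₀)).prod (Sing (Om J Z z₀))).prod (Sing (Om J Z z₀))) (Sing (Om J Z z₀)) :=
  (mulS c).comp (SS.pair ((SS.fst _ _).comp (SS.fst _ _))
    ((mulS c).comp (SS.pair ((SS.snd _ _).comp (SS.fst _ _)) (SS.snd _ _))))

theorem mulS_assoc' (c : BoxConf (Fin 2) J) (h : Joined (assocL c c) (assocR c c)) :
    Nonempty (Htpy (mulSL c : Hom (((Sing (Om J Z z₀)).prod (Sing (Om J Z z₀))).prod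
      (Sing (Om J Z z₀))) _) (mulSR c)) := by
  obtain ⟨H⟩ := nonempty_htpy_rel (mu2_assoc' (Z := Z) (z₀ := z₀) c h)
  exact ⟨(H.pre (singPair ((Om J Z z₀) × (Om J Z z₀)) (Om J Z z₀))).pre
    (SS.prodMap (singPair _ _) (Hom.id _))⟩

theorem mulS_assoc [Nontrivial J] (c : BoxConf (Fin 2) J) :
    Nonempty (Htpy (mulSL c : Hom (((Sing (Om J Z z₀)).prod (Sing (Om J Z z₀))).prod
      (Sing (Om J Z z₀))) _) (mulSR c)) :=
  mulS_assoc' c (joined _ _)

/-! ## inverse -/

section inv
variable [DecidableEq J]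

/-- inversion on `Sing (Ω^J Z)` -/
def invS (i : J) : Hom (Sing (Om J Z z₀)) (Sing (Om J Z z₀)) :=
  SingMap ⟨GenLoop.symmAt i, continuous_symmAt i⟩

theorem mulS_inv_right (i : J) :
    Nonempty (Htpy ((mulS (halves i)).comp (SS.pair (Hom.id (Sing (Om J Z z₀))) (invS i)))
      (constHom _ _ eS)) := by
  obtain ⟨H⟩ := nonempty_htpy_rel (mul_inv_homotopic (Z := Z) (z₀ := z₀) i)
  rw [singMap_const] at H
  exact ⟨H⟩


end inv

/-! ## base vertex -/

theorem mulS_base (c : BoxConf (Fin 2) J) :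
    (mulS c : Hom ((Sing (Om J Z z₀)).prod (Sing (Om J Z z₀))) _).app 0 (eS, eS) = eS := by
  refine sing_ext fun t => ?_
  show mu c ![GenLoop.const, GenLoop.const] = GenLoop.const
  rw [cons_const, mu_const]

/-! ## naturality in `Z` -/

variable {Z' : Type} [TopologicalSpace Z'] {z₀' : Z'}




/-! ## evaluation -/



end Crest.Agent.R204.HspSS696
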