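import Crest.Agent.R204.EZCross_271
import Crest.Agent.R204.SpecA_334

/-!
# Row 204, leaf A6a (helper334): homotopy invariance, `SpecA.HomotopyInv`

* `cross_vertex` : `cross a [v] = N.map (id, const v) a`, `vertex_cross` symmetric version
* `prism h z := N.map h (cross z ι)` with `bd (prism h (sg z)) = …`
* `homotopyInv : SpecA.HomotopyInv`
-/

set_option autoImplicit false

noncomputable section

namespace Crest.Agent.R204.HtpInv334

open Crest.Agent.R204.EZ271

variable {R : Type} [CommRing R] {K L : SS}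

/-- the unique map `[p] → [0]` -/
def toZero (p : ℕ) : Op p 0 := ⟨fun _ => 0, fun _ _ _ => le_rfl⟩

theorem op_zero_ext {p : ℕ} (f g : Op p 0) : f = g :=
  OrderHom.ext _ _ (funext fun _ => Fin.ext (by omega))

theorem cons_face_zero (p : ℕ) : Op.cons (Op.face 0 : Op p (p + 1)) = (OrderHom.id : Op (p + 1) (p + 1)) := by
  refine OrderHom.ext _ _ (funext fun a => ?_)
  induction a using Fin.cases with
  | zero => rfl
  | succ a => rfl

theorem E_zero_right (p : ℕ) : E R p 0 =
    N.sx R (K := (SS.std p).prod (SS.std 0)) (n := p) ((OrderHom.id : Op p p), toZero p) := by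
  induction p with
  | zero =>
    rw [E_zero_zero]
    congr 1
    exact Prod.ext (op_zero_ext _ _) (op_zero_ext _ _)
  | succ p ih =>
    rw [E_succ_zero, ih, N.map_sx, Cone.c_sx]
    congr 1
    exact Prod.ext (cons_face_zero p) (op_zero_ext _ _)

theorem E_zero_left (q : ℕ) : E R 0 q =
    N.sx R (K := (SS.std 0).prod (SS.std q)) (n := q) (toZero q, (OrderHom.id : Op q q)) := by
  induction q with
  | zero =>
    rw [E_zero_zero]
    congr 1
    exact Prod.ext (op_zero_ext _ _) (op_zero_ext _ _)
  | succ q ih =>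
    rw [E_zero_succ, ih, N.map_sx, Cone.c_sx]
    congr 1
    exact Prod.ext (op_zero_ext _ _) (cons_face_zero q)

/-- cross product with a vertex on the right -/
theorem cross_vertex (a : N R K) (v : L.S 0) :
    cross R a (N.sx R v) = N.map R (SS.pair (SS.Hom.id K) (SS.constHom K L v)) a := by
  have h : (cross R (K := K) (L := L)).flip (N.sx R v) =
      N.map R (SS.pair (SS.Hom.id K) (SS.constHom K L v)) := by
    refine hom_ext fun p x => ?_
    rw [LinearMap.flip_apply, cross_sx, E_zero_right, N.map_sx, N.map_sx]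
    congr 1
    exact Prod.ext (K.act_id x) rfl
  exact LinearMap.congr_fun h a


/-- the fundamental simplex of the interval -/
def iota1 (R : Type) [CommRing R] : N R (SS.std 1) := N.sx R (K := SS.std 1) (n := 1) (OrderHom.id : Op 1 1)

/-- vertex `i` of the interval -/
def vtx (i : Fin 2) : (SS.std 1).S 0 := (⟨fun _ => i, fun _ _ _ => le_rfl⟩ : Op 0 1)

theorem bd_iota1 : N.bd R (SS.std 1) (iota1 R) = N.sx R (vtx 1) - N.sx R (vtx 0) := by
  rw [iota1, bd_sx_succ, Fin.sum_univ_two]
  have h0 : (SS.std 1).act (Op.face 0 : Op 0 1) (OrderHom.id : Op 1 1) = vtx 1 := by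
    refine OrderHom.ext _ _ (funext fun a => ?_)
    have : a = 0 := Fin.ext (by omega)
    subst this
    rfl
  have h1 : (SS.std 1).act (Op.face 1 : Op 0 1) (OrderHom.id : Op 1 1) = vtx 0 := by
    refine OrderHom.ext _ _ (funext fun a => ?_)
    have : a = 0 := Fin.ext (by omega)
    subst this
    rfl
  rw [h0, h1]
  simp [sub_eq_add_neg]

theorem endMap_eq (K : SS) (i : Fin 2) :
    SpecA.endMap K i = SS.pair (SS.Hom.id K) (SS.constHom K (SS.std 1) (vtx i)) := rfl

/-- the prism operator -/
def prism (h : SS.Hom (K.prod (SS.std 1)) L) : N R K →ₗ[R] N R L :=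
  N.map R h ∘ₗ (cross R (K := K) (L := SS.std 1)).flip (iota1 R)

theorem bd_prism (h : SS.Hom (K.prod (SS.std 1)) L) (z : N R K) :
    N.bd R L (prism h z) = prism h (N.bd R K z) +
      (N.map R (SS.Hom.comp h (SpecA.endMap K 1)) (sg R z) -
        N.map R (SS.Hom.comp h (SpecA.endMap K 0)) (sg R z)) := by
  have h1 : N.bd R L (prism h z) = N.map R h (N.bd R _ (cross R z (iota1 R))) := by
    rw [prism, LinearMap.comp_apply, LinearMap.flip_apply]
    exact (map_bd' R h _).symm
  rw [h1, bd_cross, bd_iota1, map_sub, cross_vertex, cross_vertex, map_add, map_sub, ← endMap_eq,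
    ← endMap_eq, map_map, map_map]
  rfl

theorem homotopyInv : SpecA.HomotopyInv := by
  intro R _ K L h
  apply LinearMap.ext
  intro x
  obtain ⟨z, hz, rfl⟩ := Hd.mk_surj _ x
  show Hd.mk (N.bd R L) (N.map R (SS.Hom.comp h (SpecA.endMap K 0)) z) _ =
    Hd.mk (N.bd R L) (N.map R (SS.Hom.comp h (SpecA.endMap K 1)) z) _
  rw [Hd.mk_eq_mk]
  refine ⟨- prism h (sg R z), ?_⟩
  rw [map_neg, bd_prism, bd_sg, hz, map_zero, neg_zero, map_zero, zero_add, sg_sg, neg_sub]

end Crest.Agent.R204.HtpInv334
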