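import Crest.Agent.R204.Spec_114
import Crest.Agent.R204.SphSS_478
import Crest.Agent.R204.HtpInv_334
import Crest.Agent.R204.HspSS_696
import Crest.Agent.R204.Red_478

/-!
# Row 204, leaf FactSph (helper478): the `Sph` instance of a tower

`mkSph X A h0 sub` : spherical classes with `h (k+1) = σ (h k)`; `factSph_mk`: `FactSph` follows from
`FactSigma` and the facts at `k = 0`.
`sphOf` : the instance for `X.H 0 = H F2 K` and the spherical simplices of `K`.
-/

set_option autoImplicit false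

open scoped TensorProduct

namespace Crest.Agent.R204.FactSph478

open Crest.Agent.R204 Spec114 Cone330 SphSS478

/-- the classes `h^k = σ^k h^0` -/
def hk (X : Tower) (y : X.H 0) : ∀ k, X.H k
  | 0 => y
  | k + 1 => X.σ k (hk X y k)

/-- spherical classes from the classes at stage `0` -/
def mkSph (X : Tower) (A : Type) (h0 : A → X.H 0) (sub : A → A → A) : Sph X where
  A := A
  h k α := hk X (h0 α) k
  sub := sub

theorem hk_gr {X : Tower} {D : ℕ} (hσ : X.FactSigma D) {y : X.H 0} {d : ℕ} (hy : y ∈ X.gr 0 d) :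
    ∀ k ≤ D + 2, hk X y k ∈ X.gr k (d + k) := by
  intro k
  induction k with
  | zero => intro _; exact hy
  | succ k ih => intro hk'; exact (hσ k (by omega)).1 _ _ (ih (by omega))

theorem hk_prim {X : Tower} {D : ℕ} (hσ : X.FactSigma D) {y : X.H 0} (hy : y ∈ X.prim 0) :
    ∀ k ≤ D + 2, hk X y k ∈ X.prim k := by
  intro k
  induction k with
  | zero => intro _; exact hy
  | succ k _ => intro hk'; exact (hσ k (by omega)).2.1 _

theorem hk_sq {X : Tower} {D : ℕ} (hσ : X.FactSigma D) {y : X.H 0} (hy : X.SqKills 0 y) :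
    ∀ k ≤ D + 2, X.SqKills k (hk X y k) := by
  intro k
  induction k with
  | zero => intro _; exact hy
  | succ k ih =>
    intro hk' a ha
    show X.Sq (k + 1) a (X.σ k (hk X y k)) = 0
    rw [← (hσ k (by omega)).2.2.2.1, ih (by omega) a ha, map_zero]

theorem hk_add {X : Tower} (y z : X.H 0) (k : ℕ) : hk X (y + z) k = hk X y k + hk X z k := by
  induction k with
  | zero => rfl
  | succ k ih =>
    show X.σ k (hk X (y + z) k) = X.σ k (hk X y k) + X.σ k (hk X z k)
    rw [ih, map_add]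

/-- **`FactSph` from the facts at stage `0`.** -/
theorem factSph_mk {X : Tower} {D d : ℕ} (hσ : X.FactSigma D) {A : Type} {h0 : A → X.H 0}
    {sub : A → A → A} (hgr : ∀ α, h0 α ∈ X.gr 0 d) (hprim : ∀ α, h0 α ∈ X.prim 0)
    (hsq : ∀ α, X.SqKills 0 (h0 α)) (hadd : ∀ α β, h0 (sub α β) = h0 α + h0 β)
    (hbase : ∀ α, h0 α ∈ X.base) : (mkSph X A h0 sub).FactSph D d := by
  refine ⟨fun k hk' α => ⟨hk_gr hσ (hgr α) k hk', hk_prim hσ (hprim α) k hk',
    hk_sq hσ (hsq α) k hk', fun β => ?_⟩, fun k _ α => rfl, hbase⟩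
  exact (congrArg (fun y => hk X y k) (hadd α β)).trans (hk_add _ _ k)

/-! ## spherical simplices -/

/-- homotopic maps agree in homology -/
theorem map_eq_of_htpy {K L : SS} {f g : SS.Hom K L} (h : Nonempty (SingAct265.Htpy f g))
    (R : Type) [CommRing R] : H.map R f = H.map R g := by
  obtain ⟨h, h0, h1⟩ := h
  have key := HtpInv334.homotopyInv R K L h
  have e0 : SS.Hom.comp h (SpecA.endMap K 0) = f := SS.Hom.ext (funext fun n => funext fun x => h0 n x)
  have e1 : SS.Hom.comp h (SpecA.endMap K 1) = g := SS.Hom.ext (funext fun n => funext fun x => h1 n x)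
  rw [e0, e1] at key
  exact key

theorem map_id_H {K : SS} : H.map F2 (SS.Hom.id K) = LinearMap.id := by
  refine LinearMap.ext fun y => ?_
  obtain ⟨z, hz, rfl⟩ := Hd.mk_surj _ y
  refine Hd.mk_eq_mk.2 ⟨0, ?_⟩
  rw [map_zero]
  exact (sub_eq_zero.2 (EZ271.map_idHom F2 z)).symm

/-- the spherical simplices of dimension `e+1` -/
def Asph (K : SS) (b : K.S 0) (e : ℕ) : Type := {x : K.S (e + 1) // IsSph b x}

theorem isSph_map_to {K L : SS} (f : SS.Hom K L) {b : K.S 0} {c : L.S 0} (hf : f.app 0 b = c)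
    {M : ℕ} {x : K.S M} (hx : IsSph b x) : IsSph c (f.app M x) := by
  subst hf
  exact IsSph.map f hx

/-- product of spherical simplices -/
def mulA {K : SS} {b : K.S 0} (m : SS.Hom (K.prod K) K) (hb : m.app 0 (pr b b) = b) {e : ℕ}
    (x y : Asph K b e) : Asph K b e :=
  ⟨m.app (e + 1) (pr x.1 y.1), isSph_map_to m hb (isSph_pr x.2 y.2)⟩

theorem scl_mulA {K : SS} {b : K.S 0} (m : SS.Hom (K.prod K) K) (hb : m.app 0 (pr b b) = b)
    (hr : Nonempty (SingAct265.Htpy (m.comp (SS.pair (SS.Hom.id K) (SS.constHom K K b)))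
      (SS.Hom.id K)))
    (hl : Nonempty (SingAct265.Htpy (m.comp (SS.pair (SS.constHom K K b) (SS.Hom.id K)))
      (SS.Hom.id K))) {e : ℕ} (x y : Asph K b e) :
    scl (mulA m hb x y).1 (mulA m hb x y).2 = scl x.1 x.2 + scl y.1 y.2 :=
  scl_mul hb ((map_eq_of_htpy hr F2).trans map_id_H) ((map_eq_of_htpy hl F2).trans map_id_H)
    x.2 y.2 (mulA m hb x y).2

/-! ## spherical simplices of `Sing Y` -/

section Sing

variable {Y : Type} [TopologicalSpace Y]

theorem base_sing (y : Y) (q : ℕ) : base (SS.Sing Y) (SpecA.cst y 0) q = SpecA.cst y q := by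
  apply ContinuousMap.ext
  intro p
  rfl

theorem isSph_iff {y : Y} {e : ℕ} {a : (SS.Sing Y).S (e + 1)} :
    Red478.IsSph y a ↔ IsSph (SpecA.cst y 0) a := by
  constructor
  · intro h
    apply isSph_of_face
    intro i
    rw [h i, base_sing]
  · intro h i
    rw [IsSph.face h i, base_sing]


end Sing

/-- additivity in `Ω^J Z` -/
theorem scl_mulS {J : Type} [Finite J] {Z : Type} [TopologicalSpace Z] {z₀ : Z}
    (c : Cubes735.BoxConf (Fin 2) J) {e : ℕ}
    (x y : Asph (SS.Sing (HspSS696.Om J Z z₀)) HspSS696.eS e) :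
    scl (mulA (HspSS696.mulS c) (HspSS696.mulS_base c) x y).1
      (mulA (HspSS696.mulS c) (HspSS696.mulS_base c) x y).2 = scl x.1 x.2 + scl y.1 y.2 :=
  scl_mulA _ _ (HspSS696.mulS_unit_right c) (HspSS696.mulS_unit_left c) x y


end Crest.Agent.R204.FactSph478
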