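import Crest.Agent.R204.FreuD_297
import Crest.Agent.R204.Spec_114
import Crest.Agent.R204.HspSS_696
import Crest.Agent.R204.LoopGen_330

/-!
# Row 204, SP3 (helper194): the concrete tower, space level

`XT J0 K k = Ω^(J0 + (K - k)) S^(J0 + K)` (all `GenLoop (Fin _) (Sph _) (pt _)`), for `k ≤ K` this
is `Ω^(n-k) S^n`, `n = J0 + K`; for `k ≥ K` it is `Ω^J0 S^n`.
`castL`  = the cast in the number of loop coordinates,
`loopX`  = `XT k` as loop space of `XT (k+1)` for `k < K` (last coordinate),
`emb`    = the first `M + 1` coordinates,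
`iotaL n`= the degree one element of `Ω^n S^n`.
-/

set_option autoImplicit false

noncomputable section

namespace Crest.Agent.R204.Inst194

open scoped Topology unitInterval Topology.Homotopy
open Crest.Agent.R204 Crest.Agent.R204.Freu297 Crest.Agent.R204.Sus330

/-! ## the spaces -/

/-- number of loop coordinates at stage `k` -/
abbrev cd (J0 K k : ℕ) : ℕ := J0 + (K - k)

theorem cd_succ {J0 K k : ℕ} (h : k < K) : cd J0 K k = cd J0 K (k + 1) + 1 := by
  simp only [cd]; omega


theorem le_cd {M J0 : ℕ} (hJ : M + 1 ≤ J0) (K k : ℕ) : M + 1 ≤ cd J0 K k := by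
  simp only [cd]; omega

theorem add_cd {J0 K k : ℕ} (h : k ≤ K) : k + cd J0 K k = J0 + K := by
  simp only [cd]; omega

/-- `X_k = Ω^(J0 + (K - k)) S^(J0 + K)` -/
abbrev XT (J0 K k : ℕ) : Type := Ω^ (Fin (cd J0 K k)) (Sph (J0 + K)) (pt (J0 + K))

/-- the singular simplicial set of `X_k` -/
abbrev XS (J0 K k : ℕ) : SS := SS.Sing (XT J0 K k)

/-! ## casts in the number of coordinates -/

section cast
variable {Z : Type} [TopologicalSpace Z] {z₀ : Z}

/-- change the number of coordinates along an equality -/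
def castL {a b : ℕ} (h : a = b) : Ω^ (Fin a) Z z₀ → Ω^ (Fin b) Z z₀ := fun g => h ▸ g

@[simp] theorem castL_rfl {a : ℕ} (g : Ω^ (Fin a) Z z₀) : castL (rfl : a = a) g = g := rfl

@[simp] theorem castL_const {a b : ℕ} (h : a = b) :
    castL h (GenLoop.const : Ω^ (Fin a) Z z₀) = GenLoop.const := by subst h; rfl



/-- loop structure along an equality `a = b + 1` -/
def loopC {a b : ℕ} (h : a = b + 1) :
    LoopStr (Ω^ (Fin a) Z z₀) (Ω^ (Fin b) Z z₀) GenLoop.const GenLoop.const := by
  subst h; exact genLoop b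


end cast

/-- `X_k` is the loop space of `X_(k+1)` -/
def loopX (J0 : ℕ) {K k : ℕ} (h : k < K) :
    LoopStr (XT J0 K k) (XT J0 K (k + 1)) GenLoop.const GenLoop.const := loopC (cd_succ h)

/-! ## coordinates -/

/-- the first `M + 1` coordinates -/
def emb {M j : ℕ} (h : M + 1 ≤ j) : Fin (M + 1) ↪ Fin j := Fin.castLEEmb h

@[simp] theorem emb_val {M j : ℕ} (h : M + 1 ≤ j) (i : Fin (M + 1)) : ((emb h i : Fin j) : ℕ) = i := rfl

theorem emb_castSucc {M j : ℕ} (h : M + 1 ≤ j) (h' : M + 1 ≤ j + 1) :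
    emb h' = (emb h).trans Fin.castSuccEmb := by
  ext i; rfl

/-! ## the fundamental loop -/

/-- the two points of `S^0`: the point different from the base point -/
def npt : Sph 0 := ⟨-EuclideanSpace.single 0 1, by simp⟩

/-- the degree one element of `Ω^n S^n` -/
def iotaL : (n : ℕ) → Ω^ (Fin n) (Sph n) (pt n)
  | 0 => toLoop0 0 npt
  | n + 1 => susp n n (iotaL n)




end Crest.Agent.R204.Inst194
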