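import Crest.Agent.R204.HopfLow_478
import Crest.Agent.R204.InstSp_194
import Crest.Agent.R204.AdjC_330
import Crest.Agent.R204.FreuT_297

-- ▼ part R204/Hopf11a_478
section

/-!
# Row 204, H11 (helper478): spherical classes go up by `σ` and down by Freudenthal
-/

set_option autoImplicit false

open scoped TensorProduct Topology unitInterval Topology.Homotopy

namespace Crest.Agent.R204.Hopf11

open Crest.Agent.R204 Cone330 SphSS478 HspSS696 Cubes735 Hsp696 Freu297 HopfLow478 Sus330 Inst194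
  Sus330.LoopStr

section Sigma

variable {P Y : Type} [TopologicalSpace P] [TopologicalSpace Y] {g0 : P} {y0 : Y}

/-- homotopic relative to the boundary ⇒ same class -/
theorem scl_eq_of_rel {e : ℕ} (a a' : (SS.Sing P).S (e + 1))
    (ha : IsSph (K := SS.Sing P) (cY g0 0) a) (ha' : IsSph (K := SS.Sing P) (cY g0 0) a')
    (h : ContinuousMap.HomotopicRel (sg a) (sg a') (Bdy (e + 1))) : scl a ha = scl a' ha' := by
  obtain ⟨H⟩ := h
  obtain ⟨w, -, hw⟩ := exists_chain_homotopy F2 a a' H.toContinuousMap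
    (fun u => H.map_zero_left u) (fun u => H.map_one_left u) (fun r u hu =>
      (H.eq_fst r hu).trans ((isSph_iff g0 a).1 ha u hu))
  refine Hd.mk_eq_mk.2 ⟨-w, ?_⟩
  rw [map_neg, hw, neg_sub]

/-- **`σ` of a spherical class is a spherical class** -/
theorem sigma_scl (Λ : LoopStr P Y g0 y0) {e : ℕ} (a : (SS.Sing P).S (e + 1))
    (ha : IsSph (K := SS.Sing P) (cY g0 0) a) :
    ∃ (x : (SS.Sing Y).S (e + 1 + 1)) (hx : IsSph (K := SS.Sing Y) (cY y0 0) x),
      Λ.sigma (scl a ha) = scl x hx := by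
  obtain ⟨x, a', hx, ha', h1, h2⟩ := Λ.exists_adj_chain a ha
  obtain ⟨w, -, hw⟩ := h2 F2
  refine ⟨x, hx, ?_⟩
  have e1 : scl a ha = scl a' ha' := by
    refine Hd.mk_eq_mk.2 ⟨-w, ?_⟩
    rw [map_neg, hw, neg_sub]
  rw [e1]
  refine Hd.mk_eq_mk.2 ⟨0, ?_⟩
  rw [map_zero]
  exact (sub_eq_zero.2 (h1 F2)).symm

end Sigma

/-- spherical classes stay spherical in the concrete tower -/
theorem exists_sph_chain {J0 K : ℕ} (h : ∀ k, H F2 (XS J0 K k))
    (hs : ∀ k (hk : k < K), h (k + 1) = (loopX J0 hk).sigma (h k)) {e : ℕ}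
    (a : (XS J0 K 0).S (e + 1)) (ha : IsSph (K := XS J0 K 0) (cY GenLoop.const 0) a)
    (h0 : h 0 = scl a ha) : ∀ k, k ≤ K → ∃ (x : (XS J0 K k).S (e + k + 1))
      (hx : IsSph (K := XS J0 K k) (cY GenLoop.const 0) x), h k = scl x hx := by
  intro k
  induction k with
  | zero => intro _; exact ⟨a, ha, h0⟩
  | succ k ih =>
    intro hk
    obtain ⟨x, hx, hxe⟩ := ih (by omega)
    obtain ⟨y, hy, hye⟩ := sigma_scl (loopX J0 (show k < K by omega)) x hx
    exact ⟨y, hy, by rw [hs k (by omega), hxe, hye]⟩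

/-! ## Freudenthal -/

/-- one step down -/
theorem lift_step {e n J : ℕ} (hq : e + 1 + J + 2 < 2 * (n + 1))
    (a : (SS.Sing (Om (Fin (J + 1)) (Sph (n + 1)) (pt (n + 1)))).S (e + 1))
    (ha : IsSph (K := SS.Sing (Om (Fin (J + 1)) (Sph (n + 1)) (pt (n + 1)))) (cY GenLoop.const 0) a) :
    ∃ (b : (SS.Sing (Om (Fin J) (Sph n) (pt n))).S (e + 1))
      (hb : IsSph (K := SS.Sing (Om (Fin J) (Sph n) (pt n))) (cY GenLoop.const 0) b),
      scl a ha = H.map F2 (SS.SingMap (susp n J)) (scl b hb) := by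
  have ha' := (isSph_iff GenLoop.const a).1 ha
  obtain ⟨b, hb⟩ := step_simplex_rel hq (sg a) (fun x hx => by
    refine ⟨GenLoop.const, ?_⟩
    rw [susp_const]
    exact (ha' x hx).symm)
  have hbs : IsSph (K := SS.Sing (Om (Fin J) (Sph n) (pt n))) (cY GenLoop.const 0) b := by
    refine (isSph_iff GenLoop.const b).2 fun v hv => ?_
    apply susp_injective
    rw [susp_const]
    obtain ⟨Hh⟩ := hb
    have h1 := Hh.eq_fst 1 hv
    exact ((Hh.map_one_left v).symm.trans h1).trans (ha' v hv)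
  refine ⟨b, hbs, ?_⟩
  have hc : (SS.SingMap (susp n J)).app 0 (cY GenLoop.const 0) = cY GenLoop.const 0 := by
    refine ContinuousMap.ext fun u => ?_
    exact susp_const n J
  rw [map_scl (SS.SingMap (susp n J)) hc hbs]
  exact scl_eq_of_rel a _ ha _ hb

end Crest.Agent.R204.Hopf11
end

-- ▼ part R204/Hopf11b_478
section

/-!
# Row 204, H11 (helper478): the suspension maps are multiplicative; the iterated suspension
`Ω S^m → Ω^{J+1} S^{m+J}`
-/

set_option autoImplicit false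

open scoped TensorProduct Topology unitInterval Topology.Homotopy

namespace Crest.Agent.R204.Hopf11

open Crest.Agent.R204 Cone330 SphSS478 HspSS696 Cubes735 Hsp696 Freu297 HopfLow478 Sus330 Inst194
  Sus330.LoopStr







/-! ## the iterated suspension -/

/-- `Ω S^m → Ω^{J+1} S^{m+J}` -/
noncomputable def EE (m : ℕ) : (J : ℕ) → C(OmS m, Om (Fin (J + 1)) (Sph (m + J)) (pt (m + J)))
  | 0 => ContinuousMap.id _
  | J + 1 => (susp (m + J) (J + 1)).comp (EE m J)

/-- the configuration `halves 0` on the first coordinate -/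
noncomputable def cc : (J : ℕ) → BoxConf (Fin 2) (Fin (J + 1))
  | 0 => halves (0 : Fin 1)
  | J + 1 => ext1 (cc J)




theorem EE_succ (m J : ℕ) (x : H F2 (SS.Sing (OmS m))) :
    H.map F2 (SS.SingMap (EE m (J + 1))) x =
      H.map F2 (SS.SingMap (susp (m + J) (J + 1))) (H.map F2 (SS.SingMap (EE m J)) x) :=
  Coalg847.hMap_comp (SS.SingMap (susp (m + J) (J + 1))) (SS.SingMap (EE m J)) x

theorem EE_zero (m : ℕ) (x : H F2 (SS.Sing (OmS m))) :
    H.map F2 (SS.SingMap (EE m 0)) x = x := by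
  have : SS.SingMap (EE m 0) = SS.Hom.id (SS.Sing (OmS m)) := singMap_id
  rw [this]
  exact Coalg847.hMap_id x

/-- **Freudenthal**: spherical classes of dimension `q ≤ 2m - 2` come from `Ω S^m` -/
theorem lift_all {e m : ℕ} (he : e + 3 ≤ 2 * m) (J : ℕ) :
    ∀ (a : (SS.Sing (Om (Fin (J + 1)) (Sph (m + J)) (pt (m + J)))).S (e + 1))
    (ha : IsSph (K := SS.Sing (Om (Fin (J + 1)) (Sph (m + J)) (pt (m + J))))
      (cY GenLoop.const 0) a),
    ∃ (b : (SS.Sing (OmS m)).S (e + 1)) (hb : IsSph (K := SS.Sing (OmS m)) (cY GenLoop.const 0) b),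
      scl a ha = H.map F2 (SS.SingMap (EE m J)) (scl b hb) := by
  induction J with
  | zero =>
    intro a ha
    have a2 : IsSph (K := SS.Sing (OmS m)) (cY GenLoop.const 0) a := ha
    have h1 := EE_zero m (scl a a2)
    refine ⟨a, a2, ?_⟩
    exact h1.symm
  | succ J ih =>
    intro a ha
    obtain ⟨a', ha', h1⟩ := lift_step (n := m + J) (J := J + 1) (by omega) a ha
    obtain ⟨b, hb, h2⟩ := ih a' ha'
    have h3 : scl a ha = H.map F2 (SS.SingMap (susp (m + J) (J + 1)))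
        (H.map F2 (SS.SingMap (EE m J)) (scl b hb)) := h1.trans (congrArg _ h2)
    exact ⟨b, hb, h3.trans (EE_succ m J _).symm⟩

end Crest.Agent.R204.Hopf11
end

-- ▼ part R204/Hopf11c_478

/-!
# Row 204, H11 (helper478): `h^d(α) = x_d²` in `Ω^{J+1} S^{d+1+J}` ⇒ the same in `Ω S^{d+1}` ⇒
`d = 1, 3, 7`
-/

set_option autoImplicit false

open scoped TensorProduct Topology unitInterval Topology.Homotopy

namespace Crest.Agent.R204.Hopf11

open Crest.Agent.R204 Cone330 SphSS478 HspSS696 Cubes735 Hsp696 Freu297 HopfLow478 Sus330 Inst194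
  Sus330.LoopStr

/-- (B.S) `H_{2d}(Ω S^{d+1}; F2)` is spanned by the square of the non-zero class of degree `d`,
`d = e + 1` -/
def BS : Prop := ∀ (e : ℕ) (x : H F2 (SS.Sing (OmS (e + 2)))),
  x ∈ H.gr F2 (SS.Sing (OmS (e + 2))) (e + 1) → x ≠ 0 →
  ∀ y ∈ H.gr F2 (SS.Sing (OmS (e + 2))) (2 * e + 1 + 1),
    ∃ c : F2, y = c • HopfLow478.pm (mulS (halves (0 : Fin 1))) x x

theorem F2_cases (c : F2) : c = 0 ∨ c = 1 := by
  revert c; decide

theorem ne_of_map {K L : SS} (f : SS.Hom K L) {x : H F2 K} {y : H F2 L} (h : y = H.map F2 f x)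
    (hy : y ≠ 0) : x ≠ 0 := by
  rintro rfl
  exact hy (h.trans (map_zero _))

theorem eq_of_smul {M : Type} [AddCommGroup M] [Module F2 M] {x y : M} (hx : x ≠ 0)
    (h : ∃ r : F2, x = r • y) : x = y := by
  obtain ⟨r, rfl⟩ := h
  rcases F2_cases r with h0 | h0
  · exact absurd (by rw [h0, zero_smul]) hx
  · rw [h0, one_smul]

/-- `FactHopf`, in `Ω^{J+1} S^{e+2+J}`: non-zero spherical classes in degrees `d` and `2d` -/
theorem hopf_up0 (HL : HopfLow) (hBS : BS) {e : ℕ} (he : Even e) (J : ℕ)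
    (a : (SS.Sing (Om (Fin (J + 1)) (Sph (e + 2 + J)) (pt (e + 2 + J)))).S (e + 1))
    (ha : IsSph (K := SS.Sing (Om (Fin (J + 1)) (Sph (e + 2 + J)) (pt (e + 2 + J))))
      (cY GenLoop.const 0) a) (hane : scl a ha ≠ 0)
    (b : (SS.Sing (Om (Fin (J + 1)) (Sph (e + 2 + J)) (pt (e + 2 + J)))).S (2 * e + 1 + 1))
    (hb : IsSph (K := SS.Sing (Om (Fin (J + 1)) (Sph (e + 2 + J)) (pt (e + 2 + J))))
      (cY GenLoop.const 0) b) (hbne : scl b hb ≠ 0) :
    e = 0 ∨ e = 2 ∨ e = 6 := by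
  obtain ⟨a', ha', h1⟩ := lift_all (m := e + 2) (by omega) J a ha
  obtain ⟨φ, hφ, h2⟩ := lift_all (m := e + 2) (e := 2 * e + 1) (by omega) J b hb
  have hx : scl a' ha' ≠ 0 := ne_of_map _ h1 hane
  have hy : scl φ hφ ≠ 0 := ne_of_map _ h2 hbne
  exact HL e he a' ha' hx φ hφ (eq_of_smul hy (hBS e _ (scl_mem_gr a' ha') hx _ (scl_mem_gr φ hφ)))

/-- `FactHopf`, abstract in the number of coordinates -/
theorem hopf_up (HL : HopfLow) (hBS : BS) {e : ℕ} (he : Even e) (J : ℕ) {p q : ℕ}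
    (hp : p = J + 1) (hq : q = e + 2 + J)
    (a : (SS.Sing (Om (Fin p) (Sph q) (pt q))).S (e + 1))
    (ha : IsSph (K := SS.Sing (Om (Fin p) (Sph q) (pt q))) (cY GenLoop.const 0) a)
    (hane : scl a ha ≠ 0)
    (b : (SS.Sing (Om (Fin p) (Sph q) (pt q))).S (2 * e + 1 + 1))
    (hb : IsSph (K := SS.Sing (Om (Fin p) (Sph q) (pt q))) (cY GenLoop.const 0) b)
    (hbne : scl b hb ≠ 0) :
    e = 0 ∨ e = 2 ∨ e = 6 := by
  subst hp hq
  exact hopf_up0 HL hBS he J a ha hane b hb hbne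

/-- **FactHopf for the concrete tower**, `d = e + 1`: `h k` = the iterated suspensions of a
spherical class of degree `d` of `X_0`, `x_d` a non-zero spherical class, `h^d ≠ 0` (because it is
`x_d²`) -/
theorem hopf_tower (HL : HopfLow) (hBS : BS) {J0 K : ℕ} {e : ℕ} (he : Even e) (hJ : 1 ≤ J0)
    (hK : e + 1 ≤ K) (h : ∀ k, H F2 (XS J0 K k))
    (hs : ∀ k (hk : k < K), h (k + 1) = (loopX J0 hk).sigma (h k))
    (a : (XS J0 K 0).S (e + 1)) (ha : IsSph (K := XS J0 K 0) (cY GenLoop.const 0) a)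
    (h0 : h 0 = scl a ha) (hne : h (e + 1) ≠ 0)
    (x : (XS J0 K (e + 1)).S (e + 1)) (hx : IsSph (K := XS J0 K (e + 1)) (cY GenLoop.const 0) x)
    (hxne : scl x hx ≠ 0) : e = 0 ∨ e = 2 ∨ e = 6 := by
  obtain ⟨b, hb, hbe⟩ := exists_sph_chain h hs a ha h0 (e + 1) hK
  have hdim : e + (e + 1) + 1 = 2 * e + 1 + 1 := by omega
  have key : ∀ (N : ℕ) (hN : N + 1 = 2 * e + 1 + 1) (b : (XS J0 K (e + 1)).S (N + 1))
      (hb : IsSph (K := XS J0 K (e + 1)) (cY GenLoop.const 0) b), scl b hb ≠ 0 →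
      e = 0 ∨ e = 2 ∨ e = 6 := by
    intro N hN b hb hbne
    have : N = 2 * e + 1 := by omega
    subst this
    exact hopf_up HL hBS he (J0 + (K - (e + 1)) - 1) (p := cd J0 K (e + 1)) (q := J0 + K)
      (by simp only [cd]; omega) (by omega) x hx hxne b hb hbne
  exact key (e + (e + 1)) hdim b hb (hbe ▸ hne)

end Crest.Agent.R204.Hopf11
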