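import Crest.Agent.R204.HopfT_407_Mg
import Crest.Agent.R204.Spec_114

/-!
Row 204: the `k = 0` side of section 04 over the master interface `Spec114.Tower` (helper407).
-/

set_option autoImplicit false

namespace Crest.Agent.R204.HopfZ407

open MvPolynomial TensorProduct
open scoped TensorProduct
open Crest.Agent.R204 Crest.Agent.R204.Spec114 Crest.Agent.R204.Spec114.Tower

/-! ## words -/

section lists

@[simp] theorem wdeg_nil (k : ℕ) : wdeg k [] = k := rfl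

@[simp] theorem wdeg_cons (k i : ℕ) (I : List ℕ) : wdeg k (i :: I) = 2 * wdeg k I + i := rfl

theorem le_wdeg_of_mem {k : ℕ} {I : List ℕ} {i : ℕ} (h : i ∈ I) : i ≤ wdeg k I := by
  induction I with
  | nil => simp at h
  | cons a I ih =>
    rw [wdeg_cons]
    rcases List.mem_cons.1 h with h | h
    · omega
    · have := ih h; omega

variable (X : Tower)

@[simp] theorem word_nil (k : ℕ) : X.word k [] = X.x k := rfl

@[simp] theorem word_cons (k i : ℕ) (I : List ℕ) : X.word k (i :: I) = X.Q k i (X.word k I) := rfl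

@[simp] theorem tword_nil (k : ℕ) : X.tword k [] = X.x k := rfl

@[simp] theorem tword_cons (k i : ℕ) (I : List ℕ) :
    X.tword k (i :: I) = X.T k i (X.tword k I) := rfl

end lists

/-- Span of the `T`-words of length `r` and degree `t` at `k = 0`. -/
def St (X : Tower) (r t : ℕ) : Submodule F2 (X.H 0) :=
  Submodule.span F2 {z | ∃ J : List ℕ, J.length = r ∧ J.sum = t ∧ z = X.tword0 J}

/-- Span of the admissible words of length `r` and degree `t` at `k = 0`. -/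
def Wsp (X : Tower) (r t : ℕ) : Submodule F2 (X.H 0) :=
  Submodule.span F2 {z | ∃ I : List ℕ, I.Pairwise (· ≤ ·) ∧ I.length = r ∧ wdeg 0 I = t ∧
    z = X.word0 I}

/-- Input `(W0)`, from Theorem 3 at `k = 0`. -/
def W0 (X : Tower) (D : ℕ) : Prop :=
  ∀ r t : ℕ, 1 ≤ r → 1 ≤ t → t ≤ D → St X r t = Wsp X r t

section Coalg

variable {X : Tower} {D : ℕ}

theorem tword_mem_gr (hT : X.FactT D) (hX : X.FactX D) :
    ∀ J : List ℕ, (∀ i ∈ J, i ≤ D + 1) → X.tword 0 J ∈ X.gr 0 J.sum := by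
  intro J
  induction J with
  | nil => intro _; simpa using (hX.1 0 (by omega)).1
  | cons i J ih =>
    intro h
    rw [tword_cons, List.sum_cons, add_comm]
    exact (hT 0 (by omega) i (h i (by simp))).1 _ _ (ih fun j hj => h j (by simp [hj]))

theorem pow_mem_gr_zero (hG : X.FactGr D) {a : X.H 0} (ha : a ∈ X.gr 0 0) (n : ℕ) :
    a ^ n ∈ X.gr 0 0 := by
  have h := hG 0 (by omega)
  induction n with
  | zero => simpa using h.2.1
  | succ n ih =>
    rw [pow_succ]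
    simpa using h.2.2 0 0 _ _ ih ha

theorem tword0_mem_gr (hG : X.FactGr D) (hT : X.FactT D) (hX : X.FactX D) (J : List ℕ)
    (hJ : ∀ i ∈ J, i ≤ D + 1) : X.tword0 J ∈ X.gr 0 J.sum := by
  have h := (hG 0 (by omega)).2.2 _ _ _ _ (tword_mem_gr hT hX J hJ)
    (pow_mem_gr_zero hG hX.2.2.2.1 (2 ^ J.length))
  simpa [Tower.tword0] using h

theorem entries_le_sum {J : List ℕ} {i : ℕ} (h : i ∈ J) : i ≤ J.sum :=
  List.single_le_sum (by simp) _ h

/-- `Δ (T-word)` -/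
theorem Δ_tword (hT : X.FactT D) (hX : X.FactX D) :
    ∀ J : List ℕ, (∀ i ∈ J, i ≤ D + 1) → X.Δ 0 (X.tword 0 J) ∈
      Submodule.span F2 {z : X.H 0 ⊗[F2] X.H 0 | ∃ J₁ J₂ : List ℕ, J₁.length = J.length ∧
        J₂.length = J.length ∧ J₁.sum + J₂.sum = J.sum ∧
        z = X.tword 0 J₁ ⊗ₜ[F2] X.tword 0 J₂} := by
  intro J
  induction J with
  | nil =>
    intro _
    refine Submodule.subset_span ⟨[], [], rfl, rfl, rfl, ?_⟩
    rw [tword_nil]
    exact hX.2.2.1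
  | cons i J ih =>
    intro h
    rw [tword_cons, (hT 0 (by omega) i (h i (by simp))).2.2.1]
    refine Submodule.sum_mem _ fun p hp => ?_
    have hp' : p.1 + p.2 = i := Finset.HasAntidiagonal.mem_antidiagonal.1 hp
    have h1 := Submodule.mem_map_of_mem (f := TensorProduct.map (X.T 0 p.1) (X.T 0 p.2))
      (ih fun j hj => h j (by simp [hj]))
    rw [Submodule.map_span] at h1
    refine Submodule.span_mono ?_ h1
    rintro _ ⟨_, ⟨J₁, J₂, h1, h2, h3, rfl⟩, rfl⟩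
    refine ⟨p.1 :: J₁, p.2 :: J₂, by simp [h1], by simp [h2], ?_, ?_⟩
    · simp only [List.sum_cons]; omega
    · rw [TensorProduct.map_tmul]; rfl

theorem Δ_xinv_pow (hX : X.FactX D) (n : ℕ) :
    X.Δ 0 (X.xinv ^ n) = (X.xinv ^ n) ⊗ₜ[F2] (X.xinv ^ n) := by
  rw [map_pow, hX.2.2.2.2.1, Algebra.TensorProduct.tmul_pow]

/-- `Δ` on the span of the T-words. -/
theorem Δ_St (hT : X.FactT D) (hX : X.FactX D) {r t : ℕ} (ht : t ≤ D + 1) {z : X.H 0}
    (hz : z ∈ St X r t) : X.Δ 0 z ∈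
      Submodule.span F2 {z : X.H 0 ⊗[F2] X.H 0 | ∃ J₁ J₂ : List ℕ, J₁.length = r ∧
        J₂.length = r ∧ J₁.sum + J₂.sum = t ∧
        z = X.tword0 J₁ ⊗ₜ[F2] X.tword0 J₂} := by
  induction hz using Submodule.span_induction with
  | mem z hz =>
    obtain ⟨J, rfl, rfl, rfl⟩ := hz
    have h1 := Δ_tword hT hX J fun i hi => (entries_le_sum hi).trans ht
    have h2 := Submodule.mem_map_of_mem (f := LinearMap.mulRight F2
      ((X.xinv ^ (2 ^ J.length)) ⊗ₜ[F2] (X.xinv ^ (2 ^ J.length)) : X.H 0 ⊗[F2] X.H 0)) h1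
    rw [Submodule.map_span] at h2
    rw [Tower.tword0, map_mul, Δ_xinv_pow hX]
    refine Submodule.span_mono ?_ h2
    rintro _ ⟨_, ⟨J₁, J₂, h1, h2, h3, rfl⟩, rfl⟩
    refine ⟨J₁, J₂, h1, h2, h3, ?_⟩
    rw [LinearMap.mulRight_apply, Algebra.TensorProduct.tmul_mul_tmul, Tower.tword0,
      Tower.tword0, h1, h2]
  | zero => simp
  | add a b _ _ ha hb => rw [map_add]; exact Submodule.add_mem _ ha hb
  | smul c a _ ha => rw [map_smul]; exact Submodule.smul_mem _ _ ha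

theorem tword_zeros (hT0 : X.FactT0 D) (hX : X.FactX D) : ∀ J : List ℕ, J.sum = 0 →
    X.tword 0 J = X.x 0 ^ (2 ^ J.length) := by
  intro J
  induction J with
  | nil => intro _; simp
  | cons i J ih =>
    intro h
    rw [List.sum_cons] at h
    have hi : i = 0 := by omega
    have hJ : J.sum = 0 := by omega
    rw [tword_cons, hi, ih hJ, hT0 0 (by omega), map_pow, hX.2.2.1, Algebra.TensorProduct.tmul_pow,
      LinearMap.mul'_apply, List.length_cons, pow_succ, mul_comm, pow_mul, pow_two]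

theorem tword0_zeros (hT0 : X.FactT0 D) (hX : X.FactX D) {J : List ℕ} (h : J.sum = 0) :
    X.tword0 J = 1 := by
  rw [Tower.tword0, tword_zeros hT0 hX J h, ← mul_pow, hX.2.2.2.2.2, one_pow]

theorem St_le_gr (hG : X.FactGr D) (hT : X.FactT D) (hX : X.FactX D) {r t : ℕ}
    (ht : t ≤ D + 1) : St X r t ≤ X.gr 0 t := by
  refine Submodule.span_le.2 ?_
  rintro _ ⟨J, _, rfl, rfl⟩
  exact tword0_mem_gr hG hT hX J fun i hi => (entries_le_sum hi).trans ht

/-- middle part of the coproduct -/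
def Mid (X : Tower) (r t : ℕ) : Submodule F2 (X.H 0 ⊗[F2] X.H 0) :=
  Submodule.span F2 {z | ∃ (t₁ t₂ : ℕ) (a b : X.H 0), 1 ≤ t₁ ∧ 1 ≤ t₂ ∧ t₁ + t₂ = t ∧
    a ∈ St X r t₁ ∧ b ∈ St X r t₂ ∧ z = a ⊗ₜ[F2] b}

theorem Δ_St' (hG : X.FactGr D) (hE : X.FactEps D) (hΔ : X.FactDelta D) (hT : X.FactT D)
    (hT0 : X.FactT0 D) (hX : X.FactX D) {r t : ℕ} (ht1 : 1 ≤ t) (ht : t ≤ D + 1) {z : X.H 0}
    (hz : z ∈ St X r t) : X.Δ 0 z - z ⊗ₜ[F2] 1 - 1 ⊗ₜ[F2] z ∈ Mid X r t := by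
  -- decomposition
  have h1 : ∀ u ∈ Submodule.span F2 {z : X.H 0 ⊗[F2] X.H 0 | ∃ J₁ J₂ : List ℕ, J₁.length = r ∧
        J₂.length = r ∧ J₁.sum + J₂.sum = t ∧ z = X.tword0 J₁ ⊗ₜ[F2] X.tword0 J₂},
      ∃ a ∈ St X r t, ∃ b ∈ St X r t, ∃ m ∈ Mid X r t, u = a ⊗ₜ[F2] 1 + 1 ⊗ₜ[F2] b + m := by
    intro u hu
    induction hu using Submodule.span_induction with
    | mem u hu =>
      obtain ⟨J₁, J₂, h1, h2, h3, rfl⟩ := hu
      rcases Nat.eq_zero_or_pos J₁.sum with hz1 | hz1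
      · refine ⟨0, Submodule.zero_mem _, X.tword0 J₂,
          Submodule.subset_span ⟨J₂, h2, by omega, rfl⟩, 0, Submodule.zero_mem _, ?_⟩
        rw [tword0_zeros hT0 hX hz1]
        simp
      · rcases Nat.eq_zero_or_pos J₂.sum with hz2 | hz2
        · refine ⟨X.tword0 J₁, Submodule.subset_span ⟨J₁, h1, by omega, rfl⟩, 0,
            Submodule.zero_mem _, 0, Submodule.zero_mem _, ?_⟩
          rw [tword0_zeros hT0 hX hz2]
          simp
        · refine ⟨0, Submodule.zero_mem _, 0, Submodule.zero_mem _,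
            X.tword0 J₁ ⊗ₜ[F2] X.tword0 J₂, Submodule.subset_span
              ⟨J₁.sum, J₂.sum, _, _, hz1, hz2, h3, Submodule.subset_span ⟨J₁, h1, rfl, rfl⟩,
                Submodule.subset_span ⟨J₂, h2, rfl, rfl⟩, rfl⟩, ?_⟩
          simp
    | zero => exact ⟨0, Submodule.zero_mem _, 0, Submodule.zero_mem _, 0, Submodule.zero_mem _,
        by simp⟩
    | add u v _ _ hu hv =>
      obtain ⟨a, ha, b, hb, m, hm, rfl⟩ := hu
      obtain ⟨a', ha', b', hb', m', hm', rfl⟩ := hv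
      refine ⟨a + a', Submodule.add_mem _ ha ha', b + b', Submodule.add_mem _ hb hb',
        m + m', Submodule.add_mem _ hm hm', ?_⟩
      rw [add_tmul, tmul_add]
      abel
    | smul c u _ hu =>
      obtain ⟨a, ha, b, hb, m, hm, rfl⟩ := hu
      refine ⟨c • a, Submodule.smul_mem _ _ ha, c • b, Submodule.smul_mem _ _ hb,
        c • m, Submodule.smul_mem _ _ hm, ?_⟩
      rw [smul_add, smul_add, smul_tmul', tmul_smul]
  obtain ⟨a, ha, b, hb, m, hm, hu⟩ := h1 _ (Δ_St hT hX ht hz)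
  have hεSt : ∀ t' : ℕ, 1 ≤ t' → t' ≤ D + 1 → ∀ c ∈ St X r t', X.ε 0 c = 0 := fun t' h1 h2 c hc =>
    hE 0 (by omega) t' h1 c (St_le_gr hG hT hX h2 hc)
  have hml : ∀ m ∈ Mid X r t, TensorProduct.lid F2 (X.H 0)
      (TensorProduct.map (X.ε 0).toLinearMap LinearMap.id m) = 0 := by
    intro m hm
    induction hm using Submodule.span_induction with
    | mem m hm =>
      obtain ⟨t₁, t₂, a, b, h1, h2, h3, ha, hb, rfl⟩ := hm
      rw [TensorProduct.map_tmul, AlgHom.toLinearMap_apply, hεSt t₁ h1 (by omega) a ha]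
      simp
    | zero => simp
    | add u v _ _ hu hv => rw [map_add, map_add, hu, hv, add_zero]
    | smul c u _ hu => rw [map_smul, map_smul, hu, smul_zero]
  have hmr : ∀ m ∈ Mid X r t, TensorProduct.rid F2 (X.H 0)
      (TensorProduct.map LinearMap.id (X.ε 0).toLinearMap m) = 0 := by
    intro m hm
    induction hm using Submodule.span_induction with
    | mem m hm =>
      obtain ⟨t₁, t₂, a, b, h1, h2, h3, ha, hb, rfl⟩ := hm
      rw [TensorProduct.map_tmul, AlgHom.toLinearMap_apply, hεSt t₂ h2 (by omega) b hb]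
      simp
    | zero => simp
    | add u v _ _ hu hv => rw [map_add, map_add, hu, hv, add_zero]
    | smul c u _ hu => rw [map_smul, map_smul, hu, smul_zero]
  have hb' : b = z := by
    have h2 := (hΔ 0 (by omega)).1 z
    rw [hu, map_add, map_add, map_add, map_add, hml m hm, TensorProduct.map_tmul,
      TensorProduct.map_tmul, AlgHom.toLinearMap_apply, hεSt t ht1 ht a ha] at h2
    simpa using h2
  have ha' : a = z := by
    have h2 := (hΔ 0 (by omega)).2.1 z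
    rw [hu, map_add, map_add, map_add, map_add, hmr m hm, TensorProduct.map_tmul,
      TensorProduct.map_tmul, AlgHom.toLinearMap_apply, AlgHom.toLinearMap_apply,
      hεSt t ht1 ht b hb] at h2
    simpa using h2
  rw [hu, ha', hb']
  have : z ⊗ₜ[F2] (1 : X.H 0) + 1 ⊗ₜ[F2] z + m - z ⊗ₜ[F2] 1 - 1 ⊗ₜ[F2] z = m := by abel
  rw [this]
  exact hm

end Coalg

/-! ## generators at `k = 0` -/

/-- degrees -/
def v0 (I : Wd0) : ℕ := wdeg 0 I.1.1

/-- weights -/
def w0 (I : Wd0) : ℕ := 2 ^ I.1.1.length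

/-- generators -/
def y0 (X : Tower) (I : Wd0) : X.H 0 := X.word0 I.1.1

theorem w0_ge (I : Wd0) : 2 ≤ w0 I := by
  have h : 1 ≤ I.1.1.length := by
    rcases h : I.1.1 with _ | ⟨a, l⟩
    · exact absurd h I.2
    · simp
  calc 2 = 2 ^ 1 := rfl
    _ ≤ 2 ^ I.1.1.length := Nat.pow_le_pow_right (by norm_num) h

theorem v0_pos (I : Wd0) : 1 ≤ v0 I := by
  rcases h : I.1.1 with _ | ⟨a, l⟩
  · exact absurd h I.2
  · have h1 := I.1.2.2 a (by rw [h]; simp)
    rw [v0, h, wdeg_cons]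
    omega

section gens

variable {X : Tower} {D : ℕ}

theorem word0_zero_cons (hQ : X.FactQ D) (I : List ℕ) : X.word0 (0 :: I) = X.word0 I ^ 2 := by
  rw [Tower.word0, Tower.word0, word_cons, (hQ 0 (by omega)).1, List.length_cons, pow_succ,
    pow_mul, mul_pow, pow_two (X.word 0 I)]

theorem word0_replicate (hQ : X.FactQ D) (b : ℕ) (I : List ℕ) :
    X.word0 (List.replicate b 0 ++ I) = X.word0 I ^ (2 ^ b) := by
  induction b with
  | zero => simp
  | succ b ih =>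
    rw [List.replicate_succ, List.cons_append, word0_zero_cons hQ, ih, ← pow_mul, ← pow_succ]

theorem wdeg_replicate (k b : ℕ) (I : List ℕ) :
    wdeg k (List.replicate b 0 ++ I) = 2 ^ b * wdeg k I := by
  induction b with
  | zero => simp
  | succ b ih => rw [List.replicate_succ, List.cons_append, wdeg_cons, ih, pow_succ]; ring

/-- A nondecreasing list is a block of zeros followed by a list of positive integers. -/
theorem exists_split : ∀ I : List ℕ, I.Pairwise (· ≤ ·) →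
    ∃ (b : ℕ) (I' : List ℕ), I = List.replicate b 0 ++ I' ∧ I'.Pairwise (· ≤ ·) ∧
      ∀ i ∈ I', 1 ≤ i := by
  intro I
  induction I with
  | nil => intro _; exact ⟨0, [], rfl, List.Pairwise.nil, by simp⟩
  | cons a I ih =>
    intro h
    rw [List.pairwise_cons] at h
    rcases Nat.eq_zero_or_pos a with ha | ha
    · obtain ⟨b, I', h1, h2, h3⟩ := ih h.2
      exact ⟨b + 1, I', by rw [ha, h1, List.replicate_succ, List.cons_append], h2, h3⟩
    · refine ⟨0, a :: I, rfl, List.pairwise_cons.2 h, ?_⟩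
      intro i hi
      rcases List.mem_cons.1 hi with hi | hi
      · omega
      · have := h.1 i hi; omega

theorem pairwise_replicate_append {b : ℕ} {I : List ℕ} (h : I.Pairwise (· ≤ ·)) :
    (List.replicate b 0 ++ I).Pairwise (· ≤ ·) := by
  rw [List.pairwise_append]
  refine ⟨?_, h, ?_⟩
  · rw [List.pairwise_replicate]; right; exact le_rfl
  · intro a ha c _
    rw [List.mem_replicate] at ha
    omega


/-- Bihomogeneous polynomials. -/
noncomputable def PB (m t : ℕ) : Submodule F2 (MvPolynomial Wd0 F2) :=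
  weightedHomogeneousSubmodule F2 w0 m ⊓ weightedHomogeneousSubmodule F2 v0 t

theorem mem_PB {m t : ℕ} {f : MvPolynomial Wd0 F2} :
    f ∈ PB m t ↔ IsWeightedHomogeneous w0 f m ∧ IsWeightedHomogeneous v0 f t := by
  rw [PB, Submodule.mem_inf, mem_weightedHomogeneousSubmodule, mem_weightedHomogeneousSubmodule]

theorem PB_mul {m t m' t' : ℕ} {f g : MvPolynomial Wd0 F2} (hf : f ∈ PB m t) (hg : g ∈ PB m' t') :
    f * g ∈ PB (m + m') (t + t') := by
  rw [mem_PB] at *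
  exact ⟨hf.1.mul hg.1, hf.2.mul hg.2⟩

theorem X_pow_mem_PB (I : Wd0) (b : ℕ) :
    (MvPolynomial.X I ^ (2 ^ b) : MvPolynomial Wd0 F2) ∈ PB (2 ^ b * w0 I) (2 ^ b * v0 I) := by
  rw [mem_PB]
  constructor
  · simpa [smul_eq_mul] using (isWeightedHomogeneous_X F2 w0 I).pow (2 ^ b)
  · simpa [smul_eq_mul] using (isWeightedHomogeneous_X F2 v0 I).pow (2 ^ b)

/-- An admissible word of positive degree is the image of a power of a variable. -/
theorem word0_eq (hQ : X.FactQ D) {I : List ℕ} (hI : I.Pairwise (· ≤ ·)) (h1 : 1 ≤ wdeg 0 I) :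
    ∃ (J : Wd0) (b : ℕ), I = List.replicate b 0 ++ J.1.1 ∧
      X.word0 I = aeval (y0 X) (MvPolynomial.X J ^ (2 ^ b) : MvPolynomial Wd0 F2) ∧
      2 ^ b * v0 J = wdeg 0 I ∧ 2 ^ b * w0 J = 2 ^ I.length := by
  obtain ⟨b, I', rfl, h2, h3⟩ := exists_split I hI
  have hne : I' ≠ [] := by
    rintro rfl
    rw [wdeg_replicate, wdeg_nil] at h1
    omega
  let J : Wd0 := ⟨⟨I', h2, h3⟩, hne⟩
  have hJ : aeval (y0 X) (MvPolynomial.X J : MvPolynomial Wd0 F2) = X.word0 I' := aeval_X _ _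
  refine ⟨J, b, rfl, ?_, ?_, ?_⟩
  · rw [word0_replicate hQ, map_pow, hJ]
  · rw [wdeg_replicate]; rfl
  · rw [List.length_append, List.length_replicate, pow_add]; rfl

theorem Wsp_le (hQ : X.FactQ D) {r t : ℕ} (ht : 1 ≤ t) :
    Wsp X r t ≤ (PB (2 ^ r) t).map (aeval (y0 X) : MvPolynomial Wd0 F2 →ₐ[F2] X.H 0).toLinearMap := by
  refine Submodule.span_le.2 ?_
  rintro _ ⟨I, hI, rfl, rfl, rfl⟩
  obtain ⟨J, b, -, h2, h3, h4⟩ := word0_eq hQ hI ht
  refine ⟨_, ?_, h2.symm⟩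
  rw [← h3, ← h4]
  exact X_pow_mem_PB J b

/-- the map `e ⊗ e` -/
noncomputable abbrev ee (X : Tower) :
    MvPolynomial Wd0 F2 ⊗[F2] MvPolynomial Wd0 F2 →ₗ[F2] X.H 0 ⊗[F2] X.H 0 :=
  TensorProduct.map (aeval (y0 X) : MvPolynomial Wd0 F2 →ₐ[F2] X.H 0).toLinearMap
    (aeval (y0 X) : MvPolynomial Wd0 F2 →ₐ[F2] X.H 0).toLinearMap

/-- where the correction terms live -/
noncomputable def RS (I : Wd0) : Submodule F2 (MvPolynomial Wd0 F2 ⊗[F2] MvPolynomial Wd0 F2) :=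
  Submodule.span F2 {z | ∃ (t₁ t₂ : ℕ) (f g : MvPolynomial Wd0 F2), 1 ≤ t₁ ∧ 1 ≤ t₂ ∧
    t₁ + t₂ = v0 I ∧ f ∈ PB (w0 I) t₁ ∧ g ∈ PB (w0 I) t₂ ∧ z = f ⊗ₜ[F2] g}

variable (hG : X.FactGr D) (hE : X.FactEps D) (hΔ : X.FactDelta D) (hT : X.FactT D)
  (hT0 : X.FactT0 D) (hQ : X.FactQ D) (hX : X.FactX D) (hW : W0 X D)

include hG hE hΔ hT hT0 hQ hX hW in
theorem exists_rho (I : Wd0) (hI : v0 I ≤ D) : ∃ ρ ∈ RS I,
    X.Δ 0 (y0 X I) - y0 X I ⊗ₜ[F2] 1 - 1 ⊗ₜ[F2] y0 X I = ee X ρ := by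
  have hr : 1 ≤ I.1.1.length := by
    rcases h : I.1.1 with _ | ⟨a, l⟩
    · exact absurd h I.2
    · simp
  have h1 : y0 X I ∈ Wsp X I.1.1.length (v0 I) :=
    Submodule.subset_span ⟨I.1.1, I.1.2.1, rfl, rfl, rfl⟩
  rw [← hW _ _ hr (v0_pos I) hI] at h1
  have h2 := Δ_St' hG hE hΔ hT hT0 hX (v0_pos I) (by omega) h1
  have h3 : Mid X I.1.1.length (v0 I) ≤ (RS I).map (ee X) := by
    refine Submodule.span_le.2 ?_
    rintro _ ⟨t₁, t₂, a, b, ht₁, ht₂, hsum, ha, hb, rfl⟩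
    rw [hW _ _ hr ht₁ (by omega)] at ha
    rw [hW _ _ hr ht₂ (by omega)] at hb
    obtain ⟨f, hf, rfl⟩ := Wsp_le hQ ht₁ ha
    obtain ⟨g, hg, rfl⟩ := Wsp_le hQ ht₂ hb
    exact ⟨f ⊗ₜ[F2] g, Submodule.subset_span ⟨t₁, t₂, f, g, ht₁, ht₂, hsum, hf, hg, rfl⟩, rfl⟩
  obtain ⟨ρ, hρ, h4⟩ := h3 h2
  exact ⟨ρ, hρ, h4.symm⟩

include hG hE hΔ hT hT0 hQ hX hW in
/-- The lifted coproduct. -/
theorem exists_delta : ∃ δ : MvPolynomial Wd0 F2 →ₐ[F2]
      MvPolynomial Wd0 F2 ⊗[F2] MvPolynomial Wd0 F2,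
    (∀ I, δ (MvPolynomial.X I) ∈ Rng114.A v0 (v0 I)) ∧
    (∀ I, v0 I ≤ D → X.Δ 0 (y0 X I) = ee X (δ (MvPolynomial.X I))) ∧
    Hopf407.HopfPoly w0 (MvPolynomial.X : Wd0 → MvPolynomial Wd0 F2) δ := by
  classical
  have hex : ∀ I : Wd0, ∃ ρ ∈ RS I, v0 I ≤ D →
      X.Δ 0 (y0 X I) - y0 X I ⊗ₜ[F2] 1 - 1 ⊗ₜ[F2] y0 X I = ee X ρ := by
    intro I
    by_cases hI : v0 I ≤ D
    · obtain ⟨ρ, hρ, h⟩ := exists_rho hG hE hΔ hT hT0 hQ hX hW I hI
      exact ⟨ρ, hρ, fun _ => h⟩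
    · exact ⟨0, Submodule.zero_mem _, fun h => absurd h hI⟩
  choose ρ hρ hρ' using hex
  let δ : MvPolynomial Wd0 F2 →ₐ[F2] MvPolynomial Wd0 F2 ⊗[F2] MvPolynomial Wd0 F2 :=
    aeval fun I => MvPolynomial.X I ⊗ₜ[F2] 1 + 1 ⊗ₜ[F2] MvPolynomial.X I + ρ I
  have hδ : ∀ I, δ (MvPolynomial.X I) =
      MvPolynomial.X I ⊗ₜ[F2] 1 + 1 ⊗ₜ[F2] MvPolynomial.X I + ρ I := fun I => aeval_X _ _
  have hRA : ∀ I, RS I ≤ Rng114.A v0 (v0 I) := by
    intro I
    refine Submodule.span_le.2 ?_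
    rintro _ ⟨t₁, t₂, f, g, _, _, hsum, hf, hg, rfl⟩
    exact Rng114.tmul_mem_A hsum hf.2 hg.2
  refine ⟨δ, ?_, ?_, ?_, ?_⟩
  · intro I
    rw [hδ]
    have hX' : (MvPolynomial.X I : MvPolynomial Wd0 F2) ∈ Rng114.V v0 (v0 I) := by
      rw [mem_weightedHomogeneousSubmodule]
      exact isWeightedHomogeneous_X F2 v0 I
    refine Submodule.add_mem _ (Submodule.add_mem _ ?_ ?_) (hRA I (hρ I))
    · exact Rng114.tmul_mem_A (by omega) hX' Rng114.V_one
    · exact Rng114.tmul_mem_A (by omega) Rng114.V_one hX'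
  · intro I hI
    rw [hδ, map_add, map_add, ← hρ' I hI, TensorProduct.map_tmul, TensorProduct.map_tmul]
    simp only [AlgHom.toLinearMap_apply, aeval_X, map_one]
    abel
  · have : (aeval (MvPolynomial.X : Wd0 → MvPolynomial Wd0 F2) :
        MvPolynomial Wd0 F2 →ₐ[F2] MvPolynomial Wd0 F2) = AlgHom.id F2 _ := aeval_X_left
    rw [this]
    exact Function.bijective_id
  · intro I
    have h1 : δ (MvPolynomial.X I) - MvPolynomial.X I ⊗ₜ[F2] 1 - 1 ⊗ₜ[F2] MvPolynomial.X I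
        = ρ I := by rw [hδ]; abel
    rw [h1]
    refine Submodule.span_mono ?_ (hρ I)
    rintro _ ⟨t₁, t₂, f, g, _, _, hsum, hf, hg, rfl⟩
    have hw := w0_ge I
    refine ⟨w0 I, w0 I, f, g, by omega, by omega, by omega, ?_, ?_, rfl⟩
    · exact Hopf407.mem_Wt.2 ⟨f, (mem_PB.1 hf).1, by simp⟩
    · exact Hopf407.mem_Wt.2 ⟨g, (mem_PB.1 hg).1, by simp⟩

end gens

/-! ## the hypotheses -/

/-- words at `k = 1` are linearly independent (Theorem 3 input (A) for `k = 1`) -/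
def Lin1 (X : Tower) (D : ℕ) : Prop := ∀ t ≤ D + 1, LinearIndependent F2
  (fun J : {J : List ℕ // J.Pairwise (· ≤ ·) ∧ wdeg 1 J = t} => X.word 1 J.1)

/-- everything needed at `k = 0` -/
structure Hyp (X : Tower) (D : ℕ) : Prop where
  gr : X.FactGr D
  eps : X.FactEps D
  delta : X.FactDelta D
  sq : X.FactSq D
  t : X.FactT D
  t0 : X.FactT0 D
  q : X.FactQ D
  sigma : X.FactSigma D
  x : X.FactX D
  base : X.FactBase D
  poly0 : X.FactPoly0 D
  w : W0 X D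
  lin1 : Lin1 X D

section main

variable {X : Tower} {D : ℕ} (h : Hyp X D)

/-- `V v0 t` -/
noncomputable abbrev VV (t : ℕ) : Submodule F2 (MvPolynomial Wd0 F2) :=
  weightedHomogeneousSubmodule F2 v0 t

/-- evaluation -/
noncomputable abbrev e0 (X : Tower) : MvPolynomial Wd0 F2 →ₐ[F2] X.H 0 := aeval (y0 X)

include h

theorem Hyp.ind : iSupIndep (X.gr 0) := (h.gr 0 (by omega)).1.submodule_iSupIndep

theorem Hyp.y0_mem_gr (I : Wd0) (hI : v0 I ≤ D) : y0 X I ∈ X.gr 0 (v0 I) := by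
  have hr : 1 ≤ I.1.1.length := by
    rcases h : I.1.1 with _ | ⟨a, l⟩
    · exact absurd h I.2
    · simp
  have h1 : y0 X I ∈ Wsp X I.1.1.length (v0 I) :=
    Submodule.subset_span ⟨I.1.1, I.1.2.1, rfl, rfl, rfl⟩
  rw [← h.w _ _ hr (v0_pos I) hI] at h1
  exact St_le_gr h.gr h.t h.x (by omega) h1

theorem Hyp.e0_mem_gr {t : ℕ} (ht : t ≤ D) {p : MvPolynomial Wd0 F2} (hp : p ∈ VV t) :
    e0 X p ∈ X.gr 0 t :=
  Rng114.aeval_mem_gr (h.gr 0 (by omega)).2.1 (h.gr 0 (by omega)).2.2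
    (fun i hi => h.y0_mem_gr i (hi.trans ht)) hp

theorem Hyp.inj {t : ℕ} (ht : t ≤ D) {p : MvPolynomial Wd0 F2} (hp : p ∈ VV t)
    (h0 : e0 X p = 0) : p = 0 := h.poly0.1 t ht p hp h0

theorem Hyp.exists_poly {t : ℕ} (ht : t ≤ D) {x : X.H 0} (hx : x ∈ X.gr 0 t)
    (hb : x ∈ X.base) : ∃ p ∈ VV t, e0 X p = x := by
  obtain ⟨p, hp, h1⟩ := h.poly0.2 t ht ⟨hx, hb⟩
  exact ⟨p, hp, h1⟩

theorem Hyp.e0_mem_base {t : ℕ} (ht : t ≤ D) {p : MvPolynomial Wd0 F2} (hp : p ∈ VV t) :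
    e0 X p ∈ X.base := by
  rw [mem_weightedHomogeneousSubmodule] at hp
  rw [p.as_sum, map_sum]
  refine Subalgebra.sum_mem _ fun d hd => ?_
  rw [aeval_monomial]
  refine Subalgebra.mul_mem _ (Subalgebra.algebraMap_mem _ _) ?_
  refine Subalgebra.prod_mem _ fun I hI => Subalgebra.pow_mem _ ?_ _
  refine h.base.1 _ fun i hi => ?_
  have h1 : v0 I ≤ Finsupp.weight v0 d := Rng114.weight_le_of_mem hI
  have h2 := hp (mem_support_iff.1 hd)
  have h3 : i ≤ v0 I := le_wdeg_of_mem hi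
  omega

/-- Frobenius is injective on the base component, in the range. -/
theorem Hyp.frob_inj {j : ℕ} (hj : 2 * j ≤ D) {x : X.H 0} (hx : x ∈ X.gr 0 j)
    (hb : x ∈ X.base) (h0 : x * x = 0) : x = 0 := by
  obtain ⟨p, hp, rfl⟩ := h.exists_poly (by omega) hx hb
  rw [← map_mul] at h0
  have hpp : p * p ∈ VV (2 * j) := by
    rw [two_mul]
    exact Rng114.V_mul hp hp
  have := h.inj hj hpp h0
  rw [mul_self_eq_zero.1 this, map_zero]

/-- The lifted coproduct. -/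
noncomputable def Hyp.del : MvPolynomial Wd0 F2 →ₐ[F2]
    MvPolynomial Wd0 F2 ⊗[F2] MvPolynomial Wd0 F2 :=
  Classical.choose (exists_delta h.gr h.eps h.delta h.t h.t0 h.q h.x h.w)

theorem Hyp.del_spec :
    (∀ I, h.del (MvPolynomial.X I) ∈ Rng114.A v0 (v0 I)) ∧
    (∀ I, v0 I ≤ D → X.Δ 0 (y0 X I) = ee X (h.del (MvPolynomial.X I))) ∧
    Hopf407.HopfPoly w0 (MvPolynomial.X : Wd0 → MvPolynomial Wd0 F2) h.del :=
  Classical.choose_spec (exists_delta h.gr h.eps h.delta h.t h.t0 h.q h.x h.w)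

theorem Hyp.prim_lift {t : ℕ} (ht : t ≤ D) {p : MvPolynomial Wd0 F2} (hp : p ∈ VV t)
    (hprim : X.IsPrim 0 (e0 X p)) : Hopf407.IsPrim h.del p :=
  Rng114.prim_lift (X.Δ 0) h.del h.ind (h.gr 0 (by omega)).2.1 (h.gr 0 (by omega)).2.2
    (fun i hi => h.y0_mem_gr i hi) (fun t ht p hp h0 => h.inj ht hp h0) h.del_spec.1
    h.del_spec.2.1 ht hp hprim

theorem Hyp.isPrim_e0 {t : ℕ} (ht : t ≤ D) {p : MvPolynomial Wd0 F2} (hp : p ∈ VV t)
    (hprim : Hopf407.IsPrim h.del p) : X.IsPrim 0 (e0 X p) := by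
  have h1 := Rng114.cop_compat (X.Δ 0) h.del h.del_spec.2.1 ht hp
  unfold Tower.IsPrim
  rw [h1, show h.del p = _ from hprim, map_add, TensorProduct.map_tmul, TensorProduct.map_tmul]
  simp

/-! ### the suspension -/

theorem Hyp.eps_xinv (n : ℕ) : X.ε 0 (X.xinv ^ n) = 1 := by
  have h1 := (h.delta 0 (by omega)).1 X.xinv
  rw [h.x.2.2.2.2.1, TensorProduct.map_tmul, AlgHom.toLinearMap_apply, TensorProduct.lid_tmul,
    LinearMap.id_apply] at h1
  have h2 := congrArg (X.ε 0) h1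
  rw [map_smul, smul_eq_mul] at h2
  have h3 : X.ε 0 (X.x 0) * X.ε 0 X.xinv = 1 := by
    rw [← map_mul, h.x.2.2.2.2.2, map_one]
  have h4 : X.ε 0 X.xinv ≠ 0 := right_ne_zero_of_mul (by rw [h3]; exact one_ne_zero)
  have h5 : X.ε 0 X.xinv = 1 := mul_right_cancel₀ h4 (by rw [h2, one_mul])
  rw [map_pow, h5, one_pow]

theorem Hyp.word_mem_gr : ∀ I : List ℕ, (∀ i ∈ I, i ≤ D + 1) →
    X.word 0 I ∈ X.gr 0 (wdeg 0 I) := by
  intro I
  induction I with
  | nil => intro _; exact (h.x.1 0 (by omega)).1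
  | cons a I ih =>
    intro hI
    exact (h.q 0 (by omega)).2.2 a (hI a (by simp)) _ _ (ih fun i hi => hI i (by simp [hi]))

theorem Hyp.sigma_word : ∀ I : List ℕ, (∀ i ∈ I, 1 ≤ i) → (∀ i ∈ I, i ≤ D + 1) →
    X.σ 0 (X.word 0 I) = X.word 1 (I.map Nat.pred) := by
  intro I
  induction I with
  | nil => intro _ _; exact (h.sigma 0 (by omega)).2.2.2.2.2.2
  | cons a I ih =>
    intro h1 h2
    have ha := h1 a (by simp)
    have ha' := h2 a (by simp)
    obtain ⟨b, rfl⟩ := Nat.exists_eq_add_of_le' ha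
    rw [word_cons, (h.sigma 0 (by omega)).2.2.2.2.2.1 b ha',
      ih (fun i hi => h1 i (by simp [hi])) (fun i hi => h2 i (by simp [hi]))]
    rfl

theorem Hyp.sigma_y0 (I : Wd0) (hI : v0 I ≤ D) :
    X.σ 0 (y0 X I) = X.word 1 (I.1.1.map Nat.pred) := by
  have h1 : ∀ i ∈ I.1.1, i ≤ D + 1 := fun i hi => (le_wdeg_of_mem hi).trans
    ((show wdeg 0 I.1.1 ≤ D from hI).trans (by omega))
  have h2 := (h.sigma 0 (by omega)).2.2.1 (X.word 0 I.1.1) (X.xinv ^ 2 ^ I.1.1.length)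
  have h3 : X.ε 0 (X.word 0 I.1.1) = 0 :=
    h.eps 0 (by omega) _ (v0_pos I) _ (h.word_mem_gr I.1.1 h1)
  rw [h.eps_xinv, h3, zero_smul, one_smul] at h2
  exact h2.trans ((zero_add _).trans (h.sigma_word I.1.1 I.1.2.2 h1))

theorem Hyp.eps_y0 (I : Wd0) (hI : v0 I ≤ D) : X.ε 0 (y0 X I) = 0 :=
  h.eps 0 (by omega) _ (v0_pos I) _ (h.y0_mem_gr I hI)

omit h in
/-- version of `map_eq_sum_lin` in a range -/
theorem map_eq_zero_of_no_lin' {s M : Type*} [AddCommGroup M] [Module F2 M]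
    (F : MvPolynomial s F2 →ₗ[F2] M) (T : Set s)
    (hF : ∀ i ∈ T, ∀ j ∈ T, ∀ a, F (MvPolynomial.X i * (MvPolynomial.X j * a)) = 0)
    {g : MvPolynomial s F2} (hT : ∀ d ∈ g.support, ∀ i ∈ d.support, i ∈ T)
    (h0 : constantCoeff g = 0)
    (h1 : ∀ i, coeff (Finsupp.single i 1) g = 0) : F g = 0 := by
  classical
  rw [g.as_sum, map_sum]
  refine Finset.sum_eq_zero fun d hd => ?_
  have hd' := mem_support_iff.1 hd
  have hd0 : d ≠ 0 := by
    rintro rfl
    rw [constantCoeff_eq] at h0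
    exact hd' h0
  obtain ⟨i, hi⟩ := Finsupp.ne_iff.1 hd0
  rw [Finsupp.zero_apply] at hi
  have hiT := hT d hd i (Finsupp.mem_support_iff.2 hi)
  have hle : Finsupp.single i 1 ≤ d := by
    rw [Finsupp.single_le_iff]; omega
  obtain ⟨d1, hd1⟩ := exists_add_of_le hle
  have hd10 : d1 ≠ 0 := by
    rintro rfl
    rw [add_zero] at hd1
    rw [hd1] at hd'
    exact hd' (h1 i)
  obtain ⟨j, hj⟩ := Finsupp.ne_iff.1 hd10
  rw [Finsupp.zero_apply] at hj
  have hjT := hT d hd j (Finsupp.mem_support_iff.2 (by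
    rw [hd1, Finsupp.add_apply]; omega))
  have hle' : Finsupp.single j 1 ≤ d1 := by
    rw [Finsupp.single_le_iff]; omega
  obtain ⟨d2, hd2⟩ := exists_add_of_le hle'
  have hm : monomial d (coeff d g) =
      MvPolynomial.X i * (MvPolynomial.X j * monomial d2 (coeff d g)) := by
    rw [MvPolynomial.X, MvPolynomial.X, monomial_mul, monomial_mul, one_mul, one_mul, ← hd2, ← hd1]
  rw [hm, hF i hiT j hjT]

omit h in
theorem support_sub_lin {s : Type*} {g : MvPolynomial s F2} {d : s →₀ ℕ}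
    (hd : d ∈ (g - Hopf407.lin g).support) : d ∈ g.support := by
  classical
  by_contra hcon
  rw [mem_support_iff, coeff_sub, notMem_support_iff.1 hcon, zero_sub, neg_ne_zero,
    Hopf407.lin, coeff_sum] at hd
  obtain ⟨i, _, hi⟩ := Finset.exists_ne_zero_of_sum_ne_zero hd
  rw [coeff_smul, coeff_X] at hi
  split_ifs at hi with h1
  · rw [smul_eq_mul, mul_one, h1] at hi
    exact hi (notMem_support_iff.1 hcon)
  · simp at hi

omit h in
theorem map_eq_sum_lin' {s M : Type*} [AddCommGroup M] [Module F2 M]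
    (F : MvPolynomial s F2 →ₗ[F2] M) (T : Set s)
    (hF : ∀ i ∈ T, ∀ j ∈ T, ∀ a, F (MvPolynomial.X i * (MvPolynomial.X j * a)) = 0)
    {g : MvPolynomial s F2} (hT : ∀ d ∈ g.support, ∀ i ∈ d.support, i ∈ T)
    (h0 : constantCoeff g = 0) :
    F g = ∑ i ∈ g.vars, coeff (Finsupp.single i 1) g • F (MvPolynomial.X i) := by
  have h1 : F (g - Hopf407.lin g) = 0 := by
    refine map_eq_zero_of_no_lin' F T hF (fun d hd => hT d (support_sub_lin hd)) ?_
      fun i => by rw [coeff_sub, Hopf407.coeff_lin, sub_self]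
    rw [map_sub, h0, Hopf407.lin, map_sum, zero_sub, neg_eq_zero]
    refine Finset.sum_eq_zero fun i _ => ?_
    rw [constantCoeff_smul, constantCoeff_X, smul_zero]
  rw [map_sub, sub_eq_zero] at h1
  rw [h1, Hopf407.lin, map_sum]
  refine Finset.sum_congr rfl fun i _ => ?_
  rw [map_smul]

/-- The suspension of a polynomial without constant term. -/
theorem Hyp.sigma_e0 {t : ℕ} (ht : t ≤ D) (ht1 : 1 ≤ t) {p : MvPolynomial Wd0 F2}
    (hp : p ∈ VV t) : X.σ 0 (e0 X p) =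
      ∑ I ∈ p.vars, coeff (Finsupp.single I 1) p • X.σ 0 (y0 X I) := by
  have hs := h.sigma 0 (by omega)
  have h1 := map_eq_sum_lin' (X.σ 0 ∘ₗ (e0 X).toLinearMap) {I | v0 I ≤ D} (g := p) ?_ ?_ ?_
  · rw [LinearMap.comp_apply, AlgHom.toLinearMap_apply] at h1
    rw [h1]
    refine Finset.sum_congr rfl fun I _ => ?_
    rw [LinearMap.comp_apply, AlgHom.toLinearMap_apply, aeval_X]
  · intro I hI J hJ a
    have h2 : e0 X (MvPolynomial.X I * (MvPolynomial.X J * a)) = y0 X I * (y0 X J * e0 X a) := by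
      rw [map_mul, map_mul, aeval_X, aeval_X]
    rw [LinearMap.comp_apply, AlgHom.toLinearMap_apply, h2, hs.2.2.1, h.eps_y0 I hI, zero_smul,
      map_mul, h.eps_y0 J hJ, zero_mul, zero_smul]
    exact zero_add _
  · intro d hd I hI
    rw [mem_weightedHomogeneousSubmodule] at hp
    have h2 := hp (mem_support_iff.1 hd)
    have h3 : v0 I ≤ Finsupp.weight v0 d := Rng114.weight_le_of_mem hI
    exact (h3.trans_eq h2).trans ht
  · rw [constantCoeff_eq]
    rw [mem_weightedHomogeneousSubmodule] at hp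
    by_contra h2
    have h3 := hp h2
    rw [map_zero] at h3
    omega

omit h in
theorem wdeg_map_pred : ∀ I : List ℕ, (∀ i ∈ I, 1 ≤ i) →
    wdeg 1 (I.map Nat.pred) = wdeg 0 I + 1 := by
  intro I
  induction I with
  | nil => intro _; rfl
  | cons a I ih =>
    intro h1
    have ha := h1 a (by simp)
    rw [List.map_cons, wdeg_cons, wdeg_cons, ih fun i hi => h1 i (by simp [hi]), Nat.pred_eq_sub_one]
    omega

omit h in
theorem pairwise_map_pred {I : List ℕ} (hI : I.Pairwise (· ≤ ·)) :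
    (I.map Nat.pred).Pairwise (· ≤ ·) := by
  rw [List.pairwise_map]
  exact hI.imp fun hab => Nat.pred_le_pred hab

omit h in
theorem map_pred_inj {I J : List ℕ} (hI : ∀ i ∈ I, 1 ≤ i) (hJ : ∀ i ∈ J, 1 ≤ i)
    (hIJ : I.map Nat.pred = J.map Nat.pred) : I = J := by
  have h1 : ∀ K : List ℕ, (∀ i ∈ K, 1 ≤ i) → (K.map Nat.pred).map Nat.succ = K := by
    intro K hK
    rw [List.map_map]
    conv_rhs => rw [← List.map_id K]
    refine List.map_congr_left fun i hi => ?_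
    have := hK i hi
    simp only [Function.comp_apply, id_eq, Nat.succ_eq_add_one, Nat.pred_eq_sub_one]
    omega
  rw [← h1 I hI, hIJ, h1 J hJ]

theorem Hyp.lin_sigma (t : ℕ) (ht : t ≤ D) :
    LinearIndependent F2 (fun I : {I : Wd0 // v0 I = t} => X.σ 0 (y0 X I.1)) := by
  have h1 := (h.lin1 (t + 1) (by omega)).comp
    (fun I : {I : Wd0 // v0 I = t} => (⟨I.1.1.1.map Nat.pred, pairwise_map_pred I.1.1.2.1, by
      rw [wdeg_map_pred _ I.1.1.2.2]
      exact congrArg (· + 1) I.2⟩ :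
        {J : List ℕ // J.Pairwise (· ≤ ·) ∧ wdeg 1 J = t + 1})) (by
      intro I J hIJ
      have h2 : I.1.1.1.map Nat.pred = J.1.1.1.map Nat.pred := congrArg Subtype.val hIJ
      exact Subtype.ext (Subtype.ext (Subtype.ext
        (map_pred_inj I.1.1.2.2 J.1.1.2.2 h2))))
  have h3 : (fun I : {I : Wd0 // v0 I = t} => X.σ 0 (y0 X I.1)) =
      (fun J : {J : List ℕ // J.Pairwise (· ≤ ·) ∧ wdeg 1 J = t + 1} => X.word 1 J.1) ∘
      (fun I : {I : Wd0 // v0 I = t} => (⟨I.1.1.1.map Nat.pred, pairwise_map_pred I.1.1.2.1, by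
      rw [wdeg_map_pred _ I.1.1.2.2]
      exact congrArg (· + 1) I.2⟩ :
        {J : List ℕ // J.Pairwise (· ≤ ·) ∧ wdeg 1 J = t + 1})) := by
    funext I
    exact h.sigma_y0 I.1 (I.2.le.trans ht)
  rw [h3]
  exact h1

/-- If the suspension vanishes, there is no linear part. -/
theorem Hyp.coeff_eq_zero {t : ℕ} (ht : t ≤ D) (ht1 : 1 ≤ t) {p : MvPolynomial Wd0 F2}
    (hp : p ∈ VV t) (h0 : X.σ 0 (e0 X p) = 0) (I : Wd0) : coeff (Finsupp.single I 1) p = 0 := by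
  classical
  by_contra hne
  rw [h.sigma_e0 ht ht1 hp] at h0
  rw [mem_weightedHomogeneousSubmodule] at hp
  have hdeg : ∀ J : Wd0, coeff (Finsupp.single J 1) p ≠ 0 → v0 J = t := by
    intro J hJ
    have := hp hJ
    simpa [Finsupp.weight_single] using this
  have h1 : ∑ J ∈ p.vars.filter (fun J => v0 J = t), coeff (Finsupp.single J 1) p •
      X.σ 0 (y0 X J) = 0 := by
    rw [Finset.sum_filter]
    refine Eq.trans (Finset.sum_congr rfl fun J _ => ?_) h0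
    split_ifs with hJ
    · rfl
    · have : coeff (Finsupp.single J 1) p = 0 := by
        by_contra hJ'
        exact hJ (hdeg J hJ')
      rw [this, zero_smul]
  have h2 := linearIndependent_iff'.1 (h.lin_sigma t ht)
    ((p.vars.filter (fun J => v0 J = t)).subtype (fun J => v0 J = t))
    (fun J => coeff (Finsupp.single J.1 1) p)
    ((Finset.sum_subtype_of_mem (p := fun J => v0 J = t)
        (fun J : Wd0 => coeff (Finsupp.single J 1) p • X.σ 0 (y0 X J))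
        (fun J hJ => (Finset.mem_filter.1 hJ).2)).trans h1)
  have hI : v0 I = t := hdeg I hne
  apply hne
  refine h2 ⟨I, hI⟩ ?_
  rw [Finset.mem_subtype, Finset.mem_filter]
  refine ⟨?_, hI⟩
  rw [mem_vars_iff_mem_support]
  exact ⟨Finsupp.single I 1, mem_support_iff.2 hne, by simp⟩

/-- **(4.3) at `k = 0`** -/
theorem Hyp.ker_sigma {i : ℕ} (hi1 : 1 ≤ i) (hi : i ≤ D) {x : X.H 0} (hx : x ∈ X.gr 0 i)
    (hb : x ∈ X.base) (hprim : X.IsPrim 0 x) (hne : x ≠ 0) (h0 : X.σ 0 x = 0) :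
    ∃ j, 2 * j = i ∧ ∃ y ∈ X.gr 0 j, y ∈ X.base ∧ X.IsPrim 0 y ∧ x = y * y := by
  obtain ⟨p, hp, rfl⟩ := h.exists_poly hi hx hb
  have hP := h.prim_lift hi hp hprim
  have hbij := h.del_spec.2.2.bij
  have hae : ∀ f : MvPolynomial Wd0 F2,
      aeval (MvPolynomial.X : Wd0 → MvPolynomial Wd0 F2) f = f := fun f => by simp
  have hP' : Hopf407.Prim (Hopf407.Δi hbij h.del) p := by
    rw [Hopf407.prim_iff hbij, hae]
    exact hP
  obtain ⟨g, hg, hgP⟩ := Hopf407.exists_sq_of_prim h.del_spec.2.2.good hP'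
    (h.coeff_eq_zero hi hi1 hp h0)
  rw [Hopf407.prim_iff hbij, hae] at hgP
  have hg0 : g ≠ 0 := by
    rintro rfl
    apply hne
    rw [hg]
    simp
  have hp' : IsWeightedHomogeneous v0 (g ^ 2) i := by
    rw [← hg]; exact hp
  obtain ⟨d, hd⟩ := support_nonempty.2 hg0
  have hij := Hopf407.weight_sq hp' hd
  have hgj : g ∈ VV (Finsupp.weight v0 d) := by
    rw [mem_weightedHomogeneousSubmodule]
    intro d' hd'
    have := Hopf407.weight_sq hp' (mem_support_iff.2 hd')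
    omega
  refine ⟨Finsupp.weight v0 d, hij, e0 X g, h.e0_mem_gr (by omega) hgj,
    h.e0_mem_base (by omega) hgj, h.isPrim_e0 (by omega) hgj hgP, ?_⟩
  rw [hg, map_pow, pow_two]

end main

end Crest.Agent.R204.HopfZ407
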