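import Crest.Agent.R204.Fam_265
import Crest.Agent.R204.SingAct_265
import Crest.Agent.R204.C2_735
import Crest.Agent.R204.Orb_742
import Crest.Agent.R204.SpecA_334

/-!
# Row 204, block C (helper265): `theta` and `psi` as simplicial maps
-/

set_option autoImplicit false

open scoped Topology Topology.Homotopy

noncomputable section

namespace Crest.Agent.R204.ThetaSS265

open SS SingAct265 Fam265 Cubes735 DK742

/-! ## signs -/

/-- sign character -/
def sgn (g : ZMod 2) : ℝ := if g = 0 then 1 else -1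

theorem sgn_ne (g : ZMod 2) : sgn g ≠ 0 := by unfold sgn; split_ifs <;> norm_num

theorem sgn_add_one (g : ZMod 2) : sgn (g + 1) = - sgn g := by
  have h : g = 0 ∨ g = 1 := by revert g; decide
  rcases h with rfl | rfl <;> norm_num [sgn] <;> decide

/-! ## `E Z/2` and its involution -/

/-- `E (Z/2)` -/
abbrev EZ2 : SS := EG (ZMod 2)

/-- the `M`-skeleton of `E (Z/2)` -/
abbrev EM (M : ℕ) : SS := sk M EZ2

/-- translation by one -/
def tau : Hom EZ2 EZ2 := EGmap (fun g => g + 1)

theorem tau_tau (n : ℕ) (g : EZ2.S n) : tau.app n (tau.app n g) = g := by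
  funext i
  show g i + 1 + 1 = g i
  have : (1 : ZMod 2) + 1 = 0 := by decide
  rw [add_assoc, this, add_zero]

/-- the involution of `E (Z/2)` -/
def invE : Invo EZ2 := ⟨tau, tau_tau⟩

/-- the involution of the skeleton -/
def invEM (M : ℕ) : Invo (EM M) := ⟨skMap M tau, fun n g => Subtype.ext (tau_tau n g.1)⟩

theorem nz_ne {M n : ℕ} (g : (EM M).S n) (t : stdSimplex ℝ (Fin (n + 1))) :
    mom M (fun k => sgn (g.1 k)) (t : Fin (n + 1) → ℝ) ≠ 0 := by
  obtain ⟨p, hp, f, y, hy⟩ := g.2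
  intro h
  have h0 : mom M (fun k => (fun _ => (0 : ℝ)) (f k)) (t : Fin (n + 1) → ℝ) = 0 := by
    funext j; simp [mom, Moment265.MF]
  have h' : mom M (fun k => sgn (y (f k))) t = mom M (fun k => (fun _ => (0 : ℝ)) (f k)) t := by
    rw [h0]
    simp only [hy] at h
    exact h
  exact mom_ne_of_factor hp f (w := fun k => sgn (y k)) (w' := fun _ => 0)
    (fun k => sgn_ne _) t h'

/-- the point of the punctured space attached to a simplex and a barycentric coordinate -/
def nzPt (M : ℕ) {n : ℕ} (g : (EM M).S n) (t : stdSimplex ℝ (Fin (n + 1))) : NZ (Fin (M + 1)) :=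
  ⟨mom M (fun k => sgn (g.1 k)) t, nz_ne g t⟩

theorem continuous_nzPt (M : ℕ) {n : ℕ} (g : (EM M).S n) : Continuous (nzPt M g) := by
  refine Continuous.subtype_mk (f := fun t : stdSimplex ℝ (Fin (n + 1)) =>
    mom M (fun k => sgn (g.1 k)) (t : Fin (n + 1) → ℝ)) ?_ _
  exact continuous_mom M continuous_const continuous_subtype_val

/-- the explicit equivariant map of the skeleton to a punctured euclidean space -/
def nz (M : ℕ) : Hom (EM M) (Sing (NZ (Fin (M + 1)))) where
  app n g := mkS (nzPt M g) (continuous_nzPt M g)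
  nat f g := by
    refine sing_ext fun t => Subtype.ext ?_
    exact mom_act M f (fun k => sgn (g.1 k)) t

theorem ev_nz (M : ℕ) {n : ℕ} (g : (EM M).S n) (t : stdSimplex ℝ (Fin (n + 1))) :
    (ev ((nz M).app n g) t).1 = mom M (fun k => sgn (g.1 k)) t := rfl

theorem nz_neg (M : ℕ) {n : ℕ} (g : (EM M).S n) (t : stdSimplex ℝ (Fin (n + 1))) :
    ev ((nz M).app n ((invEM M).g.app n g)) t = - ev ((nz M).app n g) t := by
  apply Subtype.ext
  rw [NZ.coe_neg, ev_nz, ev_nz]
  have : (fun k => sgn (((invEM M).g.app n g).1 k)) = fun k => (-1 : ℝ) * sgn (g.1 k) := by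
    funext k
    show sgn (g.1 k + 1) = _
    rw [sgn_add_one]; ring
  rw [this, mom_smul]
  simp

/-! ## theta and psi -/

variable {J Z : Type} [Finite J] [TopologicalSpace Z] {z₀ : Z} {M : ℕ}

/-- loop space -/
abbrev Om (J Z : Type) [TopologicalSpace Z] (z₀ : Z) : Type := Ω^ J Z z₀

/-- `theta` on simplicial sets: `sk_M E(Z/2) × (X × X) → X` -/
def thetaSS (k : Fin (M + 1) ↪ J) :
    Hom ((EM M).prod ((Sing (Om J Z z₀)).prod (Sing (Om J Z z₀)))) (Sing (Om J Z z₀)) where
  app n p := mkS (fun t => theta k (ev ((nz M).app n p.1) t) (ev p.2.1 t) (ev p.2.2 t))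
    (continuous_theta k (continuous_ev _) (continuous_ev _) (continuous_ev _))
  nat f p := by
    refine sing_ext fun t => ?_
    show theta k (ev ((nz M).app _ ((EM M).act f p.1)) t) _ _ = _
    rw [(nz M).nat]; rfl

theorem ev_thetaSS (k : Fin (M + 1) ↪ J) {n : ℕ} (g : (EM M).S n) (x y : (Sing (Om J Z z₀)).S n)
    (t : stdSimplex ℝ (Fin (n + 1))) :
    ev ((thetaSS k).app n (g, (x, y))) t = theta k (ev ((nz M).app n g) t) (ev x t) (ev y t) := rfl

/-- `Z/2`-invariance of `theta` -/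
theorem thetaSS_inv (k : Fin (M + 1) ↪ J) (n : ℕ)
    (p : ((EM M).prod ((Sing (Om J Z z₀)).prod (Sing (Om J Z z₀)))).S n) :
    (thetaSS k).app n (((invEM M).prod (Invo.swap (Sing (Om J Z z₀)))).g.app n p) =
      (thetaSS k).app n p := by
  obtain ⟨g, x, y⟩ := p
  refine sing_ext fun t => ?_
  show ev ((thetaSS k).app n ((invEM M).g.app n g, (y, x))) t = _
  rw [ev_thetaSS, ev_thetaSS, nz_neg, theta_neg]

/-- `psi` on simplicial sets: `sk_M E(Z/2) × X → X` -/
def psiSS (k : Fin (M + 1) ↪ J) : Hom ((EM M).prod (Sing (Om J Z z₀))) (Sing (Om J Z z₀)) where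
  app n p := mkS (fun t => psi k (ev ((nz M).app n p.1) t) (ev p.2 t))
    (continuous_psi k (continuous_ev _) (continuous_ev _))
  nat f p := by
    refine sing_ext fun t => ?_
    show psi k (ev ((nz M).app _ ((EM M).act f p.1)) t) _ = _
    rw [(nz M).nat]; rfl

theorem ev_psiSS (k : Fin (M + 1) ↪ J) {n : ℕ} (g : (EM M).S n) (x : (Sing (Om J Z z₀)).S n)
    (t : stdSimplex ℝ (Fin (n + 1))) :
    ev ((psiSS k).app n (g, x)) t = psi k (ev ((nz M).app n g) t) (ev x t) := rfl


/-- `psi = theta ∘ diagonal` -/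
theorem psiSS_eq (k : Fin (M + 1) ↪ J) (n : ℕ) (g : (EM M).S n) (x : (Sing (Om J Z z₀)).S n) :
    (psiSS k).app n (g, x) = (thetaSS k).app n (g, (x, x)) := by
  refine sing_ext fun t => ?_
  rw [ev_psiSS, ev_thetaSS, psi_eq_theta]

/-- the constant simplex at the base point -/
def pt0 (J Z : Type) [TopologicalSpace Z] (z₀ : Z) (n : ℕ) : (Sing (Om J Z z₀)).S n :=
  mkS (fun _ => GenLoop.const) continuous_const


theorem thetaSS_pt0 (k : Fin (M + 1) ↪ J) (n : ℕ) (g : (EM M).S n) :
    (thetaSS k).app n (g, (pt0 J Z z₀ n, pt0 J Z z₀ n)) = pt0 J Z z₀ n := by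
  refine sing_ext fun t => ?_
  rw [ev_thetaSS]
  exact theta_const _ _

/-! ## orbits: extended power and `BZ/2` -/

/-- skeletal extended square `sk_M E(Z/2) ×_{Z/2} K²` -/
abbrev DM (M : ℕ) (K : SS) : SS := orb ((EM M).prod (K.prod K)) ((invEM M).prod (Invo.swap K))

/-- skeletal `B(Z/2)` -/
abbrev BM (M : ℕ) : SS := orb (EM M) (invEM M)

/-- functoriality of the extended square -/
def DMmap (M : ℕ) {K L : SS} (f : Hom K L) : Hom (DM M K) (DM M L) :=
  orbMap _ _ (prodMap (Hom.id _) (prodMap f f)) (fun _ _ => rfl)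

/-- `Θ : sk_M E ×_{Z/2} (Sing X)² → Sing X` -/
def Theta (k : Fin (M + 1) ↪ J) : Hom (DM M (Sing (Om J Z z₀))) (Sing (Om J Z z₀)) :=
  orbLift _ (thetaSS k) (thetaSS_inv k)

@[simp] theorem Theta_proj (k : Fin (M + 1) ↪ J) (n : ℕ)
    (p : ((EM M).prod ((Sing (Om J Z z₀)).prod (Sing (Om J Z z₀)))).S n) :
    (Theta k).app n ((proj _).app n p) = (thetaSS k).app n p := rfl

/-- the diagonal `BM M × K → DM M K` -/
def diagD (M : ℕ) (K : SS) : Hom ((BM M).prod K) (DM M K) where
  app n p := Quotient.liftOn (s := (invEM M).rel n) p.1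
    (fun g => (proj ((invEM M).prod (Invo.swap K))).app n (g, (p.2, p.2))) (by
      rintro g g' (rfl | rfl)
      · rfl
      · exact (proj_g ((invEM M).prod (Invo.swap K)) n (g, (p.2, p.2))).symm)
  nat f p := by
    obtain ⟨b, x⟩ := p
    obtain ⟨g, rfl⟩ := proj_surj (invEM M) _ b
    rfl

@[simp] theorem diagD_proj (M : ℕ) (K : SS) (n : ℕ) (g : (EM M).S n) (x : K.S n) :
    (diagD M K).app n ((proj (invEM M)).app n g, x) =
      (proj ((invEM M).prod (Invo.swap K))).app n (g, (x, x)) := rfl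

/-- `Ψ : BM M × Sing X → Sing X` -/
def Psi (k : Fin (M + 1) ↪ J) : Hom ((BM M).prod (Sing (Om J Z z₀))) (Sing (Om J Z z₀)) :=
  (Theta k).comp (diagD M _)

@[simp] theorem Psi_proj (k : Fin (M + 1) ↪ J) (n : ℕ) (g : (EM M).S n)
    (x : (Sing (Om J Z z₀)).S n) :
    (Psi k).app n ((proj (invEM M)).app n g, x) = (psiSS k).app n (g, x) := by
  rw [psiSS_eq]; rfl

/-! ## compatibility with evaluation at the last loop coordinate -/

/-- evaluation `I × Ω^{j+1} → Ω^j` -/
def evC {j : ℕ} : C(unitInterval × Om (Fin (j + 1)) Z z₀, Om (Fin j) Z z₀) :=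
  ⟨fun p => Cubes735.ev p.1 p.2, Cubes735.continuous_ev continuous_fst continuous_snd⟩

/-- evaluation on simplicial sets, `Sing I × Sing Ω^{j+1} → Sing Ω^j` -/
def evSS {j : ℕ} : Hom ((Sing unitInterval).prod (Sing (Om (Fin (j + 1)) Z z₀)))
    (Sing (Om (Fin j) Z z₀)) := (SingMap evC).comp (singPair _ _)


/-- strict spectator law for `theta` -/
theorem evSS_thetaSS {j n : ℕ} (k : Fin (M + 1) ↪ Fin j) (s : (Sing unitInterval).S n)
    (g : (EM M).S n) (x y : (Sing (Om (Fin (j + 1)) Z z₀)).S n) :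
    evSS.app n (s, (thetaSS (k.trans Fin.castSuccEmb)).app n (g, (x, y))) =
      (thetaSS k).app n (g, (evSS.app n (s, x), evSS.app n (s, y))) := by
  refine sing_ext fun t => ?_
  exact ev_theta k _ _ _ _


/-! ## naturality in the target -/



/-! ## A6b -/


theorem Htpy_homology (hA : SpecA.HomotopyInv) (R : Type) [CommRing R] {K L : SS} {f g : Hom K L}
    (h : Htpy f g) : H.map R f = H.map R g := by
  have h0 : Hom.comp h.h (SpecA.endMap K 0) = f := by
    ext n x; exact h.zero n x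
  have h1 : Hom.comp h.h (SpecA.endMap K 1) = g := by
    ext n x; exact h.one n x
  calc H.map R f = H.map R (Hom.comp h.h (SpecA.endMap K 0)) := by rw [h0]
    _ = H.map R (Hom.comp h.h (SpecA.endMap K 1)) := hA R K L h.h
    _ = H.map R g := by rw [h1]

theorem topHomotopyInv (hA : SpecA.HomotopyInv) : SpecA.TopHomotopyInv := by
  intro R _ X Y _ _ f g hfg
  obtain ⟨h⟩ := hfg
  exact Htpy_homology hA R (Htpy.ofHomotopy h)

end Crest.Agent.R204.ThetaSS265
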