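import Crest.Agent.R204.EZAW_271

/-!
# Row 204, block A-EZ (helper271): natural homotopy `∇ ∘ AW ~ id`, units, homotopy invariance.
Everything over an arbitrary commutative ring `R`.
-/

set_option autoImplicit false

namespace Crest.Agent.R204.EZ271

open Finsupp TensorProduct

section

variable (R : Type) [CommRing R]

/-- the cross product as a linear map on the tensor product -/
noncomputable def crossT {K L : SS} : N R K ⊗[R] N R L →ₗ[R] N R (K.prod L) :=
  TensorProduct.lift (cross R)

@[simp] theorem crossT_tmul {K L : SS} (a : N R K) (b : N R L) :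
    crossT R (a ⊗ₜ[R] b) = cross R a b := by simp [crossT]

theorem map_crossT {K L K' L' : SS} (f : SS.Hom K K') (g : SS.Hom L L') (t : N R K ⊗[R] N R L) :
    N.map R (SS.prodMap f g) (crossT R t) =
      crossT R (TensorProduct.map (N.map R f) (N.map R g) t) := by
  induction t using TensorProduct.induction_on with
  | zero => simp
  | add x y hx hy => simp only [map_add, hx, hy]
  | tmul a b => rw [crossT_tmul, TensorProduct.map_tmul, crossT_tmul, map_cross]

theorem bd_crossT {K L : SS} (t : N R K ⊗[R] N R L) :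
    N.bd R _ (crossT R t) = crossT R (tbd R K L t) := by
  induction t using TensorProduct.induction_on with
  | zero => simp
  | add x y hx hy => simp only [map_add, hx, hy]
  | tmul a b => rw [crossT_tmul, bd_cross, tbd_tmul, map_add, crossT_tmul, crossT_tmul]

theorem aw_crossT {K L : SS} (t : N R K ⊗[R] N R L) : aw R (crossT R t) = t := by
  induction t using TensorProduct.induction_on with
  | zero => simp
  | add x y hx hy => simp only [map_add, hx, hy]
  | tmul a b => rw [crossT_tmul, aw_cross]

/-- cone on the product, in terms of tensors -/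
theorem aug_crossT_c {K L : SS} (A : Cone K) (t : N R K ⊗[R] N R L) :
    aug R (crossT R (TensorProduct.map (A.c R) LinearMap.id t)) = 0 := by
  induction t using TensorProduct.induction_on with
  | zero => simp
  | add x y hx hy => simp only [map_add, hx, hy, add_zero]
  | tmul a b => rw [TensorProduct.map_tmul, crossT_tmul, aug_cross, Cone.aug_c, zero_mul]

theorem aug_aw_left {K L : SS} (z : N R (K.prod L)) :
    TensorProduct.lid R _ (TensorProduct.map (aug R) LinearMap.id (aw R z)) =
      N.map R (SS.snd K L) z := by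
  conv_rhs => rw [← aug_cop_left R z]
  rw [aw, LinearMap.comp_apply]
  generalize cop R z = t
  induction t using TensorProduct.induction_on with
  | zero => simp
  | add x y hx hy => simp only [map_add, hx, hy]
  | tmul a b => simp [aug_map]


/-- cone induction for natural families on products -/
theorem indP {M : SS → SS → Type*} [∀ K L, AddCommMonoid (M K L)] [∀ K L, Module R (M K L)]
    (f f' : ∀ K L : SS, N R (K.prod L) →ₗ[R] M K L)
    (hnat : ∀ {K L K' L' : SS} (g : SS.Hom K K') (h : SS.Hom L L') (z : N R (K.prod L)),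
      f K L z = f' K L z →
        f K' L' (N.map R (SS.prodMap g h) z) = f' K' L' (N.map R (SS.prodMap g h) z))
    (hbot : ∀ {K L : SS} (A : Cone K) (B : Cone L),
      f K L (N.sx R (A.prod B).bot) = f' K L (N.sx R (A.prod B).bot))
    (hc : ∀ {K L : SS} (A : Cone K) (B : Cone L) (z : N R (K.prod L)), f K L z = f' K L z →
      f K L ((A.prod B).c R z) = f' K L ((A.prod B).c R z)) :
    ∀ (K L : SS) (z : N R (K.prod L)), f K L z = f' K L z := by
  have key : ∀ n : ℕ, f (SS.std n) (SS.std n)
      (N.sx R (K := (SS.std n).prod (SS.std n)) (iota n, iota n)) = f' (SS.std n) (SS.std n)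
      (N.sx R (K := (SS.std n).prod (SS.std n)) (iota n, iota n)) := by
    intro n
    induction n with
    | zero =>
      have : (iota 0, iota 0) = ((Cone.std 0).prod (Cone.std 0)).bot := by
        refine Prod.ext ?_ ?_ <;> exact OrderHom.ext _ _ (funext fun a => Fin.ext (by omega))
      rw [this]
      exact hbot _ _
    | succ n ih =>
      have : N.sx R (K := (SS.std (n + 1)).prod (SS.std (n + 1))) (iota (n + 1), iota (n + 1)) =
          ((Cone.std (n + 1)).prod (Cone.std (n + 1))).c R
            (N.map R (SS.prodMap (stdMap (Op.face 0)) (stdMap (Op.face 0)))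
              (N.sx R (K := (SS.std n).prod (SS.std n)) (iota n, iota n))) := by
        rw [N.map_sx, Cone.c_sx]
        congr 1
        refine Prod.ext ?_ ?_ <;>
        · refine OrderHom.ext _ _ (funext fun a => ?_)
          induction a using Fin.cases with
          | zero => rfl
          | succ a => rfl
      rw [this]
      exact hc _ _ _ (hnat _ _ _ ih)
  intro K L z
  have : f K L = f' K L := by
    refine hom_ext fun n x => ?_
    have e : N.sx R x = N.map R (SS.prodMap (K.yo x.1) (L.yo x.2))
        (N.sx R (K := (SS.std n).prod (SS.std n)) (iota n, iota n)) := by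
      rw [N.map_sx]
      congr 1
      exact Prod.ext (yo_iota x.1).symm (yo_iota x.2).symm
    rw [e]
    exact hnat _ _ _ (key n)
  rw [this]

/-- universal homotopy chains -/
noncomputable def hU : (n : ℕ) → N R ((SS.std n).prod (SS.std n))
  | 0 => 0
  | n + 1 => (Cpq (n + 1) (n + 1)).c R
      (crossT R (TensorProduct.map ((Cone.std (n + 1)).c R) LinearMap.id
        (aw R (N.map R (SS.prodMap (stdMap (Op.face 0)) (stdMap (Op.face 0)))
              (N.sx R (K := (SS.std n).prod (SS.std n)) (iota n, iota n))))) -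
        N.map R (SS.prodMap (stdMap (Op.face 0)) (stdMap (Op.face 0))) (hU n))

theorem hU_zero : hU R 0 = 0 := rfl

theorem hU_succ (n : ℕ) : hU R (n + 1) = (Cpq (n + 1) (n + 1)).c R
      (crossT R (TensorProduct.map ((Cone.std (n + 1)).c R) LinearMap.id
        (aw R (N.map R (SS.prodMap (stdMap (Op.face 0)) (stdMap (Op.face 0)))
              (N.sx R (K := (SS.std n).prod (SS.std n)) (iota n, iota n))))) -
        N.map R (SS.prodMap (stdMap (Op.face 0)) (stdMap (Op.face 0))) (hU R n)) := rfl

theorem c_hU (n : ℕ) : (Cpq n n).c R (hU R n) = 0 := by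
  rcases n with _ | n
  · rw [hU_zero, map_zero]
  · rw [hU_succ, Cone.c_c]

theorem map_c_tensor {K L K' L' : SS} {A : Cone K} {A' : Cone K'} {f : SS.Hom K K'}
    (hf : IsConeMap A A' f) (g : SS.Hom L L') (t : N R K ⊗[R] N R L) :
    TensorProduct.map (N.map R f) (N.map R g) (TensorProduct.map (A.c R) LinearMap.id t) =
      TensorProduct.map (A'.c R) LinearMap.id (TensorProduct.map (N.map R f) (N.map R g) t) := by
  induction t using TensorProduct.induction_on with
  | zero => simp
  | add x y hx hy => simp only [map_add, hx, hy]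
  | tmul a b => simp only [TensorProduct.map_tmul, LinearMap.id_apply, hf.c]

theorem c_tensor_bot {K L : SS} (A : Cone K) (B : Cone L) :
    TensorProduct.map (A.c R) LinearMap.id (aw R (N.sx R (A.prod B).bot)) = 0 := by
  rw [aw_bot, TensorProduct.map_tmul, Cone.c_bot, TensorProduct.zero_tmul]

theorem c_tensor_c {K L : SS} (A : Cone K) (B : Cone L) (z : N R (K.prod L)) :
    TensorProduct.map (A.c R) LinearMap.id (aw R ((A.prod B).c R z)) = 0 := by
  rw [aw_c, map_add, TensorProduct.map_tmul, Cone.c_bot, TensorProduct.zero_tmul, zero_add]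
  generalize aw R z = t
  induction t using TensorProduct.induction_on with
  | zero => simp
  | add x y hx hy => rw [map_add, map_add, hx, hy, add_zero]
  | tmul a b => rw [TensorProduct.map_tmul, TensorProduct.map_tmul, Cone.c_c, TensorProduct.zero_tmul]

theorem c_tensor_iota (n : ℕ) : TensorProduct.map ((Cone.std n).c R) LinearMap.id
    (aw R (N.sx R (K := (SS.std n).prod (SS.std n)) (iota n, iota n))) = 0 := by
  rcases n with _ | n
  · have : (iota 0, iota 0) = ((Cone.std 0).prod (Cone.std 0)).bot := by
      refine Prod.ext ?_ ?_ <;> exact OrderHom.ext _ _ (funext fun a => Fin.ext (by omega))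
    rw [this, c_tensor_bot]
  · have : N.sx R (K := (SS.std (n + 1)).prod (SS.std (n + 1))) (iota (n + 1), iota (n + 1)) =
          ((Cone.std (n + 1)).prod (Cone.std (n + 1))).c R
            (N.map R (SS.prodMap (stdMap (Op.face 0)) (stdMap (Op.face 0)))
              (N.sx R (K := (SS.std n).prod (SS.std n)) (iota n, iota n))) := by
        rw [N.map_sx, Cone.c_sx]
        congr 1
        refine Prod.ext ?_ ?_ <;>
        · refine OrderHom.ext _ _ (funext fun a => ?_)
          induction a using Fin.cases with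
          | zero => rfl
          | succ a => rfl
    rw [this, c_tensor_c]

theorem hU_dgn (n : ℕ) : ∀ j : Fin (n + 1),
    N.map R (SS.prodMap (stdMap (Op.dgn j)) (stdMap (Op.dgn j))) (hU R (n + 1)) = 0 := by
  induction n with
  | zero =>
    intro j
    obtain rfl : j = 0 := Fin.ext (by omega)
    have hc0 : IsConeMap (Cone.std (0 + 1)) (Cone.std 0) (stdMap (Op.dgn (0 : Fin 1))) :=
      isConeMap_stdMap _ (dgn_apply_zero _)
    rw [hU_succ, (isConeMap_prod hc0 hc0).c, map_sub, map_crossT, map_c_tensor R hc0, ← aw_map,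
      map_map, prodMap_comp, stdMap_comp, dgn_zero_face_zero, stdMap_id, prodMap_id, map_idHom,
      c_tensor_iota, hU_zero]
    simp
  | succ n ih =>
    intro j
    have hc0 : IsConeMap (Cone.std (n + 1 + 1)) (Cone.std (n + 1)) (stdMap (Op.dgn j)) :=
      isConeMap_stdMap _ (dgn_apply_zero _)
    rw [hU_succ, (isConeMap_prod hc0 hc0).c, map_sub, map_crossT, map_c_tensor R hc0, ← aw_map,
      map_map, map_map, prodMap_comp, stdMap_comp]
    induction j using Fin.cases with
    | zero =>
      rw [dgn_zero_face_zero, stdMap_id, prodMap_id, map_idHom, map_idHom,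
        c_tensor_iota, map_zero, zero_sub, map_neg, c_hU, neg_zero]
    | succ j =>
      rw [dgn_succ_face_zero, ← stdMap_comp, ← prodMap_comp, ← map_map, ← map_map, ih j, map_zero,
        sub_zero]
      have e : N.map R (SS.prodMap (stdMap (Op.dgn j)) (stdMap (Op.dgn j)))
          (N.sx R (K := (SS.std (n + 1)).prod (SS.std (n + 1))) (iota (n + 1), iota (n + 1))) = 0 := by
        rw [N.map_sx]
        exact N.sx_dgn (K := (SS.std n).prod (SS.std n)) j (iota n, iota n)
      rw [e]
      simp

/-- natural homotopy between `∇ ∘ AW` and the identity -/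
noncomputable def hEZ {K L : SS} : N R (K.prod L) →ₗ[R] N R (K.prod L) :=
  liftN (K := K.prod L) (fun n z => N.map R (SS.prodMap (K.yo z.1) (L.yo z.2)) (hU R n)) (by
    intro n j y
    change N.map R (SS.prodMap (K.yo (K.act (Op.dgn j) y.1)) (L.yo (L.act (Op.dgn j) y.2))) _ = 0
    rw [yo_act, yo_act, ← prodMap_comp, ← map_map, hU_dgn, map_zero])

theorem hEZ_sx {K L : SS} {n : ℕ} (z : (K.prod L).S n) :
    hEZ R (N.sx R z) = N.map R (SS.prodMap (K.yo z.1) (L.yo z.2)) (hU R n) := by
  simp [hEZ]

theorem hEZ_map {K L K' L' : SS} (f : SS.Hom K K') (g : SS.Hom L L') (z : N R (K.prod L)) :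
    hEZ R (N.map R (SS.prodMap f g) z) = N.map R (SS.prodMap f g) (hEZ R z) := by
  have : hEZ R ∘ₗ N.map R (SS.prodMap f g) = N.map R (SS.prodMap f g) ∘ₗ hEZ R := by
    refine hom_ext fun n x => ?_
    simp only [LinearMap.comp_apply, N.map_sx]
    rw [hEZ_sx, hEZ_sx, map_map, prodMap_comp, comp_yo, comp_yo]
    rfl
  exact LinearMap.congr_fun this z

theorem hEZ_bot {K L : SS} (A : Cone K) (B : Cone L) : hEZ R (N.sx R (A.prod B).bot) = 0 := by
  rw [hEZ_sx, hU_zero, map_zero]

theorem hEZ_c {K L : SS} (A : Cone K) (B : Cone L) (w : N R (K.prod L)) :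
    hEZ R ((A.prod B).c R w) = (A.prod B).c R
      (crossT R (TensorProduct.map (A.c R) LinearMap.id (aw R w)) - hEZ R w) := by
  have : hEZ R ∘ₗ (A.prod B).c R = (A.prod B).c R ∘ₗ
      (crossT R ∘ₗ TensorProduct.map (A.c R) LinearMap.id ∘ₗ aw R - hEZ R) := by
    refine hom_ext fun n x => ?_
    simp only [LinearMap.comp_apply, LinearMap.sub_apply]
    rw [Cone.c_sx, hEZ_sx, hU_succ]
    have h1 : IsConeMap (Cone.std (n + 1)) A (K.yo (A.k x.1)) := isConeMap_yo_k A x.1
    have h2 : IsConeMap (Cone.std (n + 1)) B (L.yo (B.k x.2)) := isConeMap_yo_k B x.2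
    change N.map R (SS.prodMap (K.yo (A.k x.1)) (L.yo (B.k x.2))) _ = _
    rw [(isConeMap_prod h1 h2).c, map_sub, map_crossT, map_c_tensor R h1, ← aw_map,
      map_map, map_map, prodMap_comp, ← yo_act, ← yo_act, A.h_face, B.h_face, hEZ_sx]
    congr 5
    rw [N.map_sx]
    congr 2
    exact Prod.ext (yo_iota x.1) (yo_iota x.2)
  exact LinearMap.congr_fun this w

theorem aug_hEZ {K L : SS} (z : N R (K.prod L)) : aug R (hEZ R z) = 0 := by
  have : aug R ∘ₗ hEZ R (K := K) (L := L) = 0 := by
    refine hom_ext fun n x => ?_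
    rw [LinearMap.comp_apply, hEZ_sx, aug_map]
    rcases n with _ | n
    · rw [hU_zero]; simp
    · rw [hU_succ]; simp
  exact LinearMap.congr_fun this z

/-- **the Eilenberg-Zilber homotopy**: `∂ h + h ∂ = ∇ ∘ AW - id` -/
theorem hEZ_homotopy {K L : SS} (z : N R (K.prod L)) :
    N.bd R _ (hEZ R z) + hEZ R (N.bd R _ z) = crossT R (aw R z) - z := by
  refine indP R (M := fun K L => N R (K.prod L))
    (fun K L => N.bd R _ ∘ₗ hEZ R + hEZ R ∘ₗ N.bd R _)
    (fun K L => crossT R ∘ₗ aw R - LinearMap.id) ?_ ?_ ?_ K L z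
  · intro K L K' L' g h z hz
    simp only [LinearMap.add_apply, LinearMap.sub_apply, LinearMap.comp_apply,
      LinearMap.id_apply] at hz ⊢
    rw [hEZ_map, ← map_bd', ← map_bd', hEZ_map, ← map_add, hz, map_sub, map_crossT, ← aw_map]
  · intro K L A B
    simp only [LinearMap.add_apply, LinearMap.sub_apply, LinearMap.comp_apply,
      LinearMap.id_apply]
    rw [hEZ_bot, bd_sx_zero, aw_bot, crossT_tmul, cross_bot]
    simp
  · intro K L A B w hw
    simp only [LinearMap.add_apply, LinearMap.sub_apply, LinearMap.comp_apply,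
      LinearMap.id_apply] at hw ⊢
    have haug : aug R (crossT R (TensorProduct.map (A.c R) LinearMap.id (aw R w)) - hEZ R w) = 0 := by
      rw [map_sub, aug_crossT_c, aug_hEZ, sub_zero]
    rw [hEZ_c, Cone.bd_c, haug, zero_smul, sub_zero, Cone.bd_c, map_sub (hEZ R), map_sub (hEZ R),
      map_smul (hEZ R), hEZ_bot, smul_zero, sub_zero, hEZ_c, map_sub (N.bd R _), bd_crossT, tbd_c,
      bd_aw, aug_aw_left, aw_c, map_add (crossT R), crossT_tmul, cross_bot_c]
    simp only [map_sub, crossT_tmul]
    have h2 : N.bd R _ (hEZ R w) = crossT R (aw R w) - w - hEZ R (N.bd R _ w) := by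
      rw [← hw]; abel
    rw [h2]
    simp only [map_sub]
    abel

/-! ## units -/

theorem cross_vertex {K L : SS} (u : K.S 0) (v : L.S 0) :
    cross R (N.sx R u) (N.sx R v) = N.sx R (K := K.prod L) (u, v) := by
  rw [cross_sx, E_zero_zero, N.map_sx]
  congr 1
  have h : (Cone.std 0).bot = (OrderHom.id : Op 0 0) :=
    OrderHom.ext _ _ (funext fun a => Fin.ext (by omega))
  refine Prod.ext ?_ ?_
  · exact (congrArg (fun g => K.act g u) h).trans (K.act_id _)
  · exact (congrArg (fun g => L.act g v) h).trans (L.act_id _)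



/-- right unit: cross product with a vertex -/
theorem cross_vertex_right {K L : SS} (z : N R K) (v : L.S 0) :
    cross R z (N.sx R v) = N.map R (SS.pair (SS.Hom.id K) (SS.constHom K L v)) z := by
  have h0 : ∀ (K : SS) (z : N R K), cross R z (N.sx R (Cone.std 0).bot) =
      N.map R (SS.pair (SS.Hom.id K) (SS.constHom K (SS.std 0) (Cone.std 0).bot)) z := by
    refine ind1 R (M := fun K => N R (K.prod (SS.std 0)))
      (fun K => (cross R).flip (N.sx R (Cone.std 0).bot))
      (fun K => N.map R (SS.pair (SS.Hom.id K) (SS.constHom K (SS.std 0) (Cone.std 0).bot)))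
      ?_ ?_ ?_
    · intro K L g z hz
      simp only [LinearMap.flip_apply] at hz ⊢
      have e := map_cross R g (SS.Hom.id (SS.std 0)) z (N.sx R (Cone.std 0).bot)
      rw [map_idHom] at e
      rw [← e, hz, map_map, map_map]
      rfl
    · intro K A
      simp only [LinearMap.flip_apply]
      rw [cross_vertex, N.map_sx]
      congr 1
    · intro K A z hz
      simp only [LinearMap.flip_apply] at hz ⊢
      have hc : IsConeMap A (A.prod (Cone.std 0))
          (SS.pair (SS.Hom.id K) (SS.constHom K (SS.std 0) (Cone.std 0).bot)) :=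
        ⟨fun x => Prod.ext rfl (OrderHom.ext _ _ (funext fun a => Fin.ext (by omega)))⟩
      rw [cross_c_bot, hz, hc.c]
  have e1 : N.sx R v = N.map R (L.yo v) (N.sx R (Cone.std 0).bot) := by
    rw [← iota_zero, ← sx_eq_map_iota]
  have e := map_cross R (SS.Hom.id K) (L.yo v) z (N.sx R (Cone.std 0).bot)
  rw [map_idHom] at e
  rw [e1, ← e, h0, map_map]
  congr 1

/-- left unit: cross product with a vertex -/
theorem cross_vertex_left {K L : SS} (v : K.S 0) (z : N R L) :
    cross R (N.sx R v) z = N.map R (SS.pair (SS.constHom L K v) (SS.Hom.id L)) z := by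
  have h0 : ∀ (L : SS) (z : N R L), cross R (N.sx R (Cone.std 0).bot) z =
      N.map R (SS.pair (SS.constHom L (SS.std 0) (Cone.std 0).bot) (SS.Hom.id L)) z := by
    refine ind1 R (M := fun L => N R ((SS.std 0).prod L))
      (fun L => cross R (N.sx R (Cone.std 0).bot))
      (fun L => N.map R (SS.pair (SS.constHom L (SS.std 0) (Cone.std 0).bot) (SS.Hom.id L)))
      ?_ ?_ ?_
    · intro K L g z hz
      have e := map_cross R (SS.Hom.id (SS.std 0)) g (N.sx R (Cone.std 0).bot) z
      rw [map_idHom] at e
      rw [← e, hz, map_map, map_map]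
      rfl
    · intro K A
      rw [cross_vertex, N.map_sx]
      congr 1
    · intro K A z hz
      have hc : IsConeMap A ((Cone.std 0).prod A)
          (SS.pair (SS.constHom K (SS.std 0) (Cone.std 0).bot) (SS.Hom.id K)) :=
        ⟨fun x => Prod.ext (OrderHom.ext _ _ (funext fun a => Fin.ext (by omega))) rfl⟩
      rw [cross_bot_c, hz, hc.c]
  have e1 : N.sx R v = N.map R (K.yo v) (N.sx R (Cone.std 0).bot) := by
    rw [← iota_zero, ← sx_eq_map_iota]
  have e := map_cross R (K.yo v) (SS.Hom.id L) (N.sx R (Cone.std 0).bot) z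
  rw [map_idHom] at e
  rw [e1, ← e, h0, map_map]
  congr 1

/-! ## homotopy invariance -/

/-- vertex `e` of `std n` -/
def vert (n : ℕ) (e : Fin (n + 1)) : (SS.std n).S 0 := ⟨fun _ => e, fun _ _ _ => le_rfl⟩

theorem bd_iota_one : N.bd R _ (N.sx R (iota 1)) = N.sx R (vert 1 1) - N.sx R (vert 1 0) := by
  rw [bd_sx_succ, Fin.sum_univ_two]
  simp only [Fin.val_zero, pow_zero, one_smul, Fin.val_one, pow_one, neg_smul]
  rw [sub_eq_add_neg]
  have e0 : (SS.std 1).act (Op.face 0) (iota 1) = vert 1 1 := by
    refine OrderHom.ext _ _ (funext fun a => ?_)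
    obtain rfl : a = 0 := Fin.ext (by omega)
    rfl
  have e1 : (SS.std 1).act (Op.face 1) (iota 1) = vert 1 0 := by
    refine OrderHom.ext _ _ (funext fun a => ?_)
    obtain rfl : a = 0 := Fin.ext (by omega)
    rfl
  rw [e0, e1]

/-- inclusion `K → K × Δ¹` at the end `e` -/
def incl (K : SS) (e : Fin 2) : SS.Hom K (K.prod (SS.std 1)) :=
  SS.pair (SS.Hom.id K) (SS.constHom K (SS.std 1) (vert 1 e))

/-- prism operator of a simplicial homotopy `G : K × Δ¹ → L` -/
noncomputable def prism {K L : SS} (G : SS.Hom (K.prod (SS.std 1)) L) : N R K →ₗ[R] N R L :=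
  N.map R G ∘ₗ (cross R).flip (N.sx R (iota 1)) ∘ₗ sg R

theorem prism_apply {K L : SS} (G : SS.Hom (K.prod (SS.std 1)) L) (z : N R K) :
    prism R G z = N.map R G (cross R (sg R z) (N.sx R (iota 1))) := rfl

theorem prism_homotopy {K L : SS} (G : SS.Hom (K.prod (SS.std 1)) L) (z : N R K) :
    N.bd R L (prism R G z) + prism R G (N.bd R K z) =
      N.map R (G.comp (incl K 1)) z - N.map R (G.comp (incl K 0)) z := by
  rw [prism_apply, prism_apply, ← map_bd', bd_cross, sg_sg, bd_iota_one, map_sub,
    cross_vertex_right, cross_vertex_right, bd_sg, map_add, map_sub, map_map, map_map]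
  simp only [map_neg, LinearMap.neg_apply]
  change _ + (N.map R (G.comp (incl K 1)) z - N.map R (G.comp (incl K 0)) z) + _ = _
  abel


end

end Crest.Agent.R204.EZ271
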