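import Crest.Agent.R204.Defs

-- ▼ part R204/Coalg_847a
section

/-!
# Row 204, A4 (helper847): Kuenneth for `Hd` over `F2`

`M, M'` any `F2`-modules with differentials `d, d'` (`d ∘ d = 0`).  `tD d d' = d ⊗ 1 + 1 ⊗ d'`.
`kun : Hd d ⊗ Hd d' ≃ Hd (tD d d')`, `kun ([z] ⊗ [z']) = [z ⊗ z']`, natural, symmetric.
-/

set_option autoImplicit false

namespace Crest.Agent.R204.Coalg847

open TensorProduct

/-! ## strong deformation data over a field -/

section sdr

variable {k M : Type*} [Field k] [AddCommGroup M] [Module k M]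

/-- splitting data of a differential over a field -/
structure SDR (d : M →ₗ[k] M) where
  i : Hd d →ₗ[k] M
  p : M →ₗ[k] Hd d
  h : M →ₗ[k] M
  di : ∀ x, d (i x) = 0
  pd : ∀ x, p (d x) = 0
  pz : ∀ z (hz : d z = 0), p z = Hd.mk d z hz
  mki : ∀ x, Hd.mk d (i x) (di x) = x
  hom : ∀ x, d (h x) + h (d x) = x - i (p x)

theorem SDR.pi {d : M →ₗ[k] M} (s : SDR d) (x : Hd d) : s.p (s.i x) = x := by
  rw [s.pz _ (s.di x), s.mki]

theorem exists_sdr (d : M →ₗ[k] M) (dd : ∀ x, d (d x) = 0) : Nonempty (SDR d) := by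
  -- section of the cycles onto homology
  obtain ⟨s, hs⟩ := LinearMap.exists_rightInverse_of_surjective
    (Submodule.mkQ ((LinearMap.range d).comap (LinearMap.ker d).subtype))
    (Submodule.range_mkQ _)
  -- extension of the projection to M
  obtain ⟨p, hp⟩ := LinearMap.exists_extend
    (Submodule.mkQ ((LinearMap.range d).comap (LinearMap.ker d).subtype))
  -- partial inverse of d
  obtain ⟨t, ht⟩ := LinearMap.exists_rightInverse_of_surjective d.rangeRestrict
    (LinearMap.range_rangeRestrict d)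
  obtain ⟨g, hg⟩ := LinearMap.exists_extend t
  set i : Hd d →ₗ[k] M := (LinearMap.ker d).subtype ∘ₗ s with hi
  have di : ∀ x, d (i x) = 0 := fun x => (s x).2
  have mki : ∀ x, Hd.mk d (i x) (di x) = x := fun x => by
    have := LinearMap.congr_fun hs x
    exact this
  have pz : ∀ z (hz : d z = 0), p z = Hd.mk d z hz := fun z hz => by
    have := LinearMap.congr_fun hp ⟨z, hz⟩
    exact this
  have pd : ∀ x, p (d x) = 0 := fun x => by
    rw [pz _ (dd x), Hd.mk_eq_zero]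
    exact ⟨x, rfl⟩
  have pi : ∀ x, p (i x) = x := fun x => by rw [pz _ (di x), mki]
  have dgd : ∀ x, d (g (d x)) = d x := fun x => by
    have h1 := LinearMap.congr_fun hg ⟨d x, x, rfl⟩
    have h2 := LinearMap.congr_fun ht ⟨d x, x, rfl⟩
    simp only [LinearMap.comp_apply, Submodule.subtype_apply] at h1
    rw [h1]
    simpa using congrArg Subtype.val h2
  set g' : M →ₗ[k] M := g - i ∘ₗ p ∘ₗ g with hg'
  have dg'd : ∀ x, d (g' (d x)) = d x := fun x => by
    simp [hg', di, dgd]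
  have pg' : ∀ x, p (g' x) = 0 := fun x => by simp [hg', pi]
  set q : M →ₗ[k] M := LinearMap.id - i ∘ₗ p - g' ∘ₗ d with hq
  have dq : ∀ x, d (q x) = 0 := fun x => by simp [hq, di, dg'd]
  have pq : ∀ x, p (q x) = 0 := fun x => by simp [hq, pi, pg']
  have qr : ∀ x, ∃ y, d y = q x := fun x => by
    have := pq x
    rw [pz _ (dq x), Hd.mk_eq_zero] at this
    exact this
  refine ⟨⟨i, p, g' ∘ₗ q, di, pd, pz, mki, fun x => ?_⟩⟩
  have h1 : d (g' (q x)) = q x := by
    obtain ⟨y, hy⟩ := qr x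
    rw [← hy, dg'd]
  have h2 : q (d x) = d x := by simp [hq, pd, dd]
  simp only [LinearMap.comp_apply, h1, h2]
  simp [hq]

end sdr

/-! ## Kuenneth -/

section kun

variable {M M' M'' L L' : Type*} [AddCommGroup M] [Module F2 M] [AddCommGroup M'] [Module F2 M']
  [AddCommGroup M''] [Module F2 M'']
  [AddCommGroup L] [Module F2 L] [AddCommGroup L'] [Module F2 L']

theorem add_self_F2 (x : M) : x + x = 0 := by
  rw [← two_smul F2 x]
  have : (2 : F2) = 0 := rfl
  rw [this, zero_smul]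

theorem neg_F2 (x : M) : -x = x := neg_eq_of_add_eq_zero_left (add_self_F2 x)

theorem sub_F2 (x y : M) : x - y = x + y := by rw [sub_eq_add_neg, neg_F2]

/-- tensor differential (characteristic 2, no signs) -/
noncomputable def tD (d : M →ₗ[F2] M) (d' : M' →ₗ[F2] M') : M ⊗[F2] M' →ₗ[F2] M ⊗[F2] M' :=
  TensorProduct.map d LinearMap.id + TensorProduct.map LinearMap.id d'

@[simp] theorem tD_tmul (d : M →ₗ[F2] M) (d' : M' →ₗ[F2] M') (x : M) (y : M') :
    tD d d' (x ⊗ₜ y) = d x ⊗ₜ y + x ⊗ₜ d' y := by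
  simp [tD]


/-- the Kuenneth map built from splitting data -/
noncomputable def kunOf {d : M →ₗ[F2] M} {d' : M' →ₗ[F2] M'} (s : SDR d) (s' : SDR d') :
    Hd d ⊗[F2] Hd d' →ₗ[F2] Hd (tD d d') :=
  (Submodule.mkQ _) ∘ₗ LinearMap.codRestrict (LinearMap.ker (tD d d'))
    (TensorProduct.map s.i s'.i) (fun x => by
      rw [LinearMap.mem_ker]
      induction x with
      | zero => simp
      | add a b ha hb => rw [map_add, map_add, ha, hb, add_zero]
      | tmul a b => simp [s.di, s'.di])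

theorem tD_mk {d : M →ₗ[F2] M} {d' : M' →ₗ[F2] M'} {z : M} {z' : M'} (hz : d z = 0)
    (hz' : d' z' = 0) : tD d d' (z ⊗ₜ z') = 0 := by simp [hz, hz']

theorem kunOf_mk {d : M →ₗ[F2] M} {d' : M' →ₗ[F2] M'} (s : SDR d) (s' : SDR d')
    (z : M) (hz : d z = 0) (z' : M') (hz' : d' z' = 0) :
    kunOf s s' (Hd.mk d z hz ⊗ₜ Hd.mk d' z' hz') = Hd.mk (tD d d') (z ⊗ₜ z') (tD_mk hz hz') := by
  have h1 : ∃ y, d y = s.i (Hd.mk d z hz) - z := by
    rw [← Hd.mk_eq_mk (hz := s.di _) (hz' := hz), s.mki]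
  have h2 : ∃ y, d' y = s'.i (Hd.mk d' z' hz') - z' := by
    rw [← Hd.mk_eq_mk (hz := s'.di _) (hz' := hz'), s'.mki]
  obtain ⟨y, hy⟩ := h1
  obtain ⟨y', hy'⟩ := h2
  have : kunOf s s' (Hd.mk d z hz ⊗ₜ Hd.mk d' z' hz') =
      Hd.mk (tD d d') (s.i (Hd.mk d z hz) ⊗ₜ s'.i (Hd.mk d' z' hz')) (tD_mk (s.di _) (s'.di _)) :=
    rfl
  rw [this, Hd.mk_eq_mk]
  refine ⟨y ⊗ₜ s'.i (Hd.mk d' z' hz') + z ⊗ₜ y', ?_⟩
  rw [map_add, tD_tmul, tD_tmul, hy, hy', s'.di, hz, TensorProduct.tmul_zero,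
    TensorProduct.zero_tmul, TensorProduct.sub_tmul, TensorProduct.tmul_sub]
  abel

theorem map_pp_tD {d : M →ₗ[F2] M} {d' : M' →ₗ[F2] M'} (s : SDR d) (s' : SDR d')
    (y : M ⊗[F2] M') : TensorProduct.map s.p s'.p (tD d d' y) = 0 := by
  induction y with
  | zero => simp
  | add a b ha hb => rw [map_add, map_add, ha, hb, add_zero]
  | tmul a b => simp [s.pd, s'.pd]

/-- the inverse built from splitting data -/
noncomputable def nukOf {d : M →ₗ[F2] M} {d' : M' →ₗ[F2] M'} (s : SDR d) (s' : SDR d') :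
    Hd (tD d d') →ₗ[F2] Hd d ⊗[F2] Hd d' :=
  Submodule.liftQ _ ((TensorProduct.map s.p s'.p) ∘ₗ (LinearMap.ker (tD d d')).subtype) (by
    rintro ⟨x, hx⟩ hx'
    simp only [Submodule.mem_comap, Submodule.subtype_apply, LinearMap.mem_range] at hx'
    obtain ⟨y, rfl⟩ := hx'
    rw [LinearMap.mem_ker]
    exact map_pp_tD s s' y)

theorem nukOf_mk {d : M →ₗ[F2] M} {d' : M' →ₗ[F2] M'} (s : SDR d) (s' : SDR d')
    (w : M ⊗[F2] M') (hw : tD d d' w = 0) :
    nukOf s s' (Hd.mk _ w hw) = TensorProduct.map s.p s'.p w := rfl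

/-- chain homotopy -/
noncomputable def hoOf {d : M →ₗ[F2] M} {d' : M' →ₗ[F2] M'} (s : SDR d) (s' : SDR d') :
    M ⊗[F2] M' →ₗ[F2] M ⊗[F2] M' :=
  TensorProduct.map s.h LinearMap.id + TensorProduct.map (s.i ∘ₗ s.p) s'.h

theorem hoOf_spec {d : M →ₗ[F2] M} {d' : M' →ₗ[F2] M'} (s : SDR d) (s' : SDR d')
    (w : M ⊗[F2] M') : tD d d' (hoOf s s' w) + hoOf s s' (tD d d' w) =
      w - TensorProduct.map s.i s'.i (TensorProduct.map s.p s'.p w) := by
  induction w with
  | zero => simp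
  | add a b ha hb =>
    simp only [map_add]
    rw [add_add_add_comm, ha, hb]
    abel
  | tmul a b =>
    simp only [hoOf, LinearMap.add_apply, TensorProduct.map_tmul, LinearMap.id_apply,
      LinearMap.comp_apply, map_add, tD_tmul, s.di, s.pd, map_zero, TensorProduct.zero_tmul,
      zero_add]
    have e1 : s.h (d a) ⊗ₜ[F2] b = (a - s.i (s.p a) - d (s.h a)) ⊗ₜ[F2] b := by
      rw [← s.hom a]; congr 1; abel
    have e2 : (s.i (s.p a)) ⊗ₜ[F2] s'.h (d' b) =
        (s.i (s.p a)) ⊗ₜ[F2] (b - s'.i (s'.p b) - d' (s'.h b)) := by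
      rw [← s'.hom b]; congr 1; abel
    rw [e1, e2]
    simp only [TensorProduct.sub_tmul, TensorProduct.tmul_sub]
    have e3 := add_self_F2 (s.h a ⊗ₜ[F2] d' b)
    have e4 : s.h a ⊗ₜ[F2] d' b = - (s.h a ⊗ₜ[F2] d' b) := (neg_F2 _).symm
    rw [e4]
    abel_nf
    simp [e3, neg_F2, two_smul]

theorem nuk_kun {d : M →ₗ[F2] M} {d' : M' →ₗ[F2] M'} (s : SDR d) (s' : SDR d')
    (x : Hd d ⊗[F2] Hd d') : nukOf s s' (kunOf s s' x) = x := by
  induction x with
  | zero => simp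
  | add a b ha hb => rw [map_add, map_add, ha, hb]
  | tmul a b =>
    obtain ⟨z, hz, rfl⟩ := Hd.mk_surj d a
    obtain ⟨z', hz', rfl⟩ := Hd.mk_surj d' b
    rw [kunOf_mk, nukOf_mk, TensorProduct.map_tmul, s.pz _ hz, s'.pz _ hz']

theorem kun_nuk {d : M →ₗ[F2] M} {d' : M' →ₗ[F2] M'} (s : SDR d) (s' : SDR d')
    (x : Hd (tD d d')) : kunOf s s' (nukOf s s' x) = x := by
  obtain ⟨w, hw, rfl⟩ := Hd.mk_surj _ x
  rw [nukOf_mk]
  have hc : ∀ x, tD d d' (TensorProduct.map s.i s'.i x) = 0 := fun x => by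
    induction x with
    | zero => simp
    | add a b ha hb => rw [map_add, map_add, ha, hb, add_zero]
    | tmul a b => simp [s.di, s'.di]
  have : kunOf s s' (TensorProduct.map s.p s'.p w) =
      Hd.mk _ (TensorProduct.map s.i s'.i (TensorProduct.map s.p s'.p w)) (hc _) := rfl
  rw [this, Hd.mk_eq_mk]
  refine ⟨hoOf s s' w, ?_⟩
  have h1 := hoOf_spec s s' w
  rw [hw, map_zero, add_zero] at h1
  rw [h1, sub_F2, sub_F2, add_comm]

/-- **Kuenneth isomorphism** over `F2`. -/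
noncomputable def kun (d : M →ₗ[F2] M) (d' : M' →ₗ[F2] M') (dd : ∀ x, d (d x) = 0)
    (dd' : ∀ x, d' (d' x) = 0) : (Hd d ⊗[F2] Hd d') ≃ₗ[F2] Hd (tD d d') :=
  LinearEquiv.ofLinearMap (kunOf (exists_sdr d dd).some (exists_sdr d' dd').some)
    (nukOf (exists_sdr d dd).some (exists_sdr d' dd').some)
    (LinearMap.ext fun x => kun_nuk _ _ x) (LinearMap.ext fun x => nuk_kun _ _ x)

@[simp] theorem kun_mk (d : M →ₗ[F2] M) (d' : M' →ₗ[F2] M') (dd : ∀ x, d (d x) = 0)
    (dd' : ∀ x, d' (d' x) = 0) (z : M) (hz : d z = 0) (z' : M') (hz' : d' z' = 0) :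
    kun d d' dd dd' (Hd.mk d z hz ⊗ₜ Hd.mk d' z' hz') = Hd.mk (tD d d') (z ⊗ₜ z') (tD_mk hz hz') :=
  kunOf_mk _ _ z hz z' hz'




end kun

end Crest.Agent.R204.Coalg847
end

-- ▼ part R204/Coalg_847

/-!
# Row 204, A4 (helper847): cross product and coproduct on `H F2 K`

`EZData` = exactly the output of A1 (helper271).  From it: `cr : H K ⊗ H L ≃ H (K × L)`, natural,
associative, symmetric, unital; `cop : H K → H K ⊗ H K`, natural, coassociative, cocommutative,
counital, multiplicative for cross products.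
-/

set_option autoImplicit false

namespace Crest.Agent.R204.Coalg847

open TensorProduct Finsupp

/-! ## functoriality lemmas -/

section functor

variable {R : Type} [CommRing R] {J K L : SS}

theorem chMap_comp (g : SS.Hom K L) (f : SS.Hom J K) (c : Ch R J) :
    Ch.map R (g.comp f) c = Ch.map R g (Ch.map R f c) := by
  induction c using Finsupp.induction_linear with
  | zero => simp
  | add a b ha hb => simp only [map_add, ha, hb]
  | single t r => obtain ⟨n, x⟩ := t; simp [SS.Hom.comp]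

theorem nMap_comp (g : SS.Hom K L) (f : SS.Hom J K) (c : N R J) :
    N.map R (g.comp f) c = N.map R g (N.map R f c) := by
  obtain ⟨c, rfl⟩ := Submodule.Quotient.mk_surjective _ c
  rw [N.map_mk, N.map_mk, N.map_mk, chMap_comp]

theorem nMap_id (c : N R K) : N.map R (SS.Hom.id K) c = c := by
  obtain ⟨c, rfl⟩ := Submodule.Quotient.mk_surjective _ c
  rw [N.map_mk]
  congr 1
  induction c using Finsupp.induction_linear with
  | zero => simp
  | add a b ha hb => simp only [map_add, ha, hb]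
  | single t r => obtain ⟨n, x⟩ := t; simp [SS.Hom.id]

@[simp] theorem hMap_mk (f : SS.Hom K L) (z : N R K) (hz : N.bd R K z = 0) :
    H.map R f (Hd.mk _ z hz) = Hd.mk _ (N.map R f z) (by
      have := LinearMap.congr_fun (N.map_bd (R := R) f) z
      simp only [LinearMap.comp_apply] at this
      rw [← this, hz, map_zero]) := rfl

theorem hMap_comp (g : SS.Hom K L) (f : SS.Hom J K) (x : H R J) :
    H.map R (g.comp f) x = H.map R g (H.map R f x) := by
  obtain ⟨z, hz, rfl⟩ := Hd.mk_surj _ x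
  simp only [hMap_mk, nMap_comp]

theorem hMap_id (x : H R K) : H.map R (SS.Hom.id K) x = x := by
  obtain ⟨z, hz, rfl⟩ := Hd.mk_surj _ x
  simp only [hMap_mk, nMap_id]

theorem nMap_mem_gr (f : SS.Hom K L) {n : ℕ} {x : N R K} (hx : x ∈ N.gr R K n) :
    N.map R f x ∈ N.gr R L n := by
  obtain ⟨c, hc, rfl⟩ := hx
  refine ⟨Ch.map R f c, ?_, rfl⟩
  refine Submodule.span_induction (p := fun c _ => Ch.map R f c ∈ Ch.gr R L n) ?_ ?_ ?_ ?_ hc
  · rintro _ ⟨x, rfl⟩
    rw [Ch.map_single]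
    exact Submodule.subset_span ⟨_, rfl⟩
  · simp
  · intro a b _ _ ha hb; rw [map_add]; exact Submodule.add_mem _ ha hb
  · intro r a _ ha; rw [map_smul]; exact Submodule.smul_mem _ _ ha

theorem hMap_mem_gr (f : SS.Hom K L) {n : ℕ} {x : H R K} (hx : x ∈ H.gr R K n) :
    H.map R f x ∈ H.gr R L n := by
  obtain ⟨⟨z, hz⟩, hz', rfl⟩ := hx
  exact ⟨⟨N.map R f z, (by
      have := LinearMap.congr_fun (N.map_bd (R := R) f) z
      simp only [LinearMap.comp_apply] at this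
      rw [LinearMap.mem_ker] at hz ⊢
      rw [← this, hz, map_zero])⟩, nMap_mem_gr f hz', rfl⟩

theorem mk_mem_gr {n : ℕ} {z : N R K} (hz : N.bd R K z = 0) (h : z ∈ N.gr R K n) :
    Hd.mk _ z hz ∈ H.gr R K n := ⟨⟨z, hz⟩, h, rfl⟩

theorem mem_gr_iff {n : ℕ} {x : H R K} :
    x ∈ H.gr R K n ↔ ∃ z hz, z ∈ N.gr R K n ∧ x = Hd.mk (N.bd R K) z hz := by
  constructor
  · rintro ⟨⟨z, hz⟩, hz', rfl⟩
    exact ⟨z, hz, hz', rfl⟩
  · rintro ⟨z, hz, h, rfl⟩
    exact mk_mem_gr hz h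

end functor

/-- reassociation -/
def asc (K L J : SS) : SS.Hom ((K.prod L).prod J) (K.prod (L.prod J)) :=
  ⟨fun _ x => (x.1.1, x.1.2, x.2), fun _ _ => rfl⟩

/-- inverse reassociation -/
def cas (K L J : SS) : SS.Hom (K.prod (L.prod J)) ((K.prod L).prod J) :=
  ⟨fun _ x => ((x.1, x.2.1), x.2.2), fun _ _ => rfl⟩

/-- middle four interchange -/
def mid (K L K' L' : SS) : SS.Hom ((K.prod L).prod (K'.prod L')) ((K.prod K').prod (L.prod L')) :=
  ⟨fun _ x => ((x.1.1, x.2.1), (x.1.2, x.2.2)), fun _ _ => rfl⟩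

/-- the point class on chains -/
noncomputable abbrev pt0 : N F2 SS.pt := N.sx F2 (K := SS.pt) (n := 0) ()

/-- **Output of A1** (helper271): the mod 2 Eilenberg-Zilber map on normalised chains. -/
structure EZData where
  /-- shuffle map -/
  ez : ∀ (K L : SS), N F2 K →ₗ[F2] N F2 L →ₗ[F2] N F2 (K.prod L)
  bd : ∀ (K L : SS) (x : N F2 K) (y : N F2 L),
    N.bd F2 (K.prod L) (ez K L x y) = ez K L (N.bd F2 K x) y + ez K L x (N.bd F2 L y)
  nat : ∀ {K L K' L' : SS} (f : SS.Hom K K') (g : SS.Hom L L') (x : N F2 K) (y : N F2 L),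
    N.map F2 (SS.prodMap f g) (ez K L x y) = ez K' L' (N.map F2 f x) (N.map F2 g y)
  assoc : ∀ (K L J : SS) (x : N F2 K) (y : N F2 L) (z : N F2 J),
    N.map F2 (asc K L J) (ez (K.prod L) J (ez K L x y) z) = ez K (L.prod J) x (ez L J y z)
  swap : ∀ (K L : SS) (x : N F2 K) (y : N F2 L), N.map F2 (SS.swap K L) (ez K L x y) = ez L K y x
  unit : ∀ (K : SS) (x : N F2 K), N.map F2 (SS.fst K SS.pt) (ez K SS.pt x pt0) = x
  gr : ∀ (K L : SS) (m n : ℕ) (x : N F2 K) (y : N F2 L), x ∈ N.gr F2 K m → y ∈ N.gr F2 L n →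
    ez K L x y ∈ N.gr F2 (K.prod L) (m + n)
  bij : ∀ (K L : SS), Function.Bijective
    (Hd.map (TensorProduct.lift (ez K L)) (TensorProduct.ext' fun x y => by
      simp [bd]) : Hd (tD (N.bd F2 K) (N.bd F2 L)) → H F2 (K.prod L))

namespace EZData

variable (E : EZData) {K L J K' L' : SS}

theorem ez_cyc {x : N F2 K} {y : N F2 L} (hx : N.bd F2 K x = 0) (hy : N.bd F2 L y = 0) :
    N.bd F2 (K.prod L) (E.ez K L x y) = 0 := by simp [E.bd, hx, hy]

theorem mid' (K' L' : SS) (x : N F2 K) (y : N F2 L) (x' : N F2 K') (y' : N F2 L') :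
    N.map F2 (mid K L K' L') (E.ez _ _ (E.ez K L x y) (E.ez K' L' x' y')) =
      E.ez _ _ (E.ez K K' x x') (E.ez L L' y y') := by
  -- (K L)(K' L') → K (L (K' L')) → K ((L K') L') → K ((K' L) L') → K (K' (L L')) → (K K')(L L')
  have e : mid K L K' L' =
      (cas K K' (L.prod L')).comp ((SS.prodMap (SS.Hom.id K) (asc K' L L')).comp
        ((SS.prodMap (SS.Hom.id K) (SS.prodMap (SS.swap L K') (SS.Hom.id L'))).comp
          ((SS.prodMap (SS.Hom.id K) (cas L K' L')).comp (asc K L (K'.prod L'))))) := rfl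
  have hc : ∀ (A B C : SS) (a : N F2 A) (b : N F2 B) (c : N F2 C),
      N.map F2 (cas A B C) (E.ez A (B.prod C) a (E.ez B C b c)) =
        E.ez (A.prod B) C (E.ez A B a b) c := fun A B C a b c => by
    rw [← E.assoc, ← nMap_comp]
    exact nMap_id _
  rw [e, nMap_comp, nMap_comp, nMap_comp, nMap_comp]
  simp only [E.assoc, E.nat, nMap_id, hc, E.swap]

/-- **cross product** (Kuenneth isomorphism) -/
noncomputable def cr (K L : SS) : (H F2 K ⊗[F2] H F2 L) ≃ₗ[F2] H F2 (K.prod L) :=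
  (kun (N.bd F2 K) (N.bd F2 L) N.bd_bd N.bd_bd).trans (LinearEquiv.ofBijective _ (E.bij K L))

@[simp] theorem cr_mk (z : N F2 K) (hz : N.bd F2 K z = 0) (z' : N F2 L) (hz' : N.bd F2 L z' = 0) :
    E.cr K L (Hd.mk _ z hz ⊗ₜ Hd.mk _ z' hz') = Hd.mk _ (E.ez K L z z') (E.ez_cyc hz hz') := by
  simp only [cr, LinearEquiv.trans_apply, kun_mk, LinearEquiv.ofBijective_apply, Hd.map_mk,
    TensorProduct.lift.tmul]

/-- induction principle for classes -/
theorem cr_nat (f : SS.Hom K K') (g : SS.Hom L L') (x : H F2 K) (y : H F2 L) :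
    H.map F2 (SS.prodMap f g) (E.cr K L (x ⊗ₜ y)) =
      E.cr K' L' (H.map F2 f x ⊗ₜ H.map F2 g y) := by
  obtain ⟨z, hz, rfl⟩ := Hd.mk_surj _ x
  obtain ⟨w, hw, rfl⟩ := Hd.mk_surj _ y
  simp only [hMap_mk, cr_mk, E.nat]

theorem cr_nat' (f : SS.Hom K K') (g : SS.Hom L L') (t : H F2 K ⊗[F2] H F2 L) :
    H.map F2 (SS.prodMap f g) (E.cr K L t) =
      E.cr K' L' (TensorProduct.map (H.map F2 f) (H.map F2 g) t) := by
  induction t with
  | zero => simp
  | add a b ha hb => simp only [map_add, ha, hb]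
  | tmul a b => rw [cr_nat, TensorProduct.map_tmul]

theorem cr_assoc (x : H F2 K) (y : H F2 L) (z : H F2 J) :
    H.map F2 (asc K L J) (E.cr _ _ (E.cr K L (x ⊗ₜ y) ⊗ₜ z)) =
      E.cr _ _ (x ⊗ₜ E.cr L J (y ⊗ₜ z)) := by
  obtain ⟨x, hx, rfl⟩ := Hd.mk_surj _ x
  obtain ⟨y, hy, rfl⟩ := Hd.mk_surj _ y
  obtain ⟨z, hz, rfl⟩ := Hd.mk_surj _ z
  simp only [hMap_mk, cr_mk, E.assoc]

theorem cr_swap (x : H F2 K) (y : H F2 L) :
    H.map F2 (SS.swap K L) (E.cr K L (x ⊗ₜ y)) = E.cr L K (y ⊗ₜ x) := by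
  obtain ⟨x, hx, rfl⟩ := Hd.mk_surj _ x
  obtain ⟨y, hy, rfl⟩ := Hd.mk_surj _ y
  simp only [hMap_mk, cr_mk, E.swap]


theorem cr_mid (x : H F2 K) (y : H F2 L) (x' : H F2 K') (y' : H F2 L') :
    H.map F2 (mid K L K' L') (E.cr _ _ (E.cr K L (x ⊗ₜ y) ⊗ₜ E.cr K' L' (x' ⊗ₜ y'))) =
      E.cr _ _ (E.cr K K' (x ⊗ₜ x') ⊗ₜ E.cr L L' (y ⊗ₜ y')) := by
  obtain ⟨x, hx, rfl⟩ := Hd.mk_surj _ x
  obtain ⟨y, hy, rfl⟩ := Hd.mk_surj _ y
  obtain ⟨x', hx', rfl⟩ := Hd.mk_surj _ x'
  obtain ⟨y', hy', rfl⟩ := Hd.mk_surj _ y'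
  simp only [hMap_mk, cr_mk, E.mid']

end EZData

/-! ## the point -/

theorem bd_vertex {R : Type} [CommRing R] {K : SS} (v : K.S 0) : N.bd R K (N.sx R v) = 0 := by
  rw [N.sx, N.bd_mk, Ch.bd_single_zero]; rfl

/-- class of a vertex -/
noncomputable def vtx {K : SS} (v : K.S 0) : H F2 K := Hd.mk _ (N.sx F2 v) (bd_vertex v)

theorem hMap_vtx {K L : SS} (f : SS.Hom K L) (v : K.S 0) :
    H.map F2 f (vtx v) = vtx (f.app 0 v) := by
  simp only [vtx, hMap_mk, N.map_sx]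

theorem vtx_mem_gr {K : SS} (v : K.S 0) : vtx v ∈ H.gr F2 K 0 :=
  mk_mem_gr _ ⟨single ⟨0, v⟩ 1, Submodule.subset_span ⟨v, rfl⟩, rfl⟩

/-- point class -/
noncomputable abbrev hpt : H F2 SS.pt := vtx (K := SS.pt) ()

theorem ch_pt (c : Ch F2 SS.pt) : ∃ r : F2, c - single ⟨0, ()⟩ r ∈ Ch.Dg F2 SS.pt := by
  induction c using Finsupp.induction_linear with
  | zero => exact ⟨0, by simp⟩
  | add a b ha hb =>
    obtain ⟨r, hr⟩ := ha
    obtain ⟨s, hs⟩ := hb
    refine ⟨r + s, ?_⟩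
    have : a + b - single ⟨0, ()⟩ (r + s) = (a - single ⟨0, ()⟩ r) + (b - single ⟨0, ()⟩ s) := by
      rw [Finsupp.single_add]; abel
    rw [this]
    exact Submodule.add_mem _ hr hs
  | single t r =>
    obtain ⟨n, x⟩ := t
    rcases n with _ | n
    · refine ⟨r, ?_⟩
      show (single (⟨0, x⟩ : SS.pt.T) r - single (⟨0, x⟩ : SS.pt.T) r : Ch F2 SS.pt) ∈ _
      rw [sub_self]
      exact Submodule.zero_mem _
    · refine ⟨0, ?_⟩
      rw [Finsupp.single_zero, sub_zero]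
      have : (single (⟨n + 1, x⟩ : SS.pt.T) r : Ch F2 SS.pt) = r • single ⟨n + 1, x⟩ 1 := by simp
      rw [this]
      exact Submodule.smul_mem _ _ (Submodule.subset_span
        ⟨⟨n + 1, x⟩, (show Ch.IsDgn SS.pt ⟨n + 1, x⟩ from ⟨0, (), rfl⟩), rfl⟩)

theorem n_pt (c : N F2 SS.pt) : ∃ r : F2, c = r • pt0 := by
  obtain ⟨c, rfl⟩ := Submodule.Quotient.mk_surjective _ c
  obtain ⟨r, hr⟩ := ch_pt c
  refine ⟨r, ?_⟩
  have h : (r • pt0 : N F2 SS.pt) = Submodule.Quotient.mk (single ⟨0, ()⟩ r) := by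
    rw [pt0, N.sx, ← Submodule.Quotient.mk_smul]; simp
  rw [h]
  exact (Submodule.Quotient.eq _).2 hr

theorem h_pt (x : H F2 SS.pt) : ∃ r : F2, x = r • hpt := by
  obtain ⟨z, hz, rfl⟩ := Hd.mk_surj _ x
  obtain ⟨r, rfl⟩ := n_pt z
  exact ⟨r, rfl⟩

/-! ## augmentation -/

/-- augmentation on chains: sum of the coefficients of the vertices -/
noncomputable def chAug (K : SS) : Ch F2 K →ₗ[F2] F2 :=
  Finsupp.linearCombination F2 (fun t : K.T => if t.1 = 0 then (1 : F2) else 0)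

theorem chAug_single {K : SS} (n : ℕ) (x : K.S n) (r : F2) :
    chAug K (single ⟨n, x⟩ r) = if n = 0 then r else 0 := by
  simp [chAug]

theorem chAug_Dg {K : SS} {c : Ch F2 K} (hc : c ∈ Ch.Dg F2 K) : chAug K c = 0 := by
  refine Submodule.span_induction (p := fun c _ => chAug K c = 0) ?_ ?_ ?_ ?_ hc
  · rintro _ ⟨⟨n, x⟩, hx, rfl⟩
    rcases n with _ | n
    · exact hx.elim
    · rw [chAug_single]; simp
  · simp
  · intro a b _ _ ha hb; rw [map_add, ha, hb, add_zero]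
  · intro r a _ ha; rw [map_smul, ha, smul_zero]

theorem chAug_bd {K : SS} (c : Ch F2 K) : chAug K (Ch.bd F2 K c) = 0 := by
  induction c using Finsupp.induction_linear with
  | zero => simp
  | add a b ha hb => rw [map_add, map_add, ha, hb, add_zero]
  | single t r =>
    obtain ⟨n, x⟩ := t
    rcases n with _ | n
    · simp
    · rw [Ch.bd_single_succ, map_sum]
      simp only [chAug_single]
      rcases n with _ | n
      · simp only [Nat.reduceAdd, if_true]
        rw [Fin.sum_univ_two]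
        simp only [Fin.val_zero, Fin.val_one, pow_zero, pow_one, mul_one, mul_neg]
        rw [add_neg_cancel]
      · simp

/-- augmentation on normalised chains -/
noncomputable def nAug (K : SS) : N F2 K →ₗ[F2] F2 :=
  Submodule.liftQ _ (chAug K) (fun _ hc => chAug_Dg hc)

theorem nAug_bd {K : SS} (c : N F2 K) : nAug K (N.bd F2 K c) = 0 := by
  obtain ⟨c, rfl⟩ := Submodule.Quotient.mk_surjective _ c
  exact chAug_bd c

/-- **augmentation (counit)** -/
noncomputable def eps (K : SS) : H F2 K →ₗ[F2] F2 :=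
  Submodule.liftQ _ (nAug K ∘ₗ (LinearMap.ker (N.bd F2 K)).subtype) (by
    rintro ⟨x, hx⟩ hx'
    simp only [Submodule.mem_comap, Submodule.subtype_apply, LinearMap.mem_range] at hx'
    obtain ⟨y, rfl⟩ := hx'
    exact nAug_bd y)

theorem eps_mk {K : SS} (z : N F2 K) (hz : N.bd F2 K z = 0) : eps K (Hd.mk _ z hz) = nAug K z := rfl

theorem nAug_sx_zero {K : SS} (v : K.S 0) : nAug K (N.sx F2 v) = 1 := by
  show chAug K (single ⟨0, v⟩ 1) = 1
  rw [chAug_single]; simp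

@[simp] theorem eps_vtx {K : SS} (v : K.S 0) : eps K (vtx v) = 1 := nAug_sx_zero v

theorem nAug_gr {K : SS} {n : ℕ} (hn : n ≠ 0) {x : N F2 K} (hx : x ∈ N.gr F2 K n) :
    nAug K x = 0 := by
  obtain ⟨c, hc, rfl⟩ := hx
  refine Submodule.span_induction (p := fun c _ => nAug K (Submodule.mkQ _ c) = 0) ?_ ?_ ?_ ?_ hc
  · rintro _ ⟨x, rfl⟩
    show chAug K (single ⟨n, x⟩ 1) = 0
    rw [chAug_single, if_neg hn]
  · simp
  · intro a b _ _ ha hb; rw [map_add, map_add, ha, hb, add_zero]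
  · intro r a _ ha; rw [map_smul, map_smul, ha, smul_zero]

theorem eps_gr {K : SS} {n : ℕ} (hn : n ≠ 0) {x : H F2 K} (hx : x ∈ H.gr F2 K n) :
    eps K x = 0 := by
  obtain ⟨z, hz, hg, rfl⟩ := mem_gr_iff.1 hx
  rw [eps_mk, nAug_gr hn hg]

theorem nAug_map {K L : SS} (f : SS.Hom K L) (x : N F2 K) : nAug L (N.map F2 f x) = nAug K x := by
  obtain ⟨c, rfl⟩ := Submodule.Quotient.mk_surjective _ x
  show chAug L (Ch.map F2 f c) = chAug K c
  induction c using Finsupp.induction_linear with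
  | zero => simp
  | add a b ha hb => simp only [map_add, ha, hb]
  | single t r => obtain ⟨n, x⟩ := t; rw [Ch.map_single, chAug_single, chAug_single]

theorem eps_map {K L : SS} (f : SS.Hom K L) (x : H F2 K) : eps L (H.map F2 f x) = eps K x := by
  obtain ⟨z, hz, rfl⟩ := Hd.mk_surj _ x
  rw [hMap_mk, eps_mk, eps_mk, nAug_map]

theorem h_pt_eps (x : H F2 SS.pt) : x = eps _ x • hpt := by
  obtain ⟨r, rfl⟩ := h_pt x
  rw [map_smul, eps_vtx, smul_eq_mul, mul_one]

theorem map_toPt {K : SS} (x : H F2 K) : H.map F2 (SS.toPt K) x = eps K x • hpt := by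
  rw [h_pt_eps (H.map F2 (SS.toPt K) x), eps_map]

/-! ## projections and the coproduct -/

namespace EZData

variable (E : EZData) {K L J K' L' : SS}

theorem cr_unit (x : H F2 K) : H.map F2 (SS.fst K SS.pt) (E.cr K SS.pt (x ⊗ₜ hpt)) = x := by
  obtain ⟨z, hz, rfl⟩ := Hd.mk_surj _ x
  simp only [vtx, cr_mk, hMap_mk, E.unit]

/-- first projection of a cross product -/
theorem fst_cr (x : H F2 K) (y : H F2 L) :
    H.map F2 (SS.fst K L) (E.cr K L (x ⊗ₜ y)) = eps L y • x := by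
  have e : SS.fst K L = (SS.fst K SS.pt).comp (SS.prodMap (SS.Hom.id K) (SS.toPt L)) := rfl
  rw [e, hMap_comp, cr_nat, hMap_id, map_toPt, TensorProduct.tmul_smul, map_smul, map_smul, cr_unit]

/-- second projection of a cross product -/
theorem snd_cr (x : H F2 K) (y : H F2 L) :
    H.map F2 (SS.snd K L) (E.cr K L (x ⊗ₜ y)) = eps K x • y := by
  have e : SS.snd K L = (SS.fst L K).comp (SS.swap K L) := rfl
  rw [e, hMap_comp, cr_swap, fst_cr]

theorem eps_cr (x : H F2 K) (y : H F2 L) :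
    eps (K.prod L) (E.cr K L (x ⊗ₜ y)) = eps K x * eps L y := by
  rw [← eps_map (SS.fst K L), fst_cr, map_smul, smul_eq_mul, mul_comm]

/-- crossing with the point -/
theorem cr_hpt (x : H F2 K) :
    E.cr K SS.pt (x ⊗ₜ hpt) = H.map F2 (SS.pair (SS.Hom.id K) (SS.toPt K)) x := by
  conv_rhs => rw [← E.cr_unit x]
  rw [← hMap_comp]
  exact (hMap_id _).symm

/-- crossing with a vertex -/
theorem cr_vtx_right (x : H F2 K) (w : L.S 0) :
    E.cr K L (x ⊗ₜ vtx w) = H.map F2 (SS.pair (SS.Hom.id K) (SS.constHom K L w)) x := by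
  have h : vtx w = H.map F2 (SS.constHom SS.pt L w) hpt := by
    rw [hMap_vtx]
    congr 1
    show w = L.act _ w
    have : (⟨fun _ => 0, fun _ _ _ => le_rfl⟩ : Op 0 0) = OrderHom.id := by
      ext a; simp
    rw [this, L.act_id]
  have e : SS.pair (SS.Hom.id K) (SS.constHom K L w) =
      (SS.prodMap (SS.Hom.id K) (SS.constHom SS.pt L w)).comp
        (SS.pair (SS.Hom.id K) (SS.toPt K)) := rfl
  rw [e, hMap_comp, ← E.cr_hpt, cr_nat, hMap_id, ← h]

theorem cr_vtx_left (v : K.S 0) (y : H F2 L) :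
    E.cr K L (vtx v ⊗ₜ y) = H.map F2 (SS.pair (SS.constHom L K v) (SS.Hom.id L)) y := by
  have e : SS.pair (SS.constHom L K v) (SS.Hom.id L) =
      (SS.swap L K).comp (SS.pair (SS.Hom.id L) (SS.constHom L K v)) := rfl
  rw [e, hMap_comp, ← E.cr_vtx_right, cr_swap]

theorem cr_vtx (v : K.S 0) (w : L.S 0) :
    E.cr K L (vtx v ⊗ₜ vtx w) = vtx (K := K.prod L) (v, w) := by
  rw [cr_vtx_right, hMap_vtx]
  congr 1
  refine Prod.ext rfl ?_
  show L.act _ w = w
  have : (⟨fun _ => 0, fun _ _ _ => le_rfl⟩ : Op 0 0) = OrderHom.id := by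
    ext a; simp
  rw [this, L.act_id]

theorem cr_mem_gr {m n : ℕ} {x : H F2 K} {y : H F2 L} (hx : x ∈ H.gr F2 K m)
    (hy : y ∈ H.gr F2 L n) : E.cr K L (x ⊗ₜ y) ∈ H.gr F2 (K.prod L) (m + n) := by
  obtain ⟨z, hz, hg, rfl⟩ := mem_gr_iff.1 hx
  obtain ⟨w, hw, hg', rfl⟩ := mem_gr_iff.1 hy
  rw [cr_mk]
  exact mk_mem_gr _ (E.gr _ _ _ _ _ _ hg hg')

/-- **coproduct** -/
noncomputable def cop (K : SS) : H F2 K →ₗ[F2] H F2 K ⊗[F2] H F2 K :=
  (E.cr K K).symm.toLinearMap ∘ₗ H.map F2 (SS.diag K)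

theorem cr_cop (x : H F2 K) : E.cr K K (E.cop K x) = H.map F2 (SS.diag K) x := by
  simp [cop]

theorem cop_nat (f : SS.Hom K L) (x : H F2 K) :
    E.cop L (H.map F2 f x) = TensorProduct.map (H.map F2 f) (H.map F2 f) (E.cop K x) := by
  apply (E.cr L L).injective
  rw [cr_cop, ← cr_nat', cr_cop, ← hMap_comp, ← hMap_comp]
  rfl



/-- counit law (left) -/
theorem eps_cop (x : H F2 K) :
    TensorProduct.lid F2 _ (TensorProduct.map (eps K) LinearMap.id (E.cop K x)) = x := by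
  have h : ∀ t : H F2 K ⊗[F2] H F2 K,
      TensorProduct.lid F2 _ (TensorProduct.map (eps K) LinearMap.id t) =
        H.map F2 (SS.snd K K) (E.cr K K t) := by
    intro t
    induction t with
    | zero => simp
    | add a b ha hb => simp only [map_add, ha, hb]
    | tmul a b => rw [snd_cr, TensorProduct.map_tmul, TensorProduct.lid_tmul, LinearMap.id_apply]
  rw [h, cr_cop, ← hMap_comp]
  exact hMap_id x

/-- counit law (right) -/
theorem cop_eps (x : H F2 K) :
    TensorProduct.rid F2 _ (TensorProduct.map LinearMap.id (eps K) (E.cop K x)) = x := by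
  have h : ∀ t : H F2 K ⊗[F2] H F2 K,
      TensorProduct.rid F2 _ (TensorProduct.map LinearMap.id (eps K) t) =
        H.map F2 (SS.fst K K) (E.cr K K t) := by
    intro t
    induction t with
    | zero => simp
    | add a b ha hb => simp only [map_add, ha, hb]
    | tmul a b => rw [fst_cr, TensorProduct.map_tmul, TensorProduct.rid_tmul, LinearMap.id_apply]
  rw [h, cr_cop, ← hMap_comp]
  exact hMap_id x

/-- coproduct of a vertex -/
theorem cop_vtx (v : K.S 0) : E.cop K (vtx v) = vtx v ⊗ₜ vtx v := by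
  apply (E.cr K K).injective
  rw [cr_cop, cr_vtx, hMap_vtx]
  rfl

/-- coproduct of a cross product -/
theorem cop_cr (x : H F2 K) (y : H F2 L) :
    E.cop (K.prod L) (E.cr K L (x ⊗ₜ y)) =
      TensorProduct.map (E.cr K L).toLinearMap (E.cr K L).toLinearMap
        (TensorProduct.tensorTensorTensorComm F2 _ _ _ _ (E.cop K x ⊗ₜ E.cop L y)) := by
  have h : ∀ (s : H F2 K ⊗[F2] H F2 K) (t : H F2 L ⊗[F2] H F2 L),
      E.cr (K.prod L) (K.prod L) (TensorProduct.map (E.cr K L).toLinearMap (E.cr K L).toLinearMap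
        (TensorProduct.tensorTensorTensorComm F2 _ _ _ _ (s ⊗ₜ t))) =
      H.map F2 (mid K K L L) (E.cr _ _ (E.cr K K s ⊗ₜ E.cr L L t)) := by
    intro s t
    induction s with
    | zero => simp
    | add a b ha hb => simp only [map_add, TensorProduct.add_tmul, ha, hb]
    | tmul a b =>
      induction t with
      | zero => simp
      | add c d hc hd => simp only [map_add, TensorProduct.tmul_add, hc, hd]
      | tmul c d =>
        rw [TensorProduct.tensorTensorTensorComm_tmul, TensorProduct.map_tmul, cr_mid]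
        rfl
  apply (E.cr (K.prod L) (K.prod L)).injective
  rw [h, cr_cop, cr_cop, cr_cop, ← cr_nat, ← hMap_comp]
  rfl

end EZData

end Crest.Agent.R204.Coalg847
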