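import Crest.Agent.R204.Coalg_847

/-!
# Row 204, A4p (helper450): the Pontryagin Hopf algebra

`HMon K` : an H-monoid structure on the simplicial set `K` (product `mu`, unit vertex `e`; all laws
are equalities of the induced maps on `H F2`).

* `M.mulL E : H F2 K →ₗ H F2 K →ₗ H F2 K` : the product as a bilinear map, unit `vtx M.e`;
* `M.ring E : CommRing (H F2 K)`, `M.alg E : Algebra F2 (H F2 K)` (reducible definitions, underlying
  module = the given one; use `letI := M.ring E; letI := M.alg E`);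
* `M.copA E : H F2 K →ₐ H F2 K ⊗ H F2 K` (underlying linear map `E.cop K`), `M.epsA E : H F2 K →ₐ F2`.
-/

set_option autoImplicit false
set_option linter.style.haveILetI false

namespace Crest.Agent.R204.Hopf450

open TensorProduct Coalg847

/-- H-monoid up to homology -/
structure HMon (K : SS) where
  mu : SS.Hom (K.prod K) K
  e : K.S 0
  unit_left : H.map F2 (mu.comp (SS.pair (SS.constHom K K e) (SS.Hom.id K))) = LinearMap.id
  unit_right : H.map F2 (mu.comp (SS.pair (SS.Hom.id K) (SS.constHom K K e))) = LinearMap.id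
  assoc : H.map F2 (mu.comp (SS.prodMap mu (SS.Hom.id K))) =
    H.map F2 ((mu.comp (SS.prodMap (SS.Hom.id K) mu)).comp (asc K K K))
  comm : H.map F2 (mu.comp (SS.swap K K)) = H.map F2 mu

namespace HMon

variable {K L : SS} (M : HMon K) (E : EZData)

/-- Pontryagin product as a bilinear map on `H F2 K` -/
noncomputable def mulL : H F2 K →ₗ[F2] H F2 K →ₗ[F2] H F2 K :=
  (TensorProduct.mk F2 (H F2 K) (H F2 K)).compr₂ (H.map F2 M.mu ∘ₗ (E.cr K K).toLinearMap)

theorem mulL_apply (x y : H F2 K) : M.mulL E x y = H.map F2 M.mu (E.cr K K (x ⊗ₜ y)) := rfl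

theorem mulL_assoc (x y z : H F2 K) : M.mulL E (M.mulL E x y) z = M.mulL E x (M.mulL E y z) := by
  have h1 : E.cr K K (H.map F2 M.mu (E.cr K K (x ⊗ₜ y)) ⊗ₜ z) =
      H.map F2 (SS.prodMap M.mu (SS.Hom.id K)) (E.cr _ _ (E.cr K K (x ⊗ₜ y) ⊗ₜ z)) := by
    rw [E.cr_nat, hMap_id]
  have h2 : E.cr K K (x ⊗ₜ H.map F2 M.mu (E.cr K K (y ⊗ₜ z))) =
      H.map F2 (SS.prodMap (SS.Hom.id K) M.mu) (E.cr _ _ (x ⊗ₜ E.cr K K (y ⊗ₜ z))) := by
    rw [E.cr_nat, hMap_id]
  rw [mulL_apply, mulL_apply, mulL_apply, mulL_apply, h1, h2, ← hMap_comp, M.assoc, ← E.cr_assoc,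
    hMap_comp, hMap_comp]

theorem mulL_comm (x y : H F2 K) : M.mulL E x y = M.mulL E y x := by
  rw [mulL_apply, mulL_apply, ← E.cr_swap x y, ← hMap_comp, M.comm]

theorem vtx_mulL (x : H F2 K) : M.mulL E (vtx M.e) x = x := by
  rw [mulL_apply, E.cr_vtx_left, ← hMap_comp, M.unit_left]; rfl

theorem mulL_vtx (x : H F2 K) : M.mulL E x (vtx M.e) = x := by
  rw [mulL_apply, E.cr_vtx_right, ← hMap_comp, M.unit_right]; rfl

theorem mulL_mem_gr {s t : ℕ} {a b : H F2 K} (ha : a ∈ H.gr F2 K s) (hb : b ∈ H.gr F2 K t) :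
    M.mulL E a b ∈ H.gr F2 K (s + t) := hMap_mem_gr M.mu (E.cr_mem_gr ha hb)

theorem eps_mulL (x y : H F2 K) : eps K (M.mulL E x y) = eps K x * eps K y := by
  rw [mulL_apply, eps_map, E.eps_cr]

/-- product of two vertices -/
theorem mulL_vtx_vtx (v w : K.S 0) : M.mulL E (vtx v) (vtx w) = vtx (M.mu.app 0 (v, w)) := by
  rw [mulL_apply, E.cr_vtx, hMap_vtx]

/-- **Pontryagin ring** -/
@[reducible] noncomputable def ring : CommRing (H F2 K) :=
  { (inferInstance : AddCommGroup (H F2 K)) with
    mul := fun x y => M.mulL E x y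
    one := vtx M.e
    left_distrib := fun x y z => map_add (M.mulL E x) y z
    right_distrib := fun x y z => LinearMap.congr_fun (map_add (M.mulL E) x y) z
    zero_mul := fun x => LinearMap.congr_fun (map_zero (M.mulL E)) x
    mul_zero := fun x => map_zero (M.mulL E x)
    mul_assoc := fun x y z => M.mulL_assoc E x y z
    one_mul := fun x => M.vtx_mulL E x
    mul_one := fun x => M.mulL_vtx E x
    mul_comm := fun x y => M.mulL_comm E x y }

/-- **Pontryagin algebra** -/
@[reducible] noncomputable def alg :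
    @Algebra F2 (H F2 K) _ (M.ring E).toCommSemiring.toSemiring :=
  letI := M.ring E
  Algebra.ofModule (R := F2) (A := H F2 K)
    (fun r x y => LinearMap.congr_fun (map_smul (M.mulL E) r x) y)
    (fun r x y => map_smul (M.mulL E x) r y)

section




end

/-- augmentation -/
noncomputable def epsA : letI := M.ring E; letI := M.alg E; H F2 K →ₐ[F2] F2 :=
  letI := M.ring E; letI := M.alg E
  AlgHom.ofLinearMap (eps K) (eps_vtx M.e) (fun x y => M.eps_mulL E x y)


/-- product on the tensor square, instance free -/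
noncomputable def mulT : (H F2 K ⊗[F2] H F2 K) →ₗ[F2] (H F2 K ⊗[F2] H F2 K) →ₗ[F2]
    (H F2 K ⊗[F2] H F2 K) :=
  TensorProduct.lift
    ((TensorProduct.mapBilinear (RingHom.id F2) (H F2 K) (H F2 K) (H F2 K) (H F2 K)).compl₁₂
      (M.mulL E) (M.mulL E))

@[simp] theorem mulT_tmul (a b c d : H F2 K) :
    M.mulT E (a ⊗ₜ b) (c ⊗ₜ d) = M.mulL E a c ⊗ₜ M.mulL E b d := rfl

/-- **the bialgebra law** -/
theorem cop_mulL (x y : H F2 K) : E.cop K (M.mulL E x y) = M.mulT E (E.cop K x) (E.cop K y) := by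
  rw [mulL_apply, E.cop_nat, E.cop_cr, ← LinearMap.comp_apply, ← TensorProduct.map_comp]
  generalize E.cop K x = s
  generalize E.cop K y = t
  induction s with
  | zero => simp
  | add a b ha hb => rw [TensorProduct.add_tmul, map_add, map_add, map_add, LinearMap.add_apply, ha, hb]
  | tmul a b =>
    induction t with
    | zero => simp
    | add c d hc hd => rw [TensorProduct.tmul_add, map_add, map_add, map_add, hc, hd]
    | tmul c d => rfl

theorem mulT_eq (s t : H F2 K ⊗[F2] H F2 K) :
    letI := M.ring E; letI := M.alg E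
    (s * t : H F2 K ⊗[F2] H F2 K) = M.mulT E s t := by
  letI := M.ring E
  letI := M.alg E
  induction s with
  | zero => simp
  | add a b ha hb => rw [add_mul, ha, hb, map_add, LinearMap.add_apply]
  | tmul a b =>
    induction t with
    | zero => simp
    | add c d hc hd => rw [mul_add, hc, hd, map_add]
    | tmul c d =>
      rw [Algebra.TensorProduct.tmul_mul_tmul, mulT_tmul]
      rfl

/-- **coproduct** (algebra homomorphism) -/
noncomputable def copA : letI := M.ring E; letI := M.alg E; H F2 K →ₐ[F2] (H F2 K ⊗[F2] H F2 K) :=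
  letI := M.ring E; letI := M.alg E
  AlgHom.ofLinearMap (E.cop K) (E.cop_vtx M.e) (fun x y => by
    rw [M.mulT_eq E]
    exact M.cop_mulL E x y)


end HMon

end Crest.Agent.R204.Hopf450
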