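import Crest.Agent.R204.EZCone_271

/-!
# Row 204, block A-EZ (helper271): the Eilenberg-Zilber cross product
`cross : N K → N L → N (K × L)` on normalised chains over any commutative ring, natural,
Leibniz rule, cone formula, augmentation, unit.
-/

set_option autoImplicit false

namespace Crest.Agent.R204.EZ271

open Finsupp

/-- the simplicial map of standard simplices given by an operator -/
def stdMap {m n : ℕ} (α : Op m n) : SS.Hom (SS.std m) (SS.std n) :=
  ⟨fun _ g => α.comp g, fun _ _ => rfl⟩

theorem stdMap_comp {l m n : ℕ} (α : Op l m) (β : Op m n) :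
    (stdMap β).comp (stdMap α) = stdMap (β.comp α) := rfl

theorem stdMap_id {m : ℕ} : stdMap (OrderHom.id : Op m m) = SS.Hom.id (SS.std m) := rfl

theorem yo_act {K : SS} {m n : ℕ} (α : Op m n) (x : K.S n) :
    K.yo (K.act α x) = (K.yo x).comp (stdMap α) := by
  refine SS.Hom.ext (funext fun l => funext fun g => ?_)
  exact (K.act_comp g α x).symm

theorem comp_yo {K L : SS} {n : ℕ} (f : SS.Hom K L) (x : K.S n) :
    f.comp (K.yo x) = L.yo (f.app n x) := by
  refine SS.Hom.ext (funext fun l => funext fun g => ?_)
  exact f.nat g x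

theorem yo_iota {K : SS} {n : ℕ} (x : K.S n) : (K.yo x).app n (OrderHom.id : Op n n) = x :=
  K.act_id x


theorem prodMap_comp {K L K' L' K'' L'' : SS} (f : SS.Hom K K') (g : SS.Hom L L')
    (f' : SS.Hom K' K'') (g' : SS.Hom L' L'') :
    (SS.prodMap f' g').comp (SS.prodMap f g) = SS.prodMap (f'.comp f) (g'.comp g) := rfl

theorem prodMap_id {K L : SS} : SS.prodMap (SS.Hom.id K) (SS.Hom.id L) = SS.Hom.id (K.prod L) := rfl

theorem comp_id {K L : SS} (f : SS.Hom K L) : f.comp (SS.Hom.id K) = f := rfl
theorem id_comp {K L : SS} (f : SS.Hom K L) : (SS.Hom.id L).comp f = f := rfl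


/-- cone preserving maps between standard simplices -/
theorem isConeMap_stdMap {m n : ℕ} (α : Op m n) (h : α 0 = 0) :
    IsConeMap (Cone.std m) (Cone.std n) (stdMap α) where
  k x := by
    refine OrderHom.ext _ _ (funext fun a => ?_)
    induction a using Fin.cases with
    | zero => simp [stdMap, Cone.std, h]
    | succ a => simp [stdMap, Cone.std]

theorem isConeMap_id {K : SS} (A : Cone K) : IsConeMap A A (SS.Hom.id K) where
  k _ := rfl

theorem isConeMap_prod {K L K' L' : SS} {A : Cone K} {B : Cone L} {A' : Cone K'} {B' : Cone L'}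
    {f : SS.Hom K K'} {g : SS.Hom L L'} (hf : IsConeMap A A' f) (hg : IsConeMap B B' g) :
    IsConeMap (A.prod B) (A'.prod B') (SS.prodMap f g) where
  k x := Prod.ext (hf.k x.1) (hg.k x.2)

theorem isConeMap_yo_k {K : SS} (A : Cone K) {n : ℕ} (x : K.S n) :
    IsConeMap (Cone.std (n + 1)) A (K.yo (A.k x)) where
  k g := A.h_cons g x

theorem isConeMap_yo_bot {K : SS} (A : Cone K) :
    IsConeMap (Cone.std 0) A (K.yo A.bot) where
  k g := by
    change K.act (Op.cons g) A.bot = A.k (K.act g A.bot)
    rw [A.h_star, A.h_bot, ← K.act_comp]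
    congr 1
    refine OrderHom.ext _ _ (funext fun a => ?_)
    exact Fin.ext (by omega)

section

variable (R : Type) [CommRing R]

/-- cone on the product of two standard simplices -/
abbrev Cpq (p q : ℕ) : Cone ((SS.std p).prod (SS.std q)) := (Cone.std p).prod (Cone.std q)

/-- universal Eilenberg-Zilber (shuffle) chain in `Δ^p × Δ^q` -/
noncomputable def E : (p q : ℕ) → N R ((SS.std p).prod (SS.std q))
  | 0, 0 => N.sx R (Cpq 0 0).bot
  | p + 1, 0 => (Cpq (p + 1) 0).c R
      (N.map R (SS.prodMap (stdMap (Op.face 0)) (SS.Hom.id _)) (E p 0))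
  | 0, q + 1 => (Cpq 0 (q + 1)).c R
      (N.map R (SS.prodMap (SS.Hom.id _) (stdMap (Op.face 0))) (E 0 q))
  | p + 1, q + 1 => (Cpq (p + 1) (q + 1)).c R
      (N.map R (SS.prodMap (stdMap (Op.face 0)) (SS.Hom.id _)) (E p (q + 1)) +
        ((-1 : R) ^ (p + 1)) • N.map R (SS.prodMap (SS.Hom.id _) (stdMap (Op.face 0))) (E (p + 1) q))
  termination_by p q => p + q

theorem E_zero_zero : E R 0 0 = N.sx R (Cpq 0 0).bot := by rw [E]

theorem E_succ_zero (p : ℕ) : E R (p + 1) 0 = (Cpq (p + 1) 0).c R
      (N.map R (SS.prodMap (stdMap (Op.face 0)) (SS.Hom.id _)) (E R p 0)) := by rw [E]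

theorem E_zero_succ (q : ℕ) : E R 0 (q + 1) = (Cpq 0 (q + 1)).c R
      (N.map R (SS.prodMap (SS.Hom.id _) (stdMap (Op.face 0))) (E R 0 q)) := by rw [E]

theorem E_succ_succ (p q : ℕ) : E R (p + 1) (q + 1) = (Cpq (p + 1) (q + 1)).c R
      (N.map R (SS.prodMap (stdMap (Op.face 0)) (SS.Hom.id _)) (E R p (q + 1)) +
        ((-1 : R) ^ (p + 1)) • N.map R (SS.prodMap (SS.Hom.id _) (stdMap (Op.face 0)))
          (E R (p + 1) q)) := by rw [E]

theorem c_E (p q : ℕ) : (Cpq p q).c R (E R p q) = 0 := by
  rcases p with _ | p <;> rcases q with _ | q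
  · rw [E_zero_zero, Cone.c_bot]
  · rw [E_zero_succ, Cone.c_c]
  · rw [E_succ_zero, Cone.c_c]
  · rw [E_succ_succ, Cone.c_c]

theorem dgn_zero_face_zero {n : ℕ} : (Op.dgn (0 : Fin (n + 1))).comp (Op.face 0) = OrderHom.id :=
  Ch.face_dgn_eq _ _ (Or.inl rfl)

theorem dgn_succ_face_zero {n : ℕ} (j : Fin (n + 1)) :
    (Op.dgn j.succ).comp (Op.face 0) = (Op.face 0).comp (Op.dgn j) := by
  refine OrderHom.ext _ _ (funext fun a => Fin.ext ?_)
  simp only [OrderHom.comp_coe, Function.comp_apply, Ch.dgn_val, Ch.face_val, Fin.val_succ,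
    Fin.val_zero]
  split_ifs <;> omega

theorem dgn_apply_zero {n : ℕ} (j : Fin (n + 1)) : Op.dgn j 0 = 0 := by
  ext; simp [Ch.dgn_val]

theorem E_dgn (n : ℕ) : ∀ p q : ℕ, p + q = n →
    (∀ (h : ℕ) (e : p = h + 1) (j : Fin (h + 1)),
      N.map R (SS.prodMap (stdMap (Op.dgn j)) (SS.Hom.id _)) (e ▸ E R p q) = 0) ∧
    (∀ (h : ℕ) (e : q = h + 1) (j : Fin (h + 1)),
      N.map R (SS.prodMap (SS.Hom.id _) (stdMap (Op.dgn j))) (e ▸ E R p q) = 0) := by
  induction n with
  | zero =>
    intro p q hpq
    exact ⟨fun h e => by omega, fun h e => by omega⟩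
  | succ n ih =>
    intro p q hpq
    constructor
    · rintro p rfl j
      dsimp only
      have hc : IsConeMap (Cpq (p + 1) q) (Cpq p q)
          (SS.prodMap (stdMap (Op.dgn j)) (SS.Hom.id (SS.std q))) :=
        isConeMap_prod (isConeMap_stdMap _ (dgn_apply_zero j)) (isConeMap_id _)
      rcases q with _ | q
      · rw [E_succ_zero, hc.c, map_map, prodMap_comp, stdMap_comp, comp_id]
        induction j using Fin.cases with
        | zero => rw [dgn_zero_face_zero, stdMap_id, prodMap_id, map_idHom, c_E]
        | succ j =>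
          rcases p with _ | p
          · exact j.elim0
          rw [dgn_succ_face_zero, ← stdMap_comp]
          have h1 := (ih (p + 1) 0 (by omega)).1 p rfl j
          dsimp only at h1
          rw [show SS.prodMap ((stdMap (Op.face 0)).comp (stdMap (Op.dgn j)))
            (SS.Hom.id (SS.std 0)) = (SS.prodMap (stdMap (Op.face 0)) (SS.Hom.id _)).comp
              (SS.prodMap (stdMap (Op.dgn j)) (SS.Hom.id _)) from rfl, ← map_map, h1, map_zero,
            map_zero]
      · rw [E_succ_succ, hc.c, map_add, map_smul, map_map, map_map, prodMap_comp, prodMap_comp,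
          stdMap_comp, comp_id, comp_id, id_comp]
        have h2 := (ih (p + 1) q (by omega)).1 p rfl j
        dsimp only at h2
        rw [show SS.prodMap (stdMap (Op.dgn j)) (stdMap (Op.face 0)) =
          (SS.prodMap (SS.Hom.id _) (stdMap (Op.face (0 : Fin (q + 2))))).comp
              (SS.prodMap (stdMap (Op.dgn j)) (SS.Hom.id _)) from rfl, ← map_map, h2, map_zero,
          smul_zero, add_zero]
        induction j using Fin.cases with
        | zero => rw [dgn_zero_face_zero, stdMap_id, prodMap_id, map_idHom, c_E]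
        | succ j =>
          rcases p with _ | p
          · exact j.elim0
          rw [dgn_succ_face_zero, ← stdMap_comp]
          have h1 := (ih (p + 1) (q + 1) (by omega)).1 p rfl j
          dsimp only at h1
          rw [show SS.prodMap ((stdMap (Op.face 0)).comp (stdMap (Op.dgn j)))
            (SS.Hom.id (SS.std (q + 1))) = (SS.prodMap (stdMap (Op.face 0)) (SS.Hom.id _)).comp
              (SS.prodMap (stdMap (Op.dgn j)) (SS.Hom.id _)) from rfl, ← map_map, h1, map_zero,
            map_zero]
    · rintro q rfl j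
      dsimp only
      have hc : IsConeMap (Cpq p (q + 1)) (Cpq p q)
          (SS.prodMap (SS.Hom.id (SS.std p)) (stdMap (Op.dgn j))) :=
        isConeMap_prod (isConeMap_id _) (isConeMap_stdMap _ (dgn_apply_zero j))
      rcases p with _ | p
      · rw [E_zero_succ, hc.c, map_map, prodMap_comp, stdMap_comp, comp_id]
        induction j using Fin.cases with
        | zero => rw [dgn_zero_face_zero, stdMap_id, prodMap_id, map_idHom, c_E]
        | succ j =>
          rcases q with _ | q
          · exact j.elim0
          rw [dgn_succ_face_zero, ← stdMap_comp]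
          have h1 := (ih 0 (q + 1) (by omega)).2 q rfl j
          dsimp only at h1
          rw [show SS.prodMap (SS.Hom.id (SS.std 0)) ((stdMap (Op.face 0)).comp (stdMap (Op.dgn j)))
            = (SS.prodMap (SS.Hom.id _) (stdMap (Op.face 0))).comp
              (SS.prodMap (SS.Hom.id _) (stdMap (Op.dgn j))) from rfl, ← map_map, h1, map_zero,
            map_zero]
      · rw [E_succ_succ, hc.c, map_add, map_smul, map_map, map_map, prodMap_comp, prodMap_comp,
          stdMap_comp, comp_id, comp_id, id_comp]
        have h2 := (ih p (q + 1) (by omega)).2 q rfl j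
        dsimp only at h2
        rw [show SS.prodMap (stdMap (Op.face 0)) (stdMap (Op.dgn j)) =
          (SS.prodMap (stdMap (Op.face (0 : Fin (p + 2)))) (SS.Hom.id _)).comp
              (SS.prodMap (SS.Hom.id _) (stdMap (Op.dgn j))) from rfl, ← map_map, h2, map_zero,
          zero_add]
        induction j using Fin.cases with
        | zero => rw [dgn_zero_face_zero, stdMap_id, prodMap_id, map_idHom, map_smul, c_E, smul_zero]
        | succ j =>
          rcases q with _ | q
          · exact j.elim0
          rw [dgn_succ_face_zero, ← stdMap_comp]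
          have h1 := (ih (p + 1) (q + 1) (by omega)).2 q rfl j
          dsimp only at h1
          rw [show SS.prodMap (SS.Hom.id (SS.std (p + 1)))
            ((stdMap (Op.face 0)).comp (stdMap (Op.dgn j)))
            = (SS.prodMap (SS.Hom.id _) (stdMap (Op.face 0))).comp
              (SS.prodMap (SS.Hom.id _) (stdMap (Op.dgn j))) from rfl, ← map_map, h1, map_zero,
            smul_zero, map_zero]

theorem E_dgn_left (p q : ℕ) (j : Fin (p + 1)) :
    N.map R (SS.prodMap (stdMap (Op.dgn j)) (SS.Hom.id _)) (E R (p + 1) q) = 0 :=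
  (E_dgn R (p + 1 + q) (p + 1) q rfl).1 p rfl j

theorem E_dgn_right (p q : ℕ) (j : Fin (q + 1)) :
    N.map R (SS.prodMap (SS.Hom.id _) (stdMap (Op.dgn j))) (E R p (q + 1)) = 0 :=
  (E_dgn R (p + (q + 1)) p (q + 1) rfl).2 q rfl j

variable {K L : SS}

/-- Eilenberg-Zilber cross product on normalised chains -/
noncomputable def cross : N R K →ₗ[R] N R L →ₗ[R] N R (K.prod L) :=
  liftN (fun p x => liftN (fun q y => N.map R (SS.prodMap (K.yo x) (L.yo y)) (E R p q))
    (fun q j y => by
      rw [yo_act, show SS.prodMap (K.yo x) ((L.yo y).comp (stdMap (Op.dgn j))) =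
        (SS.prodMap (K.yo x) (L.yo y)).comp (SS.prodMap (SS.Hom.id _) (stdMap (Op.dgn j))) from rfl,
        ← map_map, E_dgn_right, map_zero]))
    (fun p j x => by
      refine hom_ext fun q y => ?_
      rw [liftN_sx, LinearMap.zero_apply, yo_act,
        show SS.prodMap ((K.yo x).comp (stdMap (Op.dgn j))) (L.yo y) =
        (SS.prodMap (K.yo x) (L.yo y)).comp (SS.prodMap (stdMap (Op.dgn j)) (SS.Hom.id _)) from rfl,
        ← map_map, E_dgn_left, map_zero])

theorem cross_sx {p q : ℕ} (x : K.S p) (y : L.S q) :
    cross R (N.sx R x) (N.sx R y) = N.map R (SS.prodMap (K.yo x) (L.yo y)) (E R p q) := by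
  simp [cross]

theorem cross_iota (p q : ℕ) :
    cross R (N.sx R (K := SS.std p) (OrderHom.id : Op p p))
      (N.sx R (K := SS.std q) (OrderHom.id : Op q q)) = E R p q := by
  rw [cross_sx]
  exact map_idHom R (K := (SS.std p).prod (SS.std q)) _

theorem bilin_ext {M : Type*} [AddCommMonoid M] [Module R M]
    {f g : N R K →ₗ[R] N R L →ₗ[R] M}
    (h : ∀ (p : ℕ) (x : K.S p) (q : ℕ) (y : L.S q), f (N.sx R x) (N.sx R y) =
      g (N.sx R x) (N.sx R y)) : f = g :=
  hom_ext fun p x => hom_ext fun q y => h p x q y

/-- naturality -/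
theorem map_cross {K' L' : SS} (f : SS.Hom K K') (g : SS.Hom L L') (a : N R K) (b : N R L) :
    N.map R (SS.prodMap f g) (cross R a b) = cross R (N.map R f a) (N.map R g b) := by
  have : (cross R (K := K) (L := L)).compr₂ (N.map R (SS.prodMap f g)) =
      ((cross R).comp (N.map R f)).compl₂ (N.map R g) := by
    refine bilin_ext R fun p x q y => ?_
    simp only [LinearMap.compr₂_apply, LinearMap.compl₂_apply, LinearMap.comp_apply, N.map_sx]
    rw [cross_sx, cross_sx, map_map, prodMap_comp, comp_yo, comp_yo]
  exact LinearMap.congr_fun₂ this a b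

/-- augmentation of a cross product -/
theorem aug_cross (a : N R K) (b : N R L) : aug R (cross R a b) = aug R a * aug R b := by
  have : (cross R (K := K) (L := L)).compr₂ (aug R) =
      ((LinearMap.mul R R).comp (aug R)).compl₂ (aug R) := by
    refine bilin_ext R fun p x q y => ?_
    simp only [LinearMap.compr₂_apply, LinearMap.compl₂_apply, LinearMap.comp_apply,
      LinearMap.mul_apply']
    rw [cross_sx, aug_map]
    rcases p with _ | p <;> rcases q with _ | q
    · rw [E_zero_zero]; simp
    · rw [E_zero_succ]; simp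
    · rw [E_succ_zero]; simp
    · rw [E_succ_succ]; simp
  exact LinearMap.congr_fun₂ this a b

theorem cross_bot (A : Cone K) (B : Cone L) :
    cross R (N.sx R A.bot) (N.sx R B.bot) = N.sx R (A.prod B).bot := by
  rw [cross_sx, E_zero_zero, N.map_sx]
  congr 1
  have h : (Cone.std 0).bot = (OrderHom.id : Op 0 0) :=
    OrderHom.ext _ _ (funext fun a => Fin.ext (by omega))
  refine Prod.ext ?_ ?_
  · exact (congrArg (fun g => K.act g A.bot) h).trans (K.act_id _)
  · exact (congrArg (fun g => L.act g B.bot) h).trans (L.act_id _)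

/-- the cone formula -/
theorem cross_c_c (A : Cone K) (B : Cone L) (a : N R K) (b : N R L) :
    cross R (A.c R a) (B.c R b) =
      (A.prod B).c R (cross R a (B.c R b) + cross R (sg R (A.c R a)) b) := by
  have : ((cross R (K := K) (L := L)).comp (A.c R)).compl₂ (B.c R) =
      ((cross R (K := K) (L := L)).compl₂ (B.c R) +
        (cross R (K := K) (L := L)).comp (sg R ∘ₗ A.c R)).compr₂ ((A.prod B).c R) := by
    refine bilin_ext R fun p x q y => ?_
    simp only [LinearMap.compr₂_apply, LinearMap.compl₂_apply, LinearMap.comp_apply,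
      LinearMap.add_apply, Cone.c_sx, sg_sx, map_smul, LinearMap.smul_apply]
    rw [cross_sx, E_succ_succ, (isConeMap_prod (isConeMap_yo_k A x) (isConeMap_yo_k B y)).c,
      map_add, map_smul, map_map, map_map, prodMap_comp, prodMap_comp, ← yo_act, ← yo_act,
      comp_id, comp_id, A.h_face, B.h_face, cross_sx, cross_sx]
  exact LinearMap.congr_fun₂ this a b

theorem cross_c_bot (A : Cone K) (B : Cone L) (a : N R K) :
    cross R (A.c R a) (N.sx R B.bot) = (A.prod B).c R (cross R a (N.sx R B.bot)) := by
  have : ((cross R (K := K) (L := L)).flip (N.sx R B.bot)).comp (A.c R) =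
      ((A.prod B).c R).comp ((cross R (K := K) (L := L)).flip (N.sx R B.bot)) := by
    refine hom_ext fun p x => ?_
    simp only [LinearMap.comp_apply, LinearMap.flip_apply, Cone.c_sx]
    rw [cross_sx, E_succ_zero, (isConeMap_prod (isConeMap_yo_k A x) (isConeMap_yo_bot B)).c,
      map_map, prodMap_comp, ← yo_act, comp_id, A.h_face, cross_sx]
  exact LinearMap.congr_fun this a

theorem cross_bot_c (A : Cone K) (B : Cone L) (b : N R L) :
    cross R (N.sx R A.bot) (B.c R b) = (A.prod B).c R (cross R (N.sx R A.bot) b) := by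
  have : (cross R (K := K) (L := L) (N.sx R A.bot)).comp (B.c R) =
      ((A.prod B).c R).comp (cross R (K := K) (L := L) (N.sx R A.bot)) := by
    refine hom_ext fun p x => ?_
    simp only [LinearMap.comp_apply, Cone.c_sx]
    rw [cross_sx, E_zero_succ, (isConeMap_prod (isConeMap_yo_bot A) (isConeMap_yo_k B x)).c,
      map_map, prodMap_comp, ← yo_act, comp_id, B.h_face, cross_sx]
  exact LinearMap.congr_fun this b

theorem sg_cross (a : N R K) (b : N R L) :
    sg R (cross R a b) = cross R (sg R a) (sg R b) := by
  have key : ∀ n p q : ℕ, p + q = n → sg R (E R p q) = ((-1 : R) ^ (p + q)) • E R p q := by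
    intro n
    induction n with
    | zero =>
      intro p q h
      obtain rfl : p = 0 := by omega
      obtain rfl : q = 0 := by omega
      rw [E_zero_zero]; simp
    | succ n ih =>
      intro p q h
      rcases p with _ | p <;> rcases q with _ | q
      · omega
      · rw [E_zero_succ, Cone.sg_c, ← map_sg, ih 0 q (by omega), map_smul, map_smul, ← neg_smul]
        congr 1; ring
      · rw [E_succ_zero, Cone.sg_c, ← map_sg, ih p 0 (by omega), map_smul, map_smul, ← neg_smul]
        congr 1; ring
      · rw [E_succ_succ, Cone.sg_c, map_add, map_smul, ← map_sg, ← map_sg, ih p (q + 1) (by omega),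
          ih (p + 1) q (by omega)]
        simp only [map_smul, map_add]
        module
  have : (cross R (K := K) (L := L)).compr₂ (sg R) =
      ((cross R).comp (sg R)).compl₂ (sg R) := by
    refine bilin_ext R fun p x q y => ?_
    simp only [LinearMap.compr₂_apply, LinearMap.compl₂_apply, LinearMap.comp_apply, sg_sx,
      map_smul, LinearMap.smul_apply]
    rw [cross_sx, ← map_sg, key _ p q rfl, map_smul, smul_smul, pow_add]
    congr 1; ring
  exact LinearMap.congr_fun₂ this a b

/-- Leibniz rule -/
theorem bd_cross (a : N R K) (b : N R L) :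
    N.bd R _ (cross R a b) = cross R (N.bd R K a) b + cross R (sg R a) (N.bd R L b) := by
  -- universal case
  have univ : ∀ n p q : ℕ, p + q = n → ∀ (K L : SS) (x : K.S p) (y : L.S q),
      N.bd R _ (cross R (N.sx R x) (N.sx R y)) =
        cross R (N.bd R K (N.sx R x)) (N.sx R y) + cross R (sg R (N.sx R x)) (N.bd R L (N.sx R y)) := by
    intro n
    induction n using Nat.strong_induction_on with
    | _ n ih =>
    intro p q hpq K L x y
    -- reduce to iota
    suffices H : N.bd R _ (cross R (N.sx R (K := SS.std p) (OrderHom.id : Op p p))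
        (N.sx R (K := SS.std q) (OrderHom.id : Op q q))) =
        cross R (N.bd R _ (N.sx R (K := SS.std p) (OrderHom.id : Op p p)))
          (N.sx R (K := SS.std q) (OrderHom.id : Op q q)) +
        cross R (sg R (N.sx R (K := SS.std p) (OrderHom.id : Op p p)))
          (N.bd R _ (N.sx R (K := SS.std q) (OrderHom.id : Op q q))) by
      have h2 := congrArg (N.map R (SS.prodMap (K.yo x) (L.yo y))) H
      rw [map_bd', map_add, map_cross, map_cross, map_cross, map_bd', map_bd', map_sg,
        N.map_sx, N.map_sx, yo_iota, yo_iota] at h2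
      exact h2
    have iotaS : ∀ p : ℕ, N.sx R (K := SS.std (p + 1)) (OrderHom.id : Op (p + 1) (p + 1)) =
        (Cone.std (p + 1)).c R (N.sx R (K := SS.std (p + 1)) (Op.face 0 : Op p (p + 1))) := by
      intro p
      rw [Cone.c_sx]
      congr 1
      refine OrderHom.ext _ _ (funext fun a => ?_)
      induction a using Fin.cases with
      | zero => rfl
      | succ a => rfl
    have iota0 : N.sx R (K := SS.std 0) (OrderHom.id : Op 0 0) = N.sx R (Cone.std 0).bot := by
      congr 1
      refine OrderHom.ext _ _ (funext fun a => Fin.ext (by omega))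
    rcases p with _ | p <;> rcases q with _ | q
    · rw [iota0, cross_bot, bd_sx_zero, bd_sx_zero]
      simp
    · rw [iota0, iotaS, cross_bot_c, Cone.bd_c, bd_sx_zero]
      rw [ih q (by omega) 0 q (by omega), bd_sx_zero, aug_cross]
      simp only [map_zero, LinearMap.zero_apply, zero_add, aug_sx_zero, one_mul, sg_sx, pow_zero,
        one_smul]
      rw [Cone.bd_c, map_sub, map_sub, cross_bot_c, map_smul, cross_bot]
    · rw [iota0, iotaS, cross_c_bot, Cone.bd_c, bd_sx_zero]
      rw [ih p (by omega) p 0 (by omega), bd_sx_zero, aug_cross]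
      simp only [map_zero, add_zero, aug_sx_zero, mul_one]
      rw [Cone.bd_c, map_sub, map_sub, LinearMap.sub_apply, LinearMap.sub_apply, cross_c_bot,
        map_smul, LinearMap.smul_apply, cross_bot]
    · rw [iotaS, iotaS]
      set A := Cone.std (p + 1)
      set B := Cone.std (q + 1)
      set u : (SS.std (p + 1)).S p := (Op.face 0 : Op p (p + 1))
      set v : (SS.std (q + 1)).S q := (Op.face 0 : Op q (q + 1))
      have h1 : N.bd R _ (cross R (N.sx R u) (B.c R (N.sx R v))) =
          cross R (N.bd R _ (N.sx R u)) (B.c R (N.sx R v)) +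
            cross R (sg R (N.sx R u)) (N.bd R _ (B.c R (N.sx R v))) := by
        rw [Cone.c_sx]
        exact ih (p + (q + 1)) (by omega) p (q + 1) rfl _ _ _ _
      have h2 : N.bd R _ (cross R (A.c R (N.sx R u)) (N.sx R v)) =
          cross R (N.bd R _ (A.c R (N.sx R u))) (N.sx R v) +
            cross R (sg R (A.c R (N.sx R u))) (N.bd R _ (N.sx R v)) := by
        rw [Cone.c_sx]
        exact ih (p + 1 + q) (by omega) (p + 1) q rfl _ _ _ _
      have h3 : N.bd R _ (cross R (sg R (A.c R (N.sx R u))) (N.sx R v)) =
          cross R (N.bd R _ (sg R (A.c R (N.sx R u)))) (N.sx R v) +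
            cross R (sg R (sg R (A.c R (N.sx R u)))) (N.bd R _ (N.sx R v)) := by
        rw [Cone.c_sx] at h2 ⊢
        simp only [sg_sx, map_smul, LinearMap.smul_apply] at h2 ⊢
        rw [h2, smul_add]
      have e0 : aug R (sg R (A.c R (N.sx R u))) = 0 := by
        rw [Cone.sg_c, map_neg, Cone.aug_c, neg_zero]
      have hW : aug R (cross R (N.sx R u) (B.c R (N.sx R v)) +
          cross R (sg R (A.c R (N.sx R u))) (N.sx R v)) = 0 := by
        rw [map_add, aug_cross, aug_cross, Cone.aug_c, e0]; simp
      rw [cross_c_c, Cone.bd_c, hW, zero_smul, sub_zero, map_add (N.bd R _), h1, h3, sg_sg, bd_sg]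
      generalize N.sx R u = a
      generalize N.sx R v = b
      have F1 := cross_c_c R A B (N.bd R _ a) b
      have F2 := cross_c_c R A B (sg R a) (N.bd R _ b)
      have F3 := cross_c_bot R A B (sg R a)
      have F4 := cross_bot_c R A B b
      have G : sg R (A.c R (sg R a)) = - A.c R a := by rw [Cone.sg_c, sg_sg]
      have G' : A.c R (sg R a) = - sg R (A.c R a) := Cone.c_sg A R a
      have G0 : sg R (N.sx R A.bot) = N.sx R A.bot := by simp
      rw [G, G', map_add] at F2
      rw [G'] at F3
      rw [map_add] at F1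
      simp only [map_neg, LinearMap.neg_apply] at F2 F3
      simp only [Cone.bd_c, map_add, map_sub, map_neg, LinearMap.sub_apply,
        LinearMap.neg_apply, map_smul, LinearMap.smul_apply, G0]
      rw [← F4, F1, ← F3]
      have F2' := eq_add_of_add_neg_eq F2.symm
      rw [F2']
      module
  have : (cross R (K := K) (L := L)).compr₂ (N.bd R _) =
      (cross R).comp (N.bd R K) + ((cross R).comp (sg R)).compl₂ (N.bd R L) := by
    refine bilin_ext R fun p x q y => ?_
    simp only [LinearMap.compr₂_apply, LinearMap.compl₂_apply, LinearMap.comp_apply,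
      LinearMap.add_apply]
    exact univ _ p q rfl K L x y
  exact LinearMap.congr_fun₂ this a b

end

end Crest.Agent.R204.EZ271
private theorem rz_eb37589475 : type_of% @_root_.Crest.Agent.R204.EZ271.E.eq_1 := @_root_.Crest.Agent.R204.EZ271.E.eq_1 -- L89
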