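import Crest.Agent.R204.CompOm_696
import Crest.Agent.R204.ThAlg_265
import Crest.Agent.R204.C5_265
import Crest.Agent.R204.Coalg_847
import Crest.Agent.R204.Spec_114
import Crest.Agent.R204.Ops_265
import Crest.Agent.R204.Hopf4_450
import Crest.Agent.R204.EZInst_847

-- ▼ part R204/CompB_696
section

/-!
# Row 204, block C, leaf C9 part 3 (helper696)

* `fib (cmOf φ hφ) g ≅ Sing {x // φ x = g}`, so `Hc R (cmOf φ hφ) g` = image of the homology of the subspace;
* `ThCm A π`: component structure of an abstract `Θ`-algebra; `mul_mem`, `Th_mem`, `Psi_mem`, `one_mem`;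
* instance `omCm` for `Sing (Ω^J Z)`;
* `baseOf`: the subalgebra of the base component; `factBase_of` : `FactBase` of `Spec_114`.
-/

set_option autoImplicit false
set_option linter.unusedSectionVars false

open scoped Topology unitInterval Topology.Homotopy

noncomputable section

namespace Crest.Agent.R204.Comp696

open SS SingAct265 Cubes735 Hsp696 DK742 ThetaSS265 ThAlg265
open Crest.Agent.R204.HspSS696 hiding Om

/-! ## components as spaces -/

section spaces

variable {X : Type} [TopologicalSpace X] {π : Type} (φ : X → π) (hφ : ∀ x y, Joined x y → φ x = φ y)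







variable (R : Type) [CommRing R]



end spaces

/-! ## component structure of an abstract `Θ`-algebra -/

/-- component structure -/
structure ThCm {M : ℕ} {K : SS} (A : ThAlg M K) (π : Type) [CommMonoid π] where
  c : Cm K π
  mu : ∀ (n : ℕ) (x y : K.S n), c.app n (A.mu.app n (x, y)) = c.app n x * c.app n y
  th : ∀ (n : ℕ) (e : (EM M).S n) (x y : K.S n),
    c.app n (A.Th.app n ((proj ((invEM M).prod (Invo.swap K))).app n (e, (x, y)))) =
      c.app n x * c.app n y
  one : c.app 0 A.one = 1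

namespace ThCm

open scoped TensorProduct

variable {M : ℕ} {K : SS} {A : ThAlg M K} {π : Type} [CommMonoid π] (T : ThCm A π)

/-- the classes carried by the component `g` -/
def HH (R : Type) [CommRing R] (g : π) : Submodule R (H R K) := Hc R T.c g



/-- the product sends `H_g ⊗ H_h` to `H_{gh}` -/
theorem mul_mem (E : Coalg847.EZData) {g h : π} {x y : H F2 K} (hx : x ∈ T.HH F2 g)
    (hy : y ∈ T.HH F2 h) : H.map F2 A.mu (E.cr K K (x ⊗ₜ y)) ∈ T.HH F2 (g * h) :=
  cross_mem F2 (fun A B x y => E.cr A B (x ⊗ₜ y))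
    (fun _ _ _ _ f f' x y => (E.cr_nat f f' x y).symm) T.c g T.c h T.c (g * h) A.mu
    (fun n x y hx hy => by rw [T.mu, hx, hy]) hx hy

/-- `Θ` on the part of `DM M K` lying over `(g, g)` -/
theorem c_Th_DMmap (g : π) {n : ℕ} (p : (DM M (fib T.c g)).S n) :
    T.c.app n (A.Th.app n ((DMmap M (fibIncl T.c g)).app n p)) = g * g := by
  obtain ⟨⟨e, x, y⟩, rfl⟩ := proj_surj ((invEM M).prod (Invo.swap (fib T.c g))) n p
  show T.c.app n (A.Th.app n ((proj ((invEM M).prod (Invo.swap K))).app n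
    (e, ((fibIncl T.c g).app n x, (fibIncl T.c g).app n y)))) = _
  rw [T.th, fib_prop, fib_prop]

/-- natural operations `H K → H (DM M K)` followed by `Θ` send `H_g` to `H_{g²}` -/
theorem Th_mem (R : Type) [CommRing R] (pw : ∀ B : SS, H R B → H R (DM M B))
    (nat : ∀ (B B' : SS) (f : Hom B B') (x : H R B),
      pw B' (H.map R f x) = H.map R (DMmap M f) (pw B x))
    {g : π} {x : H R K} (hx : x ∈ T.HH R g) : H.map R A.Th (pw K x) ∈ T.HH R (g * g) := by
  obtain ⟨x, rfl⟩ := hx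
  rw [nat, ← H_map_comp]
  exact map_mem_Hc R _ _ _ (fun n p => T.c_Th_DMmap g p) _

/-- `Q_i : H_g → H_{g²}` (265's `pw`) -/
theorem Q_mem {i : ℕ} (hi : i ≤ M) {g : π} {x : H F2 K} (hx : x ∈ T.HH F2 g) :
    H.map F2 A.Th (C5265.pw M K i x) ∈ T.HH F2 (g * g) :=
  T.Th_mem F2 (fun B => C5265.pw M B i) (fun _ _ f x => (C5265.pw_map f hi x).symm) hx




/-- natural endo-operations preserve `H_g` -/
theorem nat_mem (R : Type) [CommRing R] (Φ : ∀ B : SS, H R B → H R B)
    (nat : ∀ (B B' : SS) (f : Hom B B') (x : H R B), Φ B' (H.map R f x) = H.map R f (Φ B x))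
    {g : π} {x : H R K} (hx : x ∈ T.HH R g) : Φ K x ∈ T.HH R g :=
  nat_mem_id R Φ nat T.c g hx

end ThCm

/-! ## the instance `Sing (Ω^J Z)` -/

section om

variable {J : Type} [Finite J] {Z : Type} [TopologicalSpace Z] {z₀ : Z} [DecidableEq J] [Nontrivial J]
  {M : ℕ}

/-- the component structure of `Ω^J Z` -/
def omCm (k : Fin (M + 1) ↪ J) (c : BoxConf (Fin 2) J) :
    ThCm (omAlg (Z := Z) (z₀ := z₀) k (mulS c)) (HomotopyGroup J Z z₀) where
  c := cOm J Z z₀
  mu _ x y := cOm_mulS c x y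
  th _ e x y := cOm_thetaSS k e x y
  one := rfl

end om

/-! ## spherical simplices lie in the component of their vertices -/

theorem act_const_mem {K : SS} {π : Type} (c : Cm K π) {m n : ℕ} (f : Op m n) (x : K.S n) (g : π)
    (h : c.app m (K.act f x) = g) : c.app n x = g := (c.nat f x).symm.trans h


/-- the class of a spherical simplex (all faces constant at the base point) of positive dimension lies
in the base component -/
theorem sph_mem {J : Type} [Finite J] [DecidableEq J] [Nonempty J] {Z : Type} [TopologicalSpace Z]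
    {z₀ : Z} (R : Type) [CommRing R] {n : ℕ} (w : (Sing (Om J Z z₀)).S (n + 1))
    (hw : ∀ i, (Sing (Om J Z z₀)).act (Op.face i) w = mkS (fun _ => GenLoop.const) continuous_const)
    (hz : N.bd R (Sing (Om J Z z₀)) (N.sx R w) = 0) :
    Hd.mk _ (N.sx R w) hz ∈ Hc R (cOm J Z z₀) 1 := by
  refine mk_sx_mem R _ _ w ?_ hz
  refine act_const_mem (cOm J Z z₀) (Op.face 0) w 1 ?_
  rw [hw 0]
  rfl

/-! ## the base subalgebra -/

section base

variable {A : Type} [CommRing A] [Algebra F2 A] {π : Type}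

/-- the base component as a subalgebra, from a multiplicative grading by a monoid -/
def baseOf [Monoid π] (Hg : π → Submodule F2 A) (h1 : (1 : A) ∈ Hg 1)
    (hmul : ∀ (g h : π) (x y : A), x ∈ Hg g → y ∈ Hg h → x * y ∈ Hg (g * h)) : Subalgebra F2 A where
  carrier := Hg 1
  mul_mem' {a b} ha hb := by
    have := hmul 1 1 a b ha hb
    rwa [one_mul] at this
  one_mem' := h1
  add_mem' ha hb := (Hg 1).add_mem ha hb
  zero_mem' := (Hg 1).zero_mem
  algebraMap_mem' r := by
    show algebraMap F2 A r ∈ Hg 1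
    rw [Algebra.algebraMap_eq_smul_one]
    exact (Hg 1).smul_mem r h1


theorem pow_mem_of [Monoid π] (Hg : π → Submodule F2 A) (h1 : (1 : A) ∈ Hg 1)
    (hmul : ∀ (g h : π) (x y : A), x ∈ Hg g → y ∈ Hg h → x * y ∈ Hg (g * h)) {g : π} {x : A}
    (hx : x ∈ Hg g) (n : ℕ) : x ^ n ∈ Hg (g ^ n) := by
  induction n with
  | zero => rw [pow_zero, pow_zero]; exact h1
  | succ n ih => rw [pow_succ, pow_succ]; exact hmul _ _ _ _ ih hx

end base

/-! ## `FactBase` -/

section tower

open Spec114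

/-- words have weight `2^r` -/
theorem word_mem (X : Tower) {π : Type} [CommGroup π] (D : ℕ) (Hg : π → Submodule F2 (X.H 0))
    (hQ : ∀ i ≤ D + 1, ∀ (g : π) (x : X.H 0), x ∈ Hg g → X.Q 0 i x ∈ Hg (g * g))
    {ι : π} (hx : X.x 0 ∈ Hg ι) (L : List ℕ) (hL : ∀ i ∈ L, i ≤ D + 1) :
    X.word 0 L ∈ Hg (ι ^ (2 ^ L.length)) := by
  induction L with
  | nil => simpa [Tower.word] using hx
  | cons i L ih =>
    have h := hQ i (hL i (by simp)) _ _ (ih (fun j hj => hL j (by simp [hj])))
    have e : ι ^ (2 ^ (i :: L).length) = ι ^ (2 ^ L.length) * ι ^ (2 ^ L.length) := by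
      rw [← pow_add, List.length_cons, pow_succ]; congr 1; ring
    rw [e]
    exact h

theorem word0_mem (X : Tower) {π : Type} [CommGroup π] (D : ℕ) (Hg : π → Submodule F2 (X.H 0))
    (h1 : (1 : X.H 0) ∈ Hg 1)
    (hmul : ∀ (g h : π) (x y : X.H 0), x ∈ Hg g → y ∈ Hg h → x * y ∈ Hg (g * h))
    (hQ : ∀ i ≤ D + 1, ∀ (g : π) (x : X.H 0), x ∈ Hg g → X.Q 0 i x ∈ Hg (g * g))
    {ι : π} (hx : X.x 0 ∈ Hg ι) (hinv : X.xinv ∈ Hg ι⁻¹) (L : List ℕ) (hL : ∀ i ∈ L, i ≤ D + 1) :
    X.word0 L ∈ Hg 1 := by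
  have h := hmul _ _ _ _ (word_mem X D Hg hQ hx L hL) (pow_mem_of Hg h1 hmul hinv (2 ^ L.length))
  rw [inv_pow, mul_inv_cancel] at h
  exact h

/-- **`FactBase`** from a component grading of `H 0` -/
theorem factBase_of (X : Tower) {π : Type} [CommGroup π] (D : ℕ) (Hg : π → Submodule F2 (X.H 0))
    (h1 : (1 : X.H 0) ∈ Hg 1)
    (hmul : ∀ (g h : π) (x y : X.H 0), x ∈ Hg g → y ∈ Hg h → x * y ∈ Hg (g * h))
    (hQ : ∀ i ≤ D + 1, ∀ (g : π) (x : X.H 0), x ∈ Hg g → X.Q 0 i x ∈ Hg (g * g))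
    (hSq : ∀ (a : ℕ) (g : π) (x : X.H 0), x ∈ Hg g → X.Sq 0 a x ∈ Hg g)
    {ι : π} (hx : X.x 0 ∈ Hg ι) (hinv : X.xinv ∈ Hg ι⁻¹)
    (hbase : X.base = baseOf Hg h1 hmul) : X.FactBase D := by
  refine ⟨fun L hL => ?_, fun a y hy => ?_⟩
  · rw [hbase]
    exact word0_mem X D Hg h1 hmul hQ hx hinv L hL
  · rw [hbase] at hy ⊢
    exact hSq a 1 y hy

end tower

end Crest.Agent.R204.Comp696
end
end

-- ▼ part R204/CompOps_696

/-!
# Row 204, block C, leaf C9 part 4 (helper696)

The component grading in terms of 265's `Ops265.Q/T/mulH` and 450's Pontryagin ring `HMon.ring`.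
-/

set_option autoImplicit false
set_option linter.unusedSectionVars false
set_option linter.style.haveILetI false

open scoped Topology unitInterval Topology.Homotopy TensorProduct

noncomputable section

namespace Crest.Agent.R204.Comp696

open SS SingAct265 Cubes735 Hsp696 DK742 ThetaSS265 ThAlg265
open Crest.Agent.R204.HspSS696 hiding Om

/-! ## 265's operations -/

namespace ThCm

variable {M : ℕ} {K : SS} {A : ThAlg M K} {π : Type} [CommMonoid π] (T : ThCm A π)

/-- `Q_i : H_g → H_{g²}` for every `i` (`Q_i = 0` for `i > M`) -/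
theorem Qop_mem (i : ℕ) {g : π} {x : H F2 K} (hx : x ∈ T.HH F2 g) :
    Ops265.Q A i x ∈ T.HH F2 (g * g) := by
  by_cases h : i ≤ M
  · exact T.Q_mem h hx
  · rw [Ops265.Q_of_gt A (by omega)]; exact Submodule.zero_mem _




end ThCm

/-! ## 450's ring -/

section ring

open Hopf450

variable {K : SS} (N : HMon K) (E : Coalg847.EZData) {π : Type}

theorem ring_one_mem [One π] (c : Cm K π) (h1 : c.app 0 N.e = 1) :
    letI := N.ring E; (1 : H F2 K) ∈ Hc F2 c 1 :=
  mk_sx_mem F2 c 1 N.e h1 _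

theorem ring_mul_mem [Mul π] (c : Cm K π)
    (hmu : ∀ (n : ℕ) (x y : K.S n), c.app n (N.mu.app n (x, y)) = c.app n x * c.app n y) (g h : π)
    (x y : H F2 K) (hx : x ∈ Hc F2 c g) (hy : y ∈ Hc F2 c h) :
    letI := N.ring E; x * y ∈ Hc F2 c (g * h) :=
  cross_mem F2 (fun A B x y => E.cr A B (x ⊗ₜ y))
    (fun _ _ _ _ f f' x y => (E.cr_nat f f' x y).symm) c g c h c (g * h) N.mu
    (fun n x y hx hy => by rw [hmu, hx, hy]) hx hy

/-- **the base component** as a subalgebra of the Pontryagin ring -/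
@[reducible] def baseAlg [Monoid π] (c : Cm K π) (h1 : c.app 0 N.e = 1)
    (hmu : ∀ (n : ℕ) (x y : K.S n), c.app n (N.mu.app n (x, y)) = c.app n x * c.app n y) :
    letI := N.ring E; letI := N.alg E; Subalgebra F2 (H F2 K) :=
  letI := N.ring E; letI := N.alg E
  baseOf (Hc F2 c) (ring_one_mem N E c h1) (ring_mul_mem N E c hmu)


end ring

/-! ## `[x]` for a loop `x` -/

section om

variable {J : Type} [Finite J] {Z : Type} [TopologicalSpace Z] {z₀ : Z}

/-- the vertex class lies in its component -/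
theorem vtx_mem_Hc {K : SS} {π : Type} (c : Cm K π) (v : K.S 0) (g : π) (h : c.app 0 v = g) :
    Coalg847.vtx v ∈ Hc F2 c g :=
  mk_sx_mem F2 c g v h (Coalg847.bd_vertex v)

/-- the vertex of a loop lies in its component -/
theorem vtx_ptS_mem (x : Om J Z z₀) :
    Coalg847.vtx (K := Sing (Om J Z z₀)) (ptS x) ∈ Hc F2 (cOm J Z z₀) (cls x) :=
  vtx_mem_Hc (cOm J Z z₀) (ptS x) (cls x) rfl

variable [DecidableEq J] [Nontrivial J]

theorem vtx_symmAt_mem (i : J) (x : Om J Z z₀) :
    Coalg847.vtx (K := Sing (Om J Z z₀)) (ptS (GenLoop.symmAt i x : Om J Z z₀)) ∈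
      Hc F2 (cOm J Z z₀) (cls x)⁻¹ := by
  rw [← cls_symmAt i x]; exact vtx_ptS_mem _

end om

end Crest.Agent.R204.Comp696
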