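import Crest.Agent.R204.InstSp_194
import Crest.Agent.R204.AdjC_330
import Crest.Agent.R204.SphSS_478
import Crest.Agent.R204.HDegA_160
import Crest.Agent.R204.EZHtp_271
import Crest.Agent.R204.HZ_76
import Crest.Agent.R204.CompOm_696
import Crest.Agent.R204.InstSph_478

-- ▼ part R204/FX_76
section

/-!
# Row 204, FactX (helper76): the fundamental classes `x_k`

* `desc` : a spherical simplex `x` of `Y` is `σ` of a spherical simplex of the loop space (exactly);
* `sigma_vcl_mul` : `σ [g h] = σ [g] + σ [h]` on vertex classes;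
* `sph_class` : every spherical class of dimension `k` in `H_k(X_k)` is a multiple of `x_k`.
-/

set_option autoImplicit false

noncomputable section

namespace Crest.Agent.R204.FX76

open scoped Topology unitInterval Topology.Homotopy
open Crest.Agent.R204 Crest.Agent.R204.Cone330 Crest.Agent.R204.Sus330 Crest.Agent.R204.SphSS478

section loop

variable {P Y : Type} [TopologicalSpace P] [TopologicalSpace Y] {g0 : P} {y0 : Y}
variable (Λ : LoopStr P Y g0 y0)


theorem sigma_scl {q : ℕ} {x : (SS.Sing Y).S (q + 2)} {a : (SS.Sing P).S (q + 1)}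
    (hx : IsSph (K := SS.Sing Y) (LoopStr.cY y0 0) x) (ha : IsSph (K := SS.Sing P) (LoopStr.cY g0 0) a)
    (h : Λ.sig F2 (N.sx F2 a) = N.sx F2 x) : Λ.sigma (scl a ha) = scl x hx := by
  unfold scl
  rw [LoopStr.sigma_mk]
  exact Hd.mk_eq_mk.2 ⟨0, by rw [map_zero, h, sub_self]⟩

theorem sigma_vcl {x : (SS.Sing Y).S 1} {a : (SS.Sing P).S 0}
    (hx : IsSph (K := SS.Sing Y) (LoopStr.cY y0 0) x)
    (h : Λ.sig F2 (N.sx F2 a) = N.sx F2 x) : Λ.sigma (vcl a) = scl x hx := by
  unfold scl vcl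
  rw [LoopStr.sigma_mk]
  exact Hd.mk_eq_mk.2 ⟨0, by rw [map_zero, h, sub_self]⟩

/-- the constant simplex -/
abbrev cP (g : P) (q : ℕ) : (SS.Sing P).S q := ContinuousMap.const _ g




end loop

/-! ## vertex classes -/

section vertex

variable {P : Type} [TopologicalSpace P]



end vertex

section genLoop

variable {Z : Type} [TopologicalSpace Z] {z₀ : Z}





end genLoop

/-! ## spherical classes -/

section sph

variable {P Y : Type} [TopologicalSpace P] [TopologicalSpace Y] {g0 : P} {y0 : Y}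


/-- `y` is the class of a spherical `k`-simplex (`k = 0` : of a vertex) -/
def SphCl (y0 : Y) : ℕ → H F2 (SS.Sing Y) → Prop
  | 0, y => ∃ g : Y, y = vcl (K := SS.Sing Y) (cP g 0)
  | k + 1, y => ∃ (a : (SS.Sing Y).S (k + 1)) (ha : IsSph (K := SS.Sing Y) (LoopStr.cY y0 0) a), y = scl a ha


variable (Λ : LoopStr P Y g0 y0)


theorem SphCl.sigma : ∀ {k : ℕ} {z : H F2 (SS.Sing P)}, SphCl g0 k z →
    SphCl y0 (k + 1) (Λ.sigma z)
  | 0, _, ⟨g, h⟩ => by
    obtain ⟨x, a', hx, -, hσ, hw⟩ := Λ.exists_adj_chain (cP (P := P) g 0) isSph_zero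
    refine ⟨x, hx, ?_⟩
    obtain ⟨w, -, hw⟩ := hw F2
    rw [← sigma_vcl Λ hx (hσ F2), h]
    congr 1
    unfold vcl
    exact (Hd.mk_eq_mk.2 ⟨w, hw⟩).symm
  | k + 1, _, ⟨a, ha, h⟩ => by
    obtain ⟨x, a', hx, ha', hσ, hw⟩ := Λ.exists_adj_chain a ha
    refine ⟨x, hx, ?_⟩
    obtain ⟨w, -, hw⟩ := hw F2
    rw [← sigma_scl Λ hx ha' (hσ F2), h]
    congr 1
    unfold scl
    exact (Hd.mk_eq_mk.2 ⟨w, hw⟩).symm

theorem SphCl.map {f : C(P, Y)} (hf : f g0 = y0) : ∀ {k : ℕ} {z : H F2 (SS.Sing P)}, SphCl g0 k z →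
    SphCl y0 k (H.map F2 (SS.SingMap f) z)
  | 0, _, ⟨g, h⟩ => ⟨f g, by rw [h, map_vcl]; rfl⟩
  | k + 1, _, ⟨a, ha, h⟩ => by
    have h0 : (SS.SingMap f).app 0 (LoopStr.cY g0 0) = LoopStr.cY y0 0 := by
      refine ContinuousMap.ext fun t => ?_
      exact hf
    refine ⟨(SS.SingMap f).app (k + 1) a, h0 ▸ ha.map (SS.SingMap f), ?_⟩
    rw [h]
    exact map_scl (SS.SingMap f) h0 ha

end sph

/-! ## the concrete tower -/

section tower

open Inst194 Freu297

/-- `π_n(S^n)` is generated by `ι_n` -/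
def Gen (n : ℕ) : Prop := ∀ [Nonempty (Fin n)] (g : Ω^ (Fin n) (Sph n) (pt n)),
  ∃ D : ℤ, HDeg160.cls g = HDeg160.cls (iotaL n) ^ D

variable (J0 K : ℕ)













end tower

end Crest.Agent.R204.FX76
end
end

-- ▼ part R204/InstHopf_478

/-!
# Row 204, H11 (helper478): `FactHopf` for the concrete tower from `HopfLow` and `BS`
-/

set_option autoImplicit false
set_option linter.style.haveILetI false

noncomputable section

namespace Crest.Agent.R204.InstSph478

open scoped TensorProduct Topology unitInterval Topology.Homotopy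
open Crest.Agent.R204 Spec114 Cone330 SphSS478 FactSph478 Inst194 Freu297 Sus330 HopfLow478 Hopf11

theorem sig_lt (p : Par) {k : ℕ} (h : k < p.K) : p.sig k = (loopX p.J0 h).sigma := dif_pos h

theorem x_sph (p : Par) : ∀ {k : ℕ}, k ≤ p.K →
    FX76.SphCl (GenLoop.const : XT p.J0 p.K k) k (p.x k)
  | 0, _ => ⟨iotaL p.n, rfl⟩
  | k + 1, h => by
    have h1 : p.x (k + 1) = (loopX p.J0 (show k < p.K by omega)).sigma (p.x k) :=
      congrArg (fun f : H F2 (p.S k) →ₗ[F2] H F2 (p.S (k + 1)) => f (p.x k)) (sig_lt p (by omega))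
    rw [h1]
    exact (x_sph p (by omega : k ≤ p.K)).sigma (loopX p.J0 _)

/-- `x_k² ≠ 0` -/
theorem sq_ne_zero {X : Tower} {D : ℕ} (h : X.FactPoly D) {k : ℕ} (h1 : 1 ≤ k) (h2 : k ≤ D) :
    X.x k * X.x k ≠ 0 := by
  intro h0
  let w0 : Tower.Wd := ⟨[], List.Pairwise.nil, fun i hi => (List.not_mem_nil hi).elim⟩
  have hw : MvPolynomial.IsWeightedHomogeneous (fun W : Tower.Wd => Tower.wdeg k W.1)
      ((MvPolynomial.X w0 : MvPolynomial Tower.Wd F2) * MvPolynomial.X w0) (k + k) :=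
    (MvPolynomial.isWeightedHomogeneous_X F2 _ w0).mul (MvPolynomial.isWeightedHomogeneous_X F2 _ w0)
  have key := (h k h1 (by omega)).1 (k + k) (by omega) _ hw (by
    have e1 : MvPolynomial.aeval (fun W : Tower.Wd => X.word k W.1) (MvPolynomial.X w0 :
        MvPolynomial Tower.Wd F2) = X.x k := MvPolynomial.aeval_X _ w0
    rw [map_mul, e1]
    exact h0)
  exact mul_ne_zero (MvPolynomial.X_ne_zero w0) (MvPolynomial.X_ne_zero w0) key

/-- **FactHopf for the concrete tower** -/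
theorem factHopf (HL : HopfLow) (hBS : BS) (p : Par) {D e : ℕ} (hP : p.tower.FactPoly D)
    (he : e + 1 ≤ D) (hK : e + 1 ≤ p.K) : (pSph p e).FactHopf (e + 1) := by
  intro α hodd hα
  have hne : (pSph p e).h (e + 1) α ≠ 0 := by
    rw [hα]
    exact sq_ne_zero hP (Nat.succ_pos e) he
  obtain ⟨x, hx, hxe⟩ := x_sph p hK
  have hxne : scl x hx ≠ 0 := by
    intro h0
    apply sq_ne_zero hP (Nat.succ_pos e) he
    have h1 : p.tower.x (e + 1) = 0 := hxe.trans h0
    rw [h1, mul_zero]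
  have hev : Even e := by
    rcases Nat.even_or_odd e with h | h
    · exact h
    · exact absurd hodd (Nat.not_odd_iff_even.2 h.add_one)
  have := hopf_tower HL hBS (J0 := p.J0) (K := p.K) hev (by have := p.hJ; omega) hK
    (fun k => (pSph p e).h k α)
    (fun k hk => (pSph_succ p e k α).trans
      (congrArg (fun f : H F2 (p.S k) →ₗ[F2] H F2 (p.S (k + 1)) => f ((pSph p e).h k α))
        (sig_lt p hk))) α.1 α.2 rfl hne x hx hxne
  omega

end Crest.Agent.R204.InstSph478
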