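import Crest.Agent.R204.Sus_330
import Crest.Agent.R204.EZCross_271

-- ▼ part R204/Adj_330
section

/-!
# Row 204, block E (helper330): adjoints of spherical simplices (E0), topological half
-/

set_option autoImplicit false

noncomputable section

namespace Crest.Agent.R204.Sus330

open Crest.Agent.R204 Crest.Agent.R204.Cone330
open scoped unitInterval

/-! ## tail sums -/

/-- tail sums -/
def tl {n : ℕ} (u : Dl n) (i : ℕ) : ℝ := ∑ a : Fin (n + 1), if i ≤ (a : ℕ) then u a else 0

theorem tl_zero {n : ℕ} (u : Dl n) : tl u 0 = 1 := by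
  simp only [tl, Nat.zero_le, if_true]
  exact stdSimplex.sum_eq_one u

theorem tl_big {n : ℕ} (u : Dl n) {i : ℕ} (h : n < i) : tl u i = 0 :=
  Finset.sum_eq_zero fun a _ => by
    have := a.isLt
    rw [if_neg (by omega)]

theorem tl_succ_le {n : ℕ} (u : Dl n) (i : ℕ) : tl u (i + 1) ≤ tl u i := by
  refine Finset.sum_le_sum fun a _ => ?_
  have h0 := stdSimplex.zero_le u a
  split_ifs <;> first | exact le_rfl | exact h0 | omega

theorem tl_nonneg {n : ℕ} (u : Dl n) (i : ℕ) : 0 ≤ tl u i := by
  refine Finset.sum_nonneg fun a _ => ?_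
  have h0 := stdSimplex.zero_le u a
  split_ifs <;> first | exact le_rfl | exact h0

theorem tl_sub {n : ℕ} (u : Dl n) (i : Fin (n + 1)) : tl u i - tl u (i + 1) = u i := by
  rw [tl, tl, ← Finset.sum_sub_distrib, Finset.sum_eq_single i]
  · simp
  · intro a _ ha
    have : (a : ℕ) ≠ i := fun h => ha (Fin.ext h)
    by_cases h1 : (i : ℕ) ≤ a
    · rw [if_pos h1, if_pos (by omega), sub_self]
    · rw [if_neg h1, if_neg (by omega), sub_self]
  · simp

theorem continuous_coord {n : ℕ} (i : Fin (n + 1)) : Continuous fun u : Dl n => u i :=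
  (continuous_apply i).comp continuous_subtype_val

theorem continuous_tl {n : ℕ} (i : ℕ) : Continuous fun u : Dl n => tl u i := by
  refine continuous_finsetSum _ fun a _ => ?_
  split_ifs
  · exact continuous_coord a
  · exact continuous_const

theorem tl_map {m n : ℕ} (f : Fin (m + 1) → Fin (n + 1)) (u : Dl m) (i : ℕ) :
    tl (stdSimplex.map f u) i = ∑ a, if i ≤ (f a : ℕ) then u a else 0 := by
  unfold tl
  have : ∀ b : Fin (n + 1), (if i ≤ (b : ℕ) then stdSimplex.map f u b else 0) =
      ∑ a, if f a = b then (if i ≤ (b : ℕ) then u a else 0) else 0 := by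
    intro b
    rw [map_app]
    split_ifs
    · rfl
    · simp
  simp only [this]
  rw [Finset.sum_comm]
  refine Finset.sum_congr rfl fun a _ => ?_
  rw [Finset.sum_ite_eq]
  simp

/-- a point of the simplex from its tail sums -/
def ofTail (n : ℕ) (c : ℕ → ℝ) (h0 : c 0 = 1) (hn : c (n + 1) = 0) (ha : ∀ i, c (i + 1) ≤ c i) :
    Dl n :=
  ⟨fun i => c i - c (i + 1), fun i => sub_nonneg.2 (ha i), by
    rw [Fin.sum_univ_eq_sum_range (fun i => c i - c (i + 1)), Finset.sum_range_sub', h0, hn,
      sub_zero]⟩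


/-! ## the two collapse maps `I × Δ^N → Δ^{N+1}` -/

/-- tails of the piecewise linear collapse -/
def cP {N : ℕ} (s : ℝ) (u : Dl N) : ℕ → ℝ
  | 0 => 1
  | i + 1 => min s (tl u i)

/-- the piecewise linear collapse, realisation of the poset map `[1] × [N] → [N+1]` -/
def qP {N : ℕ} (p : I × Dl N) : Dl (N + 1) :=
  ofTail (N + 1) (cP (p.1 : ℝ) p.2) rfl
    (by show min _ _ = (0 : ℝ); rw [tl_big _ (Nat.lt_succ_self N)]; exact min_eq_right p.1.2.1)
    (fun i => by
      rcases i with _ | i
      · exact (min_le_right _ _).trans (tl_zero _).le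
      · exact min_le_min le_rfl (tl_succ_le _ _))

theorem qP_zero {N : ℕ} (p : I × Dl N) : qP p 0 = 1 - p.1 := by
  show (1 : ℝ) - min (p.1 : ℝ) (tl p.2 0) = _
  rw [tl_zero, min_eq_left p.1.2.2]

theorem qP_succ {N : ℕ} (p : I × Dl N) (i : Fin (N + 1)) :
    qP p i.succ = min (p.1 : ℝ) (tl p.2 i) - min (p.1 : ℝ) (tl p.2 (i + 1)) := by
  show cP _ _ ((i.succ : Fin (N + 2)) : ℕ) - cP _ _ (((i.succ : Fin (N + 2)) : ℕ) + 1) = _
  rw [Fin.val_succ]
  rfl

theorem continuous_qP {N : ℕ} : Continuous (qP : I × Dl N → Dl (N + 1)) := by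
  refine Continuous.subtype_mk (continuous_pi fun i => ?_) _
  have hs : Continuous fun p : I × Dl N => (p.1 : ℝ) := by fun_prop
  have ht : ∀ j, Continuous fun p : I × Dl N => tl p.2 j := fun j =>
    (continuous_tl j).comp continuous_snd
  have hc : ∀ j, Continuous fun p : I × Dl N => cP (p.1 : ℝ) p.2 j := by
    intro j
    rcases j with _ | j
    · exact continuous_const
    · exact hs.min (ht j)
  exact (hc _).sub (hc _)

/-- the bilinear collapse -/
def qB {N : ℕ} (p : I × Dl N) : Dl (N + 1) :=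
  ⟨Fin.cons (1 - (p.1 : ℝ)) (fun i : Fin (N + 1) => (p.1 : ℝ) * p.2 i), by
    intro i
    induction i using Fin.cases with
    | zero => exact sub_nonneg.2 p.1.2.2
    | succ i => exact mul_nonneg p.1.2.1 (stdSimplex.zero_le _ _), by
    rw [Fin.sum_univ_succ]
    simp only [Fin.cons_zero, Fin.cons_succ]
    rw [← Finset.mul_sum, stdSimplex.sum_eq_one]
    ring⟩

theorem qB_zero {N : ℕ} (p : I × Dl N) : qB p 0 = 1 - p.1 := rfl
theorem qB_succ {N : ℕ} (p : I × Dl N) (i : Fin (N + 1)) : qB p i.succ = p.1 * p.2 i := rfl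

theorem continuous_qB {N : ℕ} : Continuous (qB : I × Dl N → Dl (N + 1)) := by
  refine Continuous.subtype_mk (continuous_pi fun i => ?_) _
  have hs : Continuous fun p : I × Dl N => (p.1 : ℝ) := by fun_prop
  induction i using Fin.cases with
  | zero => exact continuous_const.sub hs
  | succ i => exact hs.mul ((continuous_coord i).comp continuous_snd)

/-- convex combination -/
def mix {n : ℕ} (r : I) (v w : Dl n) : Dl n :=
  ⟨fun i => (1 - (r : ℝ)) * v i + r * w i, fun i =>
    add_nonneg (mul_nonneg (sub_nonneg.2 r.2.2) (stdSimplex.zero_le _ _))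
      (mul_nonneg r.2.1 (stdSimplex.zero_le _ _)), by
    rw [Finset.sum_add_distrib, ← Finset.mul_sum, ← Finset.mul_sum, stdSimplex.sum_eq_one,
      stdSimplex.sum_eq_one]
    ring⟩

theorem mix_app {n : ℕ} (r : I) (v w : Dl n) (i : Fin (n + 1)) :
    mix r v w i = (1 - (r : ℝ)) * v i + r * w i := rfl

theorem continuous_mix {n : ℕ} : Continuous fun p : I × (Dl n × Dl n) => mix p.1 p.2.1 p.2.2 := by
  refine Continuous.subtype_mk (continuous_pi fun i => ?_) _
  have hs : Continuous fun p : I × (Dl n × Dl n) => (p.1 : ℝ) := by fun_prop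
  have h1 : Continuous fun p : I × (Dl n × Dl n) => p.2.1 i := (continuous_coord i).comp (by fun_prop)
  have h2 : Continuous fun p : I × (Dl n × Dl n) => p.2.2 i := (continuous_coord i).comp (by fun_prop)
  exact ((continuous_const.sub hs).mul h1).add (hs.mul h2)

theorem mix_self {n : ℕ} (r : I) (v : Dl n) : mix r v v = v :=
  stdSimplex.ext (funext fun i => by rw [mix_app]; ring)

theorem mix_zero {n : ℕ} (v w : Dl n) : mix 0 v w = v :=
  stdSimplex.ext (funext fun i => by rw [mix_app]; simp)

theorem mix_one {n : ℕ} (v w : Dl n) : mix 1 v w = w :=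
  stdSimplex.ext (funext fun i => by rw [mix_app]; simp)

/-- the vertex `0` -/
theorem qB_left {N : ℕ} (u : Dl N) : qB (0, u) = qP (0, u) := by
  refine stdSimplex.ext (funext fun i => ?_)
  induction i using Fin.cases with
  | zero => rw [qB_zero, qP_zero]
  | succ i =>
    rw [qB_succ, qP_succ]
    show (0 : ℝ) * _ = min 0 _ - min 0 _
    rw [min_eq_left (tl_nonneg _ _), min_eq_left (tl_nonneg _ _)]
    ring

theorem qB_right {N : ℕ} (u : Dl N) : qB (1, u) = qP (1, u) := by
  refine stdSimplex.ext (funext fun i => ?_)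
  have h1 : ∀ j, tl u j ≤ 1 := by
    intro j
    induction j with
    | zero => exact (tl_zero u).le
    | succ j ih => exact (tl_succ_le u j).trans ih
  induction i using Fin.cases with
  | zero => rw [qB_zero, qP_zero]
  | succ i =>
    rw [qB_succ, qP_succ]
    show (1 : ℝ) * _ = min 1 _ - min 1 _
    rw [min_eq_right (h1 _), min_eq_right (h1 _), tl_sub]
    ring

/-- boundary points: `s = 0` -/
theorem qB_zero_mem {N : ℕ} (u : Dl N) : qB (0, u) ∈ Bdy (N + 1) :=
  ⟨(0 : Fin (N + 1)).succ, by rw [qB_succ]; show (0 : ℝ) * _ = 0; ring⟩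

theorem qB_one_mem {N : ℕ} (u : Dl N) : qB (1, u) ∈ Bdy (N + 1) :=
  ⟨0, by rw [qB_zero]; show (1 : ℝ) - 1 = 0; ring⟩

theorem mix_mem {N : ℕ} (r : I) (s : I) {u : Dl N} (hu : u ∈ Bdy N) :
    mix r (qB (s, u)) (qP (s, u)) ∈ Bdy (N + 1) := by
  obtain ⟨i, hi⟩ := hu
  refine ⟨i.succ, ?_⟩
  rw [mix_app, qB_succ, qP_succ]
  have h := tl_sub u i
  rw [hi] at h
  have h' : tl u i = tl u (i + 1) := by linarith
  show _ * ((s : ℝ) * u i) + _ * (min (s : ℝ) (tl u i) - min (s : ℝ) (tl u (i + 1))) = 0
  rw [hi, h']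
  ring

/-! ## the adjoint simplex -/

theorem qB_surjective {N : ℕ} : Function.Surjective (qB : I × Dl N → Dl (N + 1)) := by
  intro v
  have hs := stdSimplex.sum_eq_one v
  rw [Fin.sum_univ_succ] at hs
  by_cases h : v 0 = 1
  · have hz : ∀ i : Fin (N + 1), v i.succ = 0 := by
      have h1 : ∑ i : Fin (N + 1), v i.succ = 0 := by rw [h] at hs; linarith
      intro i
      exact (Finset.sum_eq_zero_iff_of_nonneg (fun i _ => stdSimplex.zero_le v _)).1 h1 i
        (Finset.mem_univ _)
    refine ⟨(0, Classical.arbitrary _), stdSimplex.ext (funext fun i => ?_)⟩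
    induction i using Fin.cases with
    | zero => rw [qB_zero, h]; show (1 : ℝ) - 0 = 1; ring
    | succ i => rw [qB_succ, hz]; show (0 : ℝ) * _ = 0; ring
  · have h0 := stdSimplex.zero_le v 0
    have h1 := stdSimplex.le_one v 0
    have hpos : 0 < 1 - v 0 := by
      have : v 0 < 1 := lt_of_le_of_ne h1 h
      linarith
    refine ⟨(⟨1 - v 0, hpos.le, by linarith⟩, ⟨fun i => v i.succ / (1 - v 0), fun i =>
      div_nonneg (stdSimplex.zero_le _ _) hpos.le, ?_⟩), stdSimplex.ext (funext fun i => ?_)⟩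
    · rw [← Finset.sum_div, div_eq_one_iff_eq hpos.ne']
      linarith
    · induction i using Fin.cases with
      | zero => rw [qB_zero]; show (1 : ℝ) - (1 - v 0) = v 0; ring
      | succ i =>
        rw [qB_succ]
        show (1 - v 0) * (v i.succ / (1 - v 0)) = v i.succ
        field_simp

theorem isQuotientMap_qB {N : ℕ} : Topology.IsQuotientMap (qB : I × Dl N → Dl (N + 1)) :=
  continuous_qB.isClosedMap.isQuotientMap continuous_qB qB_surjective

variable {P Y : Type} [TopologicalSpace P] [TopologicalSpace Y] {g0 : P} {y0 : Y}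

namespace LoopStr

variable (Λ : LoopStr P Y g0 y0)

/-- `x` is the adjoint of `a` (bilinear collapse) -/
theorem exists_adjoint {N : ℕ} (a : (SS.Sing P).S N)
    (ha : IsSph (K := SS.Sing P) (cY g0 0) a) :
    ∃ x : (SS.Sing Y).S (N + 1), IsSph (K := SS.Sing Y) (cY y0 0) x ∧
      ∀ (s : I) (u : Dl N), sg x (qB (s, u)) = Λ.ev (s, sg a u) := by
  rw [isSph_iff] at ha
  have hf : ∀ p p' : I × Dl N, qB p = qB p' → Λ.ev (p.1, sg a p.2) = Λ.ev (p'.1, sg a p'.2) := by
    rintro ⟨s, u⟩ ⟨s', u'⟩ h
    have h0 := congrArg (fun v : Dl (N + 1) => v 0) h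
    simp only [qB_zero] at h0
    have hs : s = s' := Subtype.ext (by linarith)
    subst hs
    by_cases hz : (s : ℝ) = 0
    · have : s = 0 := Subtype.ext hz
      subst this
      rw [Λ.ev_zero, Λ.ev_zero]
    · have : u = u' := by
        refine stdSimplex.ext (funext fun i => ?_)
        have hi := congrArg (fun v : Dl (N + 1) => v i.succ) h
        simp only [qB_succ] at hi
        exact mul_left_cancel₀ hz hi
      rw [this]
  let F : C(I × Dl N, Y) := ⟨fun p => Λ.ev (p.1, sg a p.2),
    Λ.ev.continuous.comp (continuous_fst.prodMk ((sg a).continuous.comp continuous_snd))⟩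
  let qBc : C(I × Dl N, Dl (N + 1)) := ⟨qB, continuous_qB⟩
  have hq : Topology.IsQuotientMap qBc := isQuotientMap_qB
  let x : C(Dl (N + 1), Y) := hq.lift F (fun p p' h => hf p p' h)
  have hx : ∀ (s : I) (u : Dl N), x (qB (s, u)) = Λ.ev (s, sg a u) := by
    intro s u
    exact congrArg (fun f : C(I × Dl N, Y) => f (s, u))
      (hq.lift_comp F (fun p p' h => hf p p' h))
  refine ⟨x, ?_, hx⟩
  rw [isSph_iff]
  intro v hv
  obtain ⟨⟨s, u⟩, rfl⟩ := qB_surjective v
  show x (qB (s, u)) = y0
  rw [hx]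
  obtain ⟨i, hi⟩ := hv
  induction i using Fin.cases with
  | zero =>
    rw [qB_zero] at hi
    have : s = 1 := Subtype.ext (by show (s : ℝ) = 1; linarith)
    rw [this, Λ.ev_one]
  | succ i =>
    rw [qB_succ] at hi
    rcases mul_eq_zero.1 hi with h | h
    · have : s = 0 := Subtype.ext h
      rw [this, Λ.ev_zero]
    · rw [ha u ⟨i, h⟩, Λ.ev_base]

/-- data of the adjoint relation used at chain level: `x : Δ^{N+1} → Y` spherical, `a'` the
piecewise linear adjoint of `x`, `G` a homotopy from `a` to `a'` rel boundary -/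
theorem exists_adjoint' {N : ℕ} (a : (SS.Sing P).S N)
    (ha : IsSph (K := SS.Sing P) (cY g0 0) a) :
    ∃ (x : (SS.Sing Y).S (N + 1)) (a' : (SS.Sing P).S N) (G : C(I × Dl N, P)),
      IsSph (K := SS.Sing Y) (cY y0 0) x ∧ IsSph (K := SS.Sing P) (cY g0 0) a' ∧
      (∀ (s : I) (u : Dl N), Λ.ev (s, sg a' u) = sg x (qP (s, u))) ∧
      (∀ u, G (0, u) = sg a u) ∧ (∀ u, G (1, u) = sg a' u) ∧
      (∀ r u, u ∈ Bdy N → G (r, u) = g0) := by
  obtain ⟨x, hx, hxa⟩ := Λ.exists_adjoint a ha
  have hx' := (isSph_iff y0 x).1 hx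
  -- the homotopy
  let F : C(I × (I × Dl N), Y) := ⟨fun p => sg x (mix p.2.1 (qB (p.1, p.2.2)) (qP (p.1, p.2.2))), by
    refine (sg x).continuous.comp ?_
    have h1 : Continuous fun p : I × (I × Dl N) => (p.1, p.2.2) := by fun_prop
    exact continuous_mix.comp ((by fun_prop : Continuous fun p : I × (I × Dl N) => p.2.1).prodMk
      ((continuous_qB.comp h1).prodMk (continuous_qP.comp h1)))⟩
  have hF0 : ∀ t, F (0, t) = y0 := by
    rintro ⟨r, u⟩
    show sg x (mix r (qB (0, u)) (qP (0, u))) = y0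
    rw [← qB_left, mix_self]
    exact hx' _ (qB_zero_mem u)
  have hF1 : ∀ t, F (1, t) = y0 := by
    rintro ⟨r, u⟩
    show sg x (mix r (qB (1, u)) (qP (1, u))) = y0
    rw [← qB_right, mix_self]
    exact hx' _ (qB_one_mem u)
  obtain ⟨G, hG⟩ := Λ.curry F hF0 hF1
  let a' : C(Dl N, P) := ⟨fun u => G (1, u), by fun_prop⟩
  have hbd : ∀ r u, u ∈ Bdy N → G (r, u) = g0 := by
    intro r u hu
    refine Λ.inj _ _ fun s => ?_
    rw [hG, Λ.ev_base]
    exact hx' _ (mix_mem r s hu)
  refine ⟨x, a', G, hx, ?_, ?_, ?_, fun _ => rfl, hbd⟩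
  · rw [isSph_iff]
    intro v hv
    exact hbd 1 v hv
  · intro s u
    show Λ.ev (s, G (1, u)) = _
    rw [hG]
    show sg x (mix 1 _ _) = _
    rw [mix_one]
  · intro u
    refine Λ.inj _ _ fun s => ?_
    rw [hG, ← hxa]
    show sg x (mix 0 _ _) = _
    rw [mix_zero]

end LoopStr

/-! ## the poset map `[1] × [N] → [N+1]` and its realisation -/

/-- `(0,i) ↦ 0`, `(1,i) ↦ i+1` -/
def piO {m N : ℕ} (θ : Op m 1) (φ : Op m N) : Op m (N + 1) :=
  ⟨fun a => if θ a = 0 then 0 else (φ a).succ, by
    intro a b hab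
    have h1 := θ.monotone hab
    have h2 := φ.monotone hab
    simp only
    split_ifs with ha hb hb
    · exact le_rfl
    · exact Fin.zero_le _
    · rw [hb] at h1
      exact absurd (Fin.le_zero_iff.1 h1) ha
    · exact Fin.succ_le_succ_iff.2 h2⟩

theorem piO_apply {m N : ℕ} (θ : Op m 1) (φ : Op m N) (a : Fin (m + 1)) :
    piO θ φ a = if θ a = 0 then 0 else (φ a).succ := rfl

/-- the simplicial map `std 1 × std N → std (N+1)` -/
def piH (N : ℕ) : SS.Hom ((SS.std 1).prod (SS.std N)) (SS.std (N + 1)) :=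
  ⟨fun _ x => piO x.1 x.2, fun _ _ => rfl⟩

/-- the piecewise linear collapse realises `piO` -/
theorem qP_map {m N : ℕ} (θ : Op m 1) (φ : Op m N) (u : Dl m) :
    qP (lam1 (stdSimplex.map θ u), stdSimplex.map φ u) = stdSimplex.map (piO θ φ) u := by
  have key : ∀ i : ℕ, min (lam1 (stdSimplex.map θ u) : ℝ) (tl (stdSimplex.map φ u) i) =
      ∑ a, if θ a = 1 ∧ i ≤ (φ a : ℕ) then u a else 0 := by
    intro i
    rw [tl_map, lam1_val, map_app]
    -- the two sets of indices are nested
    by_cases hn : ∀ a, θ a = 1 → i ≤ (φ a : ℕ)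
    · rw [min_eq_left]
      · refine Finset.sum_congr rfl fun a _ => ?_
        by_cases h : θ a = 1
        · rw [if_pos h, if_pos ⟨h, hn a h⟩]
        · rw [if_neg h, if_neg (fun h' => h h'.1)]
      · refine Finset.sum_le_sum fun a _ => ?_
        have h0 := stdSimplex.zero_le u a
        by_cases h : θ a = 1
        · rw [if_pos h, if_pos (hn a h)]
        · rw [if_neg h]
          split_ifs
          · exact h0
          · exact le_rfl
    · push Not at hn
      obtain ⟨b, hb1, hb2⟩ := hn
      have hn' : ∀ a, i ≤ (φ a : ℕ) → θ a = 1 := by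
        intro a ha
        have hab : b ≤ a := by
          by_contra hcon
          have h3 := φ.monotone (le_of_not_ge hcon)
          rw [Fin.le_def] at h3
          omega
        have h4 := θ.monotone hab
        rw [hb1] at h4
        exact le_antisymm (Fin.le_last _) h4
      rw [min_eq_right]
      · refine Finset.sum_congr rfl fun a _ => ?_
        by_cases h : i ≤ (φ a : ℕ)
        · rw [if_pos h, if_pos ⟨hn' a h, h⟩]
        · rw [if_neg h, if_neg (fun h' => h h'.2)]
      · refine Finset.sum_le_sum fun a _ => ?_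
        have h0 := stdSimplex.zero_le u a
        by_cases h : i ≤ (φ a : ℕ)
        · rw [if_pos h, if_pos (hn' a h)]
        · rw [if_neg h]
          split_ifs
          · exact h0
          · exact le_rfl
  have htl : ∀ i : ℕ, tl (stdSimplex.map (piO θ φ) u) (i + 1) =
      ∑ a, if θ a = 1 ∧ i ≤ (φ a : ℕ) then u a else 0 := by
    intro i
    rw [tl_map]
    refine Finset.sum_congr rfl fun a _ => ?_
    have hiff : i + 1 ≤ (piO θ φ a : ℕ) ↔ θ a = 1 ∧ i ≤ (φ a : ℕ) := by
      rw [piO_apply]
      by_cases h : θ a = 0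
      · rw [if_pos h, h]
        simp
      · have h1 : θ a = 1 := by
          refine Fin.ext ?_
          have h2 := (θ a).isLt
          have : (θ a : ℕ) ≠ 0 := fun h' => h (Fin.ext h')
          show (θ a : ℕ) = 1
          omega
        rw [if_neg h, h1]
        simp
    simp only [hiff]
  refine stdSimplex.ext (funext fun i => ?_)
  induction i using Fin.cases with
  | zero =>
    rw [qP_zero, ← tl_sub (stdSimplex.map (piO θ φ) u) 0]
    show _ = tl _ 0 - tl _ (0 + 1)
    rw [tl_zero, htl, ← key, tl_zero, min_eq_left (lam1 _).2.2]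
  | succ i =>
    rw [qP_succ, ← tl_sub (stdSimplex.map (piO θ φ) u) i.succ]
    simp only [Fin.val_succ]
    rw [htl, htl, key, key]

end Crest.Agent.R204.Sus330
end
end

-- ▼ part R204/Sigma_330

/-!
# Row 204, block E / C7 (helper330): the loop suspension on normalised chains
`sig c = ev_*(ι × c)` and spherical simplices
-/

set_option autoImplicit false

noncomputable section

namespace Crest.Agent.R204.Sus330

open Cone330
open EZ271 (cross cross_sx map_cross map_map map_bd' map_idHom aug bd_sx_succ bd_sx_zero hom_ext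
  aug_map aug_cross bd_cross sg_sx yo_iota comp_yo)
open scoped unitInterval

variable (R : Type) [CommRing R]

/-! ## generalities -/

/-- a constant simplicial map -/
theorem map_constHom {K L : SS} (f : SS.Hom K L) (b : L.S 0) (h : ∀ n x, f.app n x = base L b n)
    (c : N R K) : N.map R f c = aug R c • N.sx R b := by
  have : N.map R f = (aug R (K := K)).smulRight (N.sx R b) := by
    refine hom_ext fun n x => ?_
    rw [N.map_sx, h, LinearMap.smulRight_apply]
    rcases n with _ | n
    · rw [EZ271.aug_sx_zero, one_smul, base_zero]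
    · rw [EZ271.aug_sx_succ, zero_smul, sx_base L b R (Nat.succ_pos n)]
  exact LinearMap.congr_fun this c

/-- the constant simplicial map at a vertex -/
def kst {J : SS} (K : SS) (x : K.S 0) : SS.Hom J K := ⟨fun n _ => base K x n, fun f _ => by
  rw [act_base]⟩

theorem E_zero (q : ℕ) : EZ271.E R 0 q =
    N.sx R (K := (SS.std 0).prod (SS.std q)) (n := q) (cst q, (OrderHom.id : Op q q)) := by
  induction q with
  | zero =>
    rw [EZ271.E_zero_zero]
    congr 1
    refine Prod.ext ?_ ?_
    · rfl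
    · exact OrderHom.ext _ _ (funext fun a => Fin.ext (by
        have := a.isLt
        show 0 = (a : ℕ)
        omega))
  | succ q ih =>
    rw [EZ271.E_zero_succ, ih, N.map_sx, EZ271.Cone.c_sx]
    congr 1
    refine Prod.ext ?_ ?_
    · refine OrderHom.ext _ _ (funext fun a => ?_)
      induction a using Fin.cases with
      | zero => rfl
      | succ a => rfl
    · refine OrderHom.ext _ _ (funext fun a => ?_)
      induction a using Fin.cases with
      | zero => rfl
      | succ a => rfl

/-- cross product with a vertex -/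
theorem cross_vertex {K L : SS} (x : K.S 0) (c : N R L) :
    cross R (N.sx R x) c = N.map R (SS.pair (kst K x) (SS.Hom.id L)) c := by
  have : cross R (L := L) (N.sx R x) = N.map R (SS.pair (kst K x) (SS.Hom.id L)) := by
    refine hom_ext fun q y => ?_
    rw [cross_sx, E_zero, N.map_sx, N.map_sx]
    congr 1
    refine Prod.ext rfl ?_
    exact L.act_id y
  exact LinearMap.congr_fun this c

/-- degrees of the universal shuffle chain -/
theorem mem_gr_sx {K : SS} {n : ℕ} (x : K.S n) : N.sx R x ∈ N.gr R K n :=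
  Submodule.mem_map_of_mem (Submodule.subset_span ⟨x, rfl⟩)

theorem gr_ind {K : SS} {n : ℕ} {p : N R K → Prop} {c : N R K} (hc : c ∈ N.gr R K n)
    (h0 : p 0) (hadd : ∀ a b, p a → p b → p (a + b)) (hsmul : ∀ (r : R) a, p a → p (r • a))
    (hsx : ∀ x : K.S n, p (N.sx R x)) : p c := by
  have : N.gr R K n = Submodule.span R {c | ∃ x : K.S n, c = N.sx R x} := by
    rw [N.gr, Ch.gr, Submodule.map_span]
    congr 1
    ext c
    constructor
    · rintro ⟨_, ⟨x, rfl⟩, rfl⟩; exact ⟨x, rfl⟩
    · rintro ⟨x, rfl⟩; exact ⟨_, ⟨x, rfl⟩, rfl⟩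
  rw [this] at hc
  refine Submodule.span_induction (p := fun c _ => p c) ?_ h0 (fun a b _ _ => hadd a b)
    (fun r a _ => hsmul r a) hc
  rintro _ ⟨x, rfl⟩
  exact hsx x

theorem map_mem_gr {K L : SS} (f : SS.Hom K L) {n : ℕ} {c : N R K} (hc : c ∈ N.gr R K n) :
    N.map R f c ∈ N.gr R L n := by
  refine gr_ind R (p := fun c => N.map R f c ∈ N.gr R L n) hc (by simp) ?_ ?_ ?_
  · intro a b ha hb; rw [map_add]; exact Submodule.add_mem _ ha hb
  · intro r a ha; rw [map_smul]; exact Submodule.smul_mem _ _ ha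
  · intro x; rw [N.map_sx]; exact mem_gr_sx R _

theorem c_mem_gr {K : SS} (A : EZ271.Cone K) {n : ℕ} {c : N R K} (hc : c ∈ N.gr R K n) :
    A.c R c ∈ N.gr R K (n + 1) := by
  refine gr_ind R (p := fun c => A.c R c ∈ N.gr R K (n + 1)) hc (by simp) ?_ ?_ ?_
  · intro a b ha hb; rw [map_add]; exact Submodule.add_mem _ ha hb
  · intro r a ha; rw [map_smul]; exact Submodule.smul_mem _ _ ha
  · intro x; rw [EZ271.Cone.c_sx]; exact mem_gr_sx R _

theorem E_mem_gr (n : ℕ) : ∀ p q : ℕ, p + q = n → EZ271.E R p q ∈ N.gr R _ n := by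
  induction n with
  | zero =>
    intro p q h
    obtain rfl : p = 0 := by omega
    obtain rfl : q = 0 := by omega
    rw [EZ271.E_zero_zero]
    exact mem_gr_sx R _
  | succ n ih =>
    intro p q h
    rcases p with _ | p <;> rcases q with _ | q
    · omega
    · rw [EZ271.E_zero_succ]
      exact c_mem_gr R _ (map_mem_gr R _ (ih 0 q (by omega)))
    · rw [EZ271.E_succ_zero]
      exact c_mem_gr R _ (map_mem_gr R _ (ih p 0 (by omega)))
    · rw [EZ271.E_succ_succ]
      exact c_mem_gr R _ (Submodule.add_mem _ (map_mem_gr R _ (ih p (q + 1) (by omega)))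
        (Submodule.smul_mem _ _ (map_mem_gr R _ (ih (p + 1) q (by omega)))))

theorem cross_mem_gr {K L : SS} {p q : ℕ} {a : N R K} {b : N R L} (ha : a ∈ N.gr R K p)
    (hb : b ∈ N.gr R L q) : cross R a b ∈ N.gr R (K.prod L) (p + q) := by
  refine gr_ind R (p := fun a => cross R a b ∈ N.gr R (K.prod L) (p + q)) ha (by simp) ?_ ?_ ?_
  · intro a b ha hb; rw [map_add]; exact Submodule.add_mem _ ha hb
  · intro r a ha; rw [map_smul]; exact Submodule.smul_mem _ _ ha
  · intro x
    refine gr_ind R (p := fun b => cross R (N.sx R x) b ∈ N.gr R (K.prod L) (p + q)) hb (by simp)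
      ?_ ?_ ?_
    · intro a b ha hb; rw [map_add]; exact Submodule.add_mem _ ha hb
    · intro r a ha; rw [map_smul]; exact Submodule.smul_mem _ _ ha
    · intro y
      rw [cross_sx]
      exact map_mem_gr R _ (E_mem_gr R _ p q rfl)

/-- the fundamental simplex of `Δ^1` -/
def io : (SS.std 1).S 1 := (OrderHom.id : Op 1 1)

/-- the vertices of `Δ^1` -/
def ve (i : Fin 2) : (SS.std 1).S 0 := (⟨fun _ => i, fun _ _ _ => le_rfl⟩ : Op 0 1)

theorem bd_io : N.bd R (SS.std 1) (N.sx R io) = N.sx R (ve 1) - N.sx R (ve 0) := by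
  rw [bd_sx_succ, Fin.sum_univ_two]
  have h0 : (SS.std 1).act (Op.face 0) io = ve 1 := by
    refine OrderHom.ext _ _ (funext fun a => ?_)
    have : a = 0 := Fin.ext (by omega)
    subst this
    rfl
  have h1 : (SS.std 1).act (Op.face 1) io = ve 0 := by
    refine OrderHom.ext _ _ (funext fun a => ?_)
    have : a = 0 := Fin.ext (by omega)
    subst this
    rfl
  rw [h0, h1]
  simp only [Fin.val_zero, pow_zero, one_smul, Fin.val_one, pow_one, neg_smul]
  rw [sub_eq_add_neg]

variable {P Y : Type} [TopologicalSpace P] [TopologicalSpace Y] {g0 : P} {y0 : Y}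

namespace LoopStr

variable (Λ : LoopStr P Y g0 y0)

/-- loop suspension on normalised chains -/
def sig : N R (SS.Sing P) →ₗ[R] N R (SS.Sing Y) := N.map R Λ.evH ∘ₗ cross R (N.sx R io)

theorem sig_apply (c : N R (SS.Sing P)) : Λ.sig R c = N.map R Λ.evH (cross R (N.sx R io) c) := rfl

theorem map_evH_vertex (i : Fin 2) (c : N R (SS.Sing P)) :
    N.map R Λ.evH (cross R (N.sx R (ve i)) c) = aug R c • N.sx R (cY y0 0) := by
  rw [cross_vertex, map_map]
  refine map_constHom R _ _ (fun n x => ?_) c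
  rw [base_sing]
  fin_cases i
  · exact Λ.evH_zero _ (fun _ => rfl) x
  · exact Λ.evH_one _ (fun _ => rfl) x

theorem bd_sig (c : N R (SS.Sing P)) : N.bd R _ (Λ.sig R c) = - Λ.sig R (N.bd R _ c) := by
  rw [sig_apply, ← map_bd', bd_cross, map_add, bd_io, map_sub, LinearMap.sub_apply, map_sub,
    map_evH_vertex, map_evH_vertex, sub_self, zero_add, sg_sx, map_smul, LinearMap.smul_apply,
    map_smul, pow_one, neg_smul, one_smul, sig_apply]

theorem sig_mem_gr {n : ℕ} {c : N R (SS.Sing P)} (hc : c ∈ N.gr R _ n) :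
    Λ.sig R c ∈ N.gr R _ (n + 1) := by
  rw [sig_apply, add_comm n 1]
  exact map_mem_gr R _ (cross_mem_gr R (mem_gr_sx R _) hc)


end LoopStr

/-! ## the poset collapse -/

theorem isConeMap_piH (N' : ℕ) : EZ271.IsConeMap (EZ271.Cpq 1 N') (EZ271.Cone.std (N' + 1))
    (piH N') where
  k x := by
    refine OrderHom.ext _ _ (funext fun a => ?_)
    induction a using Fin.cases with
    | zero => rfl
    | succ a => rfl

/-- the collapse `[1] × [N] → [N+1]` has degree one, strictly -/
theorem map_piH_E (q : ℕ) : N.map R (piH q) (EZ271.E R 1 q) =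
    N.sx R (K := SS.std (q + 1)) (OrderHom.id : Op (q + 1) (q + 1)) := by
  have hid : ∀ q : ℕ, (EZ271.Cone.std (q + 1)).k (n := q)
      (piO (N := q) ((Op.face 0).comp (cst q)) (OrderHom.id : Op q q)) =
      (OrderHom.id : Op (q + 1) (q + 1)) := by
    intro q
    refine OrderHom.ext _ _ (funext fun a => ?_)
    induction a using Fin.cases with
    | zero => rfl
    | succ a =>
      show piO ((Op.face 0).comp (cst q)) (OrderHom.id : Op q q) a = a.succ
      rw [piO_apply, if_neg]
      · rfl
      · intro h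
        have := congrArg Fin.val h
        rw [OrderHom.comp_coe, Function.comp_apply, Ch.face_val] at this
        simp at this
  induction q with
  | zero =>
    rw [EZ271.E_succ_zero, (isConeMap_piH 0).c, map_map, E_zero, N.map_sx, EZ271.Cone.c_sx]
    congr 1
    exact hid 0
  | succ q ih =>
    rw [EZ271.E_succ_succ, (isConeMap_piH (q + 1)).c, map_add, map_add, map_smul, map_smul, map_map,
      map_map, E_zero, N.map_sx, EZ271.Cone.c_sx]
    have h2 : SS.Hom.comp (piH (q + 1)) (SS.prodMap (SS.Hom.id (SS.std 1))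
        (EZ271.stdMap (Op.face (0 : Fin (q + 2))))) =
        SS.Hom.comp (EZ271.stdMap (Op.face (1 : Fin (q + 3)))) (piH q) := by
      refine SS.Hom.ext (funext fun n => funext fun x => OrderHom.ext _ _ (funext fun a => ?_))
      show (if so x.1 a = 0 then (0 : Fin (q + 3)) else (Op.face 0 (so x.2 a)).succ) =
        Op.face 1 (if so x.1 a = 0 then (0 : Fin (q + 2)) else (so x.2 a).succ)
      split_ifs with h
      · ext; rw [Ch.face_val]; simp
      · ext; rw [Ch.face_val, Fin.val_succ, Fin.val_succ, Ch.face_val]; simp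
    rw [h2, ← map_map, ih, N.map_sx]
    have h3 : (EZ271.Cone.std (q + 1 + 1)).c R (N.sx R (K := SS.std (q + 1 + 1))
        ((EZ271.stdMap (Op.face (1 : Fin (q + 3)))).app (q + 1)
          (OrderHom.id : Op (q + 1) (q + 1)))) = 0 := by
      have h4 : ((EZ271.stdMap (Op.face (1 : Fin (q + 3)))).app (q + 1)
          (OrderHom.id : Op (q + 1) (q + 1)) : (SS.std (q + 1 + 1)).S (q + 1)) =
          (EZ271.Cone.std (q + 1 + 1)).k (n := q)
            ((Op.face (1 : Fin (q + 3))).comp (Op.face (0 : Fin (q + 2))) : Op q (q + 2)) := by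
        refine OrderHom.ext _ _ (funext fun a => ?_)
        induction a using Fin.cases with
        | zero => rfl
        | succ a => rfl
      rw [h4, ← EZ271.Cone.c_sx, EZ271.Cone.c_c]
    rw [h3, smul_zero, add_zero]
    congr 1
    exact hid (q + 1)

namespace LoopStr

variable (Λ : LoopStr P Y g0 y0)

/-- `σ(a') = x` exactly, for the piecewise linear adjoint `a'` of `x` -/
theorem sig_adj {q : ℕ} (a : (SS.Sing P).S q) (x : (SS.Sing Y).S (q + 1))
    (h : ∀ (s : I) (u : Dl q), Λ.ev (s, sg a u) = sg x (qP (s, u))) :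
    Λ.sig R (N.sx R a) = N.sx R x := by
  rw [sig_apply, cross_sx, map_map]
  have : SS.Hom.comp Λ.evH (SS.prodMap ((SS.std 1).yo io) ((SS.Sing P).yo a)) =
      ((SS.Sing Y).yo x).comp (piH q) := by
    refine SS.Hom.ext (funext fun n => funext fun y => ContinuousMap.ext fun u => ?_)
    have e := h (lam1 (stdSimplex.map (so y.1) u)) (stdSimplex.map (so y.2) u)
    rw [qP_map] at e
    exact e
  rw [this, ← map_map, map_piH_E, N.map_sx]
  congr 1
  exact (SS.Sing Y).act_id x

end LoopStr

end Crest.Agent.R204.Sus330
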