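import Crest.Agent.R204.Sigma_88
import Crest.Agent.R204.Sigma_330
import Crest.Agent.R204.LoopGen_330
import Crest.Agent.R204.HspSS_696
import Crest.Agent.R204.ThetaSS_265

/-!
# Row 204, C7 / FactSigma (helper88): the loop suspension for 330's loop structures and for
`Ω^(n+1) Z = Ω Ω^n Z` (last coordinate)
-/

set_option autoImplicit false

noncomputable section

open scoped Topology unitInterval Topology.Homotopy TensorProduct

namespace Crest.Agent.R204.Sigma88

open Sus330 Coalg847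

section loop

variable {P Y : Type} [TopologicalSpace P] [TopologicalSpace Y] {g0 : P} {y0 : Y}
variable (Λ : LoopStr P Y g0 y0)

/-- the base vertex -/
abbrev bV (Y : Type) [TopologicalSpace Y] (y0 : Y) : (SS.Sing Y).S 0 := LoopStr.cY y0 0

theorem ends : Ends Λ.evH (bV Y y0) where
  zero _ x := Λ.evH_zero _ (fun _ => rfl) x
  one _ x := Λ.evH_one _ (fun _ => rfl) x

/-- **loop suspension** `H(P) → H(Y)` -/
def sigH : H F2 (SS.Sing P) →ₗ[F2] H F2 (SS.Sing Y) := sgH (ends Λ)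

theorem sigH_mk (z : N F2 (SS.Sing P)) (hz : N.bd F2 _ z = 0) :
    sigH Λ (Hd.mk _ z hz) = Hd.mk _ (Λ.sig F2 z) (by rw [LoopStr.bd_sig F2 Λ, hz, map_zero, neg_zero]) := rfl

theorem sigH_mem_gr {n : ℕ} {x : H F2 (SS.Sing P)} (hx : x ∈ H.gr F2 _ n) :
    sigH Λ x ∈ H.gr F2 (SS.Sing Y) (n + 1) := sgH_mem_gr _ hx

theorem cop_sigH (E : EZData) (x : H F2 (SS.Sing P)) :
    E.cop _ (sigH Λ x) = sigH Λ x ⊗ₜ vtx (bV Y y0) + vtx (bV Y y0) ⊗ₜ sigH Λ x :=
  cop_sgH E _ x


theorem sigH_muH (x : H F2 ((SS.Sing P).prod (SS.Sing P))) :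
    sigH Λ (H.map F2 Λ.muH x) = sigH Λ (H.map F2 (SS.fst _ _) x) + sigH Λ (H.map F2 (SS.snd _ _) x) :=
  sgH_mul (ends Λ) Λ.sH (SS.fst _ _) (SS.snd _ _) Λ.muH
    (SS.Hom.ext (funext fun _ => funext fun x => Λ.sH_face_two x.1 x.2.1 x.2.2))
    (SS.Hom.ext (funext fun _ => funext fun x => Λ.sH_face_zero x.1 x.2.1 x.2.2))
    (SS.Hom.ext (funext fun _ => funext fun x => Λ.sH_face_one x.1 x.2.1 x.2.2)) x

theorem sigH_mul (E : EZData) (a b : H F2 (SS.Sing P)) :
    sigH Λ (H.map F2 Λ.muH (E.cr _ _ (a ⊗ₜ b))) =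
      eps _ a • sigH Λ b + eps _ b • sigH Λ a := by
  rw [sigH_muH, E.fst_cr, E.snd_cr, map_smul, map_smul, add_comm]

end loop

section gen

variable {Z : Type} [TopologicalSpace Z] {z₀ : Z}

/-- concatenation in the last coordinate -/
theorem mul_genLoop {n : ℕ} (x y : Ω^ (Fin (n + 1)) Z z₀) :
    (genLoop (Z := Z) (z₀ := z₀) n).mul (x, y) = GenLoop.transAt (Fin.last n) x y := by
  refine (genLoop (Z := Z) (z₀ := z₀) n).inj _ _ fun s => ?_
  rw [LoopStr.ev_mul]
  have h := congrArg (fun p => p s) (Hsp696.loopLast_transAt x y)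
  simp only [Hsp696.loopLast_apply, Path.trans_apply] at h
  refine Eq.trans ?_ h.symm
  show (if (s : ℝ) ≤ 1 / 2 then Cubes735.ev (dblL s) x else Cubes735.ev (dblR s) y) = _
  have hs0 := s.2.1
  have hs1 := s.2.2
  split_ifs with h1
  · congr 1
    refine Subtype.ext ?_
    show min (2 * (s : ℝ)) 1 = 2 * (s : ℝ)
    exact min_eq_left (by linarith)
  · congr 1
    refine Subtype.ext ?_
    show max (2 * (s : ℝ) - 1) 0 = 2 * (s : ℝ) - 1
    exact max_eq_left (by linarith)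

theorem muH_genLoop (n : ℕ) : (genLoop (Z := Z) (z₀ := z₀) n).muH =
    HspSS696.mulS (Hsp696.halves (Fin.last n)) := by
  refine SS.Hom.ext (funext fun m => funext fun x => SingAct265.sing_ext fun t => ?_)
  refine (mul_genLoop _ _).trans ?_
  exact (Hsp696.mu_halves (Fin.last n) _ _).symm

/-- the Pontryagin product does not depend on the configuration -/
theorem map_mulS (hA : SpecA.HomotopyInv) {n : ℕ} [Nontrivial (Fin (n + 1))]
    (c : Cubes735.BoxConf (Fin 2) (Fin (n + 1))) :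
    H.map F2 (HspSS696.mulS (Z := Z) (z₀ := z₀) c) =
      H.map F2 (genLoop (Z := Z) (z₀ := z₀) n).muH := by
  rw [muH_genLoop]
  obtain ⟨h⟩ := HspSS696.mulS_htpy' (Z := Z) (z₀ := z₀) c (Hsp696.halves (Fin.last n))
  exact ThetaSS265.Htpy_homology hA F2 h

/-- `σ` of a Pontryagin product, any configuration -/
theorem sigH_mulS (hA : SpecA.HomotopyInv) (E : EZData) {n : ℕ} [Nontrivial (Fin (n + 1))]
    (c : Cubes735.BoxConf (Fin 2) (Fin (n + 1))) (a b : H F2 (SS.Sing (Ω^ (Fin (n + 1)) Z z₀))) :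
    sigH (genLoop n) (H.map F2 (HspSS696.mulS (Z := Z) (z₀ := z₀) c) (E.cr _ _ (a ⊗ₜ b))) =
      eps _ a • sigH (genLoop n) b + eps _ b • sigH (genLoop n) a := by
  rw [map_mulS hA, sigH_mul]

/-! ## spectator: `σ T_i = T_i σ` -/




end gen

end Crest.Agent.R204.Sigma88
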