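import Crest.Agent.R204.EZCross_271
import Crest.Agent.R204.Coalg_847

/-!
# Row 204, C7 / FactSigma (helper88): the loop suspension, abstract part

`sgN e c = e_* (ι × c)` for `e : Δ¹ × P → Y`, over any commutative ring.

* `cross_vertex` : crossing with a vertex;
* `bd_two` : boundary of `F_* (ι₂ × w)`, `F : Δ² × W → Y`;
* `prim_cycle` : `diag_* (σ w) ~ (id, *)_* (σ w) + (*, id)_* (σ w)`;
* `mul_cycle` : `σ (μ_* w) ~ σ (fst_* w) + σ (snd_* w)`;
* `spectator` : `σ (Ψ_* (a × z)) = Ψ_* (a × σ z)`.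
-/

set_option autoImplicit false

namespace Crest.Agent.R204.Sigma88

open Finsupp EZ271

/-! ## generalities -/

/-- an operator as a simplex of the standard simplex -/
abbrev oS {m n : ℕ} (α : Op m n) : (SS.std n).S m := α

/-- the operator to `[0]` -/
def c0 (q : ℕ) : Op q 0 := ⟨fun _ => 0, fun _ _ _ => le_rfl⟩

theorem op_zero_ext {q : ℕ} (f g : Op q 0) : f = g :=
  OrderHom.ext _ _ (funext fun a => Fin.ext (by have := (f a).2; have := (g a).2; omega))

section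

variable {R : Type} [CommRing R]

/-- the fundamental simplex -/
noncomputable abbrev io (R : Type) [CommRing R] (p : ℕ) : N R (SS.std p) :=
  N.sx R (oS (OrderHom.id : Op p p))

theorem map_stdMap_io {m n : ℕ} (α : Op m n) :
    N.map R (stdMap α) (io R m) = N.sx R (oS α) := N.map_sx (stdMap α) (oS OrderHom.id)

theorem E_zero (q : ℕ) : E R 0 q =
    N.sx R (K := (SS.std 0).prod (SS.std q)) (n := q) (oS (c0 q), oS OrderHom.id) := by
  induction q with
  | zero =>
    rw [E_zero_zero]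
    congr 1
    exact Prod.ext (op_zero_ext _ _) (op_zero_ext _ _)
  | succ q ih =>
    rw [E_zero_succ, ih]
    refine (congrArg _ (N.map_sx _ _)).trans ?_
    refine (Cone.c_sx _ R _).trans ?_
    congr 1
    refine Prod.ext (op_zero_ext _ _) ?_
    refine OrderHom.ext _ _ (funext fun a => ?_)
    induction a using Fin.cases with
    | zero => rfl
    | succ a => rfl

/-- crossing with a vertex -/
theorem cross_vertex {K L : SS} (v : K.S 0) (w : N R L) :
    cross R (N.sx R v) w = N.map R (SS.pair (SS.constHom L K v) (SS.Hom.id L)) w := by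
  have : cross R (K := K) (L := L) (N.sx R v) =
      N.map R (SS.pair (SS.constHom L K v) (SS.Hom.id L)) := by
    refine hom_ext fun q y => ?_
    rw [cross_sx, E_zero]
    refine (N.map_sx _ _).trans ((congrArg _ ?_).trans (N.map_sx _ _).symm)
    exact Prod.ext rfl (L.act_id y)
  exact LinearMap.congr_fun this w

/-- simplex of positive dimension crossed, faces -/
theorem cross_face {n : ℕ} {W : SS} (i : Fin (n + 2)) (w : N R W) :
    cross R (N.sx R (oS (Op.face i))) w =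
      N.map R (SS.prodMap (stdMap (Op.face i)) (SS.Hom.id W)) (cross R (io R n) w) := by
  rw [map_cross, map_stdMap_io, map_idHom]

theorem bd_io {n : ℕ} : N.bd R _ (io R (n + 1)) =
    ∑ i : Fin (n + 2), ((-1 : R) ^ (i : ℕ)) • N.sx R (oS (Op.face i)) :=
  bd_sx_succ R _

/-- `F : Δ^(n+1) × W → Y`, restricted to the face `i` -/
def fF {n : ℕ} {W Y : SS} (F : SS.Hom ((SS.std (n + 1)).prod W) Y) (i : Fin (n + 2)) :
    SS.Hom ((SS.std n).prod W) Y := F.comp (SS.prodMap (stdMap (Op.face i)) (SS.Hom.id W))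

/-- general boundary formula -/
theorem bd_fam {n : ℕ} {W Y : SS} (F : SS.Hom ((SS.std (n + 1)).prod W) Y) (w : N R W) :
    N.bd R Y (N.map R F (cross R (io R (n + 1)) w)) =
      ∑ i : Fin (n + 2), ((-1 : R) ^ (i : ℕ)) • N.map R (fF F i) (cross R (io R n) w) +
        ((-1 : R) ^ (n + 1)) • N.map R F (cross R (io R (n + 1)) (N.bd R W w)) := by
  rw [← map_bd', bd_cross, map_add, bd_io, sg_sx, map_smul, LinearMap.smul_apply, map_smul, map_sum,
    LinearMap.sum_apply, map_sum]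
  congr 1
  refine Finset.sum_congr rfl fun i _ => ?_
  rw [map_smul, LinearMap.smul_apply, map_smul, cross_face, map_map]
  rfl

/-- the suspension operator of `e : Δ¹ × P → Y` -/
noncomputable def sgN {P Y : SS} (e : SS.Hom ((SS.std 1).prod P) Y) : N R P →ₗ[R] N R Y :=
  N.map R e ∘ₗ cross R (io R 1)

theorem sgN_apply {P Y : SS} (e : SS.Hom ((SS.std 1).prod P) Y) (w : N R P) :
    sgN e w = N.map R e (cross R (io R 1) w) := rfl

theorem sgN_post {P Y Z : SS} (e : SS.Hom ((SS.std 1).prod P) Y) (f : SS.Hom Y Z) (w : N R P) :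
    sgN (f.comp e) w = N.map R f (sgN e w) := by
  rw [sgN_apply, sgN_apply, map_map]

theorem sgN_pre {P Q Y : SS} (e : SS.Hom ((SS.std 1).prod P) Y) (f : SS.Hom Q P) (w : N R Q) :
    sgN (e.comp (SS.prodMap (SS.Hom.id _) f)) w = sgN e (N.map R f w) := by
  rw [sgN_apply, sgN_apply, ← map_map, map_cross, map_idHom]

/-- `Δ² × W → Y`: boundary of `F_* (ι₂ × w)` for a cycle `w` -/
theorem bd_two {W Y : SS} (F : SS.Hom ((SS.std 2).prod W) Y) (w : N R W) (hw : N.bd R W w = 0) :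
    N.bd R Y (N.map R F (cross R (io R 2) w)) = sgN (fF F 0) w - sgN (fF F 1) w + sgN (fF F 2) w := by
  rw [bd_fam, hw, map_zero, map_zero, smul_zero, add_zero, Fin.sum_univ_three]
  simp only [Fin.val_zero, Fin.val_one, Fin.val_two, pow_zero, pow_one, one_smul, neg_one_sq,
    neg_smul, sgN_apply]
  abel

/-! ## primitivity -/

/-- constant operator to `[1]` -/
def cst (n : ℕ) (i : Fin 2) : Op n 1 := ⟨fun _ => i, fun _ _ _ => le_rfl⟩

/-- the two ends of `e` are the constant map at `y` -/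
structure Ends {P Y : SS} (e : SS.Hom ((SS.std 1).prod P) Y) (y : Y.S 0) : Prop where
  zero : ∀ (n : ℕ) (x : P.S n), e.app n (oS (cst n 0), x) = (SS.constHom P Y y).app n x
  one : ∀ (n : ℕ) (x : P.S n), e.app n (oS (cst n 1), x) = (SS.constHom P Y y).app n x

/-- the diagonal family -/
def dF {P Y : SS} (e : SS.Hom ((SS.std 1).prod P) Y) : SS.Hom ((SS.std 2).prod P) (Y.prod Y) :=
  SS.pair (e.comp (SS.prodMap (stdMap (Op.dgn 1)) (SS.Hom.id P)))
    (e.comp (SS.prodMap (stdMap (Op.dgn 0)) (SS.Hom.id P)))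

theorem comp_const {m n : ℕ} (β : Op n 1) (i : Fin 2) (h : ∀ a, β a = i) (θ : Op m n) :
    β.comp θ = cst m i := OrderHom.ext _ _ (funext fun _ => h _)

theorem d1f2 : (Op.dgn (1 : Fin 2)).comp (Op.face (2 : Fin 3)) = (OrderHom.id : Op 1 1) := by
  ext a; fin_cases a <;> rfl
theorem d1f1 : (Op.dgn (1 : Fin 2)).comp (Op.face (1 : Fin 3)) = (OrderHom.id : Op 1 1) := by
  ext a; fin_cases a <;> rfl
theorem d1f0 (a : Fin 2) : ((Op.dgn (1 : Fin 2)).comp (Op.face (0 : Fin 3)) : Op 1 1) a = 1 := by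
  fin_cases a <;> rfl
theorem d0f2 (a : Fin 2) : ((Op.dgn (0 : Fin 2)).comp (Op.face (2 : Fin 3)) : Op 1 1) a = 0 := by
  fin_cases a <;> rfl
theorem d0f1 : (Op.dgn (0 : Fin 2)).comp (Op.face (1 : Fin 3)) = (OrderHom.id : Op 1 1) := by
  ext a; fin_cases a <;> rfl
theorem d0f0 : (Op.dgn (0 : Fin 2)).comp (Op.face (0 : Fin 3)) = (OrderHom.id : Op 1 1) := by
  ext a; fin_cases a <;> rfl

theorem fF_dF_app {P Y : SS} (e : SS.Hom ((SS.std 1).prod P) Y) (i : Fin 3) (n : ℕ) (θ : Op n 1)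
    (x : P.S n) : (fF (dF e) i).app n (oS θ, x) =
      (e.app n (oS (((Op.dgn (1 : Fin 2)).comp (Op.face i)).comp θ), x),
        e.app n (oS (((Op.dgn (0 : Fin 2)).comp (Op.face i)).comp θ), x)) := rfl


theorem fF_dF_two {P Y : SS} {e : SS.Hom ((SS.std 1).prod P) Y} {y : Y.S 0} (h : Ends e y) :
    fF (dF e) 2 = (SS.pair (SS.Hom.id Y) (SS.constHom Y Y y)).comp e := by
  refine SS.Hom.ext (funext fun n => funext fun x => ?_)
  obtain ⟨θ, x⟩ := x
  refine (fF_dF_app e 2 n θ x).trans ?_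
  rw [d1f2, comp_const _ 0 d0f2 θ, h.zero]
  rfl

theorem fF_dF_one {P Y : SS} (e : SS.Hom ((SS.std 1).prod P) Y) :
    fF (dF e) 1 = (SS.diag Y).comp e := by
  refine SS.Hom.ext (funext fun n => funext fun x => ?_)
  obtain ⟨θ, x⟩ := x
  refine (fF_dF_app e 1 n θ x).trans ?_
  rw [d1f1, d0f1]
  rfl

theorem fF_dF_zero {P Y : SS} {e : SS.Hom ((SS.std 1).prod P) Y} {y : Y.S 0} (h : Ends e y) :
    fF (dF e) 0 = (SS.pair (SS.constHom Y Y y) (SS.Hom.id Y)).comp e := by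
  refine SS.Hom.ext (funext fun n => funext fun x => ?_)
  obtain ⟨θ, x⟩ := x
  refine (fF_dF_app e 0 n θ x).trans ?_
  rw [d0f0, comp_const _ 1 d1f0 θ, h.one]
  rfl

/-- `σ w` is primitive up to an explicit boundary -/
theorem prim_cycle {P Y : SS} {e : SS.Hom ((SS.std 1).prod P) Y} {y : Y.S 0} (h : Ends e y)
    (w : N R P) (hw : N.bd R P w = 0) :
    N.bd R (Y.prod Y) (N.map R (dF e) (cross R (io R 2) w)) =
      N.map R (SS.pair (SS.constHom Y Y y) (SS.Hom.id Y)) (sgN e w) -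
        N.map R (SS.diag Y) (sgN e w) +
        N.map R (SS.pair (SS.Hom.id Y) (SS.constHom Y Y y)) (sgN e w) := by
  rw [bd_two _ _ hw, fF_dF_zero h, fF_dF_one, fF_dF_two h, sgN_post, sgN_post, sgN_post]

/-! ## products -/

/-- `σ` of a product: `s : Δ² × W → Y` with `s_{12} = e ∘ q`, `s_{01} = e ∘ p`, `s_{02} = e ∘ m` -/
theorem mul_cycle {P W Y : SS} {e : SS.Hom ((SS.std 1).prod P) Y} (s : SS.Hom ((SS.std 2).prod W) Y)
    (p q m : SS.Hom W P)
    (h2 : fF s 2 = e.comp (SS.prodMap (SS.Hom.id _) p))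
    (h0 : fF s 0 = e.comp (SS.prodMap (SS.Hom.id _) q))
    (h1 : fF s 1 = e.comp (SS.prodMap (SS.Hom.id _) m))
    (w : N R W) (hw : N.bd R W w = 0) :
    N.bd R Y (N.map R s (cross R (io R 2) w)) =
      sgN e (N.map R q w) - sgN e (N.map R m w) + sgN e (N.map R p w) := by
  rw [bd_two _ _ hw, h0, h1, h2, sgN_pre, sgN_pre, sgN_pre]

end

/-! ## spectators -/

/-- `(I × (B × P)) → (B × (I × P))` -/
def lsw (A B C : SS) : SS.Hom (A.prod (B.prod C)) (B.prod (A.prod C)) :=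
  ⟨fun _ x => (x.2.1, (x.1, x.2.2)), fun _ _ => rfl⟩

/-- the spectator law on chains (mod 2) -/
theorem spectator {P Y B : SS} {e : SS.Hom ((SS.std 1).prod P) Y}
    (hL : ∀ (A B C : SS) (a : N F2 A) (b : N F2 B) (c : N F2 C),
      N.map F2 (lsw A B C) (cross F2 a (cross F2 b c)) = cross F2 b (cross F2 a c))
    (f : SS.Hom (B.prod P) P) (g : SS.Hom (B.prod Y) Y)
    (h : ∀ (n : ℕ) (θ : (SS.std 1).S n) (b : B.S n) (x : P.S n),
      e.app n (θ, f.app n (b, x)) = g.app n (b, e.app n (θ, x))) (a : N F2 B) (z : N F2 P) :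
    sgN e (N.map F2 f (cross F2 a z)) = N.map F2 g (cross F2 a (sgN e z)) := by
  have h1 : e.comp (SS.prodMap (SS.Hom.id _) f) =
      (g.comp (SS.prodMap (SS.Hom.id _) e)).comp (lsw _ B P) :=
    SS.Hom.ext (funext fun n => funext fun x => h n x.1 x.2.1 x.2.2)
  rw [← sgN_pre, h1, sgN_apply, ← map_map, hL, ← map_map, map_cross, map_idHom]
  rfl

/-! ## the boundary of `σ` -/

section

variable {R : Type} [CommRing R]

theorem fF_one_zero {P Y : SS} {e : SS.Hom ((SS.std 1).prod P) Y} {y : Y.S 0} (h : Ends e y) :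
    fF e 0 = (SS.constHom P Y y).comp (SS.snd _ P) := by
  refine SS.Hom.ext (funext fun n => funext fun x => ?_)
  obtain ⟨θ, x⟩ := x
  have e1 : (Op.face (0 : Fin 2)).comp θ = cst n 1 := by
    refine OrderHom.ext _ _ (funext fun a => ?_)
    have h0 : θ = c0 n := op_zero_ext _ _
    rw [h0]; rfl
  show e.app n (oS ((Op.face (0 : Fin 2)).comp θ), x) = _
  rw [e1, h.one]
  rfl

theorem fF_one_one {P Y : SS} {e : SS.Hom ((SS.std 1).prod P) Y} {y : Y.S 0} (h : Ends e y) :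
    fF e 1 = (SS.constHom P Y y).comp (SS.snd _ P) := by
  refine SS.Hom.ext (funext fun n => funext fun x => ?_)
  obtain ⟨θ, x⟩ := x
  have e1 : (Op.face (1 : Fin 2)).comp θ = cst n 0 := by
    refine OrderHom.ext _ _ (funext fun a => ?_)
    have h0 : θ = c0 n := op_zero_ext _ _
    rw [h0]; rfl
  show e.app n (oS ((Op.face (1 : Fin 2)).comp θ), x) = _
  rw [e1, h.zero]
  rfl

theorem bd_sgN {P Y : SS} {e : SS.Hom ((SS.std 1).prod P) Y} {y : Y.S 0} (h : Ends e y)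
    (w : N R P) : N.bd R Y (sgN e w) = - sgN e (N.bd R P w) := by
  rw [sgN_apply, bd_fam, Fin.sum_univ_two, fF_one_zero h, fF_one_one h]
  simp only [Fin.val_zero, Fin.val_one, pow_zero, pow_one, one_smul, neg_one_smul, zero_add,
    sgN_apply, add_neg_cancel]

end

/-! ## degrees -/

section

variable {R : Type} [CommRing R]

theorem sx_mem_gr {K : SS} {n : ℕ} (x : K.S n) : N.sx R x ∈ N.gr R K n :=
  ⟨single ⟨n, x⟩ 1, Submodule.subset_span ⟨x, rfl⟩, rfl⟩

theorem N_gr_eq {K : SS} (n : ℕ) : N.gr R K n = Submodule.span R {c | ∃ x : K.S n, c = N.sx R x} := by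
  rw [N.gr, Ch.gr, Submodule.map_span]
  congr 1
  ext c
  constructor
  · rintro ⟨_, ⟨x, rfl⟩, rfl⟩
    exact ⟨x, rfl⟩
  · rintro ⟨x, rfl⟩
    exact ⟨_, ⟨x, rfl⟩, rfl⟩

theorem c_mem_gr {K : SS} (A : Cone K) {n : ℕ} {z : N R K} (hz : z ∈ N.gr R K n) :
    A.c R z ∈ N.gr R K (n + 1) := by
  rw [N_gr_eq] at hz
  refine Submodule.span_induction (p := fun z _ => A.c R z ∈ N.gr R K (n + 1)) ?_ ?_ ?_ ?_ hz
  · rintro _ ⟨x, rfl⟩
    rw [Cone.c_sx]
    exact sx_mem_gr _
  · rw [map_zero]; exact Submodule.zero_mem _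
  · intro a b _ _ ha hb; rw [map_add]; exact Submodule.add_mem _ ha hb
  · intro r a _ ha; rw [map_smul]; exact Submodule.smul_mem _ _ ha

theorem E_mem_gr (n : ℕ) : ∀ p q : ℕ, p + q = n → E R p q ∈ N.gr R _ n := by
  induction n with
  | zero =>
    intro p q h
    obtain rfl : p = 0 := by omega
    obtain rfl : q = 0 := by omega
    rw [E_zero_zero]
    exact sx_mem_gr _
  | succ n ih =>
    intro p q h
    rcases p with _ | p <;> rcases q with _ | q
    · omega
    · rw [E_zero_succ]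
      exact c_mem_gr _ (Coalg847.nMap_mem_gr _ (ih 0 q (by omega)))
    · rw [E_succ_zero]
      exact c_mem_gr _ (Coalg847.nMap_mem_gr _ (ih p 0 (by omega)))
    · rw [E_succ_succ]
      refine c_mem_gr _ (Submodule.add_mem _ (Coalg847.nMap_mem_gr _ (ih p (q + 1) (by omega)))
        (Submodule.smul_mem _ _ (Coalg847.nMap_mem_gr _ (ih (p + 1) q (by omega)))))

theorem cross_mem_gr {K L : SS} {m n : ℕ} {a : N R K} {b : N R L} (ha : a ∈ N.gr R K m)
    (hb : b ∈ N.gr R L n) : cross R a b ∈ N.gr R (K.prod L) (m + n) := by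
  rw [N_gr_eq] at ha hb
  refine Submodule.span_induction (p := fun a _ => cross R a b ∈ N.gr R (K.prod L) (m + n))
    ?_ ?_ ?_ ?_ ha
  · rintro _ ⟨x, rfl⟩
    refine Submodule.span_induction (p := fun b _ => cross R (N.sx R x) b ∈ N.gr R (K.prod L) (m + n))
      ?_ ?_ ?_ ?_ hb
    · rintro _ ⟨y, rfl⟩
      rw [cross_sx]
      exact Coalg847.nMap_mem_gr _ (E_mem_gr _ m n rfl)
    · rw [map_zero]; exact Submodule.zero_mem _
    · intro a b _ _ ha hb; rw [map_add]; exact Submodule.add_mem _ ha hb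
    · intro r a _ ha; rw [map_smul]; exact Submodule.smul_mem _ _ ha
  · rw [map_zero, LinearMap.zero_apply]; exact Submodule.zero_mem _
  · intro a b _ _ ha hb; rw [map_add, LinearMap.add_apply]; exact Submodule.add_mem _ ha hb
  · intro r a _ ha; rw [map_smul, LinearMap.smul_apply]; exact Submodule.smul_mem _ _ ha

theorem sgN_mem_gr {P Y : SS} (e : SS.Hom ((SS.std 1).prod P) Y) {n : ℕ} {w : N R P}
    (hw : w ∈ N.gr R P n) : sgN e w ∈ N.gr R Y (n + 1) := by
  rw [sgN_apply, add_comm n 1]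
  exact Coalg847.nMap_mem_gr _ (cross_mem_gr (sx_mem_gr _) hw)

end

/-! ## homology, mod 2 -/

section H

open Coalg847 TensorProduct

variable {P Y : SS} {e : SS.Hom ((SS.std 1).prod P) Y} {y : Y.S 0}

theorem neg_F2 {M : Type*} [AddCommGroup M] [Module F2 M] (x : M) : -x = x := by
  rw [← neg_one_smul F2 x, show (-1 : F2) = 1 from by decide, one_smul]

theorem sub_F2 {M : Type*} [AddCommGroup M] [Module F2 M] (x z : M) : x - z = x + z := by
  rw [sub_eq_add_neg, neg_F2]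

theorem comm_bd (h : Ends e y) : sgN e ∘ₗ N.bd F2 P = N.bd F2 Y ∘ₗ sgN e := by
  refine LinearMap.ext fun w => ?_
  rw [LinearMap.comp_apply, LinearMap.comp_apply, bd_sgN h, neg_F2]

/-- **the loop suspension** -/
noncomputable def sgH (h : Ends e y) : H F2 P →ₗ[F2] H F2 Y := Hd.map (sgN e) (comm_bd h)

theorem sgH_mk (h : Ends e y) (z : N F2 P) (hz : N.bd F2 P z = 0) :
    sgH h (Hd.mk _ z hz) = Hd.mk _ (sgN e z) (by rw [bd_sgN h, hz, map_zero, neg_zero]) := rfl

theorem sgH_mem_gr (h : Ends e y) {n : ℕ} {x : H F2 P} (hx : x ∈ H.gr F2 P n) :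
    sgH h x ∈ H.gr F2 Y (n + 1) := by
  obtain ⟨z, hz, hg, rfl⟩ := mem_gr_iff.1 hx
  rw [sgH_mk]
  exact mk_mem_gr _ (sgN_mem_gr e hg)

theorem sgH_prim (h : Ends e y) (x : H F2 P) :
    H.map F2 (SS.diag Y) (sgH h x) =
      H.map F2 (SS.pair (SS.Hom.id Y) (SS.constHom Y Y y)) (sgH h x) +
        H.map F2 (SS.pair (SS.constHom Y Y y) (SS.Hom.id Y)) (sgH h x) := by
  obtain ⟨z, hz, rfl⟩ := Hd.mk_surj _ x
  rw [sgH_mk, hMap_mk, hMap_mk, hMap_mk]
  refine Eq.trans ?_ (map_add (Submodule.mkQ _) _ _)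
  refine Hd.mk_eq_mk.2 ⟨N.map F2 (dF e) (cross F2 (io F2 2) z), ?_⟩
  rw [prim_cycle h z hz]
  simp only [sub_F2]
  show _ = N.map F2 (SS.diag Y) (sgN e z) + (N.map F2 (SS.pair (SS.Hom.id Y) (SS.constHom Y Y y))
    (sgN e z) + N.map F2 (SS.pair (SS.constHom Y Y y) (SS.Hom.id Y)) (sgN e z))
  abel

/-- `σ x` is primitive -/
theorem cop_sgH (E : EZData) (h : Ends e y) (x : H F2 P) :
    E.cop Y (sgH h x) = sgH h x ⊗ₜ vtx y + vtx y ⊗ₜ sgH h x := by
  apply (E.cr Y Y).injective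
  rw [E.cr_cop, sgH_prim h, map_add, E.cr_vtx_right, E.cr_vtx_left]

/-- `σ` of the image under a "product" `m` with projections `p`, `q` -/
theorem sgH_mul (h : Ends e y) {W : SS} (s : SS.Hom ((SS.std 2).prod W) Y)
    (p q m : SS.Hom W P)
    (h2 : fF s 2 = e.comp (SS.prodMap (SS.Hom.id _) p))
    (h0 : fF s 0 = e.comp (SS.prodMap (SS.Hom.id _) q))
    (h1 : fF s 1 = e.comp (SS.prodMap (SS.Hom.id _) m)) (x : H F2 W) :
    sgH h (H.map F2 m x) = sgH h (H.map F2 p x) + sgH h (H.map F2 q x) := by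
  obtain ⟨z, hz, rfl⟩ := Hd.mk_surj _ x
  rw [hMap_mk, hMap_mk, hMap_mk, sgH_mk, sgH_mk, sgH_mk]
  refine Eq.trans ?_ (map_add (Submodule.mkQ _) _ _)
  refine Hd.mk_eq_mk.2 ⟨N.map F2 s (cross F2 (io F2 2) z), ?_⟩
  rw [mul_cycle s p q m h2 h0 h1 z hz]
  simp only [sub_F2]
  show _ = sgN e (N.map F2 m z) + (sgN e (N.map F2 p z) + sgN e (N.map F2 q z))
  abel




/-- naturality -/
theorem sgH_nat {P' Y' : SS} {e' : SS.Hom ((SS.std 1).prod P') Y'} {y' : Y'.S 0} (h : Ends e y)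
    (h' : Ends e' y') (f : SS.Hom P P') (g : SS.Hom Y Y')
    (hfg : ∀ (n : ℕ) (θ : (SS.std 1).S n) (x : P.S n), e'.app n (θ, f.app n x) = g.app n (e.app n (θ, x)))
    (x : H F2 P) : sgH h' (H.map F2 f x) = H.map F2 g (sgH h x) := by
  obtain ⟨z, hz, rfl⟩ := Hd.mk_surj _ x
  simp only [sgH_mk, hMap_mk]
  congr 1
  have e1 : e'.comp (SS.prodMap (SS.Hom.id _) f) = g.comp e :=
    SS.Hom.ext (funext fun n => funext fun x => hfg n x.1 x.2)
  rw [← sgN_pre, ← sgN_post, e1]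

end H

end Crest.Agent.R204.Sigma88
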