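import Crest.Agent.R204.Ops_265
import Crest.Agent.R204.EZSym_888
import Crest.Agent.R204.Sigma_88
import Crest.Agent.R204.Sigma2_88

-- ▼ part R204/SigQ_265
section

/-!
# Row 204, C7 (helper265): `σ Q_{i+1} = Q_i σ`
-/

set_option autoImplicit false

noncomputable section

namespace Crest.Agent.R204.SigQ265

open SS EZ271 ThetaSS265 SingAct265 C5265 ThAlg265 Ops265
open DK742 (proj Invo orb AltSS proj_g proj_surj orbDesc orbDesc_proj N_map_proj_surj N_map_g_proj
  orbMap)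
open Sigma88 (oS io Ends sgN sgN_apply sgH bd_sgN sgH_mk)

/-! ## `D_M` of homotopies -/

/-- `D_M K × L → D_M (K × L)` -/
def DMpair (M : ℕ) (K L : SS) : Hom ((DM M K).prod L) (DM M (K.prod L)) where
  app n p := Quotient.liftOn (s := (invD M K).rel n) p.1
    (fun u => (proj (invD M (K.prod L))).app n (u.1, ((u.2.1, p.2), (u.2.2, p.2)))) (by
      rintro u u' (rfl | rfl)
      · rfl
      · exact (proj_g (invD M (K.prod L)) n (u.1, ((u.2.1, p.2), (u.2.2, p.2)))).symm)
  nat f p := by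
    obtain ⟨b, x⟩ := p
    obtain ⟨g, rfl⟩ := proj_surj (invD M K) _ b
    rfl

/-- `D_M` of a homotopy -/
def htpyDM (M : ℕ) {K L : SS} {f g : Hom K L} (H : Htpy f g) : Htpy (DMmap M f) (DMmap M g) where
  h := (DMmap M H.h).comp (DMpair M K (std 1))
  zero n b := by
    obtain ⟨u, rfl⟩ := proj_surj (invD M K) _ b
    show (proj (invD M L)).app n (u.1, (H.h.app n (u.2.1, cst n 0), H.h.app n (u.2.2, cst n 0))) = _
    rw [H.zero, H.zero]; rfl
  one n b := by
    obtain ⟨u, rfl⟩ := proj_surj (invD M K) _ b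
    show (proj (invD M L)).app n (u.1, (H.h.app n (u.2.1, cst n 1), H.h.app n (u.2.2, cst n 1))) = _
    rw [H.one, H.one]; rfl


/-! ## the interval contracts -/

/-- vertices of the interval -/
def vt (j : Fin 2) : (std 1).S 0 := (⟨fun _ => j, fun _ _ _ => le_rfl⟩ : Op 0 1)

/-- minimum -/
def minI : Hom ((std 1).prod (std 1)) (std 1) where
  app n p := ((show Op n 1 from p.1) ⊓ (show Op n 1 from p.2) : Op n 1)
  nat _ _ := rfl

/-- contraction of the interval to the vertex `0` -/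
def contrI : Htpy (constHom (std 1) (std 1) (vt 0)) (Hom.id (std 1)) where
  h := minI
  zero n x := by
    refine OrderHom.ext _ _ (funext fun a => ?_)
    show ((show Op n 1 from x) a) ⊓ (0 : Fin 2) = 0
    exact inf_eq_right.2 (Fin.zero_le _)
  one n x := by
    refine OrderHom.ext _ _ (funext fun a => ?_)
    show ((show Op n 1 from x) a) ⊓ (1 : Fin 2) = (show Op n 1 from x) a
    exact inf_eq_left.2 (Fin.le_last _)

/-! ## cross product rules -/

theorem lsw_cross (A B C : SS) (a : N F2 A) (b : N F2 B) (c : N F2 C) :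
    N.map F2 (Sigma88.lsw A B C) (cross F2 a (cross F2 b c)) = cross F2 b (cross F2 a c) := by
  have e1 : Sigma88.lsw A B C = (assocHom B A C).comp ((SS.prodMap (SS.swap A B) (SS.Hom.id C)).comp
    (assocInv A B C)) := rfl
  rw [e1, ← EZ271.map_map, ← EZ271.map_map, assocInv_cross, map_cross, swap_cross, map_idHom,
    assoc_cross]

variable {M : ℕ} {P Y : SS}

/-- `(I × I) × P² → Y²` -/
def kHom (e : Hom ((std 1).prod P) Y) : Hom (((std 1).prod (std 1)).prod (P.prod P)) (Y.prod Y) :=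
  (SS.prodMap e e).comp (midHom (std 1) (std 1) P P)

/-- `c ↦ (e × e)_* (c × (z × z))` -/
def kap (e : Hom ((std 1).prod P) Y) (z : N F2 P) :
    N F2 ((std 1).prod (std 1)) →ₗ[F2] N F2 (Y.prod Y) :=
  N.map F2 (kHom e) ∘ₗ (cross F2).flip (cross F2 z z)

theorem kap_apply (e : Hom ((std 1).prod P) Y) (z : N F2 P) (c : N F2 ((std 1).prod (std 1))) :
    kap e z c = N.map F2 (kHom e) (cross F2 c (cross F2 z z)) := rfl

theorem kap_cross (e : Hom ((std 1).prod P) Y) (z : N F2 P) (s t : N F2 (std 1)) :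
    kap e z (cross F2 s t) = cross F2 (N.map F2 e (cross F2 s z)) (N.map F2 e (cross F2 t z)) := by
  rw [kap_apply, kHom, ← EZ271.map_map, mid_cross, map_cross]

/-- the descended map `N(D_M I) → N(D_M Y)` -/
def preG (M : ℕ) (e : Hom ((std 1).prod P) Y) (z : N F2 P) :
    N F2 ((EM M).prod ((std 1).prod (std 1))) →ₗ[F2] N F2 (DM M Y) :=
  N.map F2 (proj (invD M Y)) ∘ₗ
    N.map F2 ((SS.prodMap (Hom.id (EM M)) (kHom e)).comp
      (assocHom (EM M) ((std 1).prod (std 1)) (P.prod P))) ∘ₗ (cross F2).flip (cross F2 z z)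

theorem preG_apply (e : Hom ((std 1).prod P) Y) (z : N F2 P)
    (u : N F2 ((EM M).prod ((std 1).prod (std 1)))) :
    preG M e z u = N.map F2 (proj (invD M Y)) (N.map F2 ((SS.prodMap (Hom.id (EM M)) (kHom e)).comp
      (assocHom (EM M) ((std 1).prod (std 1)) (P.prod P))) (cross F2 u (cross F2 z z))) := rfl

theorem preG_cross (e : Hom ((std 1).prod P) Y) (z : N F2 P) (a : N F2 (EM M))
    (c : N F2 ((std 1).prod (std 1))) :
    preG M e z (cross F2 a c) = N.map F2 (proj (invD M Y)) (cross F2 a (kap e z c)) := by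
  rw [preG_apply, ← EZ271.map_map, assoc_cross, map_cross, map_idHom, kap_apply]

theorem preG_inv (e : Hom ((std 1).prod P) Y) (z : N F2 P)
    (u : N F2 ((EM M).prod ((std 1).prod (std 1)))) :
    preG M e z (N.map F2 (invD M (std 1)).g u) = preG M e z u := by
  have h1 : cross F2 (N.map F2 (invD M (std 1)).g u) (cross F2 z z) =
      N.map F2 (SS.prodMap (invD M (std 1)).g (SS.swap P P)) (cross F2 u (cross F2 z z)) := by
    rw [map_cross, swap_cross]
  rw [preG_apply, preG_apply, h1, EZ271.map_map, EZ271.map_map, EZ271.map_map]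
  congr 2
  refine Hom.ext (funext fun n => funext fun p => ?_)
  obtain ⟨⟨g, s, t⟩, x, x'⟩ := p
  exact proj_g (invD M Y) n (g, (e.app n (s, x), e.app n (t, x')))

/-- the descended map -/
def Gb (M : ℕ) (e : Hom ((std 1).prod P) Y) (z : N F2 P) : N F2 (DM M (std 1)) →ₗ[F2] N F2 (DM M Y) :=
  orbDesc F2 (invD M (std 1)) (preG M e z) (preG_inv e z)

theorem Gb_proj (e : Hom ((std 1).prod P) Y) (z : N F2 P)
    (u : N F2 ((EM M).prod ((std 1).prod (std 1)))) :
    Gb M e z (N.map F2 (proj (invD M (std 1))) u) = preG M e z u :=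
  orbDesc_proj F2 _ _ _ u

theorem Gb_PhiC (e : Hom ((std 1).prod P) Y) (z : N F2 P) (j : ℕ)
    (c : N F2 ((std 1).prod (std 1))) :
    Gb M e z (PhiC M (std 1) j c) = PhiC M Y j (kap e z c) := by
  rw [PhiC_apply, Gb_proj, preG_cross]; rfl

theorem bd_preG (e : Hom ((std 1).prod P) Y) {z : N F2 P} (hz : N.bd F2 P z = 0)
    (u : N F2 ((EM M).prod ((std 1).prod (std 1)))) :
    N.bd F2 _ (preG M e z u) = preG M e z (N.bd F2 _ u) := by
  have h0 : N.bd F2 _ (cross F2 z z) = 0 := by rw [bd_cross_F2, hz]; simp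
  rw [preG_apply, ← EZ271.map_bd', ← EZ271.map_bd', bd_cross_F2, h0, map_zero, add_zero]
  rfl

theorem bd_Gb (e : Hom ((std 1).prod P) Y) {z : N F2 P} (hz : N.bd F2 P z = 0)
    (w : N F2 (DM M (std 1))) : N.bd F2 _ (Gb M e z w) = Gb M e z (N.bd F2 _ w) := by
  obtain ⟨u, rfl⟩ := N_map_proj_surj F2 (invD M (std 1)) w
  rw [Gb_proj, bd_preG e hz, ← EZ271.map_bd', Gb_proj]

/-! ## the cycle `W` -/

/-- the edge -/
abbrev io1 : N F2 (std 1) := io F2 1

/-- the vertices as chains -/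
abbrev vv (j : Fin 2) : N F2 (std 1) := N.sx F2 (vt j)

theorem bd_io1 : N.bd F2 _ io1 = vv 0 + vv 1 := by
  have h := HtpInv334.bd_iota1 (R := F2)
  rw [Sigma88.sub_F2] at h
  rw [add_comm]
  exact h

theorem bd_vv (j : Fin 2) : N.bd F2 _ (vv j) = 0 := EZ271.bd_sx_zero F2 _

/-- diagonal of the edge -/
def dio : N F2 ((std 1).prod (std 1)) := N.map F2 (SS.diag (std 1)) io1

theorem cross_vv (j : Fin 2) : cross F2 (vv j) (vv j) = N.map F2 (SS.diag (std 1)) (vv j) := by
  rw [cross_vertex, N.map_sx, N.map_sx]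
  congr 1

theorem bd_dio : N.bd F2 _ dio = cross F2 (vv 0) (vv 0) + cross F2 (vv 1) (vv 1) := by
  rw [dio, ← EZ271.map_bd', bd_io1, map_add, cross_vv, cross_vv]

theorem swap_dio : N.map F2 (SS.swap (std 1) (std 1)) dio = dio := by
  rw [dio, EZ271.map_map]; rfl

/-- the cycle `W` -/
def WW (M i : ℕ) : N F2 (DM M (std 1)) :=
  PhiC M (std 1) (i + 1) dio + PhiC M (std 1) i (cross F2 io1 io1) +
    PhiC M (std 1) (i + 1) (cross F2 (vv 0 + vv 1) io1) +
    PhiC M (std 1) (i + 2) (cross F2 (vv 0) (vv 1))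

theorem bd_WW {i : ℕ} (h : i + 2 ≤ M) : N.bd F2 _ (WW M i) = 0 := by
  have h1 : N.bd F2 _ (PhiC M (std 1) (i + 1) dio) =
      PhiC M (std 1) (i + 1) (cross F2 (vv 0) (vv 0) + cross F2 (vv 1) (vv 1)) := by
    rw [bd_PhiC_succ (by omega), swap_dio, add_self_F2, map_zero, zero_add, bd_dio]
  have h2 : N.bd F2 _ (PhiC M (std 1) i (cross F2 io1 io1)) =
      PhiC M (std 1) i (cross F2 (vv 0 + vv 1) io1 + cross F2 io1 (vv 0 + vv 1)) := by
    rcases i with _ | i
    · rw [bd_PhiC_zero, bd_cross_F2, bd_io1]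
    · rw [bd_PhiC_succ (by omega), bd_cross_F2, bd_io1, map_swap_cross, add_self_F2, map_zero,
        zero_add]
  have h3 : N.bd F2 _ (PhiC M (std 1) (i + 1) (cross F2 (vv 0 + vv 1) io1)) =
      PhiC M (std 1) i (cross F2 (vv 0 + vv 1) io1 + cross F2 io1 (vv 0 + vv 1)) +
        PhiC M (std 1) (i + 1) (cross F2 (vv 0 + vv 1) (vv 0 + vv 1)) := by
    rw [bd_PhiC_succ (by omega), bd_cross_F2, bd_io1, map_swap_cross, map_add (N.bd F2 _), bd_vv,
      bd_vv, add_zero, map_zero, LinearMap.zero_apply, zero_add]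
  have h4 : N.bd F2 _ (PhiC M (std 1) (i + 2) (cross F2 (vv 0) (vv 1))) =
      PhiC M (std 1) (i + 1) (cross F2 (vv 0) (vv 1) + cross F2 (vv 1) (vv 0)) := by
    rw [bd_PhiC_succ (by omega), bd_cross_F2, bd_vv, bd_vv, map_swap_cross, map_zero, map_zero,
      LinearMap.zero_apply, add_zero, map_zero, add_zero]
  rw [WW, map_add, map_add, map_add, h1, h2, h3, h4]
  simp only [map_add, LinearMap.add_apply]
  have e := fun x : N F2 (DM M (std 1)) => add_self_F2 x
  generalize PhiC M (std 1) (i + 1) (cross F2 (vv 0) (vv 0)) = a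
  generalize PhiC M (std 1) (i + 1) (cross F2 (vv 1) (vv 1)) = b
  generalize PhiC M (std 1) (i + 1) (cross F2 (vv 0) (vv 1)) = c
  generalize PhiC M (std 1) (i + 1) (cross F2 (vv 1) (vv 0)) = d
  generalize PhiC M (std 1) i (cross F2 (vv 0) io1) = f
  generalize PhiC M (std 1) i (cross F2 (vv 1) io1) = g
  generalize PhiC M (std 1) i (cross F2 io1 (vv 0)) = k
  generalize PhiC M (std 1) i (cross F2 io1 (vv 1)) = l
  calc _ = (a + a) + (b + b) + (c + c) + (d + d) + (f + f) + (g + g) + (k + k) + (l + l) := by abel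
    _ = 0 := by simp only [e, add_zero]

/-! ## augmentations -/

theorem aug_ee (M j : ℕ) : aug F2 (ee M (j + 1)) = 0 := by
  unfold ee
  split_ifs
  · exact aug_sx_succ F2 _
  · exact map_zero _

theorem aug_PhiC (K : SS) (j : ℕ) (c : N F2 (K.prod K)) :
    aug F2 (PhiC M K j c) = aug F2 (ee M j) * aug F2 c := by
  rw [PhiC_apply, aug_map, aug_cross]

theorem aug_io1 : aug F2 io1 = 0 := aug_sx_succ F2 _

theorem aug_WW (M i : ℕ) : aug F2 (WW M i) = 0 := by
  rw [WW, map_add, map_add, map_add, aug_PhiC, aug_PhiC, aug_PhiC, aug_PhiC, aug_ee, aug_ee, aug_cross,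
    aug_io1]
  simp

/-! ## `Gb` kills augmentation zero cycles -/

variable {e : Hom ((std 1).prod P) Y}

theorem DMmap_id (M : ℕ) (K : SS) : DMmap M (Hom.id K) = Hom.id (DM M K) := by
  refine Hom.ext (funext fun n => funext fun b => ?_)
  obtain ⟨u, rfl⟩ := proj_surj (invD M K) _ b
  rfl

theorem retract {w : N F2 (DM M (std 1))} (hw : N.bd F2 _ w = 0) :
    ∃ v, N.bd F2 _ v = N.map F2 (DMmap M (constHom (std 1) (std 1) (vt 0))) w - w := by
  have h1 := LinearMap.congr_fun (Htpy_homology HtpInv334.homotopyInv F2 (htpyDM M contrI))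
    (Hd.mk _ w hw)
  rw [DMmap_id, Hmap_mk, Hmap_mk, Hd.mk_eq_mk, map_idHom] at h1
  exact h1

theorem Gb_const {B : ThAlg M Y} (h1 : B.OneLaw) (h : Ends e B.one) (z : N F2 P)
    {w : N F2 (DM M (std 1))} (hw : aug F2 w = 0) :
    N.map F2 B.Th (Gb M e z (N.map F2 (DMmap M (constHom (std 1) (std 1) (vt 0))) w)) = 0 := by
  obtain ⟨u, rfl⟩ := N_map_proj_surj F2 (invD M (std 1)) w
  set r := constHom (std 1) (std 1) (vt 0) with hr
  have e1 : (DMmap M r).comp (proj (invD M (std 1))) =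
      (proj (invD M (std 1))).comp (SS.prodMap (Hom.id (EM M)) (SS.prodMap r r)) := rfl
  rw [EZ271.map_map, e1, ← EZ271.map_map, Gb_proj, preG_apply]
  have e2 : cross F2 (N.map F2 (SS.prodMap (Hom.id (EM M)) (SS.prodMap r r)) u) (cross F2 z z) =
      N.map F2 (SS.prodMap (SS.prodMap (Hom.id (EM M)) (SS.prodMap r r)) (Hom.id (P.prod P)))
        (cross F2 u (cross F2 z z)) := by
    rw [map_cross, map_idHom]
  rw [e2, EZ271.map_map, EZ271.map_map, EZ271.map_map]
  have e3 : ((B.Th.comp (proj (invD M Y))).comp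
      ((SS.prodMap (Hom.id (EM M)) (kHom e)).comp
        (assocHom (EM M) ((std 1).prod (std 1)) (P.prod P)))).comp
      (SS.prodMap (SS.prodMap (Hom.id (EM M)) (SS.prodMap r r)) (Hom.id (P.prod P))) =
      constHom _ _ B.one := by
    refine Hom.ext (funext fun n => funext fun p => ?_)
    obtain ⟨⟨g, s, t⟩, x, x'⟩ := p
    have hz := h.zero n x
    have hz' := h.zero n x'
    show B.Th.app n ((proj (invD M Y)).app n (g, (e.app n (oS (Sigma88.cst n 0), x),
      e.app n (oS (Sigma88.cst n 0), x')))) = _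
    rw [hz, hz']
    exact h1 n g
  have hu : aug F2 u = 0 := by rw [← hw, aug_map]
  refine (congrArg (fun f => N.map F2 f (cross F2 u (cross F2 z z))) e3).trans ?_
  rw [C5T557.map_constHom, aug_cross, hu, zero_mul, zero_smul]

theorem Gb_zero {B : ThAlg M Y} (h1 : B.OneLaw) (h : Ends e B.one) {z : N F2 P}
    (hz : N.bd F2 P z = 0) {w : N F2 (DM M (std 1))} (hw : N.bd F2 _ w = 0) (ha : aug F2 w = 0) :
    ∃ v, N.bd F2 _ v = N.map F2 B.Th (Gb M e z w) := by
  obtain ⟨v, hv⟩ := retract hw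
  refine ⟨N.map F2 B.Th (Gb M e z v), ?_⟩
  rw [← EZ271.map_bd', bd_Gb e hz, hv, map_sub, map_sub, Gb_const h1 h z ha, zero_sub,
    Sigma88.neg_F2]

/-! ## the terms -/

theorem map_e_vv {y : Y.S 0} (h : Ends e y) (j : Fin 2) (z : N F2 P) :
    N.map F2 e (cross F2 (vv j) z) = aug F2 z • N.sx F2 y := by
  rw [cross_vertex, EZ271.map_map]
  have e1 : e.comp (SS.pair (SS.constHom P (std 1) (vt j)) (SS.Hom.id P)) = SS.constHom P Y y := by
    refine Hom.ext (funext fun n => funext fun x => ?_)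
    fin_cases j
    · exact h.zero n x
    · exact h.one n x
  rw [e1, C5T557.map_constHom]

theorem kap_vio {y : Y.S 0} (h : Ends e y) (z : N F2 P) :
    kap e z (cross F2 (vv 0 + vv 1) io1) = 0 := by
  rw [kap_cross, map_add (cross F2), LinearMap.add_apply, map_add, map_e_vv h, map_e_vv h,
    add_self_F2, map_zero, LinearMap.zero_apply]

theorem kap_vv {B : ThAlg M Y} (h1 : B.OneLaw) (h : Ends e B.one) (z : N F2 P) (j : ℕ) :
    N.map F2 B.Th (PhiC M Y (j + 1) (kap e z (cross F2 (vv 0) (vv 1)))) = 0 := by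
  rw [kap_cross, map_e_vv h, map_e_vv h]
  simp only [map_smul, LinearMap.smul_apply]
  have e1 : cross F2 (N.sx F2 B.one) (N.sx F2 B.one) =
      N.sx F2 (K := Y.prod Y) (n := 0) (B.one, B.one) := by
    rw [cross_vertex, N.map_sx]
    congr 1
    refine Prod.ext ?_ rfl
    have h0 : (Sigma88.c0 0 : Op 0 0) = OrderHom.id := Sigma88.op_zero_ext _ _
    show Y.act (Sigma88.c0 0 : Op 0 0) B.one = B.one
    rw [h0, Y.act_id]
  have e2 : N.map F2 B.Th (PhiC M Y (j + 1) (cross F2 (N.sx F2 B.one) (N.sx F2 B.one))) = 0 := by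
    rw [e1, PhiC_apply, cross_vertex_right, EZ271.map_map, EZ271.map_map]
    have e3 : (B.Th.comp (proj (invD M Y))).comp (SS.pair (SS.Hom.id (EM M))
        (SS.constHom (EM M) (Y.prod Y) (B.one, B.one))) = SS.constHom _ _ B.one := by
      refine Hom.ext (funext fun n => funext fun g => ?_)
      exact h1 n g
    refine (congrArg (fun f => N.map F2 f (ee M (j + 1))) e3).trans ?_
    rw [C5T557.map_constHom, aug_ee, zero_smul]
  rw [e2]
  simp

theorem kap_dio {A : ThAlg M P} {B : ThAlg M Y}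
    (hS : ∀ (n : ℕ) (θ : (std 1).S n) (g : (EM M).S n) (x x' : P.S n),
      e.app n (θ, A.Th.app n ((proj (invD M P)).app n (g, (x, x')))) =
        B.Th.app n ((proj (invD M Y)).app n (g, (e.app n (θ, x), e.app n (θ, x'))))) (z : N F2 P)
    (j : ℕ) : N.map F2 B.Th (PhiC M Y j (kap e z dio)) =
      sgN e (N.map F2 A.Th (PhiC M P j (cross F2 z z))) := by
  have e1 : kap e z dio = N.map F2 ((kHom e).comp (SS.prodMap (SS.diag (std 1)) (Hom.id (P.prod P))))
      (cross F2 io1 (cross F2 z z)) := by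
    rw [kap_apply, dio, ← EZ271.map_map, map_cross, map_idHom]
  have e2 : cross F2 (ee M j) (kap e z dio) =
      N.map F2 ((SS.prodMap (Hom.id (EM M)) ((kHom e).comp
        (SS.prodMap (SS.diag (std 1)) (Hom.id (P.prod P))))).comp
          (Sigma88.lsw (std 1) (EM M) (P.prod P)))
        (cross F2 io1 (cross F2 (ee M j) (cross F2 z z))) := by
    rw [← EZ271.map_map, lsw_cross, map_cross, map_idHom, e1]
  rw [PhiC_apply, e2, PhiC_apply, sgN_apply, EZ271.map_map, EZ271.map_map, EZ271.map_map]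
  have e4 : cross F2 io1 (N.map F2 (A.Th.comp (proj (invD M P))) (cross F2 (ee M j) (cross F2 z z))) =
      N.map F2 (SS.prodMap (Hom.id (std 1)) (A.Th.comp (proj (invD M P))))
        (cross F2 io1 (cross F2 (ee M j) (cross F2 z z))) := by
    rw [map_cross, map_idHom]
  rw [e4, EZ271.map_map]
  congr 1
  congr 1
  refine Hom.ext (funext fun n => funext fun p => ?_)
  obtain ⟨θ, g, x, x'⟩ := p
  exact (hS n θ g x x').symm

/-- **`σ Q_{i+1} = Q_i σ`** -/
theorem sgH_Q {A : ThAlg M P} {B : ThAlg M Y} (h1 : B.OneLaw) (h : Ends e B.one)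
    (hS : ∀ (n : ℕ) (θ : (std 1).S n) (g : (EM M).S n) (x x' : P.S n),
      e.app n (θ, A.Th.app n ((proj (invD M P)).app n (g, (x, x')))) =
        B.Th.app n ((proj (invD M Y)).app n (g, (e.app n (θ, x), e.app n (θ, x')))))
    {i : ℕ} (hi : i + 2 ≤ M) (x : H F2 P) :
    sgH h (Q A (i + 1) x) = Q B i (sgH h x) := by
  obtain ⟨z, hz, rfl⟩ := Hd.mk_surj _ x
  rw [Q_mk A (by omega), sgH_mk, sgH_mk, Q_mk B (by omega), Hd.mk_eq_mk]
  obtain ⟨v, hv⟩ := Gb_zero h1 h hz (bd_WW hi) (aug_WW M i)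
  refine ⟨v, ?_⟩
  rw [hv, WW]
  simp only [map_add (Gb M e z), Gb_PhiC]
  rw [map_add (N.map F2 B.Th), map_add (N.map F2 B.Th), map_add (N.map F2 B.Th), kap_vv h1 h,
    kap_vio h, map_zero, map_zero, add_zero, add_zero, kap_dio hS, kap_cross, Sigma88.sub_F2]
  rfl

end Crest.Agent.R204.SigQ265
end
end

-- ▼ part R204/SigQI_265

/-!
# Row 204, C7 (helper265): `σ T_i = T_i σ`, `σ Q_{i+1} = Q_i σ`: abstract and for `Ω^(n+1) Z = Ω Ω^n Z`
-/

set_option autoImplicit false

noncomputable section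

open scoped Topology unitInterval Topology.Homotopy

namespace Crest.Agent.R204.SigQ265

open SS EZ271 ThetaSS265 SingAct265 C5265 ThAlg265 Ops265
open DK742 (proj Invo orb AltSS proj_g proj_surj orbDesc orbDesc_proj N_map_proj_surj N_map_g_proj
  orbMap)
open Sigma88 (oS io Ends sgN sgN_apply sgH bd_sgN sgH_mk)

variable {M : ℕ} {P Y : SS} {e : Hom ((std 1).prod P) Y}

/-- **`σ T_i = T_i σ`**, abstract form -/
theorem sgH_T {A : ThAlg M P} {B : ThAlg M Y} {y : Y.S 0} (h : Ends e y)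
    (hS : ∀ (n : ℕ) (θ : (std 1).S n) (g : (EM M).S n) (x x' : P.S n),
      e.app n (θ, A.Th.app n ((proj (invD M P)).app n (g, (x, x')))) =
        B.Th.app n ((proj (invD M Y)).app n (g, (e.app n (θ, x), e.app n (θ, x')))))
    (i : ℕ) (x : H F2 P) : sgH h (T A i x) = T B i (sgH h x) := by
  by_cases hi : i ≤ M
  · obtain ⟨z, hz, rfl⟩ := Hd.mk_surj _ x
    rw [Ops265.T, Ops265.T, C5T557.TT_of_le A.Th i hi, C5T557.TT_of_le B.Th i hi, C5T557.opT_mk, sgH_mk, sgH_mk,
      C5T557.opT_mk]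
    congr 1
    refine Sigma88.spectator lsw_cross _ _ ?_ _ _
    intro n θ b x
    obtain ⟨g, rfl⟩ := proj_surj (invEM M) _ b
    exact hS n θ g x x
  · rw [Ops265.T, Ops265.T, C5T557.TT, C5T557.TT, dif_neg hi, dif_neg hi]; simp

section gen

variable {Z : Type} [TopologicalSpace Z] {z₀ : Z}

/-- strict spectator law for `Θ` -/
theorem evH_Theta {M n : ℕ} (k : Fin (M + 1) ↪ Fin n) (q : ℕ) (θ : (SS.std 1).S q)
    (g : (EM M).S q) (x x' : (SS.Sing (Ω^ (Fin (n + 1)) Z z₀)).S q) :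
    (Sus330.genLoop (Z := Z) (z₀ := z₀) n).evH.app q
        (θ, (Theta (k.trans Fin.castSuccEmb)).app q
          ((proj ((invEM M).prod (Invo.swap _))).app q (g, (x, x')))) =
      (Theta k).app q ((proj ((invEM M).prod (Invo.swap _))).app q
        (g, ((Sus330.genLoop (Z := Z) (z₀ := z₀) n).evH.app q (θ, x),
          (Sus330.genLoop (Z := Z) (z₀ := z₀) n).evH.app q (θ, x')))) :=
  evSS_thetaSS k (mkS (bar θ) (continuous_bar θ)) g x x'

/-- **`σ Q_{i+1} = Q_i σ`** for `Ω^(n+1) Z → Ω^n Z` -/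
theorem sigH_Q {M n : ℕ} (k : Fin (M + 1) ↪ Fin n)
    (m : Hom ((Sing (Om (Fin n) Z z₀)).prod (Sing (Om (Fin n) Z z₀))) (Sing (Om (Fin n) Z z₀)))
    (m' : Hom ((Sing (Om (Fin (n + 1)) Z z₀)).prod (Sing (Om (Fin (n + 1)) Z z₀)))
      (Sing (Om (Fin (n + 1)) Z z₀))) {i : ℕ} (hi : i + 2 ≤ M)
    (x : H F2 (Sing (Om (Fin (n + 1)) Z z₀))) :
    Sigma88.sigH (Sus330.genLoop n) (Q (omAlg (k.trans Fin.castSuccEmb) m') (i + 1) x) =
      Q (omAlg k m) i (Sigma88.sigH (Sus330.genLoop n) x) :=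
  sgH_Q (A := omAlg (k.trans Fin.castSuccEmb) m') (B := omAlg k m) (omAlg_oneLaw k m)
    (Sigma88.ends _) (fun q θ g x x' => evH_Theta k q θ g x x') hi x

/-- **`σ T_i = T_i σ`** for `Ω^(n+1) Z → Ω^n Z` -/
theorem sigH_T {M n : ℕ} (k : Fin (M + 1) ↪ Fin n)
    (m : Hom ((Sing (Om (Fin n) Z z₀)).prod (Sing (Om (Fin n) Z z₀))) (Sing (Om (Fin n) Z z₀)))
    (m' : Hom ((Sing (Om (Fin (n + 1)) Z z₀)).prod (Sing (Om (Fin (n + 1)) Z z₀)))
      (Sing (Om (Fin (n + 1)) Z z₀))) (i : ℕ) (x : H F2 (Sing (Om (Fin (n + 1)) Z z₀))) :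
    Sigma88.sigH (Sus330.genLoop n) (T (omAlg (k.trans Fin.castSuccEmb) m') i x) =
      T (omAlg k m) i (Sigma88.sigH (Sus330.genLoop n) x) :=
  sgH_T (A := omAlg (k.trans Fin.castSuccEmb) m') (B := omAlg k m)
    (Sigma88.ends _) (fun q θ g x x' => evH_Theta k q θ g x x') i x

end gen

end Crest.Agent.R204.SigQ265
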