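import Crest.Agent.R204.Cartan_888
import Crest.Agent.R204.QCb_134
import Crest.Agent.R204.EZSym_888
import Crest.Agent.R204.EZHtp_271
import Crest.Agent.R204.Phi_252
import Crest.Agent.R204.AMU_898
import Crest.Agent.R204.Gr_334

-- ▼ part R204/CoefInst_888
section

/-!
# Row 204, block A5: coefficient functionals and cross data from quasi-isomorphisms (helper888)
-/

set_option autoImplicit false

noncomputable section

namespace Crest.Agent.R204.Q888

open Finsupp TensorProduct QC134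

variable {X Y : Type} [AddCommGroup X] [Module F2 X] [AddCommGroup Y] [Module F2 Y]

theorem QD_eq (d τ : X →ₗ[F2] X) : QC134.QD d τ = QD d τ := by
  ext i c : 2
  rcases i with _ | i
  · simp
  · simp



namespace IsSq

variable {dX : X →ₗ[F2] X} {dY τ : Y →ₗ[F2] Y} {nab : X →ₗ[F2] X →ₗ[F2] Y} {dg : X →ₗ[F2] Y}

theorem qiQ (h : IsSq dX dY τ nab dg) (hq : QI (QC134.dT dX dX) dY (TensorProduct.lift nab)) :
    QI (dQ dX) (QD dY τ) (Qmap (TensorProduct.lift nab)) := by
  have := hq.Q (τ := tau X) (τ' := τ) (QC134.dT_dT h.dd h.dd) h.ddY tau_tau h.tt (tau_dT dX)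
    (fun x => (h.dt x).symm) (by
      intro x
      induction x using TensorProduct.induction_on with
      | zero => simp
      | add x y hx hy => simp only [map_add, hx, hy]
      | tmul x y => simp [h.symm])
  rw [QD_eq dY τ] at this
  exact this

/-- `H(W ⊗_{Z/2} X ⊗ X) ≃ H(Q(Y))` -/
def eqQ (h : IsSq dX dY τ nab dg) (hq : QI (QC134.dT dX dX) dY (TensorProduct.lift nab)) :
    Hd (dQ dX) ≃ₗ[F2] Hd (QD dY τ) :=
  LinearEquiv.ofBijective (Hd.map (Qmap (TensorProduct.lift nab))
    (LinearMap.ext fun x => (h.qiQ hq).comm x)) ((h.qiQ hq).bijective _)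

theorem eqQ_Eop (h : IsSq dX dY τ nab dg) (hq : QI (QC134.dT dX dX) dY (TensorProduct.lift nab))
    (m : ℕ) (x : Hd dX) : h.eqQ hq (Eop dX h.dd m x) = h.G m x := by
  obtain ⟨z, hz, rfl⟩ := Hd.mk_surj dX x
  rw [Eop_mk, G_mk]
  show Hd.mk _ _ _ = _
  congr 1
  simp

theorem eqQ_Bop (h : IsSq dX dY τ nab dg) (hq : QI (QC134.dT dX dX) dY (TensorProduct.lift nab))
    (x y : Hd dX) : h.eqQ hq (Bop dX x y) = h.T0 x y := by
  obtain ⟨z, hz, rfl⟩ := Hd.mk_surj dX x
  obtain ⟨w, hw, rfl⟩ := Hd.mk_surj dX y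
  rw [Bop_mk, T0_mk]
  show Hd.mk _ _ _ = _
  congr 1
  simp

theorem exists_coef (h : IsSq dX dY τ nab dg)
    (hq : QI (QC134.dT dX dX) dY (TensorProduct.lift nab)) : ∃ c, IsCoef h c := by
  classical
  obtain ⟨J, b, hb⟩ := exists_HBasis dX
  let _ : LinearOrder J := linearOrderOfSTO (WellOrderingRel (α := J))
  set B := (hb.quad h.dd).toBasis with hB
  let f : ℕ → QIdx J → Hd dX := fun k p => match p with
    | Sum.inl (i, j) => if i = k then hb.toBasis j else 0
    | Sum.inr _ => 0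
  refine ⟨fun k => (B.constr F2 (f k)) ∘ₗ (h.eqQ hq).symm.toLinearMap, ?_, ?_, ?_⟩
  · intro k _ m x
    rw [LinearMap.comp_apply, LinearEquiv.coe_coe, ← h.eqQ_Eop hq, LinearEquiv.symm_apply_apply]
    have key : (B.constr F2 (f k)) ∘ₗ (Eop dX h.dd m) = if m = k then LinearMap.id else 0 := by
      refine hb.toBasis.ext fun j => ?_
      rw [LinearMap.comp_apply, ← quadBasis_inl, ← hB, Module.Basis.constr_basis]
      show (if m = k then hb.toBasis j else 0) = _
      split_ifs <;> simp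
    have := LinearMap.congr_fun key x
    rw [LinearMap.comp_apply] at this
    rw [this]
    split_ifs <;> simp
  · intro k hk x y
    rw [LinearMap.comp_apply, LinearEquiv.coe_coe, ← h.eqQ_Bop hq, LinearEquiv.symm_apply_apply]
    have key : (Bop dX).compr₂ (B.constr F2 (f k)) = 0 := by
      refine hb.toBasis.ext fun j => hb.toBasis.ext fun j' => ?_
      rw [LinearMap.compr₂_apply, LinearMap.zero_apply, LinearMap.zero_apply]
      rcases lt_trichotomy j j' with hlt | rfl | hlt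
      · rw [← quadBasis_inr h.dd hb ⟨(j, j'), hlt⟩, ← hB, Module.Basis.constr_basis]
      · rw [Bop_self dX h.dd, ← quadBasis_inl, ← hB, Module.Basis.constr_basis]
        show (if 0 = k then hb.toBasis j else 0) = _
        rw [if_neg (by omega)]
      · rw [Bop_comm, ← quadBasis_inr h.dd hb ⟨(j', j), hlt⟩, ← hB, Module.Basis.constr_basis]
    exact LinearMap.congr_fun (LinearMap.congr_fun key x) y
  · intro ζ
    obtain ⟨ξ, rfl⟩ := (h.eqQ hq).surjective ζ
    have hmem : ξ ∈ Submodule.span F2 ({y | ∃ i x, y = Eop dX h.dd i x} ∪ {z | ∃ x y, z = Bop dX x y}) := by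
      rw [quad_span]; trivial
    refine Submodule.span_induction (p := fun ξ _ => h.eqQ hq ξ ∈ (⨆ m, LinearMap.range (h.G m)) ⊔
      Submodule.span F2 (Set.range fun p : Hd dX × Hd dX => h.T0 p.1 p.2)) ?_ ?_ ?_ ?_ hmem
    · rintro _ (⟨i, x, rfl⟩ | ⟨x, y, rfl⟩)
      · rw [h.eqQ_Eop hq]
        exact Submodule.mem_sup_left (Submodule.mem_iSup_of_mem i ⟨x, rfl⟩)
      · rw [h.eqQ_Bop hq]
        exact Submodule.mem_sup_right (Submodule.subset_span ⟨(x, y), rfl⟩)
    · rw [map_zero]; exact Submodule.zero_mem _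
    · intro x y _ _ hx hy
      rw [map_add]; exact Submodule.add_mem _ hx hy
    · intro r x _ hx
      rw [map_smul]; exact Submodule.smul_mem _ r hx

/-- the coefficient functionals -/
def coef (h : IsSq dX dY τ nab dg) (hq : QI (QC134.dT dX dX) dY (TensorProduct.lift nab)) :
    ℕ → Hd (QD dY τ) →ₗ[F2] Hd dX := Classical.choose (h.exists_coef hq)

theorem isCoef (h : IsSq dX dY τ nab dg) (hq : QI (QC134.dT dX dX) dY (TensorProduct.lift nab)) :
    IsCoef h (h.coef hq) := Classical.choose_spec (h.exists_coef hq)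

end IsSq


/-! ## Künneth -/

variable {X' Y' X'' Y'' : Type}
  [AddCommGroup X'] [Module F2 X'] [AddCommGroup Y'] [Module F2 Y']
  [AddCommGroup X''] [Module F2 X''] [AddCommGroup Y''] [Module F2 Y'']

theorem span_hd2 {dX : X →ₗ[F2] X} {dX' : X' →ₗ[F2] X'} {dX'' : X'' →ₗ[F2] X''}
    (hdd : ∀ x, dX (dX x) = 0) (hdd' : ∀ x, dX' (dX' x) = 0) (cr : X →ₗ[F2] X' →ₗ[F2] X'')
    (leib : ∀ x y, dX'' (cr x y) = cr (dX x) y + cr x (dX' y))
    (hq : QI (QC134.dT dX dX') dX'' (TensorProduct.lift cr)) (w : Hd dX'') :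
    w ∈ Submodule.span F2 (Set.range fun p : Hd dX × Hd dX' => hd2 cr leib p.1 p.2) := by
  obtain ⟨J, b, hb⟩ := exists_HBasis dX
  obtain ⟨J', b', hb'⟩ := exists_HBasis dX'
  have hB := (hb.tensor hdd hdd' hb').map hq
  rw [← hB.toBasis.linearCombination_repr w, Finsupp.linearCombination_apply, Finsupp.sum]
  refine Submodule.sum_mem _ fun p _ => Submodule.smul_mem _ _ (Submodule.subset_span ?_)
  refine ⟨(Hd.mk dX (b p.1) (hb.cyc p.1), Hd.mk dX' (b' p.2) (hb'.cyc p.2)), ?_⟩
  rw [HBasis.toBasis_apply]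
  rfl

theorem IsCross.of_qi {dX : X →ₗ[F2] X} {dY τ : Y →ₗ[F2] Y} {nab : X →ₗ[F2] X →ₗ[F2] Y}
    {dg : X →ₗ[F2] Y} {dX' : X' →ₗ[F2] X'} {dY' τ' : Y' →ₗ[F2] Y'}
    {nab' : X' →ₗ[F2] X' →ₗ[F2] Y'} {dg' : X' →ₗ[F2] Y'}
    {dX'' : X'' →ₗ[F2] X''} {dY'' τ'' : Y'' →ₗ[F2] Y''} {nab'' : X'' →ₗ[F2] X'' →ₗ[F2] Y''}
    {dg'' : X'' →ₗ[F2] Y''}
    {h : IsSq dX dY τ nab dg} {h' : IsSq dX' dY' τ' nab' dg'}
    {h'' : IsSq dX'' dY'' τ'' nab'' dg''} {cr : X →ₗ[F2] X' →ₗ[F2] X''}
    {cr2 : Y →ₗ[F2] Y' →ₗ[F2] Y''}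
    (leib : ∀ x y, dX'' (cr x y) = cr (dX x) y + cr x (dX' y))
    (leib2 : ∀ a b, dY'' (cr2 a b) = cr2 (dY a) b + cr2 a (dY' b))
    (eqv : ∀ a b, τ'' (cr2 a b) = cr2 (τ a) (τ' b))
    (nab_nab : ∀ u u' v v', cr2 (nab u u') (nab' v v') = nab'' (cr u v) (cr u' v'))
    (dg_dg : ∀ x y, cr2 (dg x) (dg' y) = dg'' (cr x y))
    (hqX : QI (QC134.dT dX dX') dX'' (TensorProduct.lift cr))
    (hqY : QI (QC134.dT dY dY') dY'' (TensorProduct.lift cr2)) : IsCross h h' h'' cr cr2 where
  leib := leib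
  leib2 := leib2
  eqv := eqv
  nab_nab := nab_nab
  dg_dg := dg_dg
  kun := span_hd2 h.dd h'.dd cr leib hqX
  inj2 := by
    intro w hw hv
    have htt : ∀ x : Y ⊗[F2] Y', TensorProduct.map τ τ' (TensorProduct.map τ τ' x) = x := by
      intro x
      induction x using TensorProduct.induction_on with
      | zero => simp
      | add x y hx hy => simp only [map_add, hx, hy]
      | tmul x y => simp [h.tt, h'.tt]
    have hc : ∀ x : Y ⊗[F2] Y', TensorProduct.map τ τ' (QC134.dT dY dY' x) =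
        QC134.dT dY dY' (TensorProduct.map τ τ' x) := by
      intro x
      induction x using TensorProduct.induction_on with
      | zero => simp
      | add x y hx hy => simp only [map_add, hx, hy]
      | tmul x y => simp [h.dt, h'.dt]
    have he : ∀ x : Y ⊗[F2] Y', TensorProduct.lift cr2 (TensorProduct.map τ τ' x) =
        τ'' (TensorProduct.lift cr2 x) := by
      intro x
      induction x using TensorProduct.induction_on with
      | zero => simp
      | add x y hx hy => simp only [map_add, hx, hy]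
      | tmul x y => simp [eqv]
    have hQ := hqY.Q (QC134.dT_dT h.ddY h'.ddY) h''.ddY htt h''.tt hc (fun x => (h''.dt x).symm) he
    rw [QD_eq, QD_eq] at hQ
    exact hQ.inj w hw hv

end Crest.Agent.R204.Q888
end
end

-- ▼ part R204/CartanInst_888
section

/-!
# Row 204, block A5: the quadratic data of a simplicial set and the external Cartan formula (helper888)
-/

set_option autoImplicit false

noncomputable section

namespace Crest.Agent.R204.Q888

open Finsupp TensorProduct QC134 EZ271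

variable (K L : SS)


/-- Eilenberg–Zilber: the cross product is a quasi-isomorphism -/
theorem qi_cross : QI (QC134.dT (N.bd F2 K) (N.bd F2 L)) (N.bd F2 (K.prod L))
    (TensorProduct.lift (cross F2)) := by
  have e1 : QC134.dT (N.bd F2 K) (N.bd F2 L) = tbd F2 K L := by
    refine TensorProduct.ext' fun a b => ?_
    rw [QC134.dT_tmul, tbd_tmul, sgF2_888]
  refine QI.of_homotopyEquiv (g := aw F2) (s := 0) (s' := hEZ F2) ?_ ?_ ?_ ?_
  · intro x
    rw [e1]
    exact (bd_crossT F2 x).symm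
  · intro x
    rw [e1, bd_aw]
  · intro x
    simp only [LinearMap.zero_apply, map_zero, zero_add, add_zero]
    exact aw_crossT F2 x
  · intro x
    have h := hEZ_homotopy F2 x
    rw [QC134.sub_eq'] at h
    have h2 : crossT F2 (aw F2 x) = N.bd F2 _ (hEZ F2 x) + hEZ F2 (N.bd F2 _ x) + x := by
      rw [h, QC134.add_add_self]
    show N.bd F2 _ (hEZ F2 x) + crossT F2 (aw F2 x) + hEZ F2 (N.bd F2 _ x) = x
    rw [h2]
    have : ∀ a b c : N F2 (K.prod L), a + (a + b + c) + b = (a + a) + (b + b) + c := by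
      intros; abel
    rw [this, add_self2, add_self2, zero_add, zero_add]

theorem map_invol (z : N F2 (K.prod K)) :
    N.map F2 (SS.swap K K) (N.map F2 (SS.swap K K) z) = z := by
  rw [map_map]
  exact map_idHom F2 (K := K.prod K) z

theorem N_bd_bd (z : N F2 K) : N.bd F2 K (N.bd F2 K z) = 0 := by
  obtain ⟨c, rfl⟩ := Submodule.Quotient.mk_surjective _ z
  rw [N.bd_mk, N.bd_mk, Ch.bd_bd]; rfl

/-- the quadratic data of a simplicial set -/
theorem isSq : IsSq (N.bd F2 K) (N.bd F2 (K.prod K)) (N.map F2 (SS.swap K K)) (cross F2)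
    (N.map F2 (SS.diag K)) where
  dd := N_bd_bd K
  ddY := N_bd_bd (K.prod K)
  tt := map_invol K
  dt y := (map_bd' F2 _ y).symm
  leib := bd_cross2
  symm := swap_cross
  dg_d x := (map_bd' F2 _ x).symm
  dg_t x := by rw [map_map]; rfl

/-- coefficient functionals of `H(Q(N(K × K)))` -/
def cf : ℕ → Hd (QD (N.bd F2 (K.prod K)) (N.map F2 (SS.swap K K))) →ₗ[F2] H F2 K :=
  (isSq K).coef (qi_cross K K)

theorem isCoef : IsCoef (isSq K) (cf K) := (isSq K).isCoef (qi_cross K K)

variable {K L} in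
/-- cross product of chains on squares -/
def cr2 : N F2 (K.prod K) →ₗ[F2] N F2 (L.prod L) →ₗ[F2] N F2 ((K.prod L).prod (K.prod L)) :=
  (cross F2).compr₂ (N.map F2 (midHom K K L L))

theorem cr2_apply (a : N F2 (K.prod K)) (b : N F2 (L.prod L)) :
    cr2 a b = N.map F2 (midHom K K L L) (cross F2 a b) := rfl

theorem isCross : IsCross (isSq K) (isSq L) (isSq (K.prod L)) (cross F2) cr2 := by
  refine IsCross.of_qi bd_cross2 ?_ ?_ ?_ ?_ (qi_cross K L) ?_
  · intro a b
    simp only [cr2_apply]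
    rw [← map_bd', bd_cross2, map_add]
  · intro a b
    simp only [cr2_apply]
    rw [← map_cross, map_map, map_map]
    rfl
  · intro u u' v v'
    rw [cr2_apply, mid_cross]
  · intro x y
    rw [cr2_apply, ← map_cross, map_map]
    rfl
  · have h : QI (N.bd F2 ((K.prod K).prod (L.prod L))) (N.bd F2 ((K.prod L).prod (K.prod L)))
        (N.map F2 (midHom K K L L)) := by
      refine QI.of_homotopyEquiv (g := N.map F2 (midHom K L K L)) (s := 0) (s' := 0) ?_ ?_ ?_ ?_
      · intro x; rw [map_bd']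
      · intro x; rw [map_bd']
      · intro x
        simp only [LinearMap.zero_apply, map_zero, zero_add, add_zero]
        rw [map_map]
        exact map_idHom F2 (K := (K.prod K).prod (L.prod L)) x
      · intro x
        simp only [LinearMap.zero_apply, map_zero, zero_add, add_zero]
        rw [map_map]
        exact map_idHom F2 (K := (K.prod L).prod (K.prod L)) x
    have := h.comp (qi_cross (K.prod K) (L.prod L))
    convert this using 1
    refine TensorProduct.ext' fun a b => ?_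
    simp [cr2_apply]

variable {K L} in
/-- cross product in homology -/
def crH : H F2 K →ₗ[F2] H F2 L →ₗ[F2] H F2 (K.prod L) := hd2 (cross F2) bd_cross2

/-- **External Cartan formula** for the coefficient functionals. -/
theorem cartan_cf (J J' : ℕ) (hJ : 1 ≤ J) (hJ' : 1 ≤ J') (i : ℕ) (x : H F2 K) (y : H F2 L) :
    cf (K.prod L) (J + J') ((isSq (K.prod L)).s i (crH x y)) =
      ∑ j ∈ Finset.range (i + 1), crH (cf K J ((isSq K).s j x)) (cf L J' ((isSq L).s (i - j) y)) :=
  (isCross K L).cartan (isCoef K) (isCoef L) (isCoef (K.prod L)) J J' hJ hJ' i x y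

end Crest.Agent.R204.Q888
end
end

-- ▼ part R204/SqPhi_888

/-!
# Row 204, block A5 (P3, P4): `[e_i ⊗ Δ x] = [∑ e_j ⊗ Φ_{i-j} x]`, Steenrod operations,
functional characterisation, degrees, `Sq_0 = id`, instability, (1.3) in `H(Q)` (helper888)
-/

set_option autoImplicit false

noncomputable section

namespace Crest.Agent.R204.Q888

open Finsupp TensorProduct QC134 EZ271 AMU898

/-- the functor `K ↦ N(K × K)` -/
def FK2 : MF F2 where
  T := fun K => N F2 (K.prod K)
  map := fun f => N.map F2 (SS.prodMap f f)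
  map_id := by
    intro K x
    have h : SS.prodMap (SS.Hom.id K) (SS.Hom.id K) = SS.Hom.id (K.prod K) := rfl
    rw [h, map_idHom]
  map_comp := by
    intro K L M f g x
    rw [map_map]; rfl
  d := fun K => N.bd F2 (K.prod K)
  map_d := by
    intro K L f x
    rw [map_bd']
  T0 := fun K => LinearMap.ker (aug F2 (K := K.prod K))
  T0_map := by
    intro K L f x hx
    rw [LinearMap.mem_ker] at hx ⊢
    rw [aug_map, hx]
  acyc := by
    intro n z hz hd
    refine ⟨((Cone.std n).prod (Cone.std n)).c F2 z, ?_, ?_⟩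
    · rw [LinearMap.mem_ker, Cone.aug_c]
    · rw [Cone.bd_c, hd, map_zero, sub_zero, LinearMap.mem_ker.1 hz, zero_smul, sub_zero]

theorem aug_eq (K : SS) : Phi252.aug K = aug F2 (K := K) := by
  refine hom_ext fun n x => ?_
  rcases n with _ | n <;> simp

theorem aug_crossT_eq {K : SS} (z : N F2 K ⊗[F2] N F2 K) : aug F2 (crossT F2 z) = Phi252.aa K z := by
  induction z using TensorProduct.induction_on with
  | zero => simp
  | add x y hx hy => simp only [map_add, hx, hy]
  | tmul x y => rw [crossT_tmul, aug_cross, Phi252.aa_tmul, aug_eq]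

theorem swap_crossT {K : SS} (z : N F2 K ⊗[F2] N F2 K) :
    crossT F2 (Phi252.tt K z) = N.map F2 (SS.swap K K) (crossT F2 z) := by
  induction z using TensorProduct.induction_on with
  | zero => simp
  | add x y hx hy => simp only [map_add, hx, hy]
  | tmul x y => rw [Phi252.tt_tmul, crossT_tmul, crossT_tmul, swap_cross]

theorem bd_crossT2 {K : SS} (z : N F2 K ⊗[F2] N F2 K) :
    N.bd F2 _ (crossT F2 z) = crossT F2 (Phi252.dd K z) := by
  induction z using TensorProduct.induction_on with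
  | zero => simp
  | add x y hx hy => simp only [map_add, hx, hy]
  | tmul x y => rw [Phi252.dd_tmul, crossT_tmul, map_add, crossT_tmul, crossT_tmul, bd_cross2]

/-- the family `crossT ∘ Φ_i` -/
def th (K : SS) (i : ℕ) : N F2 K →ₗ[F2] N F2 (K.prod K) := crossT F2 ∘ₗ Phi252.Phi K i

/-- the family `Δ, 0, 0, …` -/
def th' (K : SS) : ℕ → (N F2 K →ₗ[F2] N F2 (K.prod K))
  | 0 => N.map F2 (SS.diag K)
  | _ + 1 => 0

theorem swap_nat {K L : SS} (f : SS.Hom K L) (x : N F2 (K.prod K)) :
    N.map F2 (SS.prodMap f f) (N.map F2 (SS.swap K K) x) =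
      N.map F2 (SS.swap L L) (N.map F2 (SS.prodMap f f) x) := by
  rw [EZ271.map_map, EZ271.map_map]; rfl

theorem th_nat {K L : SS} (f : SS.Hom K L) (i : ℕ) (x : N F2 K) :
    N.map F2 (SS.prodMap f f) (th K i x) = th L i (N.map F2 f x) := by
  unfold th
  rw [LinearMap.comp_apply, LinearMap.comp_apply, map_crossT, ← Phi252.nm_Phi]
  rfl

theorem th'_nat {K L : SS} (f : SS.Hom K L) (i : ℕ) (x : N F2 K) :
    N.map F2 (SS.prodMap f f) (th' K i x) = th' L i (N.map F2 f x) := by
  rcases i with _ | i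
  · unfold th'
    rw [EZ271.map_map, EZ271.map_map]; rfl
  · unfold th'
    rw [LinearMap.zero_apply, LinearMap.zero_apply, map_zero]

theorem th_ch (K : SS) (i : ℕ) (x : N F2 K) : N.bd F2 _ (th K i x) + th K i (N.bd F2 K x) =
    prev (fun j => th K j x) i + N.map F2 (SS.swap K K) (prev (fun j => th K j x) i) := by
  unfold th
  simp only [LinearMap.comp_apply]
  rw [bd_crossT2]
  rcases i with _ | i
  · rw [Phi252.dd_Phi_zero, prev_zero, map_zero, add_zero, QC134.add_self']
  · rw [Phi252.dd_Phi_succ, prev_succ, map_add, map_add, ← swap_crossT,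
      add_comm (crossT F2 (Phi252.Phi K (i + 1) (N.bd F2 K x))), QC134.add_add_self]

theorem th'_ch (K : SS) (i : ℕ) (x : N F2 K) : N.bd F2 _ (th' K i x) + th' K i (N.bd F2 K x) =
    prev (fun j => th' K j x) i + N.map F2 (SS.swap K K) (prev (fun j => th' K j x) i) := by
  rcases i with _ | _ | i
  · rw [prev_zero, map_zero, add_zero]
    unfold th'
    rw [← map_bd', QC134.add_self']
  · rw [prev_succ]
    unfold th'
    rw [EZ271.map_map, LinearMap.zero_apply, LinearMap.zero_apply, map_zero, add_zero]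
    exact (QC134.add_self' _).symm
  · rw [prev_succ]
    unfold th'
    simp

theorem th_val (K : SS) (i : ℕ) (x : N F2 K) : aug F2 (th K i x + th' K i x) = 0 := by
  rw [map_add]
  unfold th
  rw [LinearMap.comp_apply, aug_crossT_eq]
  rcases i with _ | i
  · rw [Phi252.aa_Phi_zero, aug_eq]
    unfold th'
    rw [aug_map, QC134.add_self']
  · rw [Phi252.aa_Phi_succ]
    unfold th'
    simp

theorem swap_ker (K : SS) (x : N F2 (K.prod K)) (hx : aug F2 x = 0) :
    aug F2 (N.map F2 (SS.swap K K) x) = 0 := by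
  rw [aug_map, hx]

theorem family_w (K : SS) (x : N F2 K) (hx : N.bd F2 K x = 0) :
    ∃ w : ℕ → N F2 (K.prod K), ∀ i, th K i x + th' K i x = N.bd F2 _ (w i) +
      (prev w i + N.map F2 (SS.swap K K) (prev w i)) :=
  FK2.family (fun K => N.map F2 (SS.swap K K)) swap_nat
    (fun K x => (map_bd' F2 (SS.swap K K) x).symm) map_invol
    swap_ker
    th th' th_nat th'_nat th_ch th'_ch th_val K x hx

/-- the cycle `∑_{j ≤ i} e_j ⊗ Φ_{i-j} x` -/
def stC (K : SS) (i : ℕ) (x : N F2 K) : ℕ →₀ (N F2 K ⊗[F2] N F2 K) :=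
  ∑ j ∈ Finset.range (i + 1), single j (Phi252.Phi K (i - j) x)

theorem stC_apply (K : SS) (i J : ℕ) (x : N F2 K) :
    stC K i x J = if J ≤ i then Phi252.Phi K (i - J) x else 0 := by
  unfold stC
  rw [Finsupp.finsetSum_apply]
  by_cases h : J ≤ i
  · rw [if_pos h, Finset.sum_eq_single J]
    · simp
    · intro j _ hj
      rw [Finsupp.single_apply, if_neg hj]
    · intro hJ
      exact absurd (Finset.mem_range.2 (by omega)) hJ
  · rw [if_neg h]
    refine Finset.sum_eq_zero fun j hj => ?_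
    rw [Finsupp.single_apply, if_neg (by have := Finset.mem_range.1 hj; omega)]

theorem dQ_stC (K : SS) (i : ℕ) (x : N F2 K) (hx : N.bd F2 K x = 0) :
    dQ (N.bd F2 K) (stC K i x) = 0 := by
  ext J : 1
  rw [dQ, QC134.QD_apply, stC_apply, stC_apply]
  have h1 : ∀ b, QC134.dT (N.bd F2 K) (N.bd F2 K) (Phi252.Phi K (b + 1) x) =
      Phi252.Phi K b x + Phi252.tt K (Phi252.Phi K b x) := by
    intro b
    have := Phi252.dd_Phi_succ (K := K) b x
    rw [hx, map_zero, zero_add] at this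
    exact this
  have h0 : QC134.dT (N.bd F2 K) (N.bd F2 K) (Phi252.Phi K 0 x) = 0 := by
    have := Phi252.dd_Phi_zero (K := K) x
    rw [hx, map_zero] at this
    exact this
  rcases lt_trichotomy J i with h | h | h
  · rw [if_pos (by omega), if_pos (by omega)]
    obtain ⟨b, rfl⟩ : ∃ b, i = J + 1 + b := ⟨i - J - 1, by omega⟩
    rw [show J + 1 + b - J = b + 1 from by omega, show J + 1 + b - (J + 1) = b from by omega, h1]
    exact QC134.add_self' _
  · subst h
    rw [if_pos le_rfl, if_neg (by omega), Nat.sub_self, h0]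
    simp
  · rw [if_neg (by omega), if_neg (by omega)]
    simp

theorem eqQ_mk {X Y : Type} [AddCommGroup X] [Module F2 X] [AddCommGroup Y] [Module F2 Y]
    {dX : X →ₗ[F2] X} {dY τ : Y →ₗ[F2] Y} {nab : X →ₗ[F2] X →ₗ[F2] Y} {dg : X →ₗ[F2] Y}
    (h : IsSq dX dY τ nab dg) (hq : QI (QC134.dT dX dX) dY (TensorProduct.lift nab))
    (z : ℕ →₀ (X ⊗[F2] X)) (hz : dQ dX z = 0) :
    h.eqQ hq (Hd.mk _ z hz) = Hd.mk (QD dY τ) (Qmap (TensorProduct.lift nab) z)
      (by rw [← (h.qiQ hq).comm, hz, map_zero]) := rfl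

/-- **`[e_i ⊗ Δ x] = [∑ e_j ⊗ Φ_{i-j} x]`** -/
theorem s_eq_stC (K : SS) (i : ℕ) (x : N F2 K) (hx : N.bd F2 K x = 0) :
    (isSq K).s i (Hd.mk _ x hx) = (isSq K).eqQ (qi_cross K K) (Hd.mk _ (stC K i x) (dQ_stC K i x hx)) := by
  rw [IsSq.s_mk, eqQ_mk, Hd.mk_eq_mk]
  obtain ⟨w, hw⟩ := family_w K x hx
  refine ⟨∑ j ∈ Finset.range (i + 1), single j (w (i - j)), ?_⟩
  rw [QC134.sub_eq']
  ext J : 1
  rw [← QD_eq, QC134.QD_apply, Finsupp.add_apply]
  have e1 : ∀ J, (∑ j ∈ Finset.range (i + 1), (single j (w (i - j)) : ℕ →₀ N F2 (K.prod K))) J =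
      if J ≤ i then w (i - J) else 0 := by
    intro J
    rw [Finsupp.finsetSum_apply]
    by_cases h : J ≤ i
    · rw [if_pos h, Finset.sum_eq_single J]
      · simp
      · intro j _ hj
        rw [Finsupp.single_apply, if_neg hj]
      · intro hJ
        exact absurd (Finset.mem_range.2 (by omega)) hJ
    · rw [if_neg h]
      refine Finset.sum_eq_zero fun j hj => ?_
      rw [Finsupp.single_apply, if_neg (by have := Finset.mem_range.1 hj; omega)]
  have e2 : Qmap (TensorProduct.lift (cross F2)) (stC K i x) J = if J ≤ i then th K (i - J) x else 0 := by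
    show QC134.Qmap _ _ J = _
    rw [QC134.Qmap_apply, stC_apply]
    split_ifs
    · rfl
    · exact map_zero _
  have e3 : (single i (N.map F2 (SS.diag K) x) : ℕ →₀ N F2 (K.prod K)) J =
      if J ≤ i then th' K (i - J) x else 0 := by
    rw [Finsupp.single_apply]
    by_cases h : i = J
    · subst h
      rw [if_pos rfl, if_pos le_rfl, Nat.sub_self]; rfl
    · rw [if_neg h]
      by_cases h2 : J ≤ i
      · rw [if_pos h2]
        obtain ⟨b, hb⟩ : ∃ b, i - J = b + 1 := ⟨i - J - 1, by omega⟩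
        rw [hb]; rfl
      · rw [if_neg h2]
  rw [e1, e1, e2, e3]
  by_cases h : J ≤ i
  · rw [if_pos h, if_pos h, if_pos h, add_comm (th' K (i - J) x), hw]
    congr 1
    rcases Nat.eq_or_lt_of_le h with rfl | h2
    · rw [if_neg (by omega), Nat.sub_self, prev_zero]
    · rw [if_pos (by omega)]
      obtain ⟨b, rfl⟩ : ∃ b, i = J + 1 + b := ⟨i - J - 1, by omega⟩
      rw [show J + 1 + b - J = b + 1 from by omega, show J + 1 + b - (J + 1) = b from by omega, prev_succ]
  · rw [if_neg h, if_neg h, if_neg h, if_neg (by omega)]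
    simp

/-! ## functional characterisation -/

/-- `u ⊗ u` -/
def sqf {X : Type} [AddCommGroup X] [Module F2 X] (U : X →ₗ[F2] F2) : X ⊗[F2] X →ₗ[F2] F2 :=
  TensorProduct.lift ((LinearMap.mul F2 F2).compl₁₂ U U)

@[simp] theorem sqf_tmul {X : Type} [AddCommGroup X] [Module F2 X] (U : X →ₗ[F2] F2) (x y : X) :
    sqf U (x ⊗ₜ y) = U x * U y := rfl

theorem sq_F2 (a : F2) : a * a = a := by revert a; decide

/-- values of functionals on the coefficients of a class in `H(W ⊗ X ⊗ X)` -/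
theorem IsCoef.functional {X Y : Type} [AddCommGroup X] [Module F2 X] [AddCommGroup Y] [Module F2 Y]
    {dX : X →ₗ[F2] X} {dY τ : Y →ₗ[F2] Y} {nab : X →ₗ[F2] X →ₗ[F2] Y} {dg : X →ₗ[F2] Y}
    {h : IsSq dX dY τ nab dg} {c : ℕ → Hd (QD dY τ) →ₗ[F2] Hd dX} (hc : IsCoef h c)
    (hq : QI (QC134.dT dX dX) dY (TensorProduct.lift nab)) (J : ℕ) (hJ : 1 ≤ J)
    (u : Hd dX →ₗ[F2] F2) (U : X →ₗ[F2] F2) (hU0 : ∀ x, U (dX x) = 0)
    (hU : ∀ z hz, U z = u (Hd.mk dX z hz)) (q : ℕ →₀ (X ⊗[F2] X)) (hz : dQ dX q = 0) :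
    u (c J (h.eqQ hq (Hd.mk _ q hz))) = sqf U (q J) := by
  -- the functional on `H(dQ)` induced by `e_J ⊗ c ↦ (u ⊗ u)(c)`
  have hd : ∀ x : X ⊗[F2] X, sqf U (QC134.dT dX dX x) = 0 := by
    intro x
    induction x using TensorProduct.induction_on with
    | zero => simp
    | add x y hx hy => rw [map_add, map_add, hx, hy, add_zero]
    | tmul x y => rw [QC134.dT_tmul, map_add, sqf_tmul, sqf_tmul, hU0, hU0]; simp
  have ht : ∀ x : X ⊗[F2] X, sqf U (x + tau X x) = 0 := by
    intro x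
    induction x using TensorProduct.induction_on with
    | zero => simp
    | add x y hx hy =>
      have : x + y + tau X (x + y) = (x + tau X x) + (y + tau X y) := by rw [map_add]; abel
      rw [this, map_add, hx, hy, add_zero]
    | tmul x y =>
      rw [tau_tmul, map_add, sqf_tmul, sqf_tmul, mul_comm (U y)]
      exact QC134.add_self' _
  have hL : ∀ w, sqf U ((dQ dX w) J) = 0 := by
    intro w
    rw [dQ, QC134.QD_apply, map_add, hd, ht, add_zero]
  let Λ : Hd (dQ dX) →ₗ[F2] F2 := Submodule.liftQ _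
    ((sqf U ∘ₗ Finsupp.lapply J) ∘ₗ (LinearMap.ker (dQ dX)).subtype) (by
      rintro ⟨z, hz⟩ hz'
      simp only [Submodule.mem_comap, Submodule.subtype_apply, LinearMap.mem_range] at hz'
      obtain ⟨w, rfl⟩ := hz'
      exact hL w)
  have hΛ : ∀ z hz, Λ (Hd.mk _ z hz) = sqf U (z J) := fun z hz => rfl
  rw [← hΛ q hz]
  have hmem : Hd.mk (dQ dX) q hz ∈
      Submodule.span F2 ({y | ∃ i x, y = Eop dX h.dd i x} ∪ {z | ∃ x y, z = Bop dX x y}) := by
    rw [quad_span]; trivial
  refine Submodule.span_induction (p := fun ξ _ => u (c J (h.eqQ hq ξ)) = Λ ξ) ?_ ?_ ?_ ?_ hmem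
  · rintro _ (⟨i, x, rfl⟩ | ⟨x, y, rfl⟩)
    · rw [h.eqQ_Eop hq, hc.c_G J hJ]
      obtain ⟨x, hx, rfl⟩ := Hd.mk_surj dX x
      rw [Eop_mk, hΛ]
      by_cases e : i = J
      · subst e
        rw [if_pos rfl, Finsupp.single_eq_same, sqf_tmul, sq_F2, hU]
      · rw [if_neg e, Finsupp.single_eq_of_ne (by omega), map_zero, map_zero]
    · rw [h.eqQ_Bop hq, hc.c_T0 J hJ]
      obtain ⟨x, hx, rfl⟩ := Hd.mk_surj dX x
      obtain ⟨y, hy, rfl⟩ := Hd.mk_surj dX y
      rw [Bop_mk, hΛ, Finsupp.single_eq_of_ne (by omega), map_zero, map_zero]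
  · simp
  · intro x y _ _ hx hy
    rw [map_add, map_add, map_add, map_add, hx, hy]
  · intro r x _ hx
    rw [map_smul, map_smul, map_smul, map_smul, hx]

/-- **functional characterisation** -/
theorem cf_s_functional (K : SS) (J : ℕ) (hJ : 1 ≤ J) (i : ℕ) (u : H F2 K →ₗ[F2] F2)
    (U : N F2 K →ₗ[F2] F2) (hU0 : ∀ x, U (N.bd F2 K x) = 0)
    (hU : ∀ z hz, U z = u (Hd.mk (N.bd F2 K) z hz)) (x : N F2 K) (hx : N.bd F2 K x = 0) :
    u (cf K J ((isSq K).s i (Hd.mk _ x hx))) =
      if J ≤ i then sqf U (Phi252.Phi K (i - J) x) else 0 := by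
  rw [s_eq_stC, (isCoef K).functional (qi_cross K K) J hJ u U hU0 hU, stC_apply]
  split_ifs
  · rfl
  · exact map_zero _

end Crest.Agent.R204.Q888
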