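import Crest.Agent.R204.C6_898
import Crest.Agent.R204.SqPhi_888
import Crest.Agent.R204.Sq2_252
import Crest.Agent.R204.EZInst_847
import Crest.Agent.R204.RkCartan_888

-- ▼ part R204/SqInt_898
section

/-!
# Row 204, block S (helper898): internal Cartan formulas and the Steenrod operations on `B Z/2`

From `SqPre` (natural operations on `H F2 K`, identity in degree `0`, degrees, instability, external
Cartan formula, `Sq_1 a_2 = a_1`):
* `cop_Sq` : `Δ (Sq_a x) = ∑ (Sq_p ⊗ Sq_q) (Δ x)`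
* `mul_Sq` : `Sq_a (x y) = ∑ Sq_p x Sq_q y` for every H-monoid
* `sqB` : `Sq_b a_i = C(i-b,b) a_{i-b}`
* `toSys : SqSys`
-/

set_option autoImplicit false

noncomputable section

namespace Crest.Agent.R204.C6898

open SS TensorProduct Coalg847 EZ271 ThetaSS265 ThAlg265
open Finset.HasAntidiagonal (antidiagonal mem_antidiagonal)

/-- natural operations with the axioms needed for everything on `H F2 K` -/
structure SqPre where
  Sq : ∀ K : SS, ℕ → H F2 K →ₗ[F2] H F2 K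
  nat : ∀ {K L : SS} (f : Hom K L) (a : ℕ) (x : H F2 K),
    H.map F2 f (Sq K a x) = Sq L a (H.map F2 f x)
  cartan : ∀ (K L : SS) (a : ℕ) (x : H F2 K) (y : H F2 L), Sq (K.prod L) a (Ez.cr K L (x ⊗ₜ y)) =
    ∑ p ∈ antidiagonal a, Ez.cr K L (Sq K p.1 x ⊗ₜ Sq L p.2 y)
  zero : ∀ {K : SS} (x : H F2 K), Sq K 0 x = x
  gr : ∀ {K : SS} (a n : ℕ) (x : H F2 K), x ∈ H.gr F2 K n → Sq K a x ∈ H.gr F2 K (n - a)
  unst : ∀ {K : SS} (a n : ℕ) (x : H F2 K), x ∈ H.gr F2 K n → n < 2 * a → Sq K a x = 0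
  top2 : Sq BZ498.BZ 1 (BZ498.aZ 2) = BZ498.aZ 1

namespace SqPre

variable (S : SqPre) {K L : SS}

theorem cartan' (a : ℕ) (t : H F2 K ⊗[F2] H F2 L) : S.Sq (K.prod L) a (Ez.cr K L t) =
    Ez.cr K L (∑ p ∈ antidiagonal a, TensorProduct.map (S.Sq K p.1) (S.Sq L p.2) t) := by
  induction t with
  | zero => simp
  | add x y hx hy =>
    simp only [map_add, hx, hy, Finset.sum_add_distrib]
  | tmul x y =>
    rw [S.cartan, map_sum]
    rfl

/-- **Cartan formula for the coproduct** -/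
theorem cop_Sq (a : ℕ) (x : H F2 K) : Ez.cop K (S.Sq K a x) =
    ∑ p ∈ antidiagonal a, TensorProduct.map (S.Sq K p.1) (S.Sq K p.2) (Ez.cop K x) := by
  apply (Ez.cr K K).injective
  rw [EZData.cr_cop, S.nat, ← EZData.cr_cop, S.cartan']


/-! ## the classifying space -/

theorem pair_cop (f g : H F2 BZ498.BZ →ₗ[F2] F2) (i : ℕ) :
    TensorProduct.lid F2 F2 (TensorProduct.map f g (Ez.cop _ (BZ498.aZ i))) =
      ∑ p ∈ antidiagonal i, f (BZ498.aZ p.1) * g (BZ498.aZ p.2) := by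
  rw [cop_aZ, map_sum, map_sum]
  refine Finset.sum_congr rfl fun p _ => ?_
  rw [TensorProduct.map_tmul, TensorProduct.lid_tmul, smul_eq_mul]

theorem pair_aZ (m n i : ℕ) : ∑ p ∈ antidiagonal i,
    BZ498.xZ m (BZ498.aZ p.1) * BZ498.xZ n (BZ498.aZ p.2) = if i = m + n then 1 else 0 := by
  by_cases h : i = m + n
  · rw [if_pos h, Finset.sum_eq_single (m, n)]
    · rw [BZ498.xZ_aZ, BZ498.xZ_aZ, if_pos rfl, if_pos rfl, mul_one]
    · rintro ⟨p, q⟩ hp hne
      rw [BZ498.xZ_aZ, BZ498.xZ_aZ]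
      by_cases h1 : p = m
      · have h2 : q ≠ n := fun h2 => hne (by rw [h1, h2])
        rw [if_neg h2, mul_zero]
      · rw [if_neg h1, zero_mul]
    · intro hn
      exact (hn (mem_antidiagonal.2 h.symm)).elim
  · rw [if_neg h]
    refine Finset.sum_eq_zero ?_
    rintro ⟨p, q⟩ hp
    rw [mem_antidiagonal] at hp
    rw [BZ498.xZ_aZ, BZ498.xZ_aZ]
    by_cases h1 : p = m
    · have h2 : q ≠ n := fun h2 => h (by rw [← hp, h1, h2])
      rw [if_neg h2, mul_zero]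
    · rw [if_neg h1, zero_mul]

theorem xZ_gr {m n : ℕ} (h : n ≠ m) {u : H F2 BZ498.BZ} (hu : u ∈ H.gr F2 BZ498.BZ n) :
    BZ498.xZ m u = 0 := by
  obtain ⟨r, rfl⟩ := BZ498.memZ_gr n u hu
  rw [map_smul, BZ498.xZ_aZ, if_neg h, smul_zero]

/-- `x^1 ∘ Sq_1 = x^2` -/
theorem x1_Sq1 : BZ498.xZ 1 ∘ₗ S.Sq BZ498.BZ 1 = BZ498.xZ 2 :=
  BZ498.homZ_ext fun n => by
    rw [LinearMap.comp_apply, BZ498.xZ_aZ]
    by_cases h : n = 2
    · rw [h, S.top2, BZ498.xZ_aZ, if_pos rfl, if_pos rfl]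
    · rw [if_neg h]
      exact xZ_gr (by omega) (S.gr 1 n _ (BZ498.aZ_mem_gr n))

theorem x1_Sq_ge2 (c : ℕ) (hc : 2 ≤ c) : BZ498.xZ 1 ∘ₗ S.Sq BZ498.BZ c = 0 :=
  BZ498.homZ_ext fun n => by
    rw [LinearMap.comp_apply, LinearMap.zero_apply]
    by_cases h : n < 2 * c
    · rw [S.unst c n _ (BZ498.aZ_mem_gr n) h, map_zero]
    · exact xZ_gr (by omega) (S.gr c n _ (BZ498.aZ_mem_gr n))

/-- recursion for the coefficients -/
theorem rec_sqB (i b n : ℕ) : BZ498.xZ (n + 1) (S.Sq _ (b + 1) (BZ498.aZ (i + 2))) =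
    BZ498.xZ n (S.Sq _ (b + 1) (BZ498.aZ (i + 1))) + BZ498.xZ n (S.Sq _ b (BZ498.aZ i)) := by
  -- `x^(n+1) = (x^1 ⊗ x^n) ∘ Δ`
  have h1 : ∀ u : H F2 BZ498.BZ, BZ498.xZ (n + 1) u =
      TensorProduct.lid F2 F2 (TensorProduct.map (BZ498.xZ 1) (BZ498.xZ n) (Ez.cop _ u)) := by
    have : BZ498.xZ (n + 1) = (TensorProduct.lid F2 F2).toLinearMap ∘ₗ
        TensorProduct.map (BZ498.xZ 1) (BZ498.xZ n) ∘ₗ Ez.cop _ :=
      BZ498.homZ_ext fun i => by
        rw [BZ498.xZ_aZ]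
        show _ = TensorProduct.lid F2 F2 (TensorProduct.map _ _ (Ez.cop _ (BZ498.aZ i)))
        rw [pair_cop, pair_aZ]
        congr 1
        rw [add_comm]
    intro u
    rw [this]
    rfl
  rw [h1, S.cop_Sq, map_sum, map_sum, Finset.Nat.sum_antidiagonal_eq_sum_range_succ_mk,
    Finset.sum_range_succ', Finset.sum_range_succ']
  have h2 : ∀ (c d : ℕ), TensorProduct.lid F2 F2 (TensorProduct.map (BZ498.xZ 1) (BZ498.xZ n)
      (TensorProduct.map (S.Sq _ c) (S.Sq _ d) (Ez.cop _ (BZ498.aZ (i + 2))))) =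
      ∑ p ∈ antidiagonal (i + 2), (BZ498.xZ 1 ∘ₗ S.Sq _ c) (BZ498.aZ p.1) *
        (BZ498.xZ n ∘ₗ S.Sq _ d) (BZ498.aZ p.2) := by
    intro c d
    rw [← pair_cop, TensorProduct.map_comp]
    rfl
  simp only [h2]
  rw [Finset.sum_eq_zero (s := Finset.range b)]
  · rw [zero_add]
    simp only [zero_add, Nat.add_sub_cancel, Nat.sub_zero]
    rw [S.x1_Sq1]
    have h3 : BZ498.xZ 1 ∘ₗ S.Sq BZ498.BZ 0 = BZ498.xZ 1 := LinearMap.ext fun x => by
      rw [LinearMap.comp_apply, S.zero]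
    rw [h3, add_comm]
    congr 1
    · rw [Finset.sum_eq_single (1, i + 1)]
      · rw [BZ498.xZ_aZ, if_pos rfl, one_mul]; rfl
      · rintro ⟨p, q⟩ hp hne
        rw [mem_antidiagonal] at hp
        have h1 : p ≠ 1 := fun h1 => hne (by
          have : q = i + 1 := by simp only at hp; omega
          rw [h1, this])
        rw [BZ498.xZ_aZ, if_neg h1, zero_mul]
      · intro hn
        exact (hn (mem_antidiagonal.2 (by simp only; omega))).elim
    · rw [Finset.sum_eq_single (2, i)]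
      · rw [BZ498.xZ_aZ, if_pos rfl, one_mul]; rfl
      · rintro ⟨p, q⟩ hp hne
        rw [mem_antidiagonal] at hp
        have h1 : p ≠ 2 := fun h1 => hne (by
          have : q = i := by simp only at hp; omega
          rw [h1, this])
        rw [BZ498.xZ_aZ, if_neg h1, zero_mul]
      · intro hn
        exact (hn (mem_antidiagonal.2 (by simp only; omega))).elim
  · intro c _
    rw [S.x1_Sq_ge2 (c + 1 + 1) (by omega)]
    simp

/-- the coefficient of `Sq_b a_i` -/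
theorem coef_sqB : ∀ i b : ℕ, 2 * b ≤ i →
    BZ498.xZ (i - b) (S.Sq _ b (BZ498.aZ i)) = (Nat.choose (i - b) b : F2) := by
  intro i
  induction i using Nat.strong_induction_on with
  | _ i ih =>
    intro b hb
    rcases b with _ | b
    · rw [S.zero, Nat.sub_zero, BZ498.xZ_aZ, if_pos rfl, Nat.choose_zero_right, Nat.cast_one]
    · obtain ⟨j, rfl⟩ : ∃ j, i = j + 2 := ⟨i - 2, by omega⟩
      obtain ⟨n, hn⟩ : ∃ n, j + 2 - (b + 1) = n + 1 := ⟨j - b, by omega⟩
      rw [hn, S.rec_sqB j b n, Nat.choose_succ_succ]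
      have e1 : BZ498.xZ n (S.Sq _ b (BZ498.aZ j)) = (Nat.choose n b : F2) := by
        have := ih j (by omega) b (by omega)
        rwa [show j - b = n by omega] at this
      have e2 : BZ498.xZ n (S.Sq _ (b + 1) (BZ498.aZ (j + 1))) = (Nat.choose n (b + 1) : F2) := by
        by_cases h : 2 * (b + 1) ≤ j + 1
        · have := ih (j + 1) (by omega) (b + 1) h
          rwa [show j + 1 - (b + 1) = n by omega] at this
        · rw [S.unst (b + 1) (j + 1) _ (BZ498.aZ_mem_gr _) (by omega), map_zero,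
            Nat.choose_eq_zero_of_lt (by omega), Nat.cast_zero]
      rw [e1, e2]
      push_cast
      ring

/-- **`Sq_b a_i = C(i-b,b) a_{i-b}`** -/
theorem sqB (i b : ℕ) : S.Sq BZ498.BZ b (BZ498.aZ i) =
    if 2 * b ≤ i then (Nat.choose (i - b) b : F2) • BZ498.aZ (i - b) else 0 := by
  split_ifs with h
  · obtain ⟨r, hr⟩ := BZ498.memZ_gr (i - b) _ (S.gr b i _ (BZ498.aZ_mem_gr i))
    have h1 := S.coef_sqB i b h
    rw [hr, map_smul, BZ498.xZ_aZ, if_pos rfl, smul_eq_mul, mul_one] at h1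
    rw [hr, h1]
  · exact S.unst b i _ (BZ498.aZ_mem_gr i) (by omega)

/-- the system used for the operations `T_i` -/
def toSys : SqSys where
  Sq := S.Sq
  nat := S.nat
  cartan := S.cartan
  sqB := S.sqB

end SqPre

end Crest.Agent.R204.C6898
end
end

-- ▼ part R204/TopSq_898
section

/-!
# Row 204, block S (helper898): the top square

`<u, R_0 x> = <u ⊗ u, Δ x>`, hence `<u, Sq_n y> = <u ⊗ u, Δ y>` for `y` of degree `2n`;
`Sq_1 a_2 = a_1` in `H(B Z/2)`.
-/

set_option autoImplicit false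

noncomputable section

namespace Crest.Agent.R204.C6898

open SS TensorProduct Coalg847 EZ271 EZ847 Sq252

theorem uu_tD {K : SS} (u : N F2 K →ₗ[F2] F2) (hu : ∀ x, u (N.bd F2 K x) = 0)
    (z : N F2 K ⊗[F2] N F2 K) : uu u (tD (N.bd F2 K) (N.bd F2 K) z) = 0 := uu_dT (N.bd F2 K) u hu z

theorem uu_Phi_zero {K : SS} (u : N F2 K →ₗ[F2] F2) (hu : ∀ x, u (N.bd F2 K x) = 0)
    (z : N F2 K) (hz : N.bd F2 K z = 0) : uu u (Phi252.Phi K 0 z) = uu u (EZ271.cop F2 z) := by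
  obtain ⟨w, hw⟩ := Q888.family_w K z hz
  have h := congrArg (fun t => uu u (aw F2 t)) (hw 0)
  simp only [AMU898.prev_zero, map_zero, add_zero, map_add] at h
  have h1 : aw F2 (Q888.th K 0 z) = Phi252.Phi K 0 z := aw_crossT F2 _
  have h2 : aw F2 (Q888.th' K 0 z) = EZ271.cop F2 z := EZ847.aw_diag z
  have h3 : uu u (aw F2 (N.bd F2 (K.prod K) (w 0))) = 0 := by
    rw [EZ847.aw_bd]
    exact uu_dT (N.bd F2 K) u hu _
  rw [h1, h2, h3] at h
  have := QC134.add_self' (uu u (EZ271.cop F2 z))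
  calc uu u (Phi252.Phi K 0 z) = uu u (Phi252.Phi K 0 z) +
        (uu u (EZ271.cop F2 z) + uu u (EZ271.cop F2 z)) := by rw [this, add_zero]
    _ = uu u (EZ271.cop F2 z) := by rw [← add_assoc, h, zero_add]

/-- functional on the homology of a tensor square -/
theorem lid_eq_uH {K : SS} (u : N F2 K →ₗ[F2] F2) (hu : ∀ x, u (N.bd F2 K x) = 0)
    (t : H F2 K ⊗[F2] H F2 K) : TensorProduct.lid F2 F2 (TensorProduct.map (uH _ u hu) (uH _ u hu) t) =
      uH (tD (N.bd F2 K) (N.bd F2 K)) (uu u) (uu_tD u hu)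
        (kun (N.bd F2 K) (N.bd F2 K) N.bd_bd N.bd_bd t) := by
  induction t with
  | zero => simp
  | add a b ha hb => simp only [map_add, ha, hb]
  | tmul a b =>
    obtain ⟨a, ha, rfl⟩ := Hd.mk_surj _ a
    obtain ⟨b, hb, rfl⟩ := Hd.mk_surj _ b
    rw [kun_mk, uH_mk, TensorProduct.map_tmul, TensorProduct.lid_tmul, uH_mk, uH_mk, uu_tmul,
      smul_eq_mul]

/-- **top square, total form**: `<f, R_0 x> = <f ⊗ f, Δ x>` -/
theorem top_Rk {K : SS} (f : H F2 K →ₗ[F2] F2) (x : H F2 K) :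
    f (Rk K 0 x) = TensorProduct.lid F2 F2 (TensorProduct.map f f (Ez.cop K x)) := by
  obtain ⟨u, hu, rfl⟩ := exists_uH (N.bd F2 K) (fun x => N.bd_bd x) f
  obtain ⟨z, hz, rfl⟩ := Hd.mk_surj _ x
  rw [uH_Rk, lid_eq_uH, uu_Phi_zero u hu z hz]
  have h := kun_copH z hz
  have e : kun (N.bd F2 K) (N.bd F2 K) N.bd_bd N.bd_bd (Ez.cop K (Hd.mk _ z hz)) =
      Hd.mk _ (EZ271.cop F2 z) (cop_cyc hz) := h
  rw [e, uH_mk]

/-- **top square**: `<f, Sq_n y> = <f ⊗ f, Δ y>` for `y` of degree `2n` -/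
theorem top_Sq {K : SS} (f : H F2 K →ₗ[F2] F2) {n : ℕ} {y : H F2 K} (hy : y ∈ H.gr F2 K (2 * n)) :
    f (Sq252.Sq K n y) = TensorProduct.lid F2 F2 (TensorProduct.map f f (Ez.cop K y)) := by
  rw [← top_Rk, Rk_eq_Sq hy (by omega : 2 * n = 2 * n + 0)]

/-- `Sq_1 a_2 = a_1` -/
theorem top2 : Sq252.Sq BZ498.BZ 1 (BZ498.aZ 2) = BZ498.aZ 1 := by
  have h2 : BZ498.aZ 2 ∈ H.gr F2 BZ498.BZ (2 * 1) := BZ498.aZ_mem_gr 2
  obtain ⟨r, hr⟩ := BZ498.memZ_gr 1 _ (Sq_mem_gr h2 : _ ∈ H.gr F2 BZ498.BZ (2 * 1 - 1))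
  have h := top_Sq (BZ498.xZ 1) h2
  rw [SqPre.pair_cop, SqPre.pair_aZ, if_pos rfl, hr, map_smul, BZ498.xZ_aZ, if_pos rfl, smul_eq_mul,
    mul_one] at h
  rw [hr, h, one_smul]

end Crest.Agent.R204.C6898
end
end

-- ▼ part R204/SqCartan_898

/-!
# Row 204, block S (helper898): the external Cartan formula for `Sq252.Sq`, and the instance

`sqPre : SqPre`, `sqSys : SqSys` for the Steenrod operations of helper252.
-/

set_option autoImplicit false

noncomputable section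

namespace Crest.Agent.R204.C6898

open SS TensorProduct Coalg847 EZ271 EZ847 Sq252
open Finset.HasAntidiagonal (antidiagonal mem_antidiagonal)

theorem crH_eq {K L : SS} (x : H F2 K) (y : H F2 L) : Q888.crH x y = Ez.cr K L (x ⊗ₜ y) := by
  obtain ⟨x, hx, rfl⟩ := Hd.mk_surj _ x
  obtain ⟨y, hy, rfl⟩ := Hd.mk_surj _ y
  rw [EZData.cr_mk]
  rfl

/-- Cartan formula, homogeneous classes -/
theorem Sq_crH_gr {K L : SS} (a : ℕ) {m n : ℕ} {x : H F2 K} {y : H F2 L} (hx : x ∈ H.gr F2 K m)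
    (hy : y ∈ H.gr F2 L n) : Sq (K.prod L) a (Q888.crH x y) =
      ∑ p ∈ antidiagonal a, Q888.crH (Sq K p.1 x) (Sq L p.2 y) := by
  classical
  have hxy : Q888.crH x y ∈ H.gr F2 (K.prod L) (m + n) := by
    rw [crH_eq]; exact Ez.cr_mem_gr hx hy
  -- only the terms with `2 p ≤ m`, `2 q ≤ n` contribute
  have h0 : ∑ p ∈ antidiagonal a with (2 * p.1 ≤ m ∧ 2 * p.2 ≤ n),
      Q888.crH (Sq K p.1 x) (Sq L p.2 y) = ∑ p ∈ antidiagonal a, Q888.crH (Sq K p.1 x) (Sq L p.2 y) := by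
    refine Finset.sum_filter_of_ne fun p _ hp => ?_
    by_contra hcon
    apply hp
    rcases not_and_or.1 hcon with h | h
    · rw [Sq_unst hx (by omega), map_zero, LinearMap.zero_apply]
    · rw [Sq_unst hy (by omega), map_zero]
  rw [← h0]
  by_cases hmn : 2 * a ≤ m + n
  · rw [Sq_apply hxy hmn, Q888.Rk_cross, eq_comm]
    refine Finset.sum_of_injOn (fun p => (m - 2 * p.1, n - 2 * p.2)) ?_ ?_ ?_ ?_
    · rintro ⟨i, j⟩ hij ⟨i', j'⟩ hij' h
      simp only [Finset.coe_filter, Set.mem_ofPred_eq, mem_antidiagonal] at hij hij'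
      simp only [Prod.mk.injEq] at h
      refine Prod.ext ?_ ?_ <;> simp only <;> omega
    · rintro ⟨i, j⟩ hij
      simp only [Finset.coe_filter, Set.mem_ofPred_eq, mem_antidiagonal] at hij
      simp only [Finset.mem_coe, mem_antidiagonal]
      omega
    · rintro ⟨p, q⟩ hpq hne
      simp only [mem_antidiagonal] at hpq
      simp only
      by_cases h1 : m < p
      · rw [Rk_eq_zero_of_lt h1 hx, map_zero, LinearMap.zero_apply]
      by_cases h2 : n < q
      · rw [Rk_eq_zero_of_lt h2 hy, map_zero]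
      by_cases h3 : (m + p) % 2 = 1
      · rw [Rk_eq_zero_of_odd h3 hx, map_zero, LinearMap.zero_apply]
      refine (hne ⟨((m - p) / 2, (n - q) / 2), ?_, ?_⟩).elim
      · simp only [Finset.coe_filter, Set.mem_ofPred_eq, mem_antidiagonal]
        omega
      · simp only [Prod.mk.injEq]
        omega
    · rintro ⟨i, j⟩ hij
      simp only [Finset.mem_filter, mem_antidiagonal] at hij
      simp only
      rw [Sq_apply hx hij.2.1, Sq_apply hy hij.2.2]
  · rw [Sq_unst hxy (by omega), eq_comm]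
    refine Finset.sum_eq_zero ?_
    rintro ⟨i, j⟩ hij
    simp only [Finset.mem_filter, mem_antidiagonal] at hij
    omega

/-- **external Cartan formula** for `Sq` -/
theorem Sq_crH (K L : SS) (a : ℕ) (x : H F2 K) (y : H F2 L) :
    Sq (K.prod L) a (Q888.crH x y) = ∑ p ∈ antidiagonal a, Q888.crH (Sq K p.1 x) (Sq L p.2 y) := by
  refine Gr334.H_induction (p := fun x => Sq (K.prod L) a (Q888.crH x y) =
    ∑ p ∈ antidiagonal a, Q888.crH (Sq K p.1 x) (Sq L p.2 y)) x (by simp) ?_ fun m x hx => ?_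
  · intro x x' h h'
    simp only [map_add, LinearMap.add_apply, h, h', Finset.sum_add_distrib]
  refine Gr334.H_induction (p := fun y => Sq (K.prod L) a (Q888.crH x y) =
    ∑ p ∈ antidiagonal a, Q888.crH (Sq K p.1 x) (Sq L p.2 y)) y (by simp) ?_ fun n y hy => ?_
  · intro y y' h h'
    simp only [map_add, h, h', Finset.sum_add_distrib]
  exact Sq_crH_gr a hx hy

/-- **external Cartan formula** for `Sq`, in terms of `Ez.cr` -/
theorem Sq_cr (K L : SS) (a : ℕ) (x : H F2 K) (y : H F2 L) :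
    Sq (K.prod L) a (Ez.cr K L (x ⊗ₜ y)) =
      ∑ p ∈ antidiagonal a, Ez.cr K L (Sq K p.1 x ⊗ₜ Sq L p.2 y) := by
  rw [← crH_eq, Sq_crH]
  exact Finset.sum_congr rfl fun p _ => crH_eq _ _

/-- the Steenrod operations of helper252 -/
def sqPre : SqPre where
  Sq := Sq252.Sq
  nat f a x := Sq_map f a x
  cartan := Sq_cr
  zero x := Sq_zero x
  gr _ _ _ hx := Sq_mem_gr hx
  unst _ _ _ hx h := Sq_unst hx h
  top2 := top2

/-- the system for the operations `T_i` -/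
def sqSys : SqSys := sqPre.toSys


/-- Cartan formula for the coproduct -/
theorem cop_Sq252 {K : SS} (a : ℕ) (x : H F2 K) : Ez.cop K (Sq252.Sq K a x) =
    ∑ p ∈ antidiagonal a, TensorProduct.map (Sq252.Sq K p.1) (Sq252.Sq K p.2) (Ez.cop K x) :=
  sqPre.cop_Sq a x

/-- `Sq_b a_i = C(i-b,b) a_{i-b}` -/
theorem Sq252_aZ (i b : ℕ) : Sq252.Sq BZ498.BZ b (BZ498.aZ i) =
    if 2 * b ≤ i then (Nat.choose (i - b) b : F2) • BZ498.aZ (i - b) else 0 := sqPre.sqB i b

end Crest.Agent.R204.C6898
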