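import Crest.Agent.R204.Sigma2_88
import Crest.Agent.R204.SqCartan_898
import Crest.Agent.R204.InstF_114
import Crest.Agent.R204.SigQI_265

-- ▼ part R204/SigSq_194
section

/-!
# Row 204, FactSigma (helper194): `σ Sq^a_* = Sq^a_* σ`

`circ = Δ¹/∂Δ¹`; a map `e : Δ¹ × P → Y` whose two ends are the constant map factors through
`circ × P`, and `σ x = e'_* (c × x)` with `c ∈ H_1(circ)`.  Now the external Cartan formula.
-/

set_option autoImplicit false

noncomputable section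

open scoped TensorProduct

namespace Crest.Agent.R204.SigSq194

open Coalg847 EZ271
open Sigma88 (Ends sgH sgH_mk sgN sgN_apply cst oS bd_sgN)

/-- constant operators are identified -/
def cRel (n : ℕ) (α β : Op n 1) : Prop := (∃ i, α = cst n i) ∧ (∃ i, β = cst n i)

theorem cst_comp {m n : ℕ} (f : Op m n) (i : Fin 2) : (cst n i).comp f = cst m i := rfl

/-- `Δ¹/∂Δ¹` -/
def circ : SS where
  S n := Quot (cRel n)
  act {m n} f := Quot.map (fun α : Op n 1 => α.comp f) (by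
    rintro α β ⟨⟨i, rfl⟩, ⟨j, rfl⟩⟩
    exact ⟨⟨i, cst_comp f i⟩, ⟨j, cst_comp f j⟩⟩)
  act_id x := by
    induction x using Quot.ind
    rfl
  act_comp f g x := by
    induction x using Quot.ind
    rfl

/-- the quotient map -/
def cq : SS.Hom (SS.std 1) circ := ⟨fun _ α => Quot.mk _ α, fun _ _ => rfl⟩

theorem cq_cst (n : ℕ) (i j : Fin 2) : cq.app n (oS (cst n i)) = cq.app n (oS (cst n j)) :=
  Quot.sound ⟨⟨i, rfl⟩, ⟨j, rfl⟩⟩

/-- the factorisation -/
def fac {P Y : SS} {e : SS.Hom ((SS.std 1).prod P) Y} {y : Y.S 0} (h : Ends e y) :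
    SS.Hom (circ.prod P) Y where
  app n x := Quot.lift (fun α : Op n 1 => e.app n (oS α, x.2)) (by
    rintro α β ⟨⟨i, rfl⟩, ⟨j, rfl⟩⟩
    have key : ∀ i : Fin 2, e.app n (oS (cst n i), x.2) = (SS.constHom P Y y).app n x.2 := by
      intro i
      fin_cases i
      · exact h.zero n x.2
      · exact h.one n x.2
    show e.app n (oS (cst n i), x.2) = e.app n (oS (cst n j), x.2)
    rw [key, key]) x.1
  nat {m n} f x := by
    obtain ⟨c, x⟩ := x
    induction c using Quot.ind with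
    | mk α => exact e.nat f (oS α, x)

theorem fac_comp {P Y : SS} {e : SS.Hom ((SS.std 1).prod P) Y} {y : Y.S 0} (h : Ends e y) :
    (fac h).comp (SS.prodMap cq (SS.Hom.id P)) = e := rfl

/-- the fundamental cycle of the circle -/
def cz : N F2 circ := N.map F2 cq (Sigma88.io F2 1)

theorem bd_cz : N.bd F2 _ cz = 0 := by
  rw [cz, ← map_bd', Sigma88.bd_io, map_sum, Fin.sum_univ_two]
  simp only [map_smul]
  have h0 : N.map F2 cq (N.sx F2 (oS (Op.face (0 : Fin 2)))) = N.sx F2 (cq.app 0 (oS (cst 0 1))) := by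
    refine (N.map_sx _ _).trans ?_
    congr 2
    refine OrderHom.ext _ _ (funext fun a => ?_)
    fin_cases a; rfl
  have h1 : N.map F2 cq (N.sx F2 (oS (Op.face (1 : Fin 2)))) = N.sx F2 (cq.app 0 (oS (cst 0 0))) := by
    refine (N.map_sx _ _).trans ?_
    congr 2
    refine OrderHom.ext _ _ (funext fun a => ?_)
    fin_cases a; rfl
  rw [h0, h1, cq_cst 0 0 1]
  simp only [Fin.val_zero, Fin.val_one, pow_zero, pow_one, one_smul, neg_one_smul, add_neg_cancel]

/-- the class of the circle -/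
def cc : H F2 circ := Hd.mk _ cz bd_cz

theorem cc_mem : cc ∈ H.gr F2 circ 1 :=
  mk_mem_gr _ (nMap_mem_gr _ (Sigma88.sx_mem_gr _))

theorem sgN_eq {P Y : SS} {e : SS.Hom ((SS.std 1).prod P) Y} {y : Y.S 0} (h : Ends e y)
    (z : N F2 P) : sgN e z = N.map F2 (fac h) (cross F2 cz z) := by
  have h1 : cross F2 cz z = N.map F2 (SS.prodMap cq (SS.Hom.id P)) (cross F2 (Sigma88.io F2 1) z) := by
    rw [map_cross, map_idHom]
    rfl
  rw [h1, map_map, fac_comp]
  rfl

/-- `σ x = e'_* (c × x)` -/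
theorem sgH_eq {P Y : SS} {e : SS.Hom ((SS.std 1).prod P) Y} {y : Y.S 0} (h : Ends e y)
    (x : H F2 P) : sgH h x = H.map F2 (fac h) (EZ847.ezd.cr circ P (cc ⊗ₜ x)) := by
  obtain ⟨z, hz, rfl⟩ := Hd.mk_surj _ x
  rw [cc, EZData.cr_mk, sgH_mk, hMap_mk]
  congr 1
  exact sgN_eq h z

theorem Sq_cc (a : ℕ) (ha : 1 ≤ a) : Sq252.Sq circ a cc = 0 :=
  Sq252.Sq_unst cc_mem (by omega)

/-- **`σ Sq^a_* = Sq^a_* σ`** -/
theorem sgH_Sq {P Y : SS} {e : SS.Hom ((SS.std 1).prod P) Y} {y : Y.S 0} (h : Ends e y)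
    (a : ℕ) (x : H F2 P) : sgH h (Sq252.Sq P a x) = Sq252.Sq Y a (sgH h x) := by
  rw [sgH_eq h x, ← Sq252.Sq_map, C6898.Sq_cr, map_sum, sgH_eq h]
  rw [Finset.sum_eq_single (0, a)]
  · rw [Sq252.Sq_zero]
  · rintro ⟨i, j⟩ hij hne
    have hi : 1 ≤ i := by
      rw [Finset.HasAntidiagonal.mem_antidiagonal] at hij
      simp only at hij
      rcases Nat.eq_zero_or_pos i with rfl | hp
      · refine (hne ?_).elim
        rw [Prod.mk.injEq]
        exact ⟨rfl, by omega⟩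
      · exact hp
    rw [Sq_cc i hi, TensorProduct.zero_tmul, map_zero, map_zero]
  · intro hn
    refine (hn ?_).elim
    rw [Finset.HasAntidiagonal.mem_antidiagonal]
    exact Nat.zero_add a

end Crest.Agent.R204.SigSq194
end
end

-- ▼ part R204/InstSig_194

/-!
# Row 204 (helper194): `FactSigma` for the concrete tower
-/

set_option autoImplicit false
set_option linter.style.haveILetI false

noncomputable section

namespace Crest.Agent.R204.Inst194

open scoped _root_.Topology _root_.Topology.Homotopy TensorProduct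
open Crest.Agent.R204 Crest.Agent.R204.Freu297 Crest.Agent.R204.Sus330
open Crest.Agent.R204.HspSS696 (mulS eS ptS)
open Crest.Agent.R204.Hsp696 (halves)
open Crest.Agent.R204.ThAlg265 (ThAlg SH omAlg omAlg_oneLaw)
open Crest.Agent.R204.Hopf450 (HMon)
open Crest.Agent.R204.Coalg847 (vtx eps)

/-! ## one loop structure -/

section one

variable {P Y : Type} [TopologicalSpace P] [TopologicalSpace Y] {g0 : P} {y0 : Y}
  (Λ : LoopStr P Y g0 y0)


theorem sigma_gr {t : ℕ} {y : H F2 (SS.Sing P)} (hy : y ∈ H.gr F2 _ t) :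
    Λ.sigma y ∈ H.gr F2 (SS.Sing Y) (t + 1) := Sigma88.sigH_mem_gr Λ hy

theorem sigma_cop (y : H F2 (SS.Sing P)) : EE.cop _ (Λ.sigma y) =
    Λ.sigma y ⊗ₜ vtx (Sigma88.bV Y y0) + vtx (Sigma88.bV Y y0) ⊗ₜ Λ.sigma y :=
  Sigma88.cop_sigH Λ EE y

theorem sigma_Sq (a : ℕ) (y : H F2 (SS.Sing P)) :
    Λ.sigma (Sq252.Sq _ a y) = Sq252.Sq _ a (Λ.sigma y) :=
  SigSq194.sgH_Sq (Sigma88.ends Λ) a y

end one

/-! ## `Ω^a Z → Ω^b Z`, `a = b + 1` -/

section two

variable {Z : Type} [TopologicalSpace Z] {z₀ : Z} {M a b : ℕ}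


theorem loopC_mul (hM : 1 ≤ M) (h : a = b + 1) (ha : M + 1 ≤ a)
    (y z : H F2 (SS.Sing (Ω^ (Fin a) Z z₀))) :
    (loopC h).sigma ((hmonA hM ha).mulL EE y z) =
      eps _ y • (loopC h).sigma z + eps _ z • (loopC h).sigma y := by
  subst h
  haveI : Nontrivial (Fin (b + 1)) := Fin.nontrivial_iff_two_le.2 (two_le hM ha)
  exact Sigma88.sigH_mulS HtpInv334.homotopyInv EE (halves (i0 ha)) y z

theorem loopC_T (h : a = b + 1) (ha : M + 1 ≤ a) (hb : M + 1 ≤ b) (i : ℕ)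
    (y : H F2 (SS.Sing (Ω^ (Fin a) Z z₀))) :
    (loopC h).sigma (Ops265.T (thA ha) i y) = Ops265.T (thA hb) i ((loopC h).sigma y) := by
  subst h
  have key := SigQ265.sigH_T (Z := Z) (z₀ := z₀) (emb hb) (mu0 hb) (mu0 ha) i y
  rw [← emb_castSucc hb ha] at key
  exact key

theorem loopC_Q (h : a = b + 1) (ha : M + 1 ≤ a) (hb : M + 1 ≤ b) {i : ℕ} (hi : i + 2 ≤ M)
    (y : H F2 (SS.Sing (Ω^ (Fin a) Z z₀))) :
    (loopC h).sigma (Ops265.Q (thA ha) (i + 1) y) = Ops265.Q (thA hb) i ((loopC h).sigma y) := by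
  subst h
  have key := SigQ265.sigH_Q (Z := Z) (z₀ := z₀) (emb hb) (mu0 hb) (mu0 ha) hi y
  rw [← emb_castSucc hb ha] at key
  exact key

end two

/-! ## the tower -/

namespace Par

variable (p : Par) {D : ℕ}

theorem sig_of_lt {k : ℕ} (h : k < p.K) (y : H F2 (p.S k)) :
    p.sig k y = (loopX p.J0 h).sigma y := by
  rw [sig, dif_pos h]

/-- **FactSigma** -/
theorem factSigma (hM : D + 2 ≤ p.M) (hK : D + 2 ≤ p.K) : p.tower.FactSigma D := by
  intro k hk
  have h : k < p.K := by omega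
  refine ⟨?_, ?_, ?_, ?_, ?_, ?_, rfl⟩
  · intro t y hy
    show p.sig k y ∈ _
    rw [sig_of_lt p h]
    exact sigma_gr _ hy
  · intro y
    show EE.cop _ (p.sig k y) = p.sig k y ⊗ₜ[F2] vtx eS + vtx eS ⊗ₜ[F2] p.sig k y
    rw [sig_of_lt p h]
    exact sigma_cop _ y
  · intro y z
    show p.sig k ((p.N k).mulL EE y z) = eps _ y • p.sig k z + eps _ z • p.sig k y
    rw [sig_of_lt p h, sig_of_lt p h, sig_of_lt p h]
    exact loopC_mul p.hM (cd_succ h) (p.hc k) y z
  · intro a y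
    show p.sig k (Sq252.Sq _ a y) = Sq252.Sq _ a (p.sig k y)
    rw [sig_of_lt p h, sig_of_lt p h]
    exact sigma_Sq _ a y
  · intro i _ y
    show p.sig k (Ops265.T (p.A k) i y) = Ops265.T (p.A (k + 1)) i (p.sig k y)
    rw [sig_of_lt p h, sig_of_lt p h]
    exact loopC_T (cd_succ h) (p.hc k) (p.hc (k + 1)) i y
  · intro i hi y
    show p.sig k (Ops265.Q (p.A k) (i + 1) y) = Ops265.Q (p.A (k + 1)) i (p.sig k y)
    rw [sig_of_lt p h, sig_of_lt p h]
    exact loopC_Q (cd_succ h) (p.hc k) (p.hc (k + 1)) (by omega) y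

end Par

end Crest.Agent.R204.Inst194
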