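import Crest.Agent.R204.CovDefs_892

/-!
# Row 204, leaf B5: the universal covering of `Sing B` as a quotient of `Sing (PB)` (owner helper892)
-/

set_option autoImplicit false

noncomputable section

open Set unitInterval Topology

namespace Crest.Agent.R204.Cov892

open Crest.Agent.R204 Crest.Agent.R204.SS

/-- paths starting at the base point -/
abbrev PB {B : Type} [TopologicalSpace B] (b : B) : Type := {γ : C(I, B) // γ 0 = b}

variable {B : Type} [TopologicalSpace B] {b : B}

/-- end point -/
def ev1 : C(PB b, B) := ⟨fun γ => γ.1 1, by fun_prop⟩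

@[simp] theorem ev1_apply (γ : PB b) : ev1 γ = γ.1 1 := rfl

/-- a based path as a Mathlib path with prescribed end point -/
def pa (γ : PB b) (x : B) (h : γ.1 1 = x) : Path b x := ⟨γ.1, γ.2, h⟩

@[simp] theorem pa_apply (γ : PB b) (x : B) (h : γ.1 1 = x) (t : I) : pa γ x h t = γ.1 t := rfl

/-- a Mathlib path as a based path -/
def ofPath {x : B} (p : Path b x) : PB b := ⟨p.toContinuousMap, p.source⟩

@[simp] theorem ofPath_apply {x : B} (p : Path b x) (t : I) : (ofPath p).1 t = p t := rfl

theorem ofPath_one {x : B} (p : Path b x) : (ofPath p).1 1 = x := p.target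

@[simp] theorem pa_ofPath {x : B} (p : Path b x) : pa (ofPath p) x (ofPath_one p) = p := rfl

@[simp] theorem ofPath_pa (γ : PB b) (x : B) (h : γ.1 1 = x) : ofPath (pa γ x h) = γ := rfl

/-- same end point and homotopic rel end points -/
def PEq (γ γ' : PB b) : Prop := γ.1.HomotopicRel γ'.1 {0, 1}

theorem PEq.end_eq {γ γ' : PB b} (h : PEq γ γ') : γ.1 1 = γ'.1 1 := by
  obtain ⟨F⟩ := h
  have h0 := F.eq_fst 0 (x := (1 : I)) (by simp)
  have h1 := F.eq_snd 0 (x := (1 : I)) (by simp)
  rw [← h0, h1]

theorem pEq_iff {γ γ' : PB b} {x : B} (h : γ.1 1 = x) (h' : γ'.1 1 = x) :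
    PEq γ γ' ↔ (pa γ x h).Homotopic (pa γ' x h') := Iff.rfl

theorem PEq.refl (γ : PB b) : PEq γ γ := ContinuousMap.HomotopicRel.refl _
theorem PEq.symm {γ γ' : PB b} (h : PEq γ γ') : PEq γ' γ := ContinuousMap.HomotopicRel.symm h
theorem PEq.trans {γ γ' γ'' : PB b} (h : PEq γ γ') (h' : PEq γ' γ'') : PEq γ γ'' :=
  ContinuousMap.HomotopicRel.trans h h'

theorem PEq.of_path {x : B} {p q : Path b x} (h : p.Homotopic q) : PEq (ofPath p) (ofPath q) := h

instance : ContractibleSpace (I × I) := by
  have h1 : ContractibleSpace (Set.Icc (0 : ℝ) 1) :=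
    (convex_Icc (0 : ℝ) 1).contractibleSpace ⟨0, by simp⟩
  infer_instance

/-! ## transport along a path of paths -/

/-- A path of based paths `δ`: the last one is the first one followed by the path of end points. -/
theorem transport (δ : C(I, PB b)) {x y : B} (h0 : (δ 0).1 1 = x) (h1 : (δ 1).1 1 = y)
    (Q : Path x y) (hQ : ∀ u, Q u = (δ u).1 1) :
    (pa (δ 1) y h1).Homotopic ((pa (δ 0) x h0).trans Q) := by
  have hF : Continuous fun z : I × I => (δ z.1).1 z.2 := by fun_prop
  let F : C(I × I, B) := ⟨fun z => (δ z.1).1 z.2, hF⟩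
  -- four sides of the square
  let left : Path ((0, 0) : I × I) (1, 0) := ⟨⟨fun u => (u, 0), by fun_prop⟩, rfl, rfl⟩
  let right : Path ((0, 1) : I × I) (1, 1) := ⟨⟨fun u => (u, 1), by fun_prop⟩, rfl, rfl⟩
  let bot : Path ((0, 0) : I × I) (0, 1) := ⟨⟨fun u => (0, u), by fun_prop⟩, rfl, rfl⟩
  let top : Path ((1, 0) : I × I) (1, 1) := ⟨⟨fun u => (1, u), by fun_prop⟩, rfl, rfl⟩
  have key : (left.trans top).Homotopic (bot.trans right) := SimplyConnectedSpace.paths_homotopic _ _
  have key2 := key.map F
  rw [Path.map_trans, Path.map_trans] at key2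
  have e00 : b = F (0, 0) := ((δ 0).2).symm
  have e10 : b = F (1, 0) := ((δ 1).2).symm
  have e01 : x = F (0, 1) := h0.symm
  have e11 : y = F (1, 1) := h1.symm
  have c1 : (left.map F.continuous).cast e00 e10 = Path.refl b := by
    ext u
    exact (δ u).2
  have c2 : (top.map F.continuous).cast e10 e11 = pa (δ 1) y h1 := by
    ext u; rfl
  have c3 : (bot.map F.continuous).cast e00 e01 = pa (δ 0) x h0 := by
    ext u; rfl
  have c4 : (right.map F.continuous).cast e01 e11 = Q := by
    ext u; exact (hQ u).symm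
  have key3 := key2.pathCast e00 e11
  have d1 : ((left.map F.continuous).trans (top.map F.continuous)).cast e00 e11 =
      (Path.refl b).trans (pa (δ 1) y h1) := by
    rw [← c1, ← c2]; rfl
  have d2 : ((bot.map F.continuous).trans (right.map F.continuous)).cast e00 e11 =
      (pa (δ 0) x h0).trans Q := by
    rw [← c3, ← c4]; rfl
  rw [d1, d2] at key3
  exact (Path.Homotopic.refl_trans _).symm.trans key3

/-- if two families of based paths over a path connected space have the same end points and are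
homotopic over one point, they are homotopic over every point. -/
theorem pEq_of_one {X : Type*} [TopologicalSpace X] [PathConnectedSpace X] (f g : C(X, PB b))
    (he : ∀ t, (f t).1 1 = (g t).1 1) {t₀ : X} (h0 : PEq (f t₀) (g t₀)) (t : X) :
    PEq (f t) (g t) := by
  obtain ⟨γ⟩ := PathConnectedSpace.joined t₀ t
  let δ : C(I, PB b) := f.comp γ.toContinuousMap
  let δ' : C(I, PB b) := g.comp γ.toContinuousMap
  have g0 : γ.toContinuousMap 0 = t₀ := γ.source
  have g1 : γ.toContinuousMap 1 = t := γ.target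
  let Q : Path ((f t₀).1 1) ((f t).1 1) :=
    { toFun := fun u => (f (γ u)).1 1
      continuous_toFun := by fun_prop
      source' := by rw [γ.source]
      target' := by rw [γ.target] }
  have e0 : (δ 0).1 1 = (f t₀).1 1 := by show (f (γ 0)).1 1 = _; rw [γ.source]
  have e1 : (δ 1).1 1 = (f t).1 1 := by show (f (γ 1)).1 1 = _; rw [γ.target]
  have e0' : (δ' 0).1 1 = (f t₀).1 1 := by show (g (γ 0)).1 1 = _; rw [γ.source, he]
  have e1' : (δ' 1).1 1 = (f t).1 1 := by show (g (γ 1)).1 1 = _; rw [γ.target, he]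
  have T1 := transport δ e0 e1 Q (fun u => rfl)
  have T2 := transport δ' e0' e1' Q (fun u => he _)
  have hδ1 : δ 1 = f t := by show f (γ 1) = _; rw [γ.target]
  have hδ0 : δ 0 = f t₀ := by show f (γ 0) = _; rw [γ.source]
  have hδ1' : δ' 1 = g t := by show g (γ 1) = _; rw [γ.target]
  have hδ0' : δ' 0 = g t₀ := by show g (γ 0) = _; rw [γ.source]
  have M : PEq (δ 0) (δ' 0) := by rw [hδ0, hδ0']; exact h0
  have M' : (pa (δ 0) _ e0).Homotopic (pa (δ' 0) _ e0') := (pEq_iff e0 e0').1 M
  have R : (pa (δ 1) _ e1).Homotopic (pa (δ' 1) _ e1') :=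
    T1.trans ((M'.hcomp (Path.Homotopic.refl Q)).trans T2.symm)
  have R' : PEq (δ 1) (δ' 1) := (pEq_iff e1 e1').2 R
  rwa [hδ1, hδ1'] at R'

/-! ## lifting of simplices -/

/-- `PB → B` has the lifting property for contractible spaces -/
theorem exists_lift [PathConnectedSpace B] {X : Type*} [TopologicalSpace X] [ContractibleSpace X]
    (f : C(X, B)) : ∃ g : C(X, PB b), ∀ t, (g t).1 1 = f t := by
  obtain ⟨t₀, ⟨H⟩⟩ := id_nullhomotopic X
  obtain ⟨p⟩ := PathConnectedSpace.joined b (f t₀)
  have hc : Continuous fun z : X × I => if (z.2 : ℝ) ≤ 1 / 2 then p.extend (2 * z.2)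
      else f (H (unitInterval.symm (projIcc 0 1 zero_le_one (2 * (z.2 : ℝ) - 1)), z.1)) := by
    refine Continuous.if_le (by fun_prop) ?_ (by fun_prop) (by fun_prop) ?_
    · exact f.continuous.comp (H.continuous.comp (Continuous.prodMk (by fun_prop) (by fun_prop)))
    · rintro ⟨x, s⟩ hs
      have hs' : (s : ℝ) = 1 / 2 := hs
      simp only [hs']
      norm_num
  let G : C(X × I, B) := ⟨_, hc⟩
  refine ⟨⟨fun t => ⟨⟨fun s => G (t, s), by fun_prop⟩, ?_⟩, ?_⟩, ?_⟩
  · show G (t, 0) = b
    simp [G]
  · refine Continuous.subtype_mk ?_ _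
    exact ContinuousMap.continuous_of_continuous_uncurry _ (by
      exact hc)
  · intro t
    show G (t, 1) = f t
    have : ¬ ((1 : I) : ℝ) ≤ 1 / 2 := by norm_num
    simp only [G, ContinuousMap.coe_mk, this, if_false]
    norm_num

/-! ## concatenation with a loop -/

/-- `γ ↦ L · γ` -/
def pre (L : Path b b) : C(PB b, PB b) where
  toFun γ := ofPath (L.trans (pa γ _ rfl))
  continuous_toFun := by
    refine Continuous.subtype_mk ?_ _
    refine ContinuousMap.continuous_of_continuous_uncurry _ ?_
    show Continuous fun z : PB b × I => (L.trans (pa z.1 _ rfl)) z.2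
    have : Continuous fun z : PB b × I => if (z.2 : ℝ) ≤ 1 / 2 then L.extend (2 * z.2)
        else z.1.1 (projIcc 0 1 zero_le_one (2 * (z.2 : ℝ) - 1)) := by
      refine Continuous.if_le (by fun_prop) (by fun_prop) (by fun_prop) (by fun_prop) ?_
      rintro ⟨x, s⟩ hs
      have hs' : (s : ℝ) = 1 / 2 := hs
      simp only [hs']
      norm_num
      exact x.2.symm
    refine this.congr ?_
    rintro ⟨x, s⟩
    rfl

theorem pre_apply (L : Path b b) (γ : PB b) (x : B) (h : γ.1 1 = x) :
    pre L γ = ofPath (L.trans (pa γ x h)) := by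
  subst h; rfl

theorem pre_one (L : Path b b) (γ : PB b) : (pre L γ).1 1 = γ.1 1 := ofPath_one _

theorem pre_pEq (L : Path b b) {γ γ' : PB b} (h : PEq γ γ') : PEq (pre L γ) (pre L γ') := by
  have e := h.end_eq
  rw [pre_apply L γ _ e, pre_apply L γ' _ rfl]
  exact PEq.of_path ((Path.Homotopic.refl L).hcomp ((pEq_iff e rfl).1 h))

theorem pre_pEq' {L L' : Path b b} (h : L.Homotopic L') (γ : PB b) : PEq (pre L γ) (pre L' γ) :=
  PEq.of_path (h.hcomp (Path.Homotopic.refl _))

theorem pre_refl (γ : PB b) : PEq (pre (Path.refl b) γ) γ := by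
  have := Path.Homotopic.refl_trans (pa γ _ rfl)
  exact PEq.of_path this

theorem pre_trans (L L' : Path b b) (γ : PB b) : PEq (pre (L.trans L') γ) (pre L (pre L' γ)) := by
  rw [pre_apply L (pre L' γ) _ (pre_one L' γ)]
  exact PEq.of_path (Path.Homotopic.trans_assoc L L' (pa γ _ rfl))

/-! ## the covering as a simplicial set -/

variable (b)

/-- the relation on simplices of `Sing (PB)` -/
def rel (q : ℕ) : Setoid ((Sing (PB b)).S q) where
  r f g := ∀ t : stdSimplex ℝ (Fin (q + 1)), PEq ((show C(stdSimplex ℝ (Fin (q + 1)), PB b) from f) t)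
    ((show C(stdSimplex ℝ (Fin (q + 1)), PB b) from g) t)
  iseqv := ⟨fun _ _ => PEq.refl _, fun h t => (h t).symm, fun h h' t => (h t).trans (h' t)⟩

/-- the universal covering of `Sing B` -/
def Bt : SS where
  S q := Quotient (rel b q)
  act {m n} f := Quotient.map' ((Sing (PB b)).act f) (fun _ _ h t => h _)
  act_id x := by
    induction x using Quotient.inductionOn with
    | h x => exact congrArg (Quotient.mk (rel b _)) ((Sing (PB b)).act_id x)
  act_comp f g x := by
    induction x using Quotient.inductionOn with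
    | h x => exact congrArg (Quotient.mk (rel b _)) ((Sing (PB b)).act_comp f g x)

/-- the quotient map -/
def quo : SS.Hom (Sing (PB b)) (Bt b) := ⟨fun n x => Quotient.mk (rel b n) x, fun _ _ => rfl⟩

theorem quo_surjective (n : ℕ) : Function.Surjective ((quo b).app n) := Quotient.mk_surjective

theorem quo_eq_iff {n : ℕ} (f g : C(stdSimplex ℝ (Fin (n + 1)), PB b)) :
    (quo b).app n f = (quo b).app n g ↔ ∀ t, PEq (f t) (g t) :=
  ⟨fun h => Quotient.exact (s := rel b n) h, fun h => Quotient.sound (s := rel b n) h⟩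

/-- the projection to `Sing B` -/
def prj : SS.Hom (Bt b) (Sing B) where
  app n := Quotient.lift (fun f : (Sing (PB b)).S n => (SingMap (ev1 (b := b))).app n f) (by
    intro f g h
    refine ContinuousMap.ext fun t => ?_
    exact (h t).end_eq)
  nat f x := by
    induction x using Quotient.inductionOn with
    | h x => rfl

@[simp] theorem prj_quo (n : ℕ) (f : (Sing (PB b)).S n) :
    (prj b).app n ((quo b).app n f) = (SingMap (ev1 (b := b))).app n f := rfl

variable {b}

/-- a self-map of `PB` compatible with the relation induces a self-map of `Bt` -/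
def btMap (F : C(PB b, PB b)) (hF : ∀ γ γ', PEq γ γ' → PEq (F γ) (F γ')) : SS.Hom (Bt b) (Bt b) where
  app n := Quotient.map' ((SingMap F).app n) (fun _ _ h t => hF _ _ (h t))
  nat f x := by
    induction x using Quotient.inductionOn with
    | h x => rfl

@[simp] theorem btMap_quo (F : C(PB b, PB b)) (hF : ∀ γ γ', PEq γ γ' → PEq (F γ) (F γ')) (n : ℕ)
    (f : (Sing (PB b)).S n) :
    (btMap F hF).app n ((quo b).app n f) = (quo b).app n ((SingMap F).app n f) := rfl

/-- deck transformation of a loop -/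
def deck (L : Path b b) : SS.Hom (Bt b) (Bt b) := btMap (pre L) (fun _ _ h => pre_pEq L h)


theorem deck_congr {L L' : Path b b} (h : L.Homotopic L') (n : ℕ) (x : (Bt b).S n) :
    (deck L).app n x = (deck L').app n x := by
  obtain ⟨f, rfl⟩ := quo_surjective b n x
  exact (quo_eq_iff b _ _).2 fun t => pre_pEq' h _

theorem deck_refl (n : ℕ) (x : (Bt b).S n) : (deck (Path.refl b)).app n x = x := by
  obtain ⟨f, rfl⟩ := quo_surjective b n x
  exact (quo_eq_iff b _ _).2 fun t => pre_refl _

theorem deck_trans (L L' : Path b b) (n : ℕ) (x : (Bt b).S n) :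
    (deck (L.trans L')).app n x = (deck L).app n ((deck L').app n x) := by
  obtain ⟨f, rfl⟩ := quo_surjective b n x
  exact (quo_eq_iff b _ _).2 fun t => pre_trans L L' _

theorem prj_deck (L : Path b b) (n : ℕ) (x : (Bt b).S n) :
    (prj b).app n ((deck L).app n x) = (prj b).app n x := by
  obtain ⟨f, rfl⟩ := quo_surjective b n x
  refine ContinuousMap.ext fun t => ?_
  exact pre_one L _

theorem trans_trans_symm_cancel {x y z : B} (p : Path x z) (q : Path y z) :
    ((p.trans q.symm).trans q).Homotopic p :=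
  (Path.Homotopic.trans_assoc p q.symm q).trans
    (((Path.Homotopic.refl p).hcomp (Path.Homotopic.symm_trans q)).trans (Path.Homotopic.trans_refl p))

theorem deck_transitive {n : ℕ} (x y : (Bt b).S n) (h : (prj b).app n x = (prj b).app n y) :
    ∃ L : Path b b, y = (deck L).app n x := by
  obtain ⟨f, rfl⟩ := quo_surjective b n x
  obtain ⟨g, rfl⟩ := quo_surjective b n y
  let f' : C(stdSimplex ℝ (Fin (n + 1)), PB b) := f
  let g' : C(stdSimplex ℝ (Fin (n + 1)), PB b) := g
  have he : ∀ t, (f' t).1 1 = (g' t).1 1 := fun t =>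
    DFunLike.congr_fun (F := C(stdSimplex ℝ (Fin (n + 1)), B)) h t
  let t₀ : stdSimplex ℝ (Fin (n + 1)) := Classical.arbitrary _
  let F := pa (f' t₀) _ (he t₀)
  let G := pa (g' t₀) _ rfl
  refine ⟨G.trans F.symm, Eq.symm ((quo_eq_iff b ((pre (G.trans F.symm)).comp f') g').2 ?_)⟩
  refine pEq_of_one _ _ (fun t => ?_) (t₀ := t₀) ?_
  · rw [ContinuousMap.comp_apply, pre_one, he]
  · rw [ContinuousMap.comp_apply, pre_apply _ (f' t₀) _ (he t₀)]
    exact PEq.of_path (trans_trans_symm_cancel G F)

theorem deck_free {n : ℕ} (x : (Bt b).S n) (L : Path b b) (h : (deck L).app n x = x) :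
    L.Homotopic (Path.refl b) := by
  obtain ⟨f, rfl⟩ := quo_surjective b n x
  let f' : C(stdSimplex ℝ (Fin (n + 1)), PB b) := f
  let t₀ : stdSimplex ℝ (Fin (n + 1)) := Classical.arbitrary _
  have h0 := (quo_eq_iff b ((pre L).comp f') f').1 h t₀
  let F := pa (f' t₀) _ rfl
  have h1 : (L.trans F).Homotopic F := (pEq_iff (ofPath_one _) rfl).1 h0
  have h2 : ((L.trans F).trans F.symm).Homotopic (F.trans F.symm) :=
    h1.hcomp (Path.Homotopic.refl _)
  have h3 : ((L.trans F).trans F.symm).Homotopic L :=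
    (Path.Homotopic.trans_assoc L F F.symm).trans
      (((Path.Homotopic.refl L).hcomp (Path.Homotopic.trans_symm F)).trans
        (Path.Homotopic.trans_refl L))
  exact h3.symm.trans (h2.trans (Path.Homotopic.trans_symm F))

theorem prj_surjective [PathConnectedSpace B] (n : ℕ) : Function.Surjective ((prj b).app n) := by
  intro f
  have : ContractibleSpace (stdSimplex ℝ (Fin (n + 1))) :=
    (convex_stdSimplex ℝ (Fin (n + 1))).contractibleSpace
      ⟨_, single_mem_stdSimplex ℝ (0 : Fin (n + 1))⟩
  obtain ⟨g, hg⟩ := exists_lift (b := b)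
    (show C(stdSimplex ℝ (Fin (n + 1)), B) from f)
  exact ⟨(quo b).app n g, ContinuousMap.ext fun t => hg t⟩


/-! ## the action of the fundamental group -/

/-- class of a loop in the fundamental group -/
def lc (L : Path b b) : FundamentalGroup B b := Path.Homotopic.Quotient.mk L

theorem lc_surjective (a : FundamentalGroup B b) : ∃ L : Path b b, lc L = a :=
  Path.Homotopic.Quotient.mk_surjective a

theorem lc_eq_iff {L L' : Path b b} : lc L = lc L' ↔ L.Homotopic L' := Path.Homotopic.Quotient.eq

theorem lc_trans (L L' : Path b b) : lc (L.trans L') = lc L' * lc L := rfl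

theorem lc_refl : lc (Path.refl b) = 1 := rfl


/-- deck transformation of an element of the fundamental group -/
def deckQ (a : FundamentalGroup B b) : SS.Hom (Bt b) (Bt b) := deck (Classical.choose (lc_surjective a))

theorem deckQ_lc (L : Path b b) (n : ℕ) (x : (Bt b).S n) :
    (deckQ (lc L)).app n x = (deck L).app n x :=
  deck_congr (lc_eq_iff.1 (Classical.choose_spec (lc_surjective (lc L)))) n x

theorem deckQ_mul (a a' : FundamentalGroup B b) (n : ℕ) (x : (Bt b).S n) :
    (deckQ (a' * a)).app n x = (deckQ a).app n ((deckQ a').app n x) := by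
  obtain ⟨L, rfl⟩ := lc_surjective a
  obtain ⟨L', rfl⟩ := lc_surjective a'
  rw [← lc_trans, deckQ_lc, deckQ_lc, deckQ_lc, deck_trans]

theorem deckQ_one (n : ℕ) (x : (Bt b).S n) : (deckQ (1 : FundamentalGroup B b)).app n x = x := by
  rw [← lc_refl, deckQ_lc, deck_refl]

/-- the action of the fundamental group on the simplices of the covering -/
def rho (b : B) (n : ℕ) : FundamentalGroup B b →* Equiv.Perm ((Bt b).S n) where
  toFun a :=
    { toFun := (deckQ (a⁻¹ : FundamentalGroup B b)).app n
      invFun := (deckQ a).app n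
      left_inv := fun x => by
        rw [← deckQ_mul, inv_mul_cancel, deckQ_one]
      right_inv := fun x => by
        rw [← deckQ_mul, mul_inv_cancel, deckQ_one] }
  map_one' := by
    ext x
    show (deckQ ((1 : FundamentalGroup B b)⁻¹ : FundamentalGroup B b)).app n x = x
    rw [inv_one, deckQ_one]
  map_mul' a a' := by
    ext x
    show (deckQ ((a * a')⁻¹ : FundamentalGroup B b)).app n x =
      (deckQ (a⁻¹ : FundamentalGroup B b)).app n ((deckQ (a'⁻¹ : FundamentalGroup B b)).app n x)
    rw [mul_inv_rev, deckQ_mul]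

theorem rho_apply (n : ℕ) (a : FundamentalGroup B b) (x : (Bt b).S n) :
    rho b n a x = (deckQ (a⁻¹ : FundamentalGroup B b)).app n x := rfl

theorem rho_nat {m n : ℕ} (f : Op m n) (a : FundamentalGroup B b) (x : (Bt b).S n) :
    rho b m a ((Bt b).act f x) = (Bt b).act f (rho b n a x) :=
  (deckQ (a⁻¹ : FundamentalGroup B b)).nat f x

theorem prj_rho {n : ℕ} (a : FundamentalGroup B b) (x : (Bt b).S n) :
    (prj b).app n (rho b n a x) = (prj b).app n x := prj_deck _ n x

theorem rho_free {n : ℕ} (a : FundamentalGroup B b) (x : (Bt b).S n) (h : rho b n a x = x) :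
    a = 1 := by
  obtain ⟨L, hL⟩ := lc_surjective (a⁻¹ : FundamentalGroup B b)
  rw [rho_apply, ← hL, deckQ_lc] at h
  have h2 : (a⁻¹ : FundamentalGroup B b) = 1 := by
    rw [← hL, ← lc_refl]
    exact lc_eq_iff.2 (deck_free x L h)
  exact inv_eq_one.1 h2

theorem rho_transitive {n : ℕ} (x y : (Bt b).S n) (h : (prj b).app n x = (prj b).app n y) :
    ∃ a : FundamentalGroup B b, y = rho b n a x := by
  obtain ⟨L, rfl⟩ := deck_transitive x y h
  refine ⟨(lc L)⁻¹, ?_⟩
  rw [rho_apply, inv_inv]
  exact (deckQ_lc L n x).symm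

/-- **the infinite cyclic covering** `Bt b → Sing B`, if `π₁(B, b)` is infinite cyclic,
generated by `w`. -/
def zcov [PathConnectedSpace B] (w : FundamentalGroup B b)
    (hgen : ∀ a : FundamentalGroup B b, ∃ k : ℤ, a = w ^ k)
    (hinf : ∀ k : ℤ, w ^ k = 1 → k = 0) : ZCov (Bt b) (Sing B) where
  p := prj b
  gE n := rho b n w
  gE_nat f x := rho_nat f w x
  p_gE x := prj_rho w x
  surj := prj_surjective
  orb x y h := by
    obtain ⟨a, rfl⟩ := rho_transitive x y h
    obtain ⟨k, rfl⟩ := hgen a
    exact ⟨k, by rw [map_zpow]⟩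
  free x k h := hinf k (rho_free (w ^ k) x (by rw [map_zpow]; exact h))

end Crest.Agent.R204.Cov892
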