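import Crest.Agent.R204.Defs
import Mathlib.Topology.Homotopy.Path
import Mathlib.Topology.Homotopy.Equiv
import Mathlib.Topology.CompactOpen
import Crest.Agent.R204.PFib_170
import Crest.Agent.R204.Cov_892
import Crest.Agent.R204.PFdefs_872
import Crest.Agent.R204.Cov2_892
import Crest.Agent.R204.HtpInv_334
import Crest.Agent.R204.Gr_334

-- ▼ part R204/Ep_755
section

/-!
# Row 204, block B4 (section 02), topological half, space level (helper755)

`B` a space with base point `b0`.  `PB b0` = paths starting at `b0`; `SE g d` = homotopic rel end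
points; `G0 b0` = null homotopic loops; `E0 b0 p` = `(p+1)`-tuples of based paths which are pairwise
homotopic rel end points.
-/

set_option autoImplicit false

open scoped unitInterval

noncomputable section

namespace Crest.Agent.R204.Ep755

variable {B : Type} [TopologicalSpace B] {b0 : B}

/-! ## clamped evaluation -/

/-- value of a path at a real parameter (clamped to `[0,1]`) -/
def ev (g : C(I, B)) (x : ℝ) : B := g (Set.projIcc 0 1 zero_le_one x)

theorem continuous_ev : Continuous fun p : C(I, B) × ℝ => ev p.1 p.2 := by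
  unfold ev
  have h1 : Continuous fun p : C(I, B) × ℝ => (p.1, Set.projIcc (0 : ℝ) 1 zero_le_one p.2) :=
    continuous_fst.prodMk (continuous_projIcc.comp continuous_snd)
  exact continuous_eval.comp h1

@[fun_prop]
theorem Continuous.ev {P : Type*} [TopologicalSpace P] {f : P → C(I, B)} {a : P → ℝ}
    (hf : Continuous f) (ha : Continuous a) : Continuous fun p => ev (f p) (a p) :=
  continuous_ev.comp (hf.prodMk ha)

theorem ev_coe (g : C(I, B)) (t : I) : ev g (t : ℝ) = g t := by
  unfold ev
  rw [Set.projIcc_val]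

theorem ev_le (g : C(I, B)) {x : ℝ} (h : x ≤ 0) : ev g x = g 0 := by
  unfold ev
  rw [Set.projIcc_of_le_left _ h]
  rfl

theorem ev_ge (g : C(I, B)) {x : ℝ} (h : 1 ≤ x) : ev g x = g 1 := by
  unfold ev
  rw [Set.projIcc_of_right_le _ h]
  rfl

@[simp] theorem ev_zero (g : C(I, B)) : ev g 0 = g 0 := ev_le g le_rfl
@[simp] theorem ev_one (g : C(I, B)) : ev g 1 = g 1 := ev_ge g le_rfl

variable (b0)

/-- based paths -/
abbrev PB : Type := {g : C(I, B) // g 0 = b0}

variable {b0}

/-- the end of a based path -/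
def PB.fin (g : PB b0) : B := g.1 1


variable (b0)

/-- the constant path -/
def PB.const : PB b0 := ⟨ContinuousMap.const I b0, rfl⟩

variable {b0}

@[simp] theorem ev_const (x : ℝ) : ev (PB.const b0).1 x = b0 := rfl
@[simp] theorem const_fin : (PB.const b0).fin = b0 := rfl

theorem PB.ev_le' (g : PB b0) {x : ℝ} (h : x ≤ 0) : ev g.1 x = b0 := (ev_le _ h).trans g.2
theorem PB.ev_ge' (g : PB b0) {x : ℝ} (h : 1 ≤ x) : ev g.1 x = g.fin := ev_ge _ h

theorem PB.ext_iff' {g d : PB b0} : g = d ↔ ∀ t : I, g.1 t = d.1 t := by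
  rw [Subtype.ext_iff, ContinuousMap.ext_iff]

/-- a family of based paths from an uncurried function of a real variable -/
def fam {P : Type*} [TopologicalSpace P] (h : P → ℝ → B)
    (hc : Continuous fun x : P × ℝ => h x.1 x.2) (h0 : ∀ p, h p 0 = b0) : C(P, PB b0) where
  toFun p := ⟨⟨fun t => h p t, hc.comp (continuous_const.prodMk continuous_subtype_val)⟩, by
    simpa using h0 p⟩
  continuous_toFun := by
    refine Continuous.subtype_mk ?_ _
    refine ContinuousMap.continuous_of_continuous_uncurry _ ?_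
    exact hc.comp (continuous_fst.prodMk (continuous_subtype_val.comp continuous_snd))

@[simp] theorem fam_apply {P : Type*} [TopologicalSpace P] (h : P → ℝ → B)
    (hc : Continuous fun x : P × ℝ => h x.1 x.2) (h0 : ∀ p, h p 0 = b0) (p : P) (t : I) :
    (fam h hc h0 p).1 t = h p t := rfl


theorem fam_fin {P : Type*} [TopologicalSpace P] (h : P → ℝ → B)
    (hc : Continuous fun x : P × ℝ => h x.1 x.2) (h0 : ∀ p, h p 0 = b0) (p : P) :
    (fam h hc h0 p).fin = h p 1 := by
  simp [PB.fin]

/-! ## homotopy rel end points -/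

/-- homotopic rel end points -/
def SE (g d : PB b0) : Prop := ContinuousMap.HomotopicRel g.1 d.1 {0, 1}

theorem SE.refl (g : PB b0) : SE g g := ContinuousMap.HomotopicRel.refl _
theorem SE.symm {g d : PB b0} (h : SE g d) : SE d g := ContinuousMap.HomotopicRel.symm h
theorem SE.trans {g d e : PB b0} (h : SE g d) (h' : SE d e) : SE g e :=
  ContinuousMap.HomotopicRel.trans h h'
theorem SE.fin_eq {g d : PB b0} (h : SE g d) : g.fin = d.fin :=
  ContinuousMap.HomotopicRel.fst_eq_snd h (x := 1) (by simp)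

theorem SE_of_path (c : C(I, PB b0)) (hc : ∀ s, (c s).fin = (c 0).fin) : SE (c 0) (c 1) := by
  refine ⟨{ toFun := fun x => (c x.1).1 x.2, continuous_toFun := ?_, map_zero_left := fun t => rfl,
            map_one_left := fun t => rfl, prop' := ?_ }⟩
  · exact continuous_eval.comp
      (((continuous_subtype_val.comp c.continuous).comp continuous_fst).prodMk continuous_snd)
  · intro s t ht
    show (c s).1 t = (c 0).1 t
    rcases ht with rfl | ht
    · rw [(c s).2, (c 0).2]
    · have : t = 1 := ht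
      subst this
      exact hc s

/-- families with constant end give homotopies rel end points -/
theorem SE_family {X : Type*} [TopologicalSpace X] (H : C(I × X, PB b0))
    (hH : ∀ s x, (H (s, x)).fin = (H (0, x)).fin) (s : I) (x : X) : SE (H (0, x)) (H (s, x)) := by
  let c : C(I, PB b0) := ⟨fun u => H (u * s, x), by fun_prop⟩
  have h := SE_of_path c (fun u => by
    show (H (u * s, x)).fin = (H (0 * s, x)).fin
    rw [hH, zero_mul])
  have e0 : c 0 = H (0, x) := by show H (0 * s, x) = _; rw [zero_mul]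
  have e1 : c 1 = H (s, x) := by show H (1 * s, x) = _; rw [one_mul]
  rwa [e0, e1] at h

theorem SE.path {g d : PB b0} (h : SE g d) :
    ∃ c : C(I, PB b0), c 0 = g ∧ c 1 = d ∧ ∀ s, (c s).fin = g.fin := by
  obtain ⟨F⟩ := h
  refine ⟨fam (P := I) (fun s t => F (s, Set.projIcc 0 1 zero_le_one t)) ?_ ?_, ?_, ?_, ?_⟩
  · exact F.continuous.comp (continuous_fst.prodMk (continuous_projIcc.comp continuous_snd))
  · intro s
    have := F.eq_fst s (x := 0) (by simp)
    simp only [Set.projIcc_left]
    exact this.trans g.2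
  · rw [PB.ext_iff']; intro t
    simp only [fam_apply, Set.projIcc_val]
    exact F.apply_zero t
  · rw [PB.ext_iff']; intro t
    simp only [fam_apply, Set.projIcc_val]
    exact F.apply_one t
  · intro s
    rw [fam_fin]
    simp only [Set.projIcc_right]
    exact F.eq_fst s (x := 1) (by simp)

variable (b0)
/-- pairs of based paths homotopic rel end points -/
abbrev P2 : Type := {x : PB b0 × PB b0 // SE x.1 x.2}

/-- null homotopic loops -/
abbrev G0 : Type := {g : PB b0 // SE g (PB.const b0)}

/-- the constant loop in `G0` -/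
def G0.const : G0 b0 := ⟨PB.const b0, SE.refl _⟩

/-- `(p+1)`-tuples of based paths, pairwise homotopic rel end points -/
abbrev E0 (p : ℕ) : Type := {y : Fin (p + 1) → PB b0 // ∀ i j, SE (y i) (y j)}
variable {b0}

theorem G0.fin_eq (g : G0 b0) : g.1.fin = b0 := g.2.fin_eq

theorem G0.ext' {g d : G0 b0} (h : ∀ t : I, g.1.1 t = d.1.1 t) : g = d :=
  Subtype.ext (PB.ext_iff'.2 h)

theorem G0.ev_le (g : G0 b0) {x : ℝ} (h : x ≤ 0) : ev g.1.1 x = b0 := g.1.ev_le' h
theorem G0.ev_ge (g : G0 b0) {x : ℝ} (h : 1 ≤ x) : ev g.1.1 x = b0 := (g.1.ev_ge' h).trans g.fin_eq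

/-- homotopies in `G0` from homotopies of loops -/
theorem homotopic_G0 {X : Type*} [TopologicalSpace X] (H : C(I × X, PB b0))
    (hH : ∀ s x, (H (s, x)).fin = b0) (f g : C(X, G0 b0)) (hf : ∀ x, H (0, x) = (f x).1)
    (hg : ∀ x, H (1, x) = (g x).1) : f.Homotopic g := by
  have key : ∀ s x, SE (H (s, x)) (PB.const b0) := fun s x =>
    (SE_family H (fun s x => by rw [hH, hH]) s x).symm.trans (by rw [hf]; exact (f x).2)
  exact ⟨{ toFun := fun x => ⟨H x, key x.1 x.2⟩
           continuous_toFun := H.continuous.subtype_mk _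
           map_zero_left := fun x => Subtype.ext (hf x)
           map_one_left := fun x => Subtype.ext (hg x) }⟩

/-! ## the quotient loop `q (γ, δ) = γ * rev δ` -/

/-- `γ * rev δ` -/
def qfun (g d : C(I, B)) (t : ℝ) : B :=
  if t ≤ 1 / 2 then ev g (2 * t) else ev d (2 - 2 * t)

theorem continuous_qfun {P : Type*} [TopologicalSpace P] {g d : P → C(I, B)} {t : P → ℝ}
    (hg : Continuous g) (hd : Continuous d) (ht : Continuous t) (h : ∀ p, g p 1 = d p 1) :
    Continuous fun p => qfun (g p) (d p) (t p) := by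
  unfold qfun
  refine Continuous.if_le ?_ ?_ ht continuous_const ?_
  · exact Continuous.ev hg (by fun_prop)
  · exact Continuous.ev hd (by fun_prop)
  · intro p hp
    rw [hp, ev_ge _ (by norm_num), ev_ge _ (by norm_num), h]

/-- `γ * rev δ`, path level -/
def qP : C(P2 b0, PB b0) :=
  fam (fun x t => qfun x.1.1.1 x.1.2.1 t)
    (continuous_qfun (by fun_prop) (by fun_prop) continuous_snd fun p => p.1.2.fin_eq)
    (fun p => by
      show qfun _ _ 0 = b0
      rw [qfun, if_pos (by norm_num), mul_zero, ev_zero]; exact p.1.1.2)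

theorem qP_apply (x : P2 b0) (t : I) : (qP x).1 t = qfun x.1.1.1 x.1.2.1 t := rfl

theorem qP_fin (x : P2 b0) : (qP x).fin = b0 := by
  rw [qP, fam_fin]
  show qfun _ _ 1 = b0
  rw [qfun, if_neg (by norm_num), mul_one, sub_self, ev_zero]; exact x.1.2.2

/-- the contraction of `γ * rev γ` -/
def h4 : C(I × PB b0, PB b0) :=
  fam (fun x t => ev x.2.1 ((1 - x.1) * min (2 * t) (2 - 2 * t))) (by fun_prop)
    (fun p => by
      show ev _ _ = b0
      simp only [mul_zero, sub_zero]
      rw [min_eq_left (by norm_num), mul_zero]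
      exact p.2.ev_le' le_rfl)

theorem h4_apply (x : I × PB b0) (t : I) :
    (h4 x).1 t = ev x.2.1 ((1 - (x.1 : ℝ)) * min (2 * (t : ℝ)) (2 - 2 * (t : ℝ))) := rfl

theorem h4_fin (x : I × PB b0) : (h4 x).fin = b0 := by
  rw [h4, fam_fin]
  show ev _ _ = b0
  rw [mul_one, sub_self, min_eq_right (by norm_num), mul_zero]
  exact x.2.ev_le' le_rfl

theorem h4_zero (g : PB b0) : h4 (0, g) = qP ⟨(g, g), SE.refl g⟩ := by
  rw [PB.ext_iff']; intro t
  rw [h4_apply, qP_apply, qfun]
  simp only [Set.Icc.coe_zero, sub_zero, one_mul]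
  split_ifs with h
  · rw [min_eq_left (by linarith)]
  · rw [min_eq_right (by linarith)]

theorem h4_one (g : PB b0) : h4 (1, g) = PB.const b0 := by
  rw [PB.ext_iff']; intro t
  rw [h4_apply]
  simp only [Set.Icc.coe_one, sub_self, zero_mul]
  rw [ev_zero]; exact g.2

theorem SE_qP (x : P2 b0) : SE (qP x) (PB.const b0) := by
  obtain ⟨⟨g, d⟩, h⟩ := x
  obtain ⟨c, c0, c1, c2⟩ := SE.path h
  have hcs : ∀ s, SE (c s) d := by
    intro s
    have := SE_family (X := Unit) ⟨fun x => c x.1, by fun_prop⟩ (fun s _ => by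
      show (c s).fin = (c 0).fin
      rw [c2, c2]) s ()
    refine (SE.symm this).trans ?_
    show SE (c 0) d
    rw [c0]; exact h
  let c' : C(I, PB b0) := ⟨fun s => qP ⟨(c s, d), hcs s⟩, by fun_prop⟩
  have h1 := SE_of_path c' (fun s => by
    show (qP _).fin = (qP _).fin
    rw [qP_fin, qP_fin])
  have e0 : c' 0 = qP ⟨(g, d), h⟩ := by
    show qP _ = qP _
    congr 1
    exact Subtype.ext (Prod.ext c0 rfl)
  have e1 : c' 1 = qP ⟨(d, d), SE.refl d⟩ := by
    show qP _ = qP _
    congr 1
    exact Subtype.ext (Prod.ext c1 rfl)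
  rw [e0, e1] at h1
  refine h1.trans ?_
  have h2 := SE_family h4 (fun s x => by rw [h4_fin, h4_fin]) 1 d
  rwa [h4_zero, h4_one] at h2

/-- `q (γ, δ) = γ * rev δ` as a null homotopic loop -/
def q : C(P2 b0, G0 b0) := ⟨fun x => ⟨qP x, SE_qP x⟩, qP.continuous.subtype_mk _⟩

@[simp] theorem q_val (x : P2 b0) : (q x).1 = qP x := rfl




/-! ## products -/

/-- concatenation -/
def mulfun (g d : C(I, B)) (t : ℝ) : B :=
  if t ≤ 1 / 2 then ev g (2 * t) else ev d (2 * t - 1)

theorem continuous_mulfun {P : Type*} [TopologicalSpace P] {g d : P → C(I, B)} {t : P → ℝ}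
    (hg : Continuous g) (hd : Continuous d) (ht : Continuous t) (h : ∀ p, g p 1 = d p 0) :
    Continuous fun p => mulfun (g p) (d p) (t p) := by
  unfold mulfun
  refine Continuous.if_le ?_ ?_ ht continuous_const ?_
  · exact Continuous.ev hg (by fun_prop)
  · exact Continuous.ev hd (by fun_prop)
  · intro p hp
    rw [hp, ev_ge _ (by norm_num), ev_le _ (by norm_num), h]

/-- loop times based path -/
def mul : C(G0 b0 × PB b0, PB b0) :=
  fam (fun x t => mulfun x.1.1.1 x.2.1 t)
    (continuous_mulfun (by fun_prop) (by fun_prop) continuous_snd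
      fun p => (G0.fin_eq p.1.1).trans p.1.2.2.symm)
    (fun p => by
      show mulfun _ _ 0 = b0
      rw [mulfun, if_pos (by norm_num), mul_zero, ev_zero]; exact p.1.1.2)

theorem mul_apply (x : G0 b0 × PB b0) (t : I) : (mul x).1 t = mulfun x.1.1.1 x.2.1 t := rfl

theorem mul_fin (x : G0 b0 × PB b0) : (mul x).fin = x.2.fin := by
  rw [mul, fam_fin]
  show mulfun _ _ 1 = _
  rw [mulfun, if_neg (by norm_num), mul_one]
  exact x.2.ev_ge' (by norm_num)







/-- reparametrisation `d (2t-1) ~ d t` -/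
def rep : C(I × PB b0, PB b0) :=
  fam (fun x t => ev x.2.1 ((1 - x.1) * (2 * t - 1) + x.1 * t)) (by fun_prop)
    (fun p => by
      show ev _ _ = b0
      apply p.2.ev_le'
      have := p.1.2.2
      simp only [mul_zero, zero_sub, mul_neg, mul_one, add_zero]
      linarith)

theorem rep_apply (x : I × PB b0) (t : I) :
    (rep x).1 t = ev x.2.1 ((1 - (x.1 : ℝ)) * (2 * (t : ℝ) - 1) + (x.1 : ℝ) * (t : ℝ)) := rfl

theorem rep_fin (x : I × PB b0) : (rep x).fin = x.2.fin := by
  rw [rep, fam_fin]
  show ev _ _ = _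
  apply x.2.ev_ge'
  ring_nf; rfl

theorem rep_one (d : PB b0) : rep (1, d) = d := by
  rw [PB.ext_iff']; intro t
  rw [rep_apply]
  simp only [Set.Icc.coe_one, sub_self, zero_mul, one_mul, zero_add]
  exact ev_coe _ _

theorem rep_zero_mul (d : PB b0) : rep (0, d) = mul (G0.const b0, d) := by
  rw [PB.ext_iff']; intro t
  rw [rep_apply, mul_apply, mulfun]
  simp only [Set.Icc.coe_zero, sub_zero, one_mul, zero_mul, add_zero]
  split_ifs with h
  · rw [d.ev_le' (by linarith)]; rfl
  · rfl


/-- paths in `G0` from `g` to the constant loop -/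
theorem G0.path (g : G0 b0) : ∃ c : C(I, G0 b0), c 0 = g ∧ c 1 = G0.const b0 := by
  obtain ⟨c, c0, c1, c2⟩ := SE.path g.2
  have hcs : ∀ s, SE (c s) (PB.const b0) := by
    intro s
    have := SE_family (X := Unit) ⟨fun x => c x.1, by fun_prop⟩ (fun s _ => by
      show (c s).fin = (c 0).fin
      rw [c2, c2]) s ()
    refine (SE.symm this).trans ?_
    show SE (c 0) _
    rw [c0]; exact g.2
  exact ⟨⟨fun s => ⟨c s, hcs s⟩, by fun_prop⟩, Subtype.ext c0, Subtype.ext c1⟩

theorem SE_mul (g : G0 b0) (d : PB b0) : SE (mul (g, d)) d := by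
  obtain ⟨c, c0, c1⟩ := g.path
  have h1 := SE_of_path (⟨fun s => mul (c s, d), by fun_prop⟩ : C(I, PB b0)) (fun s => by
    show (mul _).fin = (mul _).fin
    rw [mul_fin, mul_fin])
  simp only [ContinuousMap.coe_mk, c0, c1] at h1
  refine h1.trans ?_
  have h2 := SE_family rep (fun s x => by rw [rep_fin, rep_fin]) 1 d
  rwa [rep_zero_mul, rep_one] at h2


/-- product of null homotopic loops -/
def mulG : C(G0 b0 × G0 b0, G0 b0) :=
  ⟨fun x => ⟨mul (x.1, x.2.1), (SE_mul x.1 x.2.1).trans x.2.2⟩, by fun_prop⟩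


end Crest.Agent.R204.Ep755
end
end

-- ▼ part R204/PFL_94
section

/-!
# Row 204, leaf B.P1 (helper94): simplicial homotopies over `Bt` from continuous homotopies
-/

set_option autoImplicit false

noncomputable section

open Set unitInterval Topology

namespace Crest.Agent.R204.PFL94

open Crest.Agent.R204 Crest.Agent.R204.SS Crest.Agent.R204.Cov892 Crest.Agent.R204.Bar170
open Crest.Agent.R204.SingAct265 Crest.Agent.R204.Ep755

variable {B : Type} [TopologicalSpace B] {b0 : B}



/-- change the two ends by pointwise equal maps -/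
def overCongr {K L B : SS} {π : SS.Hom L B} {f g f' g' : SS.Hom K L} (H : HtpyOver π f g)
    (hf : ∀ n x, f.app n x = f'.app n x) (hg : ∀ n x, g.app n x = g'.app n x) :
    HtpyOver π f' g' :=
  ⟨⟨H.h, fun n x => (H.zero n x).trans (hf n x), fun n x => (H.one n x).trans (hg n x)⟩,
    fun n x t => (H.ov n x t).trans (congrArg _ (hf n x))⟩

/-- change the two ends by pointwise equal maps -/
def htpyCongr {K L : SS} {f g f' g' : SS.Hom K L} (H : Htpy f g)
    (hf : ∀ n x, f.app n x = f'.app n x) (hg : ∀ n x, g.app n x = g'.app n x) :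
    Htpy f' g' :=
  ⟨H.h, fun n x => (H.zero n x).trans (hf n x), fun n x => (H.one n x).trans (hg n x)⟩

end Crest.Agent.R204.PFL94
end
end

-- ▼ part R204/PFA_94


/-!
# Row 204, leaf B.P1 (helper94): the path space is acyclic; contraction; pointwise product; naturality

Everything that is needed for the instance of `PFib`, `PSus`, `PMul`, `PFibMap`, space level and
simplicial level.
-/

set_option autoImplicit false

noncomputable section

open Set unitInterval Topology

namespace Crest.Agent.R204.PF94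

open Crest.Agent.R204 Crest.Agent.R204.SS Crest.Agent.R204.Cov892 Crest.Agent.R204.Bar170
open Crest.Agent.R204.SingAct265 hiding cst ev
open Crest.Agent.R204.PF872

/-! ## constant maps in homology -/

theorem N_map_constHom (J K : SS) (x : K.S 0) (z : N F2 J) :
    ∃ c : F2, N.map F2 (constHom J K x) z = c • N.sx F2 x := by
  induction z using Submodule.Quotient.induction_on with
  | H z =>
    induction z using Finsupp.induction_linear with
    | zero => exact ⟨0, by rw [Submodule.Quotient.mk_zero, map_zero, zero_smul]⟩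
    | add f g hf hg =>
      obtain ⟨c, hc⟩ := hf
      obtain ⟨d, hd⟩ := hg
      exact ⟨c + d, by rw [Submodule.Quotient.mk_add, map_add, hc, hd, add_smul]⟩
    | single a r =>
      obtain ⟨n, y⟩ := a
      have e : (Submodule.Quotient.mk (Finsupp.single (⟨n, y⟩ : J.T) r) : N F2 J) = r • N.sx F2 y := by
        show _ = r • (Submodule.Quotient.mk _ : N F2 J)
        rw [← Submodule.Quotient.mk_smul]
        congr 1
        rw [Finsupp.smul_single, smul_eq_mul, mul_one]
      have e2 : N.map F2 (constHom J K x) (N.sx F2 y) = N.sx F2 ((constHom J K x).app n y) :=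
        N.map_sx _ _
      rw [e, map_smul, e2]
      cases n with
      | zero =>
        refine ⟨r, ?_⟩
        congr 2
        have : (⟨fun _ => 0, fun _ _ _ => le_rfl⟩ : Op 0 0) = OrderHom.id :=
          HtpInv334.op_zero_ext _ _
        show K.act (⟨fun _ => 0, fun _ _ _ => le_rfl⟩ : Op 0 0) x = x
        rw [this, K.act_id]
      | succ n =>
        refine ⟨0, ?_⟩
        have : N.sx F2 ((constHom J K x).app (n + 1) y) = 0 :=
          Gr334.sx_act_of_lt (Nat.succ_pos n) _ x
        rw [this, smul_zero, zero_smul]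

theorem H_map_constHom (J K : SS) (x : K.S 0) (a : H F2 J) :
    ∃ c : F2, H.map F2 (constHom J K x) a = c • H.pt x := by
  obtain ⟨z, hz, rfl⟩ := Hd.mk_surj _ a
  obtain ⟨c, hc⟩ := N_map_constHom J K x z
  refine ⟨c, ?_⟩
  show Hd.mk (N.bd F2 K) (N.map F2 (constHom J K x) z) _ = _
  have e : c • H.pt x = Hd.mk (N.bd F2 K) (c • N.sx F2 x) (by
      rw [map_smul, Gr334.bd_sx_zero, smul_zero]) := rfl
  rw [e]
  exact hd_mk_congr hc _ _

variable {B : Type} [TopologicalSpace B] {b : B}

/-! ## (a) the path space is contractible -/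

/-- the shrinking `(γ, s) ↦ (t ↦ γ (s t))` -/
def shr : C(PB b × I, PB b) :=
  PF872.mkPB (fun z => z.1.1.1 (z.1.2 * z.2)) (by fun_prop) (fun y => by
    show y.1.1 (y.2 * 0) = b
    rw [mul_zero]; exact y.1.2)

@[simp] theorem shr_apply (γ : PB b) (s t : I) : (shr (γ, s)).1 t = γ.1 (s * t) := rfl

theorem shr_one (γ : PB b) : shr (γ, 1) = γ := PB_ext fun t => by rw [shr_apply, one_mul]

theorem shr_zero (γ : PB b) : shr (γ, 0) = cst := PB_ext fun t => by
  rw [shr_apply, zero_mul]; exact γ.2

theorem shr_end (γ : PB b) (s : I) : (shr (γ, s)).1 1 = γ.1 s := by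
  rw [shr_apply, mul_one]

variable (b)

/-- base vertex of the path space -/
def p0 : (Sing (PB b)).S 0 := ContinuousMap.const _ cst

/-- base vertex of the space of null homotopic loops -/
def e0 : (Sing (G0 b)).S 0 := ContinuousMap.const _ one

variable {b}

theorem acyc (x : H F2 (Sing (PB b))) : ∃ c : F2, x = c • H.pt (p0 b) := by
  have h : Htpy (cmap (Sing (PB b)) (p0 b)) (SS.Hom.id (Sing (PB b))) :=
    PFL94.htpyCongr (Htpy.ofTop (ContinuousMap.const _ cst) (ContinuousMap.id (PB b)) shr
      (fun y => shr_zero y) (fun y => shr_one y)) (fun _ _ => rfl) (fun _ _ => rfl)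
  have e := ThetaSS265.Htpy_homology HtpInv334.homotopyInv F2 h
  obtain ⟨c, hc⟩ := H_map_constHom (Sing (PB b)) (Sing (PB b)) (p0 b) x
  refine ⟨c, ?_⟩
  rw [← hc]
  have := LinearMap.congr_fun e x
  rw [Hmap_id] at this
  exact this.symm

/-! ## (b) loops as paths, and the contraction -/

/-- the inclusion `G0 → PB` -/
def incT : C(G0 b, PB b) := ⟨Subtype.val, continuous_subtype_val⟩

@[simp] theorem incT_apply (g : G0 b) : incT g = g.1 := rfl

variable (b) in
/-- simplicial version -/
def inc : SS.Hom (Sing (G0 b)) (Sing (PB b)) := SingMap incT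

variable (b) in
/-- the contraction `(g, s) ↦ g (s ·)` -/
def hs : Htpy (cmap (Sing (G0 b)) (p0 b)) (inc b) :=
  PFL94.htpyCongr (Htpy.ofTop (ContinuousMap.const _ cst) incT
    (shr.comp ⟨fun z => (z.1.1, z.2), by fun_prop⟩)
    (fun y => shr_zero _) (fun y => shr_one _)) (fun _ _ => rfl) (fun _ _ => rfl)

theorem quo_inc (q : ℕ) (g : (Sing (G0 b)).S q) :
    (quo b).app q ((inc b).app q g) = (quo b).app q ((cmap (Sing (G0 b)) (p0 b)).app q g) :=
  (quo_eq_iff b _ _).2 fun t =>
    ((show C(stdSimplex ℝ (Fin (q + 1)), G0 b) from g) t).2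

/-- reparametrisation `g ≃ g · c` -/
def H5 : C(G0 b × I, PB b) :=
  PF872.mkPB (fun z => z.1.1.1.1 (pj ((1 + (z.1.2 : ℝ)) * z.2))) (by fun_prop) (fun y => by
    show y.1.1.1 (pj ((1 + (y.2 : ℝ)) * ((0 : I) : ℝ))) = b
    rw [pj_of_nonpos (by simp)]; exact y.1.1.2)

theorem H5_apply (g : G0 b) (s t : I) : (H5 (g, s)).1 t = g.1.1 (pj ((1 + (s : ℝ)) * t)) := rfl

theorem H5_zero (g : G0 b) : H5 (g, 0) = g.1 := PB_ext fun t => by
  rw [H5_apply]
  simp

theorem H5_one (g : G0 b) : H5 (g, 1) = cat (g, cst) := PB_ext fun t => by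
  rw [H5_apply, cat_apply, catF]
  have e : (1 + ((1 : I) : ℝ)) * t = 2 * t := by
    rw [Set.Icc.coe_one]; ring
  rw [e]
  split_ifs with h
  · rfl
  · rw [pj_of_one_le (by linarith)]
    exact G0_one g

theorem H5_end (g : G0 b) (s : I) : (H5 (g, s)).1 1 = g.1.1 1 := by
  rw [H5_apply, pj_of_one_le]
  have : (0 : ℝ) ≤ s := s.2.1
  simp only [Set.Icc.coe_one, mul_one]
  linarith

/-! ## (c) pointwise products -/

variable (mu : C(B × B, B)) (hb : mu (b, b) = b)

theorem mulP_cst : mulP mu hb (cst, cst) = cst := PB_ext fun _ => hb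

theorem mulG_pEq (g h : G0 b) : PEq (mulP mu hb (g.1, h.1)) cst := by
  have := mulP_pEq mu hb g.2 h.2
  rwa [mulP_cst] at this

/-- pointwise product of null homotopic loops -/
def mulG : C(G0 b × G0 b, G0 b) where
  toFun z := ⟨mulP mu hb (z.1.1, z.2.1), mulG_pEq mu hb z.1 z.2⟩
  continuous_toFun := Continuous.subtype_mk (by fun_prop) _

@[simp] theorem mulG_val (z : G0 b × G0 b) : (mulG mu hb z).1 = mulP mu hb (z.1.1, z.2.1) := rfl

/-- strict interchange of the pointwise product and concatenation -/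
theorem mulP_cat (g h : G0 b) (x y : PB b) :
    mulP mu hb (cat (g, x), cat (h, y)) = cat (mulG mu hb (g, h), mulP mu hb (x, y)) :=
  PB_ext fun t => by
    rw [mulP_apply, cat_apply, cat_apply, cat_apply]
    simp only [catF]
    split_ifs
    · rfl
    · rfl


variable {mu}

/-- homotopies in `G0` from homotopies of paths -/
theorem homotopic_G0 {X : Type} [TopologicalSpace X] (F : C(I × X, PB b)) (hF : ∀ z, PEq (F z) cst)
    (f g : C(X, G0 b)) (h0 : ∀ x, F (0, x) = (f x).1) (h1 : ∀ x, F (1, x) = (g x).1) :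
    f.Homotopic g :=
  ⟨{ toFun := fun x => ⟨F x, hF x⟩
     continuous_toFun := F.continuous.subtype_mk _
     map_zero_left := fun x => Subtype.ext (h0 x)
     map_one_left := fun x => Subtype.ext (h1 x) }⟩

/-- a based homotopy of the identity acts on null homotopic loops -/
theorem homotopic_of_rel {m : C(B, B)} (hm : m b = b) (K : m.HomotopyRel (ContinuousMap.id B) {b})
    (f : C(G0 b, G0 b)) (hf : ∀ g t, (f g).1.1 t = m (g.1.1 t)) :
    f.Homotopic (ContinuousMap.id _) := by
  have hK : ∀ s : I, K (s, b) = b := fun s => by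
    have := K.eq_fst s (x := b) (by simp)
    rw [this]; exact hm
  let F : C(I × G0 b, PB b) := PF872.mkPB (fun z => K (z.1.1, z.1.2.1.1 z.2)) (by fun_prop) (fun y => by
    show K (y.1, y.2.1.1 0) = b
    rw [y.2.1.2, hK])
  refine homotopic_G0 F ?_ _ _ ?_ ?_
  · rintro ⟨s, g⟩
    obtain ⟨G⟩ := g.2
    refine ⟨⟨⟨⟨fun w => K (s, G w), by fun_prop⟩, ?_, ?_⟩, ?_⟩⟩
    · intro u
      show K (s, G (0, u)) = K (s, g.1.1 u)
      rw [G.apply_zero]
    · intro u
      show K (s, G (1, u)) = b
      rw [G.apply_one]; exact hK _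
    · intro t u hu
      show K (s, G (t, u)) = K (s, g.1.1 u)
      rw [G.eq_fst t hu]
  · intro g
    exact PB_ext fun u => (K.apply_zero _).trans (hf g u).symm
  · intro g
    exact PB_ext fun u => K.apply_one _

theorem mulG_one_left (h : HSp b mu) :
    ((mulG mu h.hb).comp ⟨fun g : G0 b => (one, g), by fun_prop⟩).Homotopic (ContinuousMap.id _) := by
  obtain ⟨K⟩ := h.hl
  exact homotopic_of_rel h.hb K _ (fun _ _ => rfl)

theorem mulG_one_right (h : HSp b mu) :
    ((mulG mu h.hb).comp ⟨fun g : G0 b => (g, one), by fun_prop⟩).Homotopic (ContinuousMap.id _) := by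
  obtain ⟨K⟩ := h.hr
  exact homotopic_of_rel h.hb K _ (fun _ _ => rfl)

variable (mu)

/-- pointwise product on simplices -/
def MS : SS.Hom ((Sing (PB b)).prod (Sing (PB b))) (Sing (PB b)) :=
  (SingMap (mulP mu hb)).comp (singPair _ _)

/-- pointwise product of loops on simplices -/
def MGS : SS.Hom ((Sing (G0 b)).prod (Sing (G0 b))) (Sing (G0 b)) :=
  (SingMap (mulG mu hb)).comp (singPair _ _)

/-- loop times path on simplices -/
def catS (b : B) : SS.Hom ((Sing (G0 b)).prod (Sing (PB b))) (Sing (PB b)) :=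
  (SingMap cat).comp (singPair _ _)

/-- product of loops on simplices -/
def mulS (b : B) : SS.Hom ((Sing (G0 b)).prod (Sing (G0 b))) (Sing (G0 b)) :=
  (SingMap mul).comp (singPair _ _)

theorem quo_MS (q : ℕ) (x y : (Sing (PB b)).S q) :
    (quo b).app q ((MS mu hb).app q (x, y)) =
      (mulT mu hb).app q ((quo b).app q x, (quo b).app q y) := rfl

theorem MS_catS (q : ℕ) (g h : (Sing (G0 b)).S q) (x y : (Sing (PB b)).S q) :
    (MS mu hb).app q ((catS b).app q (g, x), (catS b).app q (h, y)) =
      (catS b).app q ((MGS mu hb).app q (g, h), (MS mu hb).app q (x, y)) :=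
  sing_ext fun t => mulP_cat mu hb (SingAct265.ev g t) (SingAct265.ev h t) (SingAct265.ev x t)
    (SingAct265.ev y t)

variable {mu}

theorem MGS_unit_l (h : HSp b mu) (a : H F2 (Sing (G0 b))) :
    H.map F2 ((MGS mu h.hb).comp (SS.pair (cmap (Sing (G0 b)) (e0 b)) (SS.Hom.id _))) a = a := by
  have e := ThetaSS265.topHomotopyInv HtpInv334.homotopyInv F2 _ _ _ _ (mulG_one_left h)
  have := LinearMap.congr_fun e a
  have h2 : SingMap (ContinuousMap.id (G0 b)) = SS.Hom.id _ := rfl
  rw [h2, Hmap_id] at this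
  exact this

theorem MGS_unit_r (h : HSp b mu) (a : H F2 (Sing (G0 b))) :
    H.map F2 ((MGS mu h.hb).comp (SS.pair (SS.Hom.id _) (cmap (Sing (G0 b)) (e0 b)))) a = a := by
  have e := ThetaSS265.topHomotopyInv HtpInv334.homotopyInv F2 _ _ _ _ (mulG_one_right h)
  have := LinearMap.congr_fun e a
  have h2 : SingMap (ContinuousMap.id (G0 b)) = SS.Hom.id _ := rfl
  rw [h2, Hmap_id] at this
  exact this

/-! ## (d) naturality -/

section nat

variable {B' : Type} [TopologicalSpace B'] {b' : B'} (f : C(B, B')) (hf : f b = b')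

/-- post-composition of based paths -/
def postP : C(PB b, PB b') :=
  PF872.mkPB (fun z => f (z.1.1 z.2)) (by fun_prop) (fun y => by
    show f (y.1 0) = b'
    rw [y.2, hf])

@[simp] theorem postP_apply (γ : PB b) (t : I) : (postP f hf γ).1 t = f (γ.1 t) := rfl


theorem postP_pEq {γ γ' : PB b} (h : PEq γ γ') : PEq (postP f hf γ) (postP f hf γ') := by
  obtain ⟨F⟩ := h
  refine ⟨⟨⟨⟨fun z => f (F z), by fun_prop⟩, ?_, ?_⟩, ?_⟩⟩
  · intro s
    show f (F (0, s)) = f (γ.1 s)
    rw [F.apply_zero]
  · intro s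
    show f (F (1, s)) = f (γ'.1 s)
    rw [F.apply_one]
  · intro t s hs
    show f (F (t, s)) = f (γ.1 s)
    rw [F.eq_fst t hs]





/-- the induced map of coverings -/
def btPost : SS.Hom (Bt b) (Bt b') where
  app n := Quotient.map' ((SingMap (postP f hf)).app n) (fun _ _ h t => postP_pEq f hf (h t))
  nat f x := by
    induction x using Quotient.inductionOn with
    | h x => rfl

@[simp] theorem btPost_quo (n : ℕ) (x : (Sing (PB b)).S n) :
    (btPost f hf).app n ((quo b).app n x) = (quo b').app n ((SingMap (postP f hf)).app n x) := rfl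


end nat

end Crest.Agent.R204.PF94
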