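import Crest.Agent.R204.LoopId_872
import Crest.Agent.R204.PFA_94

/-!
# Row 204, block B: pointwise products and naturality under the identification
`G0 (Ω^n Z) = Ω^(n+1) Z` (helper872)
-/

set_option autoImplicit false

noncomputable section

open Set unitInterval Topology

namespace Crest.Agent.R204.PF872

open Crest.Agent.R204 Crest.Agent.R204.SS Crest.Agent.R204.Cov892 Crest.Agent.R204.Bis343
  Crest.Agent.R204.SingAct265 Crest.Agent.R204.Bar170 Crest.Agent.R204.Cubes735
open Crest.Agent.R204.HspSS696 (Om)

variable {Z : Type} [TopologicalSpace Z] {z₀ : Z} {n : ℕ}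

/-- `Ω^n Z` with a little cube product is an H-space (892's form) -/
theorem hsp (c : BoxConf (Fin 2) (Fin n)) : HSp (bo Z z₀ n) (Hsp696.mu2 c) where
  hb := by
    show mu c ![GenLoop.const, GenLoop.const] = GenLoop.const
    rw [Hsp696.cons_const, mu_const]
  hl := Hsp696.mu2_const_left c
  hr := Hsp696.mu2_const_right c





/-! ## naturality in `Z` -/

variable {Z' : Type} [TopologicalSpace Z'] {z₀' : Z'}








end Crest.Agent.R204.PF872
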