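import Crest.Agent.R204.GeoB_979
import Crest.Agent.R204.PF_94
import Crest.Agent.R204.LoopId2_872
import Crest.Agent.R204.Sigma2_88
import Crest.Agent.R204.Hopf4_450
import Crest.Agent.R204.HZ_76

/-!
# Row 204, block B, final instantiation, part C (helper979)

Space level for `B = Ω^n Z`, `ΩB = Ω^(n+1) Z` (last coordinate), both path connected:
* `simplyConn`  : `B` is simply connected; `prj_inj` : `H (Bt b) → H (Sing B)` is injective;
* `gG`          : `H (Sing Ω^(n+1) Z) → H (Sing (G0 b))`, multiplicative, unital, injective, graded;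
* `gr_zero_eq`  : `H_0` of a path connected space.
-/

set_option autoImplicit false

noncomputable section

namespace Crest.Agent.R204.Geo979

open Crest.Agent.R204 Crest.Agent.R204.SS Crest.Agent.R204.Bis343 Crest.Agent.R204.Bar170
  Crest.Agent.R204.Coalg847 Crest.Agent.R204.PF872 Crest.Agent.R204.Cov892
open Crest.Agent.R204.SingAct265 (mkS singPair)
open Crest.Agent.R204.HspSS696 (Om mulS)
open Crest.Agent.R204.Cubes735 (BoxConf mu)
open TensorProduct unitInterval

/-! ### `H_0` -/

section zero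
variable {Y : Type} [TopologicalSpace Y]

/-- `H_0` of a path connected space is spanned by any vertex -/
theorem gr_zero_eq [PathConnectedSpace Y] (y : (Sing Y).S 0) {x : H F2 (Sing Y)}
    (hx : x ∈ H.gr F2 (Sing Y) 0) : x = eps _ x • Coalg847.vtx y := by
  have h : x - eps _ x • Coalg847.vtx y ∈ H.gr F2 (Sing Y) 0 :=
    Submodule.sub_mem _ hx (Submodule.smul_mem _ _ (vtx_mem_gr y))
  refine sub_eq_zero.1 (HZ76.hZero_R F2 _ h ?_)
  rw [map_toPt, map_sub, map_smul, eps_vtx, smul_eq_mul, mul_one, sub_self, zero_smul]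

end zero

section space
variable {Z : Type} [TopologicalSpace Z] {z₀ : Z}

theorem pathConn {n : ℕ} (h : ∀ x : Om (Fin n) Z z₀, Joined x GenLoop.const) :
    PathConnectedSpace (Om (Fin n) Z z₀) where
  nonempty := ⟨GenLoop.const⟩
  joined x y := (h x).trans (h y).symm

variable {n : ℕ}

/-- loops in `Ω^n Z` are null homotopic if `Ω^(n+1) Z` is path connected -/
theorem loops_null (h1 : ∀ x : Om (Fin (n + 1)) Z z₀, Joined x GenLoop.const)
    (L : Path (bo Z z₀ n) (bo Z z₀ n)) : L.Homotopic (Path.refl _) := by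
  have h := (joined_iff ((Hsp696.loopLast n).symm L)).1 (h1 _)
  have e : (loopH ((Hsp696.loopLast n).symm L)).1 = ofPath L := by
    show (pathLB _ ((Hsp696.loopLast n) ((Hsp696.loopLast n).symm L))).1 = _
    rw [Homeomorph.apply_symm_apply]; rfl
  rw [e] at h
  exact h

open Path.Homotopic.Quotient in
theorem null_of_conj {Y : Type} [TopologicalSpace Y] {b x : Y} (p : Path b x) (γ : Path x x)
    (h : ((p.trans γ).trans p.symm).Homotopic (Path.refl b)) : γ.Homotopic (Path.refl x) := by
  have h' : mk ((p.trans γ).trans p.symm) = mk (Path.refl b) := eq.2 h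
  rw [← eq]
  simp only [mk_trans, mk_symm, mk_refl] at h' ⊢
  generalize mk p = P at *
  generalize mk γ = G at *
  have e1 : G = trans (symm P) (trans (trans (trans P G) (symm P)) P) := by
    rw [trans_assoc (trans P G) (symm P) P, symm_trans, trans_refl, ← trans_assoc, symm_trans, refl_trans]
  rw [e1, h', refl_trans, symm_trans]

/-- `Ω^n Z` is simply connected -/
theorem simplyConn (h0 : ∀ x : Om (Fin n) Z z₀, Joined x GenLoop.const)
    (h1 : ∀ x : Om (Fin (n + 1)) Z z₀, Joined x GenLoop.const) :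
    SimplyConnectedSpace (Om (Fin n) Z z₀) := by
  rw [simply_connected_iff_loops_nullhomotopic]
  refine ⟨pathConn h0, fun x γ => ?_⟩
  obtain ⟨p⟩ := (h0 x).symm
  exact null_of_conj p γ (loops_null h1 ((p.trans γ).trans p.symm))

/-- the projection from the covering is injective in homology (simply connected base) -/
theorem prj_inj {B : Type} [TopologicalSpace B] [SimplyConnectedSpace B] (b : B) :
    Function.Injective (H.map F2 (prj b)) := by
  intro x y h
  have h2 := congrArg (H.map F2 (prjInv (b := b))) h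
  rwa [← hMap_comp, ← hMap_comp, prjInv_prj, hMap_id, hMap_id] at h2

/-- the projection is multiplicative -/
theorem prj_mul {B : Type} [TopologicalSpace B] {b : B} (m : C(B × B, B)) (hb : m (b, b) = b)
    (E : EZData) (x y : H F2 (Bt b)) :
    H.map F2 (prj b) (H.map F2 (mulT m hb) (E.cr _ _ (x ⊗ₜ y))) =
      H.map F2 ((SingMap m).comp (singPair B B))
        (E.cr _ _ (H.map F2 (prj b) x ⊗ₜ H.map F2 (prj b) y)) := by
  rw [← E.cr_nat, ← hMap_comp, ← hMap_comp]
  congr 2
  exact SS.Hom.ext (funext fun n => funext fun x => prj_mulT m hb n x.1 x.2)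

/-! ### the loop space -/

variable (h1 : ∀ x : Om (Fin (n + 1)) Z z₀, Joined x GenLoop.const)

/-- `H (Ω^(n+1) Z) → H (G0)` -/
def gG : H F2 (Sing (Om (Fin (n + 1)) Z z₀)) →ₗ[F2] H F2 (Sing (G0 (bo Z z₀ n))) :=
  H.map F2 (SingMap (hc (G0H' h1)))

theorem gG_inj : Function.Injective (gG h1) := by
  intro x y h
  have h2 := congrArg (H.map F2 (SingMap (hc (G0H' h1).symm))) h
  unfold gG at h2
  rwa [← hMap_comp, ← hMap_comp, singMap_homeo, hMap_id, hMap_id] at h2


theorem gG_gr {t : ℕ} {a : H F2 (Sing (Om (Fin (n + 1)) Z z₀))} (ha : a ∈ H.gr F2 _ t) :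
    gG h1 a ∈ H.gr F2 (Sing (G0 (bo Z z₀ n))) t := hMap_mem_gr _ ha

/-- unit -/
theorem gG_one : gG h1 (Coalg847.vtx (HspSS696.eS (J := Fin (n + 1)) (Z := Z) (z₀ := z₀))) =
    Coalg847.vtx (PF94.pf (bo Z z₀ n)).e := by
  unfold gG
  rw [hMap_vtx]
  rfl

/-- product, halves of the last coordinate -/
theorem gG_mul (E : EZData) (x y : H F2 (Sing (Om (Fin (n + 1)) Z z₀))) :
    gG h1 (H.map F2 (mulS (Hsp696.halves (Fin.last n))) (E.cr _ _ (x ⊗ₜ y))) =
      (PF94.pf (bo Z z₀ n)).mulH E (gG h1 x) (gG h1 y) := by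
  show _ = H.map F2 (PF872.mulS (b := bo Z z₀ n)) (E.cr _ _ (gG h1 x ⊗ₜ gG h1 y))
  unfold gG
  rw [← E.cr_nat, ← hMap_comp, ← hMap_comp, mulS_G0H']

include h1 in
theorem conn_G (x : H F2 (PF94.pf (bo Z z₀ n)).G) (hx : x ∈ H.gr F2 (PF94.pf (bo Z z₀ n)).G 0) :
    ∃ r : F2, x = r • Coalg847.vtx (PF94.pf (bo Z z₀ n)).e := by
  have := pathConn h1
  have : PathConnectedSpace (G0 (bo Z z₀ n)) :=
    (G0H' h1).surjective.pathConnectedSpace (G0H' h1).continuous
  exact ⟨_, gr_zero_eq (Y := G0 (bo Z z₀ n)) _ hx⟩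

end space

end Crest.Agent.R204.Geo979
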