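import Crest.Agent.R204.PFib_170
import Crest.Agent.R204.Coalg_847
import Crest.Agent.R204.SpecA_334

-- ▼ part R204/BrE_170
section

/-!
# Row 204, block B, leaf P2: homology of the Cech columns `E_p` (helper170)

`br p : (Fin p → H G) → H (E_p)`, recursively `br (p+1) a = alpha_* (a_0 × br p (tail a))`.
-/

set_option autoImplicit false

namespace Crest.Agent.R204.Bar170

open Crest.Agent.R204 Crest.Agent.R204.Bis343 Crest.Agent.R204.SingAct265 Crest.Agent.R204.Coalg847
open TensorProduct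

/-! ## homotopies -/

theorem map_eq_of_htpy (hi : SpecA.HomotopyInv) {K L : SS} {f g : SS.Hom K L} (h : Htpy f g) :
    H.map F2 f = H.map F2 g := by
  have h0 : SS.Hom.comp h.h (SpecA.endMap K 0) = f := SS.Hom.ext (funext fun n => funext fun x => h.zero n x)
  have h1 : SS.Hom.comp h.h (SpecA.endMap K 1) = g := SS.Hom.ext (funext fun n => funext fun x => h.one n x)
  have := hi F2 K L h.h
  rw [h0, h1] at this
  exact this

/-- pairing a homotopy with a fixed map -/
def htpyPair {J K L : SS} {f g : SS.Hom J K} (H : Htpy f g) (u : SS.Hom J L) :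
    Htpy (SS.pair f u) (SS.pair g u) where
  h := SS.pair H.h (u.comp (SS.fst J (SS.std 1)))
  zero n x := Prod.ext (H.zero n x) rfl
  one n x := Prod.ext (H.one n x) rfl

/-- homotopies over the base: precomposition -/
def HtpyOver.pre {J K L B : SS} {π : SS.Hom L B} {f g : SS.Hom K L} (H : HtpyOver π f g) (k : SS.Hom J K) :
    HtpyOver π (f.comp k) (g.comp k) where
  toHtpy := H.toHtpy.pre k
  ov n x t := H.ov n (k.app n x) t

/-- homotopy in the zeroth entry -/
def consHtpy {P B : SS} {π : SS.Hom P B} {J : SS} {p : ℕ} (u : SS.Hom J ((cech π).col p))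
    {v w : SS.Hom J P} (H : HtpyOver π v w)
    (hv : ∀ q x, π.app q (v.app q x) = π.app q ((u.app q x).1 0))
    (hw : ∀ q x, π.app q (w.app q x) = π.app q ((u.app q x).1 0)) :
    Htpy (consE π u v hv) (consE π u w hw) where
  h := consE π (u.comp (SS.fst J (SS.std 1))) H.h (fun q x => by
    have := H.ov q x.1 x.2
    rw [hv] at this
    exact this)
  zero n x := by
    refine E_ext fun i => ?_
    refine Fin.cases ?_ (fun i => ?_) i
    · exact H.zero n x
    · rfl
  one n x := by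
    refine E_ext fun i => ?_
    refine Fin.cases ?_ (fun i => ?_) i
    · exact H.one n x
    · rfl

theorem map_comp' {J K L : SS} (g : SS.Hom K L) (f : SS.Hom J K) (x : H F2 J) :
    H.map F2 g (H.map F2 f x) = H.map F2 (g.comp f) x := (hMap_comp g f x).symm

namespace PFib

variable (X : PFib) (hi : SpecA.HomotopyInv)

/-! ## `alpha` is an isomorphism in homology -/

theorem beta_alpha (p : ℕ) : (X.beta p).comp (X.alpha p) =
    SS.pair ((X.dif.comp (pairE (f := X.π) X.cat (SS.snd X.G X.P) (fun q x => X.π_cat q x.1 x.2))).comp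
      (SS.prodMap (SS.Hom.id X.G) (evc X.π p 0))) (SS.snd X.G (X.E p)) := by
  refine SS.Hom.ext (funext fun q => funext fun x => ?_)
  refine Prod.ext ?_ ?_
  · show X.dif.app q _ = X.dif.app q _
    congr 1
    refine E_ext fun i => ?_
    fin_cases i <;> rfl
  · exact X.face_zero_alpha p q x.1 x.2

theorem alpha_beta (p : ℕ) : (X.alpha p).comp (X.beta p) =
    consE X.π ((cech X.π).colMap (Op.face 0))
      ((X.cat.comp (SS.pair X.dif (evc X.π 1 1))).comp
        (⟨fun _ x => ⟨fun i => x.1 (Fin.castLE (by omega) i), fun _ _ => x.2 _ _⟩,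
          fun _ _ => rfl⟩ : SS.Hom (X.E (p + 1)) (X.E 1)))
      (fun q x => (X.π_cat q _ _).trans (x.2 _ _)) := by
  refine SS.Hom.ext (funext fun q => funext fun x => ?_)
  refine E_ext fun i => ?_
  refine Fin.cases ?_ (fun i => ?_) i
  · show X.cat.app q (_, x.1 (Op.face 0 0)) = X.cat.app q (_, x.1 (Fin.castLE _ 1))
    congr 2
  · rfl

theorem id_eq_consE (p : ℕ) : SS.Hom.id (X.E (p + 1)) =
    consE X.π ((cech X.π).colMap (Op.face 0))
      ((evc X.π 1 0).comp
        (⟨fun _ x => ⟨fun i => x.1 (Fin.castLE (by omega) i), fun _ _ => x.2 _ _⟩,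
          fun _ _ => rfl⟩ : SS.Hom (X.E (p + 1)) (X.E 1)))
      (fun q x => x.2 _ _) := by
  refine SS.Hom.ext (funext fun q => funext fun x => ?_)
  refine E_ext fun i => ?_
  refine Fin.cases ?_ (fun i => ?_) i
  · rfl
  · show x.1 i.succ = x.1 (Op.face 0 i)
    rw [Cech.face_zero_val]

include hi in
theorem map_beta_alpha (p : ℕ) (y : H F2 (X.G.prod (X.E p))) :
    H.map F2 (X.beta p) (H.map F2 (X.alpha p) y) = y := by
  rw [map_comp', X.beta_alpha p]
  have h := htpyPair (X.h2.pre (SS.prodMap (SS.Hom.id X.G) (evc X.π p 0))) (SS.snd X.G (X.E p))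
  rw [map_eq_of_htpy hi h]
  exact hMap_id y

include hi in
theorem map_alpha_beta (p : ℕ) (y : H F2 (X.E (p + 1))) :
    H.map F2 (X.alpha p) (H.map F2 (X.beta p) y) = y := by
  rw [map_comp', X.alpha_beta p]
  have h := consHtpy ((cech X.π).colMap (Op.face 0)) (X.h1.pre
    (⟨fun _ x => ⟨fun i => x.1 (Fin.castLE (by omega) i), fun _ _ => x.2 _ _⟩,
          fun _ _ => rfl⟩ : SS.Hom (X.E (p + 1)) (X.E 1)))
    (fun q x => (X.π_cat q _ _).trans (x.2 _ _)) (fun q x => x.2 _ _)
  rw [map_eq_of_htpy hi h, ← X.id_eq_consE p]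
  exact hMap_id y

/-- `alpha` in homology -/
noncomputable def alphaH (p : ℕ) : H F2 (X.G.prod (X.E p)) ≃ₗ[F2] H F2 (X.E (p + 1)) where
  toLinearMap := H.map F2 (X.alpha p)
  invFun := H.map F2 (X.beta p)
  left_inv y := X.map_beta_alpha hi p y
  right_inv y := X.map_alpha_beta hi p y

@[simp] theorem alphaH_apply (p : ℕ) (y) : X.alphaH hi p y = H.map F2 (X.alpha p) y := rfl

/-! ## brackets -/

variable (Z : EZData)

/-- brackets -/
noncomputable def br : (p : ℕ) → (Fin p → H F2 X.G) → H F2 (X.E p)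
  | 0, _ => H.map F2 (toE0 X.π) (vtx X.p0)
  | p + 1, a => H.map F2 (X.alpha p) (Z.cr X.G (X.E p) (a 0 ⊗ₜ br p (Fin.tail a)))

theorem br_zero (a : Fin 0 → H F2 X.G) : X.br Z 0 a = H.map F2 (toE0 X.π) (vtx X.p0) := rfl

theorem br_succ (p : ℕ) (a : Fin (p + 1) → H F2 X.G) :
    X.br Z (p + 1) a = H.map F2 (X.alpha p) (Z.cr X.G (X.E p) (a 0 ⊗ₜ X.br Z p (Fin.tail a))) := rfl

theorem br_cons (p : ℕ) (x : H F2 X.G) (a : Fin p → H F2 X.G) :
    X.br Z (p + 1) (Fin.cons x a) = H.map F2 (X.alpha p) (Z.cr X.G (X.E p) (x ⊗ₜ X.br Z p a)) := by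
  rw [br_succ, Fin.cons_zero, Fin.tail_cons]

/-- augmentation of a bracket -/
theorem eps_br (p : ℕ) (a : Fin p → H F2 X.G) : eps _ (X.br Z p a) = ∏ i, eps _ (a i) := by
  induction p with
  | zero =>
    rw [br_zero, eps_map]
    simp only [Finset.univ_eq_empty, Finset.prod_empty]
    exact nAug_sx_zero _
  | succ p ih =>
    rw [br_succ, eps_map, Z.eps_cr, ih, Fin.prod_univ_succ]
    rfl

/-- `E_0 = P` -/
def ofE0 : SS.Hom (X.E 0) X.P := evc X.π 0 0

theorem toE0_ofE0 : (toE0 X.π).comp X.ofE0 = SS.Hom.id (X.E 0) := by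
  refine SS.Hom.ext (funext fun q => funext fun x => ?_)
  refine E_ext fun i => ?_
  have : i = 0 := Fin.ext (by omega)
  subst this
  rfl

/-- `E_0` is acyclic -/
theorem E0_eq (y : H F2 (X.E 0)) (a : Fin 0 → H F2 X.G) : y = eps _ y • X.br Z 0 a := by
  obtain ⟨c, hc⟩ := X.acyc (H.map F2 X.ofE0 y)
  have h1 : y = H.map F2 (toE0 X.π) (H.map F2 X.ofE0 y) := by
    rw [map_comp', toE0_ofE0]; exact (hMap_id y).symm
  have h2 : y = c • X.br Z 0 a := by
    rw [h1, hc, map_smul, br_zero]; rfl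
  have h3 : eps _ y = c := by
    rw [h2, map_smul, eps_br]; simp
  rw [h3]; exact h2

/-! ## the basis of words -/





end PFib

end Crest.Agent.R204.Bar170
end

-- ▼ part R204/BrF_170

/-!
# Row 204, block B, leaf P2: faces, degeneracies, levelwise product on brackets (helper170)
-/

set_option autoImplicit false

namespace Crest.Agent.R204.Bar170

open Crest.Agent.R204 Crest.Agent.R204.Bis343 Crest.Agent.R204.SingAct265 Crest.Agent.R204.Coalg847
open TensorProduct

namespace PFib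

variable (X : PFib) (hi : SpecA.HomotopyInv) (Z : EZData)

/-- product of `H G` -/
noncomputable def mulH (a b : H F2 X.G) : H F2 X.G := H.map F2 X.mul (Z.cr X.G X.G (a ⊗ₜ b))

/-- face operators on homology -/
noncomputable def fa (p : ℕ) (i : Fin (p + 2)) : H F2 (X.E (p + 1)) →ₗ[F2] H F2 (X.E p) :=
  H.map F2 ((cech X.π).colMap (Op.face i))

/-- degeneracy operators on homology -/
noncomputable def dg (p : ℕ) (i : Fin (p + 1)) : H F2 (X.E p) →ₗ[F2] H F2 (X.E (p + 1)) :=
  H.map F2 ((cech X.π).colMap (Op.dgn i))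


theorem fa_succ_alpha (p : ℕ) (i : Fin (p + 1)) (x : H F2 X.G) (y : H F2 (X.E (p + 1))) :
    X.fa (p + 1) i.succ.succ (H.map F2 (X.alpha (p + 1)) (Z.cr _ _ (x ⊗ₜ y))) =
      H.map F2 (X.alpha p) (Z.cr _ _ (x ⊗ₜ X.fa p i.succ y)) := by
  rw [fa, map_comp', fa]
  have e : ((cech X.π).colMap (Op.face i.succ.succ)).comp (X.alpha (p + 1)) =
      (X.alpha p).comp (SS.prodMap (SS.Hom.id X.G) ((cech X.π).colMap (Op.face i.succ))) :=
    SS.Hom.ext (funext fun q => funext fun x => X.face_succ_alpha p q i x.1 x.2)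
  rw [e, hMap_comp, Z.cr_nat, hMap_id]

/-- the two ways around (H3) -/
def al3l (p : ℕ) : SS.Hom (X.G.prod (X.G.prod (X.E p))) (X.E (p + 1)) :=
  consE X.π ((SS.snd X.G (X.E p)).comp (SS.snd X.G (X.G.prod (X.E p))))
    ((X.cat.comp (SS.prodMap (SS.Hom.id X.G) X.cat)).comp
      (SS.prodMap (SS.Hom.id X.G) (SS.prodMap (SS.Hom.id X.G) (evc X.π p 0))))
    (fun q x => (X.π_cat q _ _).trans (X.π_cat q _ _))

include hi in
theorem fa_one_alpha (p : ℕ) (x y : H F2 X.G) (z : H F2 (X.E p)) :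
    X.fa (p + 1) 1 (H.map F2 (X.alpha (p + 1))
      (Z.cr _ _ (x ⊗ₜ (H.map F2 (X.alpha p) (Z.cr _ _ (y ⊗ₜ z)))))) =
      H.map F2 (X.alpha p) (Z.cr _ _ (X.mulH Z x y ⊗ₜ z)) := by
  -- left hand side
  have l1 : H.map F2 (X.alpha (p + 1)) (Z.cr _ _ (x ⊗ₜ (H.map F2 (X.alpha p) (Z.cr _ _ (y ⊗ₜ z))))) =
      H.map F2 ((X.alpha (p + 1)).comp (SS.prodMap (SS.Hom.id X.G) (X.alpha p)))
        (Z.cr _ _ (x ⊗ₜ Z.cr _ _ (y ⊗ₜ z))) := by
    rw [hMap_comp, Z.cr_nat, hMap_id]
  have e1 : ((cech X.π).colMap (Op.face 1)).comp ((X.alpha (p + 1)).comp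
      (SS.prodMap (SS.Hom.id X.G) (X.alpha p))) = X.al3l p := by
    refine SS.Hom.ext (funext fun q => funext fun x => ?_)
    refine E_ext fun i => ?_
    refine Fin.cases ?_ (fun i => ?_) i
    · rfl
    · show (((X.alpha (p + 1)).app q (x.1, (X.alpha p).app q x.2)) : (cech X.π).S (p + 2) q).1
        (Op.face (Fin.succ 0) i.succ) = x.2.2.1 i
      rw [Cech.face_succ_succ, alpha_succ, Cech.face_zero_val]
      rfl
  have h := consHtpy ((SS.snd X.G (X.E p)).comp (SS.snd X.G (X.G.prod (X.E p))))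
    (X.h3.pre (SS.prodMap (SS.Hom.id X.G) (SS.prodMap (SS.Hom.id X.G) (evc X.π p 0))))
    (fun q x => (X.π_cat q _ _).trans (X.π_cat q _ _)) (fun q x => X.π_cat q _ _)
  have e2 : consE X.π ((SS.snd X.G (X.E p)).comp (SS.snd X.G (X.G.prod (X.E p))))
      ((X.cat.comp (SS.pair (X.mul.comp (SS.pair (SS.fst X.G (X.G.prod X.P))
        ((SS.fst X.G X.P).comp (SS.snd X.G (X.G.prod X.P)))))
        ((SS.snd X.G X.P).comp (SS.snd X.G (X.G.prod X.P))))).comp
        (SS.prodMap (SS.Hom.id X.G) (SS.prodMap (SS.Hom.id X.G) (evc X.π p 0))))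
      (fun q x => X.π_cat q _ _) =
      (X.alpha p).comp ((SS.prodMap X.mul (SS.Hom.id (X.E p))).comp (cas X.G X.G (X.E p))) := by
    refine SS.Hom.ext (funext fun q => funext fun x => ?_)
    refine E_ext fun i => ?_
    refine Fin.cases ?_ (fun i => ?_) i
    · rfl
    · rfl
  have hc : H.map F2 (cas X.G X.G (X.E p)) (Z.cr _ _ (x ⊗ₜ Z.cr _ _ (y ⊗ₜ z))) =
      Z.cr _ _ (Z.cr _ _ (x ⊗ₜ y) ⊗ₜ z) := by
    rw [← Z.cr_assoc, map_comp']
    exact hMap_id _
  rw [l1, fa, map_comp', e1]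
  rw [show X.al3l p = _ from rfl]
  rw [al3l, map_eq_of_htpy hi h, e2, hMap_comp, hMap_comp, hc, Z.cr_nat, hMap_id]
  rfl




/-! ## degeneracies -/

theorem dg_succ_alpha (p : ℕ) (i : Fin (p + 1)) (x : H F2 X.G) (y : H F2 (X.E p)) :
    X.dg (p + 1) i.succ (H.map F2 (X.alpha p) (Z.cr _ _ (x ⊗ₜ y))) =
      H.map F2 (X.alpha (p + 1)) (Z.cr _ _ (x ⊗ₜ X.dg p i y)) := by
  rw [dg, map_comp', dg]
  have e : ((cech X.π).colMap (Op.dgn i.succ)).comp (X.alpha p) =
      (X.alpha (p + 1)).comp (SS.prodMap (SS.Hom.id X.G) ((cech X.π).colMap (Op.dgn i))) :=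
    SS.Hom.ext (funext fun q => funext fun x => X.dgn_succ_alpha p q i x.1 x.2)
  rw [e, hMap_comp, Z.cr_nat, hMap_id]

include hi in
theorem dg_zero (p : ℕ) (y : H F2 (X.E p)) :
    X.dg p 0 y = H.map F2 (X.alpha p) (Z.cr _ _ (vtx X.e ⊗ₜ y)) := by
  rw [Z.cr_vtx_left, map_comp']
  have h := consHtpy (SS.Hom.id (X.E p)) (X.h4.pre (evc X.π p 0))
    (fun q x => X.π_cat q _ _) (fun q x => rfl)
  have e1 : (X.alpha p).comp (SS.pair (SS.constHom (X.E p) X.G X.e) (SS.Hom.id (X.E p))) =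
      consE X.π (SS.Hom.id (X.E p)) ((X.cat.comp (SS.pair (cmap X.P X.e) (SS.Hom.id X.P))).comp
        (evc X.π p 0)) (fun q x => X.π_cat q _ _) := by
    refine SS.Hom.ext (funext fun q => funext fun x => ?_)
    refine E_ext fun i => ?_
    refine Fin.cases ?_ (fun i => ?_) i
    · rfl
    · rfl
  have e2 : (cech X.π).colMap (Op.dgn 0) =
      consE X.π (SS.Hom.id (X.E p)) ((SS.Hom.id X.P).comp (evc X.π p 0)) (fun q x => rfl) := by
    refine SS.Hom.ext (funext fun q => funext fun x => ?_)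
    refine E_ext fun i => ?_
    refine Fin.cases ?_ (fun i => ?_) i
    · show x.1 (Op.dgn 0 0) = x.1 0
      congr 1
    · show x.1 (Op.dgn 0 i.succ) = x.1 i
      congr 1
  rw [dg, e1, e2, map_eq_of_htpy hi h]

include hi in
/-- degeneracies insert the unit -/
theorem dg_br (p : ℕ) (i : Fin (p + 1)) (a : Fin p → H F2 X.G) :
    X.dg p i (X.br Z p a) = X.br Z (p + 1) (Fin.insertNth (α := fun _ => H F2 X.G) i (vtx X.e) a) := by
  induction p with
  | zero =>
    have : i = 0 := Fin.ext (by omega)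
    subst this
    rw [X.dg_zero hi Z, Fin.insertNth_zero', br_cons]
  | succ p ih =>
    refine Fin.cases ?_ (fun i => ?_) i
    · rw [X.dg_zero hi Z, Fin.insertNth_zero', br_cons]
    · rw [br_succ, X.dg_succ_alpha, ih, ← br_cons]
      conv_rhs => rw [← Fin.cons_self_tail a, Fin.insertNth_succ_cons]


end PFib

/-! ## the levelwise product -/

namespace PMul
variable {X : PFib} (Y : PMul X) (hi : SpecA.HomotopyInv) (Z : EZData)

/-- levelwise product on `E_p` -/
def ME (p : ℕ) : SS.Hom ((X.E p).prod (X.E p)) (X.E p) where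
  app q x := ⟨fun i => Y.M.app q (x.1.1 i, x.2.1 i), fun i j => by
    rw [Y.π_M, Y.π_M, x.1.2 i j, x.2.2 i j]⟩
  nat g x := by
    refine E_ext fun i => ?_
    exact Y.M.nat g (x.1.1 i, x.2.1 i)

@[simp] theorem ME_val (p q : ℕ) (x : ((X.E p).prod (X.E p)).S q) (i : Fin (p + 1)) :
    ((Y.ME p).app q x).1 i = Y.M.app q (x.1.1 i, x.2.1 i) := rfl

/-- product of homology classes of `E_p` -/
noncomputable def mE (p : ℕ) (x y : H F2 (X.E p)) : H F2 (X.E p) :=
  H.map F2 (Y.ME p) (Z.cr _ _ (x ⊗ₜ y))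

/-- pointwise product on `H G` -/
noncomputable def mG (a b : H F2 X.G) : H F2 X.G := H.map F2 Y.MG (Z.cr _ _ (a ⊗ₜ b))


theorem eps_mE (p : ℕ) (a b : H F2 (X.E p)) : eps _ (Y.mE Z p a b) = eps _ a * eps _ b := by
  rw [mE, eps_map, Z.eps_cr]

theorem mE_alpha (p : ℕ) (a b : H F2 X.G) (x y : H F2 (X.E p)) :
    Y.mE Z (p + 1) (H.map F2 (X.alpha p) (Z.cr _ _ (a ⊗ₜ x))) (H.map F2 (X.alpha p) (Z.cr _ _ (b ⊗ₜ y))) =
      H.map F2 (X.alpha p) (Z.cr _ _ (Y.mG Z a b ⊗ₜ Y.mE Z p x y)) := by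
  rw [mE, ← Z.cr_nat, map_comp']
  have e : (Y.ME (p + 1)).comp (SS.prodMap (X.alpha p) (X.alpha p)) =
      ((X.alpha p).comp (SS.prodMap Y.MG (Y.ME p))).comp (mid X.G (X.E p) X.G (X.E p)) := by
    refine SS.Hom.ext (funext fun q => funext fun x => ?_)
    refine E_ext fun i => ?_
    refine Fin.cases ?_ (fun i => ?_) i
    · exact Y.cat_M q _ _ _ _
    · rfl
  rw [e, hMap_comp, hMap_comp, Z.cr_mid, Z.cr_nat]
  rfl

/-- **levelwise product of brackets** -/
theorem mE_br (p : ℕ) (a b : Fin p → H F2 X.G) :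
    Y.mE Z p (X.br Z p a) (X.br Z p b) = X.br Z p (fun i => Y.mG Z (a i) (b i)) := by
  induction p with
  | zero =>
    rw [X.E0_eq Z (Y.mE Z 0 (X.br Z 0 a) (X.br Z 0 b)) (fun i => Y.mG Z (a i) (b i)), eps_mE,
      X.eps_br, X.eps_br]
    simp
  | succ p ih =>
    rw [X.br_succ, X.br_succ, mE_alpha, ih, X.br_succ]
    rfl

theorem mG_one_left (a : H F2 X.G) : Y.mG Z (vtx X.e) a = a := by
  rw [mG, Z.cr_vtx_left, map_comp']; exact Y.unit_l a

theorem mG_one_right (a : H F2 X.G) : Y.mG Z a (vtx X.e) = a := by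
  rw [mG, Z.cr_vtx_right, map_comp']; exact Y.unit_r a

end PMul

/-! ## step operators -/

/-- the step function `[p+1] → [1]`: `0` on `≤ i`, `1` on `> i` -/
def step (p : ℕ) (i : Fin (p + 1)) : Op (p + 1) 1 where
  toFun a := if a ≤ i.castSucc then 0 else 1
  monotone' a b h := by
    dsimp only
    split_ifs with h1 h2 h2
    · exact le_rfl
    · exact Fin.zero_le _
    · exact absurd (h.trans h2) h1
    · exact le_rfl

namespace PFib
variable (X : PFib) (hi : SpecA.HomotopyInv) (Z : EZData)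

/-- constant operators `[p] → [0]` -/
def cop0 (p : ℕ) : Op p 0 := ⟨fun _ => 0, fun _ _ _ => le_rfl⟩


theorem step_zero_comp (p : ℕ) (i : Fin (p + 1)) : step (p + 1) i.succ = (step p i).comp (Op.dgn 0) := by
  refine OrderHom.ext _ _ (funext fun a => ?_)
  show (if a ≤ i.succ.castSucc then (0 : Fin 2) else 1) = if Op.dgn 0 a ≤ i.castSucc then 0 else 1
  refine if_congr ?_ rfl rfl
  have h1 : ((Op.dgn (0 : Fin (p + 2)) a : Fin (p + 2)) : ℕ) = (a : ℕ) - 1 := by
    rw [Ch.dgn_val]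
    have h0 : ((0 : Fin (p + 2)) : ℕ) = 0 := rfl
    rw [h0]
    split_ifs with h <;> omega
  rw [Fin.le_def, Fin.le_def, h1]
  simp only [Fin.val_castSucc, Fin.val_succ]
  omega

include hi in
theorem cop0_br (p : ℕ) (a : Fin 0 → H F2 X.G) :
    H.map F2 ((cech X.π).colMap (cop0 p)) (X.br Z 0 a) = X.br Z p (fun _ => vtx X.e) := by
  induction p with
  | zero =>
    have : (cech X.π).colMap (cop0 0) = SS.Hom.id _ := by
      refine SS.Hom.ext (funext fun q => funext fun x => ?_)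
      refine E_ext fun i => ?_
      have : i = 0 := Fin.ext (by omega)
      subst this
      rfl
    rw [this, hMap_id]
    rfl
  | succ p ih =>
    have e : (cech X.π).colMap (cop0 (p + 1)) =
        ((cech X.π).colMap (Op.dgn 0)).comp ((cech X.π).colMap (cop0 p)) := rfl
    rw [e, hMap_comp, ih]
    have := X.dg_br hi Z p 0 (fun _ => vtx X.e)
    rw [dg] at this
    rw [this, Fin.insertNth_zero']
    congr 1
    funext i
    refine Fin.cases ?_ (fun i => ?_) i <;> rfl

include hi in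
theorem step_br (p : ℕ) (i : Fin (p + 1)) (a : Fin 1 → H F2 X.G) :
    H.map F2 ((cech X.π).colMap (step p i)) (X.br Z 1 a) =
      X.br Z (p + 1) (Fin.insertNth (α := fun _ => H F2 X.G) i (a 0) (fun _ => vtx X.e)) := by
  induction p with
  | zero =>
    have : i = 0 := Fin.ext (by omega)
    subst this
    have : (cech X.π).colMap (step 0 0) = SS.Hom.id _ := by
      refine SS.Hom.ext (funext fun q => funext fun x => ?_)
      refine E_ext fun i => ?_
      show x.1 (step 0 0 i) = x.1 i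
      congr 1
      fin_cases i <;> rfl
    rw [this, hMap_id]
    refine congrArg (X.br Z 1) ?_
    funext i
    have : i = 0 := Fin.ext (by omega)
    subst this
    rfl
  | succ p ih =>
    refine Fin.cases ?_ (fun i => ?_) i
    · rw [X.br_succ, map_comp']
      have e : ((cech X.π).colMap (step (p + 1) 0)).comp (X.alpha 0) =
          (X.alpha (p + 1)).comp (SS.prodMap (SS.Hom.id X.G) ((cech X.π).colMap (cop0 (p + 1)))) := by
        refine SS.Hom.ext (funext fun q => funext fun x => ?_)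
        refine E_ext fun i => ?_
        refine Fin.cases ?_ (fun i => ?_) i
        · rfl
        · show (((X.alpha 0).app q (x.1, x.2)) : (cech X.π).S 1 q).1 (step (p + 1) 0 i.succ) = _
          have : step (p + 1) 0 i.succ = (0 : Fin 1).succ := by
            show (if i.succ ≤ (0 : Fin (p + 2)).castSucc then (0 : Fin 2) else 1) = 1
            rw [if_neg]
            simp
          rw [this, X.alpha_succ]
          rfl
      rw [e, hMap_comp, Z.cr_nat, hMap_id, X.cop0_br hi Z, Fin.insertNth_zero', X.br_cons]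
    · have e : (cech X.π).colMap (step (p + 1) i.succ) =
          ((cech X.π).colMap (Op.dgn 0)).comp ((cech X.π).colMap (step p i)) := by
        rw [step_zero_comp]; rfl
      rw [e, hMap_comp, ih]
      have := X.dg_br hi Z (p + 1) 0 (Fin.insertNth (α := fun _ => H F2 X.G) i (a 0) (fun _ => vtx X.e))
      rw [dg] at this
      rw [this, Fin.insertNth_zero']
      have h2 : (fun _ => vtx X.e : Fin (p + 1) → H F2 X.G) =
          Fin.cons (vtx X.e) (fun _ => vtx X.e) := by
        funext i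
        refine Fin.cases ?_ (fun i => ?_) i <;> rfl
      rw [h2, Fin.insertNth_succ_cons]

end PFib

namespace PMul
variable {X : PFib} (Y : PMul X) (hi : SpecA.HomotopyInv) (Z : EZData)

include hi in
/-- **one shuffle**: `(step_i)^* [v] · (s_i)^* [a_1|…|a_p] = [a_1|…|v|…|a_p]`, `v` inserted at `i`. -/
theorem shuffle_br (p : ℕ) (i : Fin (p + 1)) (v : H F2 X.G) (a : Fin p → H F2 X.G) :
    Y.mE Z (p + 1) (H.map F2 ((cech X.π).colMap (step p i)) (X.br Z 1 fun _ => v))
      (X.dg p i (X.br Z p a)) =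
      X.br Z (p + 1) (Fin.insertNth (α := fun _ => H F2 X.G) i v a) := by
  rw [X.step_br hi Z, X.dg_br hi Z, mE_br]
  congr 1
  funext j
  refine Fin.succAboveCases i ?_ (fun j => ?_) j
  · simp only [Fin.insertNth_apply_same, mG_one_right]
  · simp only [Fin.insertNth_apply_succAbove, mG_one_left]

end PMul

end Crest.Agent.R204.Bar170
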