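import Crest.Agent.R204.K1_459

/-!
# Row 204, block B: the algebra of `E¹` (bar construction on homology), owner helper459

Input `BarMod`: the simplicial module `M p = H(E_p)` of the Cech nerve, built from `H = H(G)` by the maps
`al p : H → M p → M (p+1)`, `al (a, x) = α_*(a × x)` (design of helper170).
Output: reduced words of monomials, Kuenneth in a range, `d¹` = bar differential, shuffle products.
-/

set_option autoImplicit false
set_option linter.unusedSectionVars false

noncomputable section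

namespace Crest.Agent.R204.E1_459

open Finsupp
open Crest.Agent.R204.Koszul459 (char2)

/-- the simplicial module `M p = H(E_p)` with its `α`-maps.  No associativity is needed. -/
structure BarMod where
  /-- `H = H(G)` -/
  H : Type
  [hac : AddCommGroup H]
  [hmo : Module F2 H]
  /-- `M p = H(E_p)` -/
  M : ℕ → Type
  [mac : ∀ p, AddCommGroup (M p)]
  [mmo : ∀ p, Module F2 (M p)]
  hgr : ℕ → Submodule F2 H
  gr : ∀ p, ℕ → Submodule F2 (M p)
  one : H
  mul : H →ₗ[F2] H →ₗ[F2] H
  eps : H →ₗ[F2] F2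
  pt : M 0
  al : ∀ p, H →ₗ[F2] M p →ₗ[F2] M (p + 1)
  face : ∀ p, Fin (p + 2) → (M (p + 1) →ₗ[F2] M p)
  dgn : ∀ p, Fin (p + 1) → (M p →ₗ[F2] M (p + 1))
  /-- every element of `H` is a sum of homogeneous ones -/
  hgr_top : ∀ x : H, ∃ c : ℕ →₀ H, (∀ n, c n ∈ hgr n) ∧ x = c.sum fun _ y => y
  /-- homogeneous components are unique -/
  hgr_ind : ∀ c : ℕ →₀ H, (∀ n, c n ∈ hgr n) → (c.sum fun _ y => y) = 0 → c = 0
  one_mem : one ∈ hgr 0
  hgr_zero : ∀ x ∈ hgr 0, ∃ r : F2, x = r • one
  eps_one : eps one = 1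
  eps_pos : ∀ n, ∀ x ∈ hgr (n + 1), eps x = 0
  one_mul : ∀ x, mul one x = x
  mul_one : ∀ x, mul x one = x
  pt_span : ∀ x : M 0, ∃ r : F2, x = r • pt
  pt_ne : pt ≠ 0
  pt_mem : pt ∈ gr 0 0
  gr_top : ∀ p, ∀ x : M p, ∃ c : ℕ →₀ M p, (∀ n, c n ∈ gr p n) ∧ x = c.sum fun _ y => y
  gr_ind : ∀ p, ∀ c : ℕ →₀ M p, (∀ n, c n ∈ gr p n) → (c.sum fun _ y => y) = 0 → c = 0
  al_gr : ∀ p i j, ∀ a ∈ hgr i, ∀ x ∈ gr p j, al p a x ∈ gr (p + 1) (i + j)
  al_bij : ∀ p, Function.Bijective (TensorProduct.lift (al p))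
  face_zero : ∀ p a x, face p 0 (al p a x) = eps a • x
  face_one_pt : ∀ a, face 0 1 (al 0 a pt) = eps a • pt
  face_one : ∀ p a b (x : M p), face (p + 1) 1 (al (p + 1) a (al p b x)) = al p (mul a b) x
  face_succ : ∀ p a (x : M (p + 1)) (i : Fin (p + 2)), i ≠ 0 →
    face (p + 1) i.succ (al (p + 1) a x) = al p a (face p i x)
  dgn_zero : ∀ p (x : M p), dgn p 0 x = al p one x
  dgn_succ : ∀ p a (x : M p) (i : Fin (p + 1)), dgn (p + 1) i.succ (al p a x) = al (p + 1) a (dgn p i x)

attribute [instance] BarMod.hac BarMod.hmo BarMod.mac BarMod.mmo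

namespace BarMod

variable (X : BarMod)

/-- degenerate part -/
def Dg : ∀ p, Submodule F2 (X.M p)
  | 0 => ⊥
  | p + 1 => ⨆ i : Fin (p + 1), LinearMap.range (X.dgn p i)

/-- `E¹_p` -/
abbrev R (p : ℕ) : Type := X.M p ⧸ X.Dg p


theorem al_ind {p : ℕ} {P : X.M (p + 1) → Prop} (h0 : P 0) (hadd : ∀ x y, P x → P y → P (x + y))
    (h : ∀ a b, P (X.al p a b)) (x : X.M (p + 1)) : P x := by
  obtain ⟨t, rfl⟩ := (X.al_bij p).2 x
  induction t using TensorProduct.induction_on with
  | zero => simpa using h0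
  | tmul a b => rw [TensorProduct.lift.tmul]; exact h a b
  | add a b ha hb => rw [map_add]; exact hadd _ _ ha hb

/-- recursion for the degenerate part: `Dg (p+1) = α(1, M p) + α(H, Dg p)` -/
theorem al_one_mem (p : ℕ) (x : X.M p) : X.al p X.one x ∈ X.Dg (p + 1) := by
  rw [← X.dgn_zero]
  exact Submodule.mem_iSup_of_mem 0 ⟨x, rfl⟩

theorem al_Dg_mem (p : ℕ) (a : X.H) {x : X.M p} (hx : x ∈ X.Dg p) : X.al p a x ∈ X.Dg (p + 1) := by
  cases p with
  | zero =>
    have : x = 0 := hx
    rw [this, map_zero]; exact Submodule.zero_mem _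
  | succ p =>
    have hx' : x ∈ ⨆ i : Fin (p + 1), LinearMap.range (X.dgn p i) := hx
    refine Submodule.iSup_induction (motive := fun x => X.al (p + 1) a x ∈ X.Dg (p + 1 + 1)) _ hx' ?_ ?_ ?_
    · rintro i _ ⟨y, rfl⟩
      cases p with
      | zero =>
        rw [← X.dgn_succ]
        exact Submodule.mem_iSup_of_mem i.succ ⟨_, rfl⟩
      | succ p =>
        rw [← X.dgn_succ]
        exact Submodule.mem_iSup_of_mem i.succ ⟨_, rfl⟩
    · rw [map_zero]; exact Submodule.zero_mem _
    · intro y z hy hz; rw [map_add]; exact Submodule.add_mem _ hy hz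

/-- induction principle for degenerate elements -/
theorem Dg_ind (p : ℕ) {P : X.M (p + 1) → Prop} (h0 : P 0) (hadd : ∀ x y, P x → P y → P (x + y))
    (h1 : ∀ x, P (X.al p X.one x)) (h2 : ∀ a, ∀ x ∈ X.Dg p, P (X.al p a x)) :
    ∀ x ∈ X.Dg (p + 1), P x := by
  intro x hx
  have hx' : x ∈ ⨆ i : Fin (p + 1), LinearMap.range (X.dgn p i) := hx
  refine Submodule.iSup_induction (motive := P) _ hx' ?_ h0 hadd
  rintro i _ ⟨y, rfl⟩
  refine Fin.cases ?_ (fun j => ?_) i
  · rw [X.dgn_zero]; exact h1 y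
  · cases p with
    | zero => exact j.elim0
    | succ p =>
      refine X.al_ind (P := fun y => P (X.dgn (p + 1) j.succ y)) ?_ ?_ ?_ y
      · rw [map_zero]; exact h0
      · intro u v hu hv; rw [map_add]; exact hadd _ _ hu hv
      · intro a b
        rw [X.dgn_succ]
        exact h2 a _ (Submodule.mem_iSup_of_mem j ⟨b, rfl⟩)

/-- sum of all faces -/
def dd (p : ℕ) : X.M (p + 1) →ₗ[F2] X.M p := ∑ i : Fin (p + 2), X.face p i

theorem dd_al_al (p : ℕ) (a b : X.H) (x : X.M p) :
    X.dd (p + 1) (X.al (p + 1) a (X.al p b x)) =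
      X.al p (X.mul a b + X.eps a • b + X.eps b • a) x + X.al p a (X.dd p (X.al p b x)) := by
  have h1 : X.dd (p + 1) (X.al (p + 1) a (X.al p b x)) =
      X.eps a • X.al p b x + (X.al p (X.mul a b) x +
        ∑ i : Fin (p + 1), X.al p a (X.face p i.succ (X.al p b x))) := by
    rw [dd, LinearMap.sum_apply, Fin.sum_univ_succ, Fin.sum_univ_succ, X.face_zero]
    congr 1
    congr 1
    · exact X.face_one p a b x
    · refine Finset.sum_congr rfl fun i _ => ?_
      exact X.face_succ p a _ i.succ (Fin.succ_ne_zero i)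
  have h2 : X.al p a (X.dd p (X.al p b x)) = X.eps b • X.al p a x +
      ∑ i : Fin (p + 1), X.al p a (X.face p i.succ (X.al p b x)) := by
    rw [dd, LinearMap.sum_apply, Fin.sum_univ_succ, X.face_zero, map_add, map_smul, map_sum]
  rw [h1, h2]
  simp only [map_add, map_smul, LinearMap.add_apply, LinearMap.smul_apply]
  have e : ∀ (A B C D : X.M (p + 1)), A + (B + D) = B + A + C + (C + D) := by
    intro A B C D
    have : B + A + C + (C + D) = (C + C) + (A + (B + D)) := by abel
    rw [this, char2, zero_add]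
  exact e _ _ _ _

theorem dd_al_pt (a : X.H) : X.dd 0 (X.al 0 a X.pt) = 0 := by
  rw [dd, LinearMap.sum_apply, Fin.sum_univ_two, X.face_zero]
  have := X.face_one_pt a
  rw [this, char2]

theorem dd_al_zero (a : X.H) (x : X.M 0) : X.dd 0 (X.al 0 a x) = 0 := by
  obtain ⟨r, rfl⟩ := X.pt_span x
  rw [map_smul, map_smul, dd_al_pt, smul_zero]

/-- `dd` preserves degenerate elements -/
theorem dd_Dg (p : ℕ) : ∀ x ∈ X.Dg (p + 1), X.dd p x ∈ X.Dg p := by
  induction p with
  | zero =>
    refine X.Dg_ind 0 ?_ ?_ ?_ ?_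
    · rw [map_zero]; exact Submodule.zero_mem _
    · intro x y hx hy; rw [map_add]; exact Submodule.add_mem _ hx hy
    · intro x; rw [dd_al_zero]; exact Submodule.zero_mem _
    · intro a x _; rw [dd_al_zero]; exact Submodule.zero_mem _
  | succ p ih =>
    refine X.Dg_ind (p + 1) ?_ ?_ ?_ ?_
    · rw [map_zero]; exact Submodule.zero_mem _
    · intro x y hx hy; rw [map_add]; exact Submodule.add_mem _ hx hy
    · intro x
      refine X.al_ind (P := fun x => X.dd (p + 1) (X.al (p + 1) X.one x) ∈ X.Dg (p + 1)) ?_ ?_ ?_ x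
      · rw [map_zero, map_zero]; exact Submodule.zero_mem _
      · intro x y hx hy; rw [map_add, map_add]; exact Submodule.add_mem _ hx hy
      · intro b y
        rw [dd_al_al, X.one_mul, X.eps_one, one_smul, char2, zero_add, map_smul]
        exact Submodule.add_mem _ (Submodule.smul_mem _ _ (X.al_one_mem p y)) (X.al_one_mem p _)
    · intro a x hx
      have hdx := ih x hx
      -- it remains to treat the `al (mul ..)` part
      have key : ∀ x ∈ X.Dg (p + 1),
          X.dd (p + 1) (X.al (p + 1) a x) + X.al p a (X.dd p x) ∈ X.Dg (p + 1) := by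
        refine X.Dg_ind p ?_ ?_ ?_ ?_
        · simp only [map_zero, add_zero]; exact Submodule.zero_mem _
        · intro x y hx hy
          simp only [map_add]
          have : ∀ (A B C D : X.M (p + 1)), A + B + (C + D) = (A + C) + (B + D) := by
            intros; abel
          rw [this]
          exact Submodule.add_mem _ hx hy
        · intro y
          rw [dd_al_al, X.mul_one, X.eps_one, one_smul, add_assoc, char2, add_zero,
            add_right_comm, char2, zero_add, map_smul, LinearMap.smul_apply]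
          exact Submodule.smul_mem _ _ (X.al_one_mem p y)
        · intro b y hy
          rw [dd_al_al, add_assoc, char2, add_zero]
          exact X.al_Dg_mem p _ hy
      have h2 : X.al p a (X.dd p x) ∈ X.Dg (p + 1) := X.al_Dg_mem p a hdx
      have h3 := Submodule.add_mem _ (key x hx) h2
      rwa [add_assoc, char2, add_zero] at h3

/-- `d¹` on `E¹` -/
def d1 (p : ℕ) : X.R (p + 1) →ₗ[F2] X.R p :=
  Submodule.mapQ _ _ (X.dd p) (fun x hx => X.dd_Dg p x hx)

theorem d1_mk (p : ℕ) (x : X.M (p + 1)) :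
    X.d1 p (Submodule.Quotient.mk x) = Submodule.Quotient.mk (X.dd p x) := rfl

/-- `α` on `E¹` -/
def alR (p : ℕ) (a : X.H) : X.R p →ₗ[F2] X.R (p + 1) :=
  Submodule.mapQ _ _ (X.al p a) (fun _ hx => X.al_Dg_mem p a hx)

theorem alR_mk (p : ℕ) (a : X.H) (x : X.M p) :
    X.alR p a (Submodule.Quotient.mk x) = Submodule.Quotient.mk (X.al p a x) := rfl

/-! ## contractions -/

/-- contraction with a functional `f` on `H`: `α(a, x) ↦ f a • x` -/
def con (p : ℕ) (f : X.H →ₗ[F2] F2) : X.M (p + 1) →ₗ[F2] X.M p :=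
  (TensorProduct.lift ((LinearMap.lsmul F2 (X.M p)) ∘ₗ f)) ∘ₗ
    (LinearEquiv.ofBijective (TensorProduct.lift (X.al p)) (X.al_bij p)).symm.toLinearMap

theorem con_al (p : ℕ) (f : X.H →ₗ[F2] F2) (a : X.H) (x : X.M p) :
    X.con p f (X.al p a x) = f a • x := by
  have h : (LinearEquiv.ofBijective (TensorProduct.lift (X.al p)) (X.al_bij p)).symm (X.al p a x) =
      a ⊗ₜ x := by
    rw [LinearEquiv.symm_apply_eq]
    rfl
  show TensorProduct.lift _ ((LinearEquiv.ofBijective (TensorProduct.lift (X.al p))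
    (X.al_bij p)).symm (X.al p a x)) = _
  rw [h]
  rfl

theorem con_Dg (p : ℕ) (f : X.H →ₗ[F2] F2) (hf : f X.one = 0) :
    ∀ x ∈ X.Dg (p + 1), X.con p f x ∈ X.Dg p := by
  refine X.Dg_ind p ?_ ?_ ?_ ?_
  · rw [map_zero]; exact Submodule.zero_mem _
  · intro x y hx hy; rw [map_add]; exact Submodule.add_mem _ hx hy
  · intro x; rw [con_al, hf, zero_smul]; exact Submodule.zero_mem _
  · intro a x hx; rw [con_al]; exact Submodule.smul_mem _ _ hx

/-- contraction on `E¹` -/
def conR (p : ℕ) (f : X.H →ₗ[F2] F2) (hf : f X.one = 0) : X.R (p + 1) →ₗ[F2] X.R p :=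
  Submodule.mapQ _ _ (X.con p f) (fun x hx => X.con_Dg p f hf x hx)

theorem conR_alR (p : ℕ) (f : X.H →ₗ[F2] F2) (hf : f X.one = 0) (a : X.H) (y : X.R p) :
    X.conR p f hf (X.alR p a y) = f a • y := by
  obtain ⟨x, rfl⟩ := Submodule.Quotient.mk_surjective _ y
  rw [alR_mk]
  show Submodule.Quotient.mk (X.con p f (X.al p a x)) = _
  rw [con_al]; rfl

theorem alR_add (p : ℕ) (a b : X.H) (y : X.R p) :
    X.alR p (a + b) y = X.alR p a y + X.alR p b y := by
  obtain ⟨x, rfl⟩ := Submodule.Quotient.mk_surjective _ y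
  rw [alR_mk, alR_mk, alR_mk, map_add]; rfl

theorem alR_smul (p : ℕ) (r : F2) (a : X.H) (y : X.R p) :
    X.alR p (r • a) y = r • X.alR p a y := by
  obtain ⟨x, rfl⟩ := Submodule.Quotient.mk_surjective _ y
  rw [alR_mk, alR_mk, map_smul]; rfl

/-- `α` on `E¹`, bilinear -/
def alRb (p : ℕ) : X.H →ₗ[F2] X.R p →ₗ[F2] X.R (p + 1) :=
  LinearMap.mk₂ F2 (fun a y => X.alR p a y) (fun a b y => X.alR_add p a b y)
    (fun r a y => X.alR_smul p r a y) (fun _ _ _ => map_add _ _ _) (fun _ _ _ => map_smul _ _ _)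

@[simp] theorem alRb_apply (p : ℕ) (a : X.H) (y : X.R p) : X.alRb p a y = X.alR p a y := rfl

theorem alR_one (p : ℕ) (y : X.R p) : X.alR p X.one y = 0 := by
  obtain ⟨x, rfl⟩ := Submodule.Quotient.mk_surjective _ y
  rw [alR_mk, Submodule.Quotient.mk_eq_zero]
  exact X.al_one_mem p x

/-! ## words -/

section words

variable {ι : Type} (φ : (ι →₀ ℕ) → X.H)

/-- the class of the word `[φ m_1 | … | φ m_p]` in `R p` (zero if the length is not `p`) -/
def ww : ∀ p : ℕ, List (Bar334.NMon ι) → X.R p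
  | 0, [] => Submodule.Quotient.mk X.pt
  | 0, _ :: _ => 0
  | _ + 1, [] => 0
  | p + 1, m :: w => X.alR p (φ m.1) (ww p w)

theorem ww_ne : ∀ (p : ℕ) (w : List (Bar334.NMon ι)), w.length ≠ p → X.ww φ p w = 0
  | 0, [], h => absurd rfl h
  | 0, _ :: _, _ => rfl
  | _ + 1, [], _ => rfl
  | p + 1, m :: w, h => by
    show X.alR p (φ m.1) (X.ww φ p w) = 0
    rw [ww_ne p w (fun h' => h (by simp [h'])), map_zero]

/-- words of length `p` -/
def Wp (p : ℕ) : Bar334.Bar ι →ₗ[F2] X.R p := Finsupp.linearCombination F2 (X.ww φ p)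

@[simp] theorem Wp_single (p : ℕ) (w : List (Bar334.NMon ι)) (r : F2) :
    X.Wp φ p (single w r) = r • X.ww φ p w := by
  simp [Wp]

theorem Wp_consL (p : ℕ) (m : Bar334.NMon ι) (x : Bar334.Bar ι) :
    X.Wp φ (p + 1) (Koszul459.consL m x) = X.alR p (φ m.1) (X.Wp φ p x) := by
  induction x using Finsupp.induction_linear with
  | zero => simp
  | add f g hf hg => simp only [map_add, hf, hg]
  | single w r =>
    rw [Koszul459.consL_single, Wp_single, Wp_single, map_smul]; rfl

theorem Wp_zero_consL (m : Bar334.NMon ι) (x : Bar334.Bar ι) :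
    X.Wp φ 0 (Koszul459.consL m x) = 0 := by
  induction x using Finsupp.induction_linear with
  | zero => simp
  | add f g hf hg => simp only [map_add, hf, hg, add_zero]
  | single w r =>
    rw [Koszul459.consL_single, Wp_single]
    show r • (0 : X.R 0) = 0
    rw [smul_zero]

/-- multiplicativity and positivity of `φ` -/
structure Mult : Prop where
  zero : φ 0 = X.one
  add : ∀ a b, X.mul (φ a) (φ b) = φ (a + b)
  eps : ∀ m, m ≠ 0 → X.eps (φ m) = 0

variable {φ}

theorem d1_alR_alR (p : ℕ) (a b : X.H) (ha : X.eps a = 0) (hb : X.eps b = 0) (y : X.R p) :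
    X.d1 (p + 1) (X.alR (p + 1) a (X.alR p b y)) =
      X.alR p (X.mul a b) y + X.alR p a (X.d1 p (X.alR p b y)) := by
  obtain ⟨x, rfl⟩ := Submodule.Quotient.mk_surjective _ y
  rw [alR_mk, alR_mk, d1_mk, d1_mk, dd_al_al, ha, hb, zero_smul, zero_smul, add_zero, add_zero]
  rfl

/-- `d¹` is the bar differential on words -/
theorem d1_Wp (hφ : X.Mult φ) (p : ℕ) (x : Bar334.Bar ι) :
    X.d1 p (X.Wp φ (p + 1) x) = X.Wp φ p (Koszul459.bd x) := by
  induction x using Finsupp.induction_linear with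
  | zero => simp
  | add f g hf hg => simp only [map_add, hf, hg]
  | single w r =>
    have hr : (single w r : Bar334.Bar ι) = r • single w 1 := by simp
    rw [hr]
    simp only [map_smul]
    congr 1
    clear hr
    induction p generalizing w with
    | zero =>
      match w with
      | [] => simp [ww]
      | [a] =>
        rw [Koszul459.bd_single_cons, Koszul459.mulH_single_nil, Koszul459.bd_single_nil, map_zero,
          add_zero, map_zero, Wp_single, one_smul]
        show X.d1 0 (X.alR 0 (φ a.1) (Submodule.Quotient.mk X.pt)) = 0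
        rw [alR_mk, d1_mk, dd_al_pt]; rfl
      | a :: b :: w =>
        rw [Koszul459.bd_single_cons, Koszul459.mulH_single_cons, map_add, Wp_zero_consL, add_zero,
          Wp_single, Wp_single]
        show X.d1 0 ((1 : F2) • X.alR 0 (φ a.1) 0) = (1 : F2) • (0 : X.R 0)
        rw [map_zero, smul_zero, map_zero, smul_zero]
    | succ p ih =>
      match w with
      | [] => simp [ww]
      | [a] =>
        rw [Koszul459.bd_single_cons, Koszul459.mulH_single_nil, Koszul459.bd_single_nil, map_zero,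
          add_zero, map_zero, Wp_single, one_smul]
        show X.d1 (p + 1) (X.alR (p + 1) (φ a.1) 0) = 0
        rw [map_zero, map_zero]
      | a :: b :: w =>
        rw [Koszul459.bd_single_cons, Koszul459.mulH_single_cons, map_add, Wp_consL, ← ih,
          Wp_single, Wp_single, Wp_single, one_smul, one_smul, one_smul]
        show X.d1 (p + 1) (X.alR (p + 1) (φ a.1) (X.alR p (φ b.1) (X.ww φ p w))) = _
        rw [d1_alR_alR X p _ _ (hφ.eps _ a.2) (hφ.eps _ b.2), hφ.add]
        rfl

end words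

/-! ## gradings -/

/-- grading of `E¹` -/
def Rgr (p q : ℕ) : Submodule F2 (X.R p) := (X.gr p q).map (Submodule.mkQ _)

theorem gr_unique {p : ℕ} {c : ℕ →₀ X.M p} (hc : ∀ n, c n ∈ X.gr p n) {q : ℕ} {x : X.M p}
    (hx : x ∈ X.gr p q) (h : x = c.sum fun _ y => y) : x = c q := by
  classical
  have h0 : (c - single q x) = 0 := by
    refine X.gr_ind p _ ?_ ?_
    · intro n
      rw [Finsupp.sub_apply, Finsupp.single_apply]
      split_ifs with hn
      · subst hn; exact Submodule.sub_mem _ (hc _) hx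
      · rw [sub_zero]; exact hc n
    · rw [Finsupp.sum_sub_index (fun _ _ _ => rfl), Finsupp.sum_single_index rfl, ← h, sub_self]
  have := DFunLike.congr_fun (sub_eq_zero.mp h0) q
  rw [Finsupp.single_eq_same] at this
  exact this.symm

/-- homogeneous elements of `M (p+1)` are sums of `α(a, x)` with `a`, `x` homogeneous -/
theorem gr_al_span (p q : ℕ) (x : X.M (p + 1)) (hx : x ∈ X.gr (p + 1) q) :
    x ∈ Submodule.span F2 {y | ∃ i j, i + j = q ∧ ∃ a ∈ X.hgr i, ∃ b ∈ X.gr p j, y = X.al p a b} := by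
  classical
  set S : ℕ → Submodule F2 (X.M (p + 1)) := fun q =>
    Submodule.span F2 {y | ∃ i j, i + j = q ∧ ∃ a ∈ X.hgr i, ∃ b ∈ X.gr p j, y = X.al p a b} with hS
  have hSgr : ∀ q, S q ≤ X.gr (p + 1) q := by
    intro q
    rw [hS, Submodule.span_le]
    rintro _ ⟨i, j, rfl, a, ha, b, hb, rfl⟩
    exact X.al_gr p i j a ha b hb
  have hex : ∀ x : X.M (p + 1), ∃ c : ℕ →₀ X.M (p + 1), (∀ n, c n ∈ S n) ∧ x = c.sum fun _ y => y := by
    have hadd : ∀ x y : X.M (p + 1),
        (∃ c : ℕ →₀ X.M (p + 1), (∀ n, c n ∈ S n) ∧ x = c.sum fun _ y => y) →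
        (∃ c : ℕ →₀ X.M (p + 1), (∀ n, c n ∈ S n) ∧ y = c.sum fun _ y => y) →
        (∃ c : ℕ →₀ X.M (p + 1), (∀ n, c n ∈ S n) ∧ x + y = c.sum fun _ y => y) := by
      rintro x y ⟨c, hc, hcx⟩ ⟨d, hd, hdy⟩
      refine ⟨c + d, fun n => Submodule.add_mem _ (hc n) (hd n), ?_⟩
      rw [Finsupp.sum_add_index' (fun _ => rfl) (fun _ _ _ => rfl), ← hcx, ← hdy]
    have hzero : ∃ c : ℕ →₀ X.M (p + 1), (∀ n, c n ∈ S n) ∧ (0 : X.M (p + 1)) = c.sum fun _ y => y :=
      ⟨0, fun n => Submodule.zero_mem _, by simp⟩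
    have hhom : ∀ i j, ∀ a ∈ X.hgr i, ∀ b ∈ X.gr p j,
        ∃ c : ℕ →₀ X.M (p + 1), (∀ n, c n ∈ S n) ∧ X.al p a b = c.sum fun _ y => y := by
      intro i j a ha b hb
      refine ⟨single (i + j) (X.al p a b), ?_, by rw [Finsupp.sum_single_index rfl]⟩
      intro n
      rw [Finsupp.single_apply]
      split_ifs with hn
      · subst hn; exact Submodule.subset_span ⟨i, j, rfl, a, ha, b, hb, rfl⟩
      · exact Submodule.zero_mem _
    have hfin : ∀ (s : Finset ℕ) (f : ℕ → X.M (p + 1)),
        (∀ i ∈ s, ∃ c : ℕ →₀ X.M (p + 1), (∀ n, c n ∈ S n) ∧ f i = c.sum fun _ y => y) →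
        ∃ c : ℕ →₀ X.M (p + 1), (∀ n, c n ∈ S n) ∧ (∑ i ∈ s, f i) = c.sum fun _ y => y := by
      intro s f
      induction s using Finset.induction_on with
      | empty => intro _; rw [Finset.sum_empty]; exact hzero
      | insert k s hk ih =>
        intro h
        rw [Finset.sum_insert hk]
        exact hadd _ _ (h k (Finset.mem_insert_self _ _))
          (ih (fun i hi => h i (Finset.mem_insert_of_mem hi)))
    intro x
    refine X.al_ind (P := fun x => ∃ c : ℕ →₀ X.M (p + 1), (∀ n, c n ∈ S n) ∧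
      x = c.sum fun _ y => y) hzero hadd ?_ x
    intro a b
    obtain ⟨ca, hca, hcaa⟩ := X.hgr_top a
    obtain ⟨cb, hcb, hcbb⟩ := X.gr_top p b
    rw [hcaa, hcbb, Finsupp.sum, Finsupp.sum, map_sum]
    refine hfin _ _ fun j _ => ?_
    rw [map_sum, LinearMap.sum_apply]
    refine hfin _ _ fun i _ => ?_
    exact hhom i j _ (hca i) _ (hcb j)
  obtain ⟨c, hc, hcx⟩ := hex x
  rw [X.gr_unique (fun n => hSgr n (hc n)) hx hcx]
  exact hc q

/-- `E¹_p` vanishes in internal degrees `< p` -/
theorem Rgr_low : ∀ (p q : ℕ), q < p → ∀ y ∈ X.Rgr p q, y = 0 := by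
  intro p
  induction p with
  | zero => intro q h; omega
  | succ p ih =>
    rintro q hq _ ⟨x, hx, rfl⟩
    refine Submodule.span_induction (p := fun x _ => Submodule.mkQ (X.Dg (p + 1)) x = 0)
      ?_ ?_ ?_ ?_ (X.gr_al_span p q x hx)
    · rintro _ ⟨i, j, hij, a, ha, b, hb, rfl⟩
      show Submodule.Quotient.mk (X.al p a b) = 0
      rw [← alR_mk]
      rcases Nat.eq_zero_or_pos i with rfl | hi
      · obtain ⟨r, rfl⟩ := X.hgr_zero a ha
        rw [alR_smul, alR_one, smul_zero]
      · have : (Submodule.Quotient.mk b : X.R p) = 0 := ih j (by omega) _ ⟨b, hb, rfl⟩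
        rw [this, map_zero]
    · rw [map_zero]
    · intro x y _ _ hx hy; rw [map_add, hx, hy, add_zero]
    · intro r x _ hx; rw [map_smul, hx, smul_zero]

section range

variable {ι : Type} (deg : ι → ℕ) (hdeg : ∀ i, 1 ≤ deg i) {φ : (ι →₀ ℕ) → X.H}

/-- words are homogeneous -/
theorem Wp_mem (hgr : ∀ m, φ m ∈ X.hgr (Bar334.wt1 deg m)) (p q : ℕ) (b : Bar334.Bar ι)
    (hb : b ∈ Bar334.Wd deg p q) : X.Wp φ p b ∈ X.Rgr p q := by
  have key : ∀ (p : ℕ) (w : List (Bar334.NMon ι)), X.ww φ p w ∈ X.Rgr p (Bar334.wt deg w) := by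
    intro p
    induction p with
    | zero =>
      intro w
      cases w with
      | nil => exact ⟨X.pt, X.pt_mem, rfl⟩
      | cons a w => exact Submodule.zero_mem _
    | succ p ih =>
      intro w
      cases w with
      | nil => exact Submodule.zero_mem _
      | cons a w =>
        obtain ⟨x, hx, hxw⟩ := ih w
        refine ⟨X.al p (φ a.1) x, ?_, ?_⟩
        · have : Bar334.wt deg (a :: w) = Bar334.wt1 deg a.1 + Bar334.wt deg w := by
            simp [Bar334.wt]
          rw [this]
          exact X.al_gr p _ _ _ (hgr a.1) _ hx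
        · show Submodule.Quotient.mk (X.al p (φ a.1) x) = X.alR p (φ a.1) (X.ww φ p w)
          rw [← hxw]; rfl
  have hb' : b ∈ Finsupp.supported F2 F2 {w : List (Bar334.NMon ι) | w.length = p ∧
    Bar334.wt deg w = q} := hb
  rw [Finsupp.supported_eq_span_single] at hb'
  refine Submodule.span_induction (p := fun b _ => X.Wp φ p b ∈ X.Rgr p q) ?_ ?_ ?_ ?_ hb'
  · rintro _ ⟨w, ⟨-, hw⟩, rfl⟩
    have := key p w
    rw [hw] at this
    show X.Wp φ p (single w 1) ∈ _
    rw [Wp_single, one_smul]; exact this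
  · rw [map_zero]; exact Submodule.zero_mem _
  · intro x y _ _ hx hy; rw [map_add]; exact Submodule.add_mem _ hx hy
  · intro r x _ hx; rw [map_smul]; exact Submodule.smul_mem _ _ hx

/-! ### Kuenneth in a range -/

theorem length_le_wt (hdeg : ∀ i, 1 ≤ deg i) (m : Bar334.NMon ι) : 1 ≤ Bar334.wt1 deg m.1 := by
  classical
  obtain ⟨i, hi⟩ : m.1.support.Nonempty := by
    rw [Finset.nonempty_iff_ne_empty, Ne, Finsupp.support_eq_empty]; exact m.2
  have hi' : m.1 i ≠ 0 := Finsupp.mem_support_iff.mp hi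
  unfold Bar334.wt1 Finsupp.sum
  refine le_trans ?_ (Finset.single_le_sum (f := fun i => m.1 i * deg i) (fun _ _ => Nat.zero_le _) hi)
  have := hdeg i
  exact Nat.mul_pos (Nat.pos_of_ne_zero hi') this

theorem length_le_wt' (hdeg : ∀ i, 1 ≤ deg i) (w : List (Bar334.NMon ι)) :
    w.length ≤ Bar334.wt deg w := by
  induction w with
  | nil => simp
  | cons a w ih =>
    have := length_le_wt deg hdeg a
    have h : Bar334.wt deg (a :: w) = Bar334.wt1 deg a.1 + Bar334.wt deg w := by simp [Bar334.wt]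
    rw [h, List.length_cons]; omega

theorem wt1_eq_zero (hdeg : ∀ i, 1 ≤ deg i) (m : ι →₀ ℕ) (h : Bar334.wt1 deg m = 0) : m = 0 := by
  by_contra h0
  have := length_le_wt deg hdeg ⟨m, h0⟩
  simp only at this
  omega

variable (φ)

/-- one-letter words to `H` -/
def PhiW : List (Bar334.NMon ι) → X.H
  | [m] => φ m.1
  | _ => 0

/-- one-letter words to `H` -/
def Phi : Bar334.Bar ι →ₗ[F2] X.H := Finsupp.linearCombination F2 (X.PhiW φ)

variable {φ}

theorem Wp_one (b : Bar334.Bar ι) :
    X.Wp φ 1 b = X.alR 0 (X.Phi φ b) (Submodule.Quotient.mk X.pt) := by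
  induction b using Finsupp.induction_linear with
  | zero => rw [map_zero, map_zero, ← alRb_apply, map_zero]; rfl
  | add f g hf hg => rw [map_add, map_add, hf, hg, alR_add]
  | single w r =>
    rw [Wp_single, Phi, Finsupp.linearCombination_single, alR_smul]
    congr 1
    match w with
    | [] => show (0 : X.R 1) = X.alR 0 0 _; rw [← alRb_apply, map_zero]; rfl
    | [m] => rfl
    | m :: m' :: w =>
      show X.alR 0 (φ m.1) (0 : X.R 0) = X.alR 0 0 _
      rw [map_zero, ← alRb_apply, map_zero]; rfl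

theorem alR_pt_eq_zero (h : X.H)
    (h0 : X.alR 0 h (Submodule.Quotient.mk X.pt) = 0) : ∃ r : F2, h = r • X.one := by
  rw [alR_mk, Submodule.Quotient.mk_eq_zero] at h0
  have h1 : X.al 0 h X.pt ∈ ⨆ i : Fin (0 + 1), LinearMap.range (X.dgn 0 i) := h0
  have h2 : ∃ y : X.M 0, X.al 0 h X.pt = X.al 0 X.one y := by
    refine Submodule.iSup_induction (motive := fun z => ∃ y : X.M 0, z = X.al 0 X.one y) _ h1
      ?_ ?_ ?_
    · rintro i _ ⟨y, rfl⟩
      have : i = 0 := Fin.ext (by omega)
      subst this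
      exact ⟨y, X.dgn_zero 0 y⟩
    · exact ⟨0, by rw [map_zero]⟩
    · rintro x y ⟨x', rfl⟩ ⟨y', rfl⟩
      exact ⟨x' + y', by rw [map_add]⟩
  obtain ⟨y, hy⟩ := h2
  obtain ⟨r, rfl⟩ := X.pt_span y
  refine ⟨r, ?_⟩
  rw [← sub_eq_zero, ← Module.forall_dual_apply_eq_zero_iff F2]
  intro f
  have h3 : X.al 0 (h - r • X.one) X.pt = 0 := by
    rw [map_sub, LinearMap.sub_apply, hy, map_smul, map_smul, LinearMap.smul_apply, sub_self]
  have h4 := congrArg (X.con 0 f) h3
  rw [con_al, map_zero] at h4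
  rcases smul_eq_zero.mp h4 with h5 | h5
  · exact h5
  · exact absurd h5 X.pt_ne

/-- monomials of weight `< t` (including `1`) are linearly independent -/
theorem indep (hdeg : ∀ i, 1 ≤ deg i) (hφ : X.Mult φ) (hgr : ∀ m, φ m ∈ X.hgr (Bar334.wt1 deg m))
    (t : ℕ) (H1 : ∀ s, 1 ≤ s → s < t → ∀ b ∈ Bar334.Wd deg 1 s, X.Wp φ 1 b = 0 → b = 0) :
    LinearIndependent F2 (fun m : {m : ι →₀ ℕ // Bar334.wt1 deg m < t} => φ m.1) := by
  classical
  rw [linearIndependent_iff]
  intro c hc
  -- homogeneous components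
  let C : ℕ →₀ X.H := c.sum fun m r => single (Bar334.wt1 deg m.1) (r • φ m.1)
  have hC1 : ∀ n, C n ∈ X.hgr n := by
    intro n
    show (c.sum fun m r => single (Bar334.wt1 deg m.1) (r • φ m.1)) n ∈ _
    rw [Finsupp.sum, Finsupp.finsetSum_apply]
    refine Submodule.sum_mem _ fun m _ => ?_
    rw [Finsupp.single_apply]
    split_ifs with h
    · rw [← h]; exact Submodule.smul_mem _ _ (hgr _)
    · exact Submodule.zero_mem _
  have hC2 : (C.sum fun _ y => y) = 0 := by
    show ((c.sum fun m r => single (Bar334.wt1 deg m.1) (r • φ m.1)).sum fun _ y => y) = 0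
    rw [Finsupp.sum_sum_index (fun _ => rfl) (fun _ _ _ => rfl)]
    rw [Finsupp.linearCombination_apply] at hc
    rw [← hc]
    refine Finsupp.sum_congr fun m _ => ?_
    rw [Finsupp.sum_single_index rfl]
  have hC0 : C = 0 := X.hgr_ind C hC1 hC2
  ext ⟨m, hm⟩
  rw [Finsupp.zero_apply]
  have hCs : ∀ s, (∑ x ∈ c.support with Bar334.wt1 deg x.1 = s, c x • φ x.1) = 0 := by
    intro s
    have := DFunLike.congr_fun hC0 s
    rw [Finsupp.zero_apply] at this
    rw [← this]
    show _ = (c.sum fun m r => single (Bar334.wt1 deg m.1) (r • φ m.1)) s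
    rw [Finsupp.sum, Finsupp.finsetSum_apply, Finset.sum_filter]
    refine Finset.sum_congr rfl fun x _ => ?_
    rw [Finsupp.single_apply]
  by_contra hcm
  by_cases h0 : m = 0
  · subst h0
    have hw0 : Bar334.wt1 deg (0 : ι →₀ ℕ) = 0 := by simp [Bar334.wt1]
    have h1 := hCs 0
    rw [Finset.sum_eq_single ⟨0, hm⟩] at h1
    · rw [hφ.zero] at h1
      rcases smul_eq_zero.mp h1 with h2 | h2
      · exact hcm h2
      · have := X.eps_one
        rw [h2, map_zero] at this
        exact zero_ne_one this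
    · rintro ⟨x, hx⟩ hxs hne
      exfalso
      apply hne
      rw [Finset.mem_filter] at hxs
      apply Subtype.ext
      exact wt1_eq_zero deg hdeg x hxs.2
    · intro h
      exfalso
      apply h
      rw [Finset.mem_filter]
      exact ⟨Finsupp.mem_support_iff.mpr hcm, hw0⟩
  · set s := Bar334.wt1 deg m with hs
    have hs1 : 1 ≤ s := length_le_wt deg hdeg ⟨m, h0⟩
    let F : Finset {m : ι →₀ ℕ // Bar334.wt1 deg m < t} := {x ∈ c.support | Bar334.wt1 deg x.1 = s}
    have hne : ∀ x ∈ F, x.1 ≠ 0 := by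
      intro x hx h
      rw [Finset.mem_filter] at hx
      have := hx.2
      rw [h] at this
      simp only [Bar334.wt1, Finsupp.sum_zero_index] at this
      omega
    let b : Bar334.Bar ι := ∑ x ∈ F.attach, c x.1 • single [(⟨x.1.1, hne x.1 x.2⟩ : Bar334.NMon ι)] 1
    have hb1 : b ∈ Bar334.Wd deg 1 s := by
      refine Submodule.sum_mem _ fun x _ => Submodule.smul_mem _ _ ?_
      refine Finsupp.single_mem_supported _ _ ?_
      refine ⟨rfl, ?_⟩
      have h2 : x.1 ∈ F := x.2
      rw [Finset.mem_filter] at h2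
      simp [Bar334.wt, h2.2]
    have hb2 : X.Wp φ 1 b = 0 := by
      rw [Wp_one]
      have : X.Phi φ b = 0 := by
        rw [← hCs s]
        show X.Phi φ (∑ x ∈ F.attach, _) = _
        rw [map_sum, ← Finset.sum_attach F]
        refine Finset.sum_congr rfl fun x _ => ?_
        rw [map_smul, Phi, Finsupp.linearCombination_single, one_smul]
        rfl
      rw [this, ← alRb_apply, map_zero]; rfl
    have hb0 := H1 s hs1 hm b hb1 hb2
    apply hcm
    have h3 := DFunLike.congr_fun hb0 [(⟨m, h0⟩ : Bar334.NMon ι)]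
    rw [Finsupp.zero_apply] at h3
    rw [← h3]
    show _ = (∑ x ∈ F.attach, c x.1 • single [(⟨x.1.1, hne x.1 x.2⟩ : Bar334.NMon ι)] (1 : F2)) _
    have hmF : (⟨m, hm⟩ : {m : ι →₀ ℕ // Bar334.wt1 deg m < t}) ∈ F := by
      rw [Finset.mem_filter]
      exact ⟨Finsupp.mem_support_iff.mpr hcm, rfl⟩
    rw [Finsupp.finsetSum_apply, Finset.sum_eq_single ⟨⟨m, hm⟩, hmF⟩]
    · rw [Finsupp.smul_apply, Finsupp.single_eq_same, smul_eq_mul, _root_.mul_one]
    · intro x _ hx
      rw [Finsupp.smul_apply, Finsupp.single_eq_of_ne, smul_zero]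
      intro h
      apply hx
      apply Subtype.ext
      apply Subtype.ext
      simp only [List.cons.injEq, Subtype.mk.injEq, and_true] at h
      exact h.symm
    · intro h; exact absurd (Finset.mem_attach _ _) h

/-- `(β, b) ↦ Σ β[m] · (m :: b)` -/
def JW (b : Bar334.Bar ι) : List (Bar334.NMon ι) → Bar334.Bar ι
  | [m] => Koszul459.consL m b
  | _ => 0

/-- `(β, b) ↦ Σ β[m] · (m :: b)` -/
def J (b : Bar334.Bar ι) : Bar334.Bar ι →ₗ[F2] Bar334.Bar ι := Finsupp.linearCombination F2 (JW b)

theorem Wp_J (P : ℕ) (b β : Bar334.Bar ι) :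
    X.Wp φ (P + 1) (J b β) = X.alR P (X.Phi φ β) (X.Wp φ P b) := by
  induction β using Finsupp.induction_linear with
  | zero => rw [map_zero, map_zero, map_zero, ← alRb_apply, map_zero]; rfl
  | add f g hf hg => rw [map_add, map_add, map_add, hf, hg, alR_add]
  | single w r =>
    rw [J, Phi, Finsupp.linearCombination_single, Finsupp.linearCombination_single, map_smul,
      alR_smul]
    congr 1
    match w with
    | [] => show X.Wp φ (P + 1) 0 = X.alR P 0 _; rw [map_zero, ← alRb_apply, map_zero]; rfl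
    | [m] => exact X.Wp_consL φ P m b
    | m :: m' :: w =>
      show X.Wp φ (P + 1) 0 = X.alR P 0 _; rw [map_zero, ← alRb_apply, map_zero]; rfl

theorem consL_mem_Wd {P j : ℕ} (m : Bar334.NMon ι) {b : Bar334.Bar ι} (hb : b ∈ Bar334.Wd deg P j) :
    Koszul459.consL m b ∈ Bar334.Wd deg (P + 1) (Bar334.wt1 deg m.1 + j) := by
  refine Koszul459.map_supp (Koszul459.consL m) ?_ hb
  rintro w ⟨h1, h2⟩
  rw [Koszul459.consL_single]
  refine Koszul459.single_supp ?_ _
  refine ⟨by simp [h1], ?_⟩
  rw [← h2]; simp [Bar334.wt]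

theorem J_mem_Wd {P i j : ℕ} {b β : Bar334.Bar ι} (hb : b ∈ Bar334.Wd deg P j)
    (hβ : β ∈ Bar334.Wd deg 1 i) : J b β ∈ Bar334.Wd deg (P + 1) (i + j) := by
  refine Koszul459.map_supp (J b) ?_ hβ
  rintro w ⟨h1, h2⟩
  obtain ⟨m, rfl⟩ := List.length_eq_one_iff.mp h1
  rw [J, Finsupp.linearCombination_single, one_smul]
  have : Bar334.wt1 deg m.1 = i := by rw [← h2]; simp [Bar334.wt]
  rw [← this]
  exact consL_mem_Wd deg m hb

/-- **Kuenneth in a range** -/
theorem kun (hdeg : ∀ i, 1 ≤ deg i) (hφ : X.Mult φ) (hgr : ∀ m, φ m ∈ X.hgr (Bar334.wt1 deg m))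
    (t : ℕ) (H1 : ∀ s, 1 ≤ s → s < t → (∀ b ∈ Bar334.Wd deg 1 s, X.Wp φ 1 b = 0 → b = 0) ∧
      (∀ y ∈ X.Rgr 1 s, ∃ b ∈ Bar334.Wd deg 1 s, y = X.Wp φ 1 b)) :
    ∀ P q, q + 2 ≤ t + P → (∀ b ∈ Bar334.Wd deg P q, X.Wp φ P b = 0 → b = 0) ∧
      (∀ y ∈ X.Rgr P q, ∃ b ∈ Bar334.Wd deg P q, y = X.Wp φ P b) := by
  classical
  have hli := X.indep deg hdeg hφ hgr t (fun s h1 h2 => (H1 s h1 h2).1)
  obtain ⟨g, hg⟩ := LinearMap.exists_extend hli.repr
  have hg' : ∀ (m : ι →₀ ℕ) (hm : Bar334.wt1 deg m < t), g (φ m) = single ⟨m, hm⟩ 1 := by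
    intro m hm
    have h1 : φ m ∈ Submodule.span F2 (Set.range
        (fun m : {m : ι →₀ ℕ // Bar334.wt1 deg m < t} => φ m.1)) :=
      Submodule.subset_span ⟨⟨m, hm⟩, rfl⟩
    have h2 := LinearMap.congr_fun hg ⟨φ m, h1⟩
    rw [LinearMap.comp_apply, Submodule.subtype_apply] at h2
    rw [h2]
    exact hli.repr_eq_single ⟨m, hm⟩ ⟨φ m, h1⟩ rfl
  intro P
  induction P with
  | zero =>
    intro q _
    constructor
    · intro b hb h0
      have hb' : ∀ w, b w ≠ 0 → w = [] := fun w hw =>
        List.eq_nil_of_length_eq_zero (hb (Finsupp.mem_support_iff.mpr hw)).1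
      have hb2 : b = single [] (b []) := by
        ext w
        by_cases hw : w = []
        · subst hw; simp
        · rw [Finsupp.single_eq_of_ne hw]
          by_contra h; exact hw (hb' w h)
      rw [hb2, Wp_single] at h0
      rcases smul_eq_zero.mp h0 with h | h
      · rw [hb2, h, Finsupp.single_zero]
      · exfalso
        have h' : (Submodule.Quotient.mk X.pt : X.R 0) = 0 := h
        rw [Submodule.Quotient.mk_eq_zero] at h'
        exact X.pt_ne h'
    · rintro _ ⟨x, hx, rfl⟩
      obtain ⟨r, rfl⟩ := X.pt_span x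
      by_cases hq : q = 0
      · subst hq
        refine ⟨single [] r, ?_, ?_⟩
        · refine Finsupp.single_mem_supported _ _ ?_
          exact ⟨rfl, rfl⟩
        · rw [Wp_single]; rfl
      · refine ⟨0, Submodule.zero_mem _, ?_⟩
        have h1 : (single q (r • X.pt) + single 0 (r • X.pt) : ℕ →₀ X.M 0) = 0 := by
          refine X.gr_ind 0 _ ?_ ?_
          · intro n
            rw [Finsupp.add_apply, Finsupp.single_apply, Finsupp.single_apply]
            refine Submodule.add_mem _ ?_ ?_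
            · split_ifs with h
              · rw [← h]; exact hx
              · exact Submodule.zero_mem _
            · split_ifs with h
              · rw [← h]; exact Submodule.smul_mem _ _ X.pt_mem
              · exact Submodule.zero_mem _
          · rw [Finsupp.sum_add_index' (fun _ => rfl) (fun _ _ _ => rfl),
              Finsupp.sum_single_index rfl, Finsupp.sum_single_index rfl, char2]
        have h2 := DFunLike.congr_fun h1 q
        rw [Finsupp.add_apply, Finsupp.single_eq_same, Finsupp.single_eq_of_ne hq, add_zero,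
          Finsupp.zero_apply] at h2
        rw [h2, map_zero, map_zero]
  | succ P ih =>
    intro q hq
    constructor
    · intro b hb h0
      have hbs : ∀ w, b w ≠ 0 → w.length = P + 1 ∧ Bar334.wt deg w = q :=
        fun w hw => hb (Finsupp.mem_support_iff.mpr hw)
      ext w
      rw [Finsupp.zero_apply]
      by_contra hw
      obtain ⟨hw1, hw2⟩ := hbs w hw
      match w, hw, hw1, hw2 with
      | m :: w, hw, hw1, hw2 =>
        have hwt : Bar334.wt deg (m :: w) = Bar334.wt1 deg m.1 + Bar334.wt deg w := by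
          simp [Bar334.wt]
        have hm1 := length_le_wt deg hdeg m
        have hw3 := length_le_wt' deg hdeg w
        simp only [List.length_cons, Nat.add_right_cancel_iff] at hw1
        have hmt : Bar334.wt1 deg m.1 < t := by omega
        let f : X.H →ₗ[F2] F2 := (Finsupp.lapply ⟨m.1, hmt⟩) ∘ₗ g
        have hf1 : f X.one = 0 := by
          have h0t : Bar334.wt1 deg (0 : ι →₀ ℕ) < t := by simp only [Bar334.wt1, Finsupp.sum_zero_index]; omega
          show (g X.one) ⟨m.1, hmt⟩ = 0
          rw [← hφ.zero, hg' 0 h0t, Finsupp.single_eq_of_ne]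
          intro h
          exact m.2 (congrArg Subtype.val h)
        -- the key identity
        have key : ∀ x ∈ Finsupp.supported F2 F2 {w : List (Bar334.NMon ι) |
            ∃ m' w', w = m' :: w' ∧ Bar334.wt1 deg m'.1 < t},
            X.conR P f hf1 (X.Wp φ (P + 1) x) =
              X.Wp φ P ((Finsupp.lcomapDomain (List.cons m) List.cons_injective :
                Bar334.Bar ι →ₗ[F2] Bar334.Bar ι) x) := by
          intro x hx
          let A1 : Bar334.Bar ι →ₗ[F2] X.R P := X.conR P f hf1 ∘ₗ X.Wp φ (P + 1)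
          let A2 : Bar334.Bar ι →ₗ[F2] X.R P :=
            X.Wp φ P ∘ₗ (Finsupp.lcomapDomain (List.cons m) List.cons_injective :
              Bar334.Bar ι →ₗ[F2] Bar334.Bar ι)
          refine Koszul459.eq_on_supp A1 A2 ?_ hx
          rintro _ ⟨m', w', rfl, hm'⟩
          show X.conR P f hf1 (X.Wp φ (P + 1) (single (m' :: w') 1)) =
            X.Wp φ P ((Finsupp.lcomapDomain (List.cons m) List.cons_injective :
                Bar334.Bar ι →ₗ[F2] Bar334.Bar ι) (single (m' :: w') (1 : F2)))
          rw [Wp_single, one_smul]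
          show X.conR P f hf1 (X.alR P (φ m'.1) (X.ww φ P w')) = _
          rw [conR_alR]
          show (g (φ m'.1)) ⟨m.1, hmt⟩ • _ = _
          rw [hg' _ hm']
          by_cases hmm : m' = m
          · subst hmm
            rw [Finsupp.single_eq_same, one_smul]
            have : (Finsupp.lcomapDomain (List.cons m') List.cons_injective :
                Bar334.Bar ι →ₗ[F2] Bar334.Bar ι)
                (single (m' :: w') (1 : F2)) = single w' 1 := by
              ext u
              show (single (m' :: w') (1 : F2)) (m' :: u) = _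
              rw [Finsupp.single_apply, Finsupp.single_apply]
              simp
            rw [this, Wp_single, one_smul]
          · rw [Finsupp.single_eq_of_ne, zero_smul]
            · have : (Finsupp.lcomapDomain (List.cons m) List.cons_injective :
                  Bar334.Bar ι →ₗ[F2] Bar334.Bar ι)
                  (single (m' :: w') (1 : F2)) = 0 := by
                ext u
                show (single (m' :: w') (1 : F2)) (m :: u) = 0
                rw [Finsupp.single_apply, if_neg]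
                simp [hmm]
              rw [this, map_zero]
            · intro h
              apply hmm
              apply Subtype.ext
              exact (congrArg Subtype.val h).symm
        have hbx : b ∈ Finsupp.supported F2 F2 {w : List (Bar334.NMon ι) |
            ∃ m' w', w = m' :: w' ∧ Bar334.wt1 deg m'.1 < t} := by
          intro u hu
          obtain ⟨hu1, hu2⟩ := hbs u (Finsupp.mem_support_iff.mp hu)
          match u, hu1, hu2 with
          | m' :: w', hu1, hu2 =>
            refine ⟨m', w', rfl, ?_⟩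
            have h1 : Bar334.wt deg (m' :: w') = Bar334.wt1 deg m'.1 + Bar334.wt deg w' := by
              simp [Bar334.wt]
            have h2 := length_le_wt' deg hdeg w'
            simp only [List.length_cons, Nat.add_right_cancel_iff] at hu1
            omega
        have h1 := key b hbx
        rw [h0, map_zero] at h1
        have h2 : (Finsupp.lcomapDomain (List.cons m) List.cons_injective :
            Bar334.Bar ι →ₗ[F2] Bar334.Bar ι) b ∈
            Bar334.Wd deg P (q - Bar334.wt1 deg m.1) := by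
          intro u hu
          rw [Finset.mem_coe, Finsupp.mem_support_iff] at hu
          have hu' : b (m :: u) ≠ 0 := hu
          obtain ⟨hu1, hu2⟩ := hbs _ hu'
          have h3 : Bar334.wt deg (m :: u) = Bar334.wt1 deg m.1 + Bar334.wt deg u := by
            simp [Bar334.wt]
          refine ⟨by simpa using hu1, ?_⟩
          omega
        have h3 := (ih (q - Bar334.wt1 deg m.1) (by omega)).1 _ h2 h1.symm
        have h4 := DFunLike.congr_fun h3 w
        exact hw h4
    · rintro _ ⟨x, hx, rfl⟩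
      refine Submodule.span_induction
        (p := fun x _ => ∃ b ∈ Bar334.Wd deg (P + 1) q, Submodule.mkQ (X.Dg (P + 1)) x = X.Wp φ (P + 1) b)
        ?_ ?_ ?_ ?_ (X.gr_al_span P q x hx)
      · rintro _ ⟨i, j, hij, a, ha, b, hb, rfl⟩
        rcases Nat.eq_zero_or_pos i with rfl | hi
        · refine ⟨0, Submodule.zero_mem _, ?_⟩
          obtain ⟨r, rfl⟩ := X.hgr_zero a ha
          rw [map_zero]
          show Submodule.Quotient.mk (X.al P (r • X.one) b) = 0
          rw [← alR_mk, alR_smul, alR_one, smul_zero]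
        · by_cases hit : i < t
          · obtain ⟨β, hβ, hβ2⟩ := (H1 i hi hit).2 (X.alR 0 a (Submodule.Quotient.mk X.pt))
              ⟨X.al 0 a X.pt, by simpa using X.al_gr 0 i 0 a ha X.pt X.pt_mem, rfl⟩
            obtain ⟨b', hb', hbb'⟩ := (ih j (by omega)).2 (Submodule.Quotient.mk b) ⟨b, hb, rfl⟩
            refine ⟨J b' β, hij ▸ J_mem_Wd deg hb' hβ, ?_⟩
            rw [Wp_J, ← hbb']
            show Submodule.Quotient.mk (X.al P a b) = _
            rw [← alR_mk]
            rw [Wp_one] at hβ2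
            have h5 : X.alR 0 (a + X.Phi φ β) (Submodule.Quotient.mk X.pt) = 0 := by
              rw [alR_add, hβ2, char2]
            obtain ⟨r, hr⟩ := X.alR_pt_eq_zero _ h5
            have h6 : a = X.Phi φ β + r • X.one := by
              rw [← hr, ← add_assoc, add_comm (X.Phi φ β) a, add_assoc, char2, add_zero]
            rw [h6, alR_add, alR_smul, alR_one, smul_zero, add_zero]
          · refine ⟨0, Submodule.zero_mem _, ?_⟩
            rw [map_zero]
            show Submodule.Quotient.mk (X.al P a b) = 0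
            rw [← alR_mk]
            have : (Submodule.Quotient.mk b : X.R P) = 0 :=
              X.Rgr_low P j (by omega) _ ⟨b, hb, rfl⟩
            rw [this, map_zero]
      · exact ⟨0, Submodule.zero_mem _, by rw [map_zero, map_zero]⟩
      · rintro x y _ _ ⟨b, hb, hbx⟩ ⟨c, hc, hcy⟩
        exact ⟨b + c, Submodule.add_mem _ hb hc, by rw [map_add, map_add, hbx, hcy]⟩
      · rintro r x _ ⟨b, hb, hbx⟩
        exact ⟨r • b, Submodule.smul_mem _ _ hb, by rw [map_smul, map_smul, hbx]⟩

end range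

end BarMod

end Crest.Agent.R204.E1_459
end
private theorem rz_307b24b376 : type_of% @_root_.Crest.Agent.R204.E1_459.BarMod.ww.eq_def := @_root_.Crest.Agent.R204.E1_459.BarMod.ww.eq_def -- L302
private theorem rz_89b998a91c : type_of% @_root_.Crest.Agent.R204.E1_459.BarMod.ww.eq_1 := @_root_.Crest.Agent.R204.E1_459.BarMod.ww.eq_1 -- L302
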