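import Crest.Agent.R204.Defs
import Crest.Agent.R204.Spec_114

-- ▼ part R204/Ind_979
section

/-!
# Row 204, leaf B7a: the algebra of the induction `R(k)` (range form, section 02b)
owner helper979

* `RB gr e deg N` : the family `e : β → H` with degrees `deg` is linearly independent in degrees `≤ N`
  and spans in degrees `≤ N + 1`.
* `PolyR gr y d N` : the monomials in the `y i` have this property.
* `SimR gr z d N` : the products of distinct `z i` have this property.
* `polyR_iff_simR` : monomials in the `y i` = products of distinct elements `y i ^ 2 ^ b`.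
* words: `Word`, `wv` (value), `wd` (degree).
-/

set_option autoImplicit false
set_option linter.unusedSectionVars false

namespace Crest.Agent.R204.Ind979

open Finsupp

section general

variable {H : Type*} [CommRing H] [Algebra F2 H]

/-- linearly independent in degrees `≤ N`, spanning in degrees `≤ N + 1` -/
def RB (gr : ℕ → Submodule F2 H) {β : Type*} (e : β → H) (deg : β → ℕ) (N : ℕ) : Prop :=
  (∀ t ≤ N, LinearIndependent F2 (fun b : {b : β // deg b = t} => e b)) ∧
  (∀ t ≤ N + 1, gr t ≤ Submodule.span F2 (e '' {b | deg b = t}))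

/-- reindexing along a partial bijection (bijection in the degrees `≤ N + 1`) -/
theorem RB.reindex_iff {gr : ℕ → Submodule F2 H} {β γ : Type*} {e : β → H} {deg : β → ℕ} {e' : γ → H}
    {deg' : γ → ℕ} {N : ℕ} (f : β → γ)
    (hf : Set.BijOn f {b | deg b ≤ N + 1} {c | deg' c ≤ N + 1})
    (hd : ∀ b, deg b ≤ N + 1 → deg' (f b) = deg b) (he : ∀ b, deg b ≤ N + 1 → e' (f b) = e b) :
    RB gr e deg N ↔ RB gr e' deg' N := by
  have hdt : ∀ t ≤ N + 1, ∀ b : {b : β // deg b = t}, deg' (f b) = t := fun t ht b => by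
    have := b.2
    rw [hd b (by omega), this]
  have hB : ∀ (t : ℕ) (ht : t ≤ N + 1), Function.Bijective
      (fun b : {b : β // deg b = t} => (⟨f b, hdt t ht b⟩ : {c : γ // deg' c = t})) := by
    intro t ht
    constructor
    · intro b b' hbb
      have h1 : deg b.1 ≤ N + 1 := by have := b.2; omega
      have h2 : deg b'.1 ≤ N + 1 := by have := b'.2; omega
      simp only [Subtype.mk.injEq] at hbb
      exact Subtype.ext (hf.injOn h1 h2 hbb)
    · rintro ⟨c, hc⟩
      obtain ⟨b, hb, rfl⟩ := hf.surjOn (show c ∈ {c | deg' c ≤ N + 1} by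
        simp only [Set.mem_ofPred_eq]; omega)
      simp only [Set.mem_ofPred_eq] at hb
      exact ⟨⟨b, by rw [← hc, hd b hb]⟩, rfl⟩
  refine and_congr ?_ ?_
  · refine forall₂_congr fun t ht => ?_
    refine linearIndependent_equiv' (Equiv.ofBijective _ (hB t (by omega))) ?_
    funext b
    have h1 : deg b.1 ≤ N + 1 := by have := b.2; omega
    exact he b h1
  · refine forall₂_congr fun t ht => ?_
    have : e '' {b | deg b = t} = e' '' {c | deg' c = t} := by
      ext x
      constructor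
      · rintro ⟨b, hb, rfl⟩
        simp only [Set.mem_ofPred_eq] at hb
        exact ⟨f b, by simp only [Set.mem_ofPred_eq]; rw [hd b (by omega), hb], he b (by omega)⟩
      · rintro ⟨c, hc, rfl⟩
        simp only [Set.mem_ofPred_eq] at hc
        obtain ⟨b, hb, rfl⟩ := hf.surjOn (show c ∈ {c | deg' c ≤ N + 1} by
          simp only [Set.mem_ofPred_eq]; omega)
        exact ⟨b, by simp only [Set.mem_ofPred_eq]; rw [← hc, hd b hb], (he b hb).symm⟩
    rw [this]

theorem RB.reindex {gr : ℕ → Submodule F2 H} {β γ : Type*} {e : β → H} {deg : β → ℕ} {e' : γ → H}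
    {deg' : γ → ℕ} {N : ℕ} (f : β → γ)
    (hf : Set.BijOn f {b | deg b ≤ N + 1} {c | deg' c ≤ N + 1})
    (hd : ∀ b, deg b ≤ N + 1 → deg' (f b) = deg b) (he : ∀ b, deg b ≤ N + 1 → e' (f b) = e b)
    (h : RB gr e' deg' N) : RB gr e deg N := (RB.reindex_iff f hf hd he).2 h

theorem RB.mono {gr : ℕ → Submodule F2 H} {β : Type*} {e : β → H} {deg : β → ℕ} {N N' : ℕ}
    (h : RB gr e deg N) (hN : N' ≤ N) : RB gr e deg N' :=
  ⟨fun t ht => h.1 t (by omega), fun t ht => h.2 t (by omega)⟩

/-- value of the monomial `m` -/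
noncomputable def mval {ι : Type*} (y : ι → H) (m : ι →₀ ℕ) : H := m.prod (fun i n => y i ^ n)

/-- value of the product of the elements of `S` -/
noncomputable def sval {κ : Type*} (z : κ → H) (S : Finset κ) : H := ∏ k ∈ S, z k

/-- degree of a set -/
def sdeg {κ : Type*} (d : κ → ℕ) (S : Finset κ) : ℕ := ∑ k ∈ S, d k

/-- degree of a monomial -/
noncomputable def mdeg {ι : Type*} (d : ι → ℕ) (m : ι →₀ ℕ) : ℕ := m.sum (fun i n => n * d i)

theorem mdeg_eq_weight {ι : Type*} (d : ι → ℕ) (m : ι →₀ ℕ) : mdeg d m = Finsupp.weight d m := by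
  rw [Finsupp.weight_apply]; rfl

/-- polynomial generators in a range -/
def PolyR (gr : ℕ → Submodule F2 H) {ι : Type*} (y : ι → H) (d : ι → ℕ) (N : ℕ) : Prop :=
  RB gr (mval y) (mdeg d) N

/-- simple system of generators in a range -/
def SimR (gr : ℕ → Submodule F2 H) {κ : Type*} (z : κ → H) (d : κ → ℕ) (N : ℕ) : Prop :=
  RB gr (sval z) (sdeg d) N

/-! ### exponents from sets of 2-powers -/

section toM

variable {ι : Type*}

/-- exponent of a product of distinct `y i ^ 2 ^ b` -/
noncomputable def toM (S : Finset (ι × ℕ)) : ι →₀ ℕ := ∑ k ∈ S, Finsupp.single k.1 (2 ^ k.2)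

open Classical in
theorem toM_apply (S : Finset (ι × ℕ)) (i : ι) :
    toM S i = ∑ b ∈ (S.filter (fun k => k.1 = i)).image Prod.snd, 2 ^ b := by
  rw [toM, Finsupp.finsetSum_apply, Finset.sum_image, Finset.sum_filter]
  · refine Finset.sum_congr rfl fun k _ => ?_
    rw [Finsupp.single_apply]
  · intro a ha b hb hab
    simp only [Finset.coe_filter, Set.mem_ofPred_eq] at ha hb
    exact Prod.ext (ha.2.trans hb.2.symm) hab

theorem toM_bijective : Function.Bijective (toM (ι := ι)) := by
  classical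
  constructor
  · intro S T h
    ext ⟨i, b⟩
    have h1 := DFunLike.congr_fun h i
    rw [toM_apply, toM_apply] at h1
    have h2 := Finset.geomSum_injective (le_refl 2) h1
    have h3 := Finset.ext_iff.1 h2 b
    simp only [Finset.mem_image, Finset.mem_filter] at h3
    constructor
    · intro hS
      obtain ⟨⟨i', b'⟩, ⟨h4, h5⟩, h6⟩ := h3.1 ⟨(i, b), ⟨hS, rfl⟩, rfl⟩
      dsimp only at h5 h6
      rw [← h5, ← h6]; exact h4
    · intro hT
      obtain ⟨⟨i', b'⟩, ⟨h4, h5⟩, h6⟩ := h3.2 ⟨(i, b), ⟨hT, rfl⟩, rfl⟩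
      dsimp only at h5 h6
      rw [← h5, ← h6]; exact h4
  · intro m
    refine ⟨m.support.biUnion (fun i => (Finset.equivBitIndices (m i)).map ⟨fun b => (i, b), fun a b h => (Prod.ext_iff.1 h).2⟩), ?_⟩
    ext i
    rw [toM_apply]
    have : ((m.support.biUnion (fun i => (Finset.equivBitIndices (m i)).map
        ⟨fun b => (i, b), fun a b h => (Prod.ext_iff.1 h).2⟩)).filter (fun k => k.1 = i)).image Prod.snd =
        Finset.equivBitIndices (m i) := by
      ext b
      simp only [Finset.mem_image, Finset.mem_filter, Finset.mem_biUnion, Finset.mem_map]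
      constructor
      · rintro ⟨⟨i', b'⟩, ⟨⟨i'', h1, b'', h2, h3⟩, h5⟩, h6⟩
        change (i'', b'') = (i', b') at h3
        change i' = i at h5
        change b' = b at h6
        have h7 : i'' = i' := congrArg Prod.fst h3
        have h8 : b'' = b' := congrArg Prod.snd h3
        subst h6 h5 h8 h7
        exact h2
      · intro hb
        refine ⟨(i, b), ⟨⟨i, ?_, b, hb, rfl⟩, rfl⟩, rfl⟩
        rw [Finsupp.mem_support_iff]
        intro h0
        rw [h0] at hb
        exact absurd hb (by simp [Finset.equivBitIndices])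
    rw [this]
    have h := Finset.equivBitIndices.symm_apply_apply (m i)
    rwa [Finset.equivBitIndices_symm_apply] at h

theorem mval_add (y : ι → H) (m m' : ι →₀ ℕ) : mval y (m + m') = mval y m * mval y m' :=
  Finsupp.prod_add_index' (fun _ => pow_zero _) (fun _ _ _ => pow_add _ _ _)

theorem mval_zero (y : ι → H) : mval y (0 : ι →₀ ℕ) = 1 := Finsupp.prod_zero_index

theorem mval_single (y : ι → H) (i : ι) (n : ℕ) : mval y (Finsupp.single i n) = y i ^ n :=
  Finsupp.prod_single_index (pow_zero _)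

theorem mval_sum (y : ι → H) {κ : Type*} (S : Finset κ) (f : κ → (ι →₀ ℕ)) :
    mval y (∑ k ∈ S, f k) = ∏ k ∈ S, mval y (f k) := by
  classical
  induction S using Finset.induction_on with
  | empty => simp [mval_zero]
  | insert a s ha ih => rw [Finset.sum_insert ha, Finset.prod_insert ha, mval_add, ih]

theorem mdeg_add (d : ι → ℕ) (m m' : ι →₀ ℕ) : mdeg d (m + m') = mdeg d m + mdeg d m' :=
  Finsupp.sum_add_index' (fun _ => zero_mul _) (fun _ _ _ => add_mul _ _ _)

theorem mdeg_zero (d : ι → ℕ) : mdeg d (0 : ι →₀ ℕ) = 0 := Finsupp.sum_zero_index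

theorem mdeg_single (d : ι → ℕ) (i : ι) (n : ℕ) : mdeg d (Finsupp.single i n) = n * d i :=
  Finsupp.sum_single_index (zero_mul _)

theorem mdeg_sum (d : ι → ℕ) {κ : Type*} (S : Finset κ) (f : κ → (ι →₀ ℕ)) :
    mdeg d (∑ k ∈ S, f k) = ∑ k ∈ S, mdeg d (f k) := by
  classical
  induction S using Finset.induction_on with
  | empty => simp [mdeg_zero]
  | insert a s ha ih => rw [Finset.sum_insert ha, Finset.sum_insert ha, mdeg_add, ih]

/-- the simple system `y i ^ 2 ^ b` -/
def dbl (y : ι → H) (k : ι × ℕ) : H := y k.1 ^ 2 ^ k.2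

/-- its degrees -/
def dbd (d : ι → ℕ) (k : ι × ℕ) : ℕ := 2 ^ k.2 * d k.1

theorem mval_toM (y : ι → H) (S : Finset (ι × ℕ)) : mval y (toM S) = sval (dbl y) S := by
  rw [toM, mval_sum, sval]
  exact Finset.prod_congr rfl fun k _ => mval_single y k.1 _

theorem mdeg_toM (d : ι → ℕ) (S : Finset (ι × ℕ)) : mdeg d (toM S) = sdeg (dbd d) S := by
  rw [toM, mdeg_sum, sdeg]
  exact Finset.sum_congr rfl fun k _ => mdeg_single d k.1 _

end toM

/-- **monomials in the `y i` are the products of distinct `y i ^ 2 ^ b`** -/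
theorem polyR_iff_simR {ι : Type*} (gr : ℕ → Submodule F2 H) (y : ι → H) (d : ι → ℕ) (N : ℕ) :
    PolyR gr y d N ↔ SimR gr (dbl y) (dbd d) N := by
  constructor
  · intro h
    refine RB.reindex (f := toM) ?_ (fun S _ => mdeg_toM d S) (fun S _ => mval_toM y S) h
    refine ⟨fun S hS => ?_, toM_bijective.1.injOn, fun m hm => ?_⟩
    · simp only [Set.mem_ofPred_eq] at hS ⊢
      rwa [mdeg_toM]
    · obtain ⟨S, rfl⟩ := toM_bijective.2 m
      refine ⟨S, ?_, rfl⟩
      simp only [Set.mem_ofPred_eq] at hm ⊢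
      rwa [← mdeg_toM]
  · intro h
    obtain ⟨g, hg⟩ := Function.bijective_iff_has_inverse.1 (toM_bijective (ι := ι))
    have hdg : ∀ m, sdeg (dbd d) (g m) = mdeg d m := fun m => by rw [← mdeg_toM, hg.2]
    refine RB.reindex (f := g) ?_ (fun m _ => hdg m) (fun m _ => by rw [← mval_toM, hg.2]) h
    refine ⟨fun m hm => ?_, hg.2.injective.injOn, fun S hS => ?_⟩
    · simp only [Set.mem_ofPred_eq] at hm ⊢
      rwa [hdg]
    · refine ⟨toM S, ?_, hg.1 S⟩
      simp only [Set.mem_ofPred_eq] at hS ⊢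
      rwa [mdeg_toM]

/-- reindexing of a simple system along a partial bijection -/
theorem SimR.reindex_iff {gr : ℕ → Submodule F2 H} {κ κ' : Type*} {z : κ → H} {d : κ → ℕ} {z' : κ' → H}
    {d' : κ' → ℕ} {N : ℕ} (f : κ → κ')
    (hf : Set.BijOn f {k | d k ≤ N + 1} {k | d' k ≤ N + 1})
    (hd : ∀ k, d k ≤ N + 1 → d' (f k) = d k) (hz : ∀ k, d k ≤ N + 1 → z' (f k) = z k) :
    SimR gr z d N ↔ SimR gr z' d' N := by
  classical
  have hle : ∀ {S : Finset κ}, sdeg d S ≤ N + 1 → ∀ k ∈ S, d k ≤ N + 1 := fun {S} hS k hk =>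
    (Finset.single_le_sum (f := d) (fun _ _ => Nat.zero_le _) hk).trans hS
  have hle' : ∀ {S : Finset κ'}, sdeg d' S ≤ N + 1 → ∀ k ∈ S, d' k ≤ N + 1 := fun {S} hS k hk =>
    (Finset.single_le_sum (f := d') (fun _ _ => Nat.zero_le _) hk).trans hS
  have hinj : ∀ {S : Finset κ}, sdeg d S ≤ N + 1 → Set.InjOn f (S : Set κ) := fun {S} hS =>
    hf.injOn.mono (fun k hk => hle hS k hk)
  have hdeg : ∀ {S : Finset κ}, sdeg d S ≤ N + 1 → sdeg d' (S.image f) = sdeg d S := fun {S} hS => by
    rw [sdeg, Finset.sum_image (fun a ha b hb => hinj hS ha hb), sdeg]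
    exact Finset.sum_congr rfl fun k hk => hd k (hle hS k hk)
  refine RB.reindex_iff (f := fun S => S.image f) ?_ (fun S hS => hdeg hS) (fun S hS => ?_)
  · refine ⟨fun S hS => ?_, fun S hS T hT hST => ?_, fun S' hS' => ?_⟩
    · simp only [Set.mem_ofPred_eq] at hS ⊢
      rwa [hdeg hS]
    · simp only [Set.mem_ofPred_eq] at hS hT hST
      ext k
      constructor
      · intro hk
        have : f k ∈ T.image f := hST ▸ Finset.mem_image_of_mem f hk
        obtain ⟨l, hl, hlk⟩ := Finset.mem_image.1 this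
        rwa [← hf.injOn (hle hT l hl) (hle hS k hk) hlk]
      · intro hk
        have : f k ∈ S.image f := hST ▸ Finset.mem_image_of_mem f hk
        obtain ⟨l, hl, hlk⟩ := Finset.mem_image.1 this
        rwa [← hf.injOn (hle hS l hl) (hle hT k hk) hlk]
    · simp only [Set.mem_ofPred_eq] at hS'
      have hsub : (S' : Set κ') ⊆ f '' {k | d k ≤ N + 1} := fun k hk => hf.surjOn (hle' hS' k hk)
      obtain ⟨S, hS1, hS2, hS3⟩ : ∃ S : Finset κ, (∀ k ∈ S, d k ≤ N + 1) ∧ S.image f = S' ∧ True := by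
        obtain ⟨S, hS, hS2⟩ := Finset.subset_set_image_iff.1 hsub
        exact ⟨S, fun k hk => hS hk, hS2, trivial⟩
      have hinjS : Set.InjOn f (S : Set κ) := hf.injOn.mono (fun k hk => hS1 k hk)
      refine ⟨S, ?_, hS2⟩
      simp only [Set.mem_ofPred_eq]
      rw [← hS2, sdeg, Finset.sum_image (fun a ha b hb => hinjS ha hb)] at hS'
      rwa [sdeg, ← Finset.sum_congr rfl fun k hk => hd k (hS1 k hk)]
  · rw [sval, Finset.prod_image (fun a ha b hb => hinj hS ha hb), sval]
    exact Finset.prod_congr rfl fun k hk => hz k (hle hS k hk)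

/-- reindexing of polynomial generators along a partial bijection -/
theorem PolyR.reindex_iff {gr : ℕ → Submodule F2 H} {ι ι' : Type*} {y : ι → H} {d : ι → ℕ}
    {y' : ι' → H} {d' : ι' → ℕ} {N : ℕ} (f : ι → ι')
    (hf : Set.BijOn f {k | d k ≤ N + 1} {k | d' k ≤ N + 1})
    (hd : ∀ k, d k ≤ N + 1 → d' (f k) = d k) (hy : ∀ k, d k ≤ N + 1 → y' (f k) = y k) :
    PolyR gr y d N ↔ PolyR gr y' d' N := by
  have hle : ∀ {n b : ℕ}, 2 ^ b * n ≤ N + 1 → n ≤ N + 1 := fun {n b} h =>
    (Nat.le_mul_of_pos_left n (by positivity)).trans h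
  rw [polyR_iff_simR, polyR_iff_simR]
  refine SimR.reindex_iff (fun k => (f k.1, k.2)) ?_ ?_ ?_
  · refine ⟨fun k hk => ?_, fun k hk l hl hkl => ?_, fun k hk => ?_⟩
    · simp only [Set.mem_ofPred_eq, dbd] at hk ⊢
      rwa [hd _ (hle hk)]
    · simp only [Set.mem_ofPred_eq, dbd] at hk hl
      simp only [Prod.mk.injEq] at hkl
      exact Prod.ext (hf.injOn (hle hk) (hle hl) hkl.1) hkl.2
    · simp only [Set.mem_ofPred_eq, dbd] at hk
      obtain ⟨i, hi, hik⟩ := hf.surjOn (show k.1 ∈ {k | d' k ≤ N + 1} from hle hk)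
      refine ⟨(i, k.2), ?_, Prod.ext hik rfl⟩
      simp only [Set.mem_ofPred_eq, dbd] at hi ⊢
      rwa [← hd i hi, hik]
  · intro k hk
    simp only [dbd] at hk ⊢
    rw [hd _ (hle hk)]
  · intro k hk
    simp only [dbd] at hk
    simp only [dbl]
    rw [hy _ (hle hk)]

/-- only the generators of degree `≤ N + 1` matter -/
theorem PolyR.subtype_iff {gr : ℕ → Submodule F2 H} {ι : Type*} {y : ι → H} {d : ι → ℕ} {N : ℕ}
    (p : ι → Prop) (hp : ∀ i, d i ≤ N + 1 → p i) :
    PolyR gr (fun i : {i // p i} => y i) (fun i => d i) N ↔ PolyR gr y d N := by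
  refine PolyR.reindex_iff Subtype.val ?_ (fun _ _ => rfl) (fun _ _ => rfl)
  exact ⟨fun i hi => hi, Subtype.val_injective.injOn, fun i hi => ⟨⟨i, hp i hi⟩, hi, rfl⟩⟩

/-- only the elements of degree `≤ N + 1` matter -/
theorem SimR.subtype_iff {gr : ℕ → Submodule F2 H} {ι : Type*} {y : ι → H} {d : ι → ℕ} {N : ℕ}
    (p : ι → Prop) (hp : ∀ i, d i ≤ N + 1 → p i) :
    SimR gr (fun i : {i // p i} => y i) (fun i => d i) N ↔ SimR gr y d N := by
  refine SimR.reindex_iff Subtype.val ?_ (fun _ _ => rfl) (fun _ _ => rfl)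
  exact ⟨fun i hi => hi, Subtype.val_injective.injOn, fun i hi => ⟨⟨i, hp i hi⟩, hi, rfl⟩⟩

/-! ### the `MvPolynomial` form -/

section mvp

variable {ι : Type*}


theorem aeval_eq (y : ι → H) (p : MvPolynomial ι F2) :
    MvPolynomial.aeval y p =
      Finsupp.linearCombination F2 (mval y) ((MvPolynomial.basisMonomials ι F2).repr p) := by
  have key : (MvPolynomial.aeval y).toLinearMap =
      Finsupp.linearCombination F2 (mval y) ∘ₗ
        (MvPolynomial.basisMonomials ι F2).repr.toLinearMap := by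
    refine (MvPolynomial.basisMonomials ι F2).ext fun m => ?_
    rw [LinearMap.comp_apply, LinearEquiv.coe_coe, Module.Basis.repr_self,
      Finsupp.linearCombination_single, one_smul, MvPolynomial.coe_basisMonomials]
    show MvPolynomial.aeval y (MvPolynomial.monomial m 1) = _
    rw [MvPolynomial.aeval_monomial, map_one, one_mul]
    rfl
  exact LinearMap.congr_fun key p

theorem mem_whs_iff (d : ι → ℕ) (t : ℕ) (p : MvPolynomial ι F2) :
    p ∈ MvPolynomial.weightedHomogeneousSubmodule F2 d t ↔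
      (MvPolynomial.basisMonomials ι F2).repr p ∈ Finsupp.supported F2 F2 {m | mdeg d m = t} := by
  rw [MvPolynomial.mem_weightedHomogeneousSubmodule, Finsupp.mem_supported]
  constructor
  · intro h m hm
    rw [Finset.mem_coe, Finsupp.mem_support_iff] at hm
    rw [Set.mem_ofPred_eq, mdeg_eq_weight]
    exact h hm
  · intro h m hm
    have := h (show m ∈ _ from Finsupp.mem_support_iff.2 hm)
    rwa [Set.mem_ofPred_eq, mdeg_eq_weight] at this

/-- the `MvPolynomial` form of `PolyR` -/
theorem polyR_iff (gr : ℕ → Submodule F2 H) (y : ι → H) (d : ι → ℕ) (N : ℕ) :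
    PolyR gr y d N ↔
      (∀ t ≤ N, ∀ p ∈ MvPolynomial.weightedHomogeneousSubmodule F2 d t,
        MvPolynomial.aeval y p = 0 → p = 0) ∧
      (∀ t ≤ N + 1, gr t ≤ (MvPolynomial.weightedHomogeneousSubmodule F2 d t).map
        (MvPolynomial.aeval y : MvPolynomial ι F2 →ₐ[F2] H).toLinearMap) := by
  unfold PolyR RB
  refine and_congr ?_ ?_
  · refine forall₂_congr fun t _ => ?_
    have : (LinearIndependent F2 fun b : {m : ι →₀ ℕ // mdeg d m = t} => mval y b) ↔
        LinearIndepOn F2 (mval y) {m | mdeg d m = t} := Iff.rfl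
    rw [this, linearIndepOn_iff]
    constructor
    · intro h p hp h0
      rw [mem_whs_iff] at hp
      rw [aeval_eq] at h0
      have := h _ hp h0
      rwa [LinearEquiv.map_eq_zero_iff] at this
    · intro h l hl h0
      have := h ((MvPolynomial.basisMonomials ι F2).repr.symm l)
        (by rw [mem_whs_iff, LinearEquiv.apply_symm_apply]; exact hl)
        (by rw [aeval_eq, LinearEquiv.apply_symm_apply]; exact h0)
      rwa [LinearEquiv.map_eq_zero_iff] at this
  · refine forall₂_congr fun t _ => ?_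
    rw [Finsupp.span_image_eq_map_linearCombination]
    have : Submodule.map (Finsupp.linearCombination F2 (mval y))
        (Finsupp.supported F2 F2 {b | mdeg d b = t}) =
        (MvPolynomial.weightedHomogeneousSubmodule F2 d t).map
        (MvPolynomial.aeval y : MvPolynomial ι F2 →ₐ[F2] H).toLinearMap := by
      ext h
      simp only [Submodule.mem_map]
      constructor
      · rintro ⟨l, hl, rfl⟩
        refine ⟨(MvPolynomial.basisMonomials ι F2).repr.symm l, ?_, ?_⟩
        · rw [mem_whs_iff, LinearEquiv.apply_symm_apply]; exact hl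
        · show MvPolynomial.aeval y _ = _
          rw [aeval_eq, LinearEquiv.apply_symm_apply]
      · rintro ⟨p, hp, rfl⟩
        exact ⟨_, (mem_whs_iff d t p).1 hp, (aeval_eq y p).symm⟩
    rw [this]

end mvp

end general

end Crest.Agent.R204.Ind979
end

-- ▼ part R204/Ind2_979
section

/-!
# Row 204, leaf B7: the induction `R(k)` for the tower of `Spec_114`
owner helper979

`LoopStep X k N` : the range loop theorem for `X_k = Ω X_{k+1}` (to be proved by B2/B4).
`factPoly_of_steps` : `FactPoly D` from `LoopStep` for `1 ≤ k ≤ D + 1` and the base case `k = D + 2`.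
-/

set_option autoImplicit false

namespace Crest.Agent.R204.Ind979

open Crest.Agent.R204.Spec114 Crest.Agent.R204.Spec114.Tower

/-! ### words -/

theorem wdeg_cons (k i : ℕ) (L : List ℕ) : wdeg k (i :: L) = 2 * wdeg k L + i := rfl
theorem wdeg_nil (k : ℕ) : wdeg k [] = k := rfl

theorem le_wdeg (k : ℕ) (L : List ℕ) : k ≤ wdeg k L := by
  induction L with
  | nil => exact le_rfl
  | cons i L ih => rw [wdeg_cons]; omega

theorem entry_le_wdeg (k : ℕ) (L : List ℕ) : ∀ i ∈ L, k + i ≤ wdeg k L := by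
  induction L with
  | nil => simp
  | cons j L ih =>
    intro i hi
    rw [wdeg_cons]
    have := le_wdeg k L
    rcases List.mem_cons.1 hi with rfl | hi
    · omega
    · have := ih i hi; omega

theorem wdeg_map_succ (k : ℕ) (L : List ℕ) : wdeg k (L.map (· + 1)) + 1 = wdeg (k + 1) L := by
  induction L with
  | nil => rfl
  | cons i L ih => rw [List.map_cons, wdeg_cons, wdeg_cons, ← ih]; ring

theorem wdeg_replicate (k b : ℕ) (L : List ℕ) :
    wdeg k (List.replicate b 1 ++ L) + 1 = 2 ^ b * (wdeg k L + 1) := by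
  induction b with
  | zero => simp
  | succ b ih =>
    have h2 : 2 ^ (b + 1) * (wdeg k L + 1) = 2 * (2 ^ b * (wdeg k L + 1)) := by ring
    rw [List.replicate_succ, List.cons_append, wdeg_cons, h2, ← ih]; ring

/-- `(J, b) ↦ 1^b, J + 1` -/
def up (p : Wd × ℕ) : Wd :=
  ⟨List.replicate p.2 1 ++ p.1.1.map (· + 1), by
    refine ⟨List.pairwise_append.2 ⟨?_, ?_, ?_⟩, ?_⟩
    · exact List.pairwise_replicate.2 (Or.inr le_rfl)
    · exact List.pairwise_map.2 (p.1.2.1.imp (fun h => by omega))
    · intro a ha c hc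
      rw [List.eq_of_mem_replicate ha]
      obtain ⟨j, -, rfl⟩ := List.mem_map.1 hc
      omega
    · intro i hi
      rcases List.mem_append.1 hi with h | h
      · rw [List.eq_of_mem_replicate h]
      · obtain ⟨j, -, rfl⟩ := List.mem_map.1 h
        omega⟩

theorem up_injective : Function.Injective up := by
  rintro ⟨J, b⟩ ⟨J', b'⟩ h
  have h1 : List.replicate b 1 ++ J.1.map (· + 1) = List.replicate b' 1 ++ J'.1.map (· + 1) :=
    congrArg Subtype.val h
  have hc : ∀ K : Wd, (K.1.map (· + 1)).count 1 = 0 := fun K => by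
    rw [List.count_eq_zero]
    intro hK
    obtain ⟨j, hj, hj1⟩ := List.mem_map.1 hK
    have := K.2.2 j hj
    omega
  have hb : b = b' := by
    have h2 := congrArg (List.count 1) h1
    rwa [List.count_append, List.count_append, hc, hc, List.count_replicate_self,
      List.count_replicate_self] at h2
  subst hb
  have h3 : J.1.map (· + 1) = J'.1.map (· + 1) := List.append_cancel_left h1
  have h4 : J.1 = J'.1 := List.map_injective_iff.2 (fun a b hab => by simpa using hab) h3
  exact Prod.ext (Subtype.ext h4) rfl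

theorem up_surjective : Function.Surjective up := by
  rintro ⟨I, hI⟩
  induction I with
  | nil => exact ⟨(⟨[], by simp⟩, 0), rfl⟩
  | cons i L ih =>
    have hL : L.Pairwise (· ≤ ·) ∧ ∀ j ∈ L, 1 ≤ j :=
      ⟨(List.pairwise_cons.1 hI.1).2, fun j hj => hI.2 j (List.mem_cons_of_mem _ hj)⟩
    obtain ⟨⟨J, b⟩, hJ⟩ := ih hL
    have hJ' : List.replicate b 1 ++ J.1.map (· + 1) = L := congrArg Subtype.val hJ
    have hi1 : 1 ≤ i := hI.2 i List.mem_cons_self
    rcases eq_or_lt_of_le hi1 with h | h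
    · refine ⟨(J, b + 1), Subtype.ext ?_⟩
      show List.replicate (b + 1) 1 ++ J.1.map (· + 1) = i :: L
      rw [List.replicate_succ, List.cons_append, hJ', ← h]
    · have hb : b = 0 := by
        by_contra hb
        obtain ⟨c, rfl⟩ := Nat.exists_eq_succ_of_ne_zero hb
        have h1 : 1 ∈ L := by rw [← hJ', List.replicate_succ]; simp
        have := (List.pairwise_cons.1 hI.1).1 1 h1
        omega
      subst hb
      rw [List.replicate_zero, List.nil_append] at hJ'
      refine ⟨(⟨(i - 1) :: J.1, ?_, ?_⟩, 0), Subtype.ext ?_⟩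
      · refine List.pairwise_cons.2 ⟨fun j hj => ?_, J.2.1⟩
        have := (List.pairwise_cons.1 hI.1).1 (j + 1) (by rw [← hJ']; exact List.mem_map_of_mem hj)
        omega
      · intro j hj
        rcases List.mem_cons.1 hj with rfl | hj
        · omega
        · exact J.2.2 j hj
      · show List.replicate 0 1 ++ List.map (· + 1) ((i - 1) :: J.1) = i :: L
        rw [List.replicate_zero, List.nil_append, List.map_cons, hJ', Nat.sub_add_cancel hi1]

theorem wdeg_up (k : ℕ) (p : Wd × ℕ) : wdeg k (up p).1 + 1 = 2 ^ p.2 * wdeg (k + 1) p.1.1 := by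
  show wdeg k (List.replicate p.2 1 ++ p.1.1.map (· + 1)) + 1 = _
  rw [wdeg_replicate, wdeg_map_succ]

variable (X : Tower)

theorem word_cons (k i : ℕ) (L : List ℕ) : X.word k (i :: L) = X.Q k i (X.word k L) := rfl
theorem word_nil (k : ℕ) : X.word k [] = X.x k := rfl

variable {X}

theorem word_mem {D k : ℕ} (hQ : X.FactQ D) (hx : X.FactX D) (hk : k ≤ D + 2) (L : List ℕ)
    (hL : ∀ i ∈ L, i ≤ D + 1) : X.word k L ∈ X.gr k (wdeg k L) := by
  induction L with
  | nil => exact (hx.1 k hk).1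
  | cons i L ih =>
    rw [word_cons, wdeg_cons]
    exact (hQ k hk).2.2 i (hL i List.mem_cons_self) _ _
      (ih fun j hj => hL j (List.mem_cons_of_mem _ hj))

theorem sigma_word_map_succ {D k : ℕ} (hσ : X.FactSigma D) (hk : k ≤ D + 1) (L : List ℕ)
    (hL : ∀ i ∈ L, i + 1 ≤ D + 1) : X.σ k (X.word k (L.map (· + 1))) = X.word (k + 1) L := by
  induction L with
  | nil => exact (hσ k hk).2.2.2.2.2.2
  | cons i L ih =>
    rw [List.map_cons, word_cons, word_cons,
      (hσ k hk).2.2.2.2.2.1 i (hL i List.mem_cons_self), ih fun j hj => hL j (List.mem_cons_of_mem _ hj)]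

theorem sigma_word_replicate {D k : ℕ} (hQ : X.FactQ D) (hσ : X.FactSigma D) (hk : k ≤ D + 1) (b : ℕ)
    (L : List ℕ) : X.σ k (X.word k (List.replicate b 1 ++ L)) = X.σ k (X.word k L) ^ 2 ^ b := by
  induction b with
  | zero => simp
  | succ b ih =>
    rw [List.replicate_succ, List.cons_append, word_cons,
      (hσ k hk).2.2.2.2.2.1 0 (by omega), (hQ (k + 1) (by omega)).1, ih, pow_succ, pow_mul]
    ring

theorem sigma_word_up {D k : ℕ} (hQ : X.FactQ D) (hσ : X.FactSigma D) (hk : k ≤ D + 1) (p : Wd × ℕ)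
    (hp : ∀ i ∈ (up p).1, i ≤ D + 1) :
    X.σ k (X.word k (up p).1) = dbl (fun I : Wd => X.word (k + 1) I.1) p := by
  show X.σ k (X.word k (List.replicate p.2 1 ++ p.1.1.map (· + 1))) = X.word (k + 1) p.1.1 ^ 2 ^ p.2
  rw [sigma_word_replicate hQ hσ hk, sigma_word_map_succ hσ hk]
  intro i hi
  exact hp _ (List.mem_append_right _ (List.mem_map_of_mem hi))

/-- the suspended words of `X_k` are the simple system of 2-powers of the words of `X_{k+1}` -/
theorem simR_sigma_iff {D k : ℕ} (hQ : X.FactQ D) (hσ : X.FactSigma D) (hk : k ≤ D + 1) :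
    PolyR (X.gr (k + 1)) (fun I : Wd => X.word (k + 1) I.1) (fun I : Wd => wdeg (k + 1) I.1)
      (k + 1 + D) ↔
    SimR (X.gr (k + 1)) (fun I : Wd => X.σ k (X.word k I.1)) (fun I : Wd => wdeg k I.1 + 1)
      (k + 1 + D) := by
  rw [polyR_iff_simR]
  refine SimR.reindex_iff up ?_ (fun p _ => wdeg_up k p) (fun p hp => ?_)
  · refine ⟨fun p hp => ?_, up_injective.injOn, fun I hI => ?_⟩
    · simp only [Set.mem_ofPred_eq, dbd] at hp ⊢
      rwa [wdeg_up]
    · obtain ⟨p, rfl⟩ := up_surjective I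
      refine ⟨p, ?_, rfl⟩
      simp only [Set.mem_ofPred_eq, dbd] at hI ⊢
      rwa [wdeg_up] at hI
  · refine sigma_word_up hQ hσ hk p fun i hi => ?_
    have h1 := entry_le_wdeg k _ i hi
    have h2 := wdeg_up k p
    simp only [dbd] at hp
    omega

/-- **the range loop theorem** for `X_k = Ω X_{k+1}` -/
def LoopStep (X : Tower) (k N : ℕ) : Prop :=
  ∀ (J : Type) (v : J → X.H k) (e : J → ℕ), (∀ j, 1 ≤ e j) → (∀ j, v j ∈ X.gr k (e j)) →
    SimR (X.gr (k + 1)) (fun j => X.σ k (v j)) (fun j => e j + 1) (N + 1) → PolyR (X.gr k) v e N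

theorem polyR_step {D k : ℕ} (hQ : X.FactQ D) (hσ : X.FactSigma D) (hx : X.FactX D) (hk : k ≤ D + 1)
    (hk1 : 1 ≤ k) (hstep : LoopStep X k (k + D))
    (h : PolyR (X.gr (k + 1)) (fun I : Wd => X.word (k + 1) I.1) (fun I : Wd => wdeg (k + 1) I.1)
      (k + 1 + D)) :
    PolyR (X.gr k) (fun I : Wd => X.word k I.1) (fun I : Wd => wdeg k I.1) (k + D) := by
  rw [simR_sigma_iff hQ hσ hk] at h
  rw [← PolyR.subtype_iff (fun I : Wd => wdeg k I.1 ≤ k + D + 1) (fun I hI => hI)]
  refine hstep _ _ _ (fun j => ?_) (fun j => ?_) ?_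
  · have := le_wdeg k j.1.1
    omega
  · refine word_mem hQ hx (by omega) _ fun i hi => ?_
    have h1 := entry_le_wdeg k _ i hi
    have h2 := j.2
    omega
  · have h3 : k + 1 + D = k + D + 1 := by omega
    rw [h3] at h
    exact (SimR.subtype_iff (fun I : Wd => wdeg k I.1 ≤ k + D + 1) (fun I hI => by
      simpa using hI)).2 h

/-! ### base case -/

/-- polynomial generators reduce to one element -/
theorem polyR_unique {H : Type*} [CommRing H] [Algebra F2 H] {gr : ℕ → Submodule F2 H} {ι : Type*}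
    (i₀ : ι) (y : ι → H) (d : ι → ℕ) (N : ℕ) (hu : ∀ i, i = i₀) :
    PolyR gr y d N ↔ RB gr (fun n : ℕ => y i₀ ^ n) (fun n => n * d i₀) N := by
  have hm : ∀ m : ι →₀ ℕ, m = Finsupp.single i₀ (m i₀) := fun m => by
    ext i; rw [hu i, Finsupp.single_eq_same]
  refine RB.reindex_iff (fun m : ι →₀ ℕ => m i₀) ?_ ?_ ?_
  · refine ⟨fun m hm' => ?_, fun m _ m' _ h => ?_, fun n hn => ?_⟩
    · simp only [Set.mem_ofPred_eq] at hm' ⊢
      rw [hm m, mdeg_single] at hm'
      exact hm'
    · rw [hm m, hm m']; exact congrArg _ h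
    · refine ⟨Finsupp.single i₀ n, ?_, Finsupp.single_eq_same⟩
      simp only [Set.mem_ofPred_eq] at hn ⊢
      rwa [mdeg_single]
  · intro m _
    conv_rhs => rw [hm m, mdeg_single]
  · intro m _
    conv_rhs => rw [hm m, mval_single]

/-- base case `k = D + 2`: only `1` and `x_k` -/
theorem polyR_base {D k : ℕ} (hk : D + 2 ≤ k) (h1 : (1 : X.H k) ≠ 0)
    (h0 : X.gr k 0 ≤ Submodule.span F2 {1}) (hxk : X.x k ≠ 0)
    (hgk : X.gr k k ≤ Submodule.span F2 {X.x k})
    (hg : ∀ t ≤ k + D + 1, t ≠ 0 → t ≠ k → X.gr k t = ⊥) :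
    PolyR (X.gr k) (fun I : Wd => X.word k I.1) (fun I : Wd => wdeg k I.1) (k + D) := by
  rw [← PolyR.subtype_iff (fun I : Wd => I.1 = []) (fun I hI => ?_)]
  · rw [polyR_unique (⟨⟨[], by simp⟩, rfl⟩ : {I : Wd // I.1 = []}) _ _ _
      (fun i => Subtype.ext (Subtype.ext i.2))]
    show RB (X.gr k) (fun n : ℕ => X.word k [] ^ n) (fun n => n * wdeg k []) (k + D)
    rw [word_nil, wdeg_nil]
    have hn : ∀ n : ℕ, n * k ≤ k + D + 1 → n = 0 ∨ n = 1 := by
      intro n hn
      by_contra hc
      have : 2 ≤ n := by omega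
      have := Nat.mul_le_mul_right k this
      omega
    refine ⟨fun t ht => ?_, fun t ht => ?_⟩
    · have hss : Subsingleton {n : ℕ // n * k = t} := ⟨fun a b => by
        have h2 : a.1 * k = b.1 * k := a.2.trans b.2.symm
        exact Subtype.ext (Nat.eq_of_mul_eq_mul_right (by omega) h2)⟩
      rw [linearIndependent_subsingleton_index_iff]
      rintro ⟨n, hnt⟩
      have hnt' : n * k = t := hnt
      rcases hn n (by omega) with rfl | rfl
      · simpa using h1
      · simpa using hxk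
    · by_cases ht0 : t = 0
      · subst ht0
        refine h0.trans (Submodule.span_mono ?_)
        rintro _ rfl
        exact ⟨0, by simp, by simp⟩
      · by_cases htk : t = k
        · subst htk
          refine hgk.trans (Submodule.span_mono ?_)
          rintro _ rfl
          exact ⟨1, by simp, by simp⟩
        · rw [hg t (by omega) ht0 htk]
          exact bot_le
  · rcases hL : I.1 with _ | ⟨i, L⟩
    · rfl
    · exfalso
      rw [hL, wdeg_cons] at hI
      have := le_wdeg k L
      have := I.2.2 i (by rw [hL]; exact List.mem_cons_self)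
      omega

theorem factPoly_iff (D : ℕ) : X.FactPoly D ↔ ∀ k, 1 ≤ k → k ≤ D + 2 →
    PolyR (X.gr k) (fun I : Wd => X.word k I.1) (fun I : Wd => wdeg k I.1) (k + D) := by
  unfold FactPoly
  refine forall₃_congr fun k _ _ => ?_
  rw [polyR_iff]

/-- **induction**: `FactPoly` from the range loop theorem and the base case -/
theorem factPoly_of_steps {D : ℕ} (hQ : X.FactQ D) (hσ : X.FactSigma D) (hx : X.FactX D)
    (hstep : ∀ k, 1 ≤ k → k ≤ D + 1 → LoopStep X k (k + D))
    (h1 : (1 : X.H (D + 2)) ≠ 0)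
    (h0 : X.gr (D + 2) 0 ≤ Submodule.span F2 {1}) (hxk : X.x (D + 2) ≠ 0)
    (hgk : X.gr (D + 2) (D + 2) ≤ Submodule.span F2 {X.x (D + 2)})
    (hg : ∀ t ≤ 2 * D + 3, t ≠ 0 → t ≠ D + 2 → X.gr (D + 2) t = ⊥) : X.FactPoly D := by
  rw [factPoly_iff]
  have key : ∀ j k, 1 ≤ k → k + j = D + 2 →
      PolyR (X.gr k) (fun I : Wd => X.word k I.1) (fun I : Wd => wdeg k I.1) (k + D) := by
    intro j
    induction j with
    | zero =>
      intro k _ hk
      obtain rfl : k = D + 2 := by omega
      exact polyR_base le_rfl h1 h0 hxk hgk (fun t ht => hg t (by omega))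
    | succ j ih =>
      intro k hk1 hk
      exact polyR_step hQ hσ hx (by omega) hk1 (hstep k hk1 (by omega)) (ih (k + 1) (by omega) (by omega))
  intro k hk1 hk2
  exact key (D + 2 - k) k hk1 (by omega)

end Crest.Agent.R204.Ind979
end

-- ▼ part R204/Ind3_979

/-!
# Row 204, leaf B7: the step `k = 0` (base component of `Ω^n S^n`)
owner helper979

`Cover0 X D` = what the covering step (B5) + the range loop theorem for `(B̃, G_0)` have to provide:
an algebra `C = H(B̃)` with an algebra map `π : C → H(X_1)` injective in the range with image in the span of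
the monomials with even exponent of `x_1`, a suspension `s : H(X_0) → C` with `π ∘ s = σ` on the base
component, and the loop theorem `SimR → PolyR`.
-/

set_option autoImplicit false
set_option linter.unusedSectionVars false

namespace Crest.Agent.R204.Ind979

open Crest.Agent.R204.Spec114 Crest.Agent.R204.Spec114.Tower

section general

variable {H : Type*} [CommRing H] [Algebra F2 H]

/-- restriction of a range basis to a subset of the index set -/
theorem RB.restrict {gr : ℕ → Submodule F2 H} {β : Type*} {e : β → H} {deg : β → ℕ} {N : ℕ}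
    (h : RB gr e deg N) (P : β → Prop) :
    RB (fun t => Submodule.span F2 (e '' {b | deg b = t ∧ P b})) (fun b : {b // P b} => e b)
      (fun b => deg b) N := by
  refine ⟨fun t ht => ?_, fun t _ => Submodule.span_mono ?_⟩
  · refine (h.1 t ht).comp (fun b : {b : {b // P b} // deg b = t} => (⟨b.1.1, b.2⟩ : {b : β // deg b = t})) ?_
    intro b b' hbb
    simp only [Subtype.mk.injEq] at hbb
    exact Subtype.ext (Subtype.ext hbb)
  · rintro _ ⟨b, ⟨hb, hP⟩, rfl⟩
    exact ⟨⟨b, hP⟩, hb, rfl⟩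


/-- parity of the exponent of `i₀` -/
theorem even_toM {ι : Type*} (S : Finset (ι × ℕ)) (i₀ : ι) : Even (toM S i₀) ↔ (i₀, 0) ∉ S := by
  classical
  rw [toM_apply]
  set B := (S.filter (fun k => k.1 = i₀)).image Prod.snd with hB
  have h0 : (i₀, 0) ∈ S ↔ 0 ∈ B := by
    rw [hB]
    simp only [Finset.mem_image, Finset.mem_filter]
    constructor
    · intro h; exact ⟨(i₀, 0), ⟨h, rfl⟩, rfl⟩
    · rintro ⟨⟨i, b⟩, ⟨h1, h2⟩, h3⟩
      change i = i₀ at h2
      change b = 0 at h3
      rw [← h2, ← h3]; exact h1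
  rw [h0]
  have he : ∀ T : Finset ℕ, 0 ∉ T → Even (∑ b ∈ T, 2 ^ b) := fun T hT => by
    refine Finset.sum_induction _ Even (fun a b ha hb => ha.add hb) Even.zero fun b hb => ?_
    refine (even_two).pow_of_ne_zero ?_
    rintro rfl
    exact hT hb
  constructor
  · intro h hm
    rw [← Finset.add_sum_erase B (fun b => 2 ^ b) hm, pow_zero] at h
    have := he (B.erase 0) (Finset.notMem_erase _ _)
    exact (Nat.not_even_iff_odd.2 (this.one_add)) h
  · exact he B

/-- **the even part**: the simple system without `(i₀, 0)` is a simple system for the span of the monomials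
with even exponent of `y i₀`. -/
theorem simR_even {gr : ℕ → Submodule F2 H} {ι : Type*} {y : ι → H} {d : ι → ℕ} {N : ℕ} (i₀ : ι)
    (h : PolyR gr y d N) :
    SimR (fun t => Submodule.span F2 (mval y '' {m | mdeg d m = t ∧ Even (m i₀)}))
      (fun p : {p : ι × ℕ // p ≠ (i₀, 0)} => dbl y p) (fun p => dbd d p) N := by
  classical
  have h1 := RB.restrict h (fun m => Even (m i₀))
  refine (RB.reindex_iff (fun S : Finset {p : ι × ℕ // p ≠ (i₀, 0)} =>
    (⟨toM (S.map (Function.Embedding.subtype _)), ?_⟩ : {m : ι →₀ ℕ // Even (m i₀)})) ?_ ?_ ?_).2 h1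
  · rw [even_toM]
    simp
  · refine ⟨fun S hS => ?_, fun S _ T _ hST => ?_, fun m hm => ?_⟩
    · simp only [Set.mem_ofPred_eq] at hS ⊢
      rw [mdeg_toM, sdeg, Finset.sum_map]
      exact hS
    · simp only [Subtype.mk.injEq] at hST
      exact Finset.map_injective _ (toM_bijective.1 hST)
    · obtain ⟨m, hm2⟩ := m
      obtain ⟨S, rfl⟩ := toM_bijective.2 m
      rw [even_toM] at hm2
      refine ⟨S.subtype (fun p => p ≠ (i₀, 0)), ?_, Subtype.ext ?_⟩
      · simp only [Set.mem_ofPred_eq] at hm ⊢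
        rw [mdeg_toM] at hm
        refine le_trans (le_of_eq ?_) hm
        have h3 : (S.subtype (fun p => p ≠ (i₀, 0))).map (Function.Embedding.subtype _) = S := by
          rw [Finset.subtype_map]
          exact Finset.filter_true_of_mem fun p hp hp2 => hm2 (hp2 ▸ hp)
        conv_rhs => rw [sdeg, ← h3, Finset.sum_map]
        rfl
      · show toM ((S.subtype (fun p => p ≠ (i₀, 0))).map (Function.Embedding.subtype _)) = toM S
        congr 1
        rw [Finset.subtype_map]
        exact Finset.filter_true_of_mem fun p hp hp2 => hm2 (hp2 ▸ hp)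
  · intro S _
    show mdeg d (toM _) = sdeg _ S
    rw [mdeg_toM, sdeg, Finset.sum_map]
    rfl
  · intro S _
    show mval y (toM _) = sval _ S
    rw [mval_toM, sval, Finset.prod_map]
    rfl

/-- pulling a simple system back along an algebra map which is injective in the range -/
theorem SimR.of_map {C : Type*} [CommRing C] [Algebra F2 C] {grC : ℕ → Submodule F2 C}
    {gr : ℕ → Submodule F2 H} {κ : Type*} {z : κ → C} {d : κ → ℕ} {N : ℕ} (π : C →ₐ[F2] H)
    (one_mem : (1 : C) ∈ grC 0) (mul_mem : ∀ s t a b, a ∈ grC s → b ∈ grC t → a * b ∈ grC (s + t))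
    (hz : ∀ k, d k ≤ N + 1 → z k ∈ grC (d k)) (hinj : ∀ t ≤ N + 1, ∀ c ∈ grC t, π c = 0 → c = 0)
    (himg : ∀ t ≤ N + 1, ∀ c ∈ grC t, π c ∈ gr t) (h : SimR gr (fun k => π (z k)) d N) :
    SimR grC z d N := by
  classical
  have hval : ∀ S : Finset κ, π (sval z S) = sval (fun k => π (z k)) S := fun S => map_prod π _ _
  have hmem : ∀ S : Finset κ, sdeg d S ≤ N + 1 → sval z S ∈ grC (sdeg d S) := by
    intro S
    induction S using Finset.induction_on with
    | empty => intro _; simpa [sval, sdeg] using one_mem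
    | insert a s ha ih =>
      intro hS
      rw [sdeg, Finset.sum_insert ha] at hS
      rw [sval, sdeg, Finset.prod_insert ha, Finset.sum_insert ha]
      exact mul_mem _ _ _ _ (hz a (by omega)) (ih (by rw [sdeg]; omega))
  refine ⟨fun t ht => ?_, fun t ht c hc => ?_⟩
  · refine LinearIndependent.of_comp π.toLinearMap ?_
    have h1 := h.1 t ht
    convert h1 using 1
    funext S
    exact hval S
  · have h2 := h.2 t ht (himg t ht c hc)
    have h3 : Submodule.span F2 (sval (fun k => π (z k)) '' {S | sdeg d S = t}) =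
        (Submodule.span F2 (sval z '' {S | sdeg d S = t})).map π.toLinearMap := by
      rw [Submodule.map_span]
      congr 1
      ext x
      simp only [Set.mem_image]
      constructor
      · rintro ⟨S, hS, rfl⟩
        exact ⟨_, ⟨S, hS, rfl⟩, hval S⟩
      · rintro ⟨_, ⟨S, hS, rfl⟩, rfl⟩
        exact ⟨S, hS, (hval S).symm⟩
    rw [h3] at h2
    obtain ⟨c', hc', hcc⟩ := h2
    have h4 : c' ∈ grC t := by
      refine (Submodule.span_le.2 ?_) hc'
      rintro _ ⟨S, hS, rfl⟩
      simp only [Set.mem_ofPred_eq] at hS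
      have := hmem S (by omega)
      rwa [hS] at this
    have h5 : c - c' = 0 := hinj t ht _ (Submodule.sub_mem _ hc h4) (by
      rw [map_sub]
      change π c' = π c at hcc
      rw [hcc, sub_self])
    rw [sub_eq_zero.1 h5]
    exact hc'

end general

/-! ### the tower at `k = 0` -/

variable {X : Tower}

/-- `(J, b) ≠ ([], 0)` corresponds to nonempty words -/
theorem up_ne_nil (p : Wd × ℕ) : (up p).1 ≠ [] ↔ p ≠ (⟨[], by simp⟩, 0) := by
  obtain ⟨⟨J, hJ⟩, b⟩ := p
  have h1 : (up (⟨J, hJ⟩, b)).1 = List.replicate b 1 ++ J.map (· + 1) := rfl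
  rw [h1, ne_eq, ne_eq, not_iff_not]
  constructor
  · intro h
    rw [List.append_eq_nil_iff] at h
    have h2 : b = 0 := by simpa using h.1
    have h3 : J = [] := by simpa using h.2
    subst h2 h3; rfl
  · intro h
    have h2 : J = [] := congrArg (fun q : Wd × ℕ => q.1.1) h
    have h3 : b = 0 := congrArg Prod.snd h
    subst h2 h3; rfl

/-- the suspension of `x_I = Q_I[1] * [-2^r]` -/
theorem sigma_word0 {D : ℕ} (hGr : X.FactGr D) (hE : X.FactEps D) (hQ : X.FactQ D) (hσ : X.FactSigma D)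
    (hx : X.FactX D) (I : List ℕ) (hI : I ≠ []) (hI1 : ∀ i ∈ I, 1 ≤ i) (hID : ∀ i ∈ I, i ≤ D + 1) :
    X.σ 0 (X.word0 I) = X.σ 0 (X.word 0 I) := by
  have h1 : X.ε 0 (X.x 0) * X.ε 0 X.xinv = 1 := by
    rw [← map_mul, hx.2.2.2.2.2, map_one]
  have h2 : X.ε 0 X.xinv = 1 := by
    have : ∀ a b : F2, a * b = 1 → b = 1 := by decide
    exact this _ _ h1
  have h3 : X.ε 0 (X.word 0 I) = 0 := by
    refine hE 0 (by omega) (wdeg 0 I) ?_ _ (word_mem hQ hx (by omega) I hID)
    rcases I with _ | ⟨i, L⟩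
    · exact absurd rfl hI
    · rw [wdeg_cons]
      have := hI1 i List.mem_cons_self
      omega
  have h4 : X.ε 0 (X.xinv ^ 2 ^ I.length) = 1 := by rw [map_pow, h2, one_pow]
  have h5 := (hσ 0 (by omega)).2.2.1 (X.word 0 I) (X.xinv ^ 2 ^ I.length)
  rw [h3, h4, zero_smul, one_smul] at h5
  exact h5.trans (zero_add _)

theorem word0_mem {D : ℕ} (hGr : X.FactGr D) (hQ : X.FactQ D) (hx : X.FactX D) (I : List ℕ)
    (hID : ∀ i ∈ I, i ≤ D + 1) : X.word0 I ∈ X.gr 0 (wdeg 0 I) := by
  have h1 : ∀ n : ℕ, X.xinv ^ n ∈ X.gr 0 0 := by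
    intro n
    induction n with
    | zero => rw [pow_zero]; exact (hGr 0 (by omega)).2.1
    | succ n ih =>
      rw [pow_succ]
      simpa using (hGr 0 (by omega)).2.2 0 0 _ _ ih hx.2.2.2.1
  have h2 := (hGr 0 (by omega)).2.2 _ 0 _ _ (word_mem hQ hx (by omega) I hID) (h1 (2 ^ I.length))
  rw [add_zero] at h2
  exact h2

/-- what the covering `B̃ → B = X_1` and the range loop theorem for `B̃` provide -/
structure Cover0 (X : Tower) (D : ℕ) where
  C : Type
  [ring : CommRing C]
  [alg : Algebra F2 C]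
  grC : ℕ → Submodule F2 C
  π : C →ₐ[F2] X.H 1
  s : X.H 0 →ₗ[F2] C
  one_mem : (1 : C) ∈ grC 0
  mul_mem : ∀ s t a b, a ∈ grC s → b ∈ grC t → a * b ∈ grC (s + t)
  π_inj : ∀ t ≤ D + 2, ∀ c ∈ grC t, π c = 0 → c = 0
  π_even : ∀ t ≤ D + 2, ∀ c ∈ grC t, π c ∈ Submodule.span F2
    (mval (fun I : Wd => X.word 1 I.1) '' {m | mdeg (fun I : Wd => wdeg 1 I.1) m = t ∧
      Even (m ⟨[], by simp⟩)})
  s_mem : ∀ t, ∀ y ∈ X.gr 0 t ⊓ Subalgebra.toSubmodule X.base, s y ∈ grC (t + 1)
  π_s : ∀ y ∈ X.base, π (s y) = X.σ 0 y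
  loop : ∀ (J : Type) (v : J → X.H 0) (e : J → ℕ), (∀ j, 1 ≤ e j) →
    (∀ j, v j ∈ X.gr 0 (e j) ⊓ Subalgebra.toSubmodule X.base) →
    SimR grC (fun j => s (v j)) (fun j => e j + 1) (D + 1) →
    PolyR (fun t => X.gr 0 t ⊓ Subalgebra.toSubmodule X.base) v e D

attribute [instance] Cover0.ring Cover0.alg

theorem factPoly0_of_cover {D : ℕ} (hGr : X.FactGr D) (hE : X.FactEps D) (hQ : X.FactQ D)
    (hσ : X.FactSigma D) (hx : X.FactX D) (hP : X.FactPoly D) (c : Cover0 X D)
    (hB : X.FactBase D) : X.FactPoly0 D := by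
  classical
  have hP1 := (factPoly_iff D).1 hP 1 le_rfl (by omega)
  have hev := simR_even (⟨[], by simp⟩ : Wd) hP1
  -- entries
  have hent : ∀ I : Wd, wdeg 0 I.1 ≤ D + 1 → ∀ i ∈ I.1, i ≤ D + 1 := fun I hI i hi => by
    have := entry_le_wdeg 0 _ i hi; omega
  -- reindex to nonempty words of bounded degree
  let J : Type := {I : Wd0 // wdeg 0 I.1.1 ≤ D + 1}
  have hsim : SimR (fun t => Submodule.span F2 (mval (fun I : Wd => X.word 1 I.1) ''
      {m | mdeg (fun I : Wd => wdeg 1 I.1) m = t ∧ Even (m ⟨[], by simp⟩)}))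
      (fun j : J => X.σ 0 (X.word0 j.1.1.1)) (fun j : J => wdeg 0 j.1.1.1 + 1) (1 + D) := by
    have hupinv : ∀ I : Wd, ∃ p, up p = I := up_surjective
    choose g hg using hupinv
    have hgne : ∀ j : J, g j.1.1 ≠ (⟨[], by simp⟩, 0) := fun j => by
      rw [← up_ne_nil, hg]; exact j.1.2
    have hdeg : ∀ j : J, dbd (fun I : Wd => wdeg 1 I.1) (g j.1.1) = wdeg 0 j.1.1.1 + 1 := fun j => by
      have := wdeg_up 0 (g j.1.1)
      rw [hg] at this
      exact this.symm
    refine (SimR.reindex_iff (fun j : J => (⟨g j.1.1, hgne j⟩ :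
      {p : Wd × ℕ // p ≠ (⟨[], by simp⟩, 0)})) ?_ (fun j _ => hdeg j) (fun j _ => ?_)).2 hev
    · refine ⟨fun j hj => ?_, fun j _ j' _ hjj => ?_, fun p hp => ?_⟩
      · simp only [Set.mem_ofPred_eq] at hj ⊢
        exact (hdeg j).le.trans hj
      · have := congrArg up (congrArg Subtype.val hjj)
        change up (g j.1.1) = up (g j'.1.1) at this
        rw [hg, hg] at this
        exact Subtype.ext (Subtype.ext this)
      · obtain ⟨p, hp2⟩ := p
        have h1 : wdeg 0 (up p).1 + 1 = 2 ^ p.2 * wdeg 1 p.1.1 := wdeg_up 0 p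
        simp only [Set.mem_ofPred_eq, dbd] at hp
        refine ⟨⟨⟨up p, (up_ne_nil p).2 hp2⟩, by show wdeg 0 (up p).1 ≤ D + 1; omega⟩, ?_, Subtype.ext ?_⟩
        · show wdeg 0 (up p).1 + 1 ≤ 1 + D + 1
          omega
        · exact up_injective (hg (up p))
    · have h1 := sigma_word_up (X := X) hQ hσ (by omega : 0 ≤ D + 1) (g j.1.1) (by
        rw [hg]; exact hent _ j.2)
      rw [hg] at h1
      rw [sigma_word0 hGr hE hQ hσ hx _ j.1.2 j.1.1.2.2 (hent _ j.2), h1]
      rfl
  have hsim2 : SimR c.grC (fun j : J => c.s (X.word0 j.1.1.1)) (fun j : J => wdeg 0 j.1.1.1 + 1)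
      (D + 1) := by
    have hmem : ∀ j : J, X.word0 j.1.1.1 ∈ X.gr 0 (wdeg 0 j.1.1.1) ⊓ Subalgebra.toSubmodule X.base := fun j =>
      ⟨word0_mem hGr hQ hx _ (hent _ j.2), hB.1 _ (hent _ j.2)⟩
    have e1 : 1 + D = D + 1 := by omega
    rw [e1] at hsim
    refine SimR.of_map c.π c.one_mem c.mul_mem (fun j _ => c.s_mem _ _ (hmem j))
      (fun t ht => c.π_inj t (by omega)) (fun t ht => c.π_even t (by omega)) ?_
    have e2 : (fun j : J => c.π (c.s (X.word0 j.1.1.1))) = fun j : J => X.σ 0 (X.word0 j.1.1.1) := by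
      funext j
      exact c.π_s _ (hmem j).2
    rw [e2]
    exact hsim
  have hpoly := c.loop J (fun j => X.word0 j.1.1.1) (fun j => wdeg 0 j.1.1.1) (fun j => by
      rcases hL : j.1.1.1 with _ | ⟨i, L⟩
      · exact absurd hL j.1.2
      · have := j.1.1.2.2 i (by rw [hL]; exact List.mem_cons_self)
        show 1 ≤ wdeg 0 (i :: L)
        rw [wdeg_cons]; omega)
    (fun j => ⟨word0_mem hGr hQ hx _ (hent _ j.2), hB.1 _ (hent _ j.2)⟩) hsim2
  have hpoly2 : PolyR (fun t => X.gr 0 t ⊓ Subalgebra.toSubmodule X.base) (fun I : Wd0 => X.word0 I.1.1)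
      (fun I : Wd0 => wdeg 0 I.1.1) D :=
    (PolyR.subtype_iff (fun I : Wd0 => wdeg 0 I.1.1 ≤ D + 1) (fun I hI => hI)).1 hpoly
  rw [polyR_iff] at hpoly2
  exact ⟨hpoly2.1, fun t ht => hpoly2.2 t (by omega)⟩

end Crest.Agent.R204.Ind979
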