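import Mathlib
import Crest.Agent.R204.BarIface_334

-- ▼ part R204/Koszul_459
section

/-!
# Row 204, block B: the bar complex of a polynomial algebra over `F₂` (Koszulness), owner helper459

`Bar ι` = reduced bar complex of `S(V) = MvPolynomial ι (ZMod 2)` on words of nonzero monomials.
Main results: `bd_bd`, `exact`, `exact_weight`, `asym_not_bd`.
-/

set_option autoImplicit false
set_option linter.unusedSectionVars false
set_option linter.unusedSimpArgs false

namespace Crest.Agent.R204.Koszul459

open Finsupp

variable {ι : Type*}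

/-- nonzero monomials -/
abbrev NMon (ι : Type*) := {m : ι →₀ ℕ // m ≠ 0}

/-- words of nonzero monomials -/
abbrev Wd (ι : Type*) := List (NMon ι)

/-- the reduced bar complex of the polynomial algebra on `ι` -/
abbrev Bar (ι : Type*) := Wd ι →₀ ZMod 2

theorem add_ne_zero_right' (a b : ι →₀ ℕ) (h : b ≠ 0) : a + b ≠ 0 := by
  intro h'
  apply h
  ext i
  have := DFunLike.congr_fun h' i
  simp only [Finsupp.add_apply, Finsupp.coe_zero, Pi.zero_apply] at this ⊢
  omega

/-- product of a monomial and a nonzero monomial -/
noncomputable def act (a : ι →₀ ℕ) (b : NMon ι) : NMon ι := ⟨a + b.1, add_ne_zero_right' a b.1 b.2⟩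

@[simp] theorem act_zero (b : NMon ι) : act 0 b = b := by
  apply Subtype.ext; simp [act]

theorem act_act (a b : ι →₀ ℕ) (c : NMon ι) : act a (act b c) = act (a + b) c := by
  apply Subtype.ext; simp [act, add_assoc]

/-- put a letter in front -/
noncomputable def consL (a : NMon ι) : Bar ι →ₗ[ZMod 2] Bar ι :=
  Finsupp.lmapDomain (ZMod 2) (ZMod 2) (List.cons a)

/-- multiply the head of words by `a` (the empty word goes to `0`) -/
noncomputable def mulHW (a : ι →₀ ℕ) : Wd ι → Bar ι
  | [] => 0
  | b :: w => single (act a b :: w) 1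

/-- multiply the head by `a` -/
noncomputable def mulH (a : ι →₀ ℕ) : Bar ι →ₗ[ZMod 2] Bar ι :=
  Finsupp.linearCombination (ZMod 2) (mulHW a)

@[simp] theorem consL_single (a : NMon ι) (w : Wd ι) (r : ZMod 2) :
    consL a (single w r) = single (a :: w) r := by
  simp [consL, Finsupp.lmapDomain_apply, Finsupp.mapDomain_single]

@[simp] theorem mulH_single_nil (a : ι →₀ ℕ) (r : ZMod 2) : mulH a (single [] r) = 0 := by
  simp [mulH, mulHW]

@[simp] theorem mulH_single_cons (a : ι →₀ ℕ) (b : NMon ι) (w : Wd ι) (r : ZMod 2) :
    mulH a (single (b :: w) r) = single (act a b :: w) r := by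
  simp [mulH, mulHW]

/-- bar differential of a word -/
noncomputable def bdW : Wd ι → Bar ι
  | [] => 0
  | a :: w => mulHW a.1 w + consL a (bdW w)

/-- bar differential -/
noncomputable def bd : Bar ι →ₗ[ZMod 2] Bar ι := Finsupp.linearCombination (ZMod 2) bdW

@[simp] theorem bd_single_nil (r : ZMod 2) : bd (single ([] : Wd ι) r) = 0 := by
  simp [bd, bdW]

theorem bd_single_cons (a : NMon ι) (w : Wd ι) (r : ZMod 2) :
    bd (single (a :: w) r) = mulH a.1 (single w r) + consL a (bd (single w r)) := by
  simp only [bd, Finsupp.linearCombination_single, bdW, smul_add, mulH, map_smul]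

theorem bd_consL (a : NMon ι) (x : Bar ι) : bd (consL a x) = mulH a.1 x + consL a (bd x) := by
  induction x using Finsupp.induction_linear with
  | zero => simp
  | add f g hf hg => rw [map_add, map_add, hf, hg, map_add, map_add, map_add]; abel
  | single w r => rw [consL_single, bd_single_cons]

theorem mulH_mulH (a b : ι →₀ ℕ) (x : Bar ι) : mulH a (mulH b x) = mulH (a + b) x := by
  induction x using Finsupp.induction_linear with
  | zero => simp
  | add f g hf hg => simp only [map_add, hf, hg]
  | single w r =>
    cases w with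
    | nil => simp
    | cons c w => simp [act_act]

theorem mulH_consL (a : ι →₀ ℕ) (b : NMon ι) (x : Bar ι) :
    mulH a (consL b x) = consL (act a b) x := by
  induction x using Finsupp.induction_linear with
  | zero => simp
  | add f g hf hg => simp only [map_add, hf, hg]
  | single w r => simp

theorem char2 {M : Type*} [AddCommGroup M] [Module (ZMod 2) M] (x : M) : x + x = 0 := by
  rw [← two_smul (ZMod 2) x]
  have : (2 : ZMod 2) = 0 := rfl
  rw [this, zero_smul]



theorem bd_mulH (a : ι →₀ ℕ) (x : Bar ι) : bd (mulH a x) = mulH a (bd x) := by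
  induction x using Finsupp.induction_linear with
  | zero => simp
  | add f g hf hg => simp only [map_add, hf, hg]
  | single w r =>
    cases w with
    | nil => simp
    | cons b w =>
      rw [mulH_single_cons, bd_single_cons, bd_single_cons, map_add, mulH_mulH, mulH_consL]
      rfl

theorem bd_bd (x : Bar ι) : bd (bd x) = 0 := by
  induction x using Finsupp.induction_linear with
  | zero => simp
  | add f g hf hg => rw [map_add, map_add, hf, hg, add_zero]
  | single w r =>
    induction w with
    | nil => simp
    | cons a w ih =>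
      rw [bd_single_cons, map_add, bd_mulH, bd_consL, ih, map_zero, add_zero, char2]

/-! ## The Koszul–bar double complex -/

/-- the triple space `Λ ⊗ S ⊗ Bar` -/
abbrev DD (ι : Type*) := (Finset ι × (ι →₀ ℕ) × Wd ι) →₀ ZMod 2

/-- `w ↦ (S, a, w)` -/
noncomputable def pre (S : Finset ι) (a : ι →₀ ℕ) : Bar ι →ₗ[ZMod 2] DD ι :=
  Finsupp.lmapDomain (ZMod 2) (ZMod 2) (fun w => (S, a, w))

/-- head part of the twisted differential -/
noncomputable def hdW (S : Finset ι) (a : ι →₀ ℕ) : Wd ι → DD ι
  | [] => 0
  | b :: w => single (S, a + b.1, w) 1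

/-- head part of the twisted differential -/
noncomputable def hd (S : Finset ι) (a : ι →₀ ℕ) : Bar ι →ₗ[ZMod 2] DD ι :=
  Finsupp.linearCombination (ZMod 2) (hdW S a)

@[simp] theorem pre_single (S : Finset ι) (a : ι →₀ ℕ) (w : Wd ι) (r : ZMod 2) :
    pre S a (single w r) = single (S, a, w) r := by
  simp [pre, Finsupp.lmapDomain_apply, Finsupp.mapDomain_single]

@[simp] theorem hd_single_nil (S : Finset ι) (a : ι →₀ ℕ) (r : ZMod 2) :
    hd S a (single [] r) = 0 := by
  simp [hd, hdW]

@[simp] theorem hd_single_cons (S : Finset ι) (a : ι →₀ ℕ) (b : NMon ι) (w : Wd ι) (r : ZMod 2) :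
    hd S a (single (b :: w) r) = single (S, a + b.1, w) r := by
  simp [hd, hdW]

/-- bar direction differential -/
noncomputable def del : DD ι →ₗ[ZMod 2] DD ι :=
  Finsupp.linearCombination (ZMod 2)
    (fun t => hd t.1 t.2.1 (single t.2.2 1) + pre t.1 t.2.1 (bd (single t.2.2 1)))

theorem del_pre (S : Finset ι) (a : ι →₀ ℕ) (x : Bar ι) :
    del (pre S a x) = hd S a x + pre S a (bd x) := by
  induction x using Finsupp.induction_linear with
  | zero => simp
  | add f g hf hg => simp only [map_add, hf, hg]; abel
  | single w r =>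
    have : (single w r : Bar ι) = r • single w 1 := by simp
    rw [pre_single]
    simp only [del, Finsupp.linearCombination_single, smul_add]
    rw [this]
    simp only [map_smul]

theorem hd_mulH (S : Finset ι) (a b : ι →₀ ℕ) (x : Bar ι) :
    hd S a (mulH b x) = hd S (a + b) x := by
  induction x using Finsupp.induction_linear with
  | zero => simp
  | add f g hf hg => simp only [map_add, hf, hg]
  | single w r =>
    cases w with
    | nil => simp
    | cons c w => simp [act, add_assoc]

theorem hd_consL (S : Finset ι) (a : ι →₀ ℕ) (b : NMon ι) (x : Bar ι) :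
    hd S a (consL b x) = pre S (a + b.1) x := by
  induction x using Finsupp.induction_linear with
  | zero => simp
  | add f g hf hg => simp only [map_add, hf, hg]
  | single w r => simp

theorem del_hd (S : Finset ι) (a : ι →₀ ℕ) (x : Bar ι) : del (hd S a x) = hd S a (bd x) := by
  induction x using Finsupp.induction_linear with
  | zero => simp
  | add f g hf hg => simp only [map_add, hf, hg]
  | single w r =>
    cases w with
    | nil => simp
    | cons b w =>
      rw [hd_single_cons, ← pre_single, del_pre, bd_single_cons, map_add, hd_mulH, hd_consL]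

theorem del_del (x : DD ι) : del (del x) = 0 := by
  induction x using Finsupp.induction_linear with
  | zero => simp
  | add f g hf hg => rw [map_add, map_add, hf, hg, add_zero]
  | single t r =>
    obtain ⟨S, a, w⟩ := t
    rw [← pre_single, del_pre, map_add, del_hd, del_pre, bd_bd, map_zero, add_zero, char2]

/-- the `S ⊗ Bar` contraction -/
noncomputable def sW : (Finset ι × (ι →₀ ℕ) × Wd ι) → DD ι := fun t =>
  open Classical in
  if h : t.2.1 = 0 then 0 else single (t.1, 0, ⟨t.2.1, h⟩ :: t.2.2) 1

/-- the `S ⊗ Bar` contraction -/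
noncomputable def sB : DD ι →ₗ[ZMod 2] DD ι := Finsupp.linearCombination (ZMod 2) sW

theorem sB_single_zero (S : Finset ι) (w : Wd ι) (r : ZMod 2) :
    sB (single (S, 0, w) r) = 0 := by
  simp [sB, sW]

theorem sB_single_ne (S : Finset ι) (a : ι →₀ ℕ) (h : a ≠ 0) (w : Wd ι) (r : ZMod 2) :
    sB (single (S, a, w) r) = single (S, 0, ⟨a, h⟩ :: w) r := by
  simp [sB, sW, h]

theorem sB_pre_zero (S : Finset ι) (x : Bar ι) : sB (pre S 0 x) = 0 := by
  induction x using Finsupp.induction_linear with
  | zero => simp
  | add f g hf hg => simp only [map_add, hf, hg, add_zero]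
  | single w r => simp [sB_single_zero]

theorem sB_pre_ne (S : Finset ι) (a : ι →₀ ℕ) (h : a ≠ 0) (x : Bar ι) :
    sB (pre S a x) = pre S 0 (consL ⟨a, h⟩ x) := by
  induction x using Finsupp.induction_linear with
  | zero => simp
  | add f g hf hg => simp only [map_add, hf, hg]
  | single w r => simp [sB_single_ne S a h]

theorem contrB_single_ne (S : Finset ι) (a : ι →₀ ℕ) (h : a ≠ 0) (w : Wd ι) (r : ZMod 2) :
    del (sB (single (S, a, w) r)) + sB (del (single (S, a, w) r)) = single (S, a, w) r := by
  rw [sB_single_ne S a h, ← pre_single, del_pre, ← pre_single, del_pre, map_add,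
    sB_pre_ne S a h, hd_single_cons, bd_single_cons, map_add, zero_add]
  have : sB (hd S a (single w r)) = pre S 0 (mulH a (single w r)) := by
    cases w with
    | nil => simp
    | cons b w =>
      rw [hd_single_cons, sB_single_ne S (a + b.1) (add_ne_zero_right' a b.1 b.2),
        mulH_single_cons, pre_single]
      rfl
  rw [this, pre_single]
  have e : ∀ (A B C : DD ι), A + (B + C) + (B + C) = A := by
    intro A B C
    rw [add_assoc, char2, add_zero]
  exact e _ _ _

theorem contrB_single_cons (S : Finset ι) (a : ι →₀ ℕ) (b : NMon ι) (w : Wd ι) (r : ZMod 2) :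
    del (sB (single (S, a, b :: w) r)) + sB (del (single (S, a, b :: w) r))
      = single (S, a, b :: w) r := by
  by_cases h : a = 0
  · subst h
    rw [sB_single_zero, map_zero, zero_add, ← pre_single, del_pre, map_add, sB_pre_zero, add_zero,
      hd_single_cons, zero_add, sB_single_ne S b.1 b.2, pre_single]
  · exact contrB_single_ne S a h _ r

/-! ### supports -/

theorem map_supp {α β : Type*} (f : (α →₀ ZMod 2) →ₗ[ZMod 2] (β →₀ ZMod 2)) {s : Set α}
    {s' : Set β} (h : ∀ t ∈ s, f (single t 1) ∈ supported (ZMod 2) (ZMod 2) s')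
    {x : α →₀ ZMod 2} (hx : x ∈ supported (ZMod 2) (ZMod 2) s) :
    f x ∈ supported (ZMod 2) (ZMod 2) s' := by
  rw [Finsupp.supported_eq_span_single] at hx
  refine Submodule.span_induction (p := fun x _ => f x ∈ supported (ZMod 2) (ZMod 2) s')
    ?_ ?_ ?_ ?_ hx
  · rintro _ ⟨t, ht, rfl⟩
    exact h t ht
  · simp
  · intro a b _ _ ha hb; rw [map_add]; exact Submodule.add_mem _ ha hb
  · intro r a _ ha; rw [map_smul]; exact Submodule.smul_mem _ _ ha

theorem eq_on_supp {α : Type*} {M : Type*} [AddCommGroup M] [Module (ZMod 2) M]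
    (f g : (α →₀ ZMod 2) →ₗ[ZMod 2] M) {s : Set α}
    (h : ∀ t ∈ s, f (single t 1) = g (single t 1))
    {x : α →₀ ZMod 2} (hx : x ∈ supported (ZMod 2) (ZMod 2) s) : f x = g x := by
  rw [Finsupp.supported_eq_span_single] at hx
  refine Submodule.span_induction (p := fun x _ => f x = g x) ?_ ?_ ?_ ?_ hx
  · rintro _ ⟨t, ht, rfl⟩
    exact h t ht
  · simp
  · intro a b _ _ ha hb; rw [map_add, map_add, ha, hb]
  · intro r a _ ha; rw [map_smul, map_smul, ha]

theorem single_supp {α : Type*} {s : Set α} {t : α} (h : t ∈ s) (r : ZMod 2) :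
    (single t r : α →₀ ZMod 2) ∈ supported (ZMod 2) (ZMod 2) s :=
  Finsupp.single_mem_supported _ _ h

section weights

variable {A : Type*} [AddCommMonoid A]

/-- total weight of a word -/
noncomputable def wt (D : (ι →₀ ℕ) →+ A) (w : Wd ι) : A := (w.map (fun m => D m.1)).sum

@[simp] theorem wt_nil (D : (ι →₀ ℕ) →+ A) : wt D ([] : Wd ι) = 0 := rfl
@[simp] theorem wt_cons (D : (ι →₀ ℕ) →+ A) (a : NMon ι) (w : Wd ι) :
    wt D (a :: w) = D a.1 + wt D w := by simp [wt]

/-- words of length `p` and weight `q` -/
def WS (D : (ι →₀ ℕ) →+ A) (p : ℕ) (q : A) : Set (Wd ι) := {w | w.length = p ∧ wt D w = q}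

theorem bd_single_supp (D : (ι →₀ ℕ) →+ A) (w : Wd ι) : ∀ (p : ℕ) (q : A),
    w.length = p + 1 → wt D w = q → bd (single w 1) ∈ supported (ZMod 2) (ZMod 2) (WS D p q) := by
  induction w with
  | nil => intro p q h; simp at h
  | cons a w ih =>
    intro p q h1 h2
    rw [bd_single_cons]
    simp only [List.length_cons, Nat.add_right_cancel_iff] at h1
    rw [wt_cons] at h2
    refine Submodule.add_mem _ ?_ ?_
    · cases w with
      | nil => simp
      | cons b w =>
        rw [mulH_single_cons]
        refine single_supp ?_ _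
        refine ⟨by simpa using h1, ?_⟩
        rw [wt_cons] at h2 ⊢
        simp only [act, map_add]
        rw [← h2, add_assoc]
    · cases p with
      | zero =>
        have : w = [] := List.eq_nil_of_length_eq_zero h1
        subst this
        simp
      | succ p =>
        refine map_supp (consL a) (s := WS D p (wt D w)) ?_ (ih p _ h1 rfl)
        rintro t ⟨ht1, ht2⟩
        rw [consL_single]
        refine single_supp ?_ _
        refine ⟨by simp [ht1], ?_⟩
        rw [wt_cons, ht2, h2]

theorem bd_supp (D : (ι →₀ ℕ) →+ A) {p : ℕ} {q : A} {x : Bar ι}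
    (hx : x ∈ supported (ZMod 2) (ZMod 2) (WS D (p + 1) q)) :
    bd x ∈ supported (ZMod 2) (ZMod 2) (WS D p q) :=
  map_supp bd (fun w hw => bd_single_supp D w p q hw.1 hw.2) hx


end weights

section Koszul

variable [LinearOrder ι]

/-- Koszul direction differential -/
noncomputable def kap : DD ι →ₗ[ZMod 2] DD ι :=
  Finsupp.linearCombination (ZMod 2)
    (fun t => ∑ i ∈ t.1, single (t.1.erase i, t.2.1 + single i 1, t.2.2) 1)

theorem kap_single (S : Finset ι) (a : ι →₀ ℕ) (w : Wd ι) (r : ZMod 2) :
    kap (single (S, a, w) r) = ∑ i ∈ S, single (S.erase i, a + single i 1, w) r := by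
  simp [kap, Finset.smul_sum]

theorem kap_pre (S : Finset ι) (a : ι →₀ ℕ) (x : Bar ι) :
    kap (pre S a x) = ∑ i ∈ S, pre (S.erase i) (a + single i 1) x := by
  induction x using Finsupp.induction_linear with
  | zero => simp
  | add f g hf hg => simp only [map_add, hf, hg, Finset.sum_add_distrib]
  | single w r => simp [kap_single]

theorem kap_hd (S : Finset ι) (a : ι →₀ ℕ) (x : Bar ι) :
    kap (hd S a x) = ∑ i ∈ S, hd (S.erase i) (a + single i 1) x := by
  induction x using Finsupp.induction_linear with
  | zero => simp
  | add f g hf hg => simp only [map_add, hf, hg, Finset.sum_add_distrib]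
  | single w r =>
    cases w with
    | nil => simp
    | cons b w =>
      simp only [hd_single_cons, kap_single]
      refine Finset.sum_congr rfl fun i _ => ?_
      rw [add_right_comm]

theorem kap_del (x : DD ι) : kap (del x) = del (kap x) := by
  induction x using Finsupp.induction_linear with
  | zero => simp
  | add f g hf hg => simp only [map_add, hf, hg]
  | single t r =>
    obtain ⟨S, a, w⟩ := t
    rw [← pre_single, del_pre, map_add, kap_pre, kap_hd, kap_pre, map_sum, ← Finset.sum_add_distrib]
    refine Finset.sum_congr rfl fun i _ => ?_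
    rw [del_pre]

theorem kap_kap (x : DD ι) : kap (kap x) = 0 := by
  induction x using Finsupp.induction_linear with
  | zero => simp
  | add f g hf hg => rw [map_add, map_add, hf, hg, add_zero]
  | single t r =>
    obtain ⟨S, a, w⟩ := t
    rw [kap_single, map_sum]
    simp only [kap_single]
    rw [Finset.sum_sigma']
    refine Finset.sum_involution (fun p _ => ⟨p.2, p.1⟩) ?_ ?_ ?_ ?_
    · rintro ⟨i, j⟩ hij
      simp only [Finset.mem_sigma, Finset.mem_erase] at hij
      have e1 : (S.erase i).erase j = (S.erase j).erase i := Finset.erase_right_comm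
      have e2 : a + single i 1 + single j 1 = a + single j 1 + single i 1 := by
        rw [add_right_comm]
      dsimp only
      rw [e1, e2, char2]
    · rintro ⟨i, j⟩ hij - h
      simp only [Finset.mem_sigma, Finset.mem_erase] at hij
      simp only [Sigma.mk.injEq] at h
      exact hij.2.1 h.1
    · rintro ⟨i, j⟩ hij
      simp only [Finset.mem_sigma, Finset.mem_erase] at hij ⊢
      exact ⟨hij.2.2, Ne.symm hij.2.1, hij.1⟩
    · rintro ⟨i, j⟩ _
      rfl

/-- all variables occurring in `(S, a)` -/
def vars (S : Finset ι) (a : ι →₀ ℕ) : Finset ι := S ∪ a.support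

theorem vars_step (S : Finset ι) (a : ι →₀ ℕ) (i : ι) (hi : i ∈ S) :
    vars (S.erase i) (a + single i 1) = vars S a := by
  ext j
  simp only [vars, Finset.mem_union, Finset.mem_erase, Finsupp.mem_support_iff, Finsupp.add_apply]
  by_cases hj : j = i
  · subst hj; simp [hi]
  · rw [Finsupp.single_apply, if_neg (Ne.symm hj)]; simp [hj]

/-- the Koszul contraction -/
noncomputable def hW : (Finset ι × (ι →₀ ℕ) × Wd ι) → DD ι := fun t =>
  if h : (vars t.1 t.2.1).Nonempty then
    if (vars t.1 t.2.1).max' h ∈ t.1 then 0
    else single (insert ((vars t.1 t.2.1).max' h) t.1,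
      t.2.1 - single ((vars t.1 t.2.1).max' h) 1, t.2.2) 1
  else 0

/-- the Koszul contraction -/
noncomputable def hK : DD ι →ₗ[ZMod 2] DD ι := Finsupp.linearCombination (ZMod 2) hW

theorem hK_single_mem (S : Finset ι) (a : ι →₀ ℕ) (w : Wd ι) (r : ZMod 2) (y : ι)
    (hy : y ∈ vars S a) (hm : ∀ j ∈ vars S a, j ≤ y) (h : y ∈ S) :
    hK (single (S, a, w) r) = 0 := by
  have hne : (vars S a).Nonempty := ⟨y, hy⟩
  have hmax : (vars S a).max' hne = y :=
    le_antisymm (Finset.max'_le _ _ _ hm) (Finset.le_max' _ _ hy)
  simp [hK, hW, hne, hmax, h]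

theorem hK_single_not_mem (S : Finset ι) (a : ι →₀ ℕ) (w : Wd ι) (r : ZMod 2) (y : ι)
    (hy : y ∈ vars S a) (hm : ∀ j ∈ vars S a, j ≤ y) (h : y ∉ S) :
    hK (single (S, a, w) r) = single (insert y S, a - single y 1, w) r := by
  have hne : (vars S a).Nonempty := ⟨y, hy⟩
  have hmax : (vars S a).max' hne = y :=
    le_antisymm (Finset.max'_le _ _ _ hm) (Finset.le_max' _ _ hy)
  simp [hK, hW, hne, hmax, h]

theorem contrK_single (S : Finset ι) (a : ι →₀ ℕ) (w : Wd ι) (r : ZMod 2)
    (h : ¬ (S = ∅ ∧ a = 0)) :
    kap (hK (single (S, a, w) r)) + hK (kap (single (S, a, w) r)) = single (S, a, w) r := by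
  have hne : (vars S a).Nonempty := by
    rw [Finset.nonempty_iff_ne_empty]
    intro h0
    apply h
    rw [vars, Finset.union_eq_empty] at h0
    exact ⟨h0.1, Finsupp.support_eq_empty.mp h0.2⟩
  obtain ⟨y, hy, hm⟩ : ∃ y ∈ vars S a, ∀ j ∈ vars S a, j ≤ y :=
    ⟨(vars S a).max' hne, Finset.max'_mem _ _, fun j hj => Finset.le_max' _ _ hj⟩
  rw [kap_single, map_sum]
  by_cases hyS : y ∈ S
  · rw [hK_single_mem S a w r y hy hm hyS, map_zero, zero_add]
    rw [Finset.sum_eq_single y]
    · rw [hK_single_not_mem (S.erase y) (a + single y 1) w r y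
        (by rw [vars_step S a y hyS]; exact hy) (by rw [vars_step S a y hyS]; exact hm)
        (Finset.notMem_erase _ _), Finset.insert_erase hyS, add_tsub_cancel_right]
    · intro i hi hne
      rw [hK_single_mem (S.erase i) (a + single i 1) w r y
        (by rw [vars_step S a i hi]; exact hy) (by rw [vars_step S a i hi]; exact hm)
        (Finset.mem_erase.mpr ⟨Ne.symm hne, hyS⟩)]
    · intro h; exact absurd hyS h
  · have hay : a y ≠ 0 := by
      rw [vars, Finset.mem_union] at hy
      exact Finsupp.mem_support_iff.mp (hy.resolve_left hyS)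
    have hle : single y 1 ≤ a := by
      rw [Finsupp.single_le_iff]; omega
    rw [hK_single_not_mem S a w r y hy hm hyS, kap_single, Finset.sum_insert hyS,
      Finset.erase_insert hyS, tsub_add_cancel_of_le hle]
    have : ∑ i ∈ S, hK (single (S.erase i, a + single i 1, w) r) =
        ∑ i ∈ S, single ((insert y S).erase i, a - single y 1 + single i 1, w) r := by
      refine Finset.sum_congr rfl fun i hi => ?_
      have hiy : i ≠ y := fun h => hyS (h ▸ hi)
      rw [hK_single_not_mem (S.erase i) (a + single i 1) w r y
        (by rw [vars_step S a i hi]; exact hy) (by rw [vars_step S a i hi]; exact hm)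
        (fun h => hyS (Finset.mem_of_mem_erase h))]
      rw [Finset.erase_insert_of_ne (Ne.symm hiy), tsub_add_eq_add_tsub hle]
    rw [this, add_assoc, char2, add_zero]

/-- total degree of a triple -/
noncomputable def dg (t : Finset ι × (ι →₀ ℕ) × Wd ι) : ℕ :=
  t.1.card + Finsupp.degree t.2.1 + wt Finsupp.degree t.2.2

/-- graded pieces with large total degree -/
def TS (N i j : ℕ) : Set (Finset ι × (ι →₀ ℕ) × Wd ι) :=
  {t | t.1.card = i ∧ t.2.2.length = j ∧ N < dg t}

theorem del_supp {N i j : ℕ} {x : DD ι}
    (hx : x ∈ supported (ZMod 2) (ZMod 2) (TS N i (j + 1))) :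
    del x ∈ supported (ZMod 2) (ZMod 2) (TS (ι := ι) N i j) := by
  refine map_supp del ?_ hx
  rintro ⟨S, a, w⟩ ⟨h1, h2, h3⟩
  simp only at h1 h2
  simp only [dg] at h3
  rw [← pre_single, del_pre]
  refine Submodule.add_mem _ ?_ ?_
  · cases w with
    | nil => simp at h2
    | cons b w =>
      rw [hd_single_cons]
      refine single_supp ?_ _
      refine ⟨h1, by simpa using h2, ?_⟩
      simp only [dg, wt_cons, map_add] at h3 ⊢
      omega
  · refine map_supp (pre S a) (s := WS Finsupp.degree j (wt Finsupp.degree w)) ?_
      (bd_single_supp Finsupp.degree w j _ h2 rfl)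
    rintro t ⟨ht1, ht2⟩
    rw [pre_single]
    refine single_supp ?_ _
    refine ⟨h1, ht1, ?_⟩
    simp only [dg]
    rw [ht2]; exact h3

theorem kap_supp {N i j : ℕ} {x : DD ι}
    (hx : x ∈ supported (ZMod 2) (ZMod 2) (TS N (i + 1) j)) :
    kap x ∈ supported (ZMod 2) (ZMod 2) (TS (ι := ι) N i j) := by
  refine map_supp kap ?_ hx
  rintro ⟨S, a, w⟩ ⟨h1, h2, h3⟩
  simp only at h1 h2
  simp only [dg] at h3
  rw [kap_single]
  refine Submodule.sum_mem _ fun k hk => single_supp ?_ _
  refine ⟨?_, h2, ?_⟩
  · show (S.erase k).card = i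
    rw [Finset.card_erase_of_mem hk, h1]; rfl
  · simp only [dg, Finset.card_erase_of_mem hk, map_add, Finsupp.degree_single]
    omega

theorem hK_supp {N i j : ℕ} {x : DD ι}
    (hx : x ∈ supported (ZMod 2) (ZMod 2) (TS N i j)) :
    hK x ∈ supported (ZMod 2) (ZMod 2) (TS (ι := ι) N (i + 1) j) := by
  refine map_supp hK ?_ hx
  rintro ⟨S, a, w⟩ ⟨h1, h2, h3⟩
  simp only at h1 h2
  simp only [dg] at h3
  by_cases hne : (vars S a).Nonempty
  · obtain ⟨y, hy, hm⟩ : ∃ y ∈ vars S a, ∀ j ∈ vars S a, j ≤ y :=
      ⟨(vars S a).max' hne, Finset.max'_mem _ _, fun j hj => Finset.le_max' _ _ hj⟩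
    by_cases hyS : y ∈ S
    · rw [hK_single_mem S a w 1 y hy hm hyS]; exact Submodule.zero_mem _
    · rw [hK_single_not_mem S a w 1 y hy hm hyS]
      have hay : a y ≠ 0 := by
        rw [vars, Finset.mem_union] at hy
        exact Finsupp.mem_support_iff.mp (hy.resolve_left hyS)
      have hle : single y 1 ≤ a := by
        rw [Finsupp.single_le_iff]; omega
      have hd : Finsupp.degree (a - single y 1) + 1 = Finsupp.degree a := by
        have := congrArg Finsupp.degree (tsub_add_cancel_of_le hle)
        rw [map_add, Finsupp.degree_single] at this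
        exact this
      refine single_supp ?_ _
      refine ⟨by simp [Finset.card_insert_of_notMem hyS, h1], h2, ?_⟩
      simp only [dg, Finset.card_insert_of_notMem hyS]
      omega
  · have : hK (single (S, a, w) 1) = 0 := by simp [hK, hW, hne]
    rw [this]; exact Submodule.zero_mem _

theorem sB_supp {N i j : ℕ} {x : DD ι}
    (hx : x ∈ supported (ZMod 2) (ZMod 2) (TS N i j)) :
    sB x ∈ supported (ZMod 2) (ZMod 2) (TS (ι := ι) N i (j + 1)) := by
  refine map_supp sB ?_ hx
  rintro ⟨S, a, w⟩ ⟨h1, h2, h3⟩
  simp only at h1 h2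
  simp only [dg] at h3
  by_cases h : a = 0
  · subst h; rw [sB_single_zero]; exact Submodule.zero_mem _
  · rw [sB_single_ne S a h]
    refine single_supp ?_ _
    refine ⟨h1, by simp [h2], ?_⟩
    simp only [dg, wt_cons, map_zero]
    omega

theorem contrK_supp {i j : ℕ} {N : ℕ} {x : DD ι}
    (hx : x ∈ supported (ZMod 2) (ZMod 2) (TS N (i + 1) j)) :
    kap (hK x) + hK (kap x) = x := by
  refine eq_on_supp (kap ∘ₗ hK + hK ∘ₗ kap) LinearMap.id ?_ hx
  rintro ⟨S, a, w⟩ ⟨h1, -, -⟩
  refine contrK_single S a w 1 ?_
  rintro ⟨h, -⟩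
  simp [h] at h1

theorem contrB_supp_succ {i j : ℕ} {N : ℕ} {x : DD ι}
    (hx : x ∈ supported (ZMod 2) (ZMod 2) (TS N i (j + 1))) :
    del (sB x) + sB (del x) = x := by
  refine eq_on_supp (del ∘ₗ sB + sB ∘ₗ del) LinearMap.id ?_ hx
  rintro ⟨S, a, w⟩ ⟨-, h2, -⟩
  cases w with
  | nil => simp at h2
  | cons b w => exact contrB_single_cons S a b w 1

theorem contrB_supp_zero {i : ℕ} {x : DD ι}
    (hx : x ∈ supported (ZMod 2) (ZMod 2) (TS i i 0)) :
    del (sB x) + sB (del x) = x := by
  refine eq_on_supp (del ∘ₗ sB + sB ∘ₗ del) LinearMap.id ?_ hx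
  rintro ⟨S, a, w⟩ ⟨h1, h2, h3⟩
  simp only at h1 h2
  have hw : w = [] := List.eq_nil_of_length_eq_zero h2
  subst hw
  refine contrB_single_ne S a ?_ _ 1
  rintro rfl
  simp [dg, h1] at h3

theorem del_zero_of_supp {N i : ℕ} {x : DD ι}
    (hx : x ∈ supported (ZMod 2) (ZMod 2) (TS N i 0)) : del x = 0 := by
  refine (eq_on_supp del 0 ?_ hx).trans rfl
  rintro ⟨S, a, w⟩ ⟨-, h2, -⟩
  simp only at h2
  have hw : w = [] := List.eq_nil_of_length_eq_zero h2
  subst hw
  rw [← pre_single, del_pre]; simp

/-- the zigzag -/
theorem zigzag (j : ℕ) : ∀ (i : ℕ) (z : DD ι),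
    z ∈ supported (ZMod 2) (ZMod 2) (TS (i + j) i j) → kap (del z) = 0 →
    kap (hK (del z)) = del z →
    ∃ u ∈ supported (ZMod 2) (ZMod 2) (TS (i + j) i (j + 1)), ∃ u' : DD ι,
      z = del u + kap u' := by
  induction j with
  | zero =>
    intro i z hz _ _
    refine ⟨sB z, sB_supp hz, 0, ?_⟩
    have := contrB_supp_zero hz
    rw [del_zero_of_supp hz, map_zero, add_zero] at this
    rw [map_zero, add_zero, this]
  | succ j ih =>
    intro i z hz h1 h2
    have hz' : hK (del z) ∈ supported (ZMod 2) (ZMod 2) (TS (i + (j + 1)) (i + 1) j) :=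
      hK_supp (del_supp hz)
    have e : i + (j + 1) = i + 1 + j := by omega
    have hk : kap (del (hK (del z))) = 0 := by rw [kap_del, h2, del_del]
    have hk2 : kap (hK (del (hK (del z)))) = del (hK (del z)) := by
      cases j with
      | zero => rw [del_zero_of_supp hz', map_zero, map_zero]
      | succ j =>
        have := contrK_supp (del_supp hz')
        rw [hk, map_zero, add_zero] at this
        exact this
    obtain ⟨u1, hu1, u1', hu⟩ := ih (i + 1) (hK (del z)) (e ▸ hz') hk hk2
    have hu1' : u1 ∈ supported (ZMod 2) (ZMod 2) (TS (ι := ι) (i + (j + 1)) (i + 1) (j + 1)) := by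
      rw [e]; exact hu1
    have hd : del (z + kap u1) = 0 := by
      rw [map_add, ← kap_del]
      have : del u1 = hK (del z) + kap u1' := by
        rw [hu, add_assoc, char2, add_zero]
      rw [this, map_add, h2, kap_kap, add_zero, char2]
    have hs : z + kap u1 ∈ supported (ZMod 2) (ZMod 2) (TS (ι := ι) (i + (j + 1)) i (j + 1)) :=
      Submodule.add_mem _ hz (kap_supp hu1')
    have hc := contrB_supp_succ hs
    rw [hd, map_zero, add_zero] at hc
    refine ⟨sB (z + kap u1), sB_supp hs, u1, ?_⟩
    rw [hc, add_assoc, char2, add_zero]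

/-- projection to `Λ^0 ⊗ 1 ⊗ Bar` -/
noncomputable def proj : DD ι →ₗ[ZMod 2] Bar ι :=
  Finsupp.linearCombination (ZMod 2)
    (fun t => if t.1 = ∅ ∧ t.2.1 = 0 then single t.2.2 1 else 0)

theorem proj_pre (x : Bar ι) : proj (pre ∅ 0 x) = x := by
  induction x using Finsupp.induction_linear with
  | zero => simp
  | add f g hf hg => simp only [map_add, hf, hg]
  | single w r => simp [proj]

theorem proj_pre_ne (S : Finset ι) (a : ι →₀ ℕ) (h : ¬ (S = ∅ ∧ a = 0)) (x : Bar ι) :
    proj (pre S a x) = 0 := by
  induction x using Finsupp.induction_linear with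
  | zero => simp
  | add f g hf hg => simp only [map_add, hf, hg, add_zero]
  | single w r => simp [proj, h]

theorem proj_kap (x : DD ι) : proj (kap x) = 0 := by
  induction x using Finsupp.induction_linear with
  | zero => simp
  | add f g hf hg => rw [map_add, map_add, hf, hg, add_zero]
  | single t r =>
    obtain ⟨S, a, w⟩ := t
    rw [kap_single, map_sum]
    refine Finset.sum_eq_zero fun i _ => ?_
    rw [← pre_single]
    refine proj_pre_ne _ _ ?_ _
    rintro ⟨-, h⟩
    exact add_ne_zero_right' a (single i 1) (by simp) h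

theorem proj_del (x : DD ι) : proj (del x) = bd (proj x) := by
  induction x using Finsupp.induction_linear with
  | zero => simp
  | add f g hf hg => simp only [map_add, hf, hg]
  | single t r =>
    obtain ⟨S, a, w⟩ := t
    rw [← pre_single, del_pre, map_add]
    have h0 : proj (hd S a (single w r)) = 0 := by
      cases w with
      | nil => simp
      | cons b w =>
        rw [hd_single_cons, ← pre_single]
        refine proj_pre_ne _ _ ?_ _
        rintro ⟨-, h⟩
        exact add_ne_zero_right' a b.1 b.2 h
    rw [h0, zero_add]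
    by_cases h : S = ∅ ∧ a = 0
    · obtain ⟨rfl, rfl⟩ := h
      rw [proj_pre, proj_pre]
    · rw [proj_pre_ne S a h, proj_pre_ne S a h, map_zero]

end Koszul

/-- **Koszulness**: a cycle on words of length `p` all of whose words have polynomial degree `> p`
is a boundary. -/
theorem exact_excess (p : ℕ) (x : Bar ι)
    (hx : x ∈ supported (ZMod 2) (ZMod 2) {w : Wd ι | w.length = p ∧ p < wt Finsupp.degree w})
    (hb : bd x = 0) :
    ∃ y ∈ supported (ZMod 2) (ZMod 2) {w : Wd ι | w.length = p + 1}, bd y = x := by
  classical
  let _ : LinearOrder ι := linearOrderOfSTO WellOrderingRel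
  have hz : pre ∅ 0 x ∈ supported (ZMod 2) (ZMod 2) (TS (ι := ι) (0 + p) 0 p) := by
    refine map_supp (pre ∅ 0) ?_ hx
    rintro w ⟨hw1, hw2⟩
    rw [pre_single]
    refine single_supp ?_ _
    refine ⟨rfl, hw1, ?_⟩
    simp only [dg, Finset.card_empty, map_zero]
    omega
  have hd0 : del (pre ∅ 0 x) = hd (∅ : Finset ι) 0 x := by rw [del_pre, hb, map_zero, add_zero]
  have h1 : kap (del (pre ∅ 0 x)) = 0 := by rw [hd0, kap_hd, Finset.sum_empty]
  have h2 : kap (hK (del (pre ∅ 0 x))) = del (pre ∅ 0 x) := by
    have key : kap (hK (hd (∅ : Finset ι) 0 x)) + hK (kap (hd (∅ : Finset ι) 0 x))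
        = hd (∅ : Finset ι) 0 x := by
      clear hx hb hz hd0 h1
      induction x using Finsupp.induction_linear with
      | zero => simp
      | add f g hf hg =>
        simp only [map_add]
        rw [← hf, ← hg]
        simp only [map_add, hf, hg]
        have e : ∀ (A B C D : DD ι), A + B + (C + D) = A + C + (B + D) := by intros; abel
        rw [e, hf, hg]
      | single w r =>
        cases w with
        | nil => simp
        | cons b w =>
          rw [hd_single_cons]
          refine contrK_single _ _ _ _ ?_
          rintro ⟨-, h⟩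
          exact add_ne_zero_right' 0 b.1 b.2 h
    rw [← hd0, h1, map_zero, add_zero] at key
    exact key
  obtain ⟨u, hu, u', he⟩ := zigzag p 0 _ hz h1 h2
  refine ⟨proj u, ?_, ?_⟩
  · refine map_supp proj ?_ hu
    rintro ⟨S, a, w⟩ ⟨-, hw, -⟩
    simp only [proj, Finsupp.linearCombination_single, one_smul]
    split_ifs
    · refine single_supp ?_ _
      exact hw
    · exact Submodule.zero_mem _
  · rw [← proj_del]
    have := congrArg proj he
    rw [proj_pre, map_add, proj_kap, add_zero] at this
    exact this.symm

/-! ## Letters and antisymmetrisations -/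

/-- a variable as a nonzero monomial -/
noncomputable def lt (i : ι) : NMon ι := ⟨single i 1, by simp⟩

theorem lt_injective : Function.Injective (lt (ι := ι)) := by
  intro i j h
  have := congrArg Subtype.val h
  simpa [lt, Finsupp.single_left_inj] using this

theorem degree_lt (i : ι) : Finsupp.degree (lt i).1 = 1 := by simp [lt]

theorem one_le_degree (m : NMon ι) : 1 ≤ Finsupp.degree m.1 := by
  rw [Nat.one_le_iff_ne_zero]
  intro h
  exact m.2 ((Finsupp.degree_eq_zero_iff _).mp h)

theorem act_ne_lt (m m' : NMon ι) (i : ι) : act m.1 m' ≠ lt i := by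
  intro h
  have := congrArg (fun x : NMon ι => Finsupp.degree x.1) h
  simp only [act, map_add, degree_lt] at this
  have h1 := one_le_degree m
  have h2 := one_le_degree m'
  omega

theorem eq_lt_of_degree (m : NMon ι) (h : Finsupp.degree m.1 = 1) : ∃ i, m = lt i := by
  classical
  obtain ⟨i, hi⟩ : m.1.support.Nonempty := by
    rw [Finset.nonempty_iff_ne_empty, Ne, Finsupp.support_eq_empty]; exact m.2
  refine ⟨i, Subtype.ext ?_⟩
  have hi' : m.1 i ≠ 0 := Finsupp.mem_support_iff.mp hi
  have hle : single i 1 ≤ m.1 := by rw [Finsupp.single_le_iff]; omega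
  have := congrArg Finsupp.degree (tsub_add_cancel_of_le hle)
  rw [map_add, Finsupp.degree_single, h] at this
  have h0 : Finsupp.degree (m.1 - single i 1) = 0 := by omega
  rw [Finsupp.degree_eq_zero_iff] at h0
  have := tsub_add_cancel_of_le hle
  rw [h0, zero_add] at this
  exact this.symm

theorem length_le_wt (w : Wd ι) : w.length ≤ wt Finsupp.degree w := by
  induction w with
  | nil => simp
  | cons a w ih =>
    have := one_le_degree a
    rw [wt_cons, List.length_cons]; omega

theorem letters_of_wt (w : Wd ι) (h : wt Finsupp.degree w = w.length) :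
    ∃ l : List ι, w = l.map lt := by
  induction w with
  | nil => exact ⟨[], rfl⟩
  | cons a w ih =>
    have h1 := one_le_degree a
    have h2 := length_le_wt w
    rw [wt_cons, List.length_cons] at h
    obtain ⟨l, rfl⟩ := ih (by omega)
    obtain ⟨i, rfl⟩ := eq_lt_of_degree a (by omega)
    exact ⟨i :: l, rfl⟩

/-- linear extension of `l ↦ l.map lt` -/
noncomputable def letW : (List ι →₀ ZMod 2) →ₗ[ZMod 2] Bar ι :=
  Finsupp.lmapDomain (ZMod 2) (ZMod 2) (List.map lt)

@[simp] theorem letW_single (l : List ι) (r : ZMod 2) : letW (single l r) = single (l.map lt) r := by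
  simp [letW, Finsupp.lmapDomain_apply, Finsupp.mapDomain_single]

theorem letW_apply (c : List ι →₀ ZMod 2) (l : List ι) : letW c (l.map lt) = c l := by
  rw [letW, Finsupp.lmapDomain_apply]
  exact Finsupp.mapDomain_apply (List.map_injective_iff.mpr lt_injective) c l

theorem consL_apply_cons (a : NMon ι) (x : Bar ι) (u : Wd ι) : consL a x (a :: u) = x u := by
  rw [consL, Finsupp.lmapDomain_apply]
  exact Finsupp.mapDomain_apply (List.cons_injective) x u

theorem consL_apply_ne (a b : NMon ι) (h : a ≠ b) (x : Bar ι) (u : Wd ι) :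
    consL a x (b :: u) = 0 := by
  rw [consL, Finsupp.lmapDomain_apply]
  refine Finsupp.mapDomain_of_notMem_range _ _ ?_
  rintro ⟨w, hw⟩
  simp only [List.cons.injEq] at hw
  exact h hw.1

theorem consL_apply_nil (a : NMon ι) (x : Bar ι) : consL a x [] = 0 := by
  rw [consL, Finsupp.lmapDomain_apply]
  refine Finsupp.mapDomain_of_notMem_range _ _ ?_
  rintro ⟨w, hw⟩
  simp at hw

/-- the bar differential never hits letter words -/
theorem bdW_apply_letters (w : Wd ι) : ∀ l : List ι, bdW w (l.map lt) = 0 := by
  induction w with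
  | nil => intro l; rfl
  | cons a w ih =>
    intro l
    rw [bdW, Finsupp.add_apply]
    have h1 : mulHW a.1 w (l.map lt) = 0 := by
      cases w with
      | nil => rfl
      | cons b w =>
        rw [mulHW]
        refine Finsupp.single_eq_of_ne ?_
        intro h
        cases l with
        | nil => simp at h
        | cons i l =>
          simp only [List.map_cons, List.cons.injEq] at h
          exact act_ne_lt a b i h.1.symm
    rw [h1, zero_add]
    cases l with
    | nil => exact consL_apply_nil _ _
    | cons i l =>
      by_cases h : a = lt i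
      · subst h
        rw [List.map_cons, consL_apply_cons]
        exact ih l
      · rw [List.map_cons]
        exact consL_apply_ne _ _ h _ _

theorem bd_apply_letters (x : Bar ι) (l : List ι) : bd x (l.map lt) = 0 := by
  induction x using Finsupp.induction_linear with
  | zero => simp
  | add f g hf hg => rw [map_add, Finsupp.add_apply, hf, hg, add_zero]
  | single w r =>
    rw [bd, Finsupp.linearCombination_single, Finsupp.smul_apply, bdW_apply_letters, smul_zero]

open Classical in
theorem bdW_coeff (l₂ : List ι) (a b : ι) (l₁ : List ι) : ∀ l : List ι,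
    bdW (l.map lt) (l₁.map lt ++ act (lt a).1 (lt b) :: l₂.map lt) =
      (if l = l₁ ++ a :: b :: l₂ then 1 else 0) +
        (if l = l₁ ++ b :: a :: l₂ ∧ a ≠ b then 1 else 0) := by
  induction l₁ with
  | nil =>
    intro l
    cases l with
    | nil => simp [bdW]
    | cons c l' =>
      rw [List.map_cons, bdW, Finsupp.add_apply]
      simp only [List.map_nil, List.nil_append]
      rw [consL_apply_ne _ _ (fun h => act_ne_lt (lt a) (lt b) c h.symm), add_zero]
      cases l' with
      | nil => simp [mulHW]
      | cons d l'' =>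
        rw [List.map_cons, mulHW, Finsupp.single_apply]
        have key : (act (lt c).1 (lt d) :: l''.map lt = act (lt a).1 (lt b) :: l₂.map lt) ↔
            ((c = a ∧ d = b) ∨ (c = b ∧ d = a)) ∧ l'' = l₂ := by
          rw [List.cons.injEq, (List.map_injective_iff.mpr lt_injective).eq_iff]
          refine and_congr_left fun _ => ?_
          rw [Subtype.ext_iff]
          simp only [act, lt]
          rw [Finsupp.single_add_single_eq_single_add_single one_ne_zero one_ne_zero]
          simp
        by_cases hab : a = b
        · subst hab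
          simp only [key, List.cons.injEq, ne_eq, not_true_eq_false, and_false, if_false, add_zero,
            or_self, and_assoc]
        · by_cases hl : l'' = l₂
          · by_cases h1 : c = a ∧ d = b
            · obtain ⟨rfl, rfl⟩ := h1
              simp [key, hl, hab]
            · by_cases h2 : c = b ∧ d = a
              · obtain ⟨rfl, rfl⟩ := h2
                have hab' : c ≠ d := fun h => hab h.symm
                rw [if_pos (key.mpr ⟨Or.inr ⟨rfl, rfl⟩, hl⟩), if_neg (by simp [hab']),
                  if_pos (by simp [hl, hab]), zero_add]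
              · rw [if_neg, if_neg, if_neg, add_zero]
                · simp only [List.cons.injEq]
                  tauto
                · simp only [List.cons.injEq]
                  tauto
                · rw [key]; tauto
          · simp [key, hl]
  | cons g l₁ ih =>
    intro l
    cases l with
    | nil => simp [bdW]
    | cons c l' =>
      rw [List.map_cons, bdW, Finsupp.add_apply]
      have h1 : mulHW (lt c).1 (l'.map lt)
          ((g :: l₁).map lt ++ act (lt a).1 (lt b) :: l₂.map lt) = 0 := by
        cases l' with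
        | nil => rfl
        | cons d l'' =>
          rw [List.map_cons, mulHW]
          refine Finsupp.single_eq_of_ne ?_
          intro h
          simp only [List.map_cons, List.cons_append, List.cons.injEq] at h
          exact act_ne_lt (lt c) (lt d) g h.1.symm
      rw [h1, zero_add]
      simp only [List.map_cons, List.cons_append]
      by_cases h : c = g
      · subst h
        rw [consL_apply_cons, ih l']
        simp
      · rw [consL_apply_ne _ _ (fun h' => h (lt_injective h'))]
        simp [h]

open Classical in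
theorem bd_letW_coeff (c : List ι →₀ ZMod 2) (l₁ l₂ : List ι) (a b : ι) :
    bd (letW c) (l₁.map lt ++ act (lt a).1 (lt b) :: l₂.map lt) =
      c (l₁ ++ a :: b :: l₂) + (if a ≠ b then c (l₁ ++ b :: a :: l₂) else 0) := by
  induction c using Finsupp.induction_linear with
  | zero => simp
  | add f g hf hg =>
    simp only [map_add, Finsupp.add_apply, hf, hg]
    split_ifs <;> abel
  | single l r =>
    rw [letW_single, bd, Finsupp.linearCombination_single, Finsupp.smul_apply, bdW_coeff,
      Finsupp.single_apply, Finsupp.single_apply, smul_add]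
    by_cases hab : a ≠ b
    · simp [hab]
    · simp [hab]

theorem coeff_swap (c : List ι →₀ ZMod 2) (h : bd (letW c) = 0) (l₁ l₂ : List ι) (a b : ι) :
    c (l₁ ++ a :: b :: l₂) = c (l₁ ++ b :: a :: l₂) := by
  by_cases hab : a = b
  · subst hab; rfl
  · have := bd_letW_coeff c l₁ l₂ a b
    rw [h, if_pos hab] at this
    simp only [Finsupp.coe_zero, Pi.zero_apply] at this
    have h2 := char2 (c (l₁ ++ b :: a :: l₂))
    exact add_right_cancel (this.symm.trans h2.symm)

theorem coeff_dup (c : List ι →₀ ZMod 2) (h : bd (letW c) = 0) (l₁ l₂ : List ι) (a : ι) :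
    c (l₁ ++ a :: a :: l₂) = 0 := by
  have := bd_letW_coeff c l₁ l₂ a a
  rw [h] at this
  simpa using this.symm

theorem coeff_perm (c : List ι →₀ ZMod 2) (h : bd (letW c) = 0) {l l' : List ι} (hp : l.Perm l') :
    ∀ l₀ : List ι, c (l₀ ++ l) = c (l₀ ++ l') := by
  induction hp with
  | nil => intro _; rfl
  | cons x _ ih =>
    intro l₀
    have := ih (l₀ ++ [x])
    simpa using this
  | swap x y l => intro l₀; exact coeff_swap c h l₀ l y x
  | trans _ _ ih1 ih2 => intro l₀; exact (ih1 l₀).trans (ih2 l₀)

theorem coeff_not_nodup (c : List ι →₀ ZMod 2) (h : bd (letW c) = 0) {l : List ι}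
    (hl : ¬ l.Nodup) : c l = 0 := by
  rw [← List.exists_duplicate_iff_not_nodup] at hl
  obtain ⟨x, hx⟩ := hl
  rw [List.duplicate_iff_sublist] at hx
  obtain ⟨l', hl'⟩ := hx.exists_perm_append
  have h1 := coeff_perm c h hl' []
  have h2 := coeff_dup c h [] l' x
  simp only [List.nil_append, List.cons_append] at h1 h2
  rw [h1]; exact h2

open Classical in
/-- orderings of a finite set, as lists -/
noncomputable def orderings (S : Finset ι) : Finset (List ι) := S.toList.permutations.toFinset

theorem mem_orderings {S : Finset ι} {l : List ι} : l ∈ orderings S ↔ l.Perm S.toList := by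
  classical
  simp [orderings, List.mem_permutations]

theorem mem_orderings' {S : Finset ι} {l : List ι} : l ∈ orderings S ↔ (l : Multiset ι) = S.val := by
  rw [mem_orderings, ← Finset.coe_toList, Multiset.coe_eq_coe]

theorem orderings_nodup {S : Finset ι} {l : List ι} (h : l ∈ orderings S) : l.Nodup :=
  (mem_orderings.mp h).nodup_iff.mpr S.nodup_toList

theorem orderings_length {S : Finset ι} {l : List ι} (h : l ∈ orderings S) : l.length = S.card := by
  rw [(mem_orderings.mp h).length_eq, Finset.length_toList]

theorem toList_mem_orderings (S : Finset ι) : S.toList ∈ orderings S :=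
  mem_orderings.mpr (List.Perm.refl _)

open Classical in
theorem mem_orderings_iff {S : Finset ι} {l : List ι} :
    l ∈ orderings S ↔ l.Nodup ∧ l.toFinset = S := by
  constructor
  · intro h
    refine ⟨orderings_nodup h, ?_⟩
    rw [List.toFinset_eq_of_perm _ _ (mem_orderings.mp h), Finset.toList_toFinset]
  · rintro ⟨h1, rfl⟩
    rw [mem_orderings]
    exact (List.toFinset_toList h1).symm

/-- antisymmetrisation of a set of variables, in lists of variables -/
noncomputable def asymL (S : Finset ι) : List ι →₀ ZMod 2 := ∑ l ∈ orderings S, single l 1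

open Classical in
theorem asymL_apply (S : Finset ι) (l : List ι) :
    asymL S l = if l ∈ orderings S then 1 else 0 := by
  rw [asymL, Finsupp.finsetSum_apply]
  simp [Finsupp.single_apply]

/-- antisymmetrisation `∑ [x_{s1}|...|x_{sp}]` over all orderings of `S` -/
noncomputable def asym (S : Finset ι) : Bar ι := ∑ l ∈ orderings S, single (l.map lt) 1

theorem letW_asymL (S : Finset ι) : letW (asymL S) = asym S := by
  rw [asymL, map_sum, asym]
  exact Finset.sum_congr rfl fun l _ => letW_single l 1

open Classical in
theorem asym_apply (S : Finset ι) (l : List ι) :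
    asym S (l.map lt) = if l ∈ orderings S then 1 else 0 := by
  rw [← letW_asymL, letW_apply, asymL_apply]

theorem lc_asym_apply (f : Finset ι →₀ ZMod 2) (S : Finset ι) :
    Finsupp.linearCombination (ZMod 2) asym f (S.toList.map lt) = f S := by
  classical
  induction f using Finsupp.induction_linear with
  | zero => simp
  | add f g hf hg => rw [map_add, Finsupp.add_apply, hf, hg, Finsupp.add_apply]
  | single T r =>
    rw [Finsupp.linearCombination_single, Finsupp.smul_apply, asym_apply, Finsupp.single_apply]
    by_cases h : T = S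
    · subst h
      simp [toList_mem_orderings]
    · have : S.toList ∉ orderings T := by
        intro h'
        rw [mem_orderings_iff] at h'
        apply h
        rw [← h'.2, Finset.toList_toFinset]
      simp [h, this]

/-- antisymmetrisations are linearly independent modulo boundaries -/
theorem asym_not_bd (f : Finset ι →₀ ZMod 2) (y : Bar ι)
    (h : Finsupp.linearCombination (ZMod 2) asym f = bd y) : f = 0 := by
  ext S
  rw [← lc_asym_apply f S, h, bd_apply_letters]
  rfl

theorem letW_cycle (c : List ι →₀ ZMod 2) (h : bd (letW c) = 0) :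
    ∃ f : Finset ι →₀ ZMod 2, letW c = Finsupp.linearCombination (ZMod 2) asym f ∧
      ∀ S, f S ≠ 0 → c S.toList ≠ 0 := by
  classical
  let T : Finset (Finset ι) := c.support.image (fun l => l.toFinset)
  refine ⟨∑ S ∈ T, single S (c S.toList), ?_, ?_⟩
  · have hc : c = ∑ S ∈ T, c S.toList • asymL S := by
      ext l
      rw [Finsupp.finsetSum_apply]
      simp only [Finsupp.smul_apply, asymL_apply]
      by_cases hl : l.Nodup
      · by_cases hT : l.toFinset ∈ T
        · rw [Finset.sum_eq_single l.toFinset]
          · have hm : l ∈ orderings l.toFinset := mem_orderings_iff.mpr ⟨hl, rfl⟩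
            rw [if_pos hm]
            have := coeff_perm c h (mem_orderings.mp hm) []
            simp only [List.nil_append] at this
            rw [this]; simp
          · intro S _ hS
            rw [if_neg, smul_zero]
            intro hm
            exact hS (mem_orderings_iff.mp hm).2.symm
          · intro h'; exact absurd hT h'
        · have hl0 : c l = 0 := by
            by_contra h0
            exact hT (Finset.mem_image.mpr ⟨l, Finsupp.mem_support_iff.mpr h0, rfl⟩)
          rw [hl0]
          symm
          refine Finset.sum_eq_zero fun S hS => ?_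
          rw [if_neg, smul_zero]
          intro hm
          rw [← (mem_orderings_iff.mp hm).2] at hS
          exact hT hS
      · rw [coeff_not_nodup c h hl]
        symm
        refine Finset.sum_eq_zero fun S _ => ?_
        rw [if_neg, smul_zero]
        intro hm
        exact hl (orderings_nodup hm)
    conv_lhs => rw [hc]
    rw [map_sum, map_sum]
    refine Finset.sum_congr rfl fun S _ => ?_
    rw [map_smul, letW_asymL, Finsupp.linearCombination_single]
  · intro S hS h0
    apply hS
    rw [Finsupp.finsetSum_apply]
    refine Finset.sum_eq_zero fun S' _ => ?_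
    rw [Finsupp.single_apply]
    split_ifs with h'
    · rw [h', h0]
    · rfl

/-! ## filtering by weight -/

/-- classical filter -/
noncomputable def flt {α : Type*} (P : α → Prop) (x : α →₀ ZMod 2) : α →₀ ZMod 2 :=
  open Classical in x.filter P

theorem flt_pos {α : Type*} {P : α → Prop} {a : α} (h : P a) (x : α →₀ ZMod 2) :
    flt P x a = x a := by classical exact Finsupp.filter_apply_pos P x h

theorem flt_neg {α : Type*} {P : α → Prop} {a : α} (h : ¬ P a) (x : α →₀ ZMod 2) :
    flt P x a = 0 := by classical exact Finsupp.filter_apply_neg P x h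

@[simp] theorem flt_zero {α : Type*} (P : α → Prop) : flt P (0 : α →₀ ZMod 2) = 0 := by
  classical exact Finsupp.filter_zero P

theorem flt_add {α : Type*} (P : α → Prop) (x y : α →₀ ZMod 2) :
    flt P (x + y) = flt P x + flt P y := by classical exact Finsupp.filter_add

theorem flt_self {α : Type*} {P : α → Prop} {x : α →₀ ZMod 2} (h : ∀ a, x a ≠ 0 → P a) :
    flt P x = x := by
  ext a
  by_cases ha : P a
  · rw [flt_pos ha]
  · rw [flt_neg ha]
    by_contra h0
    exact ha (h a (fun h => h0 h.symm))

theorem flt_eq_zero {α : Type*} {P : α → Prop} {x : α →₀ ZMod 2} (h : ∀ a, P a → x a = 0) :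
    flt P x = 0 := by
  ext a
  by_cases ha : P a
  · rw [flt_pos ha, h a ha]; rfl
  · rw [flt_neg ha]; rfl

theorem flt_add_not {α : Type*} (P : α → Prop) (x : α →₀ ZMod 2) :
    flt P x + flt (fun a => ¬ P a) x = x := by
  ext a
  rw [Finsupp.add_apply]
  by_cases ha : P a
  · rw [flt_pos ha, flt_neg (by simpa using ha), add_zero]
  · rw [flt_neg ha, flt_pos (P := fun a => ¬ P a) ha, zero_add]

section filt

variable {A : Type*} [AddCommMonoid A]

theorem bd_single_wt (D : (ι →₀ ℕ) →+ A) (w : Wd ι) :
    bd (single w 1) ∈ supported (ZMod 2) (ZMod 2) {u : Wd ι | wt D u = wt D w} := by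
  cases w with
  | nil => simp
  | cons a w =>
    have := bd_single_supp D (a :: w) w.length _ (by simp) rfl
    exact Finsupp.supported_mono (fun u hu => hu.2) this

theorem bd_filter (D : (ι →₀ ℕ) →+ A) (q : A) (x : Bar ι) :
    bd (flt (fun w => wt D w = q) x) = flt (fun w => wt D w = q) (bd x) := by
  classical
  induction x using Finsupp.induction_linear with
  | zero => simp
  | add f g hf hg => rw [flt_add, map_add, map_add, flt_add, hf, hg]
  | single w r =>
    have hr : (single w r : Bar ι) = r • single w 1 := by simp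
    have hs := bd_single_wt D w
    by_cases h : wt D w = q
    · have e1 : flt (fun w => wt D w = q) (single w r) = single w r := by
        refine flt_self fun a ha => ?_
        rw [Finsupp.single_apply] at ha
        by_cases haw : w = a
        · rw [← haw]; exact h
        · rw [if_neg haw] at ha; exact absurd rfl ha
      rw [e1]
      symm
      refine flt_self fun u hu => ?_
      rw [hr, map_smul, Finsupp.smul_apply] at hu
      have hu' : bd (single w 1) u ≠ 0 := fun h0 => hu (by rw [h0, smul_zero])
      have : u ∈ {u : Wd ι | wt D u = wt D w} := hs (Finsupp.mem_support_iff.mpr hu')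
      exact this.trans h
    · have e1 : flt (fun w => wt D w = q) (single w r) = 0 := by
        refine flt_eq_zero fun a ha => ?_
        rw [Finsupp.single_apply, if_neg]
        intro haw; rw [haw] at h; exact h ha
      rw [e1, map_zero]
      symm
      refine flt_eq_zero fun u hu => ?_
      rw [hr, map_smul, Finsupp.smul_apply]
      have hu' : bd (single w 1) u = 0 := by
        by_contra h0
        have : u ∈ {u : Wd ι | wt D u = wt D w} := hs (Finsupp.mem_support_iff.mpr h0)
        exact h (this.symm.trans hu)
      rw [hu', smul_zero]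

/-- weight of a set of variables -/
noncomputable def wtS (D : (ι →₀ ℕ) →+ A) (S : Finset ι) : A := ∑ i ∈ S, D (single i 1)

theorem wt_ordering (D : (ι →₀ ℕ) →+ A) {S : Finset ι} {l : List ι} (h : l ∈ orderings S) :
    wt D (l.map lt) = wtS D S := by
  rw [wt, wtS, List.map_map, (((mem_orderings.mp h).map _).sum_eq)]
  exact Finset.sum_map_toList S (fun i => D (single i 1))

theorem asym_supp (D : (ι →₀ ℕ) →+ A) (S : Finset ι) :
    asym S ∈ supported (ZMod 2) (ZMod 2) (WS D S.card (wtS D S)) := by
  refine Submodule.sum_mem _ fun l hl => single_supp ?_ _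
  exact ⟨by rw [List.length_map, orderings_length hl], wt_ordering D hl⟩

theorem lc_filter (D : (ι →₀ ℕ) →+ A) (q : A) (f : Finset ι →₀ ZMod 2) :
    flt (fun w => wt D w = q) (Finsupp.linearCombination (ZMod 2) asym f) =
      Finsupp.linearCombination (ZMod 2) asym (flt (fun S => wtS D S = q) f) := by
  classical
  induction f using Finsupp.induction_linear with
  | zero => simp
  | add f g hf hg => rw [flt_add, map_add, map_add, flt_add, hf, hg]
  | single S r =>
    have hs := asym_supp D S
    rw [Finsupp.linearCombination_single]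
    by_cases h : wtS D S = q
    · have e1 : flt (fun S => wtS D S = q) (single S r) = single S r := by
        refine flt_self fun a ha => ?_
        rw [Finsupp.single_apply] at ha
        by_cases haw : S = a
        · rw [← haw]; exact h
        · rw [if_neg haw] at ha; exact absurd rfl ha
      rw [e1, Finsupp.linearCombination_single]
      refine flt_self fun u hu => ?_
      rw [Finsupp.smul_apply] at hu
      have hu' : asym S u ≠ 0 := fun h0 => hu (by rw [h0, smul_zero])
      have : u ∈ WS D S.card (wtS D S) := hs (Finsupp.mem_support_iff.mpr hu')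
      exact this.2.trans h
    · have e1 : flt (fun S => wtS D S = q) (single S r) = 0 := by
        refine flt_eq_zero fun a ha => ?_
        rw [Finsupp.single_apply, if_neg]
        intro haw; rw [haw] at h; exact h ha
      rw [e1, map_zero]
      refine flt_eq_zero fun u hu => ?_
      rw [Finsupp.smul_apply]
      have hu' : asym S u = 0 := by
        by_contra h0
        have : u ∈ WS D S.card (wtS D S) := hs (Finsupp.mem_support_iff.mpr h0)
        exact h (this.2.symm.trans hu)
      rw [hu', smul_zero]

end filt

/-- **Homology of the bar complex of a polynomial algebra over `F₂`.** -/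
theorem exact (p : ℕ) (x : Bar ι)
    (hx : x ∈ supported (ZMod 2) (ZMod 2) {w : Wd ι | w.length = p}) (hb : bd x = 0) :
    ∃ y ∈ supported (ZMod 2) (ZMod 2) {w : Wd ι | w.length = p + 1},
    ∃ f ∈ supported (ZMod 2) (ZMod 2) {S : Finset ι | S.card = p},
      x = bd y + Finsupp.linearCombination (ZMod 2) asym f := by
  classical
  let P : Wd ι → Prop := fun w => wt Finsupp.degree w = p
  have hsplit : flt P x + flt (fun w => ¬ P w) x = x := flt_add_not P x
  have hb1 : bd (flt P x) = 0 := by
    rw [bd_filter, hb, flt_zero]
  have hb2 : bd (flt (fun w => ¬ P w) x) = 0 := by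
    have := congrArg bd hsplit
    rw [map_add, hb1, zero_add, hb] at this
    exact this
  have hxs : ∀ w, x w ≠ 0 → w.length = p := fun w hw => hx (Finsupp.mem_support_iff.mpr hw)
  have h2 : flt (fun w => ¬ P w) x ∈ supported (ZMod 2) (ZMod 2)
      {w : Wd ι | w.length = p ∧ p < wt Finsupp.degree w} := by
    rw [Finsupp.mem_supported]
    intro w hw
    rw [Finset.mem_coe, Finsupp.mem_support_iff] at hw
    by_cases hPw : P w
    · exact absurd (flt_neg (P := fun w => ¬ P w) (fun h => h hPw) x) hw
    · rw [flt_pos (P := fun w => ¬ P w) hPw] at hw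
      have hlen := hxs w hw
      refine ⟨hlen, ?_⟩
      have := length_le_wt w
      rw [hlen] at this
      exact lt_of_le_of_ne this (fun h => hPw h.symm)
  obtain ⟨y, hy, hyb⟩ := exact_excess p _ h2 hb2
  have h1 : ∃ c : List ι →₀ ZMod 2, letW c = flt P x := by
    have : flt P x ∈ LinearMap.range (letW (ι := ι)) := by
      have hs : flt P x ∈ supported (ZMod 2) (ZMod 2)
          {w : Wd ι | w.length = p ∧ wt Finsupp.degree w = p} := by
        rw [Finsupp.mem_supported]
        intro w hw
        rw [Finset.mem_coe, Finsupp.mem_support_iff] at hw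
        by_cases hPw : P w
        · rw [flt_pos hPw] at hw
          exact ⟨hxs w hw, hPw⟩
        · exact absurd (flt_neg hPw x) hw
      rw [Finsupp.supported_eq_span_single] at hs
      refine (Submodule.span_le.mpr ?_) hs
      rintro _ ⟨w, ⟨hw1, hw2⟩, rfl⟩
      obtain ⟨l, rfl⟩ := letters_of_wt w (hw2.trans hw1.symm)
      exact ⟨single l 1, letW_single l 1⟩
    exact this
  obtain ⟨c, hc⟩ := h1
  obtain ⟨f, hf, hf2⟩ := letW_cycle c (by rw [hc, hb1])
  refine ⟨y, hy, f, ?_, ?_⟩
  · rw [Finsupp.mem_supported]
    intro S hS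
    rw [Finset.mem_coe, Finsupp.mem_support_iff] at hS
    have h3 := hf2 S hS
    rw [← letW_apply c, hc] at h3
    by_cases hPw : P (S.toList.map lt)
    · rw [flt_pos hPw] at h3
      have := hxs _ h3
      simpa using this
    · exact absurd (flt_neg hPw x) h3
  · rw [hyb, ← hf, hc, add_comm]; exact hsplit.symm

/-- weighted version of `exact` for any additive weight `D` -/
theorem exact_weight {A : Type*} [AddCommMonoid A] (D : (ι →₀ ℕ) →+ A) (p : ℕ) (q : A) (x : Bar ι)
    (hx : x ∈ supported (ZMod 2) (ZMod 2) (WS D p q)) (hb : bd x = 0) :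
    ∃ y ∈ supported (ZMod 2) (ZMod 2) (WS D (p + 1) q),
    ∃ f ∈ supported (ZMod 2) (ZMod 2) {S : Finset ι | S.card = p ∧ wtS D S = q},
      x = bd y + Finsupp.linearCombination (ZMod 2) asym f := by
  classical
  obtain ⟨y, hy, f, hf, h⟩ := exact p x (Finsupp.supported_mono (fun w hw => hw.1) hx) hb
  refine ⟨flt (fun w => wt D w = q) y, ?_, flt (fun S => wtS D S = q) f, ?_, ?_⟩
  · rw [Finsupp.mem_supported]
    intro w hw
    rw [Finset.mem_coe, Finsupp.mem_support_iff] at hw
    by_cases hPw : wt D w = q
    · rw [flt_pos (P := fun w => wt D w = q) hPw] at hw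
      exact ⟨hy (Finsupp.mem_support_iff.mpr hw), hPw⟩
    · exact absurd (flt_neg (P := fun w => wt D w = q) hPw y) hw
  · rw [Finsupp.mem_supported]
    intro S hS
    rw [Finset.mem_coe, Finsupp.mem_support_iff] at hS
    by_cases hPw : wtS D S = q
    · rw [flt_pos (P := fun S => wtS D S = q) hPw] at hS
      exact ⟨hf (Finsupp.mem_support_iff.mpr hS), hPw⟩
    · exact absurd (flt_neg (P := fun S => wtS D S = q) hPw f) hS
  · rw [bd_filter, ← lc_filter, ← flt_add, ← h]
    symm
    refine flt_self fun w hw => ?_
    exact (hx (Finsupp.mem_support_iff.mpr hw)).2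

/-! ## multiplication of two-letter words -/

/-- `[a|b] ↦ a + b`, zero on words of other lengths -/
noncomputable def mul2W : Wd ι → ((ι →₀ ℕ) →₀ ZMod 2)
  | [a, b] => single (a.1 + b.1) 1
  | _ => 0

/-- `[a|b] ↦ ab` -/
noncomputable def mul2 : Bar ι →ₗ[ZMod 2] ((ι →₀ ℕ) →₀ ZMod 2) :=
  Finsupp.linearCombination (ZMod 2) mul2W

theorem mul2_single_pair (a b : NMon ι) (r : ZMod 2) :
    mul2 (single [a, b] r) = single (a.1 + b.1) r := by
  simp [mul2, mul2W]

theorem mul2_single_ne (w : Wd ι) (h : w.length ≠ 2) (r : ZMod 2) : mul2 (single w r) = 0 := by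
  rw [mul2, Finsupp.linearCombination_single]
  match w, h with
  | [], _ => simp [mul2W]
  | [a], _ => simp [mul2W]
  | [a, b], h => simp at h
  | a :: b :: c :: w, _ => simp [mul2W]

theorem mul2_supp_ne {p : ℕ} (hp : p ≠ 2) {x : Bar ι}
    (hx : x ∈ supported (ZMod 2) (ZMod 2) {w : Wd ι | w.length = p}) : mul2 x = 0 := by
  refine (eq_on_supp mul2 0 ?_ hx).trans rfl
  intro w hw
  exact mul2_single_ne w (fun h => hp (Eq.trans (Eq.symm hw) h)) 1

theorem mul2_bd (x : Bar ι) : mul2 (bd x) = 0 := by
  induction x using Finsupp.induction_linear with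
  | zero => simp
  | add f g hf hg => rw [map_add, map_add, hf, hg, add_zero]
  | single w r =>
    have hr : (single w r : Bar ι) = r • single w 1 := by simp
    by_cases h : w.length = 3
    · match w, h with
      | [a, b, c], _ =>
        rw [bd_single_cons, bd_single_cons, bd_single_cons, bd_single_nil]
        simp only [mulH_single_nil, mulH_single_cons, map_zero, add_zero, consL_single, map_add,
          mul2_single_pair]
        simp only [act, add_assoc]
        exact char2 _
    · cases w with
      | nil => simp
      | cons a w =>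
        rw [hr, map_smul, map_smul]
        have := bd_single_supp Finsupp.degree (a :: w) w.length _ (by simp) rfl
        rw [mul2_supp_ne (p := w.length) (by simpa using h)
          (Finsupp.supported_mono (fun u hu => hu.1) this), smul_zero]

theorem mul2_asym (S : Finset ι) : mul2 (asym S) = 0 := by
  classical
  by_cases h : S.card = 2
  · rw [asym, map_sum]
    refine Finset.sum_involution (fun l _ => l.reverse) ?_ ?_ ?_ ?_
    · intro l hl
      have hlen := orderings_length hl
      rw [h] at hlen
      match l, hlen with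
      | [a, b], _ =>
        simp only [List.map_cons, List.map_nil, List.reverse_cons, List.reverse_nil,
          List.nil_append, List.cons_append, mul2_single_pair]
        rw [add_comm (lt b).1 (lt a).1]
        exact char2 _
    · intro l hl _ he
      have hlen := orderings_length hl
      have hnd := orderings_nodup hl
      rw [h] at hlen
      match l, hlen with
      | [a, b], _ =>
        simp only [List.reverse_cons, List.reverse_nil, List.nil_append, List.cons_append,
          List.cons.injEq] at he
        simp only [List.nodup_cons, List.mem_singleton] at hnd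
        exact hnd.1 he.1.symm
    · intro l hl
      rw [mem_orderings] at hl ⊢
      exact (List.reverse_perm l).trans hl
    · intro l _; exact List.reverse_reverse l
  · exact mul2_supp_ne (p := S.card) h
      (Finsupp.supported_mono (fun u hu => hu.1) (asym_supp Finsupp.degree S))

end Crest.Agent.R204.Koszul459
private theorem rz_c03d243b0c : type_of% @_root_.Crest.Agent.R204.Koszul459.bdW.eq_def := @_root_.Crest.Agent.R204.Koszul459.bdW.eq_def -- L71
private theorem rz_6da43d3fce : type_of% @_root_.Crest.Agent.R204.Koszul459.bdW.eq_1 := @_root_.Crest.Agent.R204.Koszul459.bdW.eq_1 -- L71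
private theorem rz_faed070b76 : type_of% @_root_.Crest.Agent.R204.Koszul459.hdW.eq_1 := @_root_.Crest.Agent.R204.Koszul459.hdW.eq_1 -- L149
private theorem rz_dd662446a8 : type_of% @_root_.Crest.Agent.R204.Koszul459.mul2W.eq_1 := @_root_.Crest.Agent.R204.Koszul459.mul2W.eq_1 -- L1411
private theorem rz_3268c986ff : type_of% @_root_.Crest.Agent.R204.Koszul459.mulHW.eq_1 := @_root_.Crest.Agent.R204.Koszul459.mulHW.eq_1 -- L51
end

-- ▼ part R204/K1_459

/-!
# Row 204, block B: `K1` of helper334's interface from helper459's Koszul theorem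
-/

set_option autoImplicit false

namespace Crest.Agent.R204.K1_459

open Finsupp Crest.Agent.R204.Bar334
open Crest.Agent.R204.Koszul459 (bd asym exact_weight asym_not_bd mul2_bd mul2_asym bd_supp)

variable {ι : Type} (deg : ι → ℕ)

/-- the weight as an additive map -/
noncomputable def D : (ι →₀ ℕ) →+ ℕ :=
  Finsupp.liftAddHom (fun i => AddMonoidHom.mulRight (deg i))

theorem D_apply (m : ι →₀ ℕ) : D deg m = wt1 deg m := by
  simp [D, wt1, Finsupp.liftAddHom_apply]

theorem wt_eq (w : List (Bar334.NMon ι)) : Koszul459.wt (D deg) w = Bar334.wt deg w := by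
  simp only [Koszul459.wt, Bar334.wt, D_apply]

theorem D_single (i : ι) : D deg (single i 1) = deg i := by
  simp [D_apply, wt1]

theorem wtS_eq (S : Finset ι) : Koszul459.wtS (D deg) S = ∑ i ∈ S, deg i := by
  simp only [Koszul459.wtS, D_single]

theorem Wd_eq (p q : ℕ) :
    Bar334.Wd deg p q = supported (ZMod 2) (ZMod 2) (Koszul459.WS (D deg) p q) := by
  unfold Bar334.Wd Koszul459.WS
  simp only [wt_eq]


/-- the input `K1` of the abstract loop theorem -/
theorem k1 : K1 deg (bd (ι := ι)) (asym (ι := ι)) where
  bd_bd := Koszul459.bd_bd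
  bd_Wd p q b hb := by
    rw [Wd_eq] at hb ⊢
    exact bd_supp (D deg) hb
  bd_two m m' := by
    rw [Koszul459.bd_single_cons, Koszul459.bd_single_cons, Koszul459.bd_single_nil, map_zero,
      add_zero, Koszul459.mulH_single_nil, map_zero, add_zero, Koszul459.mulH_single_cons]
    rfl
  asym_Wd S := by
    rw [Wd_eq, ← wtS_eq]
    exact Koszul459.asym_supp (D deg) S
  asym_one i := by
    have h : Koszul459.orderings ({i} : Finset ι) = {[i]} := by
      ext l
      rw [Koszul459.mem_orderings', Finset.mem_singleton]
      simp only [Finset.singleton_val]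
      rw [← Multiset.coe_singleton, Multiset.coe_eq_coe, List.perm_singleton]
    rw [asym, h, Finset.sum_singleton]
    rfl
  asym_two S hS := by
    have h1 := Koszul459.asym_supp Finsupp.degree S
    rw [hS] at h1
    have h2 := mul2_asym S
    -- on two-letter words, `bd` is determined by `mul2`
    have key : ∀ x ∈ supported (ZMod 2) (ZMod 2) {w : Koszul459.Wd ι | w.length = 2},
        ∀ m : Koszul459.NMon ι, bd x [m] = Koszul459.mul2 x m.1 := by
      intro x hx m
      have := Koszul459.eq_on_supp
        (Finsupp.lapply [m] ∘ₗ bd) (Finsupp.lapply m.1 ∘ₗ Koszul459.mul2) (M := ZMod 2) ?_ hx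
      · exact this
      · intro w hw
        match w, hw with
        | [a, b], _ =>
          simp only [LinearMap.comp_apply, Finsupp.lapply_apply]
          rw [Koszul459.bd_single_cons, Koszul459.bd_single_cons, Koszul459.bd_single_nil, map_zero,
            add_zero, Koszul459.mulH_single_nil, map_zero, add_zero, Koszul459.mulH_single_cons,
            Koszul459.mul2_single_pair]
          classical
          rw [Finsupp.single_apply, Finsupp.single_apply]
          refine if_congr ?_ rfl rfl
          rw [List.cons.injEq, Subtype.ext_iff]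
          simp [Koszul459.act]
    have h3 : asym S ∈ supported (ZMod 2) (ZMod 2) {w : Koszul459.Wd ι | w.length = 2} :=
      Finsupp.supported_mono (fun w hw => hw.1) h1
    have h4 : bd (asym S) ∈ supported (ZMod 2) (ZMod 2) {w : Koszul459.Wd ι | w.length = 1} :=
      Finsupp.supported_mono (fun w hw => hw.1) (bd_supp Finsupp.degree (p := 1) h1)
    ext w
    by_cases hw : w.length = 1
    · obtain ⟨m, rfl⟩ := List.length_eq_one_iff.mp hw
      rw [key _ h3, h2]; rfl
    · by_contra h0
      exact hw (h4 (Finsupp.mem_support_iff.mpr h0))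
  asym_inj c y h := asym_not_bd c y h
  exact p q z hz hb := by
    rw [Wd_eq] at hz
    obtain ⟨y, hy, f, hf, h⟩ := exact_weight (D deg) (p + 1) q z hz hb
    refine ⟨y, by rw [Wd_eq]; exact hy, f, ?_, h⟩
    intro S hS
    have := hf hS
    refine ⟨this.1, ?_⟩
    rw [← wtS_eq]; exact this.2


end Crest.Agent.R204.K1_459
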