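import Crest.Agent.R204.Bis2_343
import Crest.Agent.R204.Bis4_343
import Crest.Agent.R204.BarIface_334
import Crest.Agent.R204.Ind3_979
import Crest.Agent.R204.BrF_170
import Crest.Agent.R204.K1_459

-- ▼ part R204/GeoA_979
section

/-!
# Row 204, block B, final instantiation, part A (helper979)

For `f : P → K` onto in each degree:
`prT`  projection of `Tot` to total degree `n`;
`evK f : ker D → H F2 K`, the class of the augmentation, with `evK_gr`, `evK_bd`, `evK_ker`;
`exists_lead` every homogeneous class of a column is a leading term.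
-/

set_option autoImplicit false

noncomputable section

namespace Crest.Agent.R204.Geo979

open Crest.Agent.R204 Crest.Agent.R204.Bis343 Crest.Agent.R204.Bis343.BSS

/-! ### projection to a total degree -/

section prT
variable (E : BSS)

def prT (n : ℕ) : E.Tot →ₗ[F2] E.Tot :=
  Tot.lift (fun p q x => if p + q = n then Tot.bx x else 0)
    (by intro p q j y; split_ifs; exacts [Tot.bx_hdgn j y, rfl])
    (by intro p q j y; split_ifs; exacts [Tot.bx_vdgn j y, rfl])

theorem prT_bx (n : ℕ) {p q : ℕ} (x : E.S p q) :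
    prT E n (Tot.bx x) = if p + q = n then Tot.bx x else 0 := by
  rw [prT, Tot.lift_bx]

theorem prT_of_mem {n : ℕ} {x : E.Tot} (hx : x ∈ E.grT n) : prT E n x = x := by
  have : E.grT n ≤ LinearMap.ker (prT E n - LinearMap.id) := grT_le fun p q x h => by
    rw [LinearMap.mem_ker, LinearMap.sub_apply, prT_bx, if_pos h, LinearMap.id_apply, sub_self]
  have h := this hx
  rwa [LinearMap.mem_ker, LinearMap.sub_apply, LinearMap.id_apply, sub_eq_zero] at h

theorem prT_mem (n : ℕ) (x : E.Tot) : prT E n x ∈ E.grT n := by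
  refine Tot.induction_on (P := fun x => prT E n x ∈ E.grT n) x ?_ ?_ ?_
  · rw [map_zero]; exact Submodule.zero_mem _
  · intro a b ha hb; rw [map_add]; exact Submodule.add_mem _ ha hb
  · intro p q x
    rw [prT_bx]
    split_ifs with h
    · exact bx_mem_grT x h
    · exact Submodule.zero_mem _

theorem prT_of_mem_ne {n m : ℕ} (hnm : m ≠ n) {x : E.Tot} (hx : x ∈ E.grT m) : prT E n x = 0 := by
  have : E.grT m ≤ LinearMap.ker (prT E n) := grT_le fun p q x h => by
    rw [LinearMap.mem_ker, prT_bx, if_neg (by omega)]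
  exact this hx

theorem prT_D (n : ℕ) (x : E.Tot) : prT E n (Tot.D E x) = Tot.D E (prT E (n + 1) x) := by
  refine Tot.induction_on (P := fun x => prT E n (Tot.D E x) = Tot.D E (prT E (n + 1) x)) x ?_ ?_ ?_
  · simp
  · intro a b ha hb; simp only [map_add, ha, hb]
  · intro p q x
    have hx : Tot.bx x ∈ E.grT (p + q) := bx_mem_grT x rfl
    by_cases h : p + q = n + 1
    · rw [prT_bx, if_pos h]
      rw [h] at hx
      exact prT_of_mem E (D_grT hx)
    · rw [prT_bx, if_neg h, map_zero]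
      rcases Nat.eq_zero_or_pos (p + q) with h0 | h0
      · rw [h0] at hx
        rw [D_grT_zero hx, map_zero]
      · obtain ⟨m, hm⟩ : ∃ m, p + q = m + 1 := ⟨p + q - 1, by omega⟩
        rw [hm] at hx
        exact prT_of_mem_ne E (by omega) (D_grT hx)

end prT

/-! ### evaluation on the base -/

section evK
variable {P K : SS} (f : SS.Hom P K)

/-- the homology class of the augmentation of a cycle of the total complex -/
def evK : ↥(LinearMap.ker (Tot.D (cech f))) →ₗ[F2] H F2 K :=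
  (Submodule.mkQ _) ∘ₗ LinearMap.codRestrict (LinearMap.ker (N.bd F2 K))
    (Cech.aug f ∘ₗ (LinearMap.ker (Tot.D (cech f))).subtype)
    (fun x => by
      rw [LinearMap.mem_ker, LinearMap.comp_apply, Submodule.subtype_apply, ← Cech.aug_D, x.2, map_zero])

theorem bd_aug {z : (cech f).Tot} (hz : Tot.D (cech f) z = 0) : N.bd F2 K (Cech.aug f z) = 0 := by
  rw [← Cech.aug_D, hz, map_zero]

theorem evK_mk (z : (cech f).Tot) (hz : Tot.D (cech f) z = 0) :
    evK f ⟨z, hz⟩ = Hd.mk (N.bd F2 K) (Cech.aug f z) (bd_aug f hz) := rfl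

theorem aug_mem_gr {n : ℕ} {x : (cech f).Tot} (hx : x ∈ (cech f).grT n) :
    Cech.aug f x ∈ N.gr F2 K n := by
  have : (cech f).grT n ≤ (N.gr F2 K n).comap (Cech.aug f) := grT_le fun p q x h => by
    rw [Submodule.mem_comap]
    rcases p with _ | p
    · obtain rfl : q = n := by omega
      rw [Cech.aug_bx_zero]
      exact Gr334.sx_mem_gr _
    · rw [Cech.aug_bx_succ]; exact Submodule.zero_mem _
  exact this hx

theorem evK_gr (n : ℕ) (z : ↥(LinearMap.ker (Tot.D (cech f)))) (hz : (z : (cech f).Tot) ∈ (cech f).grT n) :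
    evK f z ∈ H.gr F2 K n :=
  Gr334.mk_mem_gr (aug_mem_gr f hz) (bd_aug f z.2)

theorem evK_bd (z : ↥(LinearMap.ker (Tot.D (cech f)))) (h : ∃ x, Tot.D (cech f) x = z) :
    evK f z = 0 := by
  obtain ⟨x, hx⟩ := h
  obtain ⟨z, hz⟩ := z
  rw [evK_mk, Hd.mk_eq_zero]
  exact ⟨Cech.aug f x, by rw [← Cech.aug_D]; exact congrArg _ hx⟩

theorem evK_ker (hf : ∀ q, Function.Surjective (f.app q)) (n : ℕ)
    (z : ↥(LinearMap.ker (Tot.D (cech f)))) (hz : (z : (cech f).Tot) ∈ (cech f).grT n)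
    (h : evK f z = 0) : ∃ x ∈ (cech f).grT (n + 1), Tot.D (cech f) x = z := by
  obtain ⟨z, hz0⟩ := z
  rw [evK_mk, Hd.mk_eq_zero] at h
  obtain ⟨c, hc⟩ := h
  obtain ⟨y, hy⟩ := Cech.bd_of_aug_bd f hf hz0 hc.symm
  refine ⟨prT _ (n + 1) y, prT_mem _ _ _, ?_⟩
  rw [← prT_D, hy]
  exact prT_of_mem _ hz


end evK

/-! ### leading terms -/

section lead
variable {E : BSS}

/-- every homogeneous class of a column is a leading term -/
theorem exists_lead (p : ℕ) {t : ℕ} {α : H F2 (E.col p)} (hα : α ∈ H.gr F2 (E.col p) t) :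
    ∃ θ : ↥((FCof E).Z p), (θ : E.Tot) ∈ E.grT (p + t) ∧
      lead E p θ = (Submodule.Quotient.mk α : E.E1 p) := by
  obtain ⟨z, hz, hz0, rfl⟩ := Gr334.mem_H_gr.1 hα
  exact ⟨⟨Tot.ofCol E p z, ofCol_mem_Z hz0⟩, ofCol_mem_grT hz, lead_ofCol z hz0 _⟩

end lead

end Crest.Agent.R204.Geo979
end
end

-- ▼ part R204/Bar_334
section

/-!
# Row 204, block B: K2, the abstract loop theorem in a range (helper334)
-/

set_option autoImplicit false

noncomputable section

namespace Crest.Agent.R204.Bar334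

open Finsupp

section
variable {X : FC} {ι : Type} {deg : ι → ℕ} {bd : Bar ι →ₗ[F2] Bar ι} {asym : Finset ι → Bar ι}

theorem neg2 {M : Type*} [AddCommGroup M] [Module F2 M] (x : M) : -x = x := by
  have h : x + x = 0 := by
    have : (2 : F2) • x = 0 := by
      have h2 : (2 : F2) = 0 := by decide
      rw [h2, zero_smul]
    rwa [two_smul] at this
  exact (eq_neg_of_add_eq_zero_left h).symm

theorem sub2 {M : Type*} [AddCommGroup M] [Module F2 M] (x y : M) : x - y = x + y := by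
  rw [sub_eq_add_neg, neg2]

theorem add2 {M : Type*} [AddCommGroup M] [Module F2 M] (x : M) : x + x = 0 := by
  rw [← sub2, sub_self]

theorem FC.F_mem_Z (X : FC) {p : ℕ} {x : X.T} (h : x ∈ X.F p) : x ∈ X.Z (p + 1) :=
  ⟨X.F_mono (Nat.le_succ p) h, X.d_F p x h⟩

theorem FC.d_mem_Z (X : FC) {p : ℕ} {x : X.T} (h : x ∈ X.F (p + 1)) : X.d x ∈ X.Z (p + 1) :=
  ⟨X.d_F _ x h, by
    show X.d (X.d x) ∈ X.F p
    rw [X.dd]; exact zero_mem _⟩

/-- the leading term maps extended to the whole complex, with all their properties -/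
structure Ld (X : FC) {ι : Type} (deg : ι → ℕ) (bd : Bar ι →ₗ[F2] Bar ι)
    (asym : Finset ι → Bar ι) (B : BarData X deg bd asym) where
  L : ℕ → X.T →ₗ[F2] B.E
  eq : ∀ p (θ : X.T) (h : θ ∈ X.Z (p + 1)), L p θ = B.lead p ⟨θ, h⟩

theorem Ld.exists (B : BarData X deg bd asym) : Nonempty (Ld X deg bd asym B) := by
  have h : ∀ p : ℕ, ∃ g : X.T →ₗ[F2] B.E, g.comp (X.Z (p + 1)).subtype = B.lead p := fun p =>
    LinearMap.exists_extend (B.lead p)
  choose L hL using h
  exact ⟨⟨L, fun p θ h => by rw [← hL p]; rfl⟩⟩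

variable {B : BarData X deg bd asym} (A : Ld X deg bd asym B)

namespace Ld
include A

theorem low {p : ℕ} {x : X.T} (h : x ∈ X.F p) : A.L p x = 0 := by
  rw [A.eq p x (X.F_mem_Z h)]; exact B.lead_low p _ h

theorem bdy {p : ℕ} {x : X.T} (h : x ∈ X.F (p + 1)) : A.L p (X.d x) = 0 := by
  rw [A.eq p _ (X.d_mem_Z h)]; exact B.lead_bd p _ ⟨x, h, rfl⟩

theorem ker {p n : ℕ} {θ : X.T} (h : θ ∈ X.Z (p + 1)) (hn : θ ∈ X.gr n) (h0 : A.L p θ = 0) :
    ∃ x ∈ X.F (p + 1) ⊓ X.gr (n + 1), θ - X.d x ∈ X.F p := by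
  rw [A.eq p θ h] at h0
  exact B.lead_ker p n ⟨θ, h⟩ hn h0

theorem lift {p q : ℕ} {b : Bar ι} (hb : b ∈ Wd deg (p + 1) q) :
    ∃ θ ∈ X.Z (p + 1), θ ∈ X.gr (p + 1 + q) ∧ A.L p θ = B.W b := by
  rw [Wd, Finsupp.supported_eq_span_single] at hb
  refine Submodule.span_induction (p := fun b _ => ∃ θ ∈ X.Z (p + 1), θ ∈ X.gr (p + 1 + q) ∧ A.L p θ = B.W b)
    ?_ ?_ ?_ ?_ hb
  · rintro _ ⟨w, ⟨hw1, hw2⟩, rfl⟩
    obtain ⟨θ, h1, h2⟩ := B.lift p w hw1
    refine ⟨θ, θ.2, by rw [← hw2]; exact h1, ?_⟩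
    rw [A.eq p _ θ.2]; exact h2
  · exact ⟨0, zero_mem _, zero_mem _, by simp⟩
  · rintro x y - - ⟨θ, h1, h2, h3⟩ ⟨θ', h1', h2', h3'⟩
    exact ⟨θ + θ', add_mem h1 h1', add_mem h2 h2', by rw [map_add, map_add, h3, h3']⟩
  · rintro r x - ⟨θ, h1, h2, h3⟩
    exact ⟨r • θ, Submodule.smul_mem _ _ h1, Submodule.smul_mem _ _ h2, by rw [map_smul, map_smul, h3]⟩

theorem dW {p q : ℕ} {θ : X.T} (h : θ ∈ X.Z (p + 2)) {b : Bar ι} (hb : b ∈ Wd deg (p + 2) q)
    (h0 : A.L (p + 1) θ = B.W b) : A.L p (X.d θ) = B.W (bd b) := by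
  have hz : X.d θ ∈ X.Z (p + 1) := ⟨h.2, by
    show X.d (X.d θ) ∈ X.F' (p + 1)
    rw [X.dd]; exact zero_mem _⟩
  rw [A.eq p _ hz]
  refine B.dW p ⟨θ, h⟩ b (fun w hw => ?_) ?_ hz
  · exact (hb hw).1
  · rw [← h0, A.eq (p + 1) θ h]

theorem psi {p : ℕ} {S : Finset ι} (hS : S.card = p + 1) : A.L p (B.Psi S) = B.W (asym S) := by
  have h : B.Psi S ∈ X.Z (p + 1) := ⟨by rw [← hS]; exact B.Psi_F S, by
    show X.d (B.Psi S) ∈ X.F' (p + 1)
    rw [B.Psi_d]; exact zero_mem _⟩
  rw [A.eq p _ h]; exact B.Psi_lead p S hS h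

end Ld

/-- linear combinations of the products -/
def PsiL (B : BarData X deg bd asym) : (Finset ι →₀ F2) →ₗ[F2] X.T := Finsupp.linearCombination F2 B.Psi

/-- linear combinations of the antisymmetrisations -/
def asymL (asym : Finset ι → Bar ι) : (Finset ι →₀ F2) →ₗ[F2] Bar ι := Finsupp.linearCombination F2 asym

theorem PsiL_d (B : BarData X deg bd asym) (ω : Finset ι →₀ F2) : X.d (PsiL B ω) = 0 := by
  rw [PsiL, Finsupp.linearCombination_apply, Finsupp.sum, map_sum]
  refine Finset.sum_eq_zero fun S _ => ?_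
  rw [map_smul, B.Psi_d, smul_zero]

theorem PsiL_F (B : BarData X deg bd asym) {p : ℕ} {ω : Finset ι →₀ F2} (h : ∀ S ∈ ω.support, S.card ≤ p) :
    PsiL B ω ∈ X.F p := by
  rw [PsiL, Finsupp.linearCombination_apply, Finsupp.sum]
  exact Submodule.sum_mem _ fun S hS => Submodule.smul_mem _ _ (X.F_mono (h S hS) (B.Psi_F S))

theorem PsiL_gr (B : BarData X deg bd asym) {n : ℕ} {ω : Finset ι →₀ F2}
    (h : ∀ S ∈ ω.support, degS deg S = n) : PsiL B ω ∈ X.gr n := by
  rw [PsiL, Finsupp.linearCombination_apply, Finsupp.sum]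
  exact Submodule.sum_mem _ fun S hS => Submodule.smul_mem _ _ (by rw [← h S hS]; exact B.Psi_gr S)

theorem asymL_Wd (K : K1 deg bd asym) {p q : ℕ} {ω : Finset ι →₀ F2}
    (h : ∀ S ∈ ω.support, S.card = p ∧ ∑ i ∈ S, deg i = q) : asymL asym ω ∈ Wd deg p q := by
  rw [asymL, Finsupp.linearCombination_apply, Finsupp.sum]
  exact Submodule.sum_mem _ fun S hS => Submodule.smul_mem _ _ (by
    have := K.asym_Wd S
    rwa [(h S hS).1, (h S hS).2] at this)

theorem Ld.psiL {p : ℕ} {ω : Finset ι →₀ F2} (h : ∀ S ∈ ω.support, S.card ≤ p + 1) :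
    A.L p (PsiL B ω) = B.W (asymL asym (ω.filter fun S => S.card = p + 1)) := by
  classical
  have h1 : PsiL B ω = PsiL B (ω.filter fun S => S.card = p + 1) +
      PsiL B (ω.filter fun S => ¬ S.card = p + 1) := by
    rw [← map_add, Finsupp.filter_add_filter_not]
  rw [h1, map_add]
  have h2 : A.L p (PsiL B (ω.filter fun S => ¬ S.card = p + 1)) = 0 := by
    refine A.low (PsiL_F B fun S hS => ?_)
    rw [Finsupp.support_filter, Finset.mem_filter] at hS
    have := h S hS.1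
    omega
  rw [h2, add_zero, PsiL, Finsupp.linearCombination_apply, Finsupp.sum, map_sum, asymL,
    Finsupp.linearCombination_apply, Finsupp.sum, map_sum]
  refine Finset.sum_congr rfl fun S hS => ?_
  rw [Finsupp.support_filter, Finset.mem_filter] at hS
  rw [map_smul, map_smul, A.psi hS.2]

/-- injectivity and surjectivity at position `1`, degree `s` -/
def Inj1 (B : BarData X deg bd asym) (s : ℕ) : Prop := ∀ b ∈ Wd deg 1 s, B.W b = 0 → b = 0
def Surj1 (B : BarData X deg bd asym) (s : ℕ) : Prop :=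
  ∀ θ : X.Z 1, (θ : X.T) ∈ X.gr (1 + s) → ∃ b ∈ Wd deg 1 s, B.lead 0 θ = B.W b

include A in
theorem Ld.kinj {t : ℕ} (H : ∀ s, 1 ≤ s → s < t → Inj1 B s ∧ Surj1 B s) {p q : ℕ} (h : q ≤ t + p)
    {b : Bar ι} (hb : b ∈ Wd deg (p + 2) q) (h0 : B.W b = 0) : b = 0 :=
  (B.kun t H p q h).1 b hb h0

theorem Ld.ksurj {t : ℕ} (H : ∀ s, 1 ≤ s → s < t → Inj1 B s ∧ Surj1 B s) {p q : ℕ} (h : q ≤ t + p)
    {θ : X.T} (hθ : θ ∈ X.Z (p + 2)) (hg : θ ∈ X.gr (p + 2 + q)) :
    ∃ b ∈ Wd deg (p + 2) q, A.L (p + 1) θ = B.W b := by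
  obtain ⟨b, h1, h2⟩ := (B.kun t H p q h).2 ⟨θ, hθ⟩ hg
  exact ⟨b, h1, by rw [A.eq (p + 1) θ hθ, h2]⟩

theorem degS_card (hp : ∀ i, 1 ≤ deg i) (S : Finset ι) : 2 * S.card ≤ degS deg S := by
  have : S.card ≤ ∑ i ∈ S, deg i := by
    have := Finset.sum_le_sum fun i (_ : i ∈ S) => hp i
    simpa using this
  rw [degS]; omega

include A in
/-- one step of the descent -/
theorem Ld.step (K : K1 deg bd asym) {r n t : ℕ} (hr : 1 ≤ r) (hn : n ≤ t + 2 * r)
    (H : ∀ s, 1 ≤ s → s < t → Inj1 B s ∧ Surj1 B s) {u : X.T} (hu : u ∈ X.F r) (k : ℕ)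
    {ω : Finset ι →₀ F2} {θ : X.T} (hθ : θ ∈ X.F (r + 1 + (k + 1))) (hg : θ ∈ X.gr (n + 1))
    (hc : ∀ S ∈ ω.support, S.card ≤ r + (k + 1)) (hd : ∀ S ∈ ω.support, degS deg S = n)
    (he : u = PsiL B ω + X.d θ) :
    ∃ θ' ∈ X.F (r + 1 + k), θ' ∈ X.gr (n + 1) ∧ (∀ S ∈ ω.support, S.card ≤ r + k) ∧
      u = PsiL B ω + X.d θ' := by
  classical
  by_cases hP : n + 1 < r + 1 + (k + 1)
  · refine ⟨θ, X.F_mono (by omega) (X.gr_F _ hg), hg, fun S hS => ?_, he⟩
    have := degS_card B.deg_pos S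
    rw [hd S hS] at this
    omega
  · obtain ⟨p, rfl⟩ : ∃ p, r = p + 1 := ⟨r - 1, by omega⟩
    obtain ⟨q, hq⟩ : ∃ q, n + 1 = (p + k + 1) + 2 + q := ⟨n + 1 - (p + k + 1 + 2), by omega⟩
    have e1 : p + 1 + 1 + (k + 1) = (p + k + 1) + 2 := by omega
    have e2 : p + 1 + (k + 1) = (p + k) + 2 := by omega
    rw [e1] at hθ
    rw [e2] at hc
    have hdθ : X.d θ = u + PsiL B ω := by
      rw [he, add_comm (PsiL B ω), add_assoc, add2, add_zero]
    have hz : θ ∈ X.Z (p + k + 1 + 2) := ⟨hθ, by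
      show X.d θ ∈ X.F (p + k + 2)
      rw [hdθ]
      exact add_mem (X.F_mono (by omega) hu) (PsiL_F B hc)⟩
    obtain ⟨b, hb, hb2⟩ := A.ksurj H (p := p + k + 1) (q := q) (by omega) hz (by rw [← hq]; exact hg)
    have h3 := A.dW hz hb hb2
    rw [hdθ, map_add, A.psiL hc] at h3
    have h4 : A.L (p + k + 1) u = 0 := A.low (X.F_mono (by omega) hu)
    rw [h4, zero_add] at h3
    set ω1 := ω.filter fun S => S.card = p + k + 1 + 1 with hω1
    have hω1' : ∀ S ∈ ω1.support, S.card = p + k + 2 ∧ ∑ i ∈ S, deg i = q := by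
      intro S hS
      rw [hω1, Finsupp.support_filter, Finset.mem_filter] at hS
      have h5 := hd S hS.1
      rw [degS] at h5
      exact ⟨hS.2, by have := hS.2; omega⟩
    have h6 : bd b = asymL asym ω1 := by
      have h7 : B.W (bd b + asymL asym ω1) = 0 := by
        rw [map_add, ← h3, add2]
      have h8 := Ld.kinj A H (p := p + k) (q := q) (by omega)
        (add_mem (K.bd_Wd (p + k + 2) q b hb) (asymL_Wd K hω1')) h7
      rw [← sub2, sub_eq_zero] at h8
      exact h8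
    have h9 : ω1 = 0 := K.asym_inj ω1 b (by
      rw [h6, asymL, Finsupp.linearCombination_apply])
    have h10 : ∀ S ∈ ω.support, S.card ≤ p + 1 + k := by
      intro S hS
      have h11 := hc S hS
      by_contra hcon
      have h12 : S.card = p + k + 1 + 1 := by omega
      have h13 : S ∈ ω1.support := by
        rw [hω1, Finsupp.support_filter, Finset.mem_filter]
        exact ⟨hS, h12⟩
      rw [h9] at h13
      simp at h13
    have h14 : bd b = 0 := by rw [h6, h9, map_zero]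
    obtain ⟨y, hy, c, hc1, hc2⟩ := K.exact (p + k + 1 + 1) q b hb h14
    obtain ⟨β, hβ1, hβ2, hβ3⟩ := A.lift (p := p + k + 1 + 2 - 1 + 1) (q := q) (b := y) (by
      have e : p + k + 1 + 2 - 1 + 1 + 1 = p + k + 1 + 1 + 2 := by omega
      rw [e]; exact hy)
    have e3 : p + k + 1 + 2 - 1 + 1 = p + k + 1 + 1 + 1 := by omega
    rw [e3] at hβ1 hβ2 hβ3
    have hβ4 : A.L (p + k + 1 + 1) (X.d β) = B.W (bd y) := A.dW hβ1 hy hβ3
    have hβF : X.d β ∈ X.F (p + k + 1 + 2) := hβ1.2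
    have hcd : ∀ S ∈ c.support, S.card ≤ p + k + 1 + 2 := fun S hS => (hc1 S hS).1.le
    have hcg : ∀ S ∈ c.support, degS deg S = n + 1 := fun S hS => by
      rw [degS, (hc1 S hS).1, (hc1 S hS).2, hq]
    have hfc : c.filter (fun S => S.card = p + k + 1 + 1 + 1) = c := by
      rw [Finsupp.filter_eq_self_iff]
      intro S hS
      exact (hc1 S (Finsupp.mem_support_iff.2 hS)).1
    have hL : A.L (p + k + 1 + 1) (θ + X.d β + PsiL B c) = 0 := by
      rw [map_add, map_add, hb2, hβ4, A.psiL hcd, hfc, hc2, map_add, asymL,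
        Finsupp.linearCombination_apply]
      rw [add_assoc (B.W (bd y)), add_comm (B.W (c.sum _)) , add_assoc, add_assoc, add2, add_zero, add2]
    have hZ' : θ + X.d β + PsiL B c ∈ X.Z (p + k + 1 + 1 + 1) := by
      refine ⟨add_mem (add_mem hθ hβF) (PsiL_F B hcd), ?_⟩
      show X.d (θ + X.d β + PsiL B c) ∈ X.F' (p + k + 1 + 2)
      rw [map_add, map_add, X.dd, PsiL_d, add_zero, add_zero]
      exact hz.2
    have hG' : θ + X.d β + PsiL B c ∈ X.gr (n + 1) := by
      refine add_mem (add_mem hg (X.d_gr _ _ ?_)) (PsiL_gr B hcg)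
      have e : p + k + 1 + 1 + 1 + 1 + q = n + 1 + 1 := by omega
      rwa [e] at hβ2
    obtain ⟨x, ⟨hx1, hx2⟩, hx3⟩ := A.ker hZ' hG' hL
    refine ⟨θ + X.d β + PsiL B c - X.d x, ?_, sub_mem hG' (X.d_gr _ _ hx2), h10, ?_⟩
    · have e : p + 1 + 1 + k = p + k + 1 + 1 := by omega
      rw [e]; exact hx3
    · rw [map_sub, map_add, map_add, X.dd, X.dd, PsiL_d, add_zero, add_zero, sub_zero]
      exact he

include A in
/-- the descent -/
theorem Ld.descend (K : K1 deg bd asym) {r n t : ℕ} (hr : 1 ≤ r) (hn : n ≤ t + 2 * r)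
    (H : ∀ s, 1 ≤ s → s < t → Inj1 B s ∧ Surj1 B s) {u : X.T} (hu : u ∈ X.F r)
    {ω : Finset ι →₀ F2} (hd : ∀ S ∈ ω.support, degS deg S = n) :
    ∀ (k : ℕ) (θ : X.T) (_ : θ ∈ X.F (r + 1 + k)) (_ : θ ∈ X.gr (n + 1))
    (_ : ∀ S ∈ ω.support, S.card ≤ r + k) (_ : u = PsiL B ω + X.d θ),
    ∃ θ' ∈ X.F (r + 1), θ' ∈ X.gr (n + 1) ∧ (∀ S ∈ ω.support, S.card ≤ r) ∧
      u = PsiL B ω + X.d θ' := by
  intro k
  induction k with
  | zero => intro θ h1 h2 h3 h4; exact ⟨θ, h1, h2, h3, h4⟩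
  | succ k ih =>
    intro θ h1 h2 h3 h4
    obtain ⟨θ', g1, g2, g3, g4⟩ := A.step K hr hn H hu k h1 h2 h3 hd h4
    exact ih θ' g1 g2 g3 g4

include A in
theorem Ld.descend' (K : K1 deg bd asym) {r n t N : ℕ} (hr : 1 ≤ r) (hn : n ≤ t + 2 * r)
    (H : ∀ s, 1 ≤ s → s < t → Inj1 B s ∧ Surj1 B s) {u : X.T} (hu : u ∈ X.F r)
    (hug : u ∈ X.gr n) (hud : X.d u = 0) (hn1 : 1 ≤ n) (hnN : n ≤ N + 1) (hs : Span X B N) :
    ∃ ω : Finset ι →₀ F2, (∀ S ∈ ω.support, degS deg S = n) ∧ (∀ S ∈ ω.support, S.card ≤ r) ∧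
      ∃ θ ∈ X.F (r + 1), θ ∈ X.gr (n + 1) ∧ u = PsiL B ω + X.d θ := by
  obtain ⟨ω, h1, θ, h2, h3⟩ := hs n hn1 hnN u hug hud
  have h3' : u = PsiL B ω + X.d θ := by rw [h3, PsiL, Finsupp.linearCombination_apply]
  obtain ⟨θ', g1, g2, g3, g4⟩ := A.descend K hr hn H hu h1 n θ
    (X.F_mono (by omega) (X.gr_F _ h2)) h2 (fun S hS => by
      have := degS_card B.deg_pos S
      rw [h1 S hS] at this
      omega) h3'
  exact ⟨ω, h1, g3, θ', g1, g2, g4⟩

include A in
/-- surjectivity at `t` -/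
theorem Ld.surj (K : K1 deg bd asym) {t N : ℕ} (ht : 1 ≤ t) (htN : t ≤ N)
    (H : ∀ s, 1 ≤ s → s < t → Inj1 B s ∧ Surj1 B s) (hs : Span X B N) : Surj1 B t := by
  classical
  intro θ1 hθ1
  obtain ⟨t, rfl⟩ : ∃ t', t = t' + 1 := ⟨t - 1, by omega⟩
  have hθ1g : (θ1 : X.T) ∈ X.gr (t + 2) := by
    have e : 1 + (t + 1) = t + 2 := by omega
    rwa [e] at hθ1
  have hθ1F : (θ1 : X.T) ∈ X.F 1 := θ1.2.1
  have hθ1d : X.d θ1 ∈ X.F 0 := θ1.2.2
  obtain ⟨x, ⟨hx1, hx2⟩, hx3⟩ := B.zero t (X.d θ1) ⟨hθ1d, X.d_gr _ _ hθ1g⟩ (X.dd _)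
  have hu1 : (θ1 : X.T) - x ∈ X.F 1 := sub_mem hθ1F (X.F_mono (by omega) hx1)
  obtain ⟨ω, h1, h2, θ, h3, h4, h5⟩ := A.descend' K (r := 1) (n := t + 2) le_rfl (by omega) H hu1
    (sub_mem hθ1g hx2) (by rw [map_sub, hx3, sub_self]) (by omega) (by omega) hs
  have hdθ : X.d θ = (θ1 - x) + PsiL B ω := by
    rw [h5, add_comm (PsiL B ω), add_assoc, add2, add_zero]
  have hz : θ ∈ X.Z (0 + 2) := ⟨h3, by
    show X.d θ ∈ X.F 1
    rw [hdθ]; exact add_mem hu1 (PsiL_F B h2)⟩
  obtain ⟨b, hb, hb2⟩ := A.ksurj H (p := 0) (q := t + 1) (by omega) hz (by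
    have e : 0 + 2 + (t + 1) = t + 2 + 1 := by omega
    rw [e]; exact h4)
  have h6 := A.dW hz hb hb2
  rw [hdθ, map_add, map_sub, A.low hx1, sub_zero, A.psiL h2] at h6
  have hfil : ∀ S ∈ (ω.filter fun S => S.card = 0 + 1).support, S.card = 1 ∧ ∑ i ∈ S, deg i = t + 1 := by
    intro S hS
    rw [Finsupp.support_filter, Finset.mem_filter] at hS
    have h7 := h1 S hS.1
    rw [degS] at h7
    exact ⟨hS.2, by have := hS.2; omega⟩
  refine ⟨bd b + asymL asym (ω.filter fun S => S.card = 0 + 1),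
    add_mem (K.bd_Wd 1 (t + 1) b hb) (asymL_Wd K hfil), ?_⟩
  rw [map_add, ← h6, add_assoc, add2, add_zero, A.eq 0 _ θ1.2]

/-- decomposition of one-letter words -/
theorem decomp (K : K1 deg bd asym) (t : ℕ) {b : Bar ι} (hb : b ∈ Wd deg 1 t) :
    ∃ c : ι →₀ F2, (∀ i ∈ c.support, deg i = t) ∧ ∃ a ∈ Wd deg 2 t,
      b = (c.sum fun i r => r • asym {i}) + bd a := by
  classical
  rw [Wd, Finsupp.supported_eq_span_single] at hb
  refine Submodule.span_induction (p := fun b _ => ∃ c : ι →₀ F2, (∀ i ∈ c.support, deg i = t) ∧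
    ∃ a ∈ Wd deg 2 t, b = (c.sum fun i r => r • asym {i}) + bd a) ?_ ?_ ?_ ?_ hb
  · rintro _ ⟨w, ⟨hw1, hw2⟩, rfl⟩
    obtain ⟨m, rfl⟩ := List.length_eq_one_iff.1 hw1
    have hm := m.2
    obtain ⟨i, hi⟩ : ∃ i, m.1 i ≠ 0 := by
      by_contra hcon
      push Not at hcon
      exact hm (Finsupp.ext hcon)
    by_cases h1 : m.1 = Finsupp.single i 1
    · refine ⟨Finsupp.single i 1, fun j hj => ?_, 0, zero_mem _, ?_⟩
      · have hj' : j = i := by
          have := Finsupp.support_single_subset hj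
          simpa using this
        subst hj'
        simp only [wt, List.map_cons, List.map_nil, List.sum_cons, List.sum_nil, add_zero, wt1, h1] at hw2
        rw [Finsupp.sum_single_index (by simp)] at hw2
        omega
      · rw [map_zero, add_zero, Finsupp.sum_single_index (by simp), one_smul, K.asym_one]
        congr 2
        exact Subtype.ext h1
    · have hle : Finsupp.single i 1 ≤ m.1 := by
        rw [Finsupp.single_le_iff]; omega
      have hne : m.1 - Finsupp.single i 1 ≠ 0 := by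
        intro h0
        apply h1
        have h2 := tsub_eq_zero_iff_le.1 h0
        exact le_antisymm h2 hle
      have hsum : Finsupp.single i 1 + (m.1 - Finsupp.single i 1) = m.1 := add_tsub_cancel_of_le hle
      refine ⟨0, by simp, Finsupp.single [⟨Finsupp.single i 1, by simp⟩, ⟨m.1 - Finsupp.single i 1, hne⟩] 1,
        ?_, ?_⟩
      · rw [Wd, Finsupp.mem_supported]
        intro w hw
        have hw' := Finsupp.support_single_subset hw
        simp only [Finset.mem_singleton] at hw'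
        subst hw'
        refine ⟨rfl, ?_⟩
        rw [← hw2]
        simp only [wt, List.map_cons, List.map_nil, List.sum_cons, List.sum_nil, add_zero, wt1]
        conv_rhs => rw [← hsum]
        rw [Finsupp.sum_add_index' (fun _ => by simp) (fun _ _ _ => by ring)]
      · rw [K.bd_two, Finsupp.sum_zero_index, zero_add]
        congr 2
        exact Subtype.ext hsum.symm
  · exact ⟨0, by simp, 0, zero_mem _, by simp⟩
  · rintro x y - - ⟨c, h1, a, h2, h3⟩ ⟨c', h1', a', h2', h3'⟩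
    refine ⟨c + c', fun i hi => ?_, a + a', add_mem h2 h2', ?_⟩
    · rcases Finset.mem_union.1 (Finsupp.support_add hi) with h | h
      · exact h1 i h
      · exact h1' i h
    · rw [h3, h3', map_add, Finsupp.sum_add_index' (fun _ => by simp) (fun _ _ _ => by rw [add_smul])]
      abel
  · rintro r x - ⟨c, h1, a, h2, h3⟩
    refine ⟨r • c, fun i hi => h1 i (Finsupp.support_smul hi), r • a, Submodule.smul_mem _ _ h2, ?_⟩
    rw [h3, smul_add, map_smul, Finsupp.sum_smul_index' (fun _ => by simp), Finsupp.smul_sum]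
    simp only [smul_smul, smul_eq_mul]

include A in
/-- injectivity at `t` -/
theorem Ld.inj (K : K1 deg bd asym) {t N : ℕ} (ht : 1 ≤ t) (htN : t + 1 ≤ N)
    (H : ∀ s, 1 ≤ s → s < t → Inj1 B s ∧ Surj1 B s) (hi : Indep X B N) (hs : Span X B N) :
    Inj1 B t := by
  classical
  intro b hb hWb
  obtain ⟨c, hc, a, ha, hba⟩ := decomp K t hb
  obtain ⟨θ, hθ, hθg, hθL⟩ := A.lift (p := 1) (q := t) (b := a) ha
  have hθg' : θ ∈ X.gr (t + 2) := by
    have e : 1 + 1 + t = t + 2 := by omega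
    rwa [e] at hθg
  have h1 : A.L 0 (X.d θ) = B.W (bd a) := A.dW (p := 0) hθ ha hθL
  set v : X.T := c.sum fun i r => r • B.Psi {i} with hv
  have hvF : v ∈ X.F 1 := by
    rw [hv, Finsupp.sum]
    refine Submodule.sum_mem _ fun i _ => Submodule.smul_mem _ _ ?_
    have := B.Psi_F {i}
    rwa [Finset.card_singleton] at this
  have hvd : X.d v = 0 := by
    rw [hv, Finsupp.sum, map_sum]
    exact Finset.sum_eq_zero fun i _ => by rw [map_smul, B.Psi_d, smul_zero]
  have hvg : v ∈ X.gr (t + 1) := by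
    rw [hv, Finsupp.sum]
    refine Submodule.sum_mem _ fun i hi => Submodule.smul_mem _ _ ?_
    have := B.Psi_gr {i}
    rw [degS, Finset.card_singleton, Finset.sum_singleton, hc i hi, add_comm] at this
    exact this
  have hvL : A.L 0 v = B.W (c.sum fun i r => r • asym {i}) := by
    rw [hv, Finsupp.sum, map_sum, Finsupp.sum, map_sum]
    refine Finset.sum_congr rfl fun i _ => ?_
    rw [map_smul, map_smul, A.psi (Finset.card_singleton i)]
  have h2 : A.L 0 (X.d θ + v) = 0 := by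
    rw [map_add, h1, hvL, ← map_add, add_comm (bd a), ← hba, hWb]
  have hz : X.d θ + v ∈ X.Z 1 := by
    refine ⟨add_mem hθ.2 hvF, ?_⟩
    show X.d (X.d θ + v) ∈ X.F' 1
    rw [map_add, X.dd, hvd, add_zero]; exact zero_mem _
  obtain ⟨x, ⟨hx1, hx2⟩, hx3⟩ := A.ker hz (add_mem (X.d_gr _ _ hθg') hvg) h2
  obtain ⟨t, rfl⟩ : ∃ t', t = t' + 1 := ⟨t - 1, by omega⟩
  obtain ⟨z, ⟨hz1, hz2⟩, hz3⟩ := B.zero (t + 1) (X.d θ + v - X.d x)
    ⟨hx3, sub_mem (add_mem (X.d_gr _ _ hθg') hvg) (X.d_gr _ _ hx2)⟩ (by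
      rw [map_sub, map_add, X.dd, X.dd, hvd]; simp)
  have hcz : c = 0 := by
    refine hi (t + 1) (by omega) c hc ⟨x + z + θ, add_mem (add_mem hx2 hz2) hθg', ?_⟩
    rw [map_add, map_add, hz3, ← hv]
    rw [add_comm (X.d x), sub_add_cancel, add_comm (X.d θ) v, add_assoc, add2, add_zero]
  have hv0 : v = 0 := by rw [hv, hcz, Finsupp.sum_zero_index]
  rw [hv0, add_zero] at hz3
  -- the cycle
  set u : X.T := θ - x - z with hu
  have huF : u ∈ X.F 2 := sub_mem (sub_mem hθ.1 (X.F_mono (by omega) hx1)) (X.F_mono (by omega) hz1)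
  have hug : u ∈ X.gr (t + 1 + 2) := sub_mem (sub_mem hθg' hx2) hz2
  have hud : X.d u = 0 := by
    rw [hu, map_sub, map_sub, hz3]; abel
  have huL : A.L 1 u = B.W a := by
    rw [hu, map_sub, map_sub, A.low hx1, A.low (X.F_mono (by omega) hz1), sub_zero, sub_zero, hθL]
  obtain ⟨ω, g1, g2, θ', g3, g4, g5⟩ := A.descend' K (r := 2) (n := t + 1 + 2) (by omega) (by omega) H huF
    hug hud (by omega) (by omega) hs
  have hdθ' : X.d θ' = u + PsiL B ω := by
    rw [g5, add_comm (PsiL B ω), add_assoc, add2, add_zero]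
  have hz' : θ' ∈ X.Z (1 + 2) := ⟨g3, by
    show X.d θ' ∈ X.F 2
    rw [hdθ']; exact add_mem huF (PsiL_F B g2)⟩
  obtain ⟨z3, hz3', hz4⟩ := A.ksurj H (p := 1) (q := t + 1) (by omega) hz' (by
    have e : 1 + 2 + (t + 1) = t + 1 + 2 + 1 := by omega
    rw [e]; exact g4)
  have h6 := A.dW hz' hz3' hz4
  rw [hdθ', map_add, A.psiL g2, huL] at h6
  set ω2 := ω.filter fun S => S.card = 1 + 1 with hω2
  have hfil : ∀ S ∈ ω2.support, S.card = 2 ∧ ∑ i ∈ S, deg i = t + 1 := by
    intro S hS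
    rw [hω2, Finsupp.support_filter, Finset.mem_filter] at hS
    have h7 := g1 S hS.1
    rw [degS] at h7
    exact ⟨hS.2, by have := hS.2; omega⟩
  have h8 : a + asymL asym ω2 + bd z3 = 0 := by
    refine Ld.kinj A H (p := 0) (q := t + 1) (by omega)
      (add_mem (add_mem ha (asymL_Wd K hfil)) (K.bd_Wd 2 (t + 1) z3 hz3')) ?_
    rw [map_add, map_add, h6, add2]
  have h9 : a = asymL asym ω2 + bd z3 := by
    rw [add_assoc] at h8
    rw [← sub2, sub_eq_zero] at h8
    exact h8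
  have h10 : bd a = 0 := by
    rw [h9, map_add, K.bd_bd, add_zero, asymL, Finsupp.linearCombination_apply, Finsupp.sum, map_sum]
    exact Finset.sum_eq_zero fun S hS => by rw [map_smul, K.asym_two S (hfil S hS).1, smul_zero]
  rw [hba, hcz, h10, Finsupp.sum_zero_index, add_zero]

end

/-- **K2** -/
theorem k2 : K2 := by
  intro X ι deg bd asym B K N hi hs t
  obtain ⟨A⟩ := Ld.exists B
  have key : ∀ t, 1 ≤ t → t ≤ N → (t + 1 ≤ N → Inj1 B t) ∧ Surj1 B t := by
    intro t
    induction t using Nat.strong_induction_on with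
    | _ t ih =>
      intro ht htN
      have H : ∀ s, 1 ≤ s → s < t → Inj1 B s ∧ Surj1 B s := fun s h1 h2 =>
        ⟨(ih s h2 h1 (by omega)).1 (by omega), (ih s h2 h1 (by omega)).2⟩
      exact ⟨fun h => A.inj K ht h H hi hs, A.surj K ht htN H hs⟩
  intro ht
  exact ⟨fun h => (key t ht (by omega)).1 h, fun h => (key t ht h).2⟩

end Crest.Agent.R204.Bar334
end
end

-- ▼ part R204/Glue_979
section

/-!
# Row 204, block B: from the abstract range loop theorem `k2` (334) to the form `SimR → PolyR`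
owner helper979

`Cmp` : comparison between `BarData` of a filtered complex and the algebras `HG = H_*(G)`, `HB = H_*(B)`.
`Cmp.polyR` : the loop space theorem in a range.
-/

set_option autoImplicit false

namespace Crest.Agent.R204.Ind979

open Crest.Agent.R204.Bar334

/-- comparison data -/
structure Cmp {HG HB : Type} [CommRing HG] [Algebra F2 HG] [CommRing HB] [Algebra F2 HB]
    (grG : ℕ → Submodule F2 HG) (grB : ℕ → Submodule F2 HB) (s : HG →ₗ[F2] HB) {ι : Type}
    (v : ι → HG) (deg : ι → ℕ) (X : FC) {bd : Bar ι →ₗ[F2] Bar ι} {asym : Finset ι → Bar ι}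
    (B : BarData X deg bd asym) where
  /-- homology class in `H_*(B)` of a cycle of the total complex -/
  ev : LinearMap.ker X.d →ₗ[F2] HB
  ev_gr : ∀ n, ∀ z : LinearMap.ker X.d, (z : X.T) ∈ X.gr n → ev z ∈ grB n
  ev_ker : ∀ n, ∀ z : LinearMap.ker X.d, (z : X.T) ∈ X.gr n → ev z = 0 → ∃ x ∈ X.gr (n + 1), X.d x = z
  ev_bd : ∀ z : LinearMap.ker X.d, (∃ x, X.d x = z) → ev z = 0
  ev_Psi : ∀ S, ev ⟨B.Psi S, B.Psi_d S⟩ = ∏ i ∈ S, s (v i)
  /-- `H_*(G) → E¹_1` -/
  j : HG →ₗ[F2] B.E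
  j_W : ∀ m : NMon ι, j (mval v m) = B.W (Finsupp.single [m] 1)
  j_inj : ∀ t, 1 ≤ t → ∀ a ∈ grG t, j a = 0 → a = 0
  j_lead : ∀ t, 1 ≤ t → ∀ a ∈ grG t, ∃ θ : X.Z 1, (θ : X.T) ∈ X.gr (1 + t) ∧ B.lead 0 θ = j a

namespace Cmp

variable {HG HB : Type} [CommRing HG] [Algebra F2 HG] [CommRing HB] [Algebra F2 HB]
  {grG : ℕ → Submodule F2 HG} {grB : ℕ → Submodule F2 HB} {s : HG →ₗ[F2] HB} {ι : Type}
  {v : ι → HG} {deg : ι → ℕ} {X : FC} {bd : Bar ι →ₗ[F2] Bar ι} {asym : Finset ι → Bar ι}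
  {B : BarData X deg bd asym}

theorem degS_eq (deg : ι → ℕ) (S : Finset ι) : degS deg S = sdeg (fun i => deg i + 1) S := by
  rw [degS, sdeg, Finset.sum_add_distrib, Finset.sum_const, smul_eq_mul, mul_one, add_comm]

theorem indep (C : Cmp grG grB s v deg X B) {N : ℕ}
    (h : SimR grB (fun i => s (v i)) (fun i => deg i + 1) N) : Indep X B N := by
  classical
  rintro t ht c hc ⟨x, -, hx⟩
  have h1 := h.1 (t + 1) ht
  have hdeg : ∀ i ∈ c.support, sdeg (fun i => deg i + 1) {i} = t + 1 := fun i hi => by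
    rw [sdeg, Finset.sum_singleton, hc i hi]
  -- the relation in `HB`
  have h2 : c.sum (fun i r => r • s (v i)) = 0 := by
    have h3 : (⟨c.sum fun i r => r • B.Psi {i}, by
        rw [LinearMap.mem_ker, ← hx, X.dd]⟩ : LinearMap.ker X.d) =
        c.sum fun i r => r • (⟨B.Psi {i}, B.Psi_d {i}⟩ : LinearMap.ker X.d) := by
      apply Subtype.ext
      simp only [Finsupp.sum, AddSubmonoidClass.coe_finsetSum, Submodule.coe_smul]
    have h4 := C.ev_bd _ ⟨x, hx.trans (congrArg Subtype.val h3)⟩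
    rw [map_finsuppSum] at h4
    simp only [map_smul, C.ev_Psi, Finset.prod_singleton] at h4
    exact h4
  have h5 : LinearIndepOn F2 (sval (fun i => s (v i))) {S | sdeg (fun i => deg i + 1) S = t + 1} := h1
  rw [linearIndepOn_iff] at h5
  have h6 := h5 (c.mapDomain (fun i => ({i} : Finset ι))) ?_ ?_
  · have : c.mapDomain (fun i => ({i} : Finset ι)) = (0 : ι →₀ F2).mapDomain (fun i => ({i} : Finset ι)) := by
      rw [h6, Finsupp.mapDomain_zero]
    exact Finsupp.mapDomain_injective Finset.singleton_injective this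
  · rw [Finsupp.mem_supported]
    intro S hS
    have := Finsupp.mapDomain_support hS
    obtain ⟨i, hi, rfl⟩ := Finset.mem_image.1 this
    exact hdeg i hi
  · rw [Finsupp.linearCombination_mapDomain, Finsupp.linearCombination_apply]
    simpa [sval] using h2

theorem span (C : Cmp grG grB s v deg X B) {N : ℕ}
    (h : SimR grB (fun i => s (v i)) (fun i => deg i + 1) N) : Span X B N := by
  classical
  intro n hn1 hn z hz hdz
  have h1 := h.2 n hn (C.ev_gr n ⟨z, hdz⟩ hz)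
  rw [Finsupp.span_image_eq_map_linearCombination] at h1
  obtain ⟨c, hc, hcz⟩ := h1
  rw [SetLike.mem_coe, Finsupp.mem_supported] at hc
  have hcS : ∀ S ∈ c.support, degS deg S = n := fun S hS => by
    rw [degS_eq]; exact hc hS
  let w : LinearMap.ker X.d := c.sum fun S r => r • (⟨B.Psi S, B.Psi_d S⟩ : LinearMap.ker X.d)
  have hw : (w : X.T) = c.sum fun S r => r • B.Psi S := by
    simp only [w, Finsupp.sum, AddSubmonoidClass.coe_finsetSum, Submodule.coe_smul]
  have hwev : C.ev w = C.ev ⟨z, hdz⟩ := by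
    rw [← hcz, Finsupp.linearCombination_apply]
    simp only [w]
    rw [map_finsuppSum]
    simp only [map_smul, C.ev_Psi]
    rfl
  have hwgr : (w : X.T) ∈ X.gr n := by
    rw [hw]
    refine Submodule.sum_mem _ fun S hS => Submodule.smul_mem _ _ ?_
    have := B.Psi_gr S
    rwa [hcS S hS] at this
  obtain ⟨x, hx, hxd⟩ := C.ev_ker n (⟨z, hdz⟩ - w) (Submodule.sub_mem _ hz hwgr) (by
    rw [map_sub, hwev, sub_self])
  refine ⟨c, hcS, x, hx, ?_⟩
  rw [hxd, ← hw]
  show z = (w : X.T) + (z - w)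
  abel

theorem wt_single (deg : ι → ℕ) (m : NMon ι) : wt deg [m] = mdeg deg m.1 := by
  rw [wt, List.map_cons, List.map_nil, List.sum_cons, List.sum_nil, add_zero]
  rfl

/-- **the loop space theorem in a range**, algebraic form -/
theorem polyR (C : Cmp grG grB s v deg X B) (K : K1 deg bd asym) {N : ℕ}
    (hv : ∀ i, v i ∈ grG (deg i)) (one_mem : (1 : HG) ∈ grG 0)
    (mul_mem : ∀ s t a b, a ∈ grG s → b ∈ grG t → a * b ∈ grG (s + t))
    (one_ne : (1 : HG) ≠ 0) (conn : grG 0 ≤ Submodule.span F2 {1})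
    (h : SimR grB (fun i => s (v i)) (fun i => deg i + 1) (N + 1)) : PolyR grG v deg N := by
  classical
  have key := k2 X ι deg bd asym B K (N + 1) (C.indep h) (C.span h)
  -- degrees of monomials
  have hmem : ∀ m : ι →₀ ℕ, mval v m ∈ grG (mdeg deg m) := by
    intro m
    induction m using Finsupp.induction_linear with
    | zero => rw [mval_zero, mdeg_zero]; exact one_mem
    | add a b ha hb => rw [mval_add, mdeg_add]; exact mul_mem _ _ _ _ ha hb
    | single i n =>
      rw [mval_single, mdeg_single]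
      induction n with
      | zero => rw [pow_zero, zero_mul]; exact one_mem
      | succ n ih => rw [pow_succ, add_mul, one_mul]; exact mul_mem _ _ _ _ ih (hv i)
  have hzero : ∀ m : ι →₀ ℕ, mdeg deg m = 0 → m = 0 := by
    intro m hm
    ext i
    by_contra hi
    have h1 : m i * deg i ≤ mdeg deg m := Finset.single_le_sum (f := fun i => m i * deg i)
      (fun _ _ => Nat.zero_le _) (Finsupp.mem_support_iff.2 hi)
    have h2 := B.deg_pos i
    have h3 : 0 < m i * deg i := Nat.mul_pos (Nat.pos_of_ne_zero hi) h2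
    omega
  -- one letter words
  let g : (ι →₀ ℕ) → List (NMon ι) := fun m => if hm : m ≠ 0 then [⟨m, hm⟩] else []
  have hg : ∀ m (hm : m ≠ 0), g m = [⟨m, hm⟩] := fun m hm => dif_pos hm
  have hginj : Function.Injective g := by
    intro m m' hmm
    by_cases h1 : m = 0 <;> by_cases h2 : m' = 0
    · rw [h1, h2]
    · exfalso
      rw [hg m' h2] at hmm
      simp [g, h1] at hmm
    · exfalso
      rw [hg m h1] at hmm
      simp [g, h2] at hmm
    · rw [hg m h1, hg m' h2] at hmm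
      simpa using hmm
  refine ⟨fun t ht => ?_, fun t ht => ?_⟩
  · rcases Nat.eq_zero_or_pos t with rfl | ht1
    · have hss : Subsingleton {m : ι →₀ ℕ // mdeg deg m = 0} := ⟨fun a b => by
        apply Subtype.ext; rw [hzero _ a.2, hzero _ b.2]⟩
      rw [linearIndependent_subsingleton_index_iff]
      rintro ⟨m, hm⟩
      obtain rfl := hzero m hm
      show mval v 0 ≠ 0
      rw [mval_zero]
      exact one_ne
    · have : LinearIndepOn F2 (mval v) {m | mdeg deg m = t} := by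
        rw [linearIndepOn_iff]
        intro l hl h0
        rw [Finsupp.mem_supported] at hl
        have hne : ∀ m ∈ l.support, m ≠ 0 := fun m hm hm0 => by
          have := hl hm
          rw [Set.mem_ofPred_eq, hm0, mdeg_zero] at this
          omega
        have hb : l.mapDomain g ∈ Wd deg 1 t := by
          rw [Wd, Finsupp.mem_supported]
          intro w hw
          obtain ⟨m, hm, rfl⟩ := Finset.mem_image.1 (Finsupp.mapDomain_support hw)
          rw [hg m (hne m hm)]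
          refine ⟨rfl, ?_⟩
          rw [wt_single]
          exact hl hm
        have hW : B.W (l.mapDomain g) = 0 := by
          rw [Finsupp.mapDomain, Finsupp.sum, map_sum]
          rw [Finsupp.linearCombination_apply, Finsupp.sum] at h0
          have h1 := congrArg C.j h0
          rw [map_sum, map_zero] at h1
          rw [← h1]
          refine Finset.sum_congr rfl fun m hm => ?_
          rw [hg m (hne m hm), map_smul, C.j_W ⟨m, hne m hm⟩, ← map_smul, Finsupp.smul_single,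
            smul_eq_mul, mul_one]
        have h2 := (key t ht1).1 (by omega) _ hb hW
        exact Finsupp.mapDomain_injective hginj (h2.trans Finsupp.mapDomain_zero.symm)
      exact this
  · rcases Nat.eq_zero_or_pos t with rfl | ht1
    · refine conn.trans (Submodule.span_mono ?_)
      rintro _ rfl
      exact ⟨0, mdeg_zero deg, mval_zero v⟩
    · intro a ha
      obtain ⟨θ, hθ, hθj⟩ := C.j_lead t ht1 a ha
      obtain ⟨b, hb, hbW⟩ := (key t ht1).2 ht θ hθ
      rw [Wd, Finsupp.mem_supported] at hb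
      -- the combination of monomials
      have hword : ∀ w ∈ b.support, ∃ m : NMon ι, w = [m] ∧ mdeg deg m.1 = t := fun w hw => by
        obtain ⟨h1, h2⟩ := hb hw
        obtain ⟨m, rfl⟩ := List.length_eq_one_iff.1 h1
        exact ⟨m, rfl, by rw [← wt_single]; exact h2⟩
      let f : List (NMon ι) → HG := fun w => mval v ((w.map Subtype.val).sum)
      have hf : ∀ m : NMon ι, f [m] = mval v m.1 := fun m => by
        simp only [f, List.map_cons, List.map_nil, List.sum_cons, List.sum_nil, add_zero]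
      have hmemt : b.sum (fun w r => r • f w) ∈ Submodule.span F2 (mval v '' {m | mdeg deg m = t}) := by
        refine Submodule.sum_mem _ fun w hw => Submodule.smul_mem _ _ (Submodule.subset_span ?_)
        obtain ⟨m, rfl, hm⟩ := hword w hw
        exact ⟨m.1, hm, (hf m).symm⟩
      have hgrt : b.sum (fun w r => r • f w) ∈ grG t := by
        refine Submodule.sum_mem _ fun w hw => Submodule.smul_mem _ _ ?_
        obtain ⟨m, rfl, hm⟩ := hword w hw
        rw [hf, ← hm]
        exact hmem m.1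
      have hj : C.j (b.sum (fun w r => r • f w)) = C.j a := by
        rw [← hθj, hbW]
        conv_rhs => rw [← Finsupp.sum_single b]
        rw [Finsupp.sum, Finsupp.sum, map_sum, map_sum]
        refine Finset.sum_congr rfl fun w hw => ?_
        obtain ⟨m, rfl, hm⟩ := hword w hw
        rw [map_smul, hf, C.j_W, ← map_smul, Finsupp.smul_single, smul_eq_mul, mul_one]
      have h3 := C.j_inj t ht1 (a - b.sum (fun w r => r • f w)) (Submodule.sub_mem _ ha hgrt) (by
        rw [map_sub, hj, sub_self])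
      rw [sub_eq_zero.1 h3]
      exact hmemt

end Cmp

end Crest.Agent.R204.Ind979
end

-- ▼ part R204/GeoB_979

/-!
# Row 204, block B, final instantiation, part B (helper979)

For `X : PFib`: one-letter brackets `j1 : H G → E¹_1`, its kernel, and the **loop theorem in a range** for `X`:
`PFib.loop_polyR` : for any `BarData` on `Tot (cech π)` compatible with 343's `lead` and 170's brackets and any
injective multiplicative `φ : H K → A` into a commutative algebra,
`SimR grA (φ ∘ σ ∘ v) (deg + 1) (N + 1) → PolyR grG v deg N`.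
-/

set_option autoImplicit false

noncomputable section

namespace Crest.Agent.R204.Geo979

open Crest.Agent.R204 Crest.Agent.R204.Bis343 Crest.Agent.R204.Bis343.BSS Crest.Agent.R204.Bar170
  Crest.Agent.R204.Coalg847 Crest.Agent.R204.Ind979 Crest.Agent.R204.Bar334
open TensorProduct

section br1
variable (X : PFib) (hi : SpecA.HomotopyInv) (Z : EZData)

/-- one-letter brackets -/
def br1 : H F2 X.G →ₗ[F2] H F2 (X.E 1) :=
  H.map F2 (X.alpha 0) ∘ₗ (Z.cr X.G (X.E 0)).toLinearMap ∘ₗ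
    (TensorProduct.mk F2 (H F2 X.G) (H F2 (X.E 0))).flip (X.br Z 0 Fin.elim0)

theorem br1_apply (a : H F2 X.G) : br1 X Z a = X.br Z 1 (fun _ => a) := by
  rw [PFib.br_succ]
  rfl

theorem br1_mem {t : ℕ} {a : H F2 X.G} (ha : a ∈ H.gr F2 X.G t) : br1 X Z a ∈ H.gr F2 (X.E 1) t := by
  have h0 : X.br Z 0 Fin.elim0 ∈ H.gr F2 (X.E 0) 0 := hMap_mem_gr _ (vtx_mem_gr _)
  exact hMap_mem_gr (X.alpha 0) (Z.cr_mem_gr ha h0)

include hi in
theorem br1_inj {a : H F2 X.G} (h : br1 X Z a = 0) : a = 0 := by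
  have h1 : X.alphaH hi 0 (Z.cr X.G (X.E 0) (a ⊗ₜ X.br Z 0 Fin.elim0)) = 0 := h
  rw [LinearEquiv.map_eq_zero_iff, LinearEquiv.map_eq_zero_iff] at h1
  have h2 := congrArg ((TensorProduct.rid F2 (H F2 X.G)).toLinearMap ∘ₗ
    TensorProduct.map LinearMap.id (eps (X.E 0))) h1
  rw [map_zero, LinearMap.comp_apply, TensorProduct.map_tmul, PFib.eps_br] at h2
  simpa using h2

/-- `a ↦ [a]` in `E¹_1` -/
def j1 : H F2 X.G →ₗ[F2] (cech X.π).E1 1 := (Submodule.mkQ _) ∘ₗ br1 X Z

theorem j1_apply (a : H F2 X.G) :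
    j1 X Z a = (Submodule.Quotient.mk (X.br Z 1 (fun _ => a)) : (cech X.π).E1 1) := by
  rw [← br1_apply]; rfl

include hi in
/-- the kernel of `j1` -/
theorem j1_ker {a : H F2 X.G} (h : j1 X Z a = 0) : ∃ c : F2, a = c • vtx X.e := by
  have h1 : br1 X Z a ∈ (cech X.π).SH.Deg 1 := (Submodule.Quotient.mk_eq_zero _).1 h
  have h2 : (cech X.π).SH.Deg 1 ≤ LinearMap.range (X.dg 0 0) := by
    show (⨆ j : Fin 1, LinearMap.range ((cech X.π).SH.act (Op.dgn j))) ≤ _
    refine iSup_le fun j => ?_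
    obtain rfl : j = 0 := Fin.ext (by omega)
    exact le_rfl
  obtain ⟨y, hy⟩ := h2 h1
  rw [X.E0_eq Z y Fin.elim0, map_smul, X.dg_br hi Z] at hy
  refine ⟨eps _ y, ?_⟩
  have h3 : br1 X Z (a - eps _ y • vtx X.e) = 0 := by
    rw [map_sub, map_smul, ← hy, br1_apply, sub_eq_zero]
    congr 2
    funext i
    obtain rfl : i = 0 := Fin.ext (by omega)
    simp
  exact sub_eq_zero.1 (br1_inj X hi Z h3)

include hi in
/-- `j1` is injective in positive degrees -/
theorem j1_inj {t : ℕ} (ht : 1 ≤ t) {a : H F2 X.G} (ha : a ∈ H.gr F2 X.G t) (h : j1 X Z a = 0) :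
    a = 0 := by
  obtain ⟨c, rfl⟩ := j1_ker X hi Z h
  have h1 : eps _ (c • vtx X.e) = (0 : F2) := eps_gr (by omega) ha
  rw [map_smul, eps_vtx, smul_eq_mul, mul_one] at h1
  rw [h1, zero_smul]

/-- every class of positive degree gives a leading term -/
theorem j1_lead (t : ℕ) {a : H F2 X.G} (ha : a ∈ H.gr F2 X.G t) :
    ∃ θ : ↥((FCof (cech X.π)).Z 1), (θ : (cech X.π).Tot) ∈ (cech X.π).grT (1 + t) ∧
      lead (cech X.π) 1 θ = j1 X Z a := by
  obtain ⟨θ, h1, h2⟩ := exists_lead (E := cech X.π) 1 (br1_mem X Z ha)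
  exact ⟨θ, h1, h2⟩

end br1

/-! ### the loop theorem -/

section loop
variable {X : PFib} {HG A : Type} [CommRing HG] [Algebra F2 HG] [CommRing A] [Algebra F2 A]
  {ι : Type}

/-- `BarData` compatible with 343's `lead` and 170's brackets -/
structure BarOK (X : PFib) (Z : EZData) (φ : (ι →₀ ℕ) → H F2 X.G) (deg : ι → ℕ)
    (Ps : Finset ι → H F2 X.K)
    (B : BarData (FCof (cech X.π)) deg (Koszul459.bd (ι := ι)) (Koszul459.asym (ι := ι))) where
  /-- `E¹_1` into `E` -/
  jE : (cech X.π).E1 1 →ₗ[F2] B.E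
  jE_inj : Function.Injective jE
  lead_eq : ∀ θ : ↥((FCof (cech X.π)).Z 1), B.lead 0 θ = jE (lead (cech X.π) 1 θ)
  W_eq : ∀ m : NMon ι, B.W (Finsupp.single [m] 1) = jE (j1 X Z (φ m.1))
  Psi_ev : ∀ S, evK X.π ⟨B.Psi S, B.Psi_d S⟩ = Ps S

/-- **the loop theorem in a range for a principal fibration up to homotopy** -/
theorem loop_polyR (hi : SpecA.HomotopyInv) (Z : EZData) {deg : ι → ℕ} {φ : (ι →₀ ℕ) → H F2 X.G}
    {Ps : Finset ι → H F2 X.K}
    {B : BarData (FCof (cech X.π)) deg (Koszul459.bd (ι := ι)) (Koszul459.asym (ι := ι))}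
    (O : BarOK X Z φ deg Ps B)
    -- the ring `H_* G`
    (g : HG →ₗ[F2] H F2 X.G) (grG : ℕ → Submodule F2 HG)
    (g_inj : Function.Injective g) (hgG : ∀ t a, a ∈ grG t → g a ∈ H.gr F2 X.G t)
    (one_mem : (1 : HG) ∈ grG 0)
    (mul_mem : ∀ s t a b, a ∈ grG s → b ∈ grG t → a * b ∈ grG (s + t))
    (one_ne : (1 : HG) ≠ 0) (conn : grG 0 ≤ Submodule.span F2 {1})
    (v : ι → HG) (hv : ∀ i, v i ∈ grG (deg i)) (hφ : ∀ m, φ m = g (mval v m))
    -- the algebra containing `H_* K`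
    (ψ : H F2 X.K →ₗ[F2] A) (grA : ℕ → Submodule F2 A) (ψ_inj : Function.Injective ψ)
    (hgA : ∀ t a, a ∈ H.gr F2 X.K t → ψ a ∈ grA t)
    (s : HG →ₗ[F2] A) (hs : ∀ S, ψ (Ps S) = ∏ i ∈ S, s (v i)) {N : ℕ}
    (h : SimR grA (fun i => s (v i)) (fun i => deg i + 1) (N + 1)) : PolyR grG v deg N := by
  let C : Cmp grG grA s v deg (FCof (cech X.π)) B :=
    { ev := ψ ∘ₗ evK X.π
      ev_gr := fun n z hz => hgA n _ (evK_gr X.π n z hz)
      ev_ker := fun n z hz h0 => evK_ker X.π X.onto n z hz (ψ_inj (by rw [map_zero]; exact h0))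
      ev_bd := fun z hz => by rw [LinearMap.comp_apply, evK_bd X.π z hz, map_zero]
      ev_Psi := fun S => by rw [LinearMap.comp_apply, O.Psi_ev, hs]
      j := O.jE ∘ₗ j1 X Z ∘ₗ g
      j_W := fun m => by
        rw [O.W_eq, hφ]; rfl
      j_inj := fun t ht a ha h0 => by
        have h1 : j1 X Z (g a) = 0 := O.jE_inj (by rw [map_zero]; exact h0)
        exact g_inj (by rw [map_zero]; exact j1_inj X hi Z ht (hgG t a ha) h1)
      j_lead := fun t _ a ha => by
        obtain ⟨θ, h1, h2⟩ := j1_lead X Z t (hgG t a ha)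
        exact ⟨θ, h1, by rw [O.lead_eq, h2]; rfl⟩ }
  exact C.polyR (K1_459.k1 deg) hv one_mem mul_mem one_ne conn h

end loop

end Crest.Agent.R204.Geo979
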