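import Crest.Agent.R204.Bis3_343
import Crest.Agent.R204.PFib_170
import Crest.Agent.R204.EZHtp_271
import Crest.Agent.R204.BrF_170
import Crest.Agent.R204.Bis4_343
import Crest.Agent.R204.EZInst_847
import Crest.Agent.R204.Sigma_88
import Crest.Agent.R204.HtpInv_334
import Crest.Agent.R204.E1_459
import Crest.Agent.R204.BarOf_170
import Crest.Agent.R204.GeoB_979

-- ▼ part R204/Psi_755
section

/-!
# Row 204, block B (leaf P3, helper755): product of a column-1 chain with a column-`p` chain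
-/

set_option autoImplicit false

namespace Crest.Agent.R204.Psi755

open Crest.Agent.R204 Crest.Agent.R204.Bis343 Crest.Agent.R204.EZ271 Crest.Agent.R204.Bar170
open Finsupp

/-! ## the universal chain `E(1,p)` -/

/-- `[m] → [1]`, `a ↦ 0` iff `a ≤ j` -/
def Op.step (m : ℕ) (j : ℕ) : Op m 1 where
  toFun a := if (a : ℕ) ≤ j then 0 else 1
  monotone' a b h := by
    have h' : (a : ℕ) ≤ b := h
    dsimp only
    split_ifs with h1 h2 h2
    · exact le_rfl
    · exact Fin.zero_le _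
    · omega
    · exact le_rfl

theorem Op.step_val (m j : ℕ) (a : Fin (m + 1)) :
    ((Op.step m j a : Fin 2) : ℕ) = if (a : ℕ) ≤ j then 0 else 1 := by
  show ((if (a : ℕ) ≤ j then (0 : Fin 2) else 1 : Fin 2) : ℕ) = _
  split_ifs <;> rfl

/-- `[m] → [0]` -/
def Op.bang (m : ℕ) : Op m 0 := ⟨fun _ => 0, fun _ _ _ => le_rfl⟩

theorem op_zero_ext {m : ℕ} (f g : Op m 0) : f = g :=
  OrderHom.ext _ _ (funext fun a => Fin.ext (by omega))

/-- a pair of operators as a simplex of a product of standard simplices -/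
def prS {m p q : ℕ} (f : Op m p) (g : Op m q) : ((SS.std p).prod (SS.std q)).S m := (f, g)

theorem E_zero_left (q : ℕ) : EZ271.E F2 0 q = N.sx F2 (prS (Op.bang q) (OrderHom.id : Op q q)) := by
  induction q with
  | zero =>
    rw [E_zero_zero]
    congr 1
    exact Prod.ext (op_zero_ext _ _) (op_zero_ext _ _)
  | succ q ih =>
    rw [E_zero_succ, ih, N.map_sx, Cone.c_sx]
    congr 1
    refine Prod.ext (op_zero_ext _ _) ?_
    refine OrderHom.ext _ _ (funext fun a => ?_)
    induction a using Fin.cases with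
    | zero => rfl
    | succ a => rfl

theorem E_one (p : ℕ) : EZ271.E F2 1 p =
    ∑ j : Fin (p + 1), N.sx F2 (prS (Op.step (p + 1) j) (Op.dgn j)) := by
  induction p with
  | zero =>
    rw [E_succ_zero, E_zero_left, N.map_sx, Cone.c_sx, Fin.sum_univ_one]
    congr 1
    refine Prod.ext ?_ (op_zero_ext _ _)
    refine OrderHom.ext _ _ (funext fun a => ?_)
    induction a using Fin.cases with
    | zero => rfl
    | succ a => rfl
  | succ p ih =>
    rw [E_succ_succ, neg_one_pow_F2, one_smul, ih, E_zero_left, N.map_sx, map_add, map_sum, map_sum,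
      Cone.c_sx, Fin.sum_univ_succ (n := p + 1)]
    congr 1
    · congr 1
      refine Prod.ext ?_ ?_
      · refine OrderHom.ext _ _ (funext fun a => ?_)
        induction a using Fin.cases with
        | zero => rfl
        | succ a => rfl
      · refine OrderHom.ext _ _ (funext fun a => Fin.ext ?_)
        show _ = ((Op.dgn (0 : Fin (p + 1 + 1)) a : Fin _) : ℕ)
        rw [Ch.dgn_val]
        induction a using Fin.cases with
        | zero => rfl
        | succ a =>
          show (a : ℕ) = _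
          simp
    · refine Finset.sum_congr rfl fun j _ => ?_
      rw [N.map_sx, Cone.c_sx]
      congr 1
      refine Prod.ext ?_ ?_
      · refine OrderHom.ext _ _ (funext fun a => Fin.ext ?_)
        show _ = ((Op.step (p + 1 + 1) ((j.succ : Fin (p + 2)) : ℕ) a : Fin 2) : ℕ)
        rw [Op.step_val]
        induction a using Fin.cases with
        | zero => simp; rfl
        | succ a =>
          show ((Op.step (p + 1) (j : ℕ) a : Fin 2) : ℕ) = _
          rw [Op.step_val]
          simp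
      · refine OrderHom.ext _ _ (funext fun a => Fin.ext ?_)
        show _ = ((Op.dgn (j.succ : Fin (p + 1 + 1)) a : Fin _) : ℕ)
        rw [Ch.dgn_val]
        induction a using Fin.cases with
        | zero => simp; rfl
        | succ a =>
          show (((Op.face 0 : Op p (p + 1)) (Op.dgn j a) : Fin _) : ℕ) = _
          rw [Ch.face_val, Ch.dgn_val]
          simp only [Fin.val_succ, Fin.val_zero]
          split_ifs <;> omega

/-! ## product of columns -/

open BSS BSS.Tot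

/-- the slice of `yoP x y` at a simplex of `Δ^p × Δ^{p'}` -/
def slice {E E' : BSS} {p q p' q' m : ℕ} (x : E.S p q) (y : E'.S p' q') (f : Op m p) (g : Op m p') :
    SS.Hom ((SS.std q).prod (SS.std q')) ((E.prod E').col m) :=
  (SS.prodMap (K' := E.col m) (L' := E'.col m) ((E.col m).yo (E.hact f x)) ((E'.col m).yo (E'.hact g y)))

theorem map_yoP_box {E E' : BSS} {p q p' q' m : ℕ} (x : E.S p q) (y : E'.S p' q') (f : Op m p)
    (g : Op m p') (β : N F2 ((SS.std q).prod (SS.std q'))) :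
    evP x y (N.sx F2 (prS f g)) β = ofCol _ m (N.map F2 (slice x y f g) β) := by
  have : (Tot.map (yoP x y)) ∘ₗ (box _ _ (N.sx F2 (prS f g))) =
      ofCol (E.prod E') m ∘ₗ N.map F2 (slice x y f g) := by
    refine EZ271.hom_ext fun n z => ?_
    simp only [LinearMap.comp_apply]
    rw [box_sx, map_bx, N.map_sx]
    refine (congrArg bx ?_).trans (ofCol_sx _ _ _).symm
    refine Prod.ext ?_ ?_
    · exact E.comm _ _ _
    · exact E'.comm _ _ _
  exact LinearMap.congr_fun this β

theorem xT_col_sx {E E' : BSS} {p q q' : ℕ} (x : (E.col 1).S q) (y : (E'.col p).S q') :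
    xT (ofCol E 1 (N.sx F2 x)) (ofCol E' p (N.sx F2 y)) =
      ∑ j : Fin (p + 1), ofCol (E.prod E') (p + 1)
        (cross F2 (K := E.col (p + 1)) (L := E'.col (p + 1))
          (N.map F2 (E.colMap (Op.step (p + 1) j)) (N.sx F2 x))
          (N.map F2 (E'.colMap (Op.dgn j)) (N.sx F2 y))) := by
  rw [ofCol_sx, ofCol_sx, xT_bx, E_one, evP_sum_left]
  refine Finset.sum_congr rfl fun j _ => ?_
  rw [map_yoP_box, N.map_sx, N.map_sx, cross_sx]
  rfl

/-- one term of the leading term formula -/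
noncomputable def insX (E E' : BSS) (p j : ℕ) (hj : j < p + 1) :
    N F2 (E.col 1) →ₗ[F2] N F2 (E'.col p) →ₗ[F2] N F2 ((E.prod E').col (p + 1)) :=
  ((cross F2 (K := E.col (p + 1)) (L := E'.col (p + 1))).comp
    (N.map F2 (E.colMap (Op.step (p + 1) j)))).compl₂ (N.map F2 (E'.colMap (Op.dgn ⟨j, hj⟩)))


/-- **leading term formula** -/
theorem xT_col {E E' : BSS} (p : ℕ) (a : N F2 (E.col 1)) (c : N F2 (E'.col p)) :
    xT (ofCol E 1 a) (ofCol E' p c) =
      ∑ j : Fin (p + 1), ofCol (E.prod E') (p + 1) (insX E E' p j j.2 a c) := by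
  have : ((xT (E := E) (E' := E')).comp (ofCol E 1)).compl₂ (ofCol E' p) =
      ∑ j : Fin (p + 1), (insX E E' p j j.2).compr₂ (ofCol (E.prod E') (p + 1)) := by
    refine bilin_ext F2 fun m x n y => ?_
    simp only [LinearMap.compl₂_apply, LinearMap.comp_apply, LinearMap.sum_apply,
      LinearMap.compr₂_apply]
    rw [xT_col_sx]
    rfl
  have h := LinearMap.congr_fun₂ this a c
  simpa only [LinearMap.compl₂_apply, LinearMap.comp_apply, LinearMap.sum_apply,
      LinearMap.compr₂_apply] using h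

/-! ## multiplication on the total complex of the Cech nerve -/

section mult

variable {X : PFib} (M : PMul X)

/-- levelwise product on the Cech nerve -/
def mT : BSS.Hom ((cech X.π).prod (cech X.π)) (cech X.π) where
  app p q z := ⟨fun i => M.M.app q (z.1.1 i, z.2.1 i), fun i j => by
    rw [M.π_M, M.π_M, z.1.2 i j, z.2.2 i j]⟩
  hnat _ _ := rfl
  vnat f z := Subtype.ext (funext fun i => M.M.nat f (z.1.1 i, z.2.1 i))

/-- the product of `Tot (cech π)` -/
noncomputable def mulT : (cech X.π).Tot →ₗ[F2] (cech X.π).Tot →ₗ[F2] (cech X.π).Tot :=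
  xT.compr₂ (Tot.map (mT M))

theorem mulT_apply (a b : (cech X.π).Tot) : mulT M a b = Tot.map (mT M) (xT a b) := rfl

theorem D_mulT (a b : (cech X.π).Tot) :
    D _ (mulT M a b) = mulT M (D _ a) b + mulT M a (D _ b) := by
  rw [mulT_apply, mulT_apply, mulT_apply, D_map, D_xT, map_add]

theorem map_ofCol {E E' : BSS} (φ : BSS.Hom E E') (p : ℕ) (c : N F2 (E.col p)) :
    Tot.map φ (ofCol E p c) = ofCol E' p (N.map F2 (φ.col p) c) := by
  have : (Tot.map φ) ∘ₗ (ofCol E p) = (ofCol E' p) ∘ₗ (N.map F2 (φ.col p)) := by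
    refine EZ271.hom_ext fun n x => ?_
    simp only [LinearMap.comp_apply]
    rw [ofCol_sx, map_bx, N.map_sx]
    exact (ofCol_sx _ _ _).symm
  exact LinearMap.congr_fun this c

/-- levelwise product on `E_p` -/
def mE (p : ℕ) : SS.Hom ((X.E p).prod (X.E p)) (X.E p) where
  app q z := (mT M).app p q z
  nat f z := (mT M).vnat f z

/-- one term of the product of a column-`1` chain with a column-`p` chain -/
noncomputable def insE (p j : ℕ) (hj : j < p + 1) :
    N F2 (X.E 1) →ₗ[F2] N F2 (X.E p) →ₗ[F2] N F2 (X.E (p + 1)) :=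
  (((cross F2 (K := X.E (p + 1)) (L := X.E (p + 1))).comp
    (N.map F2 ((cech X.π).colMap (Op.step (p + 1) j)))).compl₂
      (N.map F2 ((cech X.π).colMap (Op.dgn ⟨j, hj⟩)))).compr₂ (N.map F2 (mE M (p + 1)))

theorem insE_apply (p j : ℕ) (hj : j < p + 1) (a : N F2 (X.E 1)) (c : N F2 (X.E p)) :
    insE M p j hj a c = N.map F2 (mE M (p + 1)) (cross F2 (K := X.E (p + 1)) (L := X.E (p + 1))
          (N.map F2 ((cech X.π).colMap (Op.step (p + 1) j)) a)
          (N.map F2 ((cech X.π).colMap (Op.dgn ⟨j, hj⟩)) c)) := rfl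

/-- **leading term formula** for the product -/
theorem mulT_col (p : ℕ) (a : N F2 (X.E 1)) (c : N F2 (X.E p)) :
    mulT M (ofCol _ 1 a) (ofCol _ p c) =
      ∑ j : Fin (p + 1), ofCol (cech X.π) (p + 1) (insE M p j j.2 a c) := by
  rw [mulT_apply, xT_col, map_sum]
  refine Finset.sum_congr rfl fun j _ => ?_
  rw [map_ofCol]
  rfl

theorem bd_insE (p j : ℕ) (hj : j < p + 1) (a : N F2 (X.E 1)) (c : N F2 (X.E p)) :
    N.bd F2 _ (insE M p j hj a c) = insE M p j hj (N.bd F2 _ a) c + insE M p j hj a (N.bd F2 _ c) := by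
  rw [insE_apply, insE_apply, insE_apply, ← map_bd', bd_cross, sg_F2, map_add, map_bd', map_bd']

/-! ## the augmentation is multiplicative -/

theorem aug_box_c {K L : SS} (A : Cone K) {P B : SS} (f : SS.Hom P B)
    (φ : BSS.Hom (boxP K L) (cech f)) (α : N F2 K) (β : N F2 L) :
    Cech.aug f (Tot.map φ (box K L (A.c F2 α) β)) = 0 := by
  have : ((box K L).comp (A.c F2)).compr₂ ((Cech.aug f).comp (Tot.map φ)) = 0 := by
    refine bilin_ext F2 fun p x q y => ?_
    simp only [LinearMap.compr₂_apply, LinearMap.comp_apply, Cone.c_sx, LinearMap.zero_apply]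
    rw [box_sx, map_bx, Cech.aug_bx_succ]
  exact LinearMap.congr_fun₂ this α β

theorem aug_ofCol_zero {P B : SS} (f : SS.Hom P B) (c : N F2 ((cech f).col 0)) :
    Cech.aug f (ofCol (cech f) 0 c) = N.map F2 (Cech.col0 f) c := by
  have : (Cech.aug f) ∘ₗ (ofCol (cech f) 0) = N.map F2 (Cech.col0 f) := by
    refine EZ271.hom_ext fun n x => ?_
    simp only [LinearMap.comp_apply]
    rw [ofCol_sx, N.map_sx, Cech.aug_bx_zero]
    rfl
  exact LinearMap.congr_fun this c

theorem aug_ofCol_succ {P B : SS} (f : SS.Hom P B) (p : ℕ) (c : N F2 ((cech f).col (p + 1))) :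
    Cech.aug f (ofCol (cech f) (p + 1) c) = 0 := by
  have : (Cech.aug f) ∘ₗ (ofCol (cech f) (p + 1)) = 0 := by
    refine EZ271.hom_ext fun n x => ?_
    simp only [LinearMap.comp_apply, LinearMap.zero_apply]
    rw [ofCol_sx, Cech.aug_bx_succ]
  exact LinearMap.congr_fun this c

/-- the augmentation is multiplicative -/
theorem aug_mulT (a b : (cech X.π).Tot) :
    Cech.aug X.π (mulT M a b) = N.map F2 M.MK (cross F2 (Cech.aug X.π a) (Cech.aug X.π b)) := by
  have : (mulT M).compr₂ (Cech.aug X.π) =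
      (((cross F2 (K := X.K) (L := X.K)).comp (Cech.aug X.π)).compl₂ (Cech.aug X.π)).compr₂
        (N.map F2 M.MK) := by
    refine Tot.hom_ext fun p q x => Tot.hom_ext fun p' q' y => ?_
    simp only [LinearMap.compr₂_apply, LinearMap.compl₂_apply, LinearMap.comp_apply]
    rw [mulT_apply, xT_bx]
    rcases p with _ | p
    · rcases p' with _ | p'
      · rw [E_zero_left, map_yoP_box, map_ofCol, aug_ofCol_zero, Cech.aug_bx_zero, Cech.aug_bx_zero,
          cross_sx, EZ271.map_map, EZ271.map_map, EZ271.map_map]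
        congr 2
        refine SS.Hom.ext (funext fun n => funext fun z => ?_)
        have h1 := M.π_M n (X.P.act z.1 (x.1 0)) (X.P.act z.2 (y.1 0))
        exact h1.trans (congrArg (M.MK.app n) (Prod.ext (X.π.nat z.1 (x.1 0)) (X.π.nat z.2 (y.1 0))))
      · rw [E_zero_succ, evP, Tot.map_map, aug_box_c, Cech.aug_bx_succ, map_zero, map_zero]
    · rcases p' with _ | p'
      · rw [E_succ_zero, evP, Tot.map_map, aug_box_c, Cech.aug_bx_succ, map_zero,
          LinearMap.zero_apply, map_zero]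
      · rw [E_succ_succ, evP, Tot.map_map, aug_box_c, Cech.aug_bx_succ, map_zero,
          LinearMap.zero_apply, map_zero]
  exact LinearMap.congr_fun₂ this a b

end mult

end Crest.Agent.R204.Psi755
end

-- ▼ part R204/Psi2_755
section

/-!
# Row 204, block B (leaf P3, helper755): the cycles `Psi`

For `X : PFib`, `S : PSus X`, `M : PMul X`:

* `cyc S z`   : the cycle of `Tot (cech π)` attached to a cycle `z` of `G` of positive degree;
* `psi S M l` : the product of the `cyc S z`, `z ∈ l` (list of chains of `G`);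
* `D_psi`, `psi_F`, `psi_gr`, `psi_col` (leading chain and its class), `aug_psi`.
-/

set_option autoImplicit false

namespace Crest.Agent.R204.Psi755

open Crest.Agent.R204 Crest.Agent.R204.Bis343 Crest.Agent.R204.EZ271 Crest.Agent.R204.Bar170
open Finsupp BSS BSS.Tot

/-! ## degrees and filtration of products -/

section gr

variable {E E' : BSS}

/-- bidegree `(m, n)` -/
noncomputable def bi (E : BSS) (m n : ℕ) : Submodule F2 E.Tot := Submodule.span F2 {c | ∃ x : E.S m n, c = bx x}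

theorem bx_mem_bi {m n : ℕ} (x : E.S m n) : bx x ∈ bi E m n := Submodule.subset_span ⟨x, rfl⟩

theorem bi_le {m n : ℕ} {S : Submodule F2 E.Tot} (h : ∀ x : E.S m n, bx x ∈ S) : bi E m n ≤ S := by
  rw [bi, Submodule.span_le]
  rintro _ ⟨x, rfl⟩
  exact h x

theorem bi_le_Fp {m n P : ℕ} (h : m ≤ P) : bi E m n ≤ E.Fp P := bi_le fun x => BSS.bx_mem_Fp x h

theorem bi_le_grT {m n k : ℕ} (h : m + n = k) : bi E m n ≤ E.grT k := bi_le fun x => BSS.bx_mem_grT x h

theorem map_bi (φ : BSS.Hom E E') {m n : ℕ} {x : E.Tot} (hx : x ∈ bi E m n) :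
    Tot.map φ x ∈ bi E' m n := by
  have : bi E m n ≤ (bi E' m n).comap (Tot.map φ) := bi_le fun x => by
    rw [Submodule.mem_comap, map_bx]; exact bx_mem_bi _
  exact this hx

theorem map_Fp (φ : BSS.Hom E E') {P : ℕ} {x : E.Tot} (hx : x ∈ E.Fp P) :
    Tot.map φ x ∈ E'.Fp P := by
  have : E.Fp P ≤ (E'.Fp P).comap (Tot.map φ) := BSS.Fp_le fun p q x hp => by
    rw [Submodule.mem_comap, map_bx]; exact BSS.bx_mem_Fp _ hp
  exact this hx

theorem map_grT (φ : BSS.Hom E E') {n : ℕ} {x : E.Tot} (hx : x ∈ E.grT n) :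
    Tot.map φ x ∈ E'.grT n := by
  have : E.grT n ≤ (E'.grT n).comap (Tot.map φ) := BSS.grT_le fun p q x hp => by
    rw [Submodule.mem_comap, map_bx]; exact BSS.bx_mem_grT _ hp
  exact this hx

theorem box_mem {K L : SS} {m n : ℕ} {a : N F2 K} {b : N F2 L} (ha : a ∈ N.gr F2 K m)
    (hb : b ∈ N.gr F2 L n) : box K L a b ∈ bi (boxP K L) m n := by
  refine Gr334.gr_induction (p := fun a => box K L a b ∈ bi (boxP K L) m n) ha ?_ ?_ ?_ ?_
  · rw [map_zero, LinearMap.zero_apply]; exact Submodule.zero_mem _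
  · intro a b ha hb; rw [map_add, LinearMap.add_apply]; exact Submodule.add_mem _ ha hb
  · intro r a ha; rw [map_smul, LinearMap.smul_apply]; exact Submodule.smul_mem _ _ ha
  · intro x
    refine Gr334.gr_induction (p := fun b => box K L (N.sx F2 x) b ∈ bi (boxP K L) m n) hb ?_ ?_ ?_ ?_
    · rw [map_zero]; exact Submodule.zero_mem _
    · intro a b ha hb; rw [map_add]; exact Submodule.add_mem _ ha hb
    · intro r a ha; rw [map_smul]; exact Submodule.smul_mem _ _ ha
    · intro y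
      rw [box_sx]
      exact bx_mem_bi _

theorem xT_bx_mem {p q p' q' : ℕ} (x : E.S p q) (y : E'.S p' q') :
    xT (bx x) (bx y) ∈ bi (E.prod E') (p + p') (q + q') := by
  rw [xT_bx, evP]
  exact map_bi _ (box_mem (Sigma88.E_mem_gr _ _ _ rfl) (Sigma88.E_mem_gr _ _ _ rfl))

theorem xT_Fp {P P' : ℕ} {a : E.Tot} {b : E'.Tot} (ha : a ∈ E.Fp P) (hb : b ∈ E'.Fp P') :
    xT a b ∈ (E.prod E').Fp (P + P') := by
  have h1 : E.Fp P ≤ ((E.prod E').Fp (P + P')).comap (xT.flip b) := BSS.Fp_le fun p q x hp => by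
    have h2 : E'.Fp P' ≤ ((E.prod E').Fp (P + P')).comap (xT (bx x)) := BSS.Fp_le fun p' q' y hp' => by
      rw [Submodule.mem_comap]
      exact bi_le_Fp (by omega) (xT_bx_mem x y)
    exact h2 hb
  exact h1 ha

theorem xT_grT {n n' : ℕ} {a : E.Tot} {b : E'.Tot} (ha : a ∈ E.grT n) (hb : b ∈ E'.grT n') :
    xT a b ∈ (E.prod E').grT (n + n') := by
  have h1 : E.grT n ≤ ((E.prod E').grT (n + n')).comap (xT.flip b) := BSS.grT_le fun p q x hp => by
    have h2 : E'.grT n' ≤ ((E.prod E').grT (n + n')).comap (xT (bx x)) := BSS.grT_le fun p' q' y hp' => by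
      rw [Submodule.mem_comap]
      exact bi_le_grT (by omega) (xT_bx_mem x y)
    exact h2 hb
  exact h1 ha

variable {X : PFib} (M : PMul X)

theorem mulT_Fp {P P' : ℕ} {a b : (cech X.π).Tot} (ha : a ∈ (cech X.π).Fp P) (hb : b ∈ (cech X.π).Fp P') :
    mulT M a b ∈ (cech X.π).Fp (P + P') := map_Fp _ (xT_Fp ha hb)

theorem mulT_grT {n n' : ℕ} {a b : (cech X.π).Tot} (ha : a ∈ (cech X.π).grT n)
    (hb : b ∈ (cech X.π).grT n') : mulT M a b ∈ (cech X.π).grT (n + n') := map_grT _ (xT_grT ha hb)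

end gr

/-! ## the cycle of a cycle of `G` -/

theorem bd_sgN2 {P Y : SS} (e : SS.Hom ((SS.std 1).prod P) Y) (e0 e1 : SS.Hom P Y)
    (h0 : ∀ (n : ℕ) (x : P.S n), e.app n (Sigma88.oS (Sigma88.cst n 0), x) = e0.app n x)
    (h1 : ∀ (n : ℕ) (x : P.S n), e.app n (Sigma88.oS (Sigma88.cst n 1), x) = e1.app n x) (w : N F2 P) :
    N.bd F2 Y (Sigma88.sgN e w) = N.map F2 e1 w + N.map F2 e0 w + Sigma88.sgN e (N.bd F2 P w) := by
  have hc0 : ∀ (n : ℕ) (θ : Op n 0), θ = Sigma88.c0 n := fun n θ => Sigma88.op_zero_ext _ _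
  have f0 : Sigma88.fF e 0 = e1.comp (SS.snd _ P) := by
    refine SS.Hom.ext (funext fun n => funext fun x => ?_)
    obtain ⟨θ, x⟩ := x
    have e1' : (Op.face (0 : Fin 2)).comp θ = Sigma88.cst n 1 := by
      refine OrderHom.ext _ _ (funext fun a => ?_)
      rw [hc0 n θ]; rfl
    show e.app n (Sigma88.oS ((Op.face (0 : Fin 2)).comp θ), x) = _
    rw [e1', h1]
    rfl
  have f1 : Sigma88.fF e 1 = e0.comp (SS.snd _ P) := by
    refine SS.Hom.ext (funext fun n => funext fun x => ?_)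
    obtain ⟨θ, x⟩ := x
    have e1' : (Op.face (1 : Fin 2)).comp θ = Sigma88.cst n 0 := by
      refine OrderHom.ext _ _ (funext fun a => ?_)
      rw [hc0 n θ]; rfl
    show e.app n (Sigma88.oS ((Op.face (1 : Fin 2)).comp θ), x) = _
    rw [e1', h0]
    rfl
  have hs : N.map F2 (SS.snd (SS.std 0) P) (cross F2 (Sigma88.io F2 0) w) = w := by
    rw [Sigma88.cross_vertex, EZ271.map_map]
    exact EZ271.map_idHom F2 w
  rw [Sigma88.sgN_apply, Sigma88.bd_fam, Fin.sum_univ_two, f0, f1]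
  simp only [neg_one_pow_F2, one_smul]
  rw [← EZ271.map_map, ← EZ271.map_map, hs]
  rfl

theorem map_constHom_gr {K L : SS} (v : L.S 0) {n : ℕ} {z : N F2 K} (hz : z ∈ N.gr F2 K (n + 1)) :
    N.map F2 (SS.constHom K L v) z = 0 := by
  refine Gr334.gr_induction (p := fun z => N.map F2 (SS.constHom K L v) z = 0) hz ?_ ?_ ?_ ?_
  · rw [map_zero]
  · intro a b ha hb; rw [map_add, ha, hb, add_zero]
  · intro r a ha; rw [map_smul, ha, smul_zero]
  · intro x
    rw [N.map_sx]
    exact Gr334.sx_act_of_lt (Nat.succ_pos n) _ v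

section cyc

variable {X : PFib} (S : PSus X)

/-- loops as a pair of paths -/
def beta1 : SS.Hom X.G (X.E 1) := pairE (f := X.π) S.inc (cmap X.G X.p0) S.π_inc

/-- the contraction, interval first -/
def hsw : SS.Hom ((SS.std 1).prod X.G) X.P := S.hs.h.comp (SS.swap _ _)

theorem hsw_zero (n : ℕ) (x : X.G.S n) :
    (hsw S).app n (Sigma88.oS (Sigma88.cst n 0), x) = (cmap X.G X.p0).app n x := S.hs.zero n x

theorem hsw_one (n : ℕ) (x : X.G.S n) :
    (hsw S).app n (Sigma88.oS (Sigma88.cst n 1), x) = S.inc.app n x := S.hs.one n x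

/-- the contraction in the base: `Δ¹ × G → K` -/
def susE : SS.Hom ((SS.std 1).prod X.G) X.K := X.π.comp (hsw S)

theorem susE_ends : Sigma88.Ends (susE S) (X.π.app 0 X.p0) where
  zero n x := (congrArg (X.π.app n) (hsw_zero S n x)).trans (X.π.nat _ _)
  one n x := (congrArg (X.π.app n) (hsw_one S n x)).trans ((S.π_inc n x).trans (X.π.nat _ _))

/-- **the suspension** `H_*(G) → H_{*+1}(K)` -/
noncomputable def sus : H F2 X.G →ₗ[F2] H F2 X.K := Sigma88.sgH (susE_ends S)

/-- the cycle attached to a cycle of `G` -/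
noncomputable def cyc : N F2 X.G →ₗ[F2] (cech X.π).Tot :=
  ofCol (cech X.π) 1 ∘ₗ N.map F2 (beta1 S) +
    ofCol (cech X.π) 0 ∘ₗ N.map F2 (toE0 X.π) ∘ₗ Sigma88.sgN (hsw S)

theorem cyc_apply (z : N F2 X.G) : cyc S z = ofCol (cech X.π) 1 (N.map F2 (beta1 S) z) +
    ofCol (cech X.π) 0 (N.map F2 (toE0 X.π) (Sigma88.sgN (hsw S) z)) := rfl

theorem face0_beta1 : ((cech X.π).colMap (Op.face (0 : Fin 2))).comp (beta1 S) =
    (toE0 X.π).comp (cmap X.G X.p0) := by
  refine SS.Hom.ext (funext fun q => funext fun x => ?_)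
  refine E_ext fun i => ?_
  obtain rfl : i = 0 := Fin.ext (by omega)
  rfl

theorem face1_beta1 : ((cech X.π).colMap (Op.face (1 : Fin 2))).comp (beta1 S) =
    (toE0 X.π).comp S.inc := by
  refine SS.Hom.ext (funext fun q => funext fun x => ?_)
  refine E_ext fun i => ?_
  obtain rfl : i = 0 := Fin.ext (by omega)
  rfl

theorem D_cyc {n : ℕ} {z : N F2 X.G} (hz : z ∈ N.gr F2 X.G (n + 1)) (hb : N.bd F2 X.G z = 0) :
    D _ (cyc S z) = 0 := by
  have h1 : D _ (ofCol (cech X.π) 1 (N.map F2 (beta1 S) z)) =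
      ofCol (cech X.π) 0 (N.map F2 (toE0 X.π) (N.map F2 S.inc z)) := by
    have e0 : N.map F2 ((cech X.π).colMap (Op.face (0 : Fin 2))) (N.map F2 (beta1 S) z) = 0 := by
      rw [EZ271.map_map, face0_beta1, ← EZ271.map_map, map_constHom_gr _ hz, map_zero]
    have e1 : N.map F2 ((cech X.π).colMap (Op.face (1 : Fin 2))) (N.map F2 (beta1 S) z) =
        N.map F2 (toE0 X.π) (N.map F2 S.inc z) := by
      rw [EZ271.map_map, face1_beta1, ← EZ271.map_map]
    rw [D_apply, dV_ofCol, ← EZ271.map_bd', hb, map_zero, map_zero, add_zero]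
    refine (dH_ofCol_succ 0 _).trans ?_
    refine (Fin.sum_univ_two _).trans ?_
    rw [e0, e1, map_zero, zero_add]
  have h2 : D _ (ofCol (cech X.π) 0 (N.map F2 (toE0 X.π) (Sigma88.sgN (hsw S) z))) =
      ofCol (cech X.π) 0 (N.map F2 (toE0 X.π) (N.map F2 S.inc z)) := by
    rw [D_apply, dV_ofCol, dH_ofCol_zero, zero_add, ← EZ271.map_bd',
      bd_sgN2 (hsw S) (cmap X.G X.p0) S.inc (hsw_zero S) (hsw_one S), hb, map_zero, add_zero,
      map_constHom_gr _ hz, add_zero]
  rw [cyc_apply, map_add, h1, h2]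
  exact f2_add_self _

theorem cyc_F (z : N F2 X.G) : cyc S z ∈ (cech X.π).Fp 1 :=
  Submodule.add_mem _ (BSS.ofCol_mem_Fp 1 _) (BSS.Fp_mono (Nat.zero_le 1) (BSS.ofCol_mem_Fp 0 _))

theorem cyc_gr {n : ℕ} {z : N F2 X.G} (hz : z ∈ N.gr F2 X.G n) : cyc S z ∈ (cech X.π).grT (n + 1) := by
  rw [cyc_apply]
  refine Submodule.add_mem _ ?_ ?_
  · have := BSS.ofCol_mem_grT (E := cech X.π) (p := 1) (Gr334.map_mem_gr (beta1 S) hz)
    rwa [add_comm] at this
  · have := BSS.ofCol_mem_grT (E := cech X.π) (p := 0)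
      (Gr334.map_mem_gr (toE0 X.π) (Sigma88.sgN_mem_gr (hsw S) hz))
    rwa [zero_add] at this

theorem cyc_sub (z : N F2 X.G) :
    cyc S z - ofCol (cech X.π) 1 (N.map F2 (beta1 S) z) ∈ (cech X.π).Fp 0 := by
  rw [cyc_apply, add_sub_cancel_left]
  exact BSS.ofCol_mem_Fp 0 _

theorem aug_cyc (z : N F2 X.G) : Cech.aug X.π (cyc S z) = Sigma88.sgN (susE S) z := by
  rw [cyc_apply, map_add, aug_ofCol_succ, zero_add, aug_ofCol_zero, EZ271.map_map, susE,
    Sigma88.sgN_post]
  rfl

end cyc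

/-! ## products of the cycles -/

section psi

variable {X : PFib} (S : PSus X) (M : PMul X) {ι : Type} (zr : ι → N F2 X.G)

/-- the unit of the product -/
noncomputable def psi0 (X : PFib) : (cech X.π).Tot :=
  ofCol (cech X.π) 0 (N.map F2 (toE0 X.π) (N.sx F2 X.p0))

/-- iterated product of the cycles of the `zr i` -/
noncomputable def psi : List ι → (cech X.π).Tot
  | [] => psi0 X
  | i :: l => mulT M (cyc S (zr i)) (psi l)

theorem bd_vertex {K : SS} (v : K.S 0) : N.bd F2 K (N.sx F2 v) = 0 := Gr334.bd_sx_zero v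

theorem D_psi0 : D _ (psi0 X) = 0 := by
  rw [psi0, D_apply, dH_ofCol_zero, dV_ofCol, ← EZ271.map_bd', bd_vertex, map_zero, map_zero, add_zero]

theorem psi0_F : psi0 X ∈ (cech X.π).Fp 0 := BSS.ofCol_mem_Fp 0 _

theorem psi0_gr : psi0 X ∈ (cech X.π).grT 0 :=
  BSS.ofCol_mem_grT (E := cech X.π) (p := 0) (q := 0) (Gr334.map_mem_gr _ (Gr334.sx_mem_gr _))

variable {deg : ι → ℕ}

theorem D_psi (hpos : ∀ i, 1 ≤ deg i) (hz : ∀ i, zr i ∈ N.gr F2 X.G (deg i))
    (hb : ∀ i, N.bd F2 X.G (zr i) = 0) (l : List ι) : D _ (psi S M zr l) = 0 := by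
  induction l with
  | nil => exact D_psi0
  | cons i l ih =>
    have h : zr i ∈ N.gr F2 X.G ((deg i - 1) + 1) := by
      rw [Nat.sub_add_cancel (hpos i)]; exact hz i
    show D _ (mulT M (cyc S (zr i)) (psi S M zr l)) = 0
    rw [D_mulT, ih, D_cyc S h (hb i), map_zero, map_zero, LinearMap.zero_apply, add_zero]

theorem psi_F (l : List ι) : psi S M zr l ∈ (cech X.π).Fp l.length := by
  induction l with
  | nil => exact psi0_F
  | cons i l ih =>
    have := mulT_Fp M (cyc_F S (zr i)) ih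
    rw [add_comm] at this
    exact this

theorem psi_gr (hz : ∀ i, zr i ∈ N.gr F2 X.G (deg i)) (l : List ι) :
    psi S M zr l ∈ (cech X.π).grT ((l.map fun i => deg i + 1).sum) := by
  induction l with
  | nil => exact psi0_gr
  | cons i l ih =>
    rw [List.map_cons, List.sum_cons]
    exact mulT_grT M (cyc_gr S (hz i)) ih

/-- the leading chain -/
noncomputable def cl : ∀ p : ℕ, List ι → N F2 (X.E p)
  | 0, [] => N.map F2 (toE0 X.π) (N.sx F2 X.p0)
  | 0, _ :: _ => 0
  | _ + 1, [] => 0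
  | p + 1, i :: l => ∑ j : Fin (p + 1), insE M p j j.2 (N.map F2 (beta1 S) (zr i)) (cl p l)

theorem cl_nil : cl S M zr 0 [] = N.map F2 (toE0 X.π) (N.sx F2 X.p0) := rfl

theorem cl_cons (p : ℕ) (i : ι) (l : List ι) : cl S M zr (p + 1) (i :: l) =
    ∑ j : Fin (p + 1), insE M p j j.2 (N.map F2 (beta1 S) (zr i)) (cl S M zr p l) := rfl

theorem bd_cl (hb : ∀ i, N.bd F2 X.G (zr i) = 0) : ∀ (p : ℕ) (l : List ι),
    N.bd F2 _ (cl S M zr p l) = 0
  | 0, [] => by rw [cl_nil, ← EZ271.map_bd', bd_vertex, map_zero]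
  | 0, _ :: _ => map_zero _
  | _ + 1, [] => map_zero _
  | p + 1, i :: l => by
    rw [cl_cons, map_sum]
    refine Finset.sum_eq_zero fun j _ => ?_
    rw [bd_insE, bd_cl hb p l, ← EZ271.map_bd', hb i, map_zero, map_zero, map_zero,
      LinearMap.zero_apply, add_zero]

/-- the leading term of `psi` -/
theorem psi_sub : ∀ (p : ℕ) (l : List ι), l.length = p →
    psi S M zr l - ofCol (cech X.π) p (cl S M zr p l) ∈ (BSS.FCof (cech X.π)).F' p
  | 0, [], _ => by
    show psi0 X - psi0 X ∈ _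
    rw [sub_self]; exact Submodule.zero_mem _
  | 0, _ :: _, h => absurd h (by simp)
  | _ + 1, [], h => absurd h (by simp)
  | p + 1, i :: l, h => by
    have hl : l.length = p := by simpa using h
    have ih := psi_sub p l hl
    show mulT M (cyc S (zr i)) (psi S M zr l) - _ ∈ (cech X.π).Fp p
    have e1 : psi S M zr l = (psi S M zr l - ofCol (cech X.π) p (cl S M zr p l)) +
        ofCol (cech X.π) p (cl S M zr p l) := by abel
    have e2 : mulT M (cyc S (zr i)) (psi S M zr l) =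
        ofCol (cech X.π) (p + 1) (cl S M zr (p + 1) (i :: l)) +
          (mulT M (ofCol (cech X.π) 1 (N.map F2 (beta1 S) (zr i)))
            (psi S M zr l - ofCol (cech X.π) p (cl S M zr p l)) +
          mulT M (ofCol (cech X.π) 0 (N.map F2 (toE0 X.π) (Sigma88.sgN (hsw S) (zr i))))
            (psi S M zr l)) := by
      rw [cyc_apply, map_add, LinearMap.add_apply, ← add_assoc]
      congr 1
      conv_lhs => rw [e1]
      rw [map_add, mulT_col, ← map_sum, ← cl_cons, add_comm]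
    rw [e2, add_sub_cancel_left]
    refine Submodule.add_mem _ ?_ ?_
    · rcases p with _ | p
      · have : psi S M zr l - ofCol (cech X.π) 0 (cl S M zr 0 l) = 0 := ih
        rw [this, map_zero]; exact Submodule.zero_mem _
      · have ih' : psi S M zr l - ofCol (cech X.π) (p + 1) (cl S M zr (p + 1) l) ∈
          (cech X.π).Fp p := ih
        have := mulT_Fp M (BSS.ofCol_mem_Fp (E := cech X.π) 1 (N.map F2 (beta1 S) (zr i))) ih'
        rwa [add_comm] at this
    · have := mulT_Fp M (BSS.ofCol_mem_Fp (E := cech X.π) 0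
        (N.map F2 (toE0 X.π) (Sigma88.sgN (hsw S) (zr i)))) (psi_F S M zr l)
      rwa [hl, zero_add] at this

end psi

/-! ## homology classes of the leading chains -/

section cls

open EZ847 TensorProduct

variable {X : PFib} (S : PSus X) (M : PMul X) {ι : Type} (zr : ι → N F2 X.G)

/-- `[v]`: the class of the loops as pairs of paths -/
theorem beta1_br (x : H F2 X.G) : H.map F2 (beta1 S) x = X.br ezd 1 (fun _ => x) := by
  have h1 : X.br ezd 1 (fun _ => x) =
      H.map F2 (pairE (f := X.π) (X.cat.comp (SS.pair (SS.Hom.id X.G) (cmap X.G X.p0)))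
        (cmap X.G X.p0) (fun q y => X.π_cat q _ _)) x := by
    rw [X.br_succ, X.br_zero]
    have e1 : ezd.cr X.G (X.E 0) (x ⊗ₜ H.map F2 (toE0 X.π) (Coalg847.vtx X.p0)) =
        H.map F2 (SS.prodMap (SS.Hom.id X.G) (toE0 X.π))
          (H.map F2 (SS.pair (SS.Hom.id X.G) (SS.constHom X.G X.P X.p0)) x) := by
      rw [← ezd.cr_vtx_right, ezd.cr_nat, Coalg847.hMap_id]
    rw [e1, Bar170.map_comp', Bar170.map_comp']
    rfl
  rw [h1]
  have h := consHtpy ((toE0 X.π).comp (cmap X.G X.p0)) S.h5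
    (fun q y => S.π_inc q y) (fun q y => X.π_cat q _ _)
  have := map_eq_of_htpy HtpInv334.homotopyInv h
  exact LinearMap.congr_fun this x



/-- one shuffle on homology -/
noncomputable def insC (p : ℕ) (j : Fin (p + 1)) (v : H F2 X.G) (x : H F2 (X.E p)) :
    H F2 (X.E (p + 1)) :=
  M.mE ezd (p + 1) (H.map F2 ((cech X.π).colMap (Bar170.step p j)) (X.br ezd 1 fun _ => v)) (X.dg p j x)

theorem insC_br (p : ℕ) (j : Fin (p + 1)) (v : H F2 X.G) (a : Fin p → H F2 X.G) :
    insC M p j v (X.br ezd p a) =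
      X.br ezd (p + 1) (Fin.insertNth (α := fun _ => H F2 X.G) j v a) :=
  M.shuffle_br HtpInv334.homotopyInv ezd p j v a

theorem insC_add (p : ℕ) (j : Fin (p + 1)) (v : H F2 X.G) (x y : H F2 (X.E p)) :
    insC M p j v (x + y) = insC M p j v x + insC M p j v y := by
  simp only [insC, PMul.mE, map_add, TensorProduct.tmul_add]

theorem insC_zero (p : ℕ) (j : Fin (p + 1)) (v : H F2 X.G) :
    insC M p j v (0 : H F2 (X.E p)) = 0 := by
  simp only [insC, PMul.mE, map_zero, TensorProduct.tmul_zero]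

theorem mk_insE (p : ℕ) (j : Fin (p + 1)) (z : N F2 X.G) (hz : N.bd F2 X.G z = 0) (c : N F2 (X.E p))
    (hc : N.bd F2 (X.E p) c = 0) (h : N.bd F2 _ (insE M p j j.2 (N.map F2 (beta1 S) z) c) = 0) :
    Hd.mk (N.bd F2 (X.E (p + 1))) (insE M p j j.2 (N.map F2 (beta1 S) z) c) h =
      insC M p j (Hd.mk (N.bd F2 X.G) z hz) (Hd.mk (N.bd F2 (X.E p)) c hc) := by
  rw [insC, ← beta1_br S, PMul.mE, PFib.dg, Coalg847.hMap_mk, Coalg847.hMap_mk, Coalg847.hMap_mk,
    Coalg847.EZData.cr_mk, Coalg847.hMap_mk]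
  rfl

variable {deg : ι → ℕ} (hb : ∀ i, N.bd F2 X.G (zr i) = 0)

/-- class of the leading chain -/
noncomputable def cls (p : ℕ) (l : List ι) : H F2 (X.E p) :=
  Hd.mk (N.bd F2 (X.E p)) (cl S M zr p l) (bd_cl S M zr hb p l)

/-- class of `zr i` -/
noncomputable def vc (i : ι) : H F2 X.G := Hd.mk (N.bd F2 X.G) (zr i) (hb i)


theorem cls_cons (p : ℕ) (i : ι) (l : List ι) : cls S M zr hb (p + 1) (i :: l) =
    ∑ j : Fin (p + 1), insC M p j (vc zr hb i) (cls S M zr hb p l) := by
  have h1 : ∀ j : Fin (p + 1), N.bd F2 (X.E (p + 1))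
      (insE M p j j.2 (N.map F2 (beta1 S) (zr i)) (cl S M zr p l)) = 0 := fun j => by
    rw [bd_insE, bd_cl S M zr hb p l, ← EZ271.map_bd', hb i, map_zero, map_zero, map_zero,
      LinearMap.zero_apply, add_zero]
  have h2 : N.bd F2 (X.E (p + 1)) (∑ j : Fin (p + 1),
      insE M p j j.2 (N.map F2 (beta1 S) (zr i)) (cl S M zr p l)) = 0 := by
    rw [map_sum]; exact Finset.sum_eq_zero fun j _ => h1 j
  have h3 : cls S M zr hb (p + 1) (i :: l) = Hd.mk (N.bd F2 (X.E (p + 1))) (∑ j : Fin (p + 1),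
      insE M p j j.2 (N.map F2 (beta1 S) (zr i)) (cl S M zr p l)) h2 := rfl
  rw [h3, Gr334.mk_sum Finset.univ _ h1 h2]
  exact Finset.sum_congr rfl fun j _ => mk_insE S M p j (zr i) (hb i) _ (bd_cl S M zr hb p l) (h1 j)

/-- **the leading term of `psi`** -/
theorem lead_psi (p : ℕ) (l : List ι) (hl : l.length = p + 1)
    (h : psi S M zr l ∈ (BSS.FCof (cech X.π)).Z (p + 1)) :
    BSS.lead (cech X.π) (p + 1) ⟨psi S M zr l, h⟩ =
      Submodule.Quotient.mk (cls S M zr hb (p + 1) l) :=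
  BSS.lead_eq_of_sub _ _ _ (psi_sub S M zr (p + 1) l hl)

/-! ## words -/

/-- brackets of lists -/
noncomputable def brL (X : PFib) : ∀ p : ℕ, List (H F2 X.G) → H F2 (X.E p)
  | 0, [] => X.br ezd 0 Fin.elim0
  | 0, _ :: _ => 0
  | _ + 1, [] => 0
  | p + 1, a :: w => H.map F2 (X.alpha p) (ezd.cr X.G (X.E p) (a ⊗ₜ brL X p w))

theorem brL_eq : ∀ (p : ℕ) (w : List (H F2 X.G)) (h : w.length = p),
    brL X p w = X.br ezd p (fun i => w.get (i.cast h.symm))
  | 0, [], _ => by
    show X.br ezd 0 Fin.elim0 = _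
    congr 1
    exact funext fun i => i.elim0
  | 0, _ :: _, h => absurd h (by simp)
  | _ + 1, [], h => absurd h (by simp)
  | p + 1, a :: w, h => by
    show H.map F2 (X.alpha p) (ezd.cr X.G (X.E p) (a ⊗ₜ brL X p w)) = _
    rw [brL_eq p w (by simpa using h), X.br_succ]
    rfl

theorem insC_brL (p : ℕ) (j : Fin (p + 1)) (v : H F2 X.G) (w : List (H F2 X.G)) (h : w.length = p) :
    insC M p j v (brL X p w) = brL X (p + 1) (w.insertIdx j v) := by
  have h' : (w.insertIdx j v).length = p + 1 := by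
    rw [List.length_insertIdx_of_le_length (by rw [h]; omega), h]
  rw [brL_eq p w h, insC_br, brL_eq (p + 1) _ h']
  congr 1
  funext i
  refine Fin.succAboveCases j ?_ (fun k => ?_) i
  · rw [Fin.insertNth_apply_same]
    simp
  · rw [Fin.insertNth_apply_succAbove]
    simp only [List.get_eq_getElem, Fin.val_cast]
    by_cases hk : k.castSucc < j
    · have hk' : (k : ℕ) < j := hk
      have e : ((j.succAbove k : Fin (p + 1)) : ℕ) = k := by
        rw [Fin.succAbove_of_castSucc_lt _ _ hk]; rfl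
      simp only [e]
      rw [List.getElem_insertIdx_of_lt hk']
    · have hk' : (j : ℕ) ≤ k := not_lt.1 hk
      have e : ((j.succAbove k : Fin (p + 1)) : ℕ) = k + 1 := by
        rw [Fin.succAbove_of_le_castSucc _ _ (not_lt.1 hk)]; rfl
      simp only [e]
      rw [List.getElem_insertIdx_of_gt (by omega)]
      simp

/-- **class of the leading chain**: the sum of the brackets over all orderings -/
theorem cls_eq : ∀ (p : ℕ) (l : List ι), l.length = p →
    cls S M zr hb p l = (l.permutations'.map fun w => brL X p (w.map (vc zr hb))).sum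
  | 0, [], _ => by
    simp only [List.permutations', List.map_cons, List.map_nil, List.sum_cons, List.sum_nil, add_zero]
    rfl
  | 0, _ :: _, h => absurd h (by simp)
  | _ + 1, [], h => absurd h (by simp)
  | p + 1, i :: l, h => by
    have hl : l.length = p := by simpa using h
    rw [cls_cons, cls_eq p l hl, List.permutations', List.map_flatMap]
    have h1 : ∀ (L : List (List ι)), (∀ w ∈ L, w.length = p) → ∀ j : Fin (p + 1),
        insC M p j (vc zr hb i) (L.map fun w => brL X p (w.map (vc zr hb))).sum =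
          (L.map fun w => brL X (p + 1) ((w.insertIdx j i).map (vc zr hb))).sum := by
      intro L hL j
      induction L with
      | nil => simp only [List.map_nil, List.sum_nil, insC_zero]
      | cons w L ih =>
        rw [List.map_cons, List.sum_cons, insC_add, ih (fun w hw => hL w (List.mem_cons_of_mem _ hw)),
          List.map_cons, List.sum_cons, insC_brL M p j _ _ (by
            rw [List.length_map]; exact hL w List.mem_cons_self)]
        congr 2
        rw [List.map_insertIdx]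
    have h2 : ∀ w : List ι, w.length = p →
        ∑ j : Fin (p + 1), brL X (p + 1) ((w.insertIdx j i).map (vc zr hb)) =
          ((List.permutations'Aux i w).map fun u => brL X (p + 1) (u.map (vc zr hb))).sum := by
      intro w hw
      have e : List.permutations'Aux i w = List.ofFn (fun j : Fin (p + 1) => w.insertIdx j i) := by
        refine List.ext_getElem (by simp [hw]) fun n h1 h2 => ?_
        rw [List.getElem_permutations'Aux, List.getElem_ofFn]
      rw [e, List.map_ofFn, List.sum_ofFn]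
      rfl
    have hperm : ∀ w ∈ l.permutations', w.length = p := fun w hw => by
      rw [List.mem_permutations'] at hw
      rw [hw.length_eq, hl]
    rw [Finset.sum_congr rfl fun j _ => h1 _ hperm j]
    generalize l.permutations' = L at hperm
    induction L with
    | nil => simp
    | cons w L ih =>
      simp only [List.map_cons, List.sum_cons, List.flatMap_cons, List.sum_append]
      rw [Finset.sum_add_distrib, ih (fun w hw => hperm w (List.mem_cons_of_mem _ hw)),
        h2 w (hperm w List.mem_cons_self)]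

/-! ## augmentation -/

/-- the product of `H(K)` -/
noncomputable def mulK (a b : H F2 X.K) : H F2 X.K := H.map F2 M.MK (ezd.cr X.K X.K (a ⊗ₜ b))


theorem aug_psi0 : Cech.aug X.π (psi0 X) = N.sx F2 (X.π.app 0 X.p0) := by
  rw [psi0, aug_ofCol_zero, EZ271.map_map, N.map_sx]
  rfl

theorem aug_psi_cons (i : ι) (l : List ι) : Cech.aug X.π (psi S M zr (i :: l)) =
    N.map F2 M.MK (cross F2 (Sigma88.sgN (susE S) (zr i)) (Cech.aug X.π (psi S M zr l))) := by
  show Cech.aug X.π (mulT M (cyc S (zr i)) (psi S M zr l)) = _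
  rw [aug_mulT, aug_cyc]

include hb in
theorem bd_sg (i : ι) : N.bd F2 X.K (Sigma88.sgN (susE S) (zr i)) = 0 := by
  rw [Sigma88.bd_sgN (susE_ends S), hb i, map_zero, neg_zero]

include hb in
theorem bd_aug_psi (l : List ι) : N.bd F2 X.K (Cech.aug X.π (psi S M zr l)) = 0 := by
  induction l with
  | nil => exact (congrArg _ aug_psi0).trans (bd_vertex _)
  | cons i l ih =>
    rw [aug_psi_cons, ← EZ271.map_bd', bd_cross, EZ847.sg_F2, bd_sg S zr hb, ih, map_zero, map_zero,
      LinearMap.zero_apply, add_zero, map_zero]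

/-- the product of the suspensions -/
noncomputable def sigL : List (H F2 X.G) → H F2 X.K
  | [] => Coalg847.vtx (X.π.app 0 X.p0)
  | v :: l => mulK M (sus S v) (sigL l)

/-- **the class of the augmentation of `psi`** -/
theorem aug_psi : ∀ (l : List ι) (h : N.bd F2 X.K (Cech.aug X.π (psi S M zr l)) = 0),
    Hd.mk (N.bd F2 X.K) (Cech.aug X.π (psi S M zr l)) h = sigL S M (l.map (vc zr hb))
  | [], h => BSS.Hd_mk_congr aug_psi0 h _
  | i :: l, h => by
    have hl := bd_aug_psi S M zr hb l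
    have e2 : sigL S M ((i :: l).map (vc zr hb)) =
        mulK M (sus S (vc zr hb i)) (sigL S M (l.map (vc zr hb))) := rfl
    rw [e2, ← aug_psi l hl, mulK, sus, vc, Sigma88.sgH_mk, Coalg847.EZData.cr_mk, Coalg847.hMap_mk]
    exact BSS.Hd_mk_congr (aug_psi_cons S M zr i l) h _

end cls

end Crest.Agent.R204.Psi755
end

-- ▼ part R204/E2_459
section

/-!
# Row 204, block B: shuffles of words, antisymmetrisation by insertion, `BarData` fields at `E¹` level
(helper459)
-/

set_option autoImplicit false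
set_option linter.unusedSectionVars false

noncomputable section

namespace Crest.Agent.R204.E2_459

open Finsupp
open Crest.Agent.R204.Koszul459 (char2 orderings asym mem_orderings lt)
open Crest.Agent.R204.E1_459

/-! ## inserting a variable in orderings -/

section ins

variable {ι : Type*} [DecidableEq ι]





end ins

variable {ι : Type}

/-- insert the letter `m` at position `j` -/
def insL (j : ℕ) (m : Bar334.NMon ι) : Bar334.Bar ι →ₗ[F2] Bar334.Bar ι :=
  Finsupp.lmapDomain F2 F2 (fun w => w.insertIdx j m)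

@[simp] theorem insL_single (j : ℕ) (m : Bar334.NMon ι) (w : List (Bar334.NMon ι)) (r : F2) :
    insL j m (single w r) = single (w.insertIdx j m) r := by
  simp [insL, Finsupp.lmapDomain_apply, Finsupp.mapDomain_single]

theorem map_insertIdx' {α β : Type*} (f : α → β) (l : List α) (j : ℕ) (a : α) :
    (l.insertIdx j a).map f = (l.map f).insertIdx j (f a) := by
  exact List.map_insertIdx f l j a



/-! ## words in `M p` -/

end Crest.Agent.R204.E2_459

namespace Crest.Agent.R204.E1_459.BarMod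

open Finsupp
open Crest.Agent.R204.Koszul459 (char2)

variable (X : BarMod)

/-- the word `[a_1|…|a_p]` in `M p` (zero if the length is wrong) -/
def br : ∀ p : ℕ, List X.H → X.M p
  | 0, [] => X.pt
  | 0, _ :: _ => 0
  | _ + 1, [] => 0
  | p + 1, a :: w => X.al p a (br p w)

@[simp] theorem br_zero_nil : X.br 0 [] = X.pt := rfl
@[simp] theorem br_succ_cons (p : ℕ) (a : X.H) (w : List X.H) :
    X.br (p + 1) (a :: w) = X.al p a (X.br p w) := rfl


/-- degeneracies insert the unit -/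
theorem dgn_br : ∀ (p : ℕ) (i : Fin (p + 1)) (w : List X.H), w.length = p →
    X.dgn p i (X.br p w) = X.br (p + 1) (w.insertIdx i X.one)
  | p, ⟨0, _⟩, w, _ => by
    have h := X.dgn_zero p (X.br p w)
    exact h
  | 0, ⟨i + 1, hi⟩, _, _ => absurd hi (by omega)
  | p + 1, ⟨i + 1, hi⟩, [], h => absurd h (by simp)
  | p + 1, ⟨i + 1, hi⟩, a :: w, h => by
    have h1 := X.dgn_succ p a (X.br p w) ⟨i, by omega⟩
    have h2 := dgn_br p ⟨i, by omega⟩ w (by simpa using h)
    show X.dgn (p + 1) (Fin.succ ⟨i, by omega⟩) (X.al p a (X.br p w)) = _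
    rw [h1, h2]
    rfl

/-- levelwise product -/
structure Pr where
  /-- product of `H(G)` induced by the pointwise product -/
  mg : X.H →ₗ[F2] X.H →ₗ[F2] X.H
  pr : ∀ p, X.M p →ₗ[F2] X.M p →ₗ[F2] X.M p
  one_mg : ∀ a, mg X.one a = a
  mg_one : ∀ a, mg a X.one = a
  pr_pt : pr 0 X.pt X.pt = X.pt
  pr_al : ∀ p a b (x y : X.M p), pr (p + 1) (X.al p a x) (X.al p b y) = X.al p (mg a b) (pr p x y)

variable {X}

theorem Pr.pr_br (Q : X.Pr) : ∀ (p : ℕ) (w w' : List X.H), w.length = p → w'.length = p →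
    Q.pr p (X.br p w) (X.br p w') = X.br p (List.zipWith (fun a b => Q.mg a b) w w')
  | 0, [], [], _, _ => Q.pr_pt
  | 0, _ :: _, _, h, _ => absurd h (by simp)
  | 0, [], _ :: _, _, h => absurd h (by simp)
  | p + 1, [], _, h, _ => absurd h (by simp)
  | p + 1, _ :: _, [], _, h => absurd h (by simp)
  | p + 1, a :: w, b :: w', h, h' => by
    show Q.pr (p + 1) (X.al p a (X.br p w)) (X.al p b (X.br p w')) = X.al p (Q.mg a b)
      (X.br p (List.zipWith (fun a b => Q.mg a b) w w'))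
    rw [Q.pr_al, pr_br Q p w w' (by simpa using h) (by simpa using h')]

theorem zipWith_replicate_one (Q : X.Pr) : ∀ (w : List X.H),
    List.zipWith (fun a b => Q.mg a b) (List.replicate w.length X.one) w = w
  | [] => rfl
  | a :: w => by
    rw [List.length_cons, List.replicate_succ, List.zipWith_cons_cons, Q.one_mg,
      zipWith_replicate_one Q w]

/-- `(1,…,v,…,1)` times `(a_1,…,1,…,a_p)` (both at position `j`) -/
theorem zipWith_insert (Q : X.Pr) (v : X.H) : ∀ (w : List X.H) (j : ℕ), j ≤ w.length →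
    List.zipWith (fun a b => Q.mg a b) ((List.replicate w.length X.one).insertIdx j v)
      (w.insertIdx j X.one) = w.insertIdx j v
  | w, 0, _ => by
    rw [List.insertIdx_zero, List.insertIdx_zero, List.insertIdx_zero, List.zipWith_cons_cons,
      Q.mg_one, zipWith_replicate_one]
  | [], j + 1, h => by simp at h
  | a :: w, j + 1, h => by
    rw [List.length_cons, List.replicate_succ, List.insertIdx_succ_cons, List.insertIdx_succ_cons,
      List.insertIdx_succ_cons, List.zipWith_cons_cons, Q.one_mg,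
      zipWith_insert Q v w j (by simpa using h)]

/-- product of the unit word with letter `v` at position `j` and of the `j`-th degeneracy of a word -/
theorem Pr.pr_unit_dgn (Q : X.Pr) (p : ℕ) (v : X.H) (w : List X.H) (hw : w.length = p)
    (j : Fin (p + 1)) :
    Q.pr (p + 1) (X.br (p + 1) ((List.replicate p X.one).insertIdx j v)) (X.dgn p j (X.br p w)) =
      X.br (p + 1) (w.insertIdx j v) := by
  subst hw
  have hj : (j : ℕ) ≤ w.length := by omega
  rw [X.dgn_br _ j w rfl, Q.pr_br]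
  · rw [zipWith_insert Q v w j hj]
  · rw [List.length_insertIdx_of_le_length (by simpa using hj)]; simp
  · rw [List.length_insertIdx_of_le_length hj]

/-- the class of a word of monomials -/
theorem ww_eq_br {ι : Type} (φ : (ι →₀ ℕ) → X.H) : ∀ (p : ℕ) (w : List (Bar334.NMon ι)),
    X.ww φ p w = Submodule.Quotient.mk (X.br p (w.map fun m => φ m.1))
  | 0, [] => rfl
  | 0, _ :: _ => rfl
  | _ + 1, [] => rfl
  | p + 1, m :: w => by
    show X.alR p (φ m.1) (X.ww φ p w) = _
    rw [ww_eq_br φ p w]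
    rfl

/-! ## `W` and insertion -/

section W

variable {ι : Type} (φ : (ι →₀ ℕ) → X.H)

/-- all `E¹_p` together -/
abbrev EE (X : BarMod) : Type := ∀ p, X.R p

/-- inclusion of `E¹_p` -/
def inc (X : BarMod) (p : ℕ) : X.R p →ₗ[F2] X.EE := LinearMap.single F2 X.R p

theorem inc_injective (p : ℕ) : Function.Injective (X.inc p) := by
  intro a b h
  have := congrFun h p
  simpa [inc] using this

/-- words in `E¹` -/
def W : Bar334.Bar ι →ₗ[F2] X.EE := LinearMap.pi fun p => X.Wp φ p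

theorem W_apply (b : Bar334.Bar ι) (p : ℕ) : X.W φ b p = X.Wp φ p b := rfl

theorem Wp_ne {p q : ℕ} (h : p ≠ q) {b : Bar334.Bar ι} (hb : ∀ w ∈ b.support, w.length = p) :
    X.Wp φ q b = 0 := by
  rw [Wp, Finsupp.linearCombination_apply, Finsupp.sum]
  refine Finset.sum_eq_zero fun w hw => ?_
  rw [X.ww_ne φ q w (fun h' => h ((hb w hw).symm.trans h')), smul_zero]

theorem W_eq {p : ℕ} {b : Bar334.Bar ι} (hb : ∀ w ∈ b.support, w.length = p) :
    X.W φ b = X.inc p (X.Wp φ p b) := by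
  funext q
  rw [W_apply]
  by_cases h : q = p
  · subst h; simp [inc]
  · rw [X.Wp_ne φ (Ne.symm h) hb]
    simp [inc, Pi.single_eq_of_ne h]

theorem Wd_len {deg : ι → ℕ} {p q : ℕ} {b : Bar334.Bar ι} (hb : b ∈ Bar334.Wd deg p q) :
    ∀ w ∈ b.support, w.length = p := fun _ hw => (hb hw).1

end W

/-! ## the fields of `BarData` -/

section fields

variable {ι : Type} {deg : ι → ℕ} {φ : (ι →₀ ℕ) → X.H} (Y : Bar334.FC)

/-- leading term maps into `E¹` (343's T4) -/
structure Ld where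
  ld : ∀ p, ↥(Y.Z (p + 1)) →ₗ[F2] X.R (p + 1)
  ld_gr : ∀ p q (θ : Y.Z (p + 1)), (θ : Y.T) ∈ Y.gr (p + 1 + q) → ld p θ ∈ X.Rgr (p + 1) q
  ld_onto : ∀ p q, ∀ y ∈ X.Rgr (p + 1) q, ∃ θ : Y.Z (p + 1), (θ : Y.T) ∈ Y.gr (p + 1 + q) ∧ ld p θ = y
  ld_d : ∀ p (θ : Y.Z (p + 2)) (h : Y.d θ ∈ Y.Z (p + 1)), ld p ⟨Y.d θ, h⟩ = X.d1 (p + 1) (ld (p + 1) θ)

variable {Y}

/-- the `lead` field -/
def Ld.lead (L : Ld (X := X) Y) (p : ℕ) : ↥(Y.Z (p + 1)) →ₗ[F2] X.EE := X.inc (p + 1) ∘ₗ L.ld p

theorem Ld.lead_apply (L : Ld (X := X) Y) (p : ℕ) (θ : Y.Z (p + 1)) :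
    L.lead p θ = X.inc (p + 1) (L.ld p θ) := rfl

theorem Ld.lead_eq_zero (L : Ld (X := X) Y) (p : ℕ) (θ : Y.Z (p + 1)) :
    L.lead p θ = 0 ↔ L.ld p θ = 0 := by
  constructor
  · intro h
    apply X.inc_injective (p + 1)
    rw [map_zero]; exact h
  · intro h
    rw [lead_apply, h, map_zero]

theorem Ld.lift (L : Ld (X := X) Y) (hgr : ∀ m, φ m ∈ X.hgr (Bar334.wt1 deg m)) (p : ℕ)
    (w : List (Bar334.NMon ι)) (hw : w.length = p + 1) :
    ∃ θ : Y.Z (p + 1), (θ : Y.T) ∈ Y.gr (p + 1 + Bar334.wt deg w) ∧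
      L.lead p θ = X.W φ (Finsupp.single w 1) := by
  have h1 : (single w 1 : Bar334.Bar ι) ∈ Bar334.Wd deg (p + 1) (Bar334.wt deg w) :=
    Finsupp.single_mem_supported _ _ ⟨hw, rfl⟩
  obtain ⟨θ, h2, h3⟩ := L.ld_onto p _ _ (X.Wp_mem deg hgr (p + 1) _ _ h1)
  refine ⟨θ, h2, ?_⟩
  rw [lead_apply, h3, ← X.W_eq φ (Wd_len h1)]

theorem Ld.dW (L : Ld (X := X) Y) (hφ : X.Mult φ) (p : ℕ) (θ : Y.Z (p + 2)) (b : Bar334.Bar ι)
    (hb : ∀ w ∈ b.support, w.length = p + 2) (h : L.lead (p + 1) θ = X.W φ b)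
    (h' : Y.d θ ∈ Y.Z (p + 1)) : L.lead p ⟨Y.d θ, h'⟩ = X.W φ (Koszul459.bd b) := by
  have hb2 : ∀ w ∈ (Koszul459.bd b).support, w.length = p + 1 := by
    intro w hw
    have : b ∈ Finsupp.supported (ZMod 2) (ZMod 2) {w : List (Bar334.NMon ι) | w.length = p + 2} :=
      fun w hw => hb w hw
    have h2 : Koszul459.bd b ∈ Finsupp.supported (ZMod 2) (ZMod 2)
        {w : List (Bar334.NMon ι) | w.length = p + 1} := by
      refine Koszul459.map_supp Koszul459.bd ?_ this
      intro u hu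
      exact Finsupp.supported_mono (fun v hv => hv.1)
        (Koszul459.bd_single_supp Finsupp.degree u (p + 1) _ hu rfl)
    exact h2 hw
  rw [X.W_eq φ hb] at h
  rw [lead_apply] at h
  have h3 := X.inc_injective (p + 2) h
  rw [lead_apply, L.ld_d, h3, X.d1_Wp hφ, ← X.W_eq φ hb2]

theorem Ld.kun (L : Ld (X := X) Y) (hdeg : ∀ i, 1 ≤ deg i) (hφ : X.Mult φ)
    (hgr : ∀ m, φ m ∈ X.hgr (Bar334.wt1 deg m)) :
    ∀ t, (∀ s, 1 ≤ s → s < t →
      (∀ b ∈ Bar334.Wd deg 1 s, X.W φ b = 0 → b = 0) ∧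
      (∀ θ : Y.Z 1, (θ : Y.T) ∈ Y.gr (1 + s) → ∃ b ∈ Bar334.Wd deg 1 s, L.lead 0 θ = X.W φ b)) →
    ∀ p q, q ≤ t + p → (∀ b ∈ Bar334.Wd deg (p + 2) q, X.W φ b = 0 → b = 0) ∧
      (∀ θ : Y.Z (p + 2), (θ : Y.T) ∈ Y.gr (p + 2 + q) →
        ∃ b ∈ Bar334.Wd deg (p + 2) q, L.lead (p + 1) θ = X.W φ b) := by
  intro t H p q hq
  have H1 : ∀ s, 1 ≤ s → s < t → (∀ b ∈ Bar334.Wd deg 1 s, X.Wp φ 1 b = 0 → b = 0) ∧
      (∀ y ∈ X.Rgr 1 s, ∃ b ∈ Bar334.Wd deg 1 s, y = X.Wp φ 1 b) := by
    intro s h1 h2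
    obtain ⟨ha, hb⟩ := H s h1 h2
    constructor
    · intro b hb' h0
      refine ha b hb' ?_
      rw [X.W_eq φ (Wd_len hb'), h0, map_zero]
    · intro y hy
      obtain ⟨θ, hθ, rfl⟩ := L.ld_onto 0 s y hy
      obtain ⟨b, hb1, hb2⟩ := hb θ (by simpa using hθ)
      refine ⟨b, hb1, ?_⟩
      rw [lead_apply, X.W_eq φ (Wd_len hb1)] at hb2
      exact X.inc_injective 1 hb2
  obtain ⟨hA, hB⟩ := X.kun deg hdeg hφ hgr t H1 (p + 2) q (by omega)
  constructor
  · intro b hb h0
    refine hA b hb ?_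
    rw [X.W_eq φ (Wd_len hb)] at h0
    apply X.inc_injective (p + 2)
    rw [map_zero]; exact h0
  · intro θ hθ
    obtain ⟨b, hb, hb2⟩ := hB (L.ld (p + 1) θ) (L.ld_gr (p + 1) q θ (by
      have : p + 1 + 1 + q = p + 2 + q := by omega
      rw [this]; exact hθ))
    refine ⟨b, hb, ?_⟩
    rw [lead_apply, hb2, X.W_eq φ (Wd_len hb)]

end fields

/-! ## the shuffle formula -/

section shuf

variable {ι : Type} (φ : (ι →₀ ℕ) → X.H)

/-- words in `M p`, linear -/
def brW (X : BarMod) {ι : Type} (φ : (ι →₀ ℕ) → X.H) (p : ℕ) : Bar334.Bar ι →ₗ[F2] X.M p :=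
  Finsupp.linearCombination F2 fun w => X.br p (w.map fun m => φ m.1)

@[simp] theorem brW_single (p : ℕ) (w : List (Bar334.NMon ι)) (r : F2) :
    X.brW φ p (single w r) = r • X.br p (w.map fun m => φ m.1) := by
  simp [brW]

theorem mk_brW (p : ℕ) (b : Bar334.Bar ι) :
    (Submodule.Quotient.mk (X.brW φ p b) : X.R p) = X.Wp φ p b := by
  induction b using Finsupp.induction_linear with
  | zero => rw [map_zero, map_zero]; rfl
  | add f g hf hg => rw [map_add, map_add, ← hf, ← hg]; rfl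
  | single w r =>
    rw [brW_single, Wp_single, ww_eq_br]; rfl

/-- leading term of `[v]' · z`, `z` with leading word `b` of length `p` -/
theorem Pr.shuf (Q : X.Pr) (p : ℕ) (v : Bar334.NMon ι) (b : Bar334.Bar ι)
    (hb : ∀ w ∈ b.support, w.length = p) :
    ∑ j : Fin (p + 1), Q.pr (p + 1) (X.br (p + 1) ((List.replicate p X.one).insertIdx j (φ v.1)))
        (X.dgn p j (X.brW φ p b)) =
      X.brW φ (p + 1) (∑ j ∈ Finset.range (p + 1), E2_459.insL j v b) := by
  rw [map_sum, Finset.sum_range]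
  refine Finset.sum_congr rfl fun j _ => ?_
  have hb' : b ∈ Finsupp.supported F2 F2 {w : List (Bar334.NMon ι) | w.length = p} :=
    fun w hw => hb w hw
  let A1 : Bar334.Bar ι →ₗ[F2] X.M (p + 1) :=
    (Q.pr (p + 1) (X.br (p + 1) ((List.replicate p X.one).insertIdx j (φ v.1)))) ∘ₗ
      (X.dgn p j) ∘ₗ (X.brW φ p)
  let A2 : Bar334.Bar ι →ₗ[F2] X.M (p + 1) := X.brW φ (p + 1) ∘ₗ E2_459.insL j v
  refine Koszul459.eq_on_supp A1 A2 ?_ hb'
  intro w hw
  show Q.pr (p + 1) _ (X.dgn p j (X.brW φ p (single w 1))) =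
    X.brW φ (p + 1) (E2_459.insL j v (single w 1))
  rw [E2_459.insL_single, brW_single, brW_single, one_smul, one_smul,
    Q.pr_unit_dgn p _ _ (by rw [List.length_map]; exact hw), E2_459.map_insertIdx']


end shuf

end Crest.Agent.R204.E1_459.BarMod
end
end

-- ▼ part R204/BarG_170
section

/-!
# Row 204, block B: the constructor `PFib.barData : BarData (FCof (cech X.π)) …` (helper170)
-/

set_option autoImplicit false

namespace Crest.Agent.R204.Bar170

open Crest.Agent.R204 Crest.Agent.R204.Bis343 Crest.Agent.R204.SingAct265 Crest.Agent.R204.Coalg847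
open Crest.Agent.R204.E1_459
open TensorProduct

namespace PFib

variable (X : PFib) (hi : SpecA.HomotopyInv) (Z : EZData)
  (conn : ∀ x ∈ H.gr F2 X.G 0, ∃ r : F2, x = r • vtx X.e)

/-- the leading term with values in `E¹` of `barMod` -/
noncomputable def ld1 (p : ℕ) :
    ↥((BSS.FCof (cech X.π)).Z (p + 1)) →ₗ[F2] (X.barMod hi Z conn).R (p + 1) :=
  BSS.lead (cech X.π) (p + 1)

theorem lead_mem_Rgr (p q : ℕ) (θ : (BSS.FCof (cech X.π)).Z (p + 1))
    (h : (θ : (cech X.π).Tot) ∈ (cech X.π).grT (p + 1 + q)) :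
    X.ld1 hi Z conn p θ ∈ (X.barMod hi Z conn).Rgr (p + 1) q := by
  refine ⟨BSS.leadH (cech X.π) (p + 1) θ, ?_, rfl⟩
  rw [BSS.leadH_apply]
  exact Gr334.mk_mem_gr (BSS.comp_gr h) _

theorem ld1_onto (p q : ℕ) (y : (X.barMod hi Z conn).R (p + 1))
    (hy : y ∈ (X.barMod hi Z conn).Rgr (p + 1) q) :
    ∃ θ : (BSS.FCof (cech X.π)).Z (p + 1), (θ : (cech X.π).Tot) ∈ (cech X.π).grT (p + 1 + q) ∧
      X.ld1 hi Z conn p θ = y := by
  obtain ⟨x, hx, rfl⟩ := hy
  obtain ⟨z, hz, hb, rfl⟩ := Gr334.mem_H_gr.1 hx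
  exact ⟨⟨BSS.Tot.ofCol _ (p + 1) z, BSS.ofCol_mem_Z hb⟩, BSS.ofCol_mem_grT hz,
    BSS.lead_ofCol z hb (BSS.ofCol_mem_Z hb)⟩

/-- 459's package of leading terms -/
noncomputable def Ld : BarMod.Ld (X := X.barMod hi Z conn) (BSS.FCof (cech X.π)) where
  ld p := X.ld1 hi Z conn p
  ld_gr p q θ h := X.lead_mem_Rgr hi Z conn p q θ h
  ld_onto p q y hy := X.ld1_onto hi Z conn p q y hy
  ld_d p θ h := by
    have h1 := BSS.lead_D (E := cech X.π) (p := p + 1) θ h
    refine h1.trans ?_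
    obtain ⟨y, hy⟩ := Submodule.Quotient.mk_surjective _ (BSS.lead (cech X.π) (p + 1 + 1) θ)
    show BSS.dE1 (cech X.π) (p + 1) (BSS.lead (cech X.π) (p + 1 + 1) θ) =
      (X.barMod hi Z conn).d1 (p + 1) (BSS.lead (cech X.π) (p + 1 + 1) θ)
    rw [← hy, BSS.dE1_mk]
    refine Eq.trans ?_ ((X.barMod hi Z conn).d1_mk (p + 1) y).symm
    congr 1
    exact (LinearMap.sum_apply _ _ _).symm

/-- `F_0` is acyclic in positive degrees -/
theorem zero_acyc (Z : EZData) (n : ℕ) (θ : (cech X.π).Tot)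
    (hθ : θ ∈ (cech X.π).Fp 0 ⊓ (cech X.π).grT (n + 1)) (hd : BSS.Tot.D (cech X.π) θ = 0) :
    ∃ x ∈ (cech X.π).Fp 0 ⊓ (cech X.π).grT (n + 2), BSS.Tot.D (cech X.π) x = θ := by
  obtain ⟨h0, h1⟩ := hθ
  have hZ : θ ∈ (BSS.FCof (cech X.π)).Z 0 := BSS.mem_Z.2 ⟨h0, by rw [hd]; exact Submodule.zero_mem _⟩
  have hb : N.bd F2 _ (BSS.comp (cech X.π) 0 θ) = 0 := BSS.bd_comp_Z hZ
  have h1' : θ ∈ (cech X.π).grT (0 + (n + 1)) := by rw [Nat.zero_add]; exact h1
  have hg := BSS.comp_gr (E := cech X.π) (p := 0) (q := n + 1) h1'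
  have hm : Hd.mk (N.bd F2 _) (BSS.comp (cech X.π) 0 θ) hb ∈ H.gr F2 ((cech X.π).col 0) (n + 1) :=
    Gr334.mk_mem_gr hg hb
  have h2 := X.E0_eq' Z (Hd.mk (N.bd F2 _) (BSS.comp (cech X.π) 0 θ) hb)
  rw [eps_gr (Nat.succ_ne_zero n) hm, zero_smul, Hd.mk_eq_zero] at h2
  obtain ⟨y, hy⟩ := h2
  have hy' : N.bd F2 _ (Gr334.prN F2 _ (n + 2) y) = BSS.comp (cech X.π) 0 θ := by
    rw [← Gr334.prN_bd, hy]
    exact Gr334.prN_of_mem hg
  refine ⟨BSS.Tot.ofCol _ 0 (Gr334.prN F2 _ (n + 2) y), ⟨BSS.ofCol_mem_Fp _ _, ?_⟩, ?_⟩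
  · have := BSS.ofCol_mem_grT (E := cech X.π) (p := 0) (Gr334.prN_mem (R := F2) (n + 2) y)
    rwa [Nat.zero_add] at this
  · rw [BSS.Tot.D_apply, BSS.dH_Fp_zero (BSS.ofCol_mem_Fp 0 _), zero_add, BSS.Tot.dV_ofCol, hy']
    exact BSS.ofCol_comp_zero h0

variable {ι : Type} (deg : ι → ℕ) (φ : (ι →₀ ℕ) → H F2 X.G)

variable {φ} in
/-- `Mult` from multiplicativity and degrees -/
theorem mult_of (hdeg : ∀ i, 1 ≤ deg i) (h0 : φ 0 = vtx X.e)
    (hadd : ∀ a b, X.mulH Z (φ a) (φ b) = φ (a + b))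
    (hgr : ∀ m, φ m ∈ H.gr F2 X.G (Bar334.wt1 deg m)) : (X.barMod hi Z conn).Mult φ where
  zero := h0
  add a b := hadd a b
  eps m hm := by
    have h1 : 1 ≤ Bar334.wt1 deg m := BarMod.length_le_wt deg hdeg ⟨m, hm⟩
    exact eps_gr (by omega) (hgr m)

/-- **the constructor** -/
noncomputable def barData (hdeg : ∀ i, 1 ≤ deg i) (hφ : (X.barMod hi Z conn).Mult φ)
    (hgr : ∀ m, φ m ∈ H.gr F2 X.G (Bar334.wt1 deg m))
    (Psi : Finset ι → (cech X.π).Tot) (Psi_d : ∀ S, BSS.Tot.D (cech X.π) (Psi S) = 0)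
    (Psi_F : ∀ S, Psi S ∈ (cech X.π).Fp S.card)
    (Psi_gr : ∀ S, Psi S ∈ (cech X.π).grT (Bar334.degS deg S))
    (Psi_lead : ∀ p (S : Finset ι) (_ : S.card = p + 1)
      (h : Psi S ∈ (BSS.FCof (cech X.π)).Z (p + 1)),
      BSS.lead (cech X.π) (p + 1) ⟨Psi S, h⟩ =
        (X.barMod hi Z conn).Wp φ (p + 1) (Koszul459.asym S)) :
    Bar334.BarData (BSS.FCof (cech X.π)) deg Koszul459.bd Koszul459.asym where
  E := (X.barMod hi Z conn).EE
  deg_pos := hdeg
  lead p := (X.Ld hi Z conn).lead p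
  lead_low p θ h := by
    rw [BarMod.Ld.lead_eq_zero]
    exact BSS.lead_low θ h
  lead_bd p θ h := by
    rw [BarMod.Ld.lead_eq_zero]
    exact BSS.lead_bd θ h
  lead_ker p n θ h h' := by
    rw [BarMod.Ld.lead_eq_zero] at h'
    exact BSS.lead_ker θ h h'
  zero n θ hθ hd := X.zero_acyc Z n θ hθ hd
  W := (X.barMod hi Z conn).W φ
  lift p w hw := (X.Ld hi Z conn).lift hgr p w hw
  dW p θ b hb h h' := (X.Ld hi Z conn).dW hφ p θ b hb h h'
  kun := (X.Ld hi Z conn).kun hdeg hφ hgr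
  Psi := Psi
  Psi_d := Psi_d
  Psi_F := Psi_F
  Psi_gr := Psi_gr
  Psi_lead p S hS h := by
    have hw : ∀ w ∈ (Koszul459.asym S).support, w.length = p + 1 := fun w hw => by
      have := (Koszul459.asym_supp Finsupp.degree S hw).1
      rw [this, hS]
    have h1 := (X.barMod hi Z conn).W_eq φ hw
    exact (congrArg ((X.barMod hi Z conn).inc (p + 1)) (Psi_lead p S hS h)).trans h1.symm

end PFib


end Crest.Agent.R204.Bar170
end

-- ▼ part R204/Psi3_755

/-!
# Row 204, block B (leaf P3, helper755): `BarData` of a path fibration with a product, and the loop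
theorem in a range `loop_range`.
-/

set_option autoImplicit false

namespace Crest.Agent.R204.Psi755

open Crest.Agent.R204 Crest.Agent.R204.Bis343 Crest.Agent.R204.EZ271 Crest.Agent.R204.Bar170
open Crest.Agent.R204.Coalg847 Crest.Agent.R204.Bar334 Crest.Agent.R204.Ind979
open Finsupp BSS BSS.Tot EZ847 TensorProduct

/-- homotopy invariance -/
theorem hI : SpecA.HomotopyInv := HtpInv334.homotopyInv

section fin

variable {X : PFib} (S : PSus X) (M : PMul X)
  (conn : ∀ x ∈ H.gr F2 X.G 0, ∃ r : F2, x = r • vtx X.e)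

theorem brL_bar : ∀ (p : ℕ) (w : List (H F2 X.G)), brL X p w = (X.barMod hI ezd conn).br p w
  | 0, [] => rfl
  | 0, _ :: _ => rfl
  | _ + 1, [] => rfl
  | p + 1, a :: w => by
    show H.map F2 (X.alpha p) (ezd.cr X.G (X.E p) (a ⊗ₜ brL X p w)) = _
    rw [brL_bar p w]
    rfl

variable {ι : Type} (zr : ι → N F2 X.G) (hb : ∀ i, N.bd F2 X.G (zr i) = 0)
  (φ : (ι →₀ ℕ) → H F2 X.G) (hv : ∀ i, vc zr hb i = φ (Finsupp.single i 1))

include hv in
theorem cls_asym (T : Finset ι) :
    cls S M zr hb T.card T.toList = (X.barMod hI ezd conn).brW φ T.card (Koszul459.asym T) := by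
  classical
  have h1 : (T.toList.permutations'.map fun w => brL X T.card (w.map (vc zr hb))).sum =
      ∑ l ∈ Koszul459.orderings T, brL X T.card (l.map (vc zr hb)) := by
    have hp := (List.permutations_perm_permutations' T.toList).map
      (fun w => brL X T.card (w.map (vc zr hb)))
    rw [← hp.sum_eq, Koszul459.orderings,
      List.sum_toFinset _ (List.nodup_permutations _ T.nodup_toList)]
  rw [cls_eq S M zr hb T.card T.toList T.length_toList, h1, Koszul459.asym, map_sum]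
  refine Finset.sum_congr rfl fun l _ => ?_
  have h2 := E1_459.BarMod.brW_single (X := X.barMod hI ezd conn) (φ := φ) T.card (l.map Koszul459.lt) 1
  refine Eq.trans ?_ h2.symm
  rw [one_smul, brL_bar conn]
  refine congrArg ((X.barMod hI ezd conn).br T.card) ?_
  have h3 : l.map (vc zr hb) = (l.map Koszul459.lt).map (fun m => φ m.1) := by
    rw [List.map_map]
    exact List.map_congr_left fun i _ => hv i
  exact h3

/-- the product of the cycles over a finite set -/
noncomputable def Psi (T : Finset ι) : (cech X.π).Tot := psi S M zr T.toList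

theorem Psi_F (T : Finset ι) : Psi S M zr T ∈ (cech X.π).Fp T.card := by
  have := psi_F S M zr T.toList
  rwa [T.length_toList] at this

theorem Psi_gr {deg : ι → ℕ} (hz : ∀ i, zr i ∈ N.gr F2 X.G (deg i)) (T : Finset ι) :
    Psi S M zr T ∈ (cech X.π).grT (degS deg T) := by
  have := psi_gr S M zr hz T.toList
  rwa [Finset.sum_map_toList, Finset.sum_add_distrib, Finset.sum_const, smul_eq_mul, mul_one,
    add_comm] at this

include hb hv in
theorem Psi_lead (p : ℕ) (T : Finset ι) (hT : T.card = p + 1)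
    (h : Psi S M zr T ∈ (BSS.FCof (cech X.π)).Z (p + 1)) :
    BSS.lead (cech X.π) (p + 1) ⟨Psi S M zr T, h⟩ =
      (X.barMod hI ezd conn).Wp φ (p + 1) (Koszul459.asym T) := by
  have h1 := lead_psi S M zr hb p T.toList (T.length_toList.trans hT) h
  have h2 := cls_asym S M conn zr hb φ hv T
  rw [hT] at h2
  have h3 := E1_459.BarMod.mk_brW (X := X.barMod hI ezd conn) (φ := φ) (p + 1) (Koszul459.asym T)
  refine Eq.trans ?_ h3
  refine h1.trans ?_
  exact congrArg Submodule.Quotient.mk h2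

/-- **`BarData`** of a path fibration with a product -/
noncomputable def barData {deg : ι → ℕ} (hdeg : ∀ i, 1 ≤ deg i)
    (hz : ∀ i, zr i ∈ N.gr F2 X.G (deg i)) (h0 : φ 0 = vtx X.e)
    (hadd : ∀ a b, X.mulH ezd (φ a) (φ b) = φ (a + b))
    (hgr : ∀ m, φ m ∈ H.gr F2 X.G (wt1 deg m)) :
    BarData (BSS.FCof (cech X.π)) deg (Koszul459.bd (ι := ι)) (Koszul459.asym (ι := ι)) :=
  X.barData hI ezd conn deg φ hdeg (X.mult_of hI ezd conn deg hdeg h0 hadd hgr) hgr
    (Psi S M zr) (fun _ => D_psi S M zr hdeg hz hb _) (Psi_F S M zr) (Psi_gr S M zr hz)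
    (Psi_lead S M conn zr hb φ hv)

/-- the product of the suspensions over a finite set -/
noncomputable def Ps (v : ι → H F2 X.G) (T : Finset ι) : H F2 X.K := sigL S M (T.toList.map v)

noncomputable def barOK {deg : ι → ℕ} (hdeg : ∀ i, 1 ≤ deg i)
    (hz : ∀ i, zr i ∈ N.gr F2 X.G (deg i)) (h0 : φ 0 = vtx X.e)
    (hadd : ∀ a b, X.mulH ezd (φ a) (φ b) = φ (a + b))
    (hgr : ∀ m, φ m ∈ H.gr F2 X.G (wt1 deg m)) :
    Geo979.BarOK X ezd φ deg (Ps S M (vc zr hb)) (barData S M conn zr hb φ hv hdeg hz h0 hadd hgr) where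
  jE := (X.barMod hI ezd conn).inc 1
  jE_inj := (X.barMod hI ezd conn).inc_injective 1
  lead_eq θ := rfl
  W_eq m := by
    have hw : ∀ w ∈ (Finsupp.single [m] (1 : F2)).support, w.length = 1 := fun w hw => by
      have := Finsupp.support_single_subset hw
      rw [Finset.mem_singleton] at this
      rw [this]; rfl
    refine ((X.barMod hI ezd conn).W_eq φ hw).trans ?_
    refine congrArg ((X.barMod hI ezd conn).inc 1) ?_
    have h3 := E1_459.BarMod.Wp_single (X := X.barMod hI ezd conn) (φ := φ) 1 [m] 1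
    refine h3.trans ?_
    rw [one_smul, Geo979.j1_apply]
    rfl
  Psi_ev T := by
    rw [Geo979.evK_mk]
    exact aug_psi S M zr hb T.toList _

end fin

/-! ## the loop theorem in a range -/

theorem map_sigL {X : PFib} (S : PSus X) (M : PMul X) {A : Type} [CommRing A] [Algebra F2 A]
    (ψ : H F2 X.K →ₗ[F2] A) (ψ_one : ψ (vtx (X.π.app 0 X.p0)) = 1)
    (ψ_mul : ∀ a b, ψ (mulK M a b) = ψ a * ψ b) (l : List (H F2 X.G)) :
    ψ (sigL S M l) = (l.map fun v => ψ (sus S v)).prod := by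
  induction l with
  | nil => exact ψ_one
  | cons v l ih =>
    rw [List.map_cons, List.prod_cons, ← ih]
    exact ψ_mul _ _

theorem map_Ps {X : PFib} (S : PSus X) (M : PMul X) {A : Type} [CommRing A] [Algebra F2 A]
    (ψ : H F2 X.K →ₗ[F2] A) (ψ_one : ψ (vtx (X.π.app 0 X.p0)) = 1)
    (ψ_mul : ∀ a b, ψ (mulK M a b) = ψ a * ψ b) {ι : Type} (v : ι → H F2 X.G) (T : Finset ι) :
    ψ (Ps S M v T) = ∏ i ∈ T, ψ (sus S (v i)) := by
  rw [Ps, map_sigL S M ψ ψ_one ψ_mul, List.map_map, ← Finset.prod_map_toList]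
  rfl

/-- **the loop theorem in a range**, for a path fibration with contraction and product -/
theorem loop_range {X : PFib} (S : PSus X) (M : PMul X) {HG A : Type} [CommRing HG] [Algebra F2 HG]
    [CommRing A] [Algebra F2 A] {ι : Type} {deg : ι → ℕ} (hdeg : ∀ i, 1 ≤ deg i)
    (connX : ∀ x ∈ H.gr F2 X.G 0, ∃ r : F2, x = r • vtx X.e)
    (g : HG →ₗ[F2] H F2 X.G) (grG : ℕ → Submodule F2 HG)
    (g_inj : Function.Injective g) (hgG : ∀ t a, a ∈ grG t → g a ∈ H.gr F2 X.G t)
    (g_one : g 1 = vtx X.e) (g_mul : ∀ a b, g (a * b) = X.mulH ezd (g a) (g b))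
    (one_mem : (1 : HG) ∈ grG 0)
    (mul_mem : ∀ s t a b, a ∈ grG s → b ∈ grG t → a * b ∈ grG (s + t))
    (conn : grG 0 ≤ Submodule.span F2 {1})
    (v : ι → HG) (hv : ∀ i, v i ∈ grG (deg i))
    (ψ : H F2 X.K →ₗ[F2] A) (grA : ℕ → Submodule F2 A) (ψ_inj : Function.Injective ψ)
    (hgA : ∀ t a, a ∈ H.gr F2 X.K t → ψ a ∈ grA t)
    (ψ_one : ψ (vtx (X.π.app 0 X.p0)) = 1)
    (ψ_mul : ∀ a b, ψ (mulK M a b) = ψ a * ψ b) {n : ℕ}
    (h : SimR grA (fun i => ψ (sus S (g (v i)))) (fun i => deg i + 1) (n + 1)) :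
    PolyR grG v deg n := by
  classical
  have hz : ∀ i, ∃ z : N F2 X.G, z ∈ N.gr F2 X.G (deg i) ∧ ∃ hb : N.bd F2 X.G z = 0,
      g (v i) = Hd.mk (N.bd F2 X.G) z hb := fun i => Gr334.mem_H_gr.1 (hgG _ _ (hv i))
  choose zr hzr hb hvz using hz
  have hvc : ∀ i, vc zr hb i = g (v i) := fun i => (hvz i).symm
  have hv' : ∀ i, vc zr hb i = g (mval v (Finsupp.single i 1)) := fun i => by
    rw [mval_single, pow_one, hvc]
  have hmem : ∀ m : ι →₀ ℕ, mval v m ∈ grG (mdeg deg m) := by
    intro m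
    induction m using Finsupp.induction_linear with
    | zero => rw [mval_zero, mdeg_zero]; exact one_mem
    | add a b ha hb => rw [mval_add, mdeg_add]; exact mul_mem _ _ _ _ ha hb
    | single i k =>
      rw [mval_single, mdeg_single]
      induction k with
      | zero => rw [pow_zero, zero_mul]; exact one_mem
      | succ k ih => rw [pow_succ, add_mul, one_mul]; exact mul_mem _ _ _ _ ih (hv i)
  have O := barOK S M connX zr hb (fun m => g (mval v m)) hv' hdeg hzr
    (by show g (mval v 0) = _; rw [mval_zero]; exact g_one)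
    (fun a b => by
      show X.mulH ezd (g (mval v a)) (g (mval v b)) = g (mval v (a + b))
      rw [mval_add, g_mul])
    (fun m => hgG _ _ (hmem m))
  refine Geo979.loop_polyR hI ezd O g grG g_inj hgG one_mem mul_mem ?_ conn v hv (fun _ => rfl) ψ grA
    ψ_inj hgA (ψ ∘ₗ sus S ∘ₗ g) (fun T => ?_) h
  · intro h1
    have h2 : eps X.G (g 1) = 0 := by rw [h1, map_zero, map_zero]
    rw [g_one, eps_vtx] at h2
    exact one_ne_zero h2
  · rw [map_Ps S M ψ ψ_one ψ_mul]
    exact Finset.prod_congr rfl fun i _ => by rw [hvc]; rfl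

end Crest.Agent.R204.Psi755
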