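import Crest.Agent.R204.PF_94
import Crest.Agent.R204.LoopId2_872
import Crest.Agent.R204.Sigma2_88

/-!
# Row 204, block B (helper343): the suspension of the path fibration is 330's loop suspension

* `susE S : Δ¹ × G → K` for `S : PSus X`;
* `prj_susE` : over `Sing B` it is evaluation of loops;
* `prj_sgN_G0H'`, `prj_sgN_G0H` : for `B = Ω^n Z` it is the suspension of 330's `genLoop n`
  (chain level), `prj_sgN_mk'`, `prj_sgN_mk` (homology).
-/

set_option autoImplicit false

noncomputable section

open Set unitInterval Topology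

namespace Crest.Agent.R204.SigEval343

open Crest.Agent.R204 Crest.Agent.R204.SS Crest.Agent.R204.Cov892 Crest.Agent.R204.Bar170
open Crest.Agent.R204.PF872 Crest.Agent.R204.PF94
open Crest.Agent.R204.SingAct265 (mkS sing_ext bar continuous_bar singHtpy Htpy)
open Crest.Agent.R204.Sigma88 (sgN sgN_apply sgN_post sgN_pre sigH sigH_mk io oS)
open Crest.Agent.R204.HspSS696 (Om)

theorem mk_congr {M : Type} [AddCommGroup M] [Module F2 M] {d : M →ₗ[F2] M} {z z' : M}
    (h : z = z') (hz : d z = 0) (hz' : d z' = 0) : Hd.mk d z hz = Hd.mk d z' hz' := by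
  subst h; rfl

/-- the exchange -/
def sw (A B : SS) : SS.Hom (A.prod B) (B.prod A) := ⟨fun _ x => (x.2, x.1), fun _ _ => rfl⟩

/-- the suspension family `Δ¹ × G → K` -/
def susE {X : PFib} (S : PSus X) : SS.Hom ((SS.std 1).prod X.G) X.K :=
  X.π.comp (S.hs.h.comp (sw _ _))


section base
variable {B : Type} [TopologicalSpace B] (b : B)

/-- evaluation of loops, on simplices -/
def evG : SS.Hom ((SS.std 1).prod (Sing (G0 b))) (Sing B) where
  app n x := mkS (fun t => (SingAct265.ev x.2 t).1.1 (bar x.1 t)) (by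
    have h1 : Continuous fun t : stdSimplex ℝ (Fin (n + 1)) => (SingAct265.ev x.2 t).1 :=
      continuous_subtype_val.comp (SingAct265.continuous_ev _)
    have h2 : Continuous fun t : stdSimplex ℝ (Fin (n + 1)) => (SingAct265.ev x.2 t).1.1 :=
      continuous_subtype_val.comp h1
    exact h2.eval (continuous_bar _))
  nat {m n} f x := by
    refine sing_ext fun t => ?_
    simp only [SingAct265.ev_mkS, SingAct265.ev_act]
    congr 1
    exact SingAct265.bar_comp f x.1 t

/-- the suspension family of the path fibration, `Δ¹ × Sing G0 → Bt` -/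
def susB : SS.Hom ((SS.std 1).prod (Sing (G0 b))) (Bt b) := susE (psus b)

/-- over `Sing B` the suspension is evaluation -/
theorem prj_susE : (prj b).comp (susB b) = evG b := by
  refine SS.Hom.ext (funext fun n => funext fun x => ?_)
  refine sing_ext fun t => ?_
  exact shr_end _ _

/-- chain level -/
theorem prj_sgN (z : N F2 (Sing (G0 b))) :
    N.map F2 (prj b) (sgN (susB b) z) = sgN (evG b) z := by
  rw [← sgN_post, prj_susE]


/-- the ends of the suspension family -/
theorem ends_susB : Sigma88.Ends (susB b) ((quo b).app 0 (p0 b)) where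
  zero n x := by
    refine Eq.trans (congrArg ((quo b).app n) ((hs b).zero n x)) ?_
    exact (quo b).nat _ _
  one n x := by
    refine Eq.trans (congrArg ((quo b).app n) ((hs b).one n x)) ?_
    refine Eq.trans (quo_inc n x) ?_
    exact (quo b).nat _ _

end base

section om
variable {Z : Type} [TopologicalSpace Z] {z₀ : Z} {n : ℕ}

/-- `Sing Ω^(n+1) Z → Sing G0` if `Ω^(n+1) Z` is path connected -/
def toG' (h : ∀ x : Om (Fin (n + 1)) Z z₀, Joined x GenLoop.const) :
    SS.Hom (Sing (Om (Fin (n + 1)) Z z₀)) (Sing (G0 (bo Z z₀ n))) :=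
  SingMap ⟨G0H' h, (G0H' h).continuous⟩



/-- for `B = Ω^n Z`, path connected `Ω^(n+1) Z` -/
theorem evG_toG' (h : ∀ x : Om (Fin (n + 1)) Z z₀, Joined x GenLoop.const) :
    (evG (bo Z z₀ n)).comp (SS.prodMap (SS.Hom.id _) (toG' h)) =
      (Sus330.genLoop (Z := Z) (z₀ := z₀) n).evH := by
  refine SS.Hom.ext (funext fun m => funext fun x => ?_)
  exact sing_ext fun t => rfl


/-- chain level, path connected case -/
theorem prj_sgN_toG' (h : ∀ x : Om (Fin (n + 1)) Z z₀, Joined x GenLoop.const)
    (z : N F2 (Sing (Om (Fin (n + 1)) Z z₀))) :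
    N.map F2 (prj (bo Z z₀ n)) (sgN (susB (bo Z z₀ n)) (N.map F2 (toG' h) z)) =
      (Sus330.genLoop (Z := Z) (z₀ := z₀) n).sig F2 z := by
  rw [prj_sgN, ← sgN_pre, evG_toG']
  rfl


/-- homology, path connected case -/
theorem prj_sgH_toG' (h : ∀ x : Om (Fin (n + 1)) Z z₀, Joined x GenLoop.const)
    (x : H F2 (Sing (Om (Fin (n + 1)) Z z₀))) :
    H.map F2 (prj (bo Z z₀ n)) (Sigma88.sgH (ends_susB (bo Z z₀ n)) (H.map F2 (toG' h) x)) =
      sigH (Sus330.genLoop (Z := Z) (z₀ := z₀) n) x := by
  obtain ⟨z, hz, rfl⟩ := Hd.mk_surj _ x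
  exact mk_congr (prj_sgN_toG' h z) _ _


end om

end Crest.Agent.R204.SigEval343
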