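import Crest.Agent.R204.Sph_94c
import Crest.Agent.R204.SpecA_334
import Crest.Agent.R204.Normz_515

/-!
# Row 204, leaf A8b (helper94), part 4: the bridge with `R224/T` and `SpecA.Spheres`
-/

set_option autoImplicit false

noncomputable section

open Topology Set

namespace Crest.Agent.R204.Sph94

open Crest.Agent.R224.T (Dl face bd push)

variable {Y : Type} [TopologicalSpace Y]

open SpecA (emb)

theorem emb_single (n : ℕ) (σ : C(Dl n, Y)) (r : F2) :
    emb Y n (Finsupp.single σ r) = Finsupp.single (⟨n, σ⟩ : (SS.Sing Y).T) r := by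
  simp [emb, Finsupp.mapDomain_single]


theorem neg_one_pow (i : ℕ) : ((-1 : F2)) ^ i = 1 := by
  have : (-1 : F2) = 1 := by decide
  rw [this, one_pow]

theorem bd_emb (n : ℕ) (c : R224.T.Ch (n + 1) Y) :
    Ch.bd F2 (SS.Sing Y) (emb Y (n + 1) c) = emb Y n (bd n c) := by
  have h : (Ch.bd F2 (SS.Sing Y)) ∘ₗ (emb Y (n + 1)) = (emb Y n) ∘ₗ (bd n) := by
    apply Finsupp.lhom_ext'
    intro σ
    apply LinearMap.ext_ring
    simp only [LinearMap.comp_apply, Finsupp.lsingle_apply]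
    rw [emb_single]
    refine (Ch.bd_single_succ (K := SS.Sing Y) (n := n) σ (1 : F2)).trans ?_
    rw [R224.T.bd_single, map_sum]
    refine Finset.sum_congr rfl fun i _ => ?_
    rw [emb_single, neg_one_pow, mul_one]
    rfl
  exact LinearMap.congr_fun h c


theorem emb_injective (n : ℕ) : Function.Injective (emb Y n) := by
  refine Finsupp.mapDomain_injective ?_
  intro σ τ h
  have := Sigma.mk.inj_iff.1 h
  exact eq_of_heq this.2

theorem exists_emb {n : ℕ} {z : Ch F2 (SS.Sing Y)} (hz : z ∈ Ch.gr F2 (SS.Sing Y) n) :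
    ∃ c, emb Y n c = z := by
  have : z ∈ LinearMap.range (emb Y n) := by
    refine Submodule.span_le.2 ?_ hz
    rintro _ ⟨x, rfl⟩
    exact ⟨Finsupp.single x 1, emb_single n x 1⟩
  exact this

theorem emb_mem_gr (n : ℕ) (c : R224.T.Ch n Y) : emb Y n c ∈ Ch.gr F2 (SS.Sing Y) n := by
  induction c using Finsupp.induction_linear with
  | zero => simp
  | add f g hf hg => rw [map_add]; exact Submodule.add_mem _ hf hg
  | single σ r =>
    rw [emb_single]
    exact Normz515.gr_single (K := SS.Sing Y) σ r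

/-- the class of a mod 2 singular cycle -/
def cl (n : ℕ) (c : R224.T.Ch n Y) (hc : Ch.bd F2 (SS.Sing Y) (emb Y n c) = 0) : H F2 (SS.Sing Y) :=
  Hd.mk (N.bd F2 (SS.Sing Y)) (Submodule.Quotient.mk (emb Y n c)) (by rw [N.bd_mk, hc]; rfl)

theorem exists_cl {n : ℕ} {x : H F2 (SS.Sing Y)} (hx : x ∈ H.gr F2 (SS.Sing Y) n) :
    ∃ c hc, x = cl n c hc := by
  obtain ⟨z, hz, hn, rfl⟩ := Normz515.gr_rep hx
  obtain ⟨c, rfl⟩ := exists_emb hn
  exact ⟨c, hz, rfl⟩

theorem cl_mem (n : ℕ) (c : R224.T.Ch n Y) (hc) : cl n c hc ∈ H.gr F2 (SS.Sing Y) n :=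
  ⟨⟨Submodule.Quotient.mk (emb Y n c), by rw [LinearMap.mem_ker]; exact (by rw [N.bd_mk, hc]; rfl)⟩,
    ⟨emb Y n c, emb_mem_gr n c, rfl⟩, rfl⟩

theorem cl_eq_zero {n : ℕ} {c : R224.T.Ch n Y} {hc} : cl n c hc = 0 ↔ ∃ b : R224.T.Ch (n + 1) Y, bd n b = c := by
  constructor
  · intro h
    obtain ⟨w, hw, hw'⟩ := Normz515.gr_bd (emb_mem_gr n c) hc h
    obtain ⟨b, rfl⟩ := exists_emb hw
    refine ⟨b, emb_injective n ?_⟩
    rw [← bd_emb, hw']
  · rintro ⟨b, rfl⟩
    refine Hd.mk_eq_zero.2 ⟨Submodule.Quotient.mk (emb Y (n + 1) b), ?_⟩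
    rw [N.bd_mk, bd_emb]

theorem cl_add {n : ℕ} {c c' : R224.T.Ch n Y} {hc hc'} :
    cl n (c + c') (by rw [map_add, map_add, hc, hc', add_zero]) = cl n c hc + cl n c' hc' := by
  unfold cl
  simp only [map_add]
  rfl

/-- the mod 2 fundamental class in the form of row 204 -/
theorem cl_fc (n : ℕ) (v : Sp (n + 1)) (hc)
    (hz : N.bd F2 (SS.Sing (Sp (n + 1))) (N.sx (K := SS.Sing (Sp (n + 1))) (n := n + 1) F2 (sg v)) = 0) :
    cl (n + 1) (fc v) hc = Hd.mk (N.bd F2 _) (N.sx (K := SS.Sing (Sp (n + 1))) (n := n + 1) F2 (sg v)) hz := by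
  unfold cl
  congr 1
  unfold fc N.sx
  rw [map_add, emb_single, emb_single]
  rw [Submodule.Quotient.mk_add]
  have h : (Submodule.Quotient.mk (Finsupp.single (⟨n + 1, cs (n + 1) v⟩ : (SS.Sing (Sp (n + 1))).T) (1 : F2)) :
      N F2 (SS.Sing (Sp (n + 1)))) = 0 := by
    have h1 := N.sx_dgn (R := F2) (K := SS.Sing (Sp (n + 1))) (n := n) 0 (cs n v)
    exact h1
  rw [h, add_zero]

theorem f2_eq_of_add {M : Type*} [AddCommGroup M] [Module F2 M] {a b : M} (h : a + b = 0) : a = b := by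
  have h1 : b + b = 0 := by
    rw [← two_smul F2 b]
    have : (2 : F2) = 0 := rfl
    rw [this, zero_smul]
  calc a = a + (b + b) := by rw [h1, add_zero]
    _ = (a + b) + b := by rw [add_assoc]
    _ = b := by rw [h, zero_add]

/-- homology of the spheres -/
theorem spheres : SpecA.Spheres := by
  intro n y
  refine ⟨sg y, fun i => sg_face y i, fun hz => ?_, ?_⟩
  · have hc : Ch.bd F2 (SS.Sing (Sp (n + 1))) (emb (Sp (n + 1)) (n + 1) (fc y)) = 0 := by
      rw [bd_emb, bd_fc, map_zero]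
    have h1 := cl_fc n y hc hz
    have h2 : cl (n + 1) (fc y) hc ≠ 0 := fun h => nb (n + 1) y (cl_eq_zero.1 h)
    refine ⟨fun h => h2 (h1.trans h), ?_⟩
    apply le_antisymm
    · intro x hx
      obtain ⟨c, hc', rfl⟩ := exists_cl hx
      have hbc : bd n c = 0 := by
        apply emb_injective n
        rw [← bd_emb, hc', map_zero]
      rw [Submodule.mem_span_singleton]
      rcases sphere_gen n y c hbc with ⟨b, hb⟩ | ⟨b, hb⟩
      · exact ⟨0, by rw [zero_smul]; exact (cl_eq_zero.2 ⟨b, hb⟩).symm⟩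
      · refine ⟨1, ?_⟩
        rw [one_smul]
        have h3 : cl (n + 1) c hc' + cl (n + 1) (fc y) hc = 0 :=
          (cl_add (hc := hc') (hc' := hc)).symm.trans (cl_eq_zero.2 ⟨b, hb⟩)
        exact h1.symm.trans (f2_eq_of_add h3).symm
    · rw [Submodule.span_le, Set.singleton_subset_iff]
      have h3 := cl_mem (n + 1) (fc y) hc
      rw [h1] at h3
      exact h3
  · intro m hm0 hm
    obtain ⟨q, rfl⟩ := Nat.exists_eq_succ_of_ne_zero hm0
    rw [eq_bot_iff]
    intro x hx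
    obtain ⟨c, hc', rfl⟩ := exists_cl hx
    have hbc : bd q c = 0 := by
      apply emb_injective q
      rw [← bd_emb, hc', map_zero]
    rw [Submodule.mem_bot]
    exact cl_eq_zero.2 (sphere_low q hm c hbc)

end Crest.Agent.R204.Sph94
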