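import Crest.Agent.R204.GeoB_979
import Crest.Agent.R204.BarOf_170
import Crest.Agent.R204.PF_94
import Crest.Agent.R204.LoopId_872
import Crest.Agent.R204.HZ_76
import Crest.Agent.R204.Cov2_892
import Crest.Agent.R204.Coalg_847
import Crest.Agent.R204.Psi3_755
import Crest.Agent.R204.GeoC_979
import Crest.Agent.R204.PiC_808
import Crest.Agent.R204.XNe_194
import Crest.Agent.R204.Sph_94d
import Crest.Agent.R204.SigEval_343

-- ▼ part R204/OmSA_94
section

/-!
# Row 204, leaf B.S (helper94), general part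

* associativity of the Pontryagin product of a `PFib` from the simplicial identities,
* powers `pw x j`, the multiplicative family `phi1 x : (Unit →₀ ℕ) → H G`,
* the loop theorem for a base whose homology is that of a sphere: every class of positive degree of
  `H_* G` is a power of `x`.
-/

set_option autoImplicit false

noncomputable section

namespace Crest.Agent.R204.OmS94

open Crest.Agent.R204 Crest.Agent.R204.Bis343 Crest.Agent.R204.Bis343.BSS Crest.Agent.R204.Bar170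
  Crest.Agent.R204.Coalg847 Crest.Agent.R204.Bar334 Crest.Agent.R204.Geo979
open TensorProduct

variable (X : PFib) (hi : SpecA.HomotopyInv) (Z : EZData)

include hi in
theorem mulH_assoc (a b c : H F2 X.G) :
    X.mulH Z (X.mulH Z a b) c = X.mulH Z a (X.mulH Z b c) := by
  refine X.al_ptE_inj hi Z ?_
  have ff : ((cech X.π).colMap (Op.face (1 : Fin 3))).comp ((cech X.π).colMap (Op.face (2 : Fin 4))) =
      ((cech X.π).colMap (Op.face (1 : Fin 3))).comp ((cech X.π).colMap (Op.face (1 : Fin 4))) := by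
    rw [← BSS.colMap_comp, ← BSS.colMap_comp]
    rw [Ch.face_face (n := 1) 2 1 1 1 (by decide) rfl (by decide)]
  have h1 : ∀ y, X.fa 1 1 (X.fa 2 2 y) = X.fa 1 1 (X.fa 2 1 y) := fun y => by
    rw [PFib.fa, PFib.fa, PFib.fa, map_comp', map_comp', ff]
  have h2 := h1 (X.alL Z 2 a (X.alL Z 1 b (X.alL Z 0 c X.ptE)))
  have e2 : X.fa 2 2 (X.alL Z 2 a (X.alL Z 1 b (X.alL Z 0 c X.ptE))) =
      X.alL Z 1 a (X.alL Z 0 (X.mulH Z b c) X.ptE) := by
    have e : (2 : Fin 4) = Fin.succ (Fin.succ 0) := rfl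
    rw [PFib.alL_apply X Z 2 a, e, X.fa_succ_alpha Z 1 0 a]
    have e' : (Fin.succ 0 : Fin 3) = 1 := rfl
    rw [e', PFib.alL_apply X Z 1 b, PFib.alL_apply X Z 0 c, X.fa_one_alpha hi Z]
    rfl
  have e1 : X.fa 2 1 (X.alL Z 2 a (X.alL Z 1 b (X.alL Z 0 c X.ptE))) =
      X.alL Z 1 (X.mulH Z a b) (X.alL Z 0 c X.ptE) := by
    rw [PFib.alL_apply X Z 2 a, PFib.alL_apply X Z 1 b, X.fa_one_alpha hi Z]
    rfl
  rw [e2, e1] at h2
  have f : ∀ u v : H F2 X.G, X.fa 1 1 (X.alL Z 1 u (X.alL Z 0 v X.ptE)) =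
      X.alL Z 0 (X.mulH Z u v) X.ptE := fun u v => by
    rw [PFib.alL_apply X Z 1 u, PFib.alL_apply X Z 0 v, X.fa_one_alpha hi Z]
    rfl
  rw [f, f] at h2
  exact h2.symm

/-- powers of a class -/
def pw (x : H F2 X.G) : ℕ → H F2 X.G
  | 0 => vtx X.e
  | n + 1 => X.mulH Z x (pw x n)

@[simp] theorem pw_zero (x : H F2 X.G) : pw X Z x 0 = vtx X.e := rfl
theorem pw_succ (x : H F2 X.G) (n : ℕ) : pw X Z x (n + 1) = X.mulH Z x (pw X Z x n) := rfl

include hi in
theorem pw_one (x : H F2 X.G) : pw X Z x 1 = x := X.mulH_one_right hi Z x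

include hi in
theorem pw_add (x : H F2 X.G) (m n : ℕ) :
    X.mulH Z (pw X Z x m) (pw X Z x n) = pw X Z x (m + n) := by
  induction m with
  | zero => rw [pw_zero, Nat.zero_add]; exact X.mulH_one_left hi Z _
  | succ m ih => rw [pw_succ, mulH_assoc X hi Z, ih, Nat.succ_add, pw_succ]

theorem pw_mem {k : ℕ} {x : H F2 X.G} (hx : x ∈ H.gr F2 X.G k) (n : ℕ) :
    pw X Z x n ∈ H.gr F2 X.G (n * k) := by
  induction n with
  | zero => rw [pw_zero, Nat.zero_mul]; exact vtx_mem_gr _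
  | succ n ih =>
    rw [pw_succ, Nat.succ_mul, add_comm]
    exact hMap_mem_gr _ (Z.cr_mem_gr hx ih)

/-- the multiplicative family of powers -/
def phi1 (x : H F2 X.G) (m : Unit →₀ ℕ) : H F2 X.G := pw X Z x (m ())

theorem phi1_mem {k : ℕ} {x : H F2 X.G} (hx : x ∈ H.gr F2 X.G k) (m : Unit →₀ ℕ) :
    phi1 X Z x m ∈ H.gr F2 X.G (wt1 (fun _ : Unit => k) m) := by
  have : wt1 (fun _ : Unit => k) m = m () * k := by
    rw [wt1, Finsupp.sum_fintype _ _ (by simp)]
    simp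
  rw [this]
  exact pw_mem X Z hx _


/-! ### the theorem -/

section main
variable {X}
variable {k : ℕ} (hk : 1 ≤ k) {x : H F2 X.G} (hx : x ∈ H.gr F2 X.G k)
  {Ps : Finset Unit → H F2 X.K}
  {B : BarData (FCof (cech X.π)) (fun _ : Unit => k) (Koszul459.bd (ι := Unit))
    (Koszul459.asym (ι := Unit))}
  (O : BarOK X Z (phi1 X Z x) (fun _ : Unit => k) Ps B)
  (hK : ∀ t, 1 ≤ t → t ≠ k + 1 → H.gr F2 X.K t = ⊥)
  (hKk : H.gr F2 X.K (k + 1) ≤ Submodule.span F2 {Ps {()}})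
  (hne : Ps {()} ≠ 0)

include O hne in
theorem indepU (N : ℕ) : Indep (FCof (cech X.π)) B N := by
  rintro t ht c hc ⟨y, -, hy⟩
  have e : (c.sum fun i r => r • B.Psi {i}) = c () • B.Psi {()} := by
    rw [Finsupp.sum_fintype _ _ (by simp)]
    simp
  rw [e] at hy
  have h1 : evK X.π ⟨B.Psi {()}, B.Psi_d {()}⟩ = Ps {()} := O.Psi_ev _
  have h2 := evK_bd X.π ((c ()) • ⟨B.Psi {()}, B.Psi_d {()}⟩) ⟨y, hy⟩
  rw [map_smul, h1] at h2
  have h3 : c () = 0 := by
    by_contra h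
    exact hne ((smul_eq_zero.1 h2).resolve_left h)
  exact Finsupp.ext fun _ => h3

include O hK hKk in
theorem spanU (N : ℕ) : Span (FCof (cech X.π)) B N := by
  intro n hn1 hn z hz hdz
  have h0 := evK_gr X.π n ⟨z, hdz⟩ hz
  by_cases h : n = k + 1
  · subst h
    obtain ⟨r, hr⟩ := Submodule.mem_span_singleton.1 (hKk h0)
    have hP : B.Psi {()} ∈ (cech X.π).grT (k + 1) := by
      have := B.Psi_gr {()}
      have e : degS (fun _ : Unit => k) {()} = k + 1 := by
        rw [degS]; simp [add_comm]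
      rw [e] at this
      exact this
    obtain ⟨y, hy, hyd⟩ := evK_ker X.π X.onto (k + 1)
      (⟨z, hdz⟩ - r • ⟨B.Psi {()}, B.Psi_d {()}⟩) (Submodule.sub_mem _ hz (Submodule.smul_mem _ _ hP))
      (by rw [map_sub, map_smul, O.Psi_ev, hr, sub_self])
    refine ⟨Finsupp.single {()} r, ?_, y, hy, ?_⟩
    · intro S hS
      have := Finsupp.support_single_subset hS
      rw [Finset.mem_singleton] at this
      subst this
      rw [degS]; simp [add_comm]
    · rw [Finsupp.sum_single_index (by simp)]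
      have : z - r • B.Psi {()} = Tot.D _ y := hyd.symm
      have h2 : z = r • B.Psi {()} + (z - r • B.Psi {()}) := by abel
      rw [h2, this]
  · have h1 : evK X.π ⟨z, hdz⟩ = 0 := by
      rw [hK n hn1 h] at h0
      exact (Submodule.mem_bot _).1 h0
    obtain ⟨y, hy, hyd⟩ := evK_ker X.π X.onto n ⟨z, hdz⟩ hz h1
    refine ⟨0, by simp, y, hy, ?_⟩
    rw [Finsupp.sum_zero_index, zero_add]
    exact hyd.symm

/-- the word of one letter `x^j` -/
def w1 (j : ℕ) (hj : j ≠ 0) : NMon Unit :=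
  ⟨Finsupp.single () j, fun h => hj (by simpa using DFunLike.congr_fun h ())⟩

theorem nmon_unit (m : NMon Unit) : ∃ hj : m.1 () ≠ 0, m = w1 (m.1 ()) hj := by
  have hj : m.1 () ≠ 0 := fun h => m.2 (Finsupp.ext fun _ => h)
  refine ⟨hj, Subtype.ext (Finsupp.ext fun _ => ?_)⟩
  show m.1 () = Finsupp.single () (m.1 ()) ()
  rw [Finsupp.single_eq_same]

theorem wt_w1 (j : ℕ) (hj : j ≠ 0) : wt (fun _ : Unit => k) [w1 j hj] = j * k := by
  rw [wt, List.map_cons, List.map_nil, List.sum_cons, List.sum_nil, add_zero, wt1, w1]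
  simp

include hi hx hk O hK hKk hne in
/-- **every class of positive degree is a power of `x`** -/
theorem loop_sphere {t : ℕ} (ht : 1 ≤ t) {y : H F2 X.G} (hy : y ∈ H.gr F2 X.G t) :
    y = 0 ∨ ∃ j, j * k = t ∧ y = pw X Z x j := by
  have key := k2 (FCof (cech X.π)) Unit (fun _ => k) _ _ B (K1_459.k1 _) (t + 1)
    (indepU Z O hne (t + 1)) (spanU Z O hK hKk (t + 1)) t ht
  obtain ⟨θ, h1, h2⟩ := j1_lead X Z t hy
  obtain ⟨b, hb, hbW⟩ := key.2 (by omega) θ h1
  have hW : O.jE (j1 X Z y) = B.W b := by rw [← h2, ← O.lead_eq, hbW]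
  -- the support of `b`
  by_cases hdiv : ∃ j, j * k = t
  · obtain ⟨j, hj⟩ := hdiv
    have hj0 : j ≠ 0 := by rintro rfl; omega
    have hbs : b = Finsupp.single [w1 j hj0] (b [w1 j hj0]) := by
      refine Finsupp.ext fun w => ?_
      by_cases hw : w = [w1 j hj0]
      · subst hw; rw [Finsupp.single_eq_same]
      · rw [Finsupp.single_eq_of_ne hw]
        by_contra hne'
        have hmem := (Finsupp.mem_supported _ _).1 hb (Finsupp.mem_support_iff.2 hne')
        obtain ⟨hl, hwt⟩ := hmem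
        obtain ⟨m, rfl⟩ := List.length_eq_one_iff.1 hl
        obtain ⟨hm, e⟩ := nmon_unit m
        apply hw
        rw [e, wt_w1] at hwt
        have : m.1 () = j := Nat.eq_of_mul_eq_mul_right (by omega) (hwt.trans hj.symm)
        rw [e]
        simp only [this]
    have hc : b [w1 j hj0] = 0 ∨ b [w1 j hj0] = 1 := by
      generalize b [w1 j hj0] = c
      revert c; decide
    have hWc : B.W b = b [w1 j hj0] • O.jE (j1 X Z (pw X Z x j)) := by
      conv_lhs => rw [hbs]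
      have : Finsupp.single [w1 j hj0] (b [w1 j hj0]) = b [w1 j hj0] • Finsupp.single [w1 j hj0] (1 : F2) := by
        rw [Finsupp.smul_single, smul_eq_mul, mul_one]
      have e2 : phi1 X Z x (w1 j hj0).1 = pw X Z x j := by
        show pw X Z x (Finsupp.single () j ()) = _
        rw [Finsupp.single_eq_same]
      rw [this, map_smul, O.W_eq, e2]
    rw [hWc, ← map_smul, ← map_smul] at hW
    have h3 := O.jE_inj hW
    have h4 : y = b [w1 j hj0] • pw X Z x j := by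
      have h5 : y - b [w1 j hj0] • pw X Z x j ∈ H.gr F2 X.G t :=
        Submodule.sub_mem _ hy (Submodule.smul_mem _ _ (hj ▸ pw_mem X Z hx j))
      have h6 := j1_inj X hi Z ht h5 (by rw [map_sub, h3, sub_self])
      exact sub_eq_zero.1 h6
    rcases hc with hc | hc
    · left; rw [h4, hc, zero_smul]
    · right; exact ⟨j, hj, by rw [h4, hc, one_smul]⟩
  · left
    have hb0 : b = 0 := by
      refine Finsupp.ext fun w => ?_
      by_contra hne'
      have hmem := (Finsupp.mem_supported _ _).1 hb (Finsupp.mem_support_iff.2 hne')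
      obtain ⟨hl, hwt⟩ := hmem
      obtain ⟨m, rfl⟩ := List.length_eq_one_iff.1 hl
      obtain ⟨hm, e⟩ := nmon_unit m
      rw [e, wt_w1] at hwt
      exact hdiv ⟨_, hwt⟩
    rw [hb0, map_zero] at hW
    exact j1_inj X hi Z ht hy (O.jE_inj (by rw [hW, map_zero]))

include hk O hK hKk hne in
/-- the powers of `x` are nonzero -/
theorem pw_ne {j : ℕ} (hj : j ≠ 0) : pw X Z x j ≠ 0 := by
  intro h0
  have ht : 1 ≤ j * k := Nat.mul_pos (by omega) (by omega)
  have key := k2 (FCof (cech X.π)) Unit (fun _ => k) _ _ B (K1_459.k1 _) (j * k + 1)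
    (indepU Z O hne (j * k + 1)) (spanU Z O hK hKk (j * k + 1)) (j * k) ht
  have h1 := key.1 le_rfl (Finsupp.single [w1 j hj] 1) (by
    rw [Wd, Finsupp.mem_supported]
    intro w hw
    have := Finsupp.support_single_subset hw
    rw [Finset.mem_singleton] at this
    subst this
    exact ⟨rfl, wt_w1 j hj⟩) (by
    rw [O.W_eq]
    have : phi1 X Z x (w1 j hj).1 = pw X Z x j := by
      show pw X Z x (Finsupp.single () j ()) = _
      rw [Finsupp.single_eq_same]
    rw [this, h0, map_zero, map_zero])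
  exact one_ne_zero (Finsupp.single_eq_zero.1 h1)

end main

end Crest.Agent.R204.OmS94
end
end

-- ▼ part R204/OmSB_94
section

/-!
# Row 204, leaf B.S (helper94): topological facts about `pf b` for a simply connected base

* `G0 b` is path connected, `H_0 (Sing (G0 b)) = F2 [e]`,
* `simplyConnected_of` : `B` path connected with null homotopic loops at `b`,
* `grK_eq_bot` etc.: homology of `K = Bt b` is the homology of `B`.
-/

set_option autoImplicit false

noncomputable section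

open Set unitInterval Topology

namespace Crest.Agent.R204.OmS94

open Crest.Agent.R204 Crest.Agent.R204.SS Crest.Agent.R204.Cov892 Crest.Agent.R204.Bar170
open Crest.Agent.R204.PF872 Crest.Agent.R204.PF94

variable {B : Type} [TopologicalSpace B] {b : B}

/-- elements of `G0` are joined to the constant loop -/
theorem G0_joined (g : G0 b) : Joined g one := by
  obtain ⟨c, c0, c1⟩ := Ep755.G0.path (b0 := b) g
  exact ⟨⟨c, c0, c1⟩⟩

instance pathConnected_G0 : PathConnectedSpace (G0 b) :=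
  ⟨⟨one⟩, fun g h => (G0_joined g).trans (G0_joined h).symm⟩

/-- `H_0` of a path connected space -/
theorem gr_zero {Y : Type} [TopologicalSpace Y] [PathConnectedSpace Y] (y : Y) (x : H F2 (Sing Y))
    (hx : x ∈ H.gr F2 (Sing Y) 0) : ∃ r : F2, x = r • Coalg847.vtx (K := Sing Y) (HZ76.vtx y) := by
  obtain ⟨⟨z, hz⟩, hz', rfl⟩ := hx
  obtain ⟨w, -, hw⟩ := HZ76.exists_bd F2 y z hz'
  refine ⟨EZ271.aug F2 z, ?_⟩
  have e : EZ271.aug F2 z • Coalg847.vtx (K := Sing Y) (HZ76.vtx y) =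
      Hd.mk (N.bd F2 (Sing Y)) (EZ271.aug F2 z • N.sx F2 (HZ76.vtx y)) (by
        rw [map_smul, Gr334.bd_sx_zero, smul_zero]) := rfl
  rw [e]
  exact Hd.mk_eq_mk.2 ⟨w, hw⟩


/-! ## simply connected base -/


/-! ## homology of `Bt b` for a simply connected space -/

theorem prj_H_bijective [SimplyConnectedSpace B] (x : H F2 (Bt b)) :
    H.map F2 (prjInv (b := b)) (H.map F2 (prj b) x) = x := by
  rw [← Hmap_comp, prjInv_prj, Hmap_id]

theorem prj_H_inj [SimplyConnectedSpace B] {x : H F2 (Bt b)} (h : H.map F2 (prj b) x = 0) : x = 0 := by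
  rw [← prj_H_bijective x, h, map_zero]

theorem grK_eq_bot [SimplyConnectedSpace B] {t : ℕ} (h : H.gr F2 (Sing B) t = ⊥) :
    H.gr F2 (Bt b) t = ⊥ := by
  rw [eq_bot_iff]
  intro x hx
  have h1 := Gr334.H_map_mem_gr (prj b) hx
  rw [h, Submodule.mem_bot] at h1
  rw [Submodule.mem_bot]
  exact prj_H_inj h1

theorem grK_le_span [SimplyConnectedSpace B] {t : ℕ} {y : H F2 (Bt b)}
    (h : H.gr F2 (Sing B) t ≤ Submodule.span F2 {H.map F2 (prj b) y}) :
    H.gr F2 (Bt b) t ≤ Submodule.span F2 {y} := by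
  intro x hx
  obtain ⟨r, hr⟩ := Submodule.mem_span_singleton.1 (h (Gr334.H_map_mem_gr (prj b) hx))
  refine Submodule.mem_span_singleton.2 ⟨r, ?_⟩
  have : H.map F2 (prj b) (r • y - x) = 0 := by rw [map_sub, map_smul, hr, sub_self]
  exact sub_eq_zero.1 (prj_H_inj this)

end Crest.Agent.R204.OmS94
end
end

-- ▼ part R204/Psi4_755
section

/-!
# Row 204, block B (leaf P3, helper755): `BarData` of a path fibration with one generator, without any
product on the base: `Psi ∅` = the vertex, `Psi {x}` = the cycle of `x`.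
-/

set_option autoImplicit false

namespace Crest.Agent.R204.Psi755

open Crest.Agent.R204 Crest.Agent.R204.Bis343 Crest.Agent.R204.EZ271 Crest.Agent.R204.Bar170
open Crest.Agent.R204.Coalg847 Crest.Agent.R204.Bar334 Crest.Agent.R204.Ind979
open Finsupp BSS BSS.Tot EZ847 TensorProduct

section one

variable {X : PFib} (S : PSus X)
  (conn : ∀ x ∈ H.gr F2 X.G 0, ∃ r : F2, x = r • vtx X.e)
  (z : N F2 X.G) (hb : N.bd F2 X.G z = 0) {d : ℕ} (hd : 1 ≤ d) (hz : z ∈ N.gr F2 X.G d)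
  (φ : (Unit →₀ ℕ) → H F2 X.G) (hv : Hd.mk (N.bd F2 X.G) z hb = φ (Finsupp.single () 1))

/-- the cycles -/
noncomputable def Psi1 (T : Finset Unit) : (cech X.π).Tot := if () ∈ T then cyc S z else psi0 X

theorem unit_cases (T : Finset Unit) : (() ∈ T ∧ T = {()} ∧ T.card = 1) ∨ (() ∉ T ∧ T = ∅ ∧ T.card = 0) := by
  by_cases h : () ∈ T
  · have : T = {()} := by
      ext x
      simp [h]
    exact Or.inl ⟨h, this, by rw [this]; rfl⟩
  · have : T = ∅ := by
      ext x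
      simp [h]
    exact Or.inr ⟨h, this, by rw [this]; rfl⟩

include hb hd hz in
theorem D_Psi1 (T : Finset Unit) : D _ (Psi1 S z T) = 0 := by
  rw [Psi1]
  split_ifs
  · obtain ⟨e, rfl⟩ : ∃ e, d = e + 1 := ⟨d - 1, by omega⟩
    exact D_cyc S hz hb
  · exact D_psi0

theorem Psi1_F (T : Finset Unit) : Psi1 S z T ∈ (cech X.π).Fp T.card := by
  rcases unit_cases T with ⟨h, -, hc⟩ | ⟨h, -, hc⟩
  · rw [Psi1, if_pos h, hc]; exact cyc_F S z
  · rw [Psi1, if_neg h, hc]; exact psi0_F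

include hz in
theorem Psi1_gr (T : Finset Unit) : Psi1 S z T ∈ (cech X.π).grT (degS (fun _ => d) T) := by
  rcases unit_cases T with ⟨h, hT, hc⟩ | ⟨h, hT, hc⟩
  · rw [Psi1, if_pos h, degS, Finset.sum_const, hc, one_smul, add_comm]; exact cyc_gr S hz
  · rw [Psi1, if_neg h, degS, Finset.sum_const, hc, zero_smul]; exact psi0_gr

include hb hv in
theorem Psi1_lead (p : ℕ) (T : Finset Unit) (hT : T.card = p + 1)
    (h : Psi1 S z T ∈ (BSS.FCof (cech X.π)).Z (p + 1)) :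
    BSS.lead (cech X.π) (p + 1) ⟨Psi1 S z T, h⟩ =
      (X.barMod hI ezd conn).Wp φ (p + 1) (Koszul459.asym T) := by
  rcases unit_cases T with ⟨hm, hT', hc⟩ | ⟨hm, -, hc⟩
  swap
  · omega
  obtain rfl : p = 0 := by omega
  have e : Psi1 S z T = cyc S z := by rw [Psi1, if_pos hm]
  have hbz : N.bd F2 (X.E 1) (N.map F2 (beta1 S) z) = 0 := by rw [← EZ271.map_bd', hb, map_zero]
  have h1 : BSS.lead (cech X.π) 1 ⟨Psi1 S z T, h⟩ =
      Submodule.Quotient.mk (Hd.mk (N.bd F2 (X.E 1)) (N.map F2 (beta1 S) z) hbz) :=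
    BSS.lead_eq_of_sub _ _ hbz (by
      show Psi1 S z T - _ ∈ _
      rw [e]; exact cyc_sub S z)
  have h2 : Hd.mk (N.bd F2 (X.E 1)) (N.map F2 (beta1 S) z) hbz =
      X.br ezd 1 (fun _ => φ (Finsupp.single () 1)) := by
    rw [← hv, ← beta1_br S]
    rfl
  have h3 := E1_459.BarMod.Wp_single (X := X.barMod hI ezd conn) (φ := φ) 1 [Koszul459.lt ()] 1
  have h4 : Koszul459.asym T = Finsupp.single [Koszul459.lt ()] 1 := by
    rw [hT']; exact (K1_459.k1 (fun _ : Unit => 0)).asym_one ()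
  rw [h4]
  refine Eq.trans ?_ h3.symm
  refine h1.trans ?_
  rw [one_smul]
  exact congrArg Submodule.Quotient.mk h2

/-- **`BarData`** with one generator -/
noncomputable def barData1 (h0 : φ 0 = vtx X.e) (hadd : ∀ a b, X.mulH ezd (φ a) (φ b) = φ (a + b))
    (hgr : ∀ m, φ m ∈ H.gr F2 X.G (wt1 (fun _ => d) m)) :
    BarData (BSS.FCof (cech X.π)) (fun _ : Unit => d) (Koszul459.bd (ι := Unit))
      (Koszul459.asym (ι := Unit)) :=
  X.barData hI ezd conn (fun _ => d) φ (fun _ => hd)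
    (X.mult_of hI ezd conn (fun _ => d) (fun _ => hd) h0 hadd hgr) hgr
    (Psi1 S z) (D_Psi1 S z hb hd hz) (Psi1_F S z) (Psi1_gr S z hz) (Psi1_lead S conn z hb φ hv)

/-- values of `Psi` in the homology of the base -/
noncomputable def Ps1 (v : H F2 X.G) (T : Finset Unit) : H F2 X.K :=
  if () ∈ T then sus S v else vtx (X.π.app 0 X.p0)

noncomputable def barOK1 (h0 : φ 0 = vtx X.e) (hadd : ∀ a b, X.mulH ezd (φ a) (φ b) = φ (a + b))
    (hgr : ∀ m, φ m ∈ H.gr F2 X.G (wt1 (fun _ => d) m)) :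
    Geo979.BarOK X ezd φ (fun _ : Unit => d) (Ps1 S (Hd.mk (N.bd F2 X.G) z hb))
      (barData1 S conn z hb hd hz φ hv h0 hadd hgr) where
  jE := (X.barMod hI ezd conn).inc 1
  jE_inj := (X.barMod hI ezd conn).inc_injective 1
  lead_eq θ := rfl
  W_eq m := by
    have hw : ∀ w ∈ (Finsupp.single [m] (1 : F2)).support, w.length = 1 := fun w hw => by
      have := Finsupp.support_single_subset hw
      rw [Finset.mem_singleton] at this
      rw [this]; rfl
    refine ((X.barMod hI ezd conn).W_eq φ hw).trans ?_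
    refine congrArg ((X.barMod hI ezd conn).inc 1) ?_
    have h3 := E1_459.BarMod.Wp_single (X := X.barMod hI ezd conn) (φ := φ) 1 [m] 1
    refine h3.trans ?_
    rw [one_smul, Geo979.j1_apply]
    rfl
  Psi_ev T := by
    rw [Geo979.evK_mk]
    rcases unit_cases T with ⟨hm, -, -⟩ | ⟨hm, -, -⟩
    · rw [Ps1, if_pos hm]
      have e : Cech.aug X.π (Psi1 S z T) = Sigma88.sgN (susE S) z := by
        rw [Psi1, if_pos hm, aug_cyc]
      exact BSS.Hd_mk_congr e _ _
    · rw [Ps1, if_neg hm]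
      have e : Cech.aug X.π (Psi1 S z T) = N.sx F2 (X.π.app 0 X.p0) := by
        rw [Psi1, if_neg hm, aug_psi0]
      exact BSS.Hd_mk_congr e _ _

end one

end Crest.Agent.R204.Psi755
end

-- ▼ part R204/OmSC_94
section

/-!
# Row 204, leaf B.S (helper94): the homology algebra of `Ω S^(k+1)`, `k ≥ 1`

`Om (Fin 1) (Sph (k+1)) (pt (k+1))` with the product `mulS (halves 0)`:
every class of positive degree is `0` or a power of the unique nonzero class `x` of degree `k`, and all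
powers of `x` are nonzero.
-/

set_option autoImplicit false

noncomputable section

namespace Crest.Agent.R204.OmS94

open Crest.Agent.R204 Crest.Agent.R204.SS Crest.Agent.R204.Bis343 Crest.Agent.R204.Bar170
  Crest.Agent.R204.Coalg847 Crest.Agent.R204.PF872 Crest.Agent.R204.Cov892 Crest.Agent.R204.Geo979
open Crest.Agent.R204.HspSS696 (Om mulS eS)
open Crest.Agent.R204.Freu297 (Sph pt)
open TensorProduct unitInterval

/-! ### path fibration with one generator -/

section one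
variable {X : PFib} (S : PSus X)
  (conn : ∀ x ∈ H.gr F2 X.G 0, ∃ r : F2, x = r • Coalg847.vtx X.e)
  {k : ℕ} (hk : 1 ≤ k) {x : H F2 X.G} (hx : x ∈ H.gr F2 X.G k)
  (hK : ∀ t, 1 ≤ t → t ≠ k + 1 → H.gr F2 X.K t = ⊥)
  (hKk : H.gr F2 X.K (k + 1) ≤ Submodule.span F2 {Psi755.sus S x})
  (hne : Psi755.sus S x ≠ 0)

include S conn hk hx hK hKk hne in
theorem pfib_sphere : (∀ t, 1 ≤ t → ∀ y ∈ H.gr F2 X.G t,
    y = 0 ∨ ∃ j, j * k = t ∧ y = pw X EZ847.ezd x j) ∧ ∀ j, j ≠ 0 → pw X EZ847.ezd x j ≠ 0 := by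
  obtain ⟨z, hz, hb, rfl⟩ := Gr334.mem_H_gr.1 hx
  have hi := HtpInv334.homotopyInv
  have hv : Hd.mk (N.bd F2 X.G) z hb = phi1 X EZ847.ezd (Hd.mk (N.bd F2 X.G) z hb)
      (Finsupp.single () 1) := by
    show _ = pw X EZ847.ezd _ (Finsupp.single () 1 ())
    rw [Finsupp.single_eq_same, pw_one X hi]
  have O := Psi755.barOK1 S conn z hb hk hz (phi1 X EZ847.ezd (Hd.mk (N.bd F2 X.G) z hb)) hv rfl
    (fun a b => pw_add X hi EZ847.ezd _ _ _) (fun m => phi1_mem X EZ847.ezd hx m)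
  have hP : Psi755.Ps1 S (Hd.mk (N.bd F2 X.G) z hb) {()} = Psi755.sus S (Hd.mk (N.bd F2 X.G) z hb) := by
    rw [Psi755.Ps1, if_pos (by simp)]
  have hKk' : H.gr F2 X.K (k + 1) ≤
      Submodule.span F2 {Psi755.Ps1 S (Hd.mk (N.bd F2 X.G) z hb) {()}} := by rw [hP]; exact hKk
  have hne' : Psi755.Ps1 S (Hd.mk (N.bd F2 X.G) z hb) {()} ≠ 0 := by rw [hP]; exact hne
  exact ⟨fun t ht y hy => loop_sphere hi EZ847.ezd hk hx O hK hKk' hne' ht hy,
    fun j hj => pw_ne EZ847.ezd hk O hK hKk' hne' hj⟩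

end one

theorem f2_cases (c : F2) : c = 0 ∨ c = 1 := by revert c; decide

/-! ### `Ω S^(k+1)` -/

section sphere
variable {k : ℕ} (hk : 1 ≤ k)

/-- `Ω^1 S^(k+1)` -/
abbrev OS (k : ℕ) : Type := Om (Fin (0 + 1)) (Sph (k + 1)) (pt (k + 1))

theorem joined0 (x : Om (Fin 0) (Sph (k + 1)) (pt (k + 1))) : Joined x GenLoop.const :=
  Pi808.joined_const (m := k + 1) (by omega) 0 x

include hk in
theorem joined1 (x : OS k) : Joined x GenLoop.const := Pi808.joined_const (m := k) hk 1 x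

/-- homeomorphism `Ω^0 S ≃ S` -/
def e0S (k : ℕ) : Om (Fin 0) (Sph (k + 1)) (pt (k + 1)) ≃ₜ Sph (k + 1) :=
  genLoopHomeoOfIsEmpty (Fin 0) (pt (k + 1))

theorem eS_inj {a b : H F2 (Sing (Om (Fin 0) (Sph (k + 1)) (pt (k + 1))))}
    (h : H.map F2 (SingMap (hc (e0S k))) a = H.map F2 (SingMap (hc (e0S k))) b) : a = b := by
  have h2 := congrArg (H.map F2 (SingMap (hc (e0S k).symm))) h
  rwa [← hMap_comp, ← hMap_comp, singMap_homeo, hMap_id, hMap_id] at h2

theorem gr_OS0 {t : ℕ} (h1 : t ≠ 0) (h2 : t ≠ k + 1) :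
    H.gr F2 (Sing (Om (Fin 0) (Sph (k + 1)) (pt (k + 1)))) t = ⊥ := by
  obtain ⟨s, -, -, hs⟩ := Sph94.spheres k (pt (k + 1))
  rw [eq_bot_iff]
  intro x hx
  have h3 := hMap_mem_gr (SingMap (hc (e0S k))) hx
  have h4 : H.gr F2 (Sing (Sph (k + 1))) t = ⊥ := hs t h1 h2
  rw [h4, Submodule.mem_bot] at h3
  rw [Submodule.mem_bot]
  exact eS_inj (by rw [h3, map_zero])

theorem bd_sx_of_faces {Y : Type} [TopologicalSpace Y] {n : ℕ} (hn : 1 ≤ n) (y : Y)
    (s : (Sing Y).S (n + 1)) (hs : ∀ i, (Sing Y).act (Op.face i) s = SpecA.cst y n) :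
    N.bd F2 (Sing Y) (N.sx F2 s) = 0 := by
  rw [Gr334.bd_sx_succ]
  refine Finset.sum_eq_zero fun i _ => ?_
  have h : N.sx F2 ((Sing Y).act (⟨fun _ => 0, fun _ _ _ => le_rfl⟩ : Op n 0) (SpecA.cst y 0)) = 0 :=
    Gr334.sx_act_of_lt (by omega) _ _
  rw [hs i]
  have e : (Sing Y).act (⟨fun _ => 0, fun _ _ _ => le_rfl⟩ : Op n 0) (SpecA.cst y 0) = SpecA.cst y n := rfl
  rw [e] at h
  rw [h, smul_zero]

theorem gr_OS0_top (hk : 1 ≤ k) {w : H F2 (Sing (Om (Fin 0) (Sph (k + 1)) (pt (k + 1))))}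
    (hw : w ∈ H.gr F2 _ (k + 1)) (hw0 : w ≠ 0) :
    H.gr F2 (Sing (Om (Fin 0) (Sph (k + 1)) (pt (k + 1)))) (k + 1) ≤ Submodule.span F2 {w} := by
  obtain ⟨s, hs, hs2, -⟩ := Sph94.spheres k (pt (k + 1))
  have hz : N.bd F2 (Sing (Sph (k + 1))) (N.sx F2 s) = 0 := bd_sx_of_faces hk _ s hs
  have h4 : H.gr F2 (Sing (Sph (k + 1))) (k + 1) = Submodule.span F2 {Hd.mk _ (N.sx F2 s) hz} :=
    (hs2 hz).2
  have key : ∀ u ∈ H.gr F2 (Sing (Om (Fin 0) (Sph (k + 1)) (pt (k + 1)))) (k + 1), u = 0 ∨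
      H.map F2 (SingMap (hc (e0S k))) u = Hd.mk _ (N.sx F2 s) hz := by
    intro u hu
    have h5 := hMap_mem_gr (SingMap (hc (e0S k))) hu
    rw [h4] at h5
    obtain ⟨c, hc⟩ := Submodule.mem_span_singleton.1 h5
    have hc' : c = 0 ∨ c = 1 := f2_cases c
    rcases hc' with rfl | rfl
    · left
      rw [zero_smul] at hc
      exact eS_inj (by rw [← hc, map_zero])
    · right
      rw [← hc, one_smul]
  intro u hu
  rcases key u hu with rfl | h
  · exact Submodule.zero_mem _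
  · rcases key w hw with h' | h'
    · exact absurd h' hw0
    · have : u = w := eS_inj (h.trans h'.symm)
      rw [this]; exact Submodule.mem_span_singleton_self _

/-- the Pontryagin product of `Ω S^(k+1)` -/
def mO (x y : H F2 (Sing (OS k))) : H F2 (Sing (OS k)) :=
  H.map F2 (mulS (Hsp696.halves (Fin.last 0))) (EZ847.ezd.cr _ _ (x ⊗ₜ y))

/-- powers -/
def pO (x : H F2 (Sing (OS k))) : ℕ → H F2 (Sing (OS k))
  | 0 => Coalg847.vtx (eS (J := Fin (0 + 1)) (Z := Sph (k + 1)) (z₀ := pt (k + 1)))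
  | n + 1 => mO x (pO x n)

theorem pO_zero (x : H F2 (Sing (OS k))) :
    pO x 0 = Coalg847.vtx (eS (J := Fin (0 + 1)) (Z := Sph (k + 1)) (z₀ := pt (k + 1))) := rfl

theorem pO_succ (x : H F2 (Sing (OS k))) (n : ℕ) : pO x (n + 1) = mO x (pO x n) := rfl

theorem gG_pO (h1 : ∀ x : OS k, Joined x GenLoop.const) (x : H F2 (Sing (OS k))) (j : ℕ) :
    gG h1 (pO x j) = pw (PF94.pf (bo (Sph (k + 1)) (pt (k + 1)) 0)) EZ847.ezd (gG h1 x) j := by
  induction j with
  | zero => exact (congrArg (gG h1) (pO_zero x)).trans ((gG_one h1).trans (pw_zero _ _ _).symm)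
  | succ j ih =>
    exact (congrArg (gG h1) (pO_succ x j)).trans ((gG_mul h1 EZ847.ezd x (pO x j)).trans
      ((congrArg ((PF94.pf (bo (Sph (k + 1)) (pt (k + 1)) 0)).mulH EZ847.ezd (gG h1 x)) ih).trans
        (pw_succ _ _ _ _).symm))

section
variable (h1 : ∀ x : OS k, Joined x GenLoop.const)
  (hsig : ∀ x : H F2 (Sing (OS k)), H.map F2 (prj (bo (Sph (k + 1)) (pt (k + 1)) 0))
    (Psi755.sus (PF94.psus (bo (Sph (k + 1)) (pt (k + 1)) 0)) (gG h1 x)) =
      (Sus330.genLoop 0).sigma x)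

include hk hsig in
/-- **`H_*(Ω S^(k+1)) = F2[x]`** -/
theorem omS_main {x : H F2 (Sing (OS k))} (hx : x ∈ H.gr F2 _ k)
    (hx0 : (Sus330.genLoop 0).sigma x ≠ 0) :
    (∀ t, 1 ≤ t → ∀ y ∈ H.gr F2 (Sing (OS k)) t, y = 0 ∨ ∃ j, j * k = t ∧ y = pO x j) ∧
      ∀ j, j ≠ 0 → pO x j ≠ 0 := by
  have hsc : SimplyConnectedSpace (Om (Fin 0) (Sph (k + 1)) (pt (k + 1))) := simplyConn joined0 h1
  have hgx : gG h1 x ∈ H.gr F2 (PF94.pf (bo (Sph (k + 1)) (pt (k + 1)) 0)).G k := gG_gr h1 hx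
  have hw : H.map F2 (prj (bo (Sph (k + 1)) (pt (k + 1)) 0))
      (Psi755.sus (PF94.psus (bo (Sph (k + 1)) (pt (k + 1)) 0)) (gG h1 x)) ∈ H.gr F2 _ (k + 1) :=
    hMap_mem_gr _ (Sigma88.sgH_mem_gr _ hgx)
  have hw0 : H.map F2 (prj (bo (Sph (k + 1)) (pt (k + 1)) 0))
      (Psi755.sus (PF94.psus (bo (Sph (k + 1)) (pt (k + 1)) 0)) (gG h1 x)) ≠ 0 := by
    rw [hsig]; exact hx0
  have hK : ∀ t, 1 ≤ t → t ≠ k + 1 →
      H.gr F2 (PF94.pf (bo (Sph (k + 1)) (pt (k + 1)) 0)).K t = ⊥ := fun t ht ht' =>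
    grK_eq_bot (gr_OS0 (by omega) ht')
  have hKk : H.gr F2 (PF94.pf (bo (Sph (k + 1)) (pt (k + 1)) 0)).K (k + 1) ≤
      Submodule.span F2 {Psi755.sus (PF94.psus (bo (Sph (k + 1)) (pt (k + 1)) 0)) (gG h1 x)} :=
    grK_le_span (gr_OS0_top hk hw hw0)
  have hne : Psi755.sus (PF94.psus (bo (Sph (k + 1)) (pt (k + 1)) 0)) (gG h1 x) ≠ 0 := fun h =>
    hw0 ((congrArg (H.map F2 (prj (bo (Sph (k + 1)) (pt (k + 1)) 0))) h).trans (LinearMap.map_zero _))
  obtain ⟨A, C⟩ := pfib_sphere (PF94.psus (bo (Sph (k + 1)) (pt (k + 1)) 0)) (conn_G h1) hk hgx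
    hK hKk hne
  refine ⟨fun t ht y hy => ?_, fun j hj h => ?_⟩
  · rcases A t ht (gG h1 y) (gG_gr h1 hy) with h | ⟨j, hj, h⟩
    · left; exact gG_inj h1 (h.trans (LinearMap.map_zero _).symm)
    · right
      exact ⟨j, hj, gG_inj h1 (h.trans (gG_pO h1 x j).symm)⟩
  · exact C j hj ((gG_pO h1 x j).symm.trans ((congrArg (gG h1) h).trans (LinearMap.map_zero _)))

end

end sphere

end Crest.Agent.R204.OmS94
end
end

-- ▼ part R204/OmS_94

/-!
# Row 204, leaf B.S (helper94): `H_*(Ω S^(k+1); F2) = F2[x]`, final form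
-/

set_option autoImplicit false

noncomputable section

namespace Crest.Agent.R204.OmS94

open Crest.Agent.R204 Crest.Agent.R204.SS Crest.Agent.R204.Bis343 Crest.Agent.R204.Bar170
  Crest.Agent.R204.Coalg847 Crest.Agent.R204.PF872 Crest.Agent.R204.Cov892 Crest.Agent.R204.Geo979
open Crest.Agent.R204.HspSS696 (Om mulS eS)
open Crest.Agent.R204.Freu297 (Sph pt)
open TensorProduct unitInterval

/-- `IsX` classes exist -/
theorem exists_IsX (n : ℕ) : ∀ k j, k + j = n →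
    ∃ x : H F2 (Sing (Om (Fin j) (Sph n) (pt n))), Inst194.IsX n k j x
  | 0, j, h => by
    obtain rfl : j = n := by omega
    exact ⟨_, Inst194.IsX.zero⟩
  | k + 1, j, h => by
    obtain ⟨x, hx⟩ := exists_IsX n k (j + 1) (by omega)
    exact ⟨_, hx.succ⟩

theorem IsX_mem {n k j : ℕ} {x : H F2 (Sing (Om (Fin j) (Sph n) (pt n)))} (h : Inst194.IsX n k j x) :
    x ∈ H.gr F2 (Sing (Om (Fin j) (Sph n) (pt n))) k := by
  obtain ⟨a, hz, -, rfl⟩ := h.exists_simplex
  exact Gr334.mk_mem_gr (Gr334.sx_mem_gr a) hz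

variable {k : ℕ}

/-- there is a class of degree `k` with nonzero suspension -/
theorem exists_gen (k : ℕ) : ∃ x ∈ H.gr F2 (Sing (OS k)) k, (Sus330.genLoop 0).sigma x ≠ 0 := by
  obtain ⟨x, hx⟩ := exists_IsX (k + 1) k (0 + 1) rfl
  exact ⟨x, IsX_mem hx, hx.succ.ne_zero (by omega)⟩

/-- the suspension of the path fibration is evaluation of loops (from helper343's `SigEval`) -/
theorem sigOK (h1 : ∀ x : OS k, Joined x GenLoop.const) (x : H F2 (Sing (OS k))) :
    H.map F2 (prj (bo (Sph (k + 1)) (pt (k + 1)) 0))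
      (Psi755.sus (PF94.psus (bo (Sph (k + 1)) (pt (k + 1)) 0)) (gG h1 x)) =
        (Sus330.genLoop 0).sigma x := by
  obtain ⟨z, hz, rfl⟩ := Hd.mk_surj _ x
  exact SigEval343.mk_congr (SigEval343.prj_sgN_toG' h1 z) _ _

variable (hk : 1 ≤ k)

include hk in
/-- the nonzero class of degree `k` is unique -/
theorem uniq {x y : H F2 (Sing (OS k))} (hx : x ∈ H.gr F2 _ k) (hx0 : x ≠ 0)
    (hy : y ∈ H.gr F2 (Sing (OS k)) k) : y = 0 ∨ y = x := by
  obtain ⟨x0, h0, h00⟩ := exists_gen k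
  obtain ⟨A, -⟩ := omS_main hk (joined1 hk) (sigOK (joined1 hk)) h0 h00
  have key : ∀ z ∈ H.gr F2 (Sing (OS k)) k, z = 0 ∨ z = pO x0 1 := by
    intro z hz
    rcases A k hk z hz with h | ⟨j, hj, h⟩
    · exact Or.inl h
    · have : j = 1 := Nat.eq_of_mul_eq_mul_right (by omega) (hj.trans (one_mul k).symm)
      subst this
      exact Or.inr h
  rcases key x hx with h | h
  · exact absurd h hx0
  · rcases key y hy with h' | h'
    · exact Or.inl h'
    · exact Or.inr (h'.trans h.symm)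

include hk in
theorem sigma_ne {x : H F2 (Sing (OS k))} (hx : x ∈ H.gr F2 _ k) (hx0 : x ≠ 0) :
    (Sus330.genLoop 0).sigma x ≠ 0 := by
  obtain ⟨x0, h0, h00⟩ := exists_gen k
  rcases uniq hk hx hx0 h0 with h | h
  · exact absurd (by rw [h]; exact LinearMap.map_zero _) h00
  · rwa [h] at h00

include hk in
/-- **`H_*(Ω S^(k+1)) = F2[x]`, `x` = the nonzero class of degree `k`** -/
theorem omS {x : H F2 (Sing (OS k))} (hx : x ∈ H.gr F2 _ k) (hx0 : x ≠ 0) :
    (∀ t, 1 ≤ t → ∀ y ∈ H.gr F2 (Sing (OS k)) t, y = 0 ∨ ∃ j, j * k = t ∧ y = pO x j) ∧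
      ∀ j, j ≠ 0 → pO x j ≠ 0 :=
  omS_main hk (joined1 hk) (sigOK (joined1 hk)) hx (sigma_ne hk hx hx0)

theorem mO_one (hk : 1 ≤ k) (x : H F2 (Sing (OS k))) :
    mO x (Coalg847.vtx (eS (J := Fin (0 + 1)) (Z := Sph (k + 1)) (z₀ := pt (k + 1)))) = x := by
  have h1 := joined1 hk
  refine gG_inj h1 ?_
  refine (gG_mul h1 EZ847.ezd x _).trans ?_
  refine (congrArg ((PF94.pf (bo (Sph (k + 1)) (pt (k + 1)) 0)).mulH EZ847.ezd (gG h1 x)) (gG_one h1)).trans ?_
  exact (PF94.pf (bo (Sph (k + 1)) (pt (k + 1)) 0)).mulH_one_right HtpInv334.homotopyInv EZ847.ezd _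

theorem pO_one (hk : 1 ≤ k) (x : H F2 (Sing (OS k))) : pO x 1 = x := mO_one hk x

theorem pO_two (hk : 1 ≤ k) (x : H F2 (Sing (OS k))) : pO x 2 = mO x x := by
  have := pO_one hk x
  exact congrArg (mO x) this

include hk in
/-- `H_{2k}(Ω S^(k+1)) = {0, x²}` -/
theorem omS_sq {x : H F2 (Sing (OS k))} (hx : x ∈ H.gr F2 _ k) (hx0 : x ≠ 0)
    {y : H F2 (Sing (OS k))} (hy : y ∈ H.gr F2 _ (2 * k)) : y = 0 ∨ y = mO x x := by
  rcases (omS hk hx hx0).1 (2 * k) (by omega) y hy with h | ⟨j, hj, h⟩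
  · exact Or.inl h
  · have : j = 2 := Nat.eq_of_mul_eq_mul_right (by omega) hj
    subst this
    exact Or.inr (h.trans (pO_two hk x))


end Crest.Agent.R204.OmS94
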