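import Crest.Agent.R204.Hopf4b_450
import Crest.Agent.R204.HspSS_696
import Crest.Agent.R204.Ops_265
import Crest.Agent.R204.EZInst_847

/-!
# Row 204, A4p (helper450): the instance `Sing (Ω^J Z)` and the comparison with `Ops265.mulH`

* `omMon c : HMon (Sing (Om J Z z₀))` for `J` nontrivial, `c : BoxConf (Fin 2) J`, product `mulS c`,
  unit vertex `eS`; in homology independent of `c` (`omMon_mulL_eq`);
* the laws `UnitL / UnitR / Assoc / Comm` of `omAlg k (mulS c)`;
* `mulL_eq_mulH`.
-/

set_option autoImplicit false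

open scoped Topology unitInterval Topology.Homotopy

noncomputable section

namespace Crest.Agent.R204.Hopf450

open Crest.Agent.R204 SS SingAct265 Cubes735 Hsp696 HspSS696 ThAlg265 TensorProduct Coalg847

/-! ## comparison of products -/






/-! ## the instance -/

section om

variable {J : Type} [Finite J] {Z : Type} [TopologicalSpace Z] {z₀ : Z} {M : ℕ}





variable [Nontrivial J]

/-- **the H-monoid `Sing (Ω^J Z)`** -/
def omMon (c : BoxConf (Fin 2) J) : HMon (Sing (HspSS696.Om J Z z₀)) :=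
  HMon.ofSH (mulS c) eS (SH.of' (mulS_unit_left c)) (SH.of' (mulS_unit_right c))
    (SH.of' (mulS_assoc c)) (SH.of' (mulS_comm c))

@[simp] theorem omMon_mu (c : BoxConf (Fin 2) J) :
    (omMon c : HMon (Sing (HspSS696.Om J Z z₀))).mu = mulS c := rfl

@[simp] theorem omMon_e (c : BoxConf (Fin 2) J) :
    (omMon c : HMon (Sing (HspSS696.Om J Z z₀))).e = eS := rfl


/-- in homology the product does not depend on the configuration -/
theorem omMon_map_mu (c d : BoxConf (Fin 2) J) :
    H.map F2 (omMon c : HMon (Sing (HspSS696.Om J Z z₀))).mu = H.map F2 (omMon d).mu :=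
  (SH.of' (mulS_htpy' c d)).map_eq HtpInv334.homotopyInv F2


/-- inverses: `x ↦ x⁻¹` on `Sing (Ω^J Z)` -/
theorem omMon_inv_right [DecidableEq J] (i : J) (c : BoxConf (Fin 2) J) :
    H.map F2 ((omMon c : HMon (Sing (HspSS696.Om J Z z₀))).mu.comp
      (SS.pair (Hom.id _) (invS i))) = H.map F2 (constHom _ _ eS) := by
  have h1 : H.map F2 ((mulS (halves i)).comp (SS.pair (Hom.id (Sing (HspSS696.Om J Z z₀))) (invS i))) =
      H.map F2 (constHom _ _ eS) := (SH.of' (mulS_inv_right i)).map_eq HtpInv334.homotopyInv F2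
  rw [← h1]
  exact map_comp_congr (omMon_map_mu c (halves i)) _


/-- `[x] [x⁻¹] = 1` for a point `x` -/
theorem omMon_vtx_inv [DecidableEq J] (E : EZData) (i : J) (c : BoxConf (Fin 2) J)
    (v : (Sing (HspSS696.Om J Z z₀)).S 0) :
    (omMon c).mulL E (vtx v) (vtx ((invS i).app 0 v)) = vtx eS := by
  rw [HMon.mulL_vtx_vtx, ← hMap_vtx (K := (Sing (HspSS696.Om J Z z₀)).prod
    (Sing (HspSS696.Om J Z z₀))) (omMon c).mu (v, (invS i).app 0 v)]
  have h1 : (vtx (K := (Sing (HspSS696.Om J Z z₀)).prod (Sing (HspSS696.Om J Z z₀)))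
      (v, (invS i).app 0 v)) = H.map F2 (SS.pair (Hom.id _) (invS i)) (vtx v) := by
    rw [hMap_vtx]; rfl
  rw [h1, ← hMap_comp, omMon_inv_right i c, hMap_vtx]
  rfl


end om

end Crest.Agent.R204.Hopf450
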