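import Crest.Agent.R204.StageOm_114
import Crest.Agent.R204.InstSig_194
import Crest.Agent.R204.Hopf4i_450

-- ▼ part R204/FXT_76
section

/-!
# Row 204, FactX (helper76): `FactX` from `FactSq`, `FactSigma` and vertex facts; vertex facts of the
stages of 114.
-/

set_option autoImplicit false

noncomputable section

namespace Crest.Agent.R204.FXT76

open Spec114 Stage114 TensorProduct Hopf450 Coalg847 EZ847 ThAlg265 SS Cubes735
open scoped TensorProduct

/-- `FactX` from the vertex facts at `k = 0` -/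
theorem factX_of (X : Tower) (D : ℕ) (hSq : X.FactSq D) (hσ : X.FactSigma D)
    (h0 : X.x 0 ∈ X.gr 0 0) (hΔ : X.Δ 0 (X.x 0) = X.x 0 ⊗ₜ[F2] X.x 0) (hi : X.xinv ∈ X.gr 0 0)
    (hΔi : X.Δ 0 X.xinv = X.xinv ⊗ₜ[F2] X.xinv) (hmul : X.x 0 * X.xinv = 1) : X.FactX D := by
  refine ⟨?_, ?_, hΔ, hi, hΔi, hmul⟩
  · intro k hk
    induction k with
    | zero =>
      refine ⟨h0, fun a ha => ?_⟩
      exact (hSq 0 hk).2.2.1 a 0 _ h0 (by omega)
    | succ k ih =>
      obtain ⟨h1, h2⟩ := ih (by omega)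
      have hs := hσ k (by omega)
      rw [← hs.2.2.2.2.2.2]
      refine ⟨hs.1 k _ h1, fun a ha => ?_⟩
      rw [← hs.2.2.2.1, h2 a ha, map_zero]
  · intro k hk1 hk
    obtain ⟨k, rfl⟩ : ∃ m, k = m + 1 := ⟨k - 1, by omega⟩
    have hs := hσ k (by omega)
    rw [← hs.2.2.2.2.2.2]
    exact hs.2.1 _

section stage

variable {M : ℕ} {K : SS} (A : ThAlg M K) (P : HMon K)
  (Sq : ℕ → (Crest.Agent.R204.H F2 K →ₗ[F2] Crest.Agent.R204.H F2 K))



end stage

section om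

variable {J Z : Type} [Finite J] [Nontrivial J] [DecidableEq J] [TopologicalSpace Z] {z₀ : Z} {M : ℕ}


end om

end Crest.Agent.R204.FXT76
end
end

-- ▼ part R204/InstX_194

/-!
# Row 204 (helper194): `FactX` for the concrete tower
-/

set_option autoImplicit false
set_option linter.style.haveILetI false

noncomputable section

namespace Crest.Agent.R204.Inst194

open scoped _root_.Topology _root_.Topology.Homotopy TensorProduct
open Crest.Agent.R204 Crest.Agent.R204.Freu297 Crest.Agent.R204.Sus330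
open Crest.Agent.R204.HspSS696 (mulS eS ptS invS)
open Crest.Agent.R204.Hsp696 (halves)
open Crest.Agent.R204.Hopf450 (HMon)
open Crest.Agent.R204.Coalg847 (vtx eps)

section

variable {Z : Type} [TopologicalSpace Z] {z₀ : Z} {M a : ℕ}

theorem hmonA_vtx_inv (hM : 1 ≤ M) (ha : M + 1 ≤ a) (v : Ω^ (Fin a) Z z₀) :
    (hmonA hM ha).mulL EE (vtx (ptS v : (SS.Sing (Ω^ (Fin a) Z z₀)).S 0))
      (vtx (ptS (GenLoop.symmAt (i0 ha) v) : (SS.Sing (Ω^ (Fin a) Z z₀)).S 0)) = vtx eS := by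
  haveI : Nontrivial (Fin a) := Fin.nontrivial_iff_two_le.2 (two_le hM ha)
  have h := Hopf450.omMon_vtx_inv (z₀ := z₀) EE (i0 ha) (halves (i0 ha)) (ptS v)
  exact h

end

namespace Par

variable (p : Par) {D : ℕ}

theorem x0_gr : p.tower.x 0 ∈ p.tower.gr 0 0 := Coalg847.vtx_mem_gr _

theorem xinv_gr : p.tower.xinv ∈ p.tower.gr 0 0 := Coalg847.vtx_mem_gr _

theorem x0_cop : p.tower.Δ 0 (p.tower.x 0) = p.tower.x 0 ⊗ₜ[F2] p.tower.x 0 := by
  show EE.cop _ (p.x 0) = p.x 0 ⊗ₜ[F2] p.x 0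
  exact EE.cop_vtx _

theorem xinv_cop : p.tower.Δ 0 p.tower.xinv = p.tower.xinv ⊗ₜ[F2] p.tower.xinv := by
  show EE.cop _ p.xinv = p.xinv ⊗ₜ[F2] p.xinv
  exact EE.cop_vtx _

theorem x0_xinv : p.tower.x 0 * p.tower.xinv = 1 := by
  show (p.N 0).mulL EE (p.x 0) p.xinv = vtx eS
  exact hmonA_vtx_inv p.hM (p.hc 0) (iotaL p.n)

/-- **FactX** -/
theorem factX (hM : D + 2 ≤ p.M) (hK : D + 2 ≤ p.K) : p.tower.FactX D :=
  FXT76.factX_of p.tower D (p.factSq D) (p.factSigma hM hK) p.x0_gr p.x0_cop p.xinv_gr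
    p.xinv_cop p.x0_xinv

end Par

end Crest.Agent.R204.Inst194
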