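import Crest.Agent.R204.LoopId2_872
import Crest.Agent.R204.PiC_808
import Crest.Agent.R204.Inst_194
import Crest.Agent.R204.Ind3_979
import Crest.Agent.R204.Sigma2_88
import Crest.Agent.R204.GeoC_979
import Crest.Agent.R204.Psi3_755
import Crest.Agent.R204.SigEval_343
import Crest.Agent.R204.Hopf4i_450
import Crest.Agent.R204.ConnE_747
import Crest.Agent.R204.Sph_94d
import Crest.Agent.R204.SphSS_478
import Crest.Agent.R204.XNe_194
import Crest.Agent.R204.InstSig_194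
import Crest.Agent.R204.InstF_114
import Crest.Agent.R204.InstX_194

-- ▼ part R204/ConnS_872
section

/-!
# Row 204, block B (helper872): `Ω^j S^n` is simply connected for `j + 1 < n`
-/

set_option autoImplicit false

noncomputable section

open Set unitInterval Topology

namespace Crest.Agent.R204.ConnS872

open Crest.Agent.R204 Crest.Agent.R204.SS Crest.Agent.R204.Cov892 Crest.Agent.R204.Bis343
  Crest.Agent.R204.SingAct265 Crest.Agent.R204.Bar170 Crest.Agent.R204.Cubes735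
  Crest.Agent.R204.PF872 Crest.Agent.R204.Freu297 Crest.Agent.R204.Inst194
open Crest.Agent.R204.HspSS696 (Om)

variable {Z : Type} [TopologicalSpace Z] {z₀ : Z} {n : ℕ}




/-- in the path connected range every generalized loop is joined to the constant one -/
theorem joined_Om {j n : ℕ} (h : j < n) (x : Om (Fin j) (Sph n) (pt n)) :
    Joined x GenLoop.const :=
  (Pi808.pathConnected_Om h).joined x _




end Crest.Agent.R204.ConnS872
end
end

-- ▼ part R204/PolyT_979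
section

/-!
# Row 204, block B, final instantiation (helper979): `FactPoly` for the concrete tower of helper194

`LoopThm` : the loop space theorem in a range for `Ω^(b+1) Z` over `Ω^b Z`, both path connected.
`factPoly` : `p.tower.FactPoly D`.
-/

set_option autoImplicit false
set_option linter.style.haveILetI false

noncomputable section

namespace Crest.Agent.R204.PolyT979

open Crest.Agent.R204 Crest.Agent.R204.Inst194 Crest.Agent.R204.Ind979 Crest.Agent.R204.Spec114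
open Crest.Agent.R204.HspSS696 (Om)
open Crest.Agent.R204.Hopf450 (HMon)
open Crest.Agent.R204.Freu297

/-- the loop space theorem in a range, `k ≥ 1` -/
def LoopThm : Prop := ∀ (M b : ℕ) (hM : 1 ≤ M) (hb : M + 1 ≤ b) (Z : Type) [TopologicalSpace Z] (z₀ : Z),
  (∀ y : Om (Fin b) Z z₀, Joined y GenLoop.const) →
  (∀ x : Om (Fin (b + 1)) Z z₀, Joined x GenLoop.const) →
  ∀ (J : Type) (v : J → H F2 (SS.Sing (Om (Fin (b + 1)) Z z₀))) (e : J → ℕ), (∀ j, 1 ≤ e j) →
  (∀ j, v j ∈ H.gr F2 (SS.Sing (Om (Fin (b + 1)) Z z₀)) (e j)) → ∀ N : ℕ,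
  letI := (hmonA hM (hb.trans (Nat.le_succ b)) : HMon (SS.Sing (Om (Fin (b + 1)) Z z₀))).ring EE
  letI := (hmonA hM (hb.trans (Nat.le_succ b)) : HMon (SS.Sing (Om (Fin (b + 1)) Z z₀))).alg EE
  letI := (hmonA hM hb : HMon (SS.Sing (Om (Fin b) Z z₀))).ring EE
  letI := (hmonA hM hb : HMon (SS.Sing (Om (Fin b) Z z₀))).alg EE
  SimR (H.gr F2 (SS.Sing (Om (Fin b) Z z₀))) (fun j => (Sus330.genLoop b).sigma (v j))
    (fun j => e j + 1) (N + 1) →
  PolyR (H.gr F2 (SS.Sing (Om (Fin (b + 1)) Z z₀))) v e N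

/-- along an equality `a = b + 1` -/
theorem loopThm_cast (G : LoopThm) {M a b : ℕ} (hM : 1 ≤ M) (hb : M + 1 ≤ b) (ha : M + 1 ≤ a)
    (h : a = b + 1) (Z : Type) [TopologicalSpace Z] (z₀ : Z)
    (h0 : ∀ y : Om (Fin b) Z z₀, Joined y GenLoop.const)
    (h1 : ∀ x : Om (Fin a) Z z₀, Joined x GenLoop.const)
    (J : Type) (v : J → H F2 (SS.Sing (Om (Fin a) Z z₀))) (e : J → ℕ) (he : ∀ j, 1 ≤ e j)
    (hv : ∀ j, v j ∈ H.gr F2 (SS.Sing (Om (Fin a) Z z₀)) (e j)) (N : ℕ) :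
    letI := (hmonA hM ha : HMon (SS.Sing (Om (Fin a) Z z₀))).ring EE
    letI := (hmonA hM ha : HMon (SS.Sing (Om (Fin a) Z z₀))).alg EE
    letI := (hmonA hM hb : HMon (SS.Sing (Om (Fin b) Z z₀))).ring EE
    letI := (hmonA hM hb : HMon (SS.Sing (Om (Fin b) Z z₀))).alg EE
    SimR (H.gr F2 (SS.Sing (Om (Fin b) Z z₀))) (fun j => (loopC h).sigma (v j))
      (fun j => e j + 1) (N + 1) →
    PolyR (H.gr F2 (SS.Sing (Om (Fin a) Z z₀))) v e N := by
  subst h
  exact G M b hM hb Z z₀ h0 h1 J v e he hv N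

theorem loopStep (G : LoopThm) (p : Par) {k : ℕ} (hk1 : 1 ≤ k) (hk : k < p.K) (N : ℕ) :
    LoopStep p.tower k N := by
  intro J v e he hv hS
  have hs : p.tower.σ k = (loopX p.J0 hk).sigma := dif_pos hk
  rw [hs] at hS
  exact loopThm_cast G p.hM (p.hc (k + 1)) (p.hc k) (cd_succ hk) (Sph p.n) (pt p.n)
    (fun y => ConnS872.joined_Om (by simp only [cd]; show _ < p.J0 + p.K; omega) y)
    (fun y => ConnS872.joined_Om (by simp only [cd]; show _ < p.J0 + p.K; omega) y) J v e he hv N hS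

/-- **`FactPoly` for the concrete tower** -/
theorem factPoly (G : LoopThm) (p : Par) {D : ℕ} (hK : D + 2 ≤ p.K) (hQ : p.tower.FactQ D)
    (hσ : p.tower.FactSigma D) (hx : p.tower.FactX D)
    (h1 : (1 : p.tower.H (D + 2)) ≠ 0)
    (h0 : p.tower.gr (D + 2) 0 ≤ Submodule.span F2 {1}) (hxk : p.tower.x (D + 2) ≠ 0)
    (hgk : p.tower.gr (D + 2) (D + 2) ≤ Submodule.span F2 {p.tower.x (D + 2)})
    (hg : ∀ t ≤ 2 * D + 3, t ≠ 0 → t ≠ D + 2 → p.tower.gr (D + 2) t = ⊥) : p.tower.FactPoly D :=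
  factPoly_of_steps hQ hσ hx (fun _ hk1 hk => loopStep G p hk1 (by omega) _) h1 h0 hxk hgk hg

end Crest.Agent.R204.PolyT979
end
end

-- ▼ part R204/GeoD_979
section

/-!
# Row 204, block B, final instantiation, part D (helper979)

`loopThm : PolyT979.LoopThm`, the loop space theorem in a range for `Ω^(b+1) Z` over `Ω^b Z`
(both path connected).
-/

set_option autoImplicit false
set_option linter.style.haveILetI false

noncomputable section

namespace Crest.Agent.R204.Geo979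

open Crest.Agent.R204 Crest.Agent.R204.SS Crest.Agent.R204.Bis343 Crest.Agent.R204.Bar170
  Crest.Agent.R204.Coalg847 Crest.Agent.R204.PF872 Crest.Agent.R204.Cov892
open Crest.Agent.R204.SingAct265 (mkS singPair)
open Crest.Agent.R204.HspSS696 (Om mulS)
open Crest.Agent.R204.Cubes735 (BoxConf mu)
open Crest.Agent.R204.Inst194 (EE hmonA)
open Crest.Agent.R204.Hopf450 (HMon)
open TensorProduct unitInterval

variable {Z : Type} [TopologicalSpace Z] {z₀ : Z} {n : ℕ}

/-- the suspension of the path fibration is 330's loop suspension -/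
theorem sigma_eq (h1 : ∀ x : Om (Fin (n + 1)) Z z₀, Joined x GenLoop.const)
    (y : H F2 (Sing (Om (Fin (n + 1)) Z z₀))) :
    H.map F2 (prj (bo Z z₀ n)) (Psi755.sus (PF94.psus (bo Z z₀ n)) (gG h1 y)) =
      (Sus330.genLoop n).sigma y :=
  SigEval343.prj_sgH_toG' h1 y

/-- the product of `H (Ω^(n+1) Z)` from coordinate `0` is loop concatenation -/
theorem gG_mulL [Nontrivial (Fin (n + 1))] (h1 : ∀ x : Om (Fin (n + 1)) Z z₀, Joined x GenLoop.const)
    (M : HMon (Sing (Om (Fin (n + 1)) Z z₀))) (c : BoxConf (Fin 2) (Fin (n + 1)))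
    (hM : M.mu = mulS c) (x y : H F2 (Sing (Om (Fin (n + 1)) Z z₀))) :
    gG h1 (M.mulL EE x y) = (PF94.pf (bo Z z₀ n)).mulH EE (gG h1 x) (gG h1 y) := by
  rw [← gG_mul, HMon.mulL_apply, hM]
  congr 1
  exact LinearMap.congr_fun (Hopf450.omMon_map_mu (Z := Z) (z₀ := z₀) c
    (Hsp696.halves (Fin.last n))) _

theorem loopThm : PolyT979.LoopThm := by
  intro M b hM hb Z _ z₀ h0 h1 J v e he hv N
  letI := (hmonA hM (hb.trans (Nat.le_succ b)) : HMon (SS.Sing (Om (Fin (b + 1)) Z z₀))).ring EE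
  letI := (hmonA hM (hb.trans (Nat.le_succ b)) : HMon (SS.Sing (Om (Fin (b + 1)) Z z₀))).alg EE
  letI := (hmonA hM hb : HMon (SS.Sing (Om (Fin b) Z z₀))).ring EE
  letI := (hmonA hM hb : HMon (SS.Sing (Om (Fin b) Z z₀))).alg EE
  intro hS
  haveI : Nontrivial (Fin (b + 1)) := Fin.nontrivial_iff_two_le.2 (by omega)
  haveI := simplyConn h0 h1
  haveI := pathConn h1
  let c : BoxConf (Fin 2) (Fin b) := Hsp696.halves (Inst194.i0 hb)
  refine Psi755.loop_range (X := PF94.pf (bo Z z₀ b)) (PF94.psus (bo Z z₀ b))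
    (PF94.pmul (hsp (Z := Z) (z₀ := z₀) c)) he (conn_G h1) (gG h1)
    (H.gr F2 (SS.Sing (Om (Fin (b + 1)) Z z₀))) (gG_inj h1) (fun t a ha => gG_gr h1 ha) (gG_one h1)
    (fun x y => gG_mulL h1 (hmonA hM (hb.trans (Nat.le_succ b))) _ rfl x y) (vtx_mem_gr _)
    (fun s t x y hx hy => HMon.mulL_mem_gr _ _ hx hy)
    (fun x hx => Submodule.mem_span_singleton.2 ⟨_, (gr_zero_eq _ hx).symm⟩) v hv
    (H.map F2 (prj (bo Z z₀ b))) (H.gr F2 (SS.Sing (Om (Fin b) Z z₀))) (prj_inj _)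
    (fun t a ha => hMap_mem_gr _ ha) ?_ ?_ ?_
  · exact hMap_vtx _ _
  · intro x y
    exact prj_mul _ _ _ x y
  · have e1 : (fun j => H.map F2 (prj (bo Z z₀ b))
        (Psi755.sus (PF94.psus (bo Z z₀ b)) (gG h1 (v j)))) =
        fun j => (Sus330.genLoop b).sigma (v j) := funext fun j => sigma_eq h1 _
    exact Eq.mpr (congrArg (fun s => Ind979.SimR (H.gr F2 (Sing (Om (Fin b) Z z₀))) s
      (fun j => e j + 1) (N + 1)) e1) hS

end Crest.Agent.R204.Geo979
end
end

-- ▼ part R204/BaseR_170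
section

/-!
# Row 204, block B: the base case of the descending induction (helper170)

For `1 ≤ k ≤ K` the homology of `X_k = Ω^(n-k) S^n` in degrees `< 2k`: `F2` in degree `0`,
at most one nonzero class in degree `k`, nothing else.
-/

set_option autoImplicit false

noncomputable section

namespace Crest.Agent.R204.BaseR170

open Topology.Homotopy
open Crest.Agent.R204 Crest.Agent.R204.SS Crest.Agent.R204.Freu297 Crest.Agent.R204.Inst194

/-- `H_t(Y) ` is onto image of `H_t(A)` -/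
theorem gr_bot_of_onto {A Y : SS} (f : SS.Hom A Y) {t : ℕ}
    (hs : ∀ v ∈ H.gr F2 Y t, ∃ u ∈ H.gr F2 A t, H.map F2 f u = v) (h : H.gr F2 A t = ⊥) :
    H.gr F2 Y t = ⊥ := by
  rw [eq_bot_iff]
  intro v hv
  obtain ⟨u, hu, rfl⟩ := hs v hv
  rw [h, Submodule.mem_bot] at hu
  rw [hu, map_zero]
  exact Submodule.zero_mem _

theorem f2_cases (r : F2) : r = 0 ∨ r = 1 := by
  revert r; decide

theorem gr_span_of_onto {A Y : SS} (f : SS.Hom A Y) {t : ℕ}
    (hs : ∀ v ∈ H.gr F2 Y t, ∃ u ∈ H.gr F2 A t, H.map F2 f u = v) {g : H F2 A}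
    (h : H.gr F2 A t ≤ Submodule.span F2 {g}) {x : H F2 Y} (hx : x ∈ H.gr F2 Y t) (hx0 : x ≠ 0) :
    H.gr F2 Y t ≤ Submodule.span F2 {x} := by
  have key : ∀ v ∈ H.gr F2 Y t, ∃ r : F2, v = r • H.map F2 f g := by
    intro v hv
    obtain ⟨u, hu, rfl⟩ := hs v hv
    obtain ⟨r, rfl⟩ := Submodule.mem_span_singleton.1 (h hu)
    exact ⟨r, map_smul _ _ _⟩
  intro v hv
  obtain ⟨r, hr⟩ := key v hv
  obtain ⟨r', hr'⟩ := key x hx
  rcases f2_cases r' with h5 | h5
  · exact absurd (by rw [hr', h5, zero_smul]) hx0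
  · rw [h5, one_smul] at hr'
    rw [Submodule.mem_span_singleton]
    exact ⟨r, by rw [hr, hr']⟩

theorem sph_bot (m t : ℕ) (h0 : t ≠ 0) (h1 : t ≠ m + 1) : H.gr F2 (Sing (Sph (m + 1))) t = ⊥ := by
  obtain ⟨x, -, -, h3⟩ := Sph94.spheres m (pt (m + 1))
  exact h3 t h0 h1

theorem sph_span (m : ℕ) : ∃ g : H F2 (Sing (Sph (m + 1))),
    H.gr F2 (Sing (Sph (m + 1))) (m + 1) ≤ Submodule.span F2 {g} := by
  obtain ⟨s, hs, h2, -⟩ := Sph94.spheres m (pt (m + 1))
  have hz : N.bd F2 (Sing (Sph (m + 1))) (N.sx F2 s) = 0 := by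
    rw [SphSS478.bd_sx_F2, Finset.sum_congr rfl fun i _ => by rw [hs i]]
    rcases m with _ | m
    · rw [Fin.sum_univ_two, SphSS478.add_self_F2]
    · refine Finset.sum_eq_zero fun i _ => ?_
      exact N.sx_dgn (K := Sing (Sph (m + 1 + 1))) (R := F2) 0 (SpecA.cst (pt (m + 1 + 1)) m)
  obtain ⟨-, h4⟩ := h2 hz
  exact ⟨_, h4.le⟩

/-- homology of `Ω^J S^(m+1+J)` in degrees `< 2(m+1)` other than `0`, `m+1` -/
theorem om_bot (m J t : ℕ) (ht : t < 2 * (m + 1)) (h0 : t ≠ 0) (h1 : t ≠ m + 1) :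
    H.gr F2 (Sing (GenLoop (Fin J) (Sph (m + 1 + J)) (pt (m + 1 + J)))) t = ⊥ :=
  gr_bot_of_onto (SingMap (EJ (m + 1) J)) (fun _ hv => Conn747.EJ_surj F2 ht J hv)
    (sph_bot m t h0 h1)

/-- degree `m + 1`: every class is a multiple of any given nonzero class -/
theorem om_span (m J : ℕ) {x : H F2 (Sing (GenLoop (Fin J) (Sph (m + 1 + J)) (pt (m + 1 + J))))}
    (hx : x ∈ H.gr F2 _ (m + 1)) (hx0 : x ≠ 0) :
    H.gr F2 (Sing (GenLoop (Fin J) (Sph (m + 1 + J)) (pt (m + 1 + J)))) (m + 1) ≤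
      Submodule.span F2 {x} := by
  obtain ⟨g, hg⟩ := sph_span m
  exact gr_span_of_onto (SingMap (EJ (m + 1) J))
    (fun _ hv => Conn747.EJ_surj F2 (by omega) J hv) hg hx hx0

/-! ## along an equality `m + 1 + J = n` -/

theorem om_bot' {m J n t : ℕ} (h : m + 1 + J = n) (ht : t < 2 * (m + 1)) (h0 : t ≠ 0)
    (h1 : t ≠ m + 1) : H.gr F2 (Sing (GenLoop (Fin J) (Sph n) (pt n))) t = ⊥ := by
  subst h; exact om_bot m J t ht h0 h1

theorem om_span' {m J n : ℕ} (h : m + 1 + J = n)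
    {x : H F2 (Sing (GenLoop (Fin J) (Sph n) (pt n)))}
    (hx : x ∈ H.gr F2 _ (m + 1)) (hx0 : x ≠ 0) :
    H.gr F2 (Sing (GenLoop (Fin J) (Sph n) (pt n))) (m + 1) ≤ Submodule.span F2 {x} := by
  subst h; exact om_span m J hx hx0

/-! ## 194's spaces -/

theorem xs_bot {J0 K k t : ℕ} (hk1 : 1 ≤ k) (hk : k ≤ K) (ht : t < 2 * k) (h0 : t ≠ 0)
    (h1 : t ≠ k) : H.gr F2 (XS J0 K k) t = ⊥ := by
  obtain ⟨m, rfl⟩ : ∃ m, k = m + 1 := ⟨k - 1, by omega⟩
  exact om_bot' (add_cd hk) ht h0 h1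

theorem xs_span {J0 K k : ℕ} (hk1 : 1 ≤ k) (hk : k ≤ K) {x : H F2 (XS J0 K k)}
    (hx : x ∈ H.gr F2 (XS J0 K k) k) (hx0 : x ≠ 0) :
    H.gr F2 (XS J0 K k) k ≤ Submodule.span F2 {x} := by
  obtain ⟨m, rfl⟩ : ∃ m, k = m + 1 := ⟨k - 1, by omega⟩
  exact om_span' (add_cd hk) hx hx0

theorem xs_zero {J0 K k : ℕ} (hK : 1 ≤ K) (hk1 : 1 ≤ k) (v : (XS J0 K k).S 0) :
    H.gr F2 (XS J0 K k) 0 ≤ Submodule.span F2 {Coalg847.vtx v} := by
  have := Pi808.pathConnected_XT (J0 := J0) (K := K) (k := k) hK hk1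
  intro x hx
  rw [Geo979.gr_zero_eq v hx]
  exact Submodule.mem_span_singleton.2 ⟨_, rfl⟩

/-! ## the tower -/

variable (p : Par)

theorem tower_one_ne (k : ℕ) : (1 : p.tower.H k) ≠ 0 := by
  intro h
  have h1 : Coalg847.eps (p.S k) (Coalg847.vtx HspSS696.eS) = (1 : F2) := Coalg847.eps_vtx _
  have h2 : (Coalg847.vtx HspSS696.eS : H F2 (p.S k)) = 0 := h
  rw [h2, map_zero] at h1
  exact zero_ne_one h1

theorem tower_zero {k : ℕ} (hK : 1 ≤ p.K) (hk1 : 1 ≤ k) :
    p.tower.gr k 0 ≤ Submodule.span F2 {(1 : p.tower.H k)} :=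
  xs_zero hK hk1 HspSS696.eS

theorem tower_span {k : ℕ} (hk1 : 1 ≤ k) (hk : k ≤ p.K) (hx : p.tower.x k ∈ p.tower.gr k k)
    (hx0 : p.tower.x k ≠ 0) : p.tower.gr k k ≤ Submodule.span F2 {p.tower.x k} :=
  xs_span hk1 hk hx hx0

theorem tower_bot {k t : ℕ} (hk1 : 1 ≤ k) (hk : k ≤ p.K) (ht : t < 2 * k) (h0 : t ≠ 0)
    (h1 : t ≠ k) : p.tower.gr k t = ⊥ :=
  xs_bot hk1 hk ht h0 h1

end Crest.Agent.R204.BaseR170
end
end

-- ▼ part R204/BaseX_170
section

/-!
# Row 204, block B (helper170): `p.tower.x k ≠ 0`, and `FactPoly` for the concrete tower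
-/

set_option autoImplicit false

noncomputable section

namespace Crest.Agent.R204.BaseR170

open Topology.Homotopy
open Crest.Agent.R204 Crest.Agent.R204.SS Crest.Agent.R204.Freu297 Crest.Agent.R204.Inst194

theorem isX_loopC {n k a b : ℕ} (h : a = b + 1) {x : H F2 (SS.Sing (GenLoop (Fin a) (Sph n) (pt n)))}
    (hx : IsX n k a x) : IsX n (k + 1) b ((loopC h).sigma x) := by
  subst h; exact hx.succ

variable (p : Par)

theorem tower_isX : ∀ k, k ≤ p.K → IsX p.n k (cd p.J0 p.K k) (p.tower.x k)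
  | 0, _ => IsX.zero
  | k + 1, hk => by
    have h1 := isX_loopC (cd_succ (J0 := p.J0) hk) (tower_isX k (by omega))
    have h2 : p.x (k + 1) = (loopX p.J0 hk).sigma (p.x k) :=
      LinearMap.congr_fun (show p.sig k = (loopX p.J0 hk).sigma from dif_pos (show k < p.K from hk))
        (p.x k)
    show IsX p.n (k + 1) (cd p.J0 p.K (k + 1)) (p.x (k + 1))
    rw [h2]
    exact h1

/-- `x_k ≠ 0` for all `k ≤ K` -/
theorem tower_x_ne {k : ℕ} (hK : 1 ≤ p.n) (hk : k ≤ p.K) : p.tower.x k ≠ 0 :=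
  IsX.ne_zero hK _ _ _ (tower_isX p k hk)

end Crest.Agent.R204.BaseR170
end
end

-- ▼ part R204/PolyU_979
section

/-!
# Row 204, leaf B7: `FactPoly` for the concrete tower, unconditional modulo `FactX`
-/

set_option autoImplicit false

noncomputable section

namespace Crest.Agent.R204.PolyU979

open Crest.Agent.R204 Spec114 Inst194

variable (p : Par) {D : ℕ}

/-- **loop space theorem on the concrete tower** -/
theorem factPoly_of_ne (hM : D + 2 ≤ p.M) (hK : D + 2 ≤ p.K) (hx : p.tower.FactX D)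
    (hx0 : p.tower.x (D + 2) ≠ 0) : p.tower.FactPoly D :=
  PolyT979.factPoly Geo979.loopThm p hK (p.factQ hM) (p.factSigma hM hK) hx
    (BaseR170.tower_one_ne p _) (BaseR170.tower_zero p (by omega) (by omega)) hx0
    (BaseR170.tower_span p (by omega) hK (hx.1 (D + 2) le_rfl).1 hx0)
    (fun t ht h0 h1 => BaseR170.tower_bot p (by omega) hK (by omega) h0 h1)

/-- **loop space theorem on the concrete tower** -/
theorem factPoly (hM : D + 2 ≤ p.M) (hK : D + 2 ≤ p.K) (hx : p.tower.FactX D) :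
    p.tower.FactPoly D :=
  factPoly_of_ne p hM hK hx (BaseR170.tower_x_ne p (show 1 ≤ p.J0 + p.K by omega) hK)

end Crest.Agent.R204.PolyU979
end
end

-- ▼ part R204/PolyV_979

/-!
# Row 204, leaf B7: `FactPoly` for the concrete tower, no hypotheses
-/

set_option autoImplicit false

noncomputable section

namespace Crest.Agent.R204.PolyU979

open Crest.Agent.R204 Spec114 Inst194

/-- **loop space theorem on the concrete tower**, `k ≥ 1`, no hypotheses -/
theorem factPoly' (p : Par) {D : ℕ} (hM : D + 2 ≤ p.M) (hK : D + 2 ≤ p.K) : p.tower.FactPoly D :=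
  factPoly p hM hK (p.factX hM hK)

end Crest.Agent.R204.PolyU979
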