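import Crest.Agent.R204.Defs
import Mathlib

-- ▼ part R204/Rng_114
section

/-!
# Row 204: working in a range with a polynomial Hopf algebra (helper114)

`P = MvPolynomial G F2` with weights `w`, `e = aeval y : P → H` injective in weights `≤ N`.
Lifting of coproducts and primitives from `H` to `P` in degrees `≤ N`.
-/

set_option autoImplicit false

namespace Crest.Agent.R204.Rng114

open MvPolynomial TensorProduct
open scoped TensorProduct

variable {G : Type} (w : G → ℕ)

/-- weight `t` part of the polynomial ring -/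
abbrev V (t : ℕ) : Submodule F2 (MvPolynomial G F2) := weightedHomogeneousSubmodule F2 w t

/-- weight `≤ N` part -/
def Sle (N : ℕ) : Submodule F2 (MvPolynomial G F2) where
  carrier := {p | ∀ s, p.coeff s ≠ 0 → Finsupp.weight w s ≤ N}
  zero_mem' := by intro s hs; simp at hs
  add_mem' := by
    intro f g hf hg s hs
    by_cases h : f.coeff s = 0
    · exact hg s (fun h' => hs (by rw [coeff_add, h, h', add_zero]))
    · exact hf s h
  smul_mem' := by
    intro c f hf s hs
    exact hf s (fun h => hs (by rw [coeff_smul, h, smul_zero]))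

theorem V_le_Sle {t N : ℕ} (h : t ≤ N) : V w t ≤ Sle w N := by
  intro p hp s hs
  rw [mem_weightedHomogeneousSubmodule] at hp
  exact (hp hs).le.trans h

/-- total weight `t` part of `P ⊗ P` -/
noncomputable def A (t : ℕ) : Submodule F2 (MvPolynomial G F2 ⊗[F2] MvPolynomial G F2) :=
  Submodule.span F2 {z | ∃ a b p q, a + b = t ∧ p ∈ V w a ∧ q ∈ V w b ∧ z = p ⊗ₜ[F2] q}

variable {w}

theorem tmul_mem_A {a b t : ℕ} {p q : MvPolynomial G F2} (h : a + b = t) (hp : p ∈ V w a)
    (hq : q ∈ V w b) : p ⊗ₜ[F2] q ∈ A w t :=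
  Submodule.subset_span ⟨a, b, p, q, h, hp, hq, rfl⟩

theorem V_mul {s t : ℕ} {p q : MvPolynomial G F2} (hp : p ∈ V w s) (hq : q ∈ V w t) :
    p * q ∈ V w (s + t) := by
  rw [mem_weightedHomogeneousSubmodule] at *
  exact hp.mul hq

theorem V_one : (1 : MvPolynomial G F2) ∈ V w 0 := by
  rw [mem_weightedHomogeneousSubmodule]
  exact isWeightedHomogeneous_one F2 w

theorem A_mul {s t : ℕ} {z z' : MvPolynomial G F2 ⊗[F2] MvPolynomial G F2} (hz : z ∈ A w s)
    (hz' : z' ∈ A w t) : z * z' ∈ A w (s + t) := by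
  unfold A at hz hz'
  induction hz using Submodule.span_induction with
  | zero => simp
  | add x y _ _ hx hy => rw [add_mul]; exact Submodule.add_mem _ hx hy
  | smul c x _ hx => rw [smul_mul_assoc]; exact Submodule.smul_mem _ _ hx
  | mem x hx =>
    obtain ⟨a, b, p, q, rfl, hp, hq, rfl⟩ := hx
    induction hz' using Submodule.span_induction with
    | zero => simp
    | add x y _ _ hx hy => rw [mul_add]; exact Submodule.add_mem _ hx hy
    | smul c x _ hx => rw [mul_smul_comm]; exact Submodule.smul_mem _ _ hx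
    | mem x hx =>
      obtain ⟨a', b', p', q', rfl, hp', hq', rfl⟩ := hx
      rw [Algebra.TensorProduct.tmul_mul_tmul]
      exact tmul_mem_A (by omega) (V_mul hp hp') (V_mul hq hq')

theorem A_one : (1 : MvPolynomial G F2 ⊗[F2] MvPolynomial G F2) ∈ A w 0 := by
  rw [Algebra.TensorProduct.one_def]
  exact tmul_mem_A rfl V_one V_one

theorem A_pow {s : ℕ} {z : MvPolynomial G F2 ⊗[F2] MvPolynomial G F2} (hz : z ∈ A w s) (n : ℕ) :
    z ^ n ∈ A w (n * s) := by
  induction n with
  | zero => simpa using A_one (w := w)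
  | succ n ih => rw [pow_succ, Nat.succ_mul]; exact A_mul ih hz

/-- an algebra map `P → P ⊗ P` that respects the weights on generators respects them -/
theorem hom_mem_A (δ : MvPolynomial G F2 →ₐ[F2] MvPolynomial G F2 ⊗[F2] MvPolynomial G F2)
    (h : ∀ i, δ (X i) ∈ A w (w i)) {t : ℕ} {p : MvPolynomial G F2} (hp : p ∈ V w t) :
    δ p ∈ A w t := by
  have mono : ∀ s : G →₀ ℕ, δ (monomial s 1) ∈ A w (Finsupp.weight w s) := by
    intro s
    induction s using Finsupp.induction with
    | zero =>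
      rw [map_zero]
      simpa using A_one (w := w)
    | single_add a b f _ _ ih =>
      rw [map_add, monomial_single_add, map_mul, map_pow]
      refine A_mul ?_ ih
      have := A_pow (h a) b
      simpa [Finsupp.weight_apply] using this
  rw [mem_weightedHomogeneousSubmodule] at hp
  rw [as_sum p, map_sum]
  refine Submodule.sum_mem _ fun s hs => ?_
  have hs' : p.coeff s ≠ 0 := by simpa using hs
  have : monomial s (p.coeff s) = (p.coeff s) • monomial s (1 : F2) := by
    rw [smul_monomial, smul_eq_mul, mul_one]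
  rw [this, map_smul]
  refine Submodule.smul_mem _ _ ?_
  have := mono s
  rwa [hp hs'] at this

theorem weight_le_of_mem {s : G →₀ ℕ} {i : G} (hi : i ∈ s.support) :
    w i ≤ Finsupp.weight w s := by
  rw [Finsupp.weight_apply, Finsupp.sum]
  have h1 : 1 ≤ s i := Nat.one_le_iff_ne_zero.2 (by simpa using hi)
  calc w i = 1 * w i := (one_mul _).symm
    _ ≤ s i * w i := Nat.mul_le_mul_right _ h1
    _ = s i • w i := rfl
    _ ≤ _ := Finset.single_le_sum (f := fun j => s j • w j) (fun _ _ => Nat.zero_le _) hi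

theorem var_weight_le {t : ℕ} {p : MvPolynomial G F2} (hp : p ∈ V w t) {i : G} (hi : i ∈ p.vars) :
    w i ≤ t := by
  classical
  rw [mem_vars] at hi
  obtain ⟨s, hs, his⟩ := hi
  rw [mem_weightedHomogeneousSubmodule] at hp
  have := hp (d := s) (by simpa using hs)
  rw [← this]
  exact weight_le_of_mem his

section target

variable {H : Type} [CommRing H] [Algebra F2 H] {gr : ℕ → Submodule F2 H} {y : G → H} {N : ℕ}

theorem aeval_mem_gr (h1 : (1 : H) ∈ gr 0)
    (hmul : ∀ s t a b, a ∈ gr s → b ∈ gr t → a * b ∈ gr (s + t)) {t : ℕ}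
    (hy : ∀ i, w i ≤ t → y i ∈ gr (w i)) {p : MvPolynomial G F2} (hp : p ∈ V w t) :
    aeval y p ∈ gr t := by
  have mono : ∀ s : G →₀ ℕ, Finsupp.weight w s ≤ t →
      aeval y (monomial s (1 : F2)) ∈ gr (Finsupp.weight w s) := by
    intro s
    induction s using Finsupp.induction with
    | zero => intro _; simpa using h1
    | single_add a b f ha hb ih =>
      intro hle
      have hw : Finsupp.weight w (Finsupp.single a b + f) = b * w a + Finsupp.weight w f := by
        simp [Finsupp.weight_apply, map_add]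
      rw [hw] at hle ⊢
      rw [monomial_single_add, map_mul, map_pow, aeval_X]
      refine hmul _ _ _ _ ?_ (ih (by omega))
      have ha' : y a ∈ gr (w a) := by
        refine hy a ?_
        have : 1 ≤ b := Nat.one_le_iff_ne_zero.2 hb
        nlinarith
      clear hle hw hb ih
      induction b with
      | zero => simpa using h1
      | succ n ihn =>
        rw [pow_succ, Nat.succ_mul]
        exact hmul _ _ _ _ ihn ha'
  rw [mem_weightedHomogeneousSubmodule] at hp
  rw [as_sum p, map_sum]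
  refine Submodule.sum_mem _ fun s hs => ?_
  have hs' : p.coeff s ≠ 0 := by simpa using hs
  have : monomial s (p.coeff s) = (p.coeff s) • monomial s (1 : F2) := by
    rw [smul_monomial, smul_eq_mul, mul_one]
  rw [this, map_smul]
  refine Submodule.smul_mem _ _ ?_
  have := mono s (hp hs').le
  rwa [hp hs'] at this

/-- injectivity on everything of weight `≤ N` -/
theorem inj_Sle (hind : iSupIndep gr) (h1 : (1 : H) ∈ gr 0)
    (hmul : ∀ s t a b, a ∈ gr s → b ∈ gr t → a * b ∈ gr (s + t))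
    (hy : ∀ i, w i ≤ N → y i ∈ gr (w i))
    (hinj : ∀ t ≤ N, ∀ p ∈ V w t, aeval y p = 0 → p = 0)
    {p : MvPolynomial G F2} (hp : p ∈ Sle w N) (h0 : aeval y p = 0) : p = 0 := by
  classical
  have hsum : p = ∑ t ∈ Finset.range (N + 1), weightedHomogeneousComponent w t p := by
    ext s
    rw [coeff_sum]
    simp only [coeff_weightedHomogeneousComponent]
    rw [Finset.sum_ite_eq]
    split_ifs with h
    · rfl
    · by_contra hne
      exact h (Finset.mem_range.2 (Nat.lt_succ_of_le (hp s hne)))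
  have hz : ∑ t ∈ Finset.range (N + 1), aeval y (weightedHomogeneousComponent w t p) = 0 := by
    rw [← map_sum, ← hsum, h0]
  have := (iSupIndep_iff_finset_sum_eq_zero_imp_eq_zero gr).1 hind (Finset.range (N + 1))
    (fun t => aeval y (weightedHomogeneousComponent w t p)) ?_ hz
  · rw [hsum]
    refine Finset.sum_eq_zero fun t ht => ?_
    exact hinj t (Nat.lt_succ_iff.1 (Finset.mem_range.1 ht)) _
      (weightedHomogeneousComponent_mem w p t) (this t ht)
  · intro t ht
    refine aeval_mem_gr h1 hmul (fun i hi => hy i (hi.trans ?_))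
      (weightedHomogeneousComponent_mem w p t)
    exact Nat.lt_succ_iff.1 (Finset.mem_range.1 ht)

theorem A_le_range {t N : ℕ} (h : t ≤ N) : A w t ≤
    LinearMap.range (TensorProduct.map (Sle w N).subtype (Sle w N).subtype) := by
  refine Submodule.span_le.2 ?_
  rintro _ ⟨a, b, p, q, hab, hp, hq, rfl⟩
  exact ⟨(⟨p, V_le_Sle w (by omega) hp⟩ : Sle w N) ⊗ₜ (⟨q, V_le_Sle w (by omega) hq⟩ : Sle w N), rfl⟩

/-- `e ⊗ e` is injective in total weight `≤ N` -/
theorem tensor_inj (hind : iSupIndep gr) (h1 : (1 : H) ∈ gr 0)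
    (hmul : ∀ s t a b, a ∈ gr s → b ∈ gr t → a * b ∈ gr (s + t))
    (hy : ∀ i, w i ≤ N → y i ∈ gr (w i))
    (hinj : ∀ t ≤ N, ∀ p ∈ V w t, aeval y p = 0 → p = 0)
    {t : ℕ} (ht : t ≤ N) {z : MvPolynomial G F2 ⊗[F2] MvPolynomial G F2} (hz : z ∈ A w t)
    (h0 : TensorProduct.map (aeval y : MvPolynomial G F2 →ₐ[F2] H).toLinearMap
      (aeval y : MvPolynomial G F2 →ₐ[F2] H).toLinearMap z = 0) : z = 0 := by
  obtain ⟨z', rfl⟩ := A_le_range ht hz
  set e : MvPolynomial G F2 →ₗ[F2] H := (aeval y : MvPolynomial G F2 →ₐ[F2] H).toLinearMap with he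
  have hi : Function.Injective (e ∘ₗ (Sle w N).subtype) := by
    rw [injective_iff_map_eq_zero]
    rintro ⟨p, hp⟩ h
    exact Subtype.ext (inj_Sle hind h1 hmul hy hinj hp h)
  have hii : Function.Injective (TensorProduct.map (e ∘ₗ (Sle w N).subtype)
      (e ∘ₗ (Sle w N).subtype)) :=
    TensorProduct.map_injective_of_flat_flat _ _ hi hi
  rw [← LinearMap.comp_apply, ← TensorProduct.map_comp] at h0
  have : z' = 0 := hii (by rw [h0, map_zero])
  rw [this, map_zero]

variable (Δ : H →ₐ[F2] H ⊗[F2] H)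
  (δ : MvPolynomial G F2 →ₐ[F2] MvPolynomial G F2 ⊗[F2] MvPolynomial G F2)

/-- compatibility of the coproducts in the range -/
theorem cop_compat (hΔ : ∀ i, w i ≤ N → Δ (y i) =
      TensorProduct.map (aeval y : MvPolynomial G F2 →ₐ[F2] H).toLinearMap
      (aeval y : MvPolynomial G F2 →ₐ[F2] H).toLinearMap (δ (X i)))
    {t : ℕ} (ht : t ≤ N) {p : MvPolynomial G F2} (hp : p ∈ V w t) :
    Δ (aeval y p) = TensorProduct.map (aeval y : MvPolynomial G F2 →ₐ[F2] H).toLinearMap
      (aeval y : MvPolynomial G F2 →ₐ[F2] H).toLinearMap (δ p) := by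
  have e1 : ∀ z, TensorProduct.map (aeval y : MvPolynomial G F2 →ₐ[F2] H).toLinearMap
      (aeval y : MvPolynomial G F2 →ₐ[F2] H).toLinearMap z =
      Algebra.TensorProduct.map (aeval y : MvPolynomial G F2 →ₐ[F2] H)
        (aeval y : MvPolynomial G F2 →ₐ[F2] H) z := fun _ => rfl
  rw [e1]
  have e2 : Δ (aeval y p) = (aeval (fun i => Δ (y i)) p : H ⊗[F2] H) := by
    have : (Δ.comp (aeval y : MvPolynomial G F2 →ₐ[F2] H)) = aeval (fun i => Δ (y i)) := by
      apply MvPolynomial.algHom_ext; intro i; simp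
    rw [← this]; rfl
  have e3 : Algebra.TensorProduct.map (aeval y : MvPolynomial G F2 →ₐ[F2] H)
        (aeval y : MvPolynomial G F2 →ₐ[F2] H) (δ p) =
      (aeval (fun i => Algebra.TensorProduct.map (aeval y : MvPolynomial G F2 →ₐ[F2] H)
        (aeval y : MvPolynomial G F2 →ₐ[F2] H) (δ (X i))) p : H ⊗[F2] H) := by
    have : ((Algebra.TensorProduct.map (aeval y : MvPolynomial G F2 →ₐ[F2] H)
        (aeval y : MvPolynomial G F2 →ₐ[F2] H)).comp δ) =
        aeval (fun i => Algebra.TensorProduct.map (aeval y : MvPolynomial G F2 →ₐ[F2] H)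
        (aeval y : MvPolynomial G F2 →ₐ[F2] H) (δ (X i))) := by
      apply MvPolynomial.algHom_ext; intro i; simp
    rw [← this]; rfl
  rw [e2, e3]
  rw [aeval_def, aeval_def]
  refine eval₂Hom_congr' rfl (fun i hi _ => ?_) rfl
  exact hΔ i ((var_weight_le hp hi).trans ht)

/-- a primitive of `H` in the range lifts to a primitive of `P` -/
theorem prim_lift (hind : iSupIndep gr) (h1 : (1 : H) ∈ gr 0)
    (hmul : ∀ s t a b, a ∈ gr s → b ∈ gr t → a * b ∈ gr (s + t))
    (hy : ∀ i, w i ≤ N → y i ∈ gr (w i))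
    (hinj : ∀ t ≤ N, ∀ p ∈ V w t, aeval y p = 0 → p = 0)
    (hδ : ∀ i, δ (X i) ∈ A w (w i))
    (hΔ : ∀ i, w i ≤ N → Δ (y i) =
      TensorProduct.map (aeval y : MvPolynomial G F2 →ₐ[F2] H).toLinearMap
      (aeval y : MvPolynomial G F2 →ₐ[F2] H).toLinearMap (δ (X i)))
    {t : ℕ} (ht : t ≤ N) {p : MvPolynomial G F2} (hp : p ∈ V w t)
    (hprim : Δ (aeval y p) = aeval y p ⊗ₜ[F2] 1 + 1 ⊗ₜ[F2] aeval y p) :
    δ p = p ⊗ₜ[F2] 1 + 1 ⊗ₜ[F2] p := by
  rw [← sub_eq_zero]
  refine tensor_inj hind h1 hmul hy hinj ht (z := δ p - (p ⊗ₜ[F2] 1 + 1 ⊗ₜ[F2] p)) ?_ ?_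
  · exact Submodule.sub_mem _ (hom_mem_A δ hδ hp)
      (Submodule.add_mem _ (tmul_mem_A (by omega) hp V_one) (tmul_mem_A (by omega) V_one hp))
  · rw [map_sub, ← cop_compat Δ δ hΔ ht hp, hprim, map_add, TensorProduct.map_tmul,
      TensorProduct.map_tmul]
    simp

end target

end Crest.Agent.R204.Rng114
end

-- ▼ part R204/Hopf_407
section

/-!
Row 204 (mod 2 Curtis conjecture), section 04: Hopf algebra facts (helper407).

Internal model: `P = MvPolynomial s F2`, and `R = MvPolynomial (s ⊕ s) F2` in place of `P ⊗ P`.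
-/

namespace Crest.Agent.R204.Hopf407

open MvPolynomial

/-- The field with two elements. -/
abbrev F2 : Type := ZMod 2

section Basics

variable {s : Type*}

/-- `f` has only monomials of weight at least `m`. -/
def Ord (w : s → ℕ) (m : ℕ) (f : MvPolynomial s F2) : Prop :=
  ∀ d ∈ f.support, m ≤ Finsupp.weight w d

theorem Ord.zero (w : s → ℕ) (m : ℕ) : Ord w m (0 : MvPolynomial s F2) := by
  intro d hd
  simp at hd

theorem Ord.mono {w : s → ℕ} {m n : ℕ} {f : MvPolynomial s F2} (hf : Ord w m f) (h : n ≤ m) :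
    Ord w n f := fun d hd => h.trans (hf d hd)

theorem ord_zero (w : s → ℕ) (f : MvPolynomial s F2) : Ord w 0 f := fun _ _ => Nat.zero_le _

theorem Ord.add {w : s → ℕ} {m : ℕ} {f g : MvPolynomial s F2} (hf : Ord w m f) (hg : Ord w m g) :
    Ord w m (f + g) := by
  classical
  intro d hd
  rcases Finset.mem_union.1 (support_add hd) with h | h
  · exact hf d h
  · exact hg d h

theorem Ord.neg {w : s → ℕ} {m : ℕ} {f : MvPolynomial s F2} (hf : Ord w m f) :
    Ord w m (-f) := by
  intro d hd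
  exact hf d (by simpa using hd)

theorem Ord.sub {w : s → ℕ} {m : ℕ} {f g : MvPolynomial s F2} (hf : Ord w m f) (hg : Ord w m g) :
    Ord w m (f - g) := by
  rw [sub_eq_add_neg]
  exact hf.add hg.neg

theorem Ord.mul {w : s → ℕ} {m n : ℕ} {f g : MvPolynomial s F2} (hf : Ord w m f)
    (hg : Ord w n g) : Ord w (m + n) (f * g) := by
  classical
  intro d hd
  obtain ⟨a, ha, b, hb, rfl⟩ := Finset.mem_add.1 (support_mul f g hd)
  rw [map_add]
  exact add_le_add (hf a ha) (hg b hb)

theorem Ord.sum {w : s → ℕ} {m : ℕ} {ι : Type*} (S : Finset ι) (f : ι → MvPolynomial s F2)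
    (h : ∀ i ∈ S, Ord w m (f i)) : Ord w m (∑ i ∈ S, f i) := by
  classical
  induction S using Finset.induction_on with
  | empty => simpa using Ord.zero w m
  | insert a S ha ih =>
    rw [Finset.sum_insert ha]
    exact (h a (Finset.mem_insert_self _ _)).add
      (ih fun i hi => h i (Finset.mem_insert_of_mem hi))

theorem Ord.C_mul {w : s → ℕ} {m : ℕ} {f : MvPolynomial s F2} (c : F2) (hf : Ord w m f) :
    Ord w m (C c * f) := by
  have := (ord_zero w (C c : MvPolynomial s F2)).mul hf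
  simpa using this

theorem ord_of_isWeightedHomogeneous {w : s → ℕ} {m : ℕ} {f : MvPolynomial s F2}
    (hf : IsWeightedHomogeneous w f m) : Ord w m f := by
  intro d hd
  exact (hf (mem_support_iff.1 hd)).ge

theorem whc_eq_zero_of_ord {w : s → ℕ} {m n : ℕ} {f : MvPolynomial s F2} (hf : Ord w m f)
    (hn : n < m) : weightedHomogeneousComponent w n f = 0 := by
  classical
  ext d
  rw [coeff_weightedHomogeneousComponent, coeff_zero]
  split_ifs with h
  · by_contra hc
    have := hf d (mem_support_iff.2 hc)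
    omega
  · rfl

end Basics

section Sqrt

variable {s : Type*}

/-- A polynomial over `F2` all of whose partial derivatives vanish is a square. -/
theorem exists_sq_of_pderiv_eq_zero (f : MvPolynomial s F2) (hf : ∀ i, pderiv i f = 0) :
    ∃ g : MvPolynomial s F2, f = g ^ 2 := by
  classical
  have heven : ∀ d ∈ f.support, ∀ i, 2 ∣ d i := by
    intro d hd i
    by_contra hodd
    have h1 : d i % 2 = 1 := by omega
    have hpos : 1 ≤ d i := by omega
    have h2 := congrArg (coeff (d - Finsupp.single i 1)) (hf i)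
    rw [coeff_pderiv, coeff_zero] at h2
    have h3 : d - Finsupp.single i 1 + Finsupp.single i 1 = d := by
      apply tsub_add_cancel_of_le
      intro j
      by_cases hj : i = j
      · subst hj; simpa using hpos
      · simp [Finsupp.single_eq_of_ne (Ne.symm hj)]
    rw [h3] at h2
    have h4 : (((d - Finsupp.single i 1 : s →₀ ℕ) i : ℕ) : F2) + 1 = 1 := by
      have : (d - Finsupp.single i 1 : s →₀ ℕ) i = d i - 1 := by simp
      rw [this]
      have h5 : ((d i - 1 : ℕ) : F2) = 0 := by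
        rw [ZMod.natCast_eq_zero_iff]
        omega
      rw [h5, zero_add]
    rw [h4, mul_one] at h2
    exact (mem_support_iff.1 hd) h2
  refine ⟨∑ d ∈ f.support, monomial (d.mapRange (fun n => n / 2) (by simp)) (coeff d f), ?_⟩
  rw [← expand_zmod, map_sum]
  conv_lhs => rw [f.as_sum]
  refine Finset.sum_congr rfl fun d hd => ?_
  rw [expand_monomial]
  have h : d = 2 • (d.mapRange (fun n => n / 2) (by simp) : s →₀ ℕ) := by
    ext i
    have := heven d hd i
    simp only [Finsupp.smul_apply, Finsupp.mapRange_apply, smul_eq_mul]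
    omega
  rw [← h]

end Sqrt

section Weights

variable {s t : Type*} {w : s → ℕ} {w' : t → ℕ}

/-- An algebra map sending each variable to a weighted homogeneous element of the same weight
sends monomials to weighted homogeneous elements of the same weight. -/
theorem isWeightedHomogeneous_map_monomial (φ : MvPolynomial s F2 →ₐ[F2] MvPolynomial t F2)
    (hφ : ∀ i, IsWeightedHomogeneous w' (φ (X i)) (w i)) (d : s →₀ ℕ) (c : F2) :
    IsWeightedHomogeneous w' (φ (monomial d c)) (Finsupp.weight w d) := by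
  rw [monomial_eq, map_mul, Finsupp.prod, map_prod]
  have h1 : φ (C c) = C c := by
    rw [← algebraMap_eq, AlgHom.commutes, algebraMap_eq]
  rw [h1, Finsupp.weight_apply, Finsupp.sum]
  refine IsWeightedHomogeneous.C_mul ?_ c
  refine IsWeightedHomogeneous.prod _ _ _ fun i _ => ?_
  rw [map_pow, smul_eq_mul]
  exact (hφ i).pow (d i)

theorem isWeightedHomogeneous_map (φ : MvPolynomial s F2 →ₐ[F2] MvPolynomial t F2)
    (hφ : ∀ i, IsWeightedHomogeneous w' (φ (X i)) (w i)) {f : MvPolynomial s F2} {n : ℕ}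
    (hf : IsWeightedHomogeneous w f n) : IsWeightedHomogeneous w' (φ f) n := by
  rw [f.as_sum, map_sum]
  refine IsWeightedHomogeneous.sum _ _ _ fun d hd => ?_
  have := isWeightedHomogeneous_map_monomial φ hφ d (coeff d f)
  rwa [hf (mem_support_iff.1 hd)] at this

theorem whc_map (φ : MvPolynomial s F2 →ₐ[F2] MvPolynomial t F2)
    (hφ : ∀ i, IsWeightedHomogeneous w' (φ (X i)) (w i)) (f : MvPolynomial s F2) (n : ℕ) :
    weightedHomogeneousComponent w' n (φ f) = φ (weightedHomogeneousComponent w n f) := by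
  induction f using MvPolynomial.induction_on' with
  | monomial d c =>
    rw [weightedHomogeneousComponent_of_mem
        (isWeightedHomogeneous_map_monomial φ hφ d c),
      weightedHomogeneousComponent_of_mem (isWeightedHomogeneous_monomial w d c rfl)]
    split_ifs <;> simp
  | add f g hf hg => rw [map_add, map_add, hf, hg, map_add, map_add]


theorem exists_of_mem_support_map (φ : MvPolynomial s F2 →ₐ[F2] MvPolynomial t F2)
    (hφ : ∀ i, IsWeightedHomogeneous w' (φ (X i)) (w i)) {f : MvPolynomial s F2} {a : t →₀ ℕ}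
    (ha : a ∈ (φ f).support) :
    ∃ d ∈ f.support, Finsupp.weight w d = Finsupp.weight w' a := by
  classical
  by_contra hcon
  push Not at hcon
  rw [mem_support_iff] at ha
  apply ha
  rw [f.as_sum, map_sum, coeff_sum]
  refine Finset.sum_eq_zero fun d hd => ?_
  exact (isWeightedHomogeneous_map_monomial φ hφ d (coeff d f)).coeff_eq_zero a
    (hcon d hd).symm

end Weights

section Internal

variable {s : Type*}

/-- The weight on `s ⊕ s`. -/
abbrev ww (w : s → ℕ) : s ⊕ s → ℕ := Sum.elim w w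

/-- `Δ` is a filtered deformation of the primitive coproduct:
`Δ (X i) = X (inl i) + X (inr i) + ρ i`, where every monomial of `ρ i` involves both kinds of
variables and has weight bigger than `w i`. -/
def Good (w : s → ℕ) (Δ : MvPolynomial s F2 →ₐ[F2] MvPolynomial (s ⊕ s) F2) : Prop :=
  ∀ i, ∀ d ∈ (Δ (X i) - X (Sum.inl i) - X (Sum.inr i)).support,
    (∃ a, d (Sum.inl a) ≠ 0) ∧ (∃ b, d (Sum.inr b) ≠ 0) ∧ w i < Finsupp.weight (ww w) d

/-- Primitive elements. -/
def Prim (Δ : MvPolynomial s F2 →ₐ[F2] MvPolynomial (s ⊕ s) F2) (f : MvPolynomial s F2) : Prop :=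
  Δ f = rename Sum.inl f + rename Sum.inr f

/-- Kill the right variables. -/
noncomputable def eL : MvPolynomial (s ⊕ s) F2 →ₐ[F2] MvPolynomial s F2 :=
  aeval (Sum.elim X 0)

@[simp] theorem eL_inl (i : s) : eL (X (Sum.inl i) : MvPolynomial (s ⊕ s) F2) = X i := by
  simp [eL]

@[simp] theorem eL_inr (i : s) : eL (X (Sum.inr i) : MvPolynomial (s ⊕ s) F2) = 0 := by
  simp [eL]

theorem eL_hom (w : s → ℕ) (v : s ⊕ s) :
    IsWeightedHomogeneous w (eL (X v : MvPolynomial (s ⊕ s) F2)) (ww w v) := by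
  rcases v with i | i
  · rw [eL_inl]; exact isWeightedHomogeneous_X _ _ _
  · rw [eL_inr]; exact isWeightedHomogeneous_zero _ _ _

theorem eL_rename_inl (f : MvPolynomial s F2) : eL (rename Sum.inl f) = f := by
  have : (eL : MvPolynomial (s ⊕ s) F2 →ₐ[F2] MvPolynomial s F2).comp (rename Sum.inl)
      = AlgHom.id F2 _ := by
    ext i : 1
    simp
  exact DFunLike.congr_fun this f

theorem eL_rename_inr (f : MvPolynomial s F2) :
    eL (rename Sum.inr f) = C (constantCoeff f) := by
  have : (eL : MvPolynomial (s ⊕ s) F2 →ₐ[F2] MvPolynomial s F2).comp (rename Sum.inr)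
      = (Algebra.ofId F2 (MvPolynomial s F2)).comp (aeval 0) := by
    ext i : 1
    simp
  have h := DFunLike.congr_fun this f
  simpa [Algebra.ofId_apply, aeval_zero] using h

theorem eL_eq_zero {g : MvPolynomial (s ⊕ s) F2}
    (hg : ∀ d ∈ g.support, ∃ b, d (Sum.inr b) ≠ 0) : eL g = 0 := by
  rw [g.as_sum, map_sum]
  refine Finset.sum_eq_zero fun d hd => ?_
  obtain ⟨b, hb⟩ := hg d hd
  rw [eL, aeval_monomial, Finsupp.prod,
    Finset.prod_eq_zero (Finsupp.mem_support_iff.2 hb) (by simp [hb]), mul_zero]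

variable {w : s → ℕ} {Δ : MvPolynomial s F2 →ₐ[F2] MvPolynomial (s ⊕ s) F2}

theorem Good.eL_comp (hΔ : Good w Δ) (f : MvPolynomial s F2) : eL (Δ f) = f := by
  have : (eL : MvPolynomial (s ⊕ s) F2 →ₐ[F2] MvPolynomial s F2).comp Δ = AlgHom.id F2 _ := by
    ext i : 1
    have h : Δ (X i) = (Δ (X i) - X (Sum.inl i) - X (Sum.inr i)) + X (Sum.inl i)
        + X (Sum.inr i) := by ring
    have h0 := eL_eq_zero fun d hd => (hΔ i d hd).2.1
    rw [AlgHom.comp_apply, h, map_add, map_add, h0]
    simp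
  exact DFunLike.congr_fun this f

/-- The operator `D_i = (id ⊗ e_i^*) ∘ Δ` as a derivation. -/
noncomputable def Dd (hΔ : Good w Δ) (i : s) :
    Derivation F2 (MvPolynomial s F2) (MvPolynomial s F2) :=
  Derivation.mk'
    (eL.toLinearMap ∘ₗ (pderiv (Sum.inr i) : Derivation F2 (MvPolynomial (s ⊕ s) F2)
      (MvPolynomial (s ⊕ s) F2)).toLinearMap ∘ₗ Δ.toLinearMap)
    (by
      intro a b
      change eL (pderiv (Sum.inr i) (Δ (a * b))) = a • eL (pderiv (Sum.inr i) (Δ b)) +
        b • eL (pderiv (Sum.inr i) (Δ a))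
      simp only [map_mul, Derivation.leibniz, map_add, smul_eq_mul, hΔ.eL_comp])

theorem Dd_apply (hΔ : Good w Δ) (i : s) (f : MvPolynomial s F2) :
    Dd hΔ i f = eL (pderiv (Sum.inr i) (Δ f)) := rfl

theorem der_sum_apply {ι A : Type*} [CommRing A] [Algebra F2 A] (S : Finset ι)
    (D : ι → Derivation F2 A A) (a : A) : (∑ i ∈ S, D i) a = ∑ i ∈ S, D i a := by
  classical
  induction S using Finset.induction_on with
  | empty => simp
  | insert i S hi ih => rw [Finset.sum_insert hi, Finset.sum_insert hi, Derivation.add_apply, ih]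

theorem Dd_eq_sum (hΔ : Good w Δ) (i : s) (f : MvPolynomial s F2) (S : Finset s)
    (hS : f.vars ⊆ S) : Dd hΔ i f = ∑ j ∈ S, Dd hΔ i (X j) * pderiv j f := by
  classical
  have h : Dd hΔ i f = (∑ j ∈ S, (Dd hΔ i (X j)) • (pderiv j : Derivation F2 (MvPolynomial s F2)
      (MvPolynomial s F2))) f := by
    refine derivation_eq_of_forall_mem_vars fun j hj => ?_
    rw [der_sum_apply, Finset.sum_eq_single j]
    · simp
    · intro k _ hk
      simp [pderiv_X_of_ne (Ne.symm hk)]
    · intro hj'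
      exact absurd (hS hj) hj'
  rw [h, der_sum_apply]
  rfl

theorem pderiv_inr_rename_inl (i : s) (f : MvPolynomial s F2) :
    pderiv (Sum.inr i) (rename Sum.inl f : MvPolynomial (s ⊕ s) F2) = 0 := by
  classical
  refine pderiv_eq_zero_of_notMem_vars fun h => ?_
  have := vars_rename (τ := s ⊕ s) Sum.inl f h
  simp at this

theorem pderiv_inr_rename_inr (i : s) (f : MvPolynomial s F2) :
    pderiv (Sum.inr i) (rename Sum.inr f : MvPolynomial (s ⊕ s) F2) =
      rename Sum.inr (pderiv i f) := pderiv_rename Sum.inr_injective i f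

/-- On primitive elements `D_i` is the coefficient of `X i`. -/
theorem Dd_prim (hΔ : Good w Δ) (i : s) {f : MvPolynomial s F2} (hf : Prim Δ f) :
    Dd hΔ i f = C (coeff (Finsupp.single i 1) f) := by
  rw [Dd_apply, show Δ f = _ from hf, map_add, pderiv_inr_rename_inl, pderiv_inr_rename_inr,
    zero_add, eL_rename_inr]
  congr 1
  rw [constantCoeff_eq, coeff_pderiv]
  simp

/-- The correction terms `h_ij = D_i (X j) - δ_ij`. -/
noncomputable def hh (Δ : MvPolynomial s F2 →ₐ[F2] MvPolynomial (s ⊕ s) F2) (i j : s) :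
    MvPolynomial s F2 :=
  eL (pderiv (Sum.inr i) (Δ (X j) - X (Sum.inl j) - X (Sum.inr j)))

theorem Dd_X [DecidableEq s] (hΔ : Good w Δ) (i j : s) :
    Dd hΔ i (X j) = (if i = j then 1 else 0) + hh Δ i j := by
  rw [Dd_apply, hh]
  have h : Δ (X j) = (Δ (X j) - X (Sum.inl j) - X (Sum.inr j)) + X (Sum.inl j)
      + X (Sum.inr j) := by ring
  conv_lhs => rw [h]
  rw [map_add, map_add, map_add, map_add]
  have h1 : pderiv (Sum.inr i) (X (Sum.inl j) : MvPolynomial (s ⊕ s) F2) = 0 :=
    pderiv_X_of_ne (by simp)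
  have h2 : pderiv (Sum.inr i) (X (Sum.inr j) : MvPolynomial (s ⊕ s) F2)
      = if i = j then 1 else 0 := by
    split_ifs with hij
    · subst hij; exact pderiv_X_self _
    · exact pderiv_X_of_ne (by simpa using Ne.symm hij)
  rw [h1, h2]
  split_ifs <;> simp [add_comm]

theorem hh_support (hΔ : Good w Δ) (i j : s) {a : s →₀ ℕ} (ha : a ∈ (hh Δ i j).support) :
    w j < Finsupp.weight w a + w i := by
  obtain ⟨d, hd, hda⟩ := exists_of_mem_support_map (w := ww w) (w' := w) eL (eL_hom w) ha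
  rw [mem_support_iff, coeff_pderiv] at hd
  have h1 : d + Finsupp.single (Sum.inr i) 1 ∈
      (Δ (X j) - X (Sum.inl j) - X (Sum.inr j)).support := by
    rw [mem_support_iff]
    exact left_ne_zero_of_mul hd
  have h2 := (hΔ j _ h1).2.2
  rw [map_add, hda] at h2
  simpa [Finsupp.weight_single] using h2

/-- Key lemma: an element killed by all the `D_i` has vanishing partial derivatives. -/
theorem pderiv_eq_zero_of_Dd (hΔ : Good w Δ) {f : MvPolynomial s F2}
    (hf : ∀ i, Dd hΔ i f = 0) (j : s) : pderiv j f = 0 := by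
  classical
  by_contra hj
  have hex : ∃ n : ℕ, ∃ j : s, ∃ d ∈ (pderiv j f).support, n = Finsupp.weight w d + w j := by
    obtain ⟨d, hd⟩ := support_nonempty.2 hj
    exact ⟨_, j, d, hd, rfl⟩
  obtain ⟨j0, d0, hd0, hn⟩ := Nat.find_spec hex
  have hmin : ∀ k : s, ∀ d ∈ (pderiv k f).support,
      Finsupp.weight w d0 + w j0 ≤ Finsupp.weight w d + w k := by
    intro k d hd
    rw [← hn]
    exact Nat.find_min' hex ⟨k, d, hd, rfl⟩
  have h1 := Dd_eq_sum hΔ j0 f (insert j0 f.vars) (Finset.subset_insert _ _)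
  rw [hf j0] at h1
  have h2 := congrArg (coeff d0) h1
  rw [coeff_zero, coeff_sum] at h2
  have h3 : ∀ k ∈ insert j0 f.vars, coeff d0 (Dd hΔ j0 (X k) * pderiv k f) =
      if k = j0 then coeff d0 (pderiv j0 f) else 0 := by
    intro k _
    have h4 : coeff d0 (hh Δ j0 k * pderiv k f) = 0 := by
      rw [coeff_mul]
      refine Finset.sum_eq_zero fun x hx => ?_
      by_contra hne
      have ha : x.1 ∈ (hh Δ j0 k).support := mem_support_iff.2 (left_ne_zero_of_mul hne)
      have hb : x.2 ∈ (pderiv k f).support := mem_support_iff.2 (right_ne_zero_of_mul hne)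
      have h5 := hh_support hΔ j0 k ha
      have h6 := hmin k _ hb
      have h7 : x.1 + x.2 = d0 := Finset.HasAntidiagonal.mem_antidiagonal.1 hx
      rw [← h7, map_add] at h6
      omega
    rw [Dd_X, add_mul, coeff_add, h4, add_zero]
    by_cases hk : k = j0
    · subst hk; simp
    · simp [hk, Ne.symm hk]
  rw [Finset.sum_congr rfl h3, Finset.sum_ite_eq' _ j0, if_pos (Finset.mem_insert_self _ _)] at h2
  exact (mem_support_iff.1 hd0) h2.symm

theorem prim_of_sq {g : MvPolynomial s F2} (h : Prim Δ (g ^ 2)) : Prim Δ g := by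
  have h1 : (Δ g) ^ 2 = (rename Sum.inl g + rename Sum.inr g) ^ 2 := by
    rw [← map_pow, show Δ (g ^ 2) = _ from h, map_pow, map_pow, add_pow_two]
    rw [show (2 : MvPolynomial (s ⊕ s) F2) = 0 from CharTwo.two_eq_zero]
    ring
  have h2 : (Δ g - (rename Sum.inl g + rename Sum.inr g)) ^ 2 = 0 := by
    rw [sub_pow_two, h1, show (2 : MvPolynomial (s ⊕ s) F2) = 0 from CharTwo.two_eq_zero]
    have h3 : ∀ x : MvPolynomial (s ⊕ s) F2, x + x = 0 := fun x => CharTwo.add_self_eq_zero x
    rw [zero_mul, zero_mul, sub_zero, h3]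
  exact sub_eq_zero.1 (pow_eq_zero_iff (two_ne_zero) |>.1 h2)

theorem Prim.sq {g : MvPolynomial s F2} (h : Prim Δ g) : Prim Δ (g ^ 2) := by
  unfold Prim at h ⊢
  rw [map_pow, h, map_pow, map_pow, add_pow_two,
    show (2 : MvPolynomial (s ⊕ s) F2) = 0 from CharTwo.two_eq_zero]
  ring

/-- **(4.1)** A primitive element without linear terms is the square of a primitive element. -/
theorem exists_sq_of_prim (hΔ : Good w Δ) {f : MvPolynomial s F2} (hf : Prim Δ f)
    (hlin : ∀ i, coeff (Finsupp.single i 1) f = 0) :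
    ∃ g, f = g ^ 2 ∧ Prim Δ g := by
  obtain ⟨g, hg⟩ := exists_sq_of_pderiv_eq_zero f fun j =>
    pderiv_eq_zero_of_Dd hΔ (fun i => by rw [Dd_prim hΔ i hf, hlin i, C_0]) j
  exact ⟨g, hg, prim_of_sq (hg ▸ hf)⟩

/-- The primitive coproduct. -/
noncomputable def Δ0 (s : Type*) : MvPolynomial s F2 →ₐ[F2] MvPolynomial (s ⊕ s) F2 :=
  aeval fun i => X (Sum.inl i) + X (Sum.inr i)

theorem Δ0_X (i : s) : Δ0 s (X i) = X (Sum.inl i) + X (Sum.inr i) := by simp [Δ0]

theorem good_Δ0 (w : s → ℕ) : Good w (Δ0 s) := by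
  intro i d hd
  exfalso
  have : Δ0 s (X i) - X (Sum.inl i) - X (Sum.inr i) = 0 := by rw [Δ0_X]; ring
  rw [this] at hd
  simp at hd

theorem Δ0_hom (w : s → ℕ) (i : s) : IsWeightedHomogeneous (ww w) (Δ0 s (X i)) (w i) := by
  rw [Δ0_X]
  exact (isWeightedHomogeneous_X F2 (ww w) (Sum.inl i)).add
    (isWeightedHomogeneous_X F2 (ww w) (Sum.inr i))

theorem ord_diff_add {d1 d2 : s →₀ ℕ}
    (h1 : Ord (ww w) (Finsupp.weight w d1 + 1) (Δ (monomial d1 1) - Δ0 s (monomial d1 1)))
    (h2 : Ord (ww w) (Finsupp.weight w d2 + 1) (Δ (monomial d2 1) - Δ0 s (monomial d2 1))) :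
    Ord (ww w) (Finsupp.weight w (d1 + d2) + 1)
      (Δ (monomial (d1 + d2) 1) - Δ0 s (monomial (d1 + d2) 1)) := by
  have hm : (monomial (d1 + d2) (1 : F2)) = monomial d1 1 * monomial d2 1 := by
    rw [monomial_mul, one_mul]
  have hB1 : Ord (ww w) (Finsupp.weight w d1) (Δ0 s (monomial d1 1)) :=
    ord_of_isWeightedHomogeneous (isWeightedHomogeneous_map_monomial (Δ0 s) (Δ0_hom w) d1 1)
  have hB2 : Ord (ww w) (Finsupp.weight w d2) (Δ0 s (monomial d2 1)) :=
    ord_of_isWeightedHomogeneous (isWeightedHomogeneous_map_monomial (Δ0 s) (Δ0_hom w) d2 1)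
  rw [hm, map_mul, map_mul, map_add]
  have key : Δ (monomial d1 1) * Δ (monomial d2 1) - Δ0 s (monomial d1 1) * Δ0 s (monomial d2 1)
      = (Δ (monomial d1 1) - Δ0 s (monomial d1 1)) * (Δ (monomial d2 1) - Δ0 s (monomial d2 1))
        + (Δ (monomial d1 1) - Δ0 s (monomial d1 1)) * Δ0 s (monomial d2 1)
        + Δ0 s (monomial d1 1) * (Δ (monomial d2 1) - Δ0 s (monomial d2 1)) := by ring
  rw [key]
  refine Ord.add (Ord.add ?_ ?_) ?_
  · exact (h1.mul h2).mono (by omega)
  · exact (h1.mul hB2).mono (by omega)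
  · exact (hB1.mul h2).mono (by omega)

theorem Good.ord_diff_X (hΔ : Good w Δ) (i : s) :
    Ord (ww w) (w i + 1) (Δ (X i) - Δ0 s (X i)) := by
  have : Δ (X i) - Δ0 s (X i) = Δ (X i) - X (Sum.inl i) - X (Sum.inr i) := by
    rw [Δ0_X]; ring
  rw [this]
  intro d hd
  exact (hΔ i d hd).2.2

theorem Good.ord_diff_monomial (hΔ : Good w Δ) (d : s →₀ ℕ) :
    Ord (ww w) (Finsupp.weight w d + 1) (Δ (monomial d 1) - Δ0 s (monomial d 1)) := by
  have h0 : Ord (ww w) (Finsupp.weight w (0 : s →₀ ℕ) + 1)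
      (Δ (monomial 0 1) - Δ0 s (monomial 0 1)) := by
    have : (monomial (0 : s →₀ ℕ) (1 : F2)) = 1 := rfl
    rw [this, map_one, map_one, sub_self]
    exact Ord.zero _ _
  induction d using Finsupp.induction_linear with
  | zero => exact h0
  | add f g hf hg => exact ord_diff_add hf hg
  | single i n =>
    induction n with
    | zero => rw [Finsupp.single_zero]; exact h0
    | succ n ih =>
      rw [Finsupp.single_add]
      refine ord_diff_add ih ?_
      have h := hΔ.ord_diff_X i
      rw [Finsupp.weight_single, one_smul]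
      exact h

theorem Good.ord_diff (hΔ : Good w Δ) {f : MvPolynomial s F2} {m : ℕ} (hf : Ord w m f) :
    Ord (ww w) (m + 1) (Δ f - Δ0 s f) := by
  have h : Δ f - Δ0 s f = ∑ d ∈ f.support, C (coeff d f) *
      (Δ (monomial d 1) - Δ0 s (monomial d 1)) := by
    conv_lhs => rw [f.as_sum, map_sum, map_sum, ← Finset.sum_sub_distrib]
    refine Finset.sum_congr rfl fun d _ => ?_
    have h1 : monomial d (coeff d f) = (coeff d f) • monomial d (1 : F2) := by
      rw [smul_monomial, smul_eq_mul, mul_one]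
    rw [h1, map_smul, map_smul, ← smul_sub, smul_eq_C_mul]
  rw [h]
  refine Ord.sum _ _ fun d hd => ?_
  exact Ord.C_mul _ ((hΔ.ord_diff_monomial d).mono (by have := hf d hd; omega))

/-- The lowest weight component of a primitive element is primitive for the primitive
coproduct. -/
theorem Good.prim_whc (hΔ : Good w Δ) {f : MvPolynomial s F2} (hf : Prim Δ f) {m : ℕ}
    (hm : Ord w m f) : Prim (Δ0 s) (weightedHomogeneousComponent w m f) := by
  have h1 : weightedHomogeneousComponent (ww w) m (Δ f - Δ0 s f) = 0 :=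
    whc_eq_zero_of_ord (hΔ.ord_diff hm) (Nat.lt_succ_self m)
  rw [map_sub, sub_eq_zero, whc_map (Δ0 s) (Δ0_hom w) f m] at h1
  unfold Prim
  rw [← h1, show Δ f = _ from hf, map_add]
  rw [whc_map (w := w) (w' := ww w) (rename Sum.inl) (fun i => by
      rw [rename_X]; exact isWeightedHomogeneous_X F2 (ww w) (Sum.inl i)) f m,
    whc_map (w := w) (w' := ww w) (rename Sum.inr) (fun i => by
      rw [rename_X]; exact isWeightedHomogeneous_X F2 (ww w) (Sum.inr i)) f m]

theorem sq_mem_span {g : MvPolynomial s F2}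
    (hg : g ∈ Submodule.span F2 {h : MvPolynomial s F2 | ∃ i j, h = X i ^ (2 ^ j)}) :
    g ^ 2 ∈ Submodule.span F2 {h : MvPolynomial s F2 | ∃ i j, h = X i ^ (2 ^ j)} := by
  induction hg using Submodule.span_induction with
  | mem x hx =>
    obtain ⟨i, j, rfl⟩ := hx
    refine Submodule.subset_span ⟨i, j + 1, ?_⟩
    rw [← pow_mul, pow_succ]
  | zero => simp
  | add x y _ _ hx hy =>
    rw [add_pow_two, show (2 : MvPolynomial s F2) = 0 from CharTwo.two_eq_zero]
    simpa using Submodule.add_mem _ hx hy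
  | smul c x _ hx =>
    rw [smul_pow]
    exact Submodule.smul_mem _ _ hx

theorem Prim.constantCoeff_eq_zero (hΔ : Good w Δ) {f : MvPolynomial s F2} (hf : Prim Δ f) :
    constantCoeff f = 0 := by
  have h1 := hΔ.eL_comp f
  rw [show Δ f = _ from hf, map_add, eL_rename_inl, eL_rename_inr] at h1
  have h2 : C (constantCoeff f) = (0 : MvPolynomial s F2) := by
    simpa using h1
  simpa using h2

theorem Prim.add {f g : MvPolynomial s F2} (hf : Prim Δ f) (hg : Prim Δ g) :
    Prim Δ (f + g) := by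
  unfold Prim at *
  rw [map_add, hf, hg, map_add, map_add]
  ring

theorem Prim.neg {f : MvPolynomial s F2} (hf : Prim Δ f) : Prim Δ (-f) := by
  unfold Prim at *
  rw [map_neg, hf, map_neg, map_neg]
  ring

theorem Prim.sub {f g : MvPolynomial s F2} (hf : Prim Δ f) (hg : Prim Δ g) :
    Prim Δ (f - g) := by
  rw [sub_eq_add_neg]; exact hf.add hg.neg

theorem prim_zero : Prim Δ 0 := by simp [Prim]

theorem Prim.smul {f : MvPolynomial s F2} (c : F2) (hf : Prim Δ f) : Prim Δ (c • f) := by
  unfold Prim at *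
  rw [map_smul, hf, map_smul, map_smul, smul_add]

theorem Prim.sum {ι : Type*} (S : Finset ι) (f : ι → MvPolynomial s F2)
    (h : ∀ i ∈ S, Prim Δ (f i)) : Prim Δ (∑ i ∈ S, f i) := by
  classical
  induction S using Finset.induction_on with
  | empty => simpa using prim_zero
  | insert a S ha ih =>
    rw [Finset.sum_insert ha]
    exact (h a (Finset.mem_insert_self _ _)).add
      (ih fun i hi => h i (Finset.mem_insert_of_mem hi))

theorem prim_X0 (i : s) : Prim (Δ0 s) (X i) := by simp [Prim, Δ0]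

/-- The linear part. -/
noncomputable def lin (f : MvPolynomial s F2) : MvPolynomial s F2 :=
  ∑ i ∈ f.vars, coeff (Finsupp.single i 1) f • X i

theorem coeff_lin (f : MvPolynomial s F2) (i : s) :
    coeff (Finsupp.single i 1) (lin f) = coeff (Finsupp.single i 1) f := by
  classical
  rw [lin, coeff_sum]
  have h : ∀ j ∈ f.vars, coeff (Finsupp.single i 1) (coeff (Finsupp.single j 1) f • X j) =
      if j = i then coeff (Finsupp.single i 1) f else 0 := by
    intro j _
    have h0 : (Finsupp.single j 1 = Finsupp.single i 1) ↔ j = i :=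
      Finsupp.single_left_inj (one_ne_zero)
    rw [coeff_smul, coeff_X, smul_eq_mul]
    by_cases h : j = i
    · subst h; simp
    · rw [if_neg h, if_neg (fun hh => h (h0.1 hh)), mul_zero]
  rw [Finset.sum_congr rfl h, Finset.sum_ite_eq' _ i]
  split_ifs with hi
  · rfl
  · by_contra hne
    apply hi
    rw [mem_vars_iff_mem_support]
    exact ⟨Finsupp.single i 1, mem_support_iff.2 (Ne.symm hne), by simp⟩

theorem totalDegree_lin_le (f : MvPolynomial s F2) : (lin f).totalDegree ≤ 1 := by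
  refine totalDegree_finsetSum_le fun i _ => ?_
  exact (totalDegree_smul_le _ _).trans (by rw [totalDegree_X])

/-- Primitives for the primitive coproduct are combinations of the `X i ^ (2 ^ j)`. -/
theorem prim0_mem_span {f : MvPolynomial s F2} (hf : Prim (Δ0 s) f) :
    f ∈ Submodule.span F2 {h : MvPolynomial s F2 | ∃ i j, h = X i ^ (2 ^ j)} := by
  induction hn : f.totalDegree using Nat.strong_induction_on generalizing f with
  | _ n ih =>
    rcases Nat.eq_zero_or_pos n with h0 | hpos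
    · rw [h0] at hn
      have h1 := totalDegree_eq_zero_iff_eq_C.1 hn
      have h2 := Prim.constantCoeff_eq_zero (good_Δ0 (fun _ => 0)) hf
      rw [constantCoeff_eq] at h2
      rw [h1, h2, C_0]
      exact Submodule.zero_mem _
    · have hlinP : Prim (Δ0 s) (lin f) := by
        refine Prim.sum _ _ fun i _ => ?_
        exact (prim_X0 i).smul _
      obtain ⟨g, hg, hgP⟩ := exists_sq_of_prim (good_Δ0 (fun _ => 0)) (hf.sub hlinP)
        (fun i => by rw [coeff_sub, coeff_lin, sub_self])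
      have hdeg : g.totalDegree * 2 ≤ n := by
        rw [← totalDegree_expand, expand_zmod, ← hg, ← hn]
        refine (totalDegree_sub _ _).trans (max_le le_rfl ?_)
        exact (totalDegree_lin_le f).trans (by omega)
      have hg' := ih g.totalDegree (by omega) hgP rfl
      have h1 : f = g ^ 2 + lin f := by rw [← hg]; ring
      rw [h1]
      refine Submodule.add_mem _ (sq_mem_span hg') (Submodule.sum_mem _ fun i _ => ?_)
      exact Submodule.smul_mem _ _ (Submodule.subset_span ⟨i, 0, by simp⟩)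

theorem whc_mem_span (w : s → ℕ) (m : ℕ) {g : MvPolynomial s F2}
    (hg : g ∈ Submodule.span F2 {h : MvPolynomial s F2 | ∃ i j, h = X i ^ (2 ^ j)}) :
    weightedHomogeneousComponent w m g ∈
      Submodule.span F2 {h : MvPolynomial s F2 | ∃ i j, 2 ^ j * w i = m ∧ h = X i ^ (2 ^ j)} := by
  induction hg using Submodule.span_induction with
  | mem x hx =>
    obtain ⟨i, j, rfl⟩ := hx
    have h1 : IsWeightedHomogeneous w (X i ^ (2 ^ j) : MvPolynomial s F2) (2 ^ j * w i) := by
      simpa [smul_eq_mul] using (isWeightedHomogeneous_X F2 w i).pow (2 ^ j)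
    rw [weightedHomogeneousComponent_of_mem h1]
    split_ifs with h
    · exact Submodule.subset_span ⟨i, j, h.symm, rfl⟩
    · exact Submodule.zero_mem _
  | zero => simp
  | add x y _ _ hx hy => rw [map_add]; exact Submodule.add_mem _ hx hy
  | smul c x _ hx => rw [map_smul]; exact Submodule.smul_mem _ _ hx

/-- **(4.2)** The lowest weight component of a primitive element is a combination of
`X i ^ (2 ^ j)` of that weight. -/
theorem whc_prim_mem_span (hΔ : Good w Δ) {f : MvPolynomial s F2} (hf : Prim Δ f) {m : ℕ}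
    (hm : Ord w m f) :
    weightedHomogeneousComponent w m f ∈
      Submodule.span F2 {h : MvPolynomial s F2 | ∃ i j, 2 ^ j * w i = m ∧ h = X i ^ (2 ^ j)} := by
  have h1 := whc_mem_span w m (prim0_mem_span (hΔ.prim_whc hf hm))
  rwa [weightedHomogeneousComponent_of_mem
    (weightedHomogeneousComponent_isWeightedHomogeneous m f), if_pos rfl] at h1

/-- A linear map killing all products of three factors, two of which are generators, kills
every polynomial without constant and linear terms. -/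
theorem map_eq_zero_of_no_lin {M : Type*} [AddCommGroup M] [Module F2 M]
    (F : MvPolynomial s F2 →ₗ[F2] M) (hF : ∀ i j a, F (X i * (X j * a)) = 0)
    {g : MvPolynomial s F2} (h0 : constantCoeff g = 0)
    (h1 : ∀ i, coeff (Finsupp.single i 1) g = 0) : F g = 0 := by
  classical
  rw [g.as_sum, map_sum]
  refine Finset.sum_eq_zero fun d hd => ?_
  have hd' := mem_support_iff.1 hd
  have hd0 : d ≠ 0 := by
    rintro rfl
    rw [constantCoeff_eq] at h0
    exact hd' h0
  obtain ⟨i, hi⟩ := Finsupp.ne_iff.1 hd0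
  rw [Finsupp.zero_apply] at hi
  have hle : Finsupp.single i 1 ≤ d := by
    rw [Finsupp.single_le_iff]; omega
  obtain ⟨d1, hd1⟩ := exists_add_of_le hle
  have hd10 : d1 ≠ 0 := by
    rintro rfl
    rw [add_zero] at hd1
    rw [hd1] at hd'
    exact hd' (h1 i)
  obtain ⟨j, hj⟩ := Finsupp.ne_iff.1 hd10
  rw [Finsupp.zero_apply] at hj
  have hle' : Finsupp.single j 1 ≤ d1 := by
    rw [Finsupp.single_le_iff]; omega
  obtain ⟨d2, hd2⟩ := exists_add_of_le hle'
  have hm : monomial d (coeff d g) = X i * (X j * monomial d2 (coeff d g)) := by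
    rw [X, X, monomial_mul, monomial_mul, one_mul, one_mul, ← hd2, ← hd1]
  rw [hm, hF]

theorem map_eq_sum_lin {M : Type*} [AddCommGroup M] [Module F2 M]
    (F : MvPolynomial s F2 →ₗ[F2] M) (hF : ∀ i j a, F (X i * (X j * a)) = 0)
    {g : MvPolynomial s F2} (h0 : constantCoeff g = 0) :
    F g = ∑ i ∈ g.vars, coeff (Finsupp.single i 1) g • F (X i) := by
  have h1 : F (g - lin g) = 0 := by
    refine map_eq_zero_of_no_lin F hF ?_ fun i => by rw [coeff_sub, coeff_lin, sub_self]
    rw [map_sub, h0, lin, map_sum, zero_sub, neg_eq_zero]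
    refine Finset.sum_eq_zero fun i _ => ?_
    rw [constantCoeff_smul, constantCoeff_X, smul_zero]
  rw [map_sub, sub_eq_zero] at h1
  rw [h1, lin, map_sum]
  refine Finset.sum_congr rfl fun i _ => ?_
  rw [map_smul]

/-- **(4.3)** -/
theorem exists_sq_of_ker (hΔ : Good w Δ) {M : Type*} [AddCommGroup M] [Module F2 M]
    (F : MvPolynomial s F2 →ₗ[F2] M) (hF : ∀ i j a, F (X i * (X j * a)) = 0)
    (hli : LinearIndependent F2 fun i => F (X i)) {f : MvPolynomial s F2} (hf : Prim Δ f)
    (hker : F f = 0) : ∃ g, f = g ^ 2 ∧ Prim Δ g := by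
  refine exists_sq_of_prim hΔ hf fun i => ?_
  have h1 := map_eq_sum_lin F hF (Prim.constantCoeff_eq_zero hΔ hf)
  rw [hker] at h1
  have h2 := linearIndependent_iff'.1 hli f.vars _ h1.symm
  by_cases hi : i ∈ f.vars
  · exact h2 i hi
  · by_contra hne
    apply hi
    rw [mem_vars_iff_mem_support]
    exact ⟨Finsupp.single i 1, mem_support_iff.2 hne, by simp⟩

/-- The weight of a square. -/
theorem weight_sq {v : s → ℕ} {n : ℕ} {g : MvPolynomial s F2}
    (hg : IsWeightedHomogeneous v (g ^ 2) n) {d : s →₀ ℕ} (hd : d ∈ g.support) :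
    2 * Finsupp.weight v d = n := by
  classical
  rw [← expand_zmod] at hg
  have h1 : coeff (2 • d) (expand 2 g) ≠ 0 := by
    rw [coeff_expand_smul 2 (by norm_num)]
    exact mem_support_iff.1 hd
  have h2 := hg h1
  rwa [map_nsmul, smul_eq_mul] at h2

end Internal

end Crest.Agent.R204.Hopf407
end

-- ▼ part R204/HopfT_407

/-!
Row 204, section 04: Hopf algebra facts, transported form (helper407).

`H` is a commutative `F2`-algebra which is a polynomial algebra on a family `x : s → H`, with an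
algebra map `Δ : H → H ⊗ H`; every generator has a weight `w i`; and
`Δ (x i) = x i ⊗ 1 + 1 ⊗ x i + ρ i` with `ρ i` in the span of the `a ⊗ b`, `a`, `b` weighted
homogeneous of positive weights with sum bigger than `w i`.
-/

namespace Crest.Agent.R204.Hopf407

open MvPolynomial TensorProduct

section Transport

variable {H : Type*} [CommRing H] [Algebra F2 H] {s : Type*}

/-- Elements of `H` which are polynomials in the generators `x`, weighted homogeneous of
weight `p`. -/
noncomputable def Wt (w : s → ℕ) (x : s → H) (p : ℕ) : Submodule F2 H :=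
  (weightedHomogeneousSubmodule F2 w p).map (aeval x : MvPolynomial s F2 →ₐ[F2] H).toLinearMap

theorem mem_Wt {w : s → ℕ} {x : s → H} {p : ℕ} {a : H} :
    a ∈ Wt w x p ↔ ∃ f : MvPolynomial s F2, IsWeightedHomogeneous w f p ∧ aeval x f = a := by
  simp [Wt, Submodule.mem_map, mem_weightedHomogeneousSubmodule]

/-- Elements of `H` which are polynomials in the generators `x`, with monomials of weight at
least `p`. -/
noncomputable def WtGe (w : s → ℕ) (x : s → H) (p : ℕ) : Submodule F2 H where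
  carrier := {a | ∃ f : MvPolynomial s F2, Ord w p f ∧ aeval x f = a}
  add_mem' := by
    rintro _ _ ⟨f, hf, rfl⟩ ⟨g, hg, rfl⟩
    exact ⟨f + g, hf.add hg, map_add _ _ _⟩
  zero_mem' := ⟨0, Ord.zero _ _, map_zero _⟩
  smul_mem' := by
    rintro c _ ⟨f, hf, rfl⟩
    refine ⟨C c * f, Ord.C_mul c hf, ?_⟩
    rw [← smul_eq_C_mul, map_smul]


/-- Primitive elements. -/
def IsPrim (Δ : H →ₐ[F2] H ⊗[F2] H) (ξ : H) : Prop := Δ ξ = ξ ⊗ₜ[F2] 1 + 1 ⊗ₜ[F2] ξ

/-- The hypotheses: `H` is polynomial on the `x i` and the `x i` are primitive modulo higher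
weight. -/
structure HopfPoly (w : s → ℕ) (x : s → H) (Δ : H →ₐ[F2] H ⊗[F2] H) : Prop where
  bij : Function.Bijective (aeval x : MvPolynomial s F2 →ₐ[F2] H)
  comul : ∀ i, Δ (x i) - x i ⊗ₜ[F2] 1 - 1 ⊗ₜ[F2] x i ∈
    Submodule.span F2 {t : H ⊗[F2] H | ∃ p q a b, 0 < p ∧ 0 < q ∧ w i < p + q ∧
      a ∈ Wt w x p ∧ b ∈ Wt w x q ∧ t = a ⊗ₜ[F2] b}

/-- Exactly primitive generators. -/
theorem HopfPoly.of_prim (w : s → ℕ) {x : s → H} {Δ : H →ₐ[F2] H ⊗[F2] H}
    (hbij : Function.Bijective (aeval x : MvPolynomial s F2 →ₐ[F2] H))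
    (hprim : ∀ i, IsPrim Δ (x i)) : HopfPoly w x Δ where
  bij := hbij
  comul i := by
    have : Δ (x i) - x i ⊗ₜ[F2] 1 - 1 ⊗ₜ[F2] x i = 0 := by
      rw [show Δ (x i) = _ from hprim i]; abel
    rw [this]
    exact Submodule.zero_mem _

variable {w : s → ℕ} {x : s → H} {Δ : H →ₐ[F2] H ⊗[F2] H}

/-- The polynomial presentation as an equivalence. -/
noncomputable def pe (hx : Function.Bijective (aeval x : MvPolynomial s F2 →ₐ[F2] H)) :
    MvPolynomial s F2 ≃ₐ[F2] H := AlgEquiv.ofBijective _ hx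

@[simp] theorem pe_apply (hx : Function.Bijective (aeval x : MvPolynomial s F2 →ₐ[F2] H))
    (f : MvPolynomial s F2) : pe hx f = aeval x f := rfl

@[simp] theorem pe_symm_aeval (hx : Function.Bijective (aeval x : MvPolynomial s F2 →ₐ[F2] H))
    (f : MvPolynomial s F2) : (pe hx).symm (aeval x f) = f := (pe hx).symm_apply_apply f

@[simp] theorem aeval_pe_symm (hx : Function.Bijective (aeval x : MvPolynomial s F2 →ₐ[F2] H))
    (a : H) : aeval x ((pe hx).symm a) = a := (pe hx).apply_symm_apply a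

@[simp] theorem pe_symm_x (hx : Function.Bijective (aeval x : MvPolynomial s F2 →ₐ[F2] H))
    (i : s) : (pe hx).symm (x i) = X i := by
  have := pe_symm_aeval hx (X i)
  rwa [aeval_X] at this

/-- `H ⊗ H → F2[s ⊕ s]`. -/
noncomputable def tau (hx : Function.Bijective (aeval x : MvPolynomial s F2 →ₐ[F2] H)) :
    H ⊗[F2] H →ₐ[F2] MvPolynomial (s ⊕ s) F2 :=
  Algebra.TensorProduct.productMap
    ((rename Sum.inl : MvPolynomial s F2 →ₐ[F2] MvPolynomial (s ⊕ s) F2).comp
      ((pe hx).symm : H →ₐ[F2] MvPolynomial s F2))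
    ((rename Sum.inr : MvPolynomial s F2 →ₐ[F2] MvPolynomial (s ⊕ s) F2).comp
      ((pe hx).symm : H →ₐ[F2] MvPolynomial s F2))

theorem tau_tmul (hx : Function.Bijective (aeval x : MvPolynomial s F2 →ₐ[F2] H)) (a b : H) :
    tau hx (a ⊗ₜ b) = rename Sum.inl ((pe hx).symm a) * rename Sum.inr ((pe hx).symm b) := by
  rw [tau, Algebra.TensorProduct.productMap_apply_tmul]
  rfl

theorem tau_injective (hx : Function.Bijective (aeval x : MvPolynomial s F2 →ₐ[F2] H)) :
    Function.Injective (tau hx) := by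
  let σ : MvPolynomial (s ⊕ s) F2 →ₐ[F2] H ⊗[F2] H :=
    aeval (Sum.elim (fun i => x i ⊗ₜ 1) (fun i => 1 ⊗ₜ x i))
  have h1 : ∀ a : H, σ (rename Sum.inl ((pe hx).symm a)) = a ⊗ₜ 1 := by
    intro a
    obtain ⟨f, rfl⟩ := hx.2 a
    rw [pe_symm_aeval]
    have : σ.comp (rename Sum.inl) =
        (Algebra.TensorProduct.includeLeft : H →ₐ[F2] H ⊗[F2] H).comp (aeval x) := by
      ext i : 1
      simp [σ]
    exact DFunLike.congr_fun this f
  have h2 : ∀ a : H, σ (rename Sum.inr ((pe hx).symm a)) = 1 ⊗ₜ a := by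
    intro a
    obtain ⟨f, rfl⟩ := hx.2 a
    rw [pe_symm_aeval]
    have : σ.comp (rename Sum.inr) =
        (Algebra.TensorProduct.includeRight : H →ₐ[F2] H ⊗[F2] H).comp (aeval x) := by
      ext i : 1
      simp [σ]
    exact DFunLike.congr_fun this f
  have h3 : σ.comp (tau hx) = AlgHom.id F2 _ := by
    apply Algebra.TensorProduct.ext'
    intro a b
    rw [AlgHom.comp_apply, tau_tmul, map_mul, h1, h2, Algebra.TensorProduct.tmul_mul_tmul,
      mul_one, one_mul]
    rfl
  exact Function.LeftInverse.injective (g := σ) fun t => DFunLike.congr_fun h3 t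

/-- The coproduct in the internal model. -/
noncomputable def Δi (hx : Function.Bijective (aeval x : MvPolynomial s F2 →ₐ[F2] H))
    (Δ : H →ₐ[F2] H ⊗[F2] H) : MvPolynomial s F2 →ₐ[F2] MvPolynomial (s ⊕ s) F2 :=
  (tau hx).comp (Δ.comp (aeval x))

theorem Δi_apply (hx : Function.Bijective (aeval x : MvPolynomial s F2 →ₐ[F2] H))
    (f : MvPolynomial s F2) : Δi hx Δ f = tau hx (Δ (aeval x f)) := rfl

theorem prim_iff (hx : Function.Bijective (aeval x : MvPolynomial s F2 →ₐ[F2] H))
    (f : MvPolynomial s F2) : Prim (Δi hx Δ) f ↔ IsPrim Δ (aeval x f) := by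
  unfold Prim IsPrim
  rw [Δi_apply, ← (tau_injective hx).eq_iff, map_add, tau_tmul, tau_tmul]
  simp

theorem HopfPoly.good (h : HopfPoly w x Δ) : Good w (Δi h.bij Δ) := by
  classical
  intro i
  have key : ∀ t ∈ Submodule.span F2 {t : H ⊗[F2] H | ∃ p q a b, 0 < p ∧ 0 < q ∧ w i < p + q ∧
      a ∈ Wt w x p ∧ b ∈ Wt w x q ∧ t = a ⊗ₜ[F2] b},
      ∀ d ∈ (tau h.bij t).support,
      (∃ a, d (Sum.inl a) ≠ 0) ∧ (∃ b, d (Sum.inr b) ≠ 0) ∧ w i < Finsupp.weight (ww w) d := by
    intro t ht
    induction ht using Submodule.span_induction with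
    | mem t ht =>
      obtain ⟨p, q, a, b, hp, hq, hpq, ha, hb, rfl⟩ := ht
      obtain ⟨f, hf, rfl⟩ := mem_Wt.1 ha
      obtain ⟨g, hg, rfl⟩ := mem_Wt.1 hb
      intro d hd
      rw [tau_tmul, pe_symm_aeval, pe_symm_aeval] at hd
      obtain ⟨d1, hd1, d2, hd2, rfl⟩ := Finset.mem_add.1 (support_mul _ _ hd)
      obtain ⟨e1, he1, he1'⟩ := coeff_rename_ne_zero _ _ _ (mem_support_iff.1 hd1)
      obtain ⟨e2, he2, he2'⟩ := coeff_rename_ne_zero _ _ _ (mem_support_iff.1 hd2)
      have hw1 : Finsupp.weight (ww w) d1 = p := by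
        have := isWeightedHomogeneous_map (w := w) (w' := ww w)
          (rename Sum.inl : MvPolynomial s F2 →ₐ[F2] MvPolynomial (s ⊕ s) F2) (fun i => by
          rw [rename_X]; exact isWeightedHomogeneous_X F2 (ww w) (Sum.inl i)) hf
        exact this (mem_support_iff.1 hd1)
      have hw2 : Finsupp.weight (ww w) d2 = q := by
        have := isWeightedHomogeneous_map (w := w) (w' := ww w)
          (rename Sum.inr : MvPolynomial s F2 →ₐ[F2] MvPolynomial (s ⊕ s) F2) (fun i => by
          rw [rename_X]; exact isWeightedHomogeneous_X F2 (ww w) (Sum.inr i)) hg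
        exact this (mem_support_iff.1 hd2)
      have hd1e : e1 ≠ 0 := by
        rintro rfl
        rw [Finsupp.mapDomain_zero] at he1
        rw [← he1, map_zero] at hw1
        omega
      have hd2e : e2 ≠ 0 := by
        rintro rfl
        rw [Finsupp.mapDomain_zero] at he2
        rw [← he2, map_zero] at hw2
        omega
      obtain ⟨a, ha⟩ := Finsupp.ne_iff.1 hd1e
      obtain ⟨b, hb⟩ := Finsupp.ne_iff.1 hd2e
      refine ⟨⟨a, ?_⟩, ⟨b, ?_⟩, ?_⟩
      · rw [Finsupp.add_apply, ← he1, Finsupp.mapDomain_apply Sum.inl_injective]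
        have : e1 a ≠ 0 := by simpa using ha
        omega
      · rw [Finsupp.add_apply, ← he2, Finsupp.mapDomain_apply Sum.inr_injective]
        have : e2 b ≠ 0 := by simpa using hb
        omega
      · rw [map_add, hw1, hw2]
        exact hpq
    | zero => intro d hd; simp at hd
    | add a b _ _ ha hb =>
      intro d hd
      rw [map_add] at hd
      rcases Finset.mem_union.1 (support_add hd) with h | h
      · exact ha d h
      · exact hb d h
    | smul c a _ ha =>
      intro d hd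
      rw [map_smul] at hd
      exact ha d (support_smul hd)
  have h1 : Δi h.bij Δ (X i) - X (Sum.inl i) - X (Sum.inr i) =
      tau h.bij (Δ (x i) - x i ⊗ₜ[F2] 1 - 1 ⊗ₜ[F2] x i) := by
    rw [map_sub, map_sub, Δi_apply, aeval_X, tau_tmul, tau_tmul]
    simp
  rw [h1]
  exact key _ (h.comul i)


theorem IsPrim.sq_of_bij (hx : Function.Bijective (aeval x : MvPolynomial s F2 →ₐ[F2] H))
    {a : H} (ha : IsPrim Δ a) : IsPrim Δ (a ^ 2) := by
  obtain ⟨f, rfl⟩ := hx.2 a
  rw [← map_pow, ← prim_iff hx] at *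
  exact ha.sq

theorem IsPrim.add {a b : H} (ha : IsPrim Δ a) (hb : IsPrim Δ b) : IsPrim Δ (a + b) := by
  unfold IsPrim at *
  rw [map_add, ha, hb, add_tmul, tmul_add]
  abel

theorem isPrim_zero : IsPrim Δ 0 := by simp [IsPrim]

theorem IsPrim.smul {a : H} (c : F2) (ha : IsPrim Δ a) : IsPrim Δ (c • a) := by
  unfold IsPrim at *
  rw [map_smul, ha, smul_add, smul_tmul', tmul_smul]

/-- The submodule of primitive elements. -/
def PrimSub (Δ : H →ₐ[F2] H ⊗[F2] H) : Submodule F2 H where
  carrier := {a | IsPrim Δ a}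
  add_mem' := fun ha hb => IsPrim.add ha hb
  zero_mem' := isPrim_zero
  smul_mem' := fun c _ ha => IsPrim.smul c ha


/-- The weight component. -/
noncomputable def cmp (w : s → ℕ)
    (hx : Function.Bijective (aeval x : MvPolynomial s F2 →ₐ[F2] H)) (p : ℕ) : H →ₗ[F2] H :=
  (aeval x : MvPolynomial s F2 →ₐ[F2] H).toLinearMap ∘ₗ weightedHomogeneousComponent w p ∘ₗ
    (pe hx).symm.toLinearMap

theorem cmp_aeval (w : s → ℕ) (hx : Function.Bijective (aeval x : MvPolynomial s F2 →ₐ[F2] H))
    (p : ℕ) (f : MvPolynomial s F2) :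
    cmp w hx p (aeval x f) = aeval x (weightedHomogeneousComponent w p f) := by
  simp [cmp]


theorem cmp_of_mem {w : s → ℕ} (hx : Function.Bijective (aeval x : MvPolynomial s F2 →ₐ[F2] H))
    {p : ℕ} {a : H} (ha : a ∈ Wt w x p) (q : ℕ) : cmp w hx q a = if q = p then a else 0 := by
  obtain ⟨f, hf, rfl⟩ := mem_Wt.1 ha
  rw [cmp_aeval, weightedHomogeneousComponent_of_mem hf]
  split_ifs <;> simp

theorem cmp_self {w : s → ℕ} (hx : Function.Bijective (aeval x : MvPolynomial s F2 →ₐ[F2] H))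
    {p : ℕ} {a : H} (ha : a ∈ Wt w x p) : cmp w hx p a = a := by
  rw [cmp_of_mem hx ha, if_pos rfl]

theorem Wt_le_WtGe {w : s → ℕ} {p m : ℕ} (h : m ≤ p) : Wt w x p ≤ WtGe w x m := by
  intro a ha
  obtain ⟨f, hf, rfl⟩ := mem_Wt.1 ha
  exact ⟨f, (ord_of_isWeightedHomogeneous hf).mono h, rfl⟩

theorem mem_WtGe_iff {w : s → ℕ} (hx : Function.Bijective (aeval x : MvPolynomial s F2 →ₐ[F2] H))
    {m : ℕ} {a : H} : a ∈ WtGe w x m ↔ ∀ p < m, cmp w hx p a = 0 := by
  classical
  constructor
  · rintro ⟨f, hf, rfl⟩ p hp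
    rw [cmp_aeval, whc_eq_zero_of_ord hf hp, map_zero]
  · intro h
    obtain ⟨f, rfl⟩ := hx.2 a
    refine ⟨f, fun d hd => ?_, rfl⟩
    by_contra hlt
    push Not at hlt
    have h1 := h _ hlt
    rw [cmp_aeval] at h1
    have h2 : weightedHomogeneousComponent w (Finsupp.weight w d) f = 0 :=
      hx.1 (by rw [h1, map_zero])
    have h3 := congrArg (coeff d) h2
    rw [coeff_weightedHomogeneousComponent, if_pos rfl, coeff_zero] at h3
    exact (mem_support_iff.1 hd) h3

/-- Elements with the same weight components are equal. -/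
theorem eq_of_cmp_eq {w : s → ℕ} (hx : Function.Bijective (aeval x : MvPolynomial s F2 →ₐ[F2] H))
    {a b : H} (h : ∀ p, cmp w hx p a = cmp w hx p b) : a = b := by
  classical
  obtain ⟨f, rfl⟩ := hx.2 a
  obtain ⟨g, rfl⟩ := hx.2 b
  congr 1
  ext d
  have h1 := h (Finsupp.weight w d)
  rw [cmp_aeval, cmp_aeval] at h1
  have h2 := congrArg (coeff d) (hx.1 h1)
  rwa [coeff_weightedHomogeneousComponent, coeff_weightedHomogeneousComponent, if_pos rfl,
    if_pos rfl] at h2

theorem exists_lowest_aux (w : s → ℕ)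
    (hx : Function.Bijective (aeval x : MvPolynomial s F2 →ₐ[F2] H)) {a : H} (ha : a ≠ 0) :
    ∃ m, a ∈ WtGe w x m ∧ cmp w hx m a ≠ 0 := by
  classical
  have hex : ∃ m, cmp w hx m a ≠ 0 := by
    by_contra hcon
    push Not at hcon
    exact ha (eq_of_cmp_eq (w := w) hx fun p => by rw [hcon p, map_zero])
  refine ⟨Nat.find hex, ?_, Nat.find_spec hex⟩
  rw [mem_WtGe_iff hx]
  intro p hp
  have := Nat.find_min hex hp
  push Not at this
  exact this




/-- Degrees of square roots. -/
theorem mem_Wt_of_sq_mem {v : s → ℕ}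
    (hx : Function.Bijective (aeval x : MvPolynomial s F2 →ₐ[F2] H)) {m : ℕ} {a : H}
    (ha : a ^ 2 ∈ Wt v x (2 * m)) : a ∈ Wt v x m := by
  obtain ⟨f, rfl⟩ := hx.2 a
  obtain ⟨g, hg, hgf⟩ := mem_Wt.1 ha
  rw [← map_pow] at hgf
  rw [hx.1 hgf] at hg
  refine mem_Wt.2 ⟨f, fun d hd => ?_, rfl⟩
  have := weight_sq hg (mem_support_iff.2 hd)
  omega

/-- Squares of odd degree vanish. -/
theorem eq_zero_of_sq_mem_odd {v : s → ℕ}
    (hx : Function.Bijective (aeval x : MvPolynomial s F2 →ₐ[F2] H)) {n : ℕ} {a : H}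
    (ha : a ^ 2 ∈ Wt v x n) (hn : Odd n) : a = 0 := by
  obtain ⟨f, rfl⟩ := hx.2 a
  obtain ⟨g, hg, hgf⟩ := mem_Wt.1 ha
  rw [← map_pow] at hgf
  rw [hx.1 hgf] at hg
  have : f = 0 := by
    by_contra hf
    obtain ⟨d, hd⟩ := support_nonempty.2 hf
    have := weight_sq hg hd
    obtain ⟨k, hk⟩ := hn
    omega
  rw [this, map_zero]


/-- **(4.3)** A primitive element killed by a linear map `F` which kills the decomposables and is
injective on the indecomposables is the square of a primitive element. -/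
theorem HopfPoly.exists_sq_of_ker (h : HopfPoly w x Δ) {M : Type*} [AddCommGroup M] [Module F2 M]
    (F : H →ₗ[F2] M) (hF : ∀ i j a, F (x i * (x j * a)) = 0)
    (hli : LinearIndependent F2 fun i => F (x i)) {ξ : H} (hξ : IsPrim Δ ξ) (hker : F ξ = 0) :
    ∃ ζ, ξ = ζ ^ 2 ∧ IsPrim Δ ζ := by
  obtain ⟨f, rfl⟩ := h.bij.2 ξ
  obtain ⟨g, hg, hgP⟩ := Hopf407.exists_sq_of_ker h.good
    (F ∘ₗ (aeval x : MvPolynomial s F2 →ₐ[F2] H).toLinearMap)
    (fun i j a => by simpa using hF i j (aeval x a)) (by simpa using hli)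
    ((prim_iff h.bij f).2 hξ) (by simpa using hker)
  exact ⟨aeval x g, by rw [hg, map_pow], (prim_iff h.bij g).1 hgP⟩





/-- **(4.2)** The lowest weight component of a primitive element is a combination of the
`x i ^ 2 ^ j` of that weight. -/
theorem HopfPoly.cmp_mem_span (h : HopfPoly w x Δ) {ξ : H} (hξ : IsPrim Δ ξ) {m : ℕ}
    (hm : ξ ∈ WtGe w x m) :
    cmp w h.bij m ξ ∈ Submodule.span F2 {a : H | ∃ i j, 2 ^ j * w i = m ∧ a = x i ^ (2 ^ j)} := by
  obtain ⟨f, hf, rfl⟩ := hm
  have h1 := whc_prim_mem_span h.good ((prim_iff h.bij f).2 hξ) hf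
  rw [cmp_aeval]
  have h2 := Submodule.mem_map_of_mem (f := (aeval x : MvPolynomial s F2 →ₐ[F2] H).toLinearMap) h1
  rw [Submodule.map_span] at h2
  refine Submodule.span_mono ?_ h2
  rintro _ ⟨_, ⟨i, j, hij, rfl⟩, rfl⟩
  exact ⟨i, j, hij, by simp⟩

/-- **(4.2)** Existence of the lowest weight component. -/
theorem HopfPoly.exists_lowest (h : HopfPoly w x Δ) {ξ : H} (hξ : IsPrim Δ ξ) (h0 : ξ ≠ 0) :
    ∃ m, (∃ i j, 2 ^ j * w i = m) ∧ ξ ∈ WtGe w x m ∧ cmp w h.bij m ξ ≠ 0 ∧
      cmp w h.bij m ξ ∈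
        Submodule.span F2 {a : H | ∃ i j, 2 ^ j * w i = m ∧ a = x i ^ (2 ^ j)} := by
  obtain ⟨m, hm, hne⟩ := exists_lowest_aux w h.bij h0
  have hsp := h.cmp_mem_span hξ hm
  refine ⟨m, ?_, hm, hne, hsp⟩
  by_contra hcon
  apply hne
  have : {a : H | ∃ i j, 2 ^ j * w i = m ∧ a = x i ^ (2 ^ j)} = ∅ := by
    ext a
    simp only [Set.mem_ofPred_eq, Set.mem_empty_iff_false, iff_false]
    rintro ⟨i, j, hij, _⟩
    exact hcon ⟨i, j, hij⟩
  rw [this, Submodule.span_empty] at hsp
  exact (Submodule.mem_bot F2).1 hsp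

/-- The powers `x i ^ 2 ^ j` of primitive generators are primitive. -/
theorem isPrim_pow_two_pow (hx : Function.Bijective (aeval x : MvPolynomial s F2 →ₐ[F2] H))
    {a : H} (ha : IsPrim Δ a) (j : ℕ) : IsPrim Δ (a ^ (2 ^ j)) := by
  induction j with
  | zero => simpa using ha
  | succ j ih =>
    rw [pow_succ, pow_mul]
    exact ih.sq_of_bij hx

/-- Primitives of a primitively generated polynomial Hopf algebra. -/
theorem isPrim_iff_mem_span (hx : Function.Bijective (aeval x : MvPolynomial s F2 →ₐ[F2] H))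
    (hprim : ∀ i, IsPrim Δ (x i)) (ξ : H) :
    IsPrim Δ ξ ↔ ξ ∈ Submodule.span F2 {a : H | ∃ i j, a = x i ^ (2 ^ j)} := by
  constructor
  · intro hξ
    have h := HopfPoly.of_prim (fun _ : s => 0) hx hprim
    have h0 : ξ ∈ WtGe (fun _ : s => 0) x 0 := by
      obtain ⟨f, rfl⟩ := hx.2 ξ
      exact ⟨f, ord_zero _ _, rfl⟩
    have h1 := h.cmp_mem_span hξ h0
    have h2 : ξ ∈ Wt (fun _ : s => 0) x 0 := by
      obtain ⟨f, rfl⟩ := hx.2 ξ
      refine mem_Wt.2 ⟨f, fun d _ => ?_, rfl⟩
      rw [Finsupp.weight_apply]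
      simp [Finsupp.sum]
    rw [cmp_self h.bij h2] at h1
    refine Submodule.span_mono ?_ h1
    rintro _ ⟨i, j, _, rfl⟩
    exact ⟨i, j, rfl⟩
  · intro hξ
    have h1 : Submodule.span F2 {a : H | ∃ i j, a = x i ^ (2 ^ j)} ≤ PrimSub Δ := by
      rw [Submodule.span_le]
      rintro _ ⟨i, j, rfl⟩
      exact isPrim_pow_two_pow hx (hprim i) j
    exact h1 hξ

/-- Graded version: primitives of degree `n`, for any grading `v` of the generators. -/
theorem isPrim_iff_mem_span_deg
    (hx : Function.Bijective (aeval x : MvPolynomial s F2 →ₐ[F2] H))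
    (hprim : ∀ i, IsPrim Δ (x i)) (v : s → ℕ) (n : ℕ) (ξ : H) :
    (IsPrim Δ ξ ∧ ξ ∈ Wt v x n) ↔
      ξ ∈ Submodule.span F2 {a : H | ∃ i j, 2 ^ j * v i = n ∧ a = x i ^ (2 ^ j)} := by
  constructor
  · rintro ⟨hξ, hn⟩
    have h := HopfPoly.of_prim v hx hprim
    have h1 := h.cmp_mem_span hξ (Wt_le_WtGe le_rfl hn)
    rwa [cmp_self h.bij hn] at h1
  · intro hξ
    constructor
    · rw [isPrim_iff_mem_span hx hprim]
      refine Submodule.span_mono ?_ hξ
      rintro _ ⟨i, j, _, rfl⟩
      exact ⟨i, j, rfl⟩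
    · have h1 : Submodule.span F2 {a : H | ∃ i j, 2 ^ j * v i = n ∧ a = x i ^ (2 ^ j)} ≤
          Wt v x n := by
        rw [Submodule.span_le]
        rintro _ ⟨i, j, hij, rfl⟩
        refine mem_Wt.2 ⟨X i ^ (2 ^ j), ?_, by simp⟩
        rw [← hij]
        simpa [smul_eq_mul] using (isWeightedHomogeneous_X F2 v i).pow (2 ^ j)
      exact h1 hξ




end Transport

end Crest.Agent.R204.Hopf407
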