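import Crest.Agent.R204.Thm3c_737
import Crest.Agent.R204.Spec_114

-- ▼ part R204/Thm3D_85
section

/-!
# Row 204, Theorem 3: dimension bound without linear independence, and the comparison principle
(helper85)

For any `O : Ops H` with fundamental class `x` of degree `k` (`k ≥ 0`):
* `Ops.finrank_map_le` : the image of `φ_r` in degree `k + t` has dimension `≤ #Adm r k t`;
* `Ops.wspan` : the span of ALL words of length `r` and degree `k + t`, `wspan_le`, `finrank_wspan_le`;
* `Ops.comparison` : a linear map which is injective on admissible words is injective on the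
  image of `φ_r` (in particular on the span of all words), and the admissible words are a basis.
-/

set_option autoImplicit false

namespace Crest.Agent.R204.Thm3

open Finset

variable {H : Type*} [AddCommGroup H] [Module (ZMod 2) H] (O : Ops H)

/-- the squeeze, first half: only an upper bound -/
theorem Ops.finrank_map_le_of (x : H) (r t : ℕ) (V : Submodule (ZMod 2) (MvPolynomial (Fin r) (ZMod 2)))
    [Module.Finite (ZMod 2) V] (hV : ∀ u : H →ₗ[ZMod 2] ZMod 2, O.fpoly x r t u ∈ V) :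
    Module.finrank (ZMod 2) ((homG r t).map (O.phi x r)) ≤ Module.finrank (ZMod 2) V := by
  set f : homG r t →ₗ[ZMod 2] H := (O.phi x r).domRestrict (homG r t) with hf
  set g : homG r t →ₗ[ZMod 2] Module.Dual (ZMod 2) V :=
    ((LinearMap.flip (pr r)).domRestrict (homG r t)).compr₂ LinearMap.id |>.compl₁₂ LinearMap.id V.subtype
    with hg
  have hgapp : ∀ (γ : homG r t) (p : V), g γ p = pr r (p : MvPolynomial (Fin r) (ZMod 2)) (γ : Gam r) :=
    fun γ p => rfl
  have hker : LinearMap.ker g ≤ LinearMap.ker f := by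
    intro γ hγ
    rw [LinearMap.mem_ker] at hγ ⊢
    refine (Module.forall_dual_apply_eq_zero_iff (ZMod 2) _).1 fun u => ?_
    have := O.pr_fpoly x u γ.2
    rw [← hgapp γ ⟨_, hV u⟩, hγ] at this
    exact this.symm
  have h3 : Module.finrank (ZMod 2) (LinearMap.range g) ≤ Module.finrank (ZMod 2) V := by
    refine (Submodule.finrank_le _).trans ?_
    rw [Subspace.dual_finrank_eq]
  have h4 := LinearMap.finrank_range_add_finrank_ker f
  have h5 := LinearMap.finrank_range_add_finrank_ker g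
  have h6 : Module.finrank (ZMod 2) (LinearMap.ker g) ≤ Module.finrank (ZMod 2) (LinearMap.ker f) :=
    Submodule.finrank_mono hker
  have h7 : (homG r t).map (O.phi x r) = LinearMap.range f := by
    rw [hf]
    ext y
    simp only [Submodule.mem_map, LinearMap.mem_range, LinearMap.domRestrict_apply, Subtype.exists,
      exists_prop]
  rw [h7]
  omega

theorem card_adm_zero (k : ℕ) : Nat.card (Adm 0 k 0) = 1 := by
  have : Unique (Adm 0 k 0) := by
    refine ⟨⟨⟨Fin.elim0, fun i => i.elim0, by simp⟩⟩, fun m => Subtype.ext (funext fun i => i.elim0)⟩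
  exact Nat.card_unique

/-- **the image of `φ_r` in degree `k + t` has dimension at most the number of admissible words** -/
theorem Ops.finrank_map_le {k : ℕ} {x : H} (hx : O.Base k x) : ∀ {r t : ℕ} (_ : t ≤ O.M),
    Module.finrank (ZMod 2) ((homG r t).map (O.phi x r)) ≤ Nat.card (Adm r k t)
  | 0, t, ht => by
    rcases Nat.eq_zero_or_pos t with rfl | h0
    · rw [card_adm_zero]
      have h1 : (homG 0 0).map (O.phi x 0) ≤ Submodule.span (ZMod 2) {x} := by
        rintro _ ⟨γ, hγ, rfl⟩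
        refine homG_induction (P := fun γ => O.phi x 0 γ ∈ Submodule.span (ZMod 2) {x}) (by simp)
          ?_ ?_ hγ
        · intro a b ha hb; rw [map_add]; exact Submodule.add_mem _ ha hb
        · intro m _
          rw [phi_single, tw_zero]
          exact Submodule.mem_span_singleton_self x
      refine (Submodule.finrank_mono h1).trans ?_
      refine (finrank_span_le_card (R := ZMod 2) ({x} : Set H)).trans ?_
      simp
    · have h1 : (homG 0 t).map (O.phi x 0) = ⊥ := by
        rw [eq_bot_iff]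
        rintro _ ⟨γ, hγ, rfl⟩
        refine homG_induction (P := fun γ => O.phi x 0 γ ∈ (⊥ : Submodule (ZMod 2) H)) (by simp)
          ?_ ?_ hγ
        · intro a b ha hb; rw [map_add]; exact Submodule.add_mem _ ha hb
        · intro m hm
          simp at hm
          omega
      rw [h1]
      simp
  | r + 1, t, ht =>
    (O.finrank_map_le_of x (r + 1) t (MG r k t) fun u => O.fpoly_mem hx ht u).trans (finrank_MG_le r k t)

/-- the span of ALL words of length `r` and degree `k + t` -/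
def Ops.wspan (x : H) (r k t : ℕ) : Submodule (ZMod 2) H :=
  Submodule.span (ZMod 2) {y | ∃ m : Fin r → ℕ, qdeg k m = k + t ∧ y = O.qw m x}

theorem Ops.wspan_le {k : ℕ} {x : H} (hx : O.Base k x) {r t : ℕ} (ht : t ≤ O.M) :
    O.wspan x r k t ≤ (homG r t).map (O.phi x r) := by
  refine Submodule.span_le.2 ?_
  rintro _ ⟨m, hm, rfl⟩
  obtain ⟨γ, hγ, h⟩ := O.qw_mem hx m hm ht
  exact ⟨γ, hγ, h⟩


/-- if the admissible words are linearly independent they are a basis of the image of `φ_r` -/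
theorem Ops.map_eq_span {k : ℕ} {x : H} (hx : O.Base k x) {r t : ℕ} (ht : t ≤ O.M)
    (hlin : LinearIndependent (ZMod 2) (fun m : Adm r k t => O.qw m.1 x)) :
    (homG r t).map (O.phi x r) =
      Submodule.span (ZMod 2) (Set.range fun m : Adm r k t => O.qw m.1 x) := by
  symm
  have := Fintype.ofFinite (Adm r k t)
  refine Submodule.eq_of_le_of_finrank_le (Submodule.span_le.2 ?_) ?_
  · rintro _ ⟨m, rfl⟩
    obtain ⟨γ, hγ, h⟩ := O.qw_mem hx m.1 m.2.2 ht
    exact ⟨γ, hγ, h⟩
  · rw [finrank_span_eq_card hlin, ← Nat.card_eq_fintype_card]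
    exact O.finrank_map_le hx ht

theorem Ops.wspan_eq_span {k : ℕ} {x : H} (hx : O.Base k x) {r t : ℕ} (ht : t ≤ O.M)
    (hlin : LinearIndependent (ZMod 2) (fun m : Adm r k t => O.qw m.1 x)) :
    O.wspan x r k t = Submodule.span (ZMod 2) (Set.range fun m : Adm r k t => O.qw m.1 x) := by
  refine le_antisymm ((O.wspan_le hx ht).trans (O.map_eq_span hx ht hlin).le) (Submodule.span_mono ?_)
  rintro _ ⟨m, rfl⟩
  exact ⟨m.1, m.2.2, rfl⟩

/-- **the comparison principle** -/
theorem Ops.comparison {H' : Type*} [AddCommGroup H'] [Module (ZMod 2) H'] {k : ℕ} {x : H}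
    (hx : O.Base k x) {r t : ℕ} (ht : t ≤ O.M) (F : H →ₗ[ZMod 2] H')
    (hF : LinearIndependent (ZMod 2) (fun m : Adm r k t => F (O.qw m.1 x))) :
    LinearIndependent (ZMod 2) (fun m : Adm r k t => O.qw m.1 x) ∧
    (∀ y ∈ (homG r t).map (O.phi x r), F y = 0 → y = 0) ∧
    (∀ y ∈ O.wspan x r k t, F y = 0 → y = 0) := by
  have hlin : LinearIndependent (ZMod 2) (fun m : Adm r k t => O.qw m.1 x) :=
    LinearIndependent.of_comp F hF
  have h1 : ∀ y ∈ (homG r t).map (O.phi x r), F y = 0 → y = 0 := by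
    intro y hy hFy
    rw [O.map_eq_span hx ht hlin] at hy
    have := Fintype.ofFinite (Adm r k t)
    obtain ⟨c, rfl⟩ := (Submodule.mem_span_range_iff_exists_fun (ZMod 2)).1 hy
    rw [map_sum] at hFy
    simp only [map_smul] at hFy
    have h2 := Fintype.linearIndependent_iff.1 hF c hFy
    exact Finset.sum_eq_zero fun m _ => by rw [h2 m, zero_smul]
  exact ⟨hlin, h1, fun y hy => h1 y (O.wspan_le hx ht hy)⟩



end Crest.Agent.R204.Thm3
end

-- ▼ part R204/TowerOps_85
section

/-!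
# Row 204: the operation algebra `Ops` of one stage of `Spec_114.Tower` (helper85)

* `linQ` : the Araki–Kudo operations as linear maps;
* `mkOps` : `Thm3.Ops` from the facts about ONE space (ring `H`, degrees, `T`, `Q`, `Sq`);
* `towerOps` : the instance for stage `k` of a `Spec114.Tower`;
* `towerBase` (`k ≥ 1`), `towerBase0` (`k = 0`);
* `tw_eq`, `qw_eq`, `qdeg_eq_wdeg` : words as lists.
-/

set_option autoImplicit false

noncomputable section

namespace Crest.Agent.R204.TowerOps85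

open Thm3 Finset
open scoped TensorProduct

theorem add_self_eq {H : Type*} [AddCommGroup H] [Module (ZMod 2) H] (y : H) : y + y = 0 := by
  have : y + y = (2 : ZMod 2) • y := by rw [two_smul]
  rw [this, show (2 : ZMod 2) = 0 from rfl, zero_smul]

section one

variable {H : Type*} [CommRing H] [Algebra (ZMod 2) H]

theorem add_mul_self' (y z : H) : (y + z) * (y + z) = y * y + z * z := by
  have : (y + z) * (y + z) = y * y + z * z + (y * z + y * z) := by ring
  rw [this, add_self_eq, add_zero]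

/-- the operation `Q_i` as a linear map (`0` for `i > D + 1`) -/
def linQ (D : ℕ) (Q : ℕ → H → H) (h0 : ∀ y, Q 0 y = y * y)
    (hadd : ∀ i, 1 ≤ i → i ≤ D + 1 → ∀ y z, Q i (y + z) = Q i y + Q i z) (i : ℕ) : H →ₗ[ZMod 2] H :=
  if h : i ≤ D + 1 then
    (AddMonoidHom.mk' (Q i) (fun y z => by
      rcases Nat.eq_zero_or_pos i with rfl | hi
      · rw [h0, h0, h0, add_mul_self']
      · exact hadd i hi h y z)).toZModLinearMap 2
  else 0

theorem linQ_apply (D : ℕ) (Q : ℕ → H → H) (h0 : ∀ y, Q 0 y = y * y)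
    (hadd : ∀ i, 1 ≤ i → i ≤ D + 1 → ∀ y z, Q i (y + z) = Q i y + Q i z) {i : ℕ} (hi : i ≤ D + 1) (y : H) :
    linQ D Q h0 hadd i y = Q i y := by
  rw [linQ, dif_pos hi]
  rfl

/-- `Q^s` on a class of degree `u` -/
def qup (Q : ℕ → H → H) (s u : ℕ) (y : H) : H := if u ≤ s then Q (s - u) y else 0

/-- **`Ops` from the facts about one space** (`M = D + 1`) -/
def mkOps (D : ℕ) (gr : ℕ → Submodule (ZMod 2) H) (Sq T : ℕ → (H →ₗ[ZMod 2] H)) (Q : ℕ → H → H)
    (hsq0 : ∀ y, Sq 0 y = y)
    (hsqgr : ∀ a t, ∀ y ∈ gr t, Sq a y ∈ gr (t - a))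
    (hunst : ∀ a t, ∀ y ∈ gr t, t < 2 * a → Sq a y = 0)
    (hTgr : ∀ i ≤ D + 1, ∀ t, ∀ y ∈ gr t, T i y ∈ gr (t + i))
    (hSqT : ∀ i ≤ D + 1, ∀ (a : ℕ) (y : H), Sq a (T i y) =
      ∑ b ∈ range (a + 1), (if 2 * b ≤ i then (Nat.choose (i - b) b : ZMod 2) else 0) •
        T (i - b) (Sq (a - b) y))
    (hgl2 : ∀ i j, i + j ≤ D + 1 → ∀ y, T i (T j y) = T j (T i y) ∧
      T i (T j y) = ∑ l ∈ range (i + 1), (Nat.choose (l + j) j : ZMod 2) • T (i - l) (T (j + l) y))
    (h0 : ∀ y, Q 0 y = y * y)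
    (hadd : ∀ i, 1 ≤ i → i ≤ D + 1 → ∀ y z, Q i (y + z) = Q i y + Q i z)
    (hQgr : ∀ i ≤ D + 1, ∀ t, ∀ y ∈ gr t, Q i y ∈ gr (2 * t + i))
    (h13 : ∀ i, 1 ≤ i → i ≤ D + 1 → ∀ t, ∀ y ∈ gr t,
      T i y = ∑ l ∈ range (t / 2 + 1), qup Q (i + l) (t - l) (Sq l y)) : Ops H where
  gr := gr
  T := T
  Q := linQ D Q h0 hadd
  Sq := Sq
  M := D + 1
  T_gr := fun i hi d y hy => hTgr i hi d y hy
  Q_gr := fun i hi d y hy => by
    rw [linQ_apply D Q h0 hadd hi]
    exact hQgr i hi d y hy
  Sq_gr := fun a d y hy _ => hsqgr a d y hy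
  Sq_zero := hsq0
  Sq_unst := fun a d y hy h => hunst a d y hy h
  T_eq := fun i h1 hi d y hy => by
    rw [h13 i h1 hi d y hy]
    refine Finset.sum_congr rfl fun l hl => ?_
    rw [Finset.mem_range] at hl
    rw [qup]
    by_cases h : d ≤ i + 2 * l
    · rw [if_pos (by omega), if_pos h, linQ_apply D Q h0 hadd (by omega)]
      congr 1
      omega
    · rw [if_neg (by omega), if_neg h]
  Sq_T := fun a i hi y => by
    rw [hSqT i hi a y]
    refine Finset.sum_congr rfl fun b _ => ?_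
    split_ifs
    · rfl
    · rw [zero_smul]
  T_swap := fun i j h y => (hgl2 i j h y).1
  T_trans := fun i j h y => by
    rw [(hgl2 i j h y).1, (hgl2 j i (by omega) y).2]
    refine Finset.sum_congr rfl fun s hs => ?_
    rw [Finset.mem_range] at hs
    rw [(hgl2 (j - s) (i + s) (by omega) y).1]
    congr 2
    rw [add_comm s i, Nat.choose_symm_add]

end one

/-! ## stage `k` of a tower -/

variable {X : Spec114.Tower} {D : ℕ}

open Spec114

/-- the operation algebra of stage `k` -/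
def towerOps (hSq : X.FactSq D) (hT : X.FactT D) (hG : X.FactGL2 D) (hQ : X.FactQ D) (h13 : X.Fact13 D)
    {k : ℕ} (hk : k ≤ D + 2) : Ops (X.H k) :=
  mkOps D (X.gr k) (X.Sq k) (X.T k) (X.Q k)
    (hSq k hk).1 (hSq k hk).2.1 (hSq k hk).2.2.1
    (fun i hi => (hT k hk i hi).1)
    (fun i hi => (hT k hk i hi).2.2.2)
    (fun i j h y => hG k hk i j h y)
    (hQ k hk).1 (hQ k hk).2.1 (hQ k hk).2.2
    (fun i h1 hi t y hy => h13 k hk i h1 hi t y hy)

section

variable (hSq : X.FactSq D) (hT : X.FactT D) (hG : X.FactGL2 D) (hQ : X.FactQ D) (h13 : X.Fact13 D)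
  {k : ℕ} (hk : k ≤ D + 2)

@[simp] theorem towerOps_M : (towerOps hSq hT hG hQ h13 hk).M = D + 1 := rfl
@[simp] theorem towerOps_gr : (towerOps hSq hT hG hQ h13 hk).gr = X.gr k := rfl
@[simp] theorem towerOps_T : (towerOps hSq hT hG hQ h13 hk).T = X.T k := rfl
@[simp] theorem towerOps_Sq : (towerOps hSq hT hG hQ h13 hk).Sq = X.Sq k := rfl
theorem towerOps_Q {i : ℕ} (hi : i ≤ D + 1) (y : X.H k) :
    (towerOps hSq hT hG hQ h13 hk).Q i y = X.Q k i y :=
  linQ_apply D (X.Q k) (hQ k hk).1 (hQ k hk).2.1 hi y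

/-! ### words as lists -/

theorem tw_eq (y : X.H k) : ∀ {r : ℕ} (m : Fin r → ℕ),
    (towerOps hSq hT hG hQ h13 hk).tw m y = (List.ofFn m).foldr (fun i z => X.T k i z) y
  | 0, m => by simp
  | r + 1, m => by
    rw [Ops.tw_succ, tw_eq y (Fin.tail m), List.ofFn_succ, List.foldr_cons]
    rfl

theorem tw_x {r : ℕ} (m : Fin r → ℕ) :
    (towerOps hSq hT hG hQ h13 hk).tw m (X.x k) = X.tword k (List.ofFn m) := tw_eq ..

theorem qw_eq (y : X.H k) : ∀ {r : ℕ} (m : Fin r → ℕ), (∀ j, m j ≤ D + 1) →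
    (towerOps hSq hT hG hQ h13 hk).qw m y = (List.ofFn m).foldr (fun i z => X.Q k i z) y
  | 0, m, _ => by simp
  | r + 1, m, h => by
    rw [Ops.qw_succ, qw_eq y (Fin.tail m) (fun j => h j.succ), List.ofFn_succ, List.foldr_cons,
      towerOps_Q hSq hT hG hQ h13 hk (h 0)]
    rfl

theorem qw_x {r : ℕ} (m : Fin r → ℕ) (h : ∀ j, m j ≤ D + 1) :
    (towerOps hSq hT hG hQ h13 hk).qw m (X.x k) = X.word k (List.ofFn m) := qw_eq _ _ _ _ _ _ _ _ h

end

theorem qdeg_eq_wdeg (k : ℕ) : ∀ {r : ℕ} (m : Fin r → ℕ), qdeg k m = Tower.wdeg k (List.ofFn m)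
  | 0, m => by simp [Tower.wdeg]
  | r + 1, m => by
    rw [qdeg_succ, qdeg_eq_wdeg k (Fin.tail m), List.ofFn_succ]
    rfl

theorem qdeg_get (k : ℕ) (I : List ℕ) : qdeg k I.get = Tower.wdeg k I := by
  rw [qdeg_eq_wdeg, List.ofFn_get]

/-- admissible lists -/
def AdmL (r k t : ℕ) : Type := {I : List ℕ // I.Pairwise (· ≤ ·) ∧ I.length = r ∧ Tower.wdeg k I = k + t}

theorem pairwise_ofFn_iff {r : ℕ} (m : Fin r → ℕ) : (List.ofFn m).Pairwise (· ≤ ·) ↔ Monotone m := by
  rw [List.pairwise_ofFn]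
  constructor
  · intro h i j hij
    rcases hij.eq_or_lt with rfl | h'
    · exact le_rfl
    · exact h h'
  · intro h i j hij
    exact h hij.le

/-- admissible words as functions or lists -/
def admEquiv (r k t : ℕ) : Adm r k t ≃ AdmL r k t where
  toFun m := ⟨List.ofFn m.1, (pairwise_ofFn_iff _).2 m.2.1, List.length_ofFn, by
    rw [← qdeg_eq_wdeg]; exact m.2.2⟩
  invFun I := ⟨fun j => I.1.get (j.cast I.2.2.1.symm), by
    have h := I.2.1
    intro i j hij
    rcases hij.eq_or_lt with rfl | h'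
    · exact le_rfl
    · exact List.pairwise_iff_get.1 h _ _ (by simpa using h'), by
    obtain ⟨I, h1, h2, h3⟩ := I
    subst h2
    simp only [Fin.cast_eq_self]
    rw [qdeg_get]
    exact h3⟩
  left_inv m := by
    apply Subtype.ext
    funext j
    simp
  right_inv I := by
    obtain ⟨I, h1, h2, h3⟩ := I
    subst h2
    apply Subtype.ext
    simp only [Fin.cast_eq_self]
    exact List.ofFn_get I

theorem mem_le_wdeg' {k i : ℕ} {I : List ℕ} (hi : i ∈ I) : i + k ≤ Tower.wdeg k I := by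
  have hle : ∀ (I : List ℕ), k ≤ Tower.wdeg k I := by
    intro I
    induction I with
    | nil => exact le_rfl
    | cons i I ih =>
      change k ≤ 2 * Tower.wdeg k I + i
      omega
  induction I with
  | nil => simp at hi
  | cons j I ih =>
    change i + k ≤ 2 * Tower.wdeg k I + j
    have := hle I
    rcases List.mem_cons.1 hi with rfl | h
    · omega
    · have := ih h
      omega

/-! ### the fundamental classes -/

section base

variable (hSq : X.FactSq D) (hT : X.FactT D) (hG : X.FactGL2 D) (hQ : X.FactQ D) (h13 : X.Fact13 D)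

theorem T_prim' (hT : X.FactT D) {k : ℕ} (hk : k ≤ D + 2) {i : ℕ} (hi : i ≤ D + 1) {y : X.H k}
    (hy : X.IsPrim k y) : X.IsPrim k (X.T k i y) := by
  rw [Tower.IsPrim] at hy ⊢
  rw [(hT k hk i hi).2.2.1, hy]
  have h1 : ∀ b, b ≤ i → X.T k b 1 = if b = 0 then 1 else 0 :=
    fun b hb => (hT k hk b (hb.trans hi)).2.1
  simp only [map_add, TensorProduct.map_tmul, Finset.sum_add_distrib]
  congr 1
  · rw [Finset.sum_eq_single (i, 0)]
    · rw [h1 0 (Nat.zero_le _), if_pos rfl]
    · rintro ⟨p, q⟩ hpq hne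
      rw [Finset.HasAntidiagonal.mem_antidiagonal] at hpq
      simp only at hpq
      have : q ≠ 0 := by
        rintro rfl
        exact hne (by simp; omega)
      simp only [h1 q (by omega), if_neg this, TensorProduct.tmul_zero]
    · intro h
      exact absurd (by rw [Finset.HasAntidiagonal.mem_antidiagonal]; simp) h
  · rw [Finset.sum_eq_single (0, i)]
    · rw [h1 0 (Nat.zero_le _), if_pos rfl]
    · rintro ⟨p, q⟩ hpq hne
      rw [Finset.HasAntidiagonal.mem_antidiagonal] at hpq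
      simp only at hpq
      have : p ≠ 0 := by
        rintro rfl
        exact hne (by simp; omega)
      simp only [h1 p (by omega), if_neg this, TensorProduct.zero_tmul]
    · intro h
      exact absurd (by rw [Finset.HasAntidiagonal.mem_antidiagonal]; simp) h

theorem tw_prim {k : ℕ} (hk : k ≤ D + 2) (y : X.H k) (hy : X.IsPrim k y) : ∀ {r : ℕ} (m : Fin r → ℕ),
    ∑ j, m j ≤ D + 1 → X.IsPrim k ((towerOps hSq hT hG hQ h13 hk).tw m y)
  | 0, m, _ => by simpa using hy
  | r + 1, m, h => by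
    rw [sum_tail] at h
    rw [Ops.tw_succ]
    exact T_prim' hT hk (by omega) (tw_prim hk y hy (Fin.tail m) (by omega))

theorem tw_grouplike {k : ℕ} (hk : k ≤ D + 2) (hT0 : X.FactT0 D) (y : X.H k)
    (hy : X.Δ k y = y ⊗ₜ[ZMod 2] y) : ∀ r : ℕ,
      X.Δ k ((towerOps hSq hT hG hQ h13 hk).tw (fun _ : Fin r => 0) y) =
        ((towerOps hSq hT hG hQ h13 hk).tw (fun _ : Fin r => 0) y) ⊗ₜ[ZMod 2]
          ((towerOps hSq hT hG hQ h13 hk).tw (fun _ : Fin r => 0) y)
  | 0 => by simpa using hy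
  | r + 1 => by
    have ih := tw_grouplike hk hT0 y hy r
    have e : Fin.tail (fun _ : Fin (r + 1) => 0) = fun _ : Fin r => 0 := rfl
    rw [Ops.tw_succ, e]
    generalize (towerOps hSq hT hG hQ h13 hk).tw (fun _ : Fin r => 0) y = z at ih
    change X.Δ k (X.T k 0 z) = (X.T k 0 z) ⊗ₜ[ZMod 2] (X.T k 0 z)
    rw [hT0 k hk z, ih]
    simp only [LinearMap.mul'_apply, map_mul, ih, Algebra.TensorProduct.tmul_mul_tmul]

/-- the fundamental class, all `k` -/
theorem towerBase (hT0 : X.FactT0 D) (hX : X.FactX D) {k : ℕ} (hk : k ≤ D + 2) :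
    (towerOps hSq hT hG hQ h13 hk).Base k (X.x k) where
  mem := (hX.1 k hk).1
  sq := fun a ha => (hX.1 k hk).2 a ha
  t0 := fun hk0 r m hm => by
    have hp := tw_prim hSq hT hG hQ h13 hk (X.x k) (hX.2.1 k hk0 hk) m hm
    change X.T k 0 _ = 0
    rw [hT0 k hk, hp]
    simp only [map_add, LinearMap.mul'_apply, mul_one, one_mul]
    exact add_self_eq _
  t00 := fun hk0 r => by
    subst hk0
    have hp := tw_grouplike hSq hT hG hQ h13 hk hT0 (X.x 0) hX.2.2.1 r
    rw [towerOps_Q hSq hT hG hQ h13 hk (Nat.zero_le _), (hQ 0 hk).1]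
    change X.T 0 0 _ = _
    rw [hT0 0 hk, hp, LinearMap.mul'_apply]

end base

end Crest.Agent.R204.TowerOps85
end
end

-- ▼ part R204/TowerZero_85

/-!
# Row 204: spans of words, independence at `k = 0`, and (W0) (helper85)

* `word0_linearIndependent` : at `k = 0`, `1 ≤ t ≤ D`, the words `Q_I[1]*[-2^r]`, `I` nondecreasing with
  entries `≥ 0`, of degree `t` and ALL lengths are linearly independent (from `FactPoly0`);
* `word_linearIndependent0` : `Q_I[1]`, fixed length;
* `tspan_eq` : span of the `T`-words of length `r`, sum `t` = span of the admissible `Q`-words (any `k`,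
  given independence);
* `W0`.
-/

set_option autoImplicit false

noncomputable section

namespace Crest.Agent.R204.TowerOps85

open Thm3 Finset Spec114
open scoped TensorProduct

variable {X : Spec114.Tower} {D : ℕ}

/-! ## leading zeros -/

/-- number of leading zeros -/
def nz : List ℕ → ℕ
  | [] => 0
  | a :: I => if a = 0 then nz I + 1 else 0

/-- drop the leading zeros -/
def dz : List ℕ → List ℕ
  | [] => []
  | a :: I => if a = 0 then dz I else a :: I

theorem eq_zeros_append : ∀ I : List ℕ, I = List.replicate (nz I) 0 ++ dz I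
  | [] => rfl
  | a :: I => by
    rw [nz, dz]
    split_ifs with h
    · rw [List.replicate_succ, List.cons_append, ← eq_zeros_append I, h]
    · rfl

theorem dz_pairwise : ∀ {I : List ℕ}, I.Pairwise (· ≤ ·) → (dz I).Pairwise (· ≤ ·)
  | [], _ => List.Pairwise.nil
  | a :: I, h => by
    rw [dz]
    split_ifs
    · exact dz_pairwise (List.pairwise_cons.1 h).2
    · exact h

theorem dz_pos : ∀ {I : List ℕ}, I.Pairwise (· ≤ ·) → ∀ i ∈ dz I, 1 ≤ i
  | [], _ => by simp [dz]
  | a :: I, h => by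
    rw [dz]
    split_ifs with h0
    · exact dz_pos (List.pairwise_cons.1 h).2
    · intro i hi
      rcases List.mem_cons.1 hi with rfl | hi
      · omega
      · have := (List.pairwise_cons.1 h).1 i hi
        omega

theorem wdeg_zeros (k : ℕ) (J : List ℕ) : ∀ z : ℕ,
    Tower.wdeg k (List.replicate z 0 ++ J) = 2 ^ z * Tower.wdeg k J
  | 0 => by simp
  | z + 1 => by
    rw [List.replicate_succ, List.cons_append]
    change 2 * Tower.wdeg k (List.replicate z 0 ++ J) + 0 = _
    rw [wdeg_zeros k J z, pow_succ]; ring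

theorem word_zeros (hQ : X.FactQ D) {k : ℕ} (hk : k ≤ D + 2) (J : List ℕ) : ∀ z : ℕ,
    X.word k (List.replicate z 0 ++ J) = X.word k J ^ (2 ^ z)
  | 0 => by simp
  | z + 1 => by
    rw [List.replicate_succ, List.cons_append]
    change X.Q k 0 (X.word k (List.replicate z 0 ++ J)) = _
    rw [(hQ k hk).1, word_zeros hQ hk J z, ← pow_add, pow_succ]
    congr 1; ring

theorem wdeg_dz (k : ℕ) (I : List ℕ) : Tower.wdeg k I = 2 ^ nz I * Tower.wdeg k (dz I) := by
  conv_lhs => rw [eq_zeros_append I]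
  rw [wdeg_zeros]

theorem length_dz (I : List ℕ) : I.length = nz I + (dz I).length := by
  conv_lhs => rw [eq_zeros_append I]
  simp

theorem word_dz (hQ : X.FactQ D) {k : ℕ} (hk : k ≤ D + 2) (I : List ℕ) :
    X.word k I = X.word k (dz I) ^ (2 ^ nz I) := by
  conv_lhs => rw [eq_zeros_append I]
  rw [word_zeros hQ hk]

theorem word0_dz (hQ : X.FactQ D) (I : List ℕ) :
    X.word0 I = X.word0 (dz I) ^ (2 ^ nz I) := by
  rw [Tower.word0, Tower.word0, word_dz hQ (Nat.zero_le _), mul_pow, ← pow_mul, ← pow_add,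
    length_dz I, add_comm (nz I)]

/-- nondecreasing words of degree `t` at `k = 0` -/
def AdmZ (t : ℕ) : Type := {I : List ℕ // I.Pairwise (· ≤ ·) ∧ Tower.wdeg 0 I = t}

theorem dz_ne_nil {t : ℕ} (ht : 1 ≤ t) (I : AdmZ t) : dz I.1 ≠ [] := by
  intro h
  have := I.2.2
  rw [wdeg_dz, h] at this
  change 2 ^ _ * 0 = t at this
  omega

/-- generator under a word -/
def gen {t : ℕ} (ht : 1 ≤ t) (I : AdmZ t) : Tower.Wd0 :=
  ⟨⟨dz I.1, dz_pairwise I.2.1, dz_pos I.2.1⟩, dz_ne_nil ht I⟩

/-- exponent of a word -/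
def expZ {t : ℕ} (ht : 1 ≤ t) (I : AdmZ t) : Tower.Wd0 →₀ ℕ := Finsupp.single (gen ht I) (2 ^ nz I.1)

theorem expZ_injective {t : ℕ} (ht : 1 ≤ t) : Function.Injective (expZ ht) := by
  intro I J h
  rw [expZ, expZ, Finsupp.single_eq_single_iff] at h
  rcases h with ⟨h1, h2⟩ | ⟨h1, _⟩
  · have h3 : dz I.1 = dz J.1 := congrArg (fun g : Tower.Wd0 => g.1.1) h1
    have h4 : nz I.1 = nz J.1 := Nat.pow_right_injective (le_refl 2) h2
    apply Subtype.ext
    rw [eq_zeros_append I.1, eq_zeros_append J.1, h3, h4]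
  · exact absurd h1 (by positivity)

/-- **independence of all nondecreasing words at `k = 0`** -/
theorem word0_linearIndependent (hQ : X.FactQ D) (hP : X.FactPoly0 D) {t : ℕ} (h1 : 1 ≤ t) (ht : t ≤ D) :
    LinearIndependent (ZMod 2) (fun I : AdmZ t => X.word0 I.1) := by
  set A := (MvPolynomial.aeval (fun I : Tower.Wd0 => X.word0 I.1.1) :
    MvPolynomial Tower.Wd0 (ZMod 2) →ₐ[ZMod 2] X.H 0) with hA
  have e : (fun I : AdmZ t => X.word0 I.1) =
      A.toLinearMap ∘ fun I : AdmZ t => MvPolynomial.monomial (expZ h1 I) (1 : ZMod 2) := by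
    funext I
    rw [Function.comp_apply, AlgHom.toLinearMap_apply, hA, MvPolynomial.aeval_monomial, map_one,
      one_mul, expZ, Finsupp.prod_single_index (by simp)]
    exact word0_dz hQ I.1
  rw [e]
  have hli : LinearIndependent (ZMod 2)
      (fun I : AdmZ t => (MvPolynomial.monomial (expZ h1 I) (1 : ZMod 2) :
        MvPolynomial Tower.Wd0 (ZMod 2))) := by
    have h2 : (fun I : AdmZ t => (MvPolynomial.monomial (expZ h1 I) (1 : ZMod 2) :
        MvPolynomial Tower.Wd0 (ZMod 2))) =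
        ⇑(MvPolynomial.basisMonomials Tower.Wd0 (ZMod 2)) ∘ (expZ h1) := by
      funext I
      simp [MvPolynomial.coe_basisMonomials]
    rw [h2]
    exact (MvPolynomial.basisMonomials Tower.Wd0 (ZMod 2)).linearIndependent.comp _ (expZ_injective h1)
  refine hli.map_injOn _ ?_
  have hsub : Submodule.span (ZMod 2) (Set.range fun I : AdmZ t =>
      (MvPolynomial.monomial (expZ h1 I) (1 : ZMod 2) : MvPolynomial Tower.Wd0 (ZMod 2))) ≤
      MvPolynomial.weightedHomogeneousSubmodule (ZMod 2) (fun I : Tower.Wd0 => Tower.wdeg 0 I.1.1) t := by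
    refine Submodule.span_le.2 ?_
    rintro _ ⟨I, rfl⟩
    refine (MvPolynomial.mem_weightedHomogeneousSubmodule _ _ _ _).2 ?_
    refine MvPolynomial.isWeightedHomogeneous_monomial _ _ _ ?_
    rw [expZ, Finsupp.weight_single, smul_eq_mul]
    change 2 ^ nz I.1 * Tower.wdeg 0 (dz I.1) = t
    rw [← wdeg_dz, I.2.2]
  intro p hp q hq hpq
  have hp' := hsub hp
  have hq' := hsub hq
  have h2 := hP.1 t ht (p - q) (Submodule.sub_mem _ hp' hq') (by
    change A (p - q) = 0
    rw [map_sub, sub_eq_zero]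
    exact hpq)
  exact sub_eq_zero.1 h2


/-- `Q_I[1]`, fixed length -/
theorem word_linearIndependent0 (hQ : X.FactQ D) (hP : X.FactPoly0 D) (r : ℕ) {t : ℕ} (h1 : 1 ≤ t)
    (ht : t ≤ D) : LinearIndependent (ZMod 2) (fun I : AdmL r 0 t => X.word 0 I.1) := by
  have hli := (word0_linearIndependent hQ hP h1 ht).comp
    (fun I : AdmL r 0 t => (⟨I.1, I.2.1, by rw [I.2.2.2, zero_add]⟩ : AdmZ t)) (by
      intro I J h
      exact Subtype.ext (congrArg (fun a : AdmZ t => a.1) h))
  refine LinearIndependent.of_comp (LinearMap.mulRight (ZMod 2) (X.xinv ^ (2 ^ r))) ?_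
  have h2 : (⇑(LinearMap.mulRight (ZMod 2) (X.xinv ^ (2 ^ r))) ∘ fun I : AdmL r 0 t => X.word 0 I.1) =
      (fun I : AdmZ t => X.word0 I.1) ∘
        (fun I : AdmL r 0 t => (⟨I.1, I.2.1, by rw [I.2.2.2, zero_add]⟩ : AdmZ t)) := by
    funext I
    change X.word 0 I.1 * X.xinv ^ (2 ^ r) = X.word0 I.1
    rw [Tower.word0, I.2.2.1]
  rw [h2]
  exact hli

section

variable (hSq : X.FactSq D) (hT : X.FactT D) (hG : X.FactGL2 D) (hQ : X.FactQ D) (h13 : X.Fact13 D)

include hSq hT hG hQ h13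

omit hSq hT hG hQ h13 in
theorem le_of_adm {r k t : ℕ} (m : Adm r k t) (j : Fin r) : m.1 j ≤ t := le_of_qdeg m.2.2 j

/-- transport independence from lists to functions -/
theorem adm_li {k : ℕ} (hk : k ≤ D + 2) {r t : ℕ} (ht : t ≤ D + 1)
    (hli : LinearIndependent (ZMod 2) (fun I : AdmL r k t => X.word k I.1)) :
    LinearIndependent (ZMod 2)
      (fun m : Adm r k t => (towerOps hSq hT hG hQ h13 hk).qw m.1 (X.x k)) := by
  have := hli.comp _ (admEquiv r k t).injective
  convert this using 1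
  funext m
  rw [qw_x hSq hT hG hQ h13 hk m.1 fun j => (le_of_adm m j).trans ht]
  rfl

/-- the image of `φ_r` is the span of the `T`-words -/
theorem map_phi_eq {k : ℕ} (hk : k ≤ D + 2) (r t : ℕ) :
    (homG r t).map ((towerOps hSq hT hG hQ h13 hk).phi (X.x k) r) =
      Submodule.span (ZMod 2) {y | ∃ J : List ℕ, J.length = r ∧ J.sum = t ∧ y = X.tword k J} := by
  apply le_antisymm
  · rintro _ ⟨γ, hγ, rfl⟩
    refine homG_induction (P := fun γ => (towerOps hSq hT hG hQ h13 hk).phi (X.x k) r γ ∈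
      Submodule.span (ZMod 2) {y | ∃ J : List ℕ, J.length = r ∧ J.sum = t ∧ y = X.tword k J})
      (by simp) ?_ ?_ hγ
    · intro a b ha hb; rw [map_add]; exact Submodule.add_mem _ ha hb
    · intro m hm
      rw [Ops.phi_single, tw_x]
      refine Submodule.subset_span ⟨List.ofFn ⇑m, List.length_ofFn, ?_, rfl⟩
      rw [List.sum_ofFn, hm]
  · refine Submodule.span_le.2 ?_
    rintro _ ⟨J, rfl, hJ, rfl⟩
    refine ⟨Finsupp.single (Finsupp.equivFunOnFinite.symm J.get) 1, single_mem_homG _ _ ?_, ?_⟩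
    · simp only [Finsupp.equivFunOnFinite_symm_apply_apply]
      rw [← List.sum_ofFn, List.ofFn_get, hJ]
    · rw [Ops.phi_single, tw_x]
      congr 1
      exact List.ofFn_get J

theorem span_adm_eq {k : ℕ} (hk : k ≤ D + 2) {r t : ℕ} (ht : t ≤ D + 1) :
    Submodule.span (ZMod 2)
      (Set.range fun m : Adm r k t => (towerOps hSq hT hG hQ h13 hk).qw m.1 (X.x k)) =
    Submodule.span (ZMod 2) {y | ∃ I : List ℕ, I.Pairwise (· ≤ ·) ∧ I.length = r ∧
      Tower.wdeg k I = k + t ∧ y = X.word k I} := by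
  congr 1
  ext y
  constructor
  · rintro ⟨m, rfl⟩
    have h := (admEquiv r k t m).2
    exact ⟨(admEquiv r k t m).1, h.1, h.2.1, h.2.2,
      qw_x hSq hT hG hQ h13 hk m.1 fun j => (le_of_adm m j).trans ht⟩
  · rintro ⟨I, h1, h2, h3, rfl⟩
    refine ⟨(admEquiv r k t).symm ⟨I, h1, h2, h3⟩, ?_⟩
    set m := (admEquiv r k t).symm ⟨I, h1, h2, h3⟩ with hm
    have h := congrArg Subtype.val ((admEquiv r k t).apply_symm_apply ⟨I, h1, h2, h3⟩)
    change (towerOps hSq hT hG hQ h13 hk).qw m.1 (X.x k) = _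
    rw [qw_x hSq hT hG hQ h13 hk m.1 fun j => (le_of_adm m j).trans ht]
    exact congrArg (X.word k) h

/-- **span of the `T`-words of length `r` = span of the admissible `Q`-words of length `r`** -/
theorem tspan_eq (hT0 : X.FactT0 D) (hX : X.FactX D) {k : ℕ} (hk : k ≤ D + 2) {r t : ℕ}
    (ht : t ≤ D + 1) (hli : LinearIndependent (ZMod 2) (fun I : AdmL r k t => X.word k I.1)) :
    Submodule.span (ZMod 2) {y | ∃ J : List ℕ, J.length = r ∧ J.sum = t ∧ y = X.tword k J} =
    Submodule.span (ZMod 2) {y | ∃ I : List ℕ, I.Pairwise (· ≤ ·) ∧ I.length = r ∧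
      Tower.wdeg k I = k + t ∧ y = X.word k I} := by
  rw [← map_phi_eq hSq hT hG hQ h13 hk, ← span_adm_eq hSq hT hG hQ h13 hk ht]
  exact Ops.map_eq_span _ (towerBase hSq hT hG hQ h13 hT0 hX hk) ht
    (adm_li hSq hT hG hQ h13 hk ht hli)

omit hSq hT hG hQ h13 in
theorem span_mul_unit {r : ℕ} (P : List ℕ → Prop) (hP : ∀ J, P J → J.length = r)
    (w w0 : List ℕ → X.H 0) (h : ∀ J, w0 J = w J * X.xinv ^ (2 ^ J.length)) :
    Submodule.span (ZMod 2) {y | ∃ J : List ℕ, P J ∧ y = w0 J} =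
      (Submodule.span (ZMod 2) {y | ∃ J : List ℕ, P J ∧ y = w J}).map
        (LinearMap.mulRight (ZMod 2) (X.xinv ^ (2 ^ r))) := by
  rw [Submodule.map_span]
  congr 1
  ext y
  constructor
  · rintro ⟨J, hJ, rfl⟩
    refine ⟨w J, ⟨J, hJ, rfl⟩, ?_⟩
    rw [LinearMap.mulRight_apply, h, hP J hJ]
  · rintro ⟨_, ⟨J, hJ, rfl⟩, rfl⟩
    refine ⟨J, hJ, ?_⟩
    rw [LinearMap.mulRight_apply, h, hP J hJ]

/-- **(W0)** -/
theorem W0 (hT0 : X.FactT0 D) (hX : X.FactX D) (hP : X.FactPoly0 D) {r t : ℕ} (h1 : 1 ≤ t) (ht : t ≤ D) :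
    Submodule.span (ZMod 2) {y | ∃ J : List ℕ, J.length = r ∧ J.sum = t ∧ y = X.tword0 J} =
    Submodule.span (ZMod 2) {y | ∃ I : List ℕ, I.Pairwise (· ≤ ·) ∧ I.length = r ∧
      Tower.wdeg 0 I = t ∧ y = X.word0 I} := by
  have key := tspan_eq hSq hT hG hQ h13 hT0 hX (k := 0) (Nat.zero_le _) (r := r) (t := t) (by omega)
    (word_linearIndependent0 hQ hP r h1 ht)
  have h2 := span_mul_unit (X := X) (r := r) (fun J => J.length = r ∧ J.sum = t) (fun J hJ => hJ.1)
    (X.tword 0) X.tword0 fun J => rfl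
  have h3 := span_mul_unit (X := X) (r := r) (fun I => I.Pairwise (· ≤ ·) ∧ I.length = r ∧
      Tower.wdeg 0 I = t) (fun J hJ => hJ.2.1) (X.word 0) X.word0 fun J => rfl
  simp only [and_assoc, zero_add] at h2 h3 key
  rw [h2, h3, key]

end

end Crest.Agent.R204.TowerOps85
end
private theorem rz_c135f14ba7 : type_of% @_root_.Crest.Agent.R204.TowerOps85.dz.eq_def := @_root_.Crest.Agent.R204.TowerOps85.dz.eq_def -- L33
private theorem rz_047320ca68 : type_of% @_root_.Crest.Agent.R204.TowerOps85.dz.eq_1 := @_root_.Crest.Agent.R204.TowerOps85.dz.eq_1 -- L33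
private theorem rz_3546ea9364 : type_of% @_root_.Crest.Agent.R204.TowerOps85.nz.eq_def := @_root_.Crest.Agent.R204.TowerOps85.nz.eq_def -- L28
private theorem rz_a117a5b557 : type_of% @_root_.Crest.Agent.R204.TowerOps85.nz.eq_1 := @_root_.Crest.Agent.R204.TowerOps85.nz.eq_1 -- L28
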