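import Crest.Agent.R204.Thm3c_737
import Crest.Agent.R204.DickInst_91
import Crest.Agent.R204.GlueB_114
import Crest.Agent.R204.TowerZero_85
import Crest.Agent.R204.SpineA_693
import Crest.Agent.R204.GlueA_114
import Crest.Agent.R204.HopfZ_407

-- ▼ part R204/Thm3d_737
section

/-!
# Row 204, Theorem 3, part d: `Sq^a` on `F2[x_1..x_r]` is adjoint to `sqG a` (owner helper737)
-/

set_option autoImplicit false

namespace Crest.Agent.R204.Thm3

open Finset MvPolynomial Crest.Agent.R204.Dickson91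

theorem pr_single_one {r : ℕ} (p : S r) (m : Fin r →₀ ℕ) :
    pr r p (Finsupp.single m 1) = coeff m p := by rw [pr_single, one_mul]

/-- `X_0^i * p'` -/
noncomputable def cm {r : ℕ} (i : ℕ) (p : S r) : S (r + 1) := X 0 ^ i * rename Fin.succ p

theorem cm_monomial {r : ℕ} (i : ℕ) (a : Fin r →₀ ℕ) (c : ZMod 2) :
    cm i (monomial a c) = monomial (Finsupp.cons i a) c := by
  have h : Finsupp.single (0 : Fin (r + 1)) i + Finsupp.mapDomain Fin.succ a = Finsupp.cons i a := by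
    ext j
    refine Fin.cases ?_ (fun j => ?_) j
    · rw [Finsupp.add_apply, Finsupp.single_eq_same, Finsupp.cons_zero,
        Finsupp.mapDomain_notin_range _ _ (by simp [Fin.succ_ne_zero])]
      rfl
    · rw [Finsupp.add_apply, Finsupp.single_apply, if_neg (Fin.succ_ne_zero j).symm,
        Finsupp.mapDomain_apply (Fin.succ_injective r), Finsupp.cons_succ, zero_add]
  rw [cm, rename_monomial, X_pow_eq_monomial, monomial_mul, one_mul, h]

theorem coeff_cm {r : ℕ} (i j : ℕ) (p : S r) (m : Fin r →₀ ℕ) :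
    coeff (Finsupp.cons j m) (cm i p) = if i = j then coeff m p else 0 := by
  induction p using MvPolynomial.induction_on' with
  | add f g hf hg =>
    have : cm i (f + g) = cm i f + cm i g := by simp [cm, mul_add]
    rw [this, coeff_add, hf, hg, coeff_add]
    split_ifs <;> simp
  | monomial a c =>
    rw [cm_monomial, coeff_monomial, coeff_monomial]
    by_cases h : i = j
    · subst h
      simp only [if_true]
      by_cases h2 : a = m
      · subst h2; simp
      · rw [if_neg h2, if_neg]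
        intro h3
        apply h2
        rw [← Finsupp.tail_cons i a, h3, Finsupp.tail_cons]
    · rw [if_neg h, if_neg]
      intro h3
      apply h
      rw [← Finsupp.cons_zero i a, h3, Finsupp.cons_zero]

theorem pr_cm_consG {r : ℕ} (i j : ℕ) (p : S r) (γ : Gam r) :
    pr (r + 1) (cm i p) (consG j γ) = if i = j then pr r p γ else 0 := by
  induction γ using Finsupp.induction_linear with
  | zero => simp
  | add f g hf hg =>
    rw [map_add, map_add, hf, hg, map_add]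
    split_ifs <;> simp
  | single m c =>
    rw [consG_single, pr_single, pr_single, coeff_cm]
    split_ifs <;> simp

theorem sqT_rename {σ τ : Type*} (f : σ → τ) (p : MvPolynomial σ (ZMod 2)) :
    sqT (rename f p) = Polynomial.mapAlgHom (rename f : MvPolynomial σ (ZMod 2) →ₐ[ZMod 2]
      MvPolynomial τ (ZMod 2)) (sqT p) := by
  have h : sqT.comp (rename f : MvPolynomial σ (ZMod 2) →ₐ[ZMod 2] MvPolynomial τ (ZMod 2)) =
      (Polynomial.mapAlgHom (rename f)).comp sqT := by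
    apply MvPolynomial.algHom_ext
    intro i
    simp [sqT_X]
  exact DFunLike.congr_fun h p

theorem Sq_rename {σ τ : Type*} (f : σ → τ) (a : ℕ) (p : MvPolynomial σ (ZMod 2)) :
    Sq a (rename f p) = rename f (Sq a p) := by
  rw [Sq_apply, Sq_apply, sqT_rename, Polynomial.coe_mapAlgHom, Polynomial.coeff_map]
  rfl

theorem Sq_X_pow {σ : Type*} (i : σ) (n b : ℕ) :
    Sq b ((X i : MvPolynomial σ (ZMod 2)) ^ n) = ((n.choose b : ℕ) : ZMod 2) • X i ^ (n + b) := by
  rw [Sq_apply, map_pow, sqT_X]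
  have h : (Polynomial.C (X i : MvPolynomial σ (ZMod 2)) + Polynomial.X * Polynomial.C (X i) ^ 2) =
      Polynomial.C (X i) * (1 + Polynomial.C (X i) * Polynomial.X) := by ring
  rw [h, mul_pow, ← Polynomial.C_pow, Polynomial.coeff_C_mul, add_comm (1 : Polynomial _), add_pow,
    Polynomial.finsetSum_coeff]
  have h2 : ∀ j ∈ range (n + 1), ((Polynomial.C (X i : MvPolynomial σ (ZMod 2)) * Polynomial.X) ^ j *
      1 ^ (n - j) * ((n.choose j : ℕ) : Polynomial (MvPolynomial σ (ZMod 2)))).coeff b =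
      if j = b then (X i : MvPolynomial σ (ZMod 2)) ^ b * ((n.choose b : ℕ) : MvPolynomial σ (ZMod 2))
        else 0 := by
    intro j _
    rw [one_pow, mul_one, mul_pow, ← Polynomial.C_pow, ← Polynomial.C_eq_natCast, mul_assoc,
      Polynomial.coeff_C_mul, Polynomial.coeff_mul_C, Polynomial.coeff_X_pow]
    by_cases h : j = b
    · subst h; simp
    · rw [if_neg h, if_neg (Ne.symm h)]; simp
  rw [Finset.sum_congr rfl h2]
  by_cases hb : b ≤ n
  · rw [Finset.sum_ite_eq' , if_pos (Finset.mem_range.2 (by omega)), Algebra.smul_def, map_natCast]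
    ring
  · rw [Finset.sum_eq_zero, mul_zero, Nat.choose_eq_zero_of_lt (by omega)]
    · simp
    intro j hj
    rw [Finset.mem_range] at hj
    rw [if_neg (by omega)]

theorem Sq_cm {r : ℕ} (a i : ℕ) (p : S r) : Sq a (cm i p) = ∑ b ∈ range (a + 1),
    ((i.choose b : ℕ) : ZMod 2) • cm (i + b) (Sq (a - b) p) := by
  rw [cm, Sq_mul, Finset.Nat.sum_antidiagonal_eq_sum_range_succ (fun b c => Sq b ((X 0 : S (r + 1)) ^ i) *
    Sq c (rename Fin.succ p))]
  refine Finset.sum_congr rfl fun b _ => ?_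
  rw [Sq_X_pow, Sq_rename, cm, smul_mul_assoc]

/-- `⟨p, Sq^a_* γ⟩ = ⟨Sq^a p, γ⟩` -/
theorem pr_sqG : ∀ {r : ℕ} (a : ℕ) (p : S r) (γ : Gam r), pr r p (sqG r a γ) = pr r (Sq a p) γ
  | 0, a, p, γ => by
    have hp : ∃ c : ZMod 2, p = C c := ⟨coeff 0 p, MvPolynomial.eq_C_of_isEmpty p⟩
    obtain ⟨c, rfl⟩ := hp
    rw [sqG_zero_apply]
    have h1 : sqT (C c : S 0) = Polynomial.C (C c) := by
      have h1 : (C c : S 0) = algebraMap (ZMod 2) _ c := rfl
      rw [h1, AlgHom.commutes]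
      rfl
    rw [Sq_apply, h1, Polynomial.coeff_C]
    split_ifs <;> simp
  | r + 1, a, p, γ => by
    induction p using MvPolynomial.induction_on' with
    | add f g hf hg => simp only [map_add, LinearMap.add_apply, hf, hg]
    | monomial e c =>
      have he : (monomial e c : S (r + 1)) = cm (e 0) (monomial (Finsupp.tail e) c) := by
        rw [cm_monomial, Finsupp.cons_tail]
      rw [he]
      generalize (monomial (Finsupp.tail e) c : S r) = q
      generalize e 0 = i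
      induction γ using Finsupp.induction_linear with
      | zero => simp
      | add f g hf hg => simp only [map_add, hf, hg]
      | single m c' =>
        have hc : (Finsupp.single m c' : Gam (r + 1)) = c' • Finsupp.single m 1 := by
          rw [Finsupp.smul_single, smul_eq_mul, mul_one]
        rw [hc, map_smul, map_smul, map_smul]
        congr 1
        rw [sqG_single_succ, map_sum, Sq_cm, map_sum, LinearMap.sum_apply]
        refine Finset.sum_congr rfl fun b hb => ?_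
        rw [Finset.mem_range] at hb
        have hm : (Finsupp.single m 1 : Gam (r + 1)) = consG (m 0) (Finsupp.single (Finsupp.tail m) 1) := by
          rw [consG_single, Finsupp.cons_tail]
        rw [hm, map_smul, LinearMap.smul_apply, pr_cm_consG]
        by_cases h2 : 2 * b ≤ m 0
        · rw [if_pos h2, map_smul, pr_cm_consG, pr_sqG]
          by_cases h3 : i + b = m 0
          · have h4 : i = m 0 - b := by omega
            rw [if_pos h3, if_pos h4, ← h4]
          · rw [if_neg h3, if_neg (by omega), smul_zero, smul_zero]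
        · rw [if_neg h2, map_zero]
          by_cases h3 : i + b = m 0
          · rw [Nat.choose_eq_zero_of_lt (by omega : i < b), Nat.cast_zero, zero_smul]
          · rw [if_neg h3, smul_zero]

end Crest.Agent.R204.Thm3
end

-- ▼ part R204/Thm3e_737
section

/-!
# Row 204, Theorem 3, part e: the component maps `comp k r`, `c0` of the spine (owner helper737)
-/

set_option autoImplicit false

namespace Crest.Agent.R204.Thm3

open Finset MvPolynomial Crest.Agent.R204.Dickson91 Crest.Agent.R204.DickInst91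

/-- the functional `g ↦ ⟨g, γ⟩` on `M r k` -/
noncomputable def Psi (r k : ℕ) : Gam (r + 1) →ₗ[ZMod 2] (Spine693.M r k →ₗ[ZMod 2] ZMod 2) :=
  LinearMap.flip ((pr (r + 1)) ∘ₗ (real (r + 1)).toLinearMap ∘ₗ (Spine693.M r k).subtype)

theorem Psi_apply {r k : ℕ} (γ : Gam (r + 1)) (g : Spine693.M r k) :
    Psi r k γ g = pr (r + 1) (real (r + 1) (g : Spine693.D (r + 1))) γ := rfl

theorem Psi_inc {r k : ℕ} (γ : Gam (r + 1)) : Psi r (k + 1) γ = Psi r k γ ∘ₗ Spine693.inc r k := rfl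

theorem pr_homog {r t j : ℕ} {p : S r} (hp : p.IsHomogeneous j) (hj : j ≠ t) {γ : Gam r}
    (hγ : γ ∈ homG r t) : pr r p γ = 0 := by
  refine homG_induction (P := fun γ => pr r p γ = 0) (by simp) ?_ ?_ hγ
  · intro a b ha hb; rw [map_add, ha, hb, add_zero]
  · intro m hm
    rw [pr_single_one]
    by_contra h
    apply hj
    rw [← hp h, ← hm, Finsupp.weight_apply, Finsupp.sum_fintype _ _ (by simp)]
    simp

theorem Psi_conc {r k t j : ℕ} {γ : Gam (r + 1)} (hγ : γ ∈ homG (r + 1) t) (g : Spine693.M r k)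
    (hg : IsWeightedHomogeneous (Spine693.wt r) (g : Spine693.D (r + 1)) j) (hj : j ≠ t) :
    Psi r k γ g = 0 := by
  rw [Psi_apply]
  exact pr_homog (real_homog hg) hj hγ

theorem Psi_sqG {r k : ℕ} (a : ℕ) (γ : Gam (r + 1)) :
    Psi r k (sqG (r + 1) a γ) = Psi r k γ ∘ₗ dick.SqM r k a := by
  ext g
  rw [LinearMap.comp_apply, Psi_apply, Psi_apply, pr_sqG]
  have : (((dick.SqM r k a) g : Spine693.M r k) : Spine693.D (r + 1)) =
      FA550.Sq (r + 1) a (g : Spine693.D (r + 1)) := rfl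
  rw [this, real_Sq]

theorem Psi_eq_zero_iff {r k t : ℕ} {γ : Gam (r + 1)} (hγ : γ ∈ homG (r + 1) t) :
    Psi r k γ = 0 ↔ ∀ p ∈ MG r k t, pr (r + 1) p γ = 0 := by
  constructor
  · intro h p hp
    induction hp using Submodule.span_induction with
    | mem x hx =>
      obtain ⟨a, rfl⟩ := hx
      have hm : (monomial (Finsupp.equivFunOnFinite.symm a.1) 1 : Spine693.D (r + 1)) ∈ Spine693.M r k := by
        rw [M_eq_span]
        exact Submodule.subset_span ⟨_, a.2.1, rfl⟩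
      have h2 : Psi r k γ ⟨_, hm⟩ = 0 := by rw [h]; rfl
      rw [Psi_apply] at h2
      have h3 : real (r + 1) (monomial (Finsupp.equivFunOnFinite.symm a.1) 1) = Qmon a.1 :=
        real_monomial _
      simp only [h3] at h2
      exact h2
    | zero => simp
    | add x y _ _ hx hy => rw [map_add, LinearMap.add_apply, hx, hy, add_zero]
    | smul c x _ hx => rw [map_smul, LinearMap.smul_apply, hx, smul_zero]
  · intro h
    ext g
    rw [Psi_apply, LinearMap.zero_apply]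
    have hg : real (r + 1) (g : Spine693.D (r + 1)) ∈ Mk r k := (mem_M_iff _).1 g.2
    rw [Mk] at hg
    generalize real (r + 1) (g : Spine693.D (r + 1)) = f at hg ⊢
    induction hg using Submodule.span_induction with
    | mem x hx =>
      obtain ⟨a, ha, rfl⟩ := hx
      by_cases hw : wt a = t
      · exact h _ (Submodule.subset_span ⟨⟨a, ha, hw⟩, rfl⟩)
      · exact pr_homog (Qmon_homog a) hw hγ
    | zero => simp
    | add x y _ _ hx hy => rw [map_add, LinearMap.add_apply, hx, hy, add_zero]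
    | smul c x _ hx => rw [map_smul, LinearMap.smul_apply, hx, smul_zero]

/-- prescribing a linear map on a linearly independent family -/
theorem exists_ext {ι H V : Type*} [AddCommGroup H] [Module (ZMod 2) H] [AddCommGroup V]
    [Module (ZMod 2) V] {v : ι → H} (hv : LinearIndependent (ZMod 2) v) (f : ι → V) :
    ∃ g : H →ₗ[ZMod 2] V, ∀ i, g (v i) = f i := by
  obtain ⟨g, hg⟩ := LinearMap.exists_extend ((Finsupp.linearCombination (ZMod 2) f) ∘ₗ
    (hv.repr : Submodule.span (ZMod 2) (Set.range v) →ₗ[ZMod 2] (ι →₀ ZMod 2)))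
  refine ⟨g, fun i => ?_⟩
  have h1 := LinearMap.congr_fun hg ⟨v i, Submodule.subset_span ⟨i, rfl⟩⟩
  rw [LinearMap.comp_apply, Submodule.subtype_apply] at h1
  rw [h1, LinearMap.comp_apply]
  have h2 : hv.repr ⟨v i, Submodule.subset_span ⟨i, rfl⟩⟩ = Finsupp.single i 1 := hv.repr_eq_single i _ rfl
  have h3 : (hv.repr : Submodule.span (ZMod 2) (Set.range v) →ₗ[ZMod 2] (ι →₀ ZMod 2))
    ⟨v i, Submodule.subset_span ⟨i, rfl⟩⟩ = Finsupp.single i 1 := h2
  rw [h3, Finsupp.linearCombination_single, one_smul]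

/-- all admissible words (entries `≥ 0`, all lengths) of degree `≤ k + D` on a class of degree `k` -/
abbrev WI (k D : ℕ) : Type := {w : Σ r : ℕ, (Fin r → ℕ) // Monotone w.2 ∧ qdeg k w.2 ≤ k + D}

variable {H : Type*} [AddCommGroup H] [Module (ZMod 2) H]

/-- the input for Theorem 3 at one stage `k` -/
structure Stage (O : Ops H) (k : ℕ) (x : H) (D : ℕ) : Prop where
  base : O.Base k x
  hD : D ≤ O.M
  lin : LinearIndependent (ZMod 2) (fun w : WI k D => O.qw w.1.2 x)

/-- span of the admissible words of degree `k + t` -/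
def Wsp (O : Ops H) (k : ℕ) (x : H) (t : ℕ) : Submodule (ZMod 2) H :=
  Submodule.span (ZMod 2) {y | ∃ (r : ℕ) (m : Fin r → ℕ), Monotone m ∧ qdeg k m = k + t ∧ y = O.qw m x}

theorem qw_len_zero {O : Ops H} {x : H} (w : Σ r : ℕ, (Fin r → ℕ)) (h : w.1 = 0) : O.qw w.2 x = x := by
  obtain ⟨r, m⟩ := w
  obtain rfl : r = 0 := h
  rfl

namespace Stage

variable {O : Ops H} {k : ℕ} {x : H} {D : ℕ} (S : Stage O k x D)

include S

theorem lin' (r t : ℕ) (ht : t ≤ D) : LinearIndependent (ZMod 2) (fun m : Adm r k t => O.qw m.1 x) := by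
  have h := S.lin.comp (fun m : Adm r k t => (⟨⟨r, m.1⟩, m.2.1, by rw [m.2.2]; omega⟩ : WI k D)) (by
    intro a b hab
    have h1 := congrArg Subtype.val hab
    simp only [Sigma.mk.injEq, heq_eq_eq, true_and] at h1
    exact Subtype.ext h1)
  exact h

theorem main (r t : ℕ) (ht : t ≤ D) :
    (∀ γ ∈ homG (r + 1) t, O.phi x (r + 1) γ = 0 ↔ Psi r k γ = 0) ∧
    (homG (r + 1) t).map (O.phi x (r + 1)) =
      Submodule.span (ZMod 2) (Set.range fun m : Adm (r + 1) k t => O.qw m.1 x) := by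
  have h := O.main S.base (r := r) (t := t) (ht.trans S.hD) (S.lin' (r + 1) t ht)
  refine ⟨fun γ hγ => ?_, h.2⟩
  rw [h.1 γ hγ, Psi_eq_zero_iff hγ]

/-- a chosen representative in `Gam r` of an admissible word of length `r` -/
theorem exists_gam {r : ℕ} (m : Fin r → ℕ) (hm : qdeg k m ≤ k + D) :
    ∃ γ ∈ homG r (qdeg k m - k), O.phi x r γ = O.qw m x := by
  have hk : k ≤ qdeg k m := by
    rw [qdeg_eq]
    have : k ≤ 2 ^ r * k := Nat.le_mul_of_pos_left _ (by positivity)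
    omega
  exact O.qw_mem S.base m (by omega) (by have := S.hD; omega)

omit S in
/-- the value of `comp r` on a word -/
noncomputable def sec (O : Ops H) (k : ℕ) (x : H) (r : ℕ) (w : Σ r : ℕ, (Fin r → ℕ)) : Gam r :=
  open Classical in
  if h : w.1 = r ∧ ∃ γ ∈ homG w.1 (qdeg k w.2 - k), O.phi x w.1 γ = O.qw w.2 x then
    h.1 ▸ h.2.choose else 0

omit S in
theorem sec_of_ne {r r' : ℕ} (h : r' ≠ r) (m : Fin r' → ℕ) : sec O k x r ⟨r', m⟩ = 0 := by
  rw [sec, dif_neg]
  exact fun h' => h h'.1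

theorem sec_spec {r : ℕ} (m : Fin r → ℕ) (hm : qdeg k m ≤ k + D) :
    sec O k x r ⟨r, m⟩ ∈ homG r (qdeg k m - k) ∧ O.phi x r (sec O k x r ⟨r, m⟩) = O.qw m x := by
  have h : ∃ γ ∈ homG r (qdeg k m - k), O.phi x r γ = O.qw m x := S.exists_gam m hm
  have h2 : sec O k x r ⟨r, m⟩ = h.choose := by
    rw [sec, dif_pos ⟨rfl, h⟩]
  rw [h2]
  exact h.choose_spec

theorem exists_comp (r : ℕ) : ∃ g : H →ₗ[ZMod 2] (Spine693.M r k →ₗ[ZMod 2] ZMod 2),
    ∀ w : WI k D, g (O.qw w.1.2 x) = Psi r k (sec O k x (r + 1) w.1) :=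
  exists_ext S.lin _

theorem exists_c0 : ∃ g : H →ₗ[ZMod 2] ZMod 2, ∀ w : WI k D, g (O.qw w.1.2 x) =
    if w.1.1 = 0 then 1 else 0 :=
  exists_ext S.lin _

/-- the length `r + 1` component as a functional on `Q_0^k D_{r+1}` -/
noncomputable def comp (r : ℕ) : H →ₗ[ZMod 2] (Spine693.M r k →ₗ[ZMod 2] ZMod 2) :=
  (S.exists_comp r).choose

/-- the coefficient of `x` -/
noncomputable def c0 : H →ₗ[ZMod 2] ZMod 2 := S.exists_c0.choose

theorem comp_word (r : ℕ) {r' : ℕ} (m : Fin r' → ℕ) (hm : Monotone m) (hd : qdeg k m ≤ k + D) :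
    S.comp r (O.qw m x) = Psi r k (sec O k x (r + 1) ⟨r', m⟩) :=
  (S.exists_comp r).choose_spec ⟨⟨r', m⟩, hm, hd⟩

theorem c0_word {r' : ℕ} (m : Fin r' → ℕ) (hm : Monotone m) (hd : qdeg k m ≤ k + D) :
    S.c0 (O.qw m x) = if r' = 0 then 1 else 0 :=
  S.exists_c0.choose_spec ⟨⟨r', m⟩, hm, hd⟩

theorem comp_x (r : ℕ) : S.comp r x = 0 := by
  have h := S.comp_word r (r' := 0) (fun i => i.elim0) (fun i => i.elim0) (by simp)
  rw [sec_of_ne (by omega), map_zero] at h
  exact h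

theorem c0_x : S.c0 x = 1 := S.c0_word (r' := 0) (fun i => i.elim0) (fun i => i.elim0) (by simp)

/-- the fundamental property of the component maps -/
theorem comp_phi {r t : ℕ} (ht : t ≤ D) {γ : Gam (r + 1)} (hγ : γ ∈ homG (r + 1) t) :
    S.comp r (O.phi x (r + 1) γ) = Psi r k γ ∧ (∀ r', r' ≠ r → S.comp r' (O.phi x (r + 1) γ) = 0) ∧
      S.c0 (O.phi x (r + 1) γ) = 0 := by
  have hm := S.main r t ht
  have key : ∀ y ∈ Submodule.span (ZMod 2) (Set.range fun m : Adm (r + 1) k t => O.qw m.1 x),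
      ∃ γ' ∈ homG (r + 1) t, O.phi x (r + 1) γ' = y ∧ S.comp r y = Psi r k γ' ∧
        (∀ r', r' ≠ r → S.comp r' y = 0) ∧ S.c0 y = 0 := by
    intro y hy
    induction hy using Submodule.span_induction with
    | mem y hy =>
      obtain ⟨m, rfl⟩ := hy
      have hd : qdeg k m.1 ≤ k + D := by rw [m.2.2]; omega
      obtain ⟨h1, h2⟩ := S.sec_spec m.1 hd
      have h3 : qdeg k m.1 - k = t := by rw [m.2.2]; omega
      rw [h3] at h1
      refine ⟨_, h1, h2, S.comp_word r m.1 m.2.1 hd, fun r' hr' => ?_, ?_⟩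
      · rw [S.comp_word r' m.1 m.2.1 hd, sec_of_ne (by omega), map_zero]
      · rw [S.c0_word m.1 m.2.1 hd, if_neg (by omega)]
    | zero => exact ⟨0, Submodule.zero_mem _, by simp, by simp, by simp, by simp⟩
    | add y z _ _ hy hz =>
      obtain ⟨g1, a1, b1, c1, d1, e1⟩ := hy
      obtain ⟨g2, a2, b2, c2, d2, e2⟩ := hz
      exact ⟨g1 + g2, Submodule.add_mem _ a1 a2, by rw [map_add, b1, b2], by rw [map_add, map_add, c1, c2],
        fun r' hr' => by rw [map_add, d1 r' hr', d2 r' hr', add_zero], by rw [map_add, e1, e2, add_zero]⟩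
    | smul c y _ hy =>
      obtain ⟨g1, a1, b1, c1, d1, e1⟩ := hy
      exact ⟨c • g1, Submodule.smul_mem _ _ a1, by rw [map_smul, b1], by rw [map_smul, map_smul, c1],
        fun r' hr' => by rw [map_smul, d1 r' hr', smul_zero], by rw [map_smul, e1, smul_zero]⟩
  obtain ⟨γ', h1, h2, h3, h4, h5⟩ := key (O.phi x (r + 1) γ) (by
    rw [← hm.2]; exact Submodule.mem_map_of_mem hγ)
  refine ⟨?_, h4, h5⟩
  rw [h3]
  have h6 : Psi r k (γ' - γ) = 0 := by
    rw [← hm.1 _ (Submodule.sub_mem _ h1 hγ), map_sub, h2, sub_self]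
  rw [map_sub, sub_eq_zero] at h6
  exact h6

/-- every word in degree `≤ k + D` is `x` or some `φ_{r+1} γ` -/
theorem word_cases {r t : ℕ} (m : Fin r → ℕ) (hd : qdeg k m = k + t) (ht : t ≤ D) :
    (t = 0 ∧ O.qw m x = x ∧ r = 0) ∨ ∃ r', r = r' + 1 ∧ ∃ γ ∈ homG (r' + 1) t,
      O.qw m x = O.phi x (r' + 1) γ := by
  rcases r with _ | r
  · left
    rw [qdeg_zero] at hd
    exact ⟨by omega, rfl, rfl⟩
  · right
    refine ⟨r, rfl, ?_⟩
    obtain ⟨γ, h1, h2⟩ := O.qw_mem S.base m hd (ht.trans S.hD)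
    exact ⟨γ, h1, h2.symm⟩

/-- induction principle for `Wsp` -/
theorem wsp_induction {t : ℕ} (ht : t ≤ D) {P : H → Prop} (h0 : P 0) (hadd : ∀ a b, P a → P b → P (a + b))
    (hx : t = 0 → P x) (hphi : ∀ r, ∀ γ ∈ homG (r + 1) t, P (O.phi x (r + 1) γ))
    {y : H} (hy : y ∈ Wsp O k x t) : P y := by
  rw [Wsp] at hy
  induction hy using Submodule.span_induction with
  | mem y hy =>
    obtain ⟨r, m, hm, hd, rfl⟩ := hy
    rcases S.word_cases m hd ht with ⟨h1, h2, _⟩ | ⟨r', rfl, γ, hγ, h⟩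
    · rw [h2]; exact hx h1
    · rw [h]; exact hphi r' γ hγ
  | zero => exact h0
  | add a b _ _ ha hb => exact hadd a b ha hb
  | smul c a _ ha =>
    have : c = 0 ∨ c = 1 := by revert c; decide
    rcases this with rfl | rfl
    · simpa using h0
    · simpa using ha

/-- (T3) `comp_Sq` -/
theorem comp_Sq {t : ℕ} (ht : t ≤ D) {y : H} (hy : y ∈ Wsp O k x t) (r a : ℕ) :
    S.comp r (O.Sq a y) = S.comp r y ∘ₗ dick.SqM r k a := by
  refine S.wsp_induction ht (P := fun y => S.comp r (O.Sq a y) = S.comp r y ∘ₗ dick.SqM r k a)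
    (by simp) ?_ ?_ ?_ hy
  · intro y z hy hz; rw [map_add, map_add, map_add, hy, hz, LinearMap.add_comp]
  · intro _
    rcases Nat.eq_zero_or_pos a with rfl | ha
    · rw [O.Sq_zero, S.comp_x]; simp
    · rw [S.base.sq a ha, map_zero, S.comp_x]; simp
  · intro r' γ hγ
    rw [← O.phi_sqG S.base.sq (ht.trans S.hD) hγ]
    have h1 := S.comp_phi (t := t - a) (by omega) (sqG_mem (a := a) hγ)
    have h2 := S.comp_phi ht hγ
    by_cases h : r = r'
    · subst h
      rw [h1.1, h2.1, Psi_sqG]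
    · rw [h1.2.1 r h, h2.2.1 r h, LinearMap.zero_comp]

/-- (T3) `c0_Sq` -/
theorem c0_Sq {t : ℕ} (ht : t ≤ D) {y : H} (hy : y ∈ Wsp O k x t) {a : ℕ} (ha : 1 ≤ a) :
    S.c0 (O.Sq a y) = 0 := by
  refine S.wsp_induction ht (P := fun y => S.c0 (O.Sq a y) = 0) (by simp) ?_ ?_ ?_ hy
  · intro y z hy hz; rw [map_add, map_add, hy, hz, add_zero]
  · intro _
    rw [S.base.sq a ha, map_zero]
  · intro r' γ hγ
    rw [← O.phi_sqG S.base.sq (ht.trans S.hD) hγ]
    exact (S.comp_phi (t := t - a) (by omega) (sqG_mem (a := a) hγ)).2.2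

/-- (T3) `comp_deg` -/
theorem comp_deg {t : ℕ} (ht : t ≤ D) {y : H} (hy : y ∈ Wsp O k x t) {r j : ℕ} (g : Spine693.M r k)
    (hg : IsWeightedHomogeneous (Spine693.wt r) (g : Spine693.D (r + 1)) j) (hj : j ≠ t) :
    S.comp r y g = 0 := by
  refine S.wsp_induction ht (P := fun y => S.comp r y g = 0) (by simp) ?_ ?_ ?_ hy
  · intro y z hy hz; rw [map_add, LinearMap.add_apply, hy, hz, add_zero]
  · intro _
    rw [S.comp_x]; rfl
  · intro r' γ hγ
    have h2 := S.comp_phi ht hγ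
    by_cases h : r = r'
    · subst h
      rw [h2.1]
      exact Psi_conc hγ g hg hj
    · rw [h2.2.1 r h]; rfl

/-- (T3) `c0_deg` -/
theorem c0_deg {t : ℕ} (ht : t ≤ D) {y : H} (hy : y ∈ Wsp O k x t) (h0 : t ≠ 0) : S.c0 y = 0 := by
  refine S.wsp_induction ht (P := fun y => S.c0 y = 0) (by simp) ?_ ?_ ?_ hy
  · intro y z hy hz; rw [map_add, hy, hz, add_zero]
  · intro h; exact absurd h h0
  · intro r' γ hγ
    exact (S.comp_phi ht hγ).2.2

/-- (T3) `comp_inj` -/
theorem comp_inj {t : ℕ} (ht : t ≤ D) {y : H} (hy : y ∈ Wsp O k x t) (h0 : S.c0 y = 0)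
    (hr : ∀ r, S.comp r y = 0) : y = 0 := by
  classical
  have hy' : y ∈ Submodule.span (ZMod 2) (Set.range fun w : {w : WI k D // qdeg k w.1.2 = k + t} =>
      O.qw w.1.1.2 x) := by
    refine Submodule.span_mono ?_ hy
    rintro _ ⟨r, m, hm, hd, rfl⟩
    exact ⟨⟨⟨⟨r, m⟩, hm, by rw [hd]; omega⟩, hd⟩, rfl⟩
  rw [Finsupp.mem_span_range_iff_exists_finsupp] at hy'
  obtain ⟨c, hc⟩ := hy'
  have hlin : LinearIndependent (ZMod 2) (fun w : {w : WI k D // qdeg k w.1.2 = k + t} =>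
      O.qw w.1.1.2 x) := S.lin.comp Subtype.val Subtype.val_injective
  suffices hc0 : c = 0 by rw [← hc, hc0]; simp
  ext w0
  rw [Finsupp.zero_apply]
  obtain ⟨⟨⟨r0, m0⟩, hm0, hd0⟩, he0⟩ := w0
  -- the part of length `r0`
  have hfilt : ∑ w ∈ c.support.filter (fun w => w.1.1.1 = r0), c w • O.qw w.1.1.2 x = 0 := by
    rcases r0 with _ | r
    · -- length zero
      have h1 : ∑ w ∈ c.support.filter (fun w => w.1.1.1 = 0), c w • O.qw w.1.1.2 x =
          (∑ w ∈ c.support.filter (fun w => w.1.1.1 = 0), c w) • x := by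
        rw [Finset.sum_smul]
        refine Finset.sum_congr rfl fun w hw => ?_
        rw [qw_len_zero _ (Finset.mem_filter.1 hw).2]
      have h2 : S.c0 y = ∑ w ∈ c.support.filter (fun w => w.1.1.1 = 0), c w := by
        rw [← hc, Finsupp.sum, map_sum, Finset.sum_filter]
        refine Finset.sum_congr rfl fun w _ => ?_
        rw [map_smul, S.c0_word w.1.1.2 w.1.2.1 w.1.2.2, smul_eq_mul, mul_ite, mul_one, mul_zero]
      rw [h1, ← h2, h0, zero_smul]
    · set γ : Gam (r + 1) := ∑ w ∈ c.support.filter (fun w => w.1.1.1 = r + 1),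
        c w • sec O k x (r + 1) w.1.1 with hγ
      have hs : ∀ w : {w : WI k D // qdeg k w.1.2 = k + t}, w.1.1.1 = r + 1 →
          sec O k x (r + 1) w.1.1 ∈ homG (r + 1) t ∧
            O.phi x (r + 1) (sec O k x (r + 1) w.1.1) = O.qw w.1.1.2 x := by
        rintro ⟨⟨⟨r', m⟩, hm, hd⟩, he⟩ h
        obtain rfl : r' = r + 1 := h
        have h1 := S.sec_spec m hd
        have h3 : qdeg k m - k = t := by
          have : qdeg k m = k + t := he
          omega
        rw [h3] at h1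
        exact h1
      have hmem : γ ∈ homG (r + 1) t :=
        Submodule.sum_mem _ fun w hw => Submodule.smul_mem _ _ (hs w (Finset.mem_filter.1 hw).2).1
      have hphi : O.phi x (r + 1) γ =
          ∑ w ∈ c.support.filter (fun w => w.1.1.1 = r + 1), c w • O.qw w.1.1.2 x := by
        rw [hγ, map_sum]
        refine Finset.sum_congr rfl fun w hw => ?_
        rw [map_smul, (hs w (Finset.mem_filter.1 hw).2).2]
      have hcomp : S.comp r y = Psi r k γ := by
        rw [← hc, Finsupp.sum, map_sum, hγ, map_sum, Finset.sum_filter]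
        refine Finset.sum_congr rfl fun w _ => ?_
        rw [map_smul, S.comp_word r w.1.1.2 w.1.2.1 w.1.2.2]
        split_ifs with h
        · rw [map_smul]
        · have : sec O k x (r + 1) ⟨w.1.1.1, w.1.1.2⟩ = 0 := sec_of_ne h _
          rw [this, map_zero, smul_zero]
      rw [← hphi, (S.main r t ht).1 γ hmem, ← hcomp, hr r]
  have hsum : Finsupp.linearCombination (ZMod 2)
      (fun w : {w : WI k D // qdeg k w.1.2 = k + t} => O.qw w.1.1.2 x)
      (c.filter (fun w => w.1.1.1 = r0)) = 0 := by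
    rw [Finsupp.linearCombination_apply, Finsupp.sum, Finsupp.support_filter, ← hfilt]
    refine Finset.sum_congr rfl fun w hw => ?_
    rw [Finsupp.filter_apply, if_pos (Finset.mem_filter.1 hw).2]
  have h := linearIndependent_iff.1 hlin _ hsum
  have h2 := DFunLike.congr_fun h (⟨⟨⟨r0, m0⟩, hm0, hd0⟩, he0⟩ : {w : WI k D // qdeg k w.1.2 = k + t})
  rw [Finsupp.filter_apply] at h2
  simpa using h2

end Stage

/-! ## suspension -/

section sigma

variable {H' : Type*} [AddCommGroup H'] [Module (ZMod 2) H'] {O : Ops H} {O' : Ops H'} {x : H} {x' : H'}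
  (σ : H →ₗ[ZMod 2] H') {N : ℕ} (hT : ∀ i ≤ N, ∀ y, σ (O.T i y) = O'.T i (σ y)) (hx : σ x = x')

include hT hx

theorem sigma_tw : ∀ {r : ℕ} (m : Fin r → ℕ), (∀ j, m j ≤ N) → σ (O.tw m x) = O'.tw m x'
  | 0, _, _ => hx
  | r + 1, m, h => by
    rw [Ops.tw_succ, Ops.tw_succ, hT _ (h 0), sigma_tw (Fin.tail m) fun j => h j.succ]

theorem sigma_phi {r t : ℕ} (ht : t ≤ N) {γ : Gam r} (hγ : γ ∈ homG r t) :
    σ (O.phi x r γ) = O'.phi x' r γ := by
  refine homG_induction (P := fun γ => σ (O.phi x r γ) = O'.phi x' r γ) (by simp) ?_ ?_ hγ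
  · intro a b ha hb; rw [map_add, map_add, map_add, ha, hb]
  · intro m hm
    rw [Ops.phi_single, Ops.phi_single]
    refine sigma_tw σ hT hx _ fun j => ?_
    have : m j ≤ ∑ j, m j := Finset.single_le_sum (fun _ _ => Nat.zero_le _) (Finset.mem_univ j)
    omega

/-- (T3) `comp_sig`, also for `c0` -/
theorem Stage.comp_sig {k D D' : ℕ} (S : Stage O k x D) (S' : Stage O' (k + 1) x' D') {t : ℕ}
    (ht : t ≤ D) (ht' : t ≤ D') (htN : t ≤ N) {y : H} (hy : y ∈ Wsp O k x t) (r : ℕ) :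
    S'.comp r (σ y) = S.comp r y ∘ₗ Spine693.inc r k := by
  refine S.wsp_induction ht (P := fun y => S'.comp r (σ y) = S.comp r y ∘ₗ Spine693.inc r k)
    (by simp) ?_ ?_ ?_ hy
  · intro y z hy hz; rw [map_add, map_add, map_add, hy, hz, LinearMap.add_comp]
  · intro _
    rw [hx, S'.comp_x, S.comp_x, LinearMap.zero_comp]
  · intro r' γ hγ
    rw [sigma_phi σ hT hx htN hγ]
    have h1 := S'.comp_phi ht' hγ
    have h2 := S.comp_phi ht hγ
    by_cases h : r = r'
    · subst h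
      rw [h1.1, h2.1, Psi_inc]
    · rw [h1.2.1 r h, h2.2.1 r h, LinearMap.zero_comp]

end sigma

/-! ## words of the wrong length are killed by `comp` -/

/-- `comp r` kills the admissible words of length `≠ r + 1` -/
theorem Stage.comp_word_of_ne {O : Ops H} {k : ℕ} {x : H} {D : ℕ} (S : Stage O k x D) {r r' : ℕ}
    (m : Fin r' → ℕ) (hm : Monotone m) (hd : qdeg k m ≤ k + D) (h : r' ≠ r + 1) :
    S.comp r (O.qw m x) = 0 := by
  rw [S.comp_word r m hm hd, Stage.sec_of_ne h, map_zero]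

/-! ## stage `k = 0` (only fixed length) -/

section zero

variable {O : Ops H} {x : H} {D : ℕ} (hb : O.Base 0 x) (hD : D ≤ O.M) {r : ℕ}
  (hlin : ∀ t ≤ D, LinearIndependent (ZMod 2) (fun m : Adm (r + 1) 0 t => O.qw m.1 x))

include hb hD hlin

theorem zero_main {t : ℕ} (ht : t ≤ D) :
    (∀ γ ∈ homG (r + 1) t, O.phi x (r + 1) γ = 0 ↔ Psi r 0 γ = 0) ∧
    (homG (r + 1) t).map (O.phi x (r + 1)) =
      Submodule.span (ZMod 2) (Set.range fun m : Adm (r + 1) 0 t => O.qw m.1 x) := by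
  have h := O.main hb (r := r) (t := t) (ht.trans hD) (hlin t ht)
  refine ⟨fun γ hγ => ?_, h.2⟩
  rw [h.1 γ hγ, Psi_eq_zero_iff hγ]

/-- the functional of an element `y` of the span of the words of length `r + 1` on `[1]` -/
theorem zero_functional {t : ℕ} (ht : t ≤ D) {y : H}
    (hy : y ∈ Submodule.span (ZMod 2) (Set.range fun m : Adm (r + 1) 0 t => O.qw m.1 x)) :
    ∃ γ ∈ homG (r + 1) t, O.phi x (r + 1) γ = y ∧ (y ≠ 0 → Psi r 0 γ ≠ 0) ∧
      Spine693.Conc (Psi r 0 γ) t ∧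
      ((∀ a, 1 ≤ a → O.Sq a y = 0) → ∀ a, 1 ≤ a → Psi r 0 γ ∘ₗ dick.SqM r 0 a = 0) := by
  rw [← (zero_main hb hD hlin ht).2] at hy
  obtain ⟨γ, hγ, rfl⟩ := hy
  refine ⟨γ, hγ, rfl, ?_, ?_, ?_⟩
  · intro h h'
    exact h (((zero_main hb hD hlin ht).1 γ hγ).2 h')
  · intro g i hg hi
    exact Psi_conc hγ g hg hi
  · intro h a ha
    have h1 : O.phi x (r + 1) (sqG (r + 1) a γ) = 0 := by
      rw [O.phi_sqG hb.sq (ht.trans hD) hγ, h a ha]
    rw [← Psi_sqG]
    exact ((zero_main hb hD hlin (t := t - a) (by omega)).1 _ (sqG_mem (a := a) hγ)).1 h1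

/-- stage `0`: compatibility with the suspension -/
theorem zero_sigma {H' : Type*} [AddCommGroup H'] [Module (ZMod 2) H'] {O' : Ops H'} {x' : H'}
    {D' : ℕ} (S' : Stage O' 1 x' D') (σ : H →ₗ[ZMod 2] H')
    {N : ℕ} (hT : ∀ i ≤ N, ∀ y, σ (O.T i y) = O'.T i (σ y)) (hx : σ x = x')
    {t : ℕ} (ht : t ≤ D) (ht' : t ≤ D') (htN : t ≤ N) {y : H}
    (hy : y ∈ Submodule.span (ZMod 2) (Set.range fun m : Adm (r + 1) 0 t => O.qw m.1 x)) :
    ∃ f : Spine693.M r 0 →ₗ[ZMod 2] ZMod 2, (y ≠ 0 → f ≠ 0) ∧ Spine693.Conc f t ∧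
      ((∀ a, 1 ≤ a → O.Sq a y = 0) → ∀ a, 1 ≤ a → f ∘ₗ dick.SqM r 0 a = 0) ∧
      S'.comp r (σ y) = f ∘ₗ Spine693.inc r 0 ∧ (∀ r', r' ≠ r → S'.comp r' (σ y) = 0) ∧
      S'.c0 (σ y) = 0 := by
  obtain ⟨γ, hγ, h1, h2, h3, h4⟩ := zero_functional hb hD hlin ht hy
  refine ⟨Psi r 0 γ, h2, h3, h4, ?_⟩
  rw [← h1, sigma_phi σ hT hx htN hγ]
  have h5 := S'.comp_phi ht' hγ
  exact ⟨by rw [h5.1, ← Psi_inc], h5.2.1, h5.2.2⟩

end zero

/-! ## rank one: extending functionals from `M_1` to `M_0` -/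

/-- `M 0 0 → M 0 1`, the projection killing the constants -/
noncomputable def prj : Spine693.M 0 0 →ₗ[ZMod 2] Spine693.M 0 1 where
  toFun g := ⟨(g : Spine693.D 1) - C (coeff 0 (g : Spine693.D 1)), by
    intro s hs
    by_contra h
    have hs0 : s = 0 := by
      ext j
      have : j = 0 := by
        apply Fin.ext
        have := j.2
        simp only [Fin.val_zero]
        omega
      subst this
      simp only [Finsupp.coe_zero, Pi.zero_apply]
      omega
    subst hs0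
    simp at hs⟩
  map_add' g h := by
    apply Subtype.ext
    simp only [Submodule.coe_add, coeff_add, map_add]
    ring
  map_smul' c g := by
    apply Subtype.ext
    simp only [Submodule.coe_smul, coeff_smul, smul_eq_mul, map_mul, RingHom.id_apply, smul_sub]
    congr 1
    rw [smul_eq_C_mul]


/-- a functional on `M 0 0` concentrated in positive degree is determined on `M 0 1` -/
theorem eq_comp_prj {f : Spine693.M 0 0 →ₗ[ZMod 2] ZMod 2} {t : ℕ} (ht : 1 ≤ t)
    (hf : Spine693.Conc f t) : f = (f ∘ₗ Spine693.inc 0 0) ∘ₗ prj := by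
  ext g
  have h1 : g = Spine693.inc 0 0 (prj g) + ⟨C (coeff 0 (g : Spine693.D 1)), fun s _ => Nat.zero_le _⟩ := by
    apply Subtype.ext
    change (g : Spine693.D 1) = ((g : Spine693.D 1) - C (coeff 0 (g : Spine693.D 1))) + C (coeff 0 (g : Spine693.D 1))
    rw [sub_add_cancel]
  have h2 : f ⟨C (coeff 0 (g : Spine693.D 1)), fun s _ => Nat.zero_le _⟩ = 0 :=
    hf _ 0 (isWeightedHomogeneous_C _ _) (by omega)
  conv_lhs => rw [h1, map_add, h2, add_zero]
  rfl

end Crest.Agent.R204.Thm3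
end

-- ▼ part R204/GlueC_114
section

/-!
# Row 204: glue, part C: suspension on words and its kernel; admissible words (helper114)
-/

set_option autoImplicit false

noncomputable section

namespace Crest.Agent.R204.Glue114

open Spec114 TensorProduct MvPolynomial Rng114
open scoped TensorProduct

variable {Y : Spec114.Tower} {S : Sph Y} {D d : ℕ}

/-! ## leading zeros are iterated squares -/

theorem word_replicate_zero (hF : Facts Y S D d) {k : ℕ} (hk : k ≤ D + 2) (z : ℕ) (J : List ℕ) :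
    Y.word k (List.replicate z 0 ++ J) = Y.word k J ^ (2 ^ z) := by
  induction z with
  | zero => simp
  | succ z ih =>
    rw [List.replicate_succ, List.cons_append, word_cons, (hF.q k hk).1, ih, pow_succ (2 : ℕ),
      mul_two, pow_add]

theorem wdeg_replicate_zero (k z : ℕ) (J : List ℕ) :
    Tower.wdeg k (List.replicate z 0 ++ J) = 2 ^ z * Tower.wdeg k J := by
  induction z with
  | zero => simp
  | succ z ih =>
    rw [List.replicate_succ, List.cons_append, wdeg_cons, ih, pow_succ]; ring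

/-- suspension of a word -/
theorem sig_word (hF : Facts Y S D d) {k : ℕ} (hk : k ≤ D + 1) (I : List ℕ)
    (hI : ∀ i ∈ I, 1 ≤ i ∧ i ≤ D + 1) :
    Y.σ k (Y.word k I) = Y.word (k + 1) (I.map (· - 1)) := by
  induction I with
  | nil => exact (hF.sigma k hk).2.2.2.2.2.2
  | cons i I ih =>
    obtain ⟨hi1, hi2⟩ := hI i (by simp)
    obtain ⟨j, rfl⟩ : ∃ j, i = j + 1 := ⟨i - 1, by omega⟩
    rw [word_cons, (hF.sigma k hk).2.2.2.2.2.1 j hi2, ih fun i' hi' => hI i' (by simp [hi'])]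
    rfl

theorem wdeg_map_pred (k : ℕ) (I : List ℕ) (hI : ∀ i ∈ I, 1 ≤ i) :
    Tower.wdeg (k + 1) (I.map (· - 1)) = Tower.wdeg k I + 1 := by
  induction I with
  | nil => rfl
  | cons i I ih =>
    have hi1 := hI i (by simp)
    rw [List.map_cons, wdeg_cons, wdeg_cons, ih fun i' hi' => hI i' (by simp [hi'])]
    omega

/-! ## splitting off the leading zeros of an admissible list -/

/-- the number of leading zeros -/
def lz (J : List ℕ) : ℕ := (J.takeWhile (· = 0)).length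

/-- the rest -/
def rz (J : List ℕ) : List ℕ := J.dropWhile (· = 0)

theorem split_zeros (J : List ℕ) : List.replicate (lz J) 0 ++ rz J = J := by
  have h : J.takeWhile (· = 0) = List.replicate (lz J) 0 := by
    rw [List.eq_replicate_iff]
    refine ⟨rfl, fun b hb => ?_⟩
    have := List.mem_takeWhile_imp hb
    simpa using this
  rw [← h]
  exact List.takeWhile_append_dropWhile

theorem rz_pos {J : List ℕ} (hJ : J.Pairwise (· ≤ ·)) : ∀ i ∈ rz J, 1 ≤ i := by
  intro i hi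
  have hne : rz J ≠ [] := List.ne_nil_of_mem hi
  have hhead : 1 ≤ (rz J).head hne := by
    have := List.head_dropWhile_not (p := fun x : ℕ => decide (x = 0)) (l := J) hne
    have h2 : ¬ ((rz J).head hne = 0) := by
      intro h
      simp only [rz] at h
      rw [h] at this
      simp at this
    omega
  have hs : (rz J).Pairwise (· ≤ ·) := hJ.sublist (List.dropWhile_sublist _)
  obtain ⟨a, l, hal⟩ := List.exists_cons_of_ne_nil hne
  rw [hal] at hi hs
  have hhead' : 1 ≤ a := by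
    have : (rz J).head hne = a := by simp [hal]
    omega
  rcases List.mem_cons.1 hi with rfl | h
  · exact hhead'
  · exact hhead'.trans ((List.pairwise_cons.1 hs).1 i h)

theorem rz_pairwise {J : List ℕ} (hJ : J.Pairwise (· ≤ ·)) : (rz J).Pairwise (· ≤ ·) :=
  hJ.sublist (List.dropWhile_sublist _)

/-- the generator underlying an admissible list (entries `≥ 0`) -/
def gen (J : List ℕ) (hJ : J.Pairwise (· ≤ ·)) : Tower.Wd := ⟨rz J, rz_pairwise hJ, rz_pos hJ⟩

theorem word_eq_pow (hF : Facts Y S D d) {k : ℕ} (hk : k ≤ D + 2) (J : List ℕ)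
    (hJ : J.Pairwise (· ≤ ·)) :
    Y.word k J = yk Y k (gen J hJ) ^ (2 ^ lz J) := by
  conv_lhs => rw [← split_zeros J]
  exact word_replicate_zero hF hk _ _

theorem wdeg_eq_mul (k : ℕ) (J : List ℕ) (hJ : J.Pairwise (· ≤ ·)) :
    Tower.wdeg k J = 2 ^ lz J * wk k (gen J hJ) := by
  conv_lhs => rw [← split_zeros J]
  exact wdeg_replicate_zero k _ _

/-- `gen` and `lz` determine the list -/
theorem gen_lz_inj {J J' : List ℕ} (hJ : J.Pairwise (· ≤ ·)) (hJ' : J'.Pairwise (· ≤ ·))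
    (h : gen J hJ = gen J' hJ') (h' : lz J = lz J') : J = J' := by
  have h1 : rz J = rz J' := congrArg Subtype.val h
  rw [← split_zeros J, ← split_zeros J', h1, h']


/-! ## the formal suspension on a polynomial presentation -/

section susp

variable {G : Type} (sh : G → Tower.Wd × ℕ)

open Classical in
/-- `X_i ↦ X_{(sh i).1}^(2^(sh i).2)`, all other monomials `↦ 0` -/
def Fm : MvPolynomial G F2 →ₗ[F2] MvPolynomial Tower.Wd F2 :=
  (basisMonomials G F2).constr F2 fun s =>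
    if h : ∃ i, s = Finsupp.single i 1 then X (sh h.choose).1 ^ (2 ^ (sh h.choose).2) else 0

theorem Fm_monomial_single (i : G) :
    Fm sh (monomial (Finsupp.single i 1) 1) = X (sh i).1 ^ (2 ^ (sh i).2) := by
  classical
  have h : ∃ j, Finsupp.single i 1 = Finsupp.single j (1 : ℕ) := ⟨i, rfl⟩
  have h2 : h.choose = i := by
    have := h.choose_spec
    exact ((Finsupp.single_left_injective one_ne_zero) this).symm
  have e : (monomial (Finsupp.single i 1) (1 : F2) : MvPolynomial G F2) =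
    basisMonomials G F2 (Finsupp.single i 1) := by simp
  rw [e, Fm, Module.Basis.constr_basis, dif_pos h, h2]

theorem Fm_monomial_other {s : G →₀ ℕ} (hs : ¬ ∃ i, s = Finsupp.single i 1) :
    Fm sh (monomial s 1) = 0 := by
  classical
  have e : (monomial s (1 : F2) : MvPolynomial G F2) = basisMonomials G F2 s := by simp
  rw [e, Fm, Module.Basis.constr_basis, dif_neg hs]

theorem Fm_X (i : G) : Fm sh (X i) = X (sh i).1 ^ (2 ^ (sh i).2) := Fm_monomial_single sh i

theorem Fm_mul (i j : G) (a : MvPolynomial G F2) : Fm sh (X i * (X j * a)) = 0 := by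
  induction a using MvPolynomial.induction_on' with
  | add p q hp hq => rw [mul_add, mul_add, map_add, hp, hq, add_zero]
  | monomial s c =>
    have : (X i * (X j * monomial s c) : MvPolynomial G F2) =
        c • monomial (Finsupp.single i 1 + (Finsupp.single j 1 + s)) 1 := by
      rw [X, X, monomial_mul, monomial_mul, smul_monomial]
      simp
    rw [this, map_smul, Fm_monomial_other, smul_zero]
    rintro ⟨l, hl⟩
    have h1 := congrArg (fun f : G →₀ ℕ => f.sum fun _ n => n) hl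
    beta_reduce at h1
    rw [Finsupp.sum_add_index' (by simp) (by intros; rfl),
      Finsupp.sum_add_index' (by simp) (by intros; rfl)] at h1
    simp at h1

theorem Fm_li (hsh : Function.Injective sh) : LinearIndependent F2 fun i => Fm sh (X i) := by
  have h2 := (basisMonomials Tower.Wd F2).linearIndependent.comp
    (fun i : G => Finsupp.single (sh i).1 (2 ^ (sh i).2)) (by
      intro i i' h
      beta_reduce at h
      rw [Finsupp.single_eq_single_iff] at h
      rcases h with ⟨h, h'⟩ | ⟨h, _⟩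
      · exact hsh (Prod.ext h (Nat.pow_right_injective (le_refl 2) h'))
      · exact absurd h (by positivity))
  have h4 : (fun i : G => Fm sh (X i)) =
      (basisMonomials Tower.Wd F2) ∘ fun i : G => Finsupp.single (sh i).1 (2 ^ (sh i).2) := by
    funext i
    rw [Fm_X]
    simp [X_pow_eq_monomial]
  rw [h4]
  exact h2

variable {k : ℕ} {w : G → ℕ} {y : G → Y.H k} {N : ℕ}

/-- compatibility with the topological suspension -/
theorem sig_aeval (hF : Facts Y S D d) (hk : k ≤ D + 1)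
    (hw : ∀ i, 1 ≤ w i) (hy : ∀ i, w i ≤ N → y i ∈ Y.gr k (w i))
    (hσ : ∀ i, w i ≤ N → Y.σ k (y i) = aeval (yk Y (k + 1)) (X (sh i).1 ^ (2 ^ (sh i).2) :
      MvPolynomial Tower.Wd F2))
    {t : ℕ} (ht1 : 1 ≤ t) (ht : t ≤ N) {p : MvPolynomial G F2} (hp : p ∈ V w t) :
    Y.σ k (aeval y p) = aeval (yk Y (k + 1)) (Fm sh p) := by
  have hg := hF.gr k (by omega)
  have mono : ∀ s : G →₀ ℕ, Finsupp.weight w s = t →
      Y.σ k (aeval y (monomial s (1 : F2))) = aeval (yk Y (k + 1)) (Fm sh (monomial s 1)) := by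
    intro s hs
    by_cases h : ∃ i, s = Finsupp.single i 1
    · obtain ⟨i, rfl⟩ := h
      rw [Fm_monomial_single]
      have hwi : w i = t := by simpa [Finsupp.weight_apply] using hs
      rw [← hσ i (by omega)]
      congr 1
      change aeval y (X i) = _
      simp
    · rw [Fm_monomial_other sh h, map_zero]
      have hs0 : s ≠ 0 := by
        rintro rfl
        rw [map_zero] at hs
        omega
      obtain ⟨i, hi⟩ : s.support.Nonempty := by
        rw [Finset.nonempty_iff_ne_empty]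
        intro he
        exact hs0 (Finsupp.support_eq_empty.1 he)
      have hle : Finsupp.single i 1 ≤ s := by
        rw [Finsupp.single_le_iff]
        exact Nat.one_le_iff_ne_zero.2 (by simpa using hi)
      obtain ⟨s', rfl⟩ := exists_add_of_le hle
      have hs' : s' ≠ 0 := by
        rintro rfl
        exact h ⟨i, by simp⟩
      obtain ⟨j, hj⟩ : s'.support.Nonempty := by
        rw [Finset.nonempty_iff_ne_empty]
        intro he
        exact hs' (Finsupp.support_eq_empty.1 he)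
      rw [map_add] at hs
      have h1 : Finsupp.weight w (Finsupp.single i 1) = w i := by simp [Finsupp.weight_apply]
      have h2 : w j ≤ Finsupp.weight w s' := weight_le_of_mem hj
      have hwi := hw i
      have hwj := hw j
      have e : (monomial (Finsupp.single i 1 + s') (1 : F2) : MvPolynomial G F2) =
          X i * monomial s' 1 := by
        rw [X, monomial_mul, one_mul]
      have hm : aeval y (monomial s' (1 : F2)) ∈ Y.gr k (Finsupp.weight w s') := by
        refine aeval_mem_gr (w := w) hg.2.1 hg.2.2 (fun l hl => hy l (by omega)) ?_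
        rw [mem_weightedHomogeneousSubmodule]
        exact isWeightedHomogeneous_monomial w s' 1 rfl
      rw [e, map_mul, aeval_X, (hF.sigma k hk).2.2.1]
      rw [hF.eps k (by omega) (w i) hwi _ (hy i (by omega)),
        hF.eps k (by omega) _ (by omega) _ hm, zero_smul, zero_smul, add_zero]
  rw [mem_weightedHomogeneousSubmodule] at hp
  have hsum : p = ∑ s ∈ p.support, p.coeff s • monomial s (1 : F2) := by
    conv_lhs => rw [as_sum p]
    refine Finset.sum_congr rfl fun s _ => ?_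
    rw [smul_monomial, smul_eq_mul, mul_one]
  rw [hsum]
  simp only [map_sum, map_smul]
  refine Finset.sum_congr rfl fun s hs => ?_
  rw [mono s (hp (by simpa using hs))]

/-- weights under the formal suspension -/
theorem Fm_mem (hsw : ∀ i, 2 ^ (sh i).2 * wk (k + 1) (sh i).1 = w i + 1) {t : ℕ}
    {p : MvPolynomial G F2} (hp : p ∈ V w t) : Fm sh p ∈ V (wk (k + 1)) (t + 1) := by
  rw [mem_weightedHomogeneousSubmodule] at hp
  have hsum : p = ∑ s ∈ p.support, p.coeff s • monomial s (1 : F2) := by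
    conv_lhs => rw [as_sum p]
    refine Finset.sum_congr rfl fun s _ => ?_
    rw [smul_monomial, smul_eq_mul, mul_one]
  rw [hsum]
  simp only [map_sum, map_smul]
  refine Submodule.sum_mem _ fun s hs => Submodule.smul_mem _ _ ?_
  by_cases h : ∃ i, s = Finsupp.single i 1
  · obtain ⟨i, rfl⟩ := h
    rw [Fm_monomial_single]
    have hs' := hp (by simpa using hs)
    have hwi : w i = t := by simpa [Finsupp.weight_apply] using hs'
    have := (isWeightedHomogeneous_X F2 (wk (k + 1)) (sh i).1).pow (2 ^ (sh i).2)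
    rw [mem_weightedHomogeneousSubmodule]
    rw [smul_eq_mul, hsw i, hwi] at this
    exact this
  · rw [Fm_monomial_other sh h]; exact Submodule.zero_mem _

/-- kernel of the suspension on primitives, polynomial form -/
theorem exists_sq (hF : Facts Y S D d) (hk : k ≤ D + 1)
    (hw : ∀ i, 1 ≤ w i) (hy : ∀ i, w i ≤ N → y i ∈ Y.gr k (w i)) (hN : N ≤ k + D)
    (hσ : ∀ i, w i ≤ N → Y.σ k (y i) = aeval (yk Y (k + 1)) (X (sh i).1 ^ (2 ^ (sh i).2) :
      MvPolynomial Tower.Wd F2))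
    (hsh : Function.Injective sh) (hsw : ∀ i, 2 ^ (sh i).2 * wk (k + 1) (sh i).1 = w i + 1)
    {v : G → ℕ} {δ : MvPolynomial G F2 →ₐ[F2] MvPolynomial G F2 ⊗[F2] MvPolynomial G F2}
    (hH : Hopf407.HopfPoly v (X : G → MvPolynomial G F2) δ)
    {t : ℕ} (ht1 : 1 ≤ t) (ht : t ≤ N) {p : MvPolynomial G F2} (hp : p ∈ V w t)
    (hprim : Hopf407.IsPrim δ p) (hp0 : p ≠ 0) (h0 : Y.σ k (aeval y p) = 0) :
    ∃ j, 2 * j = t ∧ ∃ q ∈ V w j, p = q * q ∧ Hopf407.IsPrim δ q := by
  have h1 := sig_aeval (k := k) (w := w) (y := y) (N := N) sh hF hk hw hy hσ ht1 ht hp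
  rw [h0] at h1
  have h2 : Fm sh p = 0 :=
    (hF.poly (k + 1) (by omega) (by omega)).1 (t + 1) (by omega) _ (Fm_mem sh hsw hp) h1.symm
  obtain ⟨q, hq, hqp⟩ := hH.exists_sq_of_ker (Fm sh) (Fm_mul sh) (Fm_li sh hsh) hprim h2
  have hpW : q ^ 2 ∈ Hopf407.Wt w (X : G → MvPolynomial G F2) t := by
    rw [Hopf407.mem_Wt]
    refine ⟨p, hp, ?_⟩
    rw [← hq]; simp
  have hev : ¬ Odd t := by
    intro hodd
    have := Hopf407.eq_zero_of_sq_mem_odd (bijX G) hpW hodd
    apply hp0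
    rw [hq, this]; simp
  obtain ⟨j, hj⟩ : ∃ j, 2 * j = t := by
    rw [Nat.not_odd_iff_even] at hev
    obtain ⟨j, hj⟩ := hev
    exact ⟨j, by omega⟩
  refine ⟨j, hj, q, ?_, by rw [hq, pow_two], hqp⟩
  rw [← hj] at hpW
  obtain ⟨f, hf, hfq⟩ := Hopf407.mem_Wt.1 (Hopf407.mem_Wt_of_sq_mem (bijX G) hpW)
  rw [aeval_X_left_apply] at hfq
  rw [mem_weightedHomogeneousSubmodule, ← hfq]
  exact hf

end susp

/-! ## application to `k ≥ 1` -/

theorem map_pred_pairwise {I : List ℕ} (hI : I.Pairwise (· ≤ ·)) :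
    (I.map (· - 1)).Pairwise (· ≤ ·) := by
  rw [List.pairwise_map]
  exact hI.imp fun h => Nat.sub_le_sub_right h 1

/-- `Q_I x_k ↦ (Q_J x_{k+1})^(2^z)` -/
def sh1 (I : Tower.Wd) : Tower.Wd × ℕ :=
  (gen (I.1.map (· - 1)) (map_pred_pairwise I.2.1), lz (I.1.map (· - 1)))

theorem map_pred_inj {I J : List ℕ} (hI : ∀ i ∈ I, 1 ≤ i) (hJ : ∀ i ∈ J, 1 ≤ i)
    (h : I.map (· - 1) = J.map (· - 1)) : I = J := by
  have h1 := congrArg (List.map (· + 1)) h
  rw [List.map_map, List.map_map] at h1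
  have e : ∀ L : List ℕ, (∀ i ∈ L, 1 ≤ i) → L.map ((· + 1) ∘ (· - 1)) = L := by
    intro L hL
    conv_rhs => rw [← List.map_id L]
    refine List.map_congr_left fun a ha => ?_
    have := hL a ha
    simp only [Function.comp_apply, id]
    omega
  rwa [e I hI, e J hJ] at h1

theorem sh1_inj : Function.Injective sh1 := by
  intro I J h
  have h1 := congrArg Prod.fst h
  have h2 := congrArg Prod.snd h
  exact Subtype.ext (map_pred_inj I.2.2 J.2.2
    (gen_lz_inj (map_pred_pairwise I.2.1) (map_pred_pairwise J.2.1) h1 h2))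

theorem sh1_weight (k : ℕ) (I : Tower.Wd) :
    2 ^ (sh1 I).2 * wk (k + 1) (sh1 I).1 = Tower.wdeg k I.1 + 1 := by
  rw [← wdeg_map_pred k I.1 I.2.2]
  exact (wdeg_eq_mul (k + 1) _ (map_pred_pairwise I.2.1)).symm

theorem sh1_sig (hF : Facts Y S D d) {k : ℕ} (hk : k ≤ D + 1) (I : Tower.Wd)
    (hI : wk k I ≤ k + D) :
    Y.σ k (yk Y k I) = aeval (yk Y (k + 1)) (X (sh1 I).1 ^ (2 ^ (sh1 I).2) :
      MvPolynomial Tower.Wd F2) := by
  have h1 := sig_word hF hk I.1 fun i hi => ⟨I.2.2 i hi, by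
    have := mem_le_wdeg (k := k) hi
    have h' : Tower.wdeg k I.1 ≤ k + D := hI
    omega⟩
  change Y.σ k (Y.word k I.1) = _
  rw [h1, word_eq_pow hF (by omega) _ (map_pred_pairwise I.2.1), map_pow, aeval_X]
  rfl

/-- **(4.3)**, `k ≥ 1`, in the range -/
theorem ker_sig_pos (hF : Facts Y S D d) {k : ℕ} (h1 : 1 ≤ k) (hk : k ≤ D + 1) {t : ℕ}
    (ht1 : 1 ≤ t) (ht : t ≤ k + D) {ξ : Y.H k} (hξ : ξ ∈ Y.gr k t) (hp : ξ ∈ Y.prim k)
    (hne : ξ ≠ 0) (h0 : Y.σ k ξ = 0) :
    ∃ j, 2 * j = t ∧ ∃ ζ ∈ Y.gr k j, ζ ∈ Y.prim k ∧ ξ = ζ * ζ := by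
  obtain ⟨p, hpV, rfl, hpp⟩ := exists_prim_poly hF h1 (by omega) ht hξ hp
  have hp0 : p ≠ 0 := by
    rintro rfl
    exact hne (map_zero _)
  obtain ⟨j, hj, q, hqV, rfl, hqp⟩ := exists_sq (w := wk k) (y := yk Y k) (N := k + D) sh1 hF hk
    (fun I => h1.trans (le_wdeg k I.1)) (yk_mem hF (by omega)) le_rfl
    (fun I hI => sh1_sig hF hk I hI) sh1_inj (sh1_weight k) (hopf1 Tower.Wd (fun _ => 0))
    ht1 ht hpV hpp hp0 h0
  refine ⟨j, hj, aeval (yk Y k) q, ?_, ?_, map_mul _ _ _⟩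
  · exact aeval_mem_gr (w := wk k) (hF.gr k (by omega)).2.1 (hF.gr k (by omega)).2.2
      (fun i hi => yk_mem hF (by omega) i (by omega)) hqV
  · rw [Tower.mem_prim, cop_compat (w := wk k) (Y.Δ k) (δ1 Tower.Wd) (δ1_compat hF h1 (by omega))
      (by omega) hqV]
    rw [show δ1 Tower.Wd q = _ from hqp, map_add, TensorProduct.map_tmul, TensorProduct.map_tmul]
    simp

/-! ## (A) and (B): admissible words -/

/-- admissible lists (entries `≥ 0`) of degree `t` -/
def Adm (k t : ℕ) : Type := {J : List ℕ // J.Pairwise (· ≤ ·) ∧ Tower.wdeg k J = t}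

/-- (A) the admissible words of degree `t ≤ k + D` are linearly independent -/
theorem adm_li (hF : Facts Y S D d) {k : ℕ} (h1 : 1 ≤ k) (hk : k ≤ D + 2) {t : ℕ}
    (ht : t ≤ k + D) : LinearIndependent F2 fun J : Adm k t => Y.word k J.1 := by
  have h2 : LinearIndependent F2 fun J : Adm k t =>
      (X (gen J.1 J.2.1) ^ (2 ^ lz J.1) : MvPolynomial Tower.Wd F2) := by
    have h2 := (basisMonomials Tower.Wd F2).linearIndependent.comp
      (fun J : Adm k t => Finsupp.single (gen J.1 J.2.1) (2 ^ lz J.1)) (by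
        intro i i' h
        beta_reduce at h
        rw [Finsupp.single_eq_single_iff] at h
        rcases h with ⟨h, h'⟩ | ⟨h, _⟩
        · exact Subtype.ext (gen_lz_inj _ _ h (Nat.pow_right_injective (le_refl 2) h'))
        · exact absurd h (by positivity))
    have h4 : (fun J : Adm k t => (X (gen J.1 J.2.1) ^ (2 ^ lz J.1) : MvPolynomial Tower.Wd F2)) =
        (basisMonomials Tower.Wd F2) ∘
          fun J : Adm k t => Finsupp.single (gen J.1 J.2.1) (2 ^ lz J.1) := by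
      funext i
      simp [X_pow_eq_monomial]
    rw [h4]
    exact h2
  rw [linearIndependent_iff'] at h2 ⊢
  intro s g hg
  refine h2 s g ?_
  refine (hF.poly k h1 hk).1 t ht _ ?_ ?_
  · refine Submodule.sum_mem _ fun J _ => Submodule.smul_mem _ _ ?_
    have := (isWeightedHomogeneous_X F2 (wk k) (gen J.1 J.2.1)).pow (2 ^ lz J.1)
    have e : 2 ^ lz J.1 • wk k (gen J.1 J.2.1) = t := by
      rw [smul_eq_mul, ← wdeg_eq_mul k J.1 J.2.1]; exact J.2.2
    rw [mem_weightedHomogeneousSubmodule]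
    intro s hs
    exact (this hs).trans e
  · rw [← hg, map_sum]
    refine Finset.sum_congr rfl fun J _ => ?_
    rw [map_smul, map_pow, aeval_X, ← word_eq_pow hF hk J.1 J.2.1]

/-- admissible words in the range are primitive -/
theorem adm_prim (hF : Facts Y S D d) {k : ℕ} (h1 : 1 ≤ k) (hk : k ≤ D + 2) {t : ℕ}
    (ht : t ≤ k + D) (J : Adm k t) : Y.word k J.1 ∈ Y.prim k :=
  word_prim hF h1 hk J.1 (by rw [J.2.2]; exact ht)

/-- (B) primitives of degree `t ≤ k + D` = span of the admissible words of degree `t` -/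
theorem prim_eq_span (hF : Facts Y S D d) {k : ℕ} (h1 : 1 ≤ k) (hk : k ≤ D + 2) {t : ℕ}
    (ht : t ≤ k + D) :
    Y.gr k t ⊓ Y.prim k = Submodule.span F2 (Set.range fun J : Adm k t => Y.word k J.1) := by
  apply le_antisymm
  · rintro ξ ⟨hξ, hp⟩
    obtain ⟨p, hpV, rfl, hpp⟩ := exists_prim_poly hF h1 hk ht hξ hp
    have hpW : p ∈ Hopf407.Wt (wk k) (X : Tower.Wd → MvPolynomial Tower.Wd F2) t := by
      rw [Hopf407.mem_Wt]
      exact ⟨p, hpV, by simp⟩
    have := (Hopf407.isPrim_iff_mem_span_deg (bijX Tower.Wd)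
      (fun i => show δ1 Tower.Wd (X i) = _ by simp) (wk k) t p).1 ⟨hpp, hpW⟩
    have h2 := Submodule.mem_map_of_mem
      (f := (aeval (yk Y k) : MvPolynomial Tower.Wd F2 →ₐ[F2] Y.H k).toLinearMap) this
    rw [Submodule.map_span] at h2
    refine Submodule.span_mono ?_ h2
    rintro _ ⟨_, ⟨I, z, hz, rfl⟩, rfl⟩
    have hpw : (List.replicate z 0 ++ I.1).Pairwise (· ≤ ·) := by
      rw [List.pairwise_append]
      refine ⟨?_, I.2.1, ?_⟩
      · rw [List.pairwise_replicate]; exact Or.inr le_rfl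
      · intro a ha b _
        rw [List.eq_of_mem_replicate ha]
        exact Nat.zero_le _
    refine ⟨⟨List.replicate z 0 ++ I.1, hpw, ?_⟩, ?_⟩
    · rw [wdeg_replicate_zero]; exact hz
    · change Y.word k (List.replicate z 0 ++ I.1) = aeval (yk Y k) (X I ^ 2 ^ z)
      rw [word_replicate_zero hF hk, map_pow, aeval_X]
  · rw [Submodule.span_le]
    rintro _ ⟨J, rfl⟩
    refine ⟨?_, adm_prim hF h1 hk ht J⟩
    have := word_mem_gr hF hk J.1 fun i hi => by
      have := mem_le_wdeg (k := k) hi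
      have h' := J.2.2
      omega
    rw [J.2.2] at this
    exact this

end Crest.Agent.R204.Glue114
end
end

-- ▼ part R204/Thm3f_737
section

/-!
# Row 204, Theorem 3, part f: the fields (T3) and (T4) of `Spine693.Tower` from `Spec114.Facts`
(owner helper737)
-/

set_option autoImplicit false

noncomputable section

namespace Crest.Agent.R204.Thm3Glue

open Thm3 Finset Spec114 TowerOps85 Glue114 MvPolynomial
open Crest.Agent.R204.DickInst91 (dick)

/-! ## linear independence across degrees -/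

theorem li_of_graded {H ι : Type*} [AddCommGroup H] [Module (ZMod 2) H]
    (gr : ℕ → Submodule (ZMod 2) H) (hind : iSupIndep gr) (dg : ι → ℕ) (v : ι → H)
    (hv : ∀ i, v i ∈ gr (dg i))
    (h : ∀ t, LinearIndependent (ZMod 2) (fun i : {i // dg i = t} => v i.1)) :
    LinearIndependent (ZMod 2) v := by
  classical
  rw [linearIndependent_iff']
  intro s g hg i hi
  have h1 : ∑ t ∈ s.image dg, ∑ i ∈ s.filter (fun i => dg i = t), g i • v i = 0 := by
    rw [Finset.sum_fiberwise_of_maps_to (fun i hi => Finset.mem_image_of_mem dg hi)]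
    exact hg
  have h2 := (iSupIndep_iff_finsetSum_eq_zero_imp_eq_zero gr).1 hind (s.image dg)
    (fun t => ∑ i ∈ s.filter (fun i => dg i = t), g i • v i) (fun t _ =>
      Submodule.sum_mem _ fun j hj => Submodule.smul_mem _ _ (by
        have := hv j
        rwa [(Finset.mem_filter.1 hj).2] at this)) h1 (dg i) (Finset.mem_image_of_mem dg hi)
  have h3 := linearIndependent_iff'.1 (h (dg i)) (s.subtype (fun j => dg j = dg i)) (fun j => g j.1) (by
    rw [Finset.sum_subtype_eq_sum_filter (f := fun j => g j • v j)]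
    exact h2) ⟨i, rfl⟩ (by rw [Finset.mem_subtype]; exact hi)
  exact h3

variable {Y : Spec114.Tower} {S : Sph Y} {D d : ℕ}

/-- the operation algebra of stage `k` -/
abbrev op (hF : Facts Y S D d) {k : ℕ} (hk : k ≤ D + 2) : Ops (Y.H k) :=
  towerOps hF.sq hF.t hF.gl2 hF.q hF.f13 hk

theorem base_op (hF : Facts Y S D d) {k : ℕ} (hk : k ≤ D + 2) : (op hF hk).Base k (Y.x k) :=
  towerBase hF.sq hF.t hF.gl2 hF.q hF.f13 hF.t0 hF.x hk

theorem le_of_WI {k D : ℕ} (w : WI k D) (j : Fin w.1.1) : w.1.2 j ≤ D + 1 := by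
  have h0 : k ≤ qdeg k w.1.2 := by
    rw [qdeg_eq]
    have : k ≤ 2 ^ w.1.1 * k := Nat.le_mul_of_pos_left _ (by positivity)
    omega
  have h1 : qdeg k w.1.2 = k + (qdeg k w.1.2 - k) := by omega
  have h2 := le_of_qdeg h1 j
  have h3 := w.2.2
  omega

theorem stage (hF : Facts Y S D d) {k : ℕ} (h1 : 1 ≤ k) (hk : k ≤ D + 2) :
    Stage (op hF hk) k (Y.x k) D where
  base := base_op hF hk
  hD := Nat.le_succ D
  lin := by
    have hw : ∀ w : WI k D, (op hF hk).qw w.1.2 (Y.x k) = Y.word k (List.ofFn w.1.2) := fun w =>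
      qw_x hF.sq hF.t hF.gl2 hF.q hF.f13 hk _ (le_of_WI w)
    refine li_of_graded (Y.gr k) (ind hF hk) (fun w : WI k D => qdeg k w.1.2) _ ?_ ?_
    · intro w
      rw [hw w, qdeg_eq_wdeg]
      refine word_mem_gr hF hk _ fun i hi => ?_
      obtain ⟨j, rfl⟩ := (List.mem_ofFn' _ _).1 hi
      exact le_of_WI w j
    · intro t
      by_cases ht : t ≤ k + D
      · have h2 := (Glue114.adm_li hF h1 hk ht).comp
          (fun w : {w : WI k D // qdeg k w.1.2 = t} =>
            (⟨List.ofFn w.1.1.2, (pairwise_ofFn_iff _).2 w.1.2.1, by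
              rw [← qdeg_eq_wdeg]; exact w.2⟩ : Glue114.Adm k t)) (by
          intro a b hab
          have h3 : List.ofFn a.1.1.2 = List.ofFn b.1.1.2 := congrArg Subtype.val hab
          have h4 := (List.equivSigmaTuple (α := ℕ)).symm.injective
            (a₁ := a.1.1) (a₂ := b.1.1) h3
          exact Subtype.ext (Subtype.ext h4))
        have e : (fun w : {w : WI k D // qdeg k w.1.2 = t} => (op hF hk).qw w.1.1.2 (Y.x k)) =
            fun w => Y.word k (List.ofFn w.1.1.2) := funext fun w => hw w.1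
        rw [e]
        exact h2
      · have : IsEmpty {w : WI k D // qdeg k w.1.2 = t} :=
          ⟨fun w => ht (by rw [← w.2]; exact w.1.2.2)⟩
        exact linearIndependent_empty_type

/-- homogeneous primitives lie in `Wsp` -/
theorem mem_Wsp (hF : Facts Y S D d) {k : ℕ} (h1 : 1 ≤ k) (hk : k ≤ D + 2) {t : ℕ} (ht : t ≤ D)
    {y : Y.H k} (hy : y ∈ Y.gr k (k + t)) (hp : y ∈ Y.prim k) : y ∈ Wsp (op hF hk) k (Y.x k) t := by
  have h2 : y ∈ Y.gr k (k + t) ⊓ Y.prim k := ⟨hy, hp⟩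
  rw [prim_eq_span hF h1 hk (by omega)] at h2
  refine Submodule.span_mono ?_ h2
  rintro _ ⟨J, rfl⟩
  refine ⟨J.1.length, J.1.get, ?_, ?_, ?_⟩
  · rw [← pairwise_ofFn_iff, List.ofFn_get]; exact J.2.1
  · rw [qdeg_get]; exact J.2.2
  · have hle : ∀ j, J.1.get j ≤ D + 1 := by
      intro j
      have := mem_le_wdeg (k := k) (List.get_mem J.1 j)
      have h3 := J.2.2
      omega
    rw [qw_x hF.sq hF.t hF.gl2 hF.q hF.f13 hk _ hle, List.ofFn_get]

/-- homogeneous primitives of degree `< k` vanish -/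
theorem eq_zero_of_lt (hF : Facts Y S D d) {k : ℕ} (h1 : 1 ≤ k) (hk : k ≤ D + 2) {i : ℕ} (hi : i < k)
    {y : Y.H k} (hy : y ∈ Y.gr k i) (hp : y ∈ Y.prim k) : y = 0 := by
  have h2 : y ∈ Y.gr k i ⊓ Y.prim k := ⟨hy, hp⟩
  rw [prim_eq_span hF h1 hk (by omega)] at h2
  have : IsEmpty (Glue114.Adm k i) := ⟨fun J => by
    have h3 := le_wdeg k J.1
    have h4 := J.2.2
    omega⟩
  rw [Set.range_eq_empty, Submodule.span_empty] at h2
  exact (Submodule.mem_bot _).1 h2

/-- case distinction for homogeneous primitives in the range -/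
theorem cases_deg (hF : Facts Y S D d) {k : ℕ} (h1 : 1 ≤ k) (hk : k ≤ D + 2) {i : ℕ} (hi : i ≤ k + D)
    {x : P Y k} (hx : x ∈ deg Y k i) : (x : Y.H k) = 0 ∨
      ∃ t, i = k + t ∧ t ≤ D ∧ (x : Y.H k) ∈ Wsp (op hF hk) k (Y.x k) t := by
  have hx' : (x : Y.H k) ∈ Y.gr k i := by
    have := (mem_deg Y).1 hx
    rwa [grB_pos Y h1] at this
  rcases Nat.lt_or_ge i k with h | h
  · exact Or.inl (eq_zero_of_lt hF h1 hk h hx' x.2)
  · obtain ⟨t, rfl⟩ := Nat.exists_eq_add_of_le h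
    exact Or.inr ⟨t, rfl, by omega, mem_Wsp hF h1 hk (by omega) hx' x.2⟩

/-! ## the maps -/

/-- length `r + 1` component -/
def comp (hF : Facts Y S D d) (k r : ℕ) : P Y k →ₗ[F2] (Spine693.M r k →ₗ[F2] F2) :=
  if h : 1 ≤ k ∧ k ≤ D + 2 then (stage hF h.1 h.2).comp r ∘ₗ (Y.prim k).subtype else 0

/-- coefficient of the fundamental class -/
def c0 (hF : Facts Y S D d) (k : ℕ) : P Y k →ₗ[F2] F2 :=
  if h : 1 ≤ k ∧ k ≤ D + 2 then (stage hF h.1 h.2).c0 ∘ₗ (Y.prim k).subtype else 0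

theorem comp_apply (hF : Facts Y S D d) {k : ℕ} (h1 : 1 ≤ k) (hk : k ≤ D + 2) (r : ℕ) (x : P Y k) :
    comp hF k r x = (stage hF h1 hk).comp r (x : Y.H k) := by
  rw [comp, dif_pos ⟨h1, hk⟩]; rfl

theorem c0_apply (hF : Facts Y S D d) {k : ℕ} (h1 : 1 ≤ k) (hk : k ≤ D + 2) (x : P Y k) :
    c0 hF k x = (stage hF h1 hk).c0 (x : Y.H k) := by
  rw [c0, dif_pos ⟨h1, hk⟩]; rfl

/-! ## (T3) -/

theorem comp_Sq (hF : Facts Y S D d) {k : ℕ} (h1 : 1 ≤ k) (hk : k ≤ D + 2) {i : ℕ} (hi : i ≤ k + D)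
    (x : P Y k) (hx : x ∈ deg Y k i) (r a : ℕ) :
    comp hF k r (Sq Y k a x) = comp hF k r x ∘ₗ dick.SqM r k a := by
  rw [comp_apply hF h1 hk, comp_apply hF h1 hk, coe_Sq hF.sq hk]
  rcases cases_deg hF h1 hk hi hx with h | ⟨t, rfl, ht, h⟩
  · rw [h]; simp
  · exact (stage hF h1 hk).comp_Sq ht h r a

theorem comp_deg (hF : Facts Y S D d) {k : ℕ} (h1 : 1 ≤ k) (hk : k ≤ D + 2) {i : ℕ} (hi : i ≤ k + D)
    (x : P Y k) (hx : x ∈ deg Y k i) (r : ℕ) (g : Spine693.M r k) (j : ℕ)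
    (hg : IsWeightedHomogeneous (Spine693.wt r) (g : Spine693.D (r + 1)) j) (hj : j + k ≠ i) :
    comp hF k r x g = 0 := by
  rw [comp_apply hF h1 hk]
  rcases cases_deg hF h1 hk hi hx with h | ⟨t, rfl, ht, h⟩
  · rw [h]; simp
  · exact (stage hF h1 hk).comp_deg ht h g hg (by omega)

theorem c0_deg (hF : Facts Y S D d) {k : ℕ} (h1 : 1 ≤ k) (hk : k ≤ D + 2) {i : ℕ} (hi : i ≤ k + D)
    (x : P Y k) (hx : x ∈ deg Y k i) (hne : i ≠ k) : c0 hF k x = 0 := by
  rw [c0_apply hF h1 hk]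
  rcases cases_deg hF h1 hk hi hx with h | ⟨t, rfl, ht, h⟩
  · rw [h]; simp
  · exact (stage hF h1 hk).c0_deg ht h (by omega)

theorem c0_Sq (hF : Facts Y S D d) {k : ℕ} (h1 : 1 ≤ k) (hk : k ≤ D + 2) {i : ℕ} (hi : i ≤ k + D)
    (x : P Y k) (hx : x ∈ deg Y k i) (a : ℕ) (ha : 1 ≤ a) : c0 hF k (Sq Y k a x) = 0 := by
  rw [c0_apply hF h1 hk, coe_Sq hF.sq hk]
  rcases cases_deg hF h1 hk hi hx with h | ⟨t, rfl, ht, h⟩
  · rw [h]; simp
  · exact (stage hF h1 hk).c0_Sq ht h ha

theorem comp_inj (hF : Facts Y S D d) {k : ℕ} (h1 : 1 ≤ k) (hk : k ≤ D + 2) {i : ℕ} (hi : i ≤ k + D)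
    (x : P Y k) (hx : x ∈ deg Y k i) (h0 : c0 hF k x = 0) (hr : ∀ r, comp hF k r x = 0) : x = 0 := by
  rw [c0_apply hF h1 hk] at h0
  simp only [comp_apply hF h1 hk] at hr
  apply Subtype.ext
  rcases cases_deg hF h1 hk hi hx with h | ⟨t, rfl, ht, h⟩
  · exact h
  · exact (stage hF h1 hk).comp_inj ht h h0 hr

theorem comp_sig (hF : Facts Y S D d) {k : ℕ} (h1 : 1 ≤ k) (hk : k ≤ D + 1) {i : ℕ} (hi : i ≤ k + D)
    (x : P Y k) (hx : x ∈ deg Y k i) (r : ℕ) :
    comp hF (k + 1) r (sig Y k x) = comp hF k r x ∘ₗ Spine693.inc r k := by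
  rw [comp_apply hF (by omega) (by omega), comp_apply hF h1 (by omega), coe_sig hF.sigma hk]
  rcases cases_deg hF h1 (by omega) hi hx with h | ⟨t, rfl, ht, h⟩
  · rw [h]; simp
  · exact Stage.comp_sig (Y.σ k) (N := D + 1)
      (fun i hi y => (hF.sigma k hk).2.2.2.2.1 i hi y) (hF.sigma k hk).2.2.2.2.2.2
      (stage hF h1 (by omega)) (stage hF (by omega) (by omega)) ht ht (by omega) h r

/-! ## (T4) stage zero -/

/-- section (4.2), output of helper407: the lowest weight component of a primitive at `k = 0` -/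
def LowL (Y : Spec114.Tower) (D : ℕ) : Prop :=
  ∀ i, 1 ≤ i → i ≤ D → ∀ x ∈ Y.gr 0 i, x ∈ Y.base → x ∈ Y.prim 0 → x ≠ 0 →
    ∃ r, 1 ≤ r ∧ ∃ xr ∈ Submodule.span F2 {y | ∃ I : List ℕ, I.Pairwise (· ≤ ·) ∧ I.length = r ∧
        Tower.wdeg 0 I = i ∧ y = Y.word0 I},
      xr ≠ 0 ∧ ((∀ a, 1 ≤ a → Y.Sq 0 a x = 0) → ∀ a, 1 ≤ a → Y.Sq 0 a xr = 0) ∧
      Y.σ 0 x - Y.σ 0 xr ∈ Submodule.span F2 {y | ∃ J : List ℕ, J.Pairwise (· ≤ ·) ∧ r < J.length ∧
        Tower.wdeg 1 J = i + 1 ∧ y = Y.word 1 J}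

theorem eps_x0 (hF : Facts Y S D d) : Y.ε 0 (Y.x 0) = 1 := by
  have h1 := (hF.delta 0 (Nat.zero_le _)).1 (Y.x 0)
  rw [hF.x.2.2.1, TensorProduct.map_tmul] at h1
  simp only [AlgHom.toLinearMap_apply, LinearMap.id_coe, id_eq, TensorProduct.lid_tmul] at h1
  have h2 := congrArg (fun z => Y.ε 0 (z * Y.xinv)) h1
  simp only [smul_mul_assoc, hF.x.2.2.2.2.2, map_smul, map_one, smul_eq_mul, mul_one] at h2
  exact h2

theorem x0_pow_ne (hF : Facts Y S D d) (n : ℕ) : Y.x 0 ^ n ≠ 0 := by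
  intro h
  have := congrArg (Y.ε 0) h
  rw [map_pow, eps_x0 hF, one_pow, map_zero] at this
  exact one_ne_zero this

theorem x0_pow_gr (hF : Facts Y S D d) (n : ℕ) : Y.x 0 ^ n ∈ Y.gr 0 0 := by
  induction n with
  | zero => rw [pow_zero]; exact (hF.gr 0 (Nat.zero_le _)).2.1
  | succ n ih =>
    rw [pow_succ]
    exact (hF.gr 0 (Nat.zero_le _)).2.2 0 0 _ _ ih (hF.x.1 0 (Nat.zero_le _)).1

theorem xinv_pow_gr (hF : Facts Y S D d) (n : ℕ) : Y.xinv ^ n ∈ Y.gr 0 0 := by
  induction n with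
  | zero => rw [pow_zero]; exact (hF.gr 0 (Nat.zero_le _)).2.1
  | succ n ih =>
    rw [pow_succ]
    exact (hF.gr 0 (Nat.zero_le _)).2.2 0 0 _ _ ih hF.x.2.2.2.1

theorem word0_gr (hF : Facts Y S D d) {I : List ℕ} {i : ℕ} (hi : i ≤ D + 1)
    (hI : Tower.wdeg 0 I = i) : Y.word0 I ∈ Y.gr 0 i := by
  have h1 : Y.word 0 I ∈ Y.gr 0 i := by
    have := word_mem_gr hF (Nat.zero_le _) I (fun j hj => by
      have := mem_le_wdeg (k := 0) hj
      omega)
    rwa [hI] at this
  have := (hF.gr 0 (Nat.zero_le _)).2.2 i 0 _ _ h1 (xinv_pow_gr hF (2 ^ I.length))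
  rwa [add_zero] at this

theorem lin0 (hF : Facts Y S D d) (r : ℕ) {t : ℕ} (ht : t ≤ D) :
    LinearIndependent (ZMod 2) (fun m : Thm3.Adm r 0 t => (op hF (Nat.zero_le _)).qw m.1 (Y.x 0)) := by
  rcases Nat.eq_zero_or_pos t with rfl | h1
  · have hs : Subsingleton (Thm3.Adm r 0 0) := by
      refine ⟨fun a b => Subtype.ext (funext fun j => ?_)⟩
      have h1 := le_of_qdeg a.2.2 j
      have h2 := le_of_qdeg b.2.2 j
      omega
    have h0 : ∀ m : Thm3.Adm r 0 0, (op hF (Nat.zero_le _)).qw m.1 (Y.x 0) ≠ 0 := by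
      intro m
      have hm : m.1 = fun _ => 0 := by
        funext j
        have := le_of_qdeg m.2.2 j
        omega
      rw [qw_x hF.sq hF.t hF.gl2 hF.q hF.f13 (Nat.zero_le _) _ (fun j => by rw [hm]; exact Nat.zero_le _), hm]
      have : List.ofFn (fun _ : Fin r => 0) = List.replicate r 0 ++ [] := by simp
      rw [this, word_replicate_zero hF (Nat.zero_le _)]
      exact x0_pow_ne hF _
    rw [linearIndependent_iff']
    intro s g hg m hm
    have : s = {m} := by
      ext m'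
      rw [Finset.mem_singleton]
      constructor
      · intro _; exact Subsingleton.elim _ _
      · rintro rfl; exact hm
    rw [this, Finset.sum_singleton] at hg
    have hc : g m = 0 ∨ g m = 1 := by generalize g m = c; revert c; decide
    rcases hc with h | h
    · exact h
    · rw [h, one_smul] at hg
      exact absurd hg (h0 m)
  · exact adm_li hF.sq hF.t hF.gl2 hF.q hF.f13 (Nat.zero_le _) (by omega)
      (word_linearIndependent0 hF.q hF.poly0 r h1 ht)

/-- moving back to component `2^r` -/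
theorem mul_x0_mem (hF : Facts Y S D d) {r i : ℕ} (hi : i ≤ D) {xr : Y.H 0}
    (h : xr ∈ Submodule.span F2 {y | ∃ I : List ℕ, I.Pairwise (· ≤ ·) ∧ I.length = r ∧
        Tower.wdeg 0 I = i ∧ y = Y.word0 I}) :
    xr * Y.x 0 ^ (2 ^ r) ∈ Submodule.span (ZMod 2)
      (Set.range fun m : Thm3.Adm r 0 i => (op hF (Nat.zero_le _)).qw m.1 (Y.x 0)) := by
  rw [span_adm_eq hF.sq hF.t hF.gl2 hF.q hF.f13 (Nat.zero_le _) (by omega)]
  induction h using Submodule.span_induction with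
  | mem y hy =>
    obtain ⟨I, h1, h2, h3, rfl⟩ := hy
    refine Submodule.subset_span ⟨I, h1, h2, by rw [h3, zero_add], ?_⟩
    rw [Tower.word0, h2, mul_assoc, ← mul_pow, mul_comm Y.xinv, hF.x.2.2.2.2.2, one_pow, mul_one]
  | zero => rw [zero_mul]; exact Submodule.zero_mem _
  | add a b _ _ ha hb => rw [add_mul]; exact Submodule.add_mem _ ha hb
  | smul c a _ ha => rw [smul_mul_assoc]; exact Submodule.smul_mem _ _ ha

/-- weight two component on `X_0` -/
def c1 (hF : Facts Y S D d) : P Y 0 →ₗ[F2] (Spine693.M 0 0 →ₗ[F2] F2) :=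
  (LinearMap.lcomp F2 F2 prj) ∘ₗ (comp hF 1 0) ∘ₗ (sig Y 0)

theorem c1_apply (hF : Facts Y S D d) (x : P Y 0) : c1 hF x = comp hF 1 0 (sig Y 0 x) ∘ₗ prj := rfl

theorem lowest (hF : Facts Y S D d) (hL : LowL Y D) {i : ℕ} (hi1 : 1 ≤ i) (hi : i ≤ D)
    (x : P Y 0) (hx : x ∈ deg Y 0 i) (hx0 : x ≠ 0) :
    (c1 hF x ≠ 0 ∧ Spine693.Conc (c1 hF x) i ∧
      ((∀ a, 1 ≤ a → Sq Y 0 a x = 0) → ∀ a, 1 ≤ a → c1 hF x ∘ₗ dick.SqM 0 0 a = 0) ∧
      comp hF 1 0 (sig Y 0 x) = c1 hF x ∘ₗ Spine693.inc 0 0) ∨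
    (c1 hF x = 0 ∧ ∃ (r : ℕ) (f : Spine693.M r 0 →ₗ[F2] F2), 1 ≤ r ∧ f ≠ 0 ∧ Spine693.Conc f i ∧
      ((∀ a, 1 ≤ a → Sq Y 0 a x = 0) → ∀ a, 1 ≤ a → f ∘ₗ dick.SqM r 0 a = 0) ∧
      comp hF 1 r (sig Y 0 x) = f ∘ₗ Spine693.inc r 0) := by
  have hD : 1 ≤ D := by have := hF.dD; omega
  have hx' : (x : Y.H 0) ∈ Y.gr 0 i ∧ (x : Y.H 0) ∈ Y.base := hx
  obtain ⟨r, hr1, xr, hxr, hne, hsq, hσ⟩ := hL i hi1 hi _ hx'.1 hx'.2 x.2
    (fun h => hx0 (Subtype.ext h))
  obtain ⟨r, rfl⟩ : ∃ r', r = r' + 1 := ⟨r - 1, by omega⟩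
  set z := Y.x 0 ^ (2 ^ (r + 1)) with hz
  set y := xr * z with hy
  have hxrgr : xr ∈ Y.gr 0 i := by
    refine Submodule.span_le.2 ?_ hxr
    rintro _ ⟨I, _, _, h3, rfl⟩
    exact word0_gr hF (by omega) h3
  have hymem := mul_x0_mem hF hi hxr
  have hy0 : y ≠ 0 := by
    intro h
    apply hne
    have h2 : y * Y.xinv ^ (2 ^ (r + 1)) = xr := by
      rw [hy, hz, mul_assoc, ← mul_pow, hF.x.2.2.2.2.2, one_pow, mul_one]
    rw [← h2, h, zero_mul]
  have hysq : (∀ a, 1 ≤ a → Sq Y 0 a x = 0) → ∀ a, 1 ≤ a → Y.Sq 0 a y = 0 := by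
    intro h a ha
    have h1 : ∀ a, 1 ≤ a → Y.Sq 0 a (x : Y.H 0) = 0 := fun a ha => by
      rw [← coe_Sq hF.sq (Nat.zero_le _), h a ha]; rfl
    have h2 := hsq h1
    rw [hy, (hF.sq 0 (Nat.zero_le _)).2.2.2.1]
    refine Finset.sum_eq_zero fun p hp => ?_
    rw [Finset.HasAntidiagonal.mem_antidiagonal] at hp
    rcases Nat.eq_zero_or_pos p.1 with h0 | h0
    · have : Y.Sq 0 p.2 z = 0 :=
        (hF.sq 0 (Nat.zero_le _)).2.2.1 p.2 0 z (x0_pow_gr hF _) (by omega)
      rw [this, mul_zero]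
    · rw [h2 p.1 h0, zero_mul]
  have hyσ : Y.σ 0 y = Y.σ 0 xr := by
    have hez : Y.ε 0 z = 1 := by rw [hz, map_pow, eps_x0 hF, one_pow]
    rw [hy, (hF.sigma 0 (Nat.zero_le _)).2.2.1, hF.eps 0 (Nat.zero_le _) i hi1 xr hxrgr, zero_smul,
      hez, one_smul]
    exact zero_add _
  obtain ⟨f, hf0, hfc, hfs, hfr, hfr', -⟩ := zero_sigma (r := r) (base_op hF (Nat.zero_le _))
    (Nat.le_succ D) (fun t ht => lin0 hF (r + 1) ht) (stage hF (k := 1) le_rfl (by omega)) (Y.σ 0)
    (N := D + 1) (fun i hi y => (hF.sigma 0 (Nat.zero_le _)).2.2.2.2.1 i hi y)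
    (hF.sigma 0 (Nat.zero_le _)).2.2.2.2.2.2 hi hi (by omega) hymem
  rw [← hy] at hf0 hfs hfr hfr'
  rw [hyσ] at hfr hfr'
  -- the higher words
  have hhigh : ∀ r' ≤ r, comp hF 1 r' (sig Y 0 x) =
      (stage hF (k := 1) le_rfl (by omega)).comp r' (Y.σ 0 xr) := by
    intro r' hr'
    rw [comp_apply hF le_rfl (by omega), coe_sig hF.sigma (Nat.zero_le _), ← sub_eq_zero, ← map_sub]
    clear hfr hfr'
    generalize Y.σ 0 (x : Y.H 0) - Y.σ 0 xr = w at hσ
    induction hσ using Submodule.span_induction with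
    | mem w hw =>
      obtain ⟨J, h1, h2, h3, rfl⟩ := hw
      have hle : ∀ j, J.get j ≤ D + 1 := by
        intro j
        have := mem_le_wdeg (k := 1) (List.get_mem J j)
        omega
      have h4 : Y.word 1 J = (op hF (k := 1) (by omega)).qw J.get (Y.x 1) := by
        rw [qw_x hF.sq hF.t hF.gl2 hF.q hF.f13 (by omega) _ hle, List.ofFn_get]
      rw [h4]
      refine Stage.comp_word_of_ne _ _ ?_ ?_ (by omega)
      · rw [← pairwise_ofFn_iff, List.ofFn_get]; exact h1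
      · rw [qdeg_get, h3]; omega
    | zero => rw [map_zero]
    | add a b _ _ ha hb => rw [map_add, ha, hb, add_zero]
    | smul c a _ ha => rw [map_smul, ha, smul_zero]
  rcases Nat.eq_zero_or_pos r with rfl | hr
  · left
    have hc : comp hF 1 0 (sig Y 0 x) = f ∘ₗ Spine693.inc 0 0 := by rw [hhigh 0 le_rfl, hfr]
    have hc1 : c1 hF x = f := by
      rw [c1_apply, hc]
      exact (eq_comp_prj hi1 hfc).symm
    rw [hc1]
    exact ⟨hf0 hy0, hfc, fun h => hfs (hysq h), hc⟩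
  · right
    refine ⟨?_, r, f, hr, hf0 hy0, hfc, fun h => hfs (hysq h), ?_⟩
    · rw [c1_apply, hhigh 0 (Nat.zero_le _), hfr' 0 (by omega), LinearMap.zero_comp]
    · rw [hhigh r le_rfl, hfr]

end Crest.Agent.R204.Thm3Glue
end
end

-- ▼ part R204/SpineB_693
section

/-!
# Row 204: spine, dual form of the extension (section 05) (helper693)
-/

set_option autoImplicit false

noncomputable section

namespace Crest.Agent.R204.Spine693

open MvPolynomial Crest.Agent.R204

theorem SqM_zero (S : Dick) (r k : ℕ) : S.SqM r k 0 = LinearMap.id := by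
  ext g
  simp [Dick.SqM, S.zero, LinearMap.restrict_apply]

theorem SqM_coe (S : Dick) (r k a : ℕ) (g : M r k) :
    ((S.SqM r k a g : M r k) : D (r + 1)) = S.Sq r a g := rfl

theorem SqM_bm (S : Dick) (r k : ℕ) : BM (S.SqM r k) := by
  intro n i hi
  have h := S.bm r n i hi
  refine LinearMap.ext fun g => ?_
  have hg := LinearMap.congr_fun h (g : D (r + 1))
  simp only [LinearMap.sum_apply, LinearMap.smul_apply, LinearMap.comp_apply] at hg ⊢
  apply Subtype.ext
  rw [AddSubmonoidClass.coe_finsetSum, AddSubmonoidClass.coe_finsetSum]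
  simpa [SqM_coe] using hg

theorem extSq_fst (S : Dick) (r e : ℕ) (φ : ℕ → (M r e →ₗ[F2] F2)) (a : ℕ) (x : M r e × F2) :
    (extSq S r e φ a x).1 = S.SqM r e a x.1 := by
  unfold extSq
  split_ifs with h
  · subst h; rw [SqM_zero]; rfl
  · simp

theorem extSq_snd (S : Dick) (r e : ℕ) (φ : ℕ → (M r e →ₗ[F2] F2)) (a : ℕ) (ha : 1 ≤ a)
    (x : M r e × F2) : (extSq S r e φ a x).2 = φ a x.1 := by
  unfold extSq
  rw [if_neg (by omega)]
  simp

theorem extSq_zero (S : Dick) (r e : ℕ) (φ : ℕ → (M r e →ₗ[F2] F2)) :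
    extSq S r e φ 0 = LinearMap.id := by
  simp [extSq]

/-- section 05, dual form: the cofibre module gives a Steenrod module `M_e ⊕ F2 t`. -/
theorem bm_ext (S : Dick) (r e : ℕ) {E PP : Type} [AddCommGroup E] [Module F2 E]
    [AddCommGroup PP] [Module F2 PP] (SE : ℕ → (E →ₗ[F2] E)) (hco : CoBM SE)
    (h0 : SE 0 = LinearMap.id) (SP : ℕ → (PP →ₗ[F2] PP)) (ι : PP →ₗ[F2] E)
    (hι : Function.Injective ι) (hS : ∀ a x, SE a (ι x) = ι (SP a x)) (τ : E) (T : ℕ → PP)
    (hτ : ∀ a, 1 ≤ a → SE a τ = ι (T a)) (c : PP →ₗ[F2] (M r e →ₗ[F2] F2))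
    (hc : ∀ a b, 1 ≤ a → c (SP b (T a)) = c (T a) ∘ₗ S.SqM r e b) :
    BM (extSq S r e (fun a => c (T a))) := by
  intro n i hi
  rcases Nat.eq_zero_or_pos n with rfl | hn
  · have : i = 0 := by omega
    subst this; rfl
  have hco' := LinearMap.congr_fun (hco n i hi) τ
  simp only [LinearMap.sum_apply, LinearMap.smul_apply, LinearMap.comp_apply] at hco'
  set W : ℕ → PP := fun a => if a = 0 then T n else SP (n - a) (T a) with hW
  have hιW : ∀ a ∈ Finset.range (n + 1), SE (n - a) (SE a τ) = ι (W a) := by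
    intro a _
    rcases Nat.eq_zero_or_pos a with rfl | ha
    · simp only [hW, if_true, Nat.sub_zero]
      rw [h0]; exact hτ n hn
    · simp only [hW]
      rw [if_neg (by omega), hτ a ha, hS]
  have hsum : ∑ a ∈ Finset.range (n + 1), bmc a i • W a =
      ∑ a ∈ Finset.range (n + 1), bmc a (2 * n - i) • W a := by
    apply hι
    rw [map_sum, map_sum]
    simp only [map_smul]
    have e1 : ∀ j, ∑ a ∈ Finset.range (n + 1), bmc a j • ι (W a) =
        ∑ a ∈ Finset.range (n + 1), bmc a j • SE (n - a) (SE a τ) := fun j =>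
      Finset.sum_congr rfl (fun a ha => by rw [← hιW a ha])
    rw [e1, e1]
    exact hco'
  refine LinearMap.ext fun x => ?_
  obtain ⟨g, u⟩ := x
  simp only [LinearMap.sum_apply, LinearMap.smul_apply, LinearMap.comp_apply]
  apply Prod.ext
  · rw [Prod.fst_sum, Prod.fst_sum]
    simp only [Prod.smul_fst, extSq_fst]
    have := LinearMap.congr_fun (SqM_bm S r e n i hi) g
    simpa only [LinearMap.sum_apply, LinearMap.smul_apply, LinearMap.comp_apply] using this
  · rw [Prod.snd_sum, Prod.snd_sum]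
    simp only [Prod.smul_snd]
    have key : ∀ a ∈ Finset.range (n + 1),
        (extSq S r e (fun a => c (T a)) a (extSq S r e (fun a => c (T a)) (n - a) (g, u))).2 =
          c (W a) g := by
      intro a _
      rcases Nat.eq_zero_or_pos a with rfl | ha
      · rw [extSq_zero, LinearMap.id_apply, Nat.sub_zero, extSq_snd _ _ _ _ _ hn]
        simp [hW]
      · rw [extSq_snd _ _ _ _ _ ha, extSq_fst]
        simp only [hW]
        rw [if_neg (by omega), hc a (n - a) ha]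
        rfl
    have e1 : ∀ j, ∑ a ∈ Finset.range (n + 1), bmc a j •
        (extSq S r e (fun a => c (T a)) a (extSq S r e (fun a => c (T a)) (n - a) (g, u))).2 =
        ∑ a ∈ Finset.range (n + 1), bmc a j • c (W a) g := fun j =>
      Finset.sum_congr rfl (fun a ha => by rw [key a ha])
    rw [e1, e1]
    have := congrArg (fun y : PP => c y g) hsum
    simpa only [map_sum, map_smul, LinearMap.sum_apply, LinearMap.smul_apply] using this

end Crest.Agent.R204.Spine693
end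
end

-- ▼ part R204/SpineC_693
section

/-!
# Row 204: spine, the main deductions (sections 05, 07, 09) (helper693)
-/

set_option autoImplicit false

noncomputable section

namespace Crest.Agent.R204.Spine693

open MvPolynomial Crest.Agent.R204

theorem CoBM.odd {E : Type} [AddCommGroup E] [Module F2 E] {SE : ℕ → (E →ₗ[F2] E)}
    (h : CoBM SE) (h0 : SE 0 = LinearMap.id) (n : ℕ) (hn : 1 ≤ n) :
    SE (n - 1) ∘ₗ SE 1 = (n : F2) • SE n := by
  have key := h n 1 (by omega)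
  rw [Finset.sum_eq_single 1, Finset.sum_eq_single n] at key
  · have e1 : bmc 1 1 = 1 := by simp [bmc]
    have e2 : bmc n (2 * n - 1) = (n : F2) := by
      rw [bmc, if_pos (by omega)]
      have : 2 * n - 1 - n = n - 1 := by omega
      rw [this]
      congr 1
      have := Nat.choose_symm (n := n) (k := 1) hn
      rw [this, Nat.choose_one_right]
    rw [e1, e2, one_smul, Nat.sub_self, h0, LinearMap.id_comp] at key
    exact key
  · intro a ha hne
    rw [Finset.mem_range] at ha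
    have : bmc a (2 * n - 1) = 0 := by
      rw [bmc]
      split_ifs with hle
      · rw [Nat.choose_eq_zero_of_lt (by omega)]; rfl
      · rfl
    rw [this, zero_smul]
  · intro hh
    exact absurd (Finset.mem_range.2 (by omega)) hh
  · intro a ha hne
    have : bmc a 1 = 0 := by
      rw [bmc]
      split_ifs with hle
      · have : a = 0 := by omega
        subst this; simp
      · rfl
    rw [this, zero_smul]
  · intro hh
    exact absurd (Finset.mem_range.2 (by omega)) hh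

theorem CoBM.one_one {E : Type} [AddCommGroup E] [Module F2 E] {SE : ℕ → (E →ₗ[F2] E)}
    (h : CoBM SE) (h0 : SE 0 = LinearMap.id) : SE 1 ∘ₗ SE 1 = 0 := by
  have := h.odd h0 2 (by norm_num)
  have e : ((2 : ℕ) : F2) = 0 := by decide
  rw [e, zero_smul] at this
  exact this

namespace Tower

variable {S : Dick} {d : ℕ} (T : Tower S d)

/-- `h^{d+1} = 0` for degree reasons -/
theorem top_zero (hd : 1 ≤ d) (h : ∀ k, T.P k) (hh : h ∈ T.Sph) : h (d + 1) = 0 := by
  have hdeg := T.sph_deg h hh (d + 1) le_rfl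
  refine T.comp_inj (d + 1) (by omega) le_rfl (d + (d + 1)) (by omega) _ hdeg ?_ ?_
  · exact T.c0_deg (d + 1) (by omega) le_rfl (d + (d + 1)) (by omega) _ hdeg (by omega)
  · intro r
    refine mon_ext _ fun s hs => ?_
    refine T.comp_deg (d + 1) (by omega) le_rfl (d + (d + 1)) (by omega) _ hdeg r (mon s hs) _
      (mon_hom s hs) ?_
    have := le_weight r s
    omega

/-- desuspension data -/
structure Desc (h : ∀ k, T.P k) (k m : ℕ) (ξ : T.P k) : Prop where
  hk : k ≤ d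
  h2 : 2 * m = d + k
  hne : h k ≠ 0
  hz : h (k + 1) = 0
  mem : ξ ∈ T.deg k m
  fr : T.frob k ξ = h k
  ne : ξ ≠ 0
  ann : ∀ a, 1 ≤ a → T.Sq k a ξ = 0

theorem exists_desc (hd : 1 ≤ d) (h : ∀ k, T.P k) (hh : h ∈ T.Sph) (h0 : h 0 ≠ 0) :
    ∃ (k m : ℕ) (ξ : T.P k), T.Desc h k m ξ := by
  classical
  set k := Nat.findGreatest (fun k => h k ≠ 0) d with hkdef
  have hk : k ≤ d := Nat.findGreatest_le d
  have hne : h k ≠ 0 := Nat.findGreatest_spec (P := fun k => h k ≠ 0) (Nat.zero_le d) h0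
  have hz : h (k + 1) = 0 := by
    rcases Nat.lt_or_ge k d with hlt | hge
    · by_contra hc
      have : ¬ (h (k + 1) ≠ 0) := Nat.findGreatest_is_greatest (P := fun k => h k ≠ 0)
        (n := d) (k := k + 1) (by omega) (by omega)
      exact this hc
    · have hkd : k = d := le_antisymm hk hge
      have key : ∀ q, q = d → h (q + 1) = 0 := by
        intro q hq
        subst hq
        exact T.top_zero hd h hh
      exact key k hkd
  have hdeg := T.sph_deg h hh k (by omega)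
  obtain ⟨m, h2, ξ, hξ, hfr⟩ := T.ker_sig k hk (d + k) (by omega) (by omega) (h k) hdeg hne
    (by rw [T.sph_sig h hh k hk, hz])
  refine ⟨k, m, ξ, hk, h2, hne, hz, hξ, hfr.symm, ?_, ?_⟩
  · rintro rfl
    exact hne (by rw [hfr, map_zero])
  · intro a ha
    refine T.frob_inj k (by omega) (m - a) (by omega) _ (T.Sq_deg k (by omega) m ξ hξ a) ?_
    rw [← T.frob_Sq k (by omega), ← hfr]
    exact T.sph_Sq h hh k (by omega) (2 * a) (by omega)

variable {T}

theorem Desc.m_pos (hd : 1 ≤ d) {h : ∀ k, T.P k} {k m : ℕ} {ξ : T.P k} (D : T.Desc h k m ξ) :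
    1 ≤ m := by
  have := D.h2
  omega

theorem Desc.k_le {h : ∀ k, T.P k} {k m : ℕ} {ξ : T.P k} (D : T.Desc h k m ξ) :
    k ≤ m := by
  have := D.h2; have := D.hk
  omega

/-- output of the cofibre in dual form -/
theorem Desc.ext_data (hd : 1 ≤ d) {h : ∀ k, T.P k} (hh : h ∈ T.Sph) {k m : ℕ} {ξ : T.P k}
    (D : T.Desc h k m ξ) : ∃ Tt : ℕ → T.P (k + 1),
      (∀ r, BM (extSq S r (k + 1) (fun a => T.comp (k + 1) r (Tt a)))) ∧
      (∀ a, 1 ≤ a → a ≤ 2 * m + 1 → Tt a ∈ T.deg (k + 1) (2 * m + 2 - a)) ∧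
      (∀ a, 2 * m + 1 < a → Tt a = 0) ∧
      Tt (m + 1) = T.sig k ξ ∧
      (Odd (m + 1) → Tt (m + 1) = T.Sq (k + 1) m (Tt 1)) ∧
      T.Sq (k + 1) 1 (Tt 1) = 0 := by
  have hm := D.m_pos hd
  have hkd := D.hk
  have h2 := D.h2
  obtain ⟨E, iE, mE, SE, ι, τ, Tt, hco, hS0, hι, hιS, hτ, hdeg, hbig, htop⟩ :=
    T.cofib h hh k D.hk m hm D.h2 ξ D.mem D.ann D.fr D.hz
  refine ⟨Tt, ?_, hdeg, hbig, htop, ?_, ?_⟩
  · intro r
    refine bm_ext S r (k + 1) SE hco hS0 (T.Sq (k + 1)) ι hι hιS τ Tt hτ (T.comp (k + 1) r) ?_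
    intro a b ha
    rcases Nat.lt_or_ge (2 * m + 1) a with hb | hb
    · rw [hbig a hb]; simp
    · exact T.comp_Sq (k + 1) (by omega) (by omega) _ (by omega) _ (hdeg a ha hb) r b
  · intro hodd
    apply hι
    have h1 := LinearMap.congr_fun (hco.odd hS0 (m + 1) (by omega)) τ
    have e : ((m + 1 : ℕ) : F2) = 1 := by
      obtain ⟨q, hq⟩ := hodd
      rw [hq]; push_cast
      have : (2 : F2) = 0 := by decide
      rw [this]; simp
    rw [e, one_smul] at h1
    simp only [LinearMap.comp_apply, Nat.add_sub_cancel] at h1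
    rw [← hτ (m + 1) (by omega), ← h1, hτ 1 le_rfl, hιS]
  · apply hι
    have h1 := LinearMap.congr_fun (hco.one_one hS0) τ
    simp only [LinearMap.comp_apply, LinearMap.zero_apply] at h1
    rw [map_zero, ← h1, hτ 1 le_rfl, hιS]

/-- for `m` even the class `ξ` is a square -/
theorem Desc.even_sq (hE : LemEven S) (hd : 1 ≤ d) {h : ∀ k, T.P k} (hh : h ∈ T.Sph) {k m : ℕ}
    {ξ : T.P k} (D : T.Desc h k m ξ) (hm : Even m) :
    ∃ j, 2 * j = m ∧ ∃ ζ ∈ T.deg k j, ξ = T.frob k ζ := by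
  have hm1 := D.m_pos hd
  have hkd := D.hk
  have h2 := D.h2
  have hkm := D.k_le
  obtain ⟨p, hp⟩ := hm
  obtain ⟨Tt, -, hdeg, -, htop, hodd, h11⟩ := D.ext_data hd hh
  refine T.ker_sig k D.hk m hm1 (by omega) ξ D.mem D.ne ?_
  have ht := hodd ⟨p, by omega⟩
  rw [htop] at ht
  have hd1 := hdeg 1 le_rfl (by omega)
  have hsd := T.sig_deg k D.hk m ξ D.mem
  refine T.comp_inj (k + 1) (by omega) (by omega) (m + 1) (by omega) _ hsd ?_ ?_
  · rw [ht]
    exact T.c0_Sq (k + 1) (by omega) (by omega) _ (by omega) _ hd1 m hm1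
  · intro r
    refine hE r (k + 1) (m + 1) (by omega) (by omega) ⟨p, by omega⟩ (by omega)
      (T.comp (k + 1) r (T.sig k ξ)) (T.comp (k + 1) r (Tt 1)) ?_ ?_ ?_
    · intro g i hg hi
      refine T.comp_deg (k + 1) (by omega) (by omega) (m + 1) (by omega) _ hsd r g i hg ?_
      omega
    · rw [← T.comp_Sq (k + 1) (by omega) (by omega) _ (by omega) _ hd1 r 1, h11, map_zero]
    · rw [ht, Nat.add_sub_cancel]
      exact T.comp_Sq (k + 1) (by omega) (by omega) _ (by omega) _ hd1 r m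

/-- `m` is odd -/
theorem Desc.odd (hE : LemEven S) (h61 : Lem61 S) (hd : 1 ≤ d) {h : ∀ k, T.P k}
    (hh : h ∈ T.Sph) {k m : ℕ} {ξ : T.P k} (D : T.Desc h k m ξ) : Odd m := by
  rw [← Nat.not_even_iff_odd]
  intro hm
  have hm1 := D.m_pos hd
  have hkd := D.hk
  have h2 := D.h2
  have hkm := D.k_le
  rcases Nat.eq_zero_or_pos k with hk0 | hk
  · subst hk0
    obtain ⟨j, hj, ζ, hζ, rfl⟩ := D.even_sq hE hd hh hm
    refine D.hne (T.sec08 h hh j (by omega) (by omega) ζ hζ ?_ D.fr)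
    intro a ha
    refine T.frob_inj 0 (by omega) (j - a) (by omega) _ (T.Sq_deg 0 (by omega) j ζ hζ a) ?_
    rw [← T.frob_Sq 0 (by omega)]
    exact D.ann (2 * a) (by omega)
  · obtain ⟨k, rfl⟩ : ∃ q, k = q + 1 := ⟨k - 1, by omega⟩
    have hs1 : T.sig k (h k) = h (k + 1) := T.sph_sig h hh k (by omega)
    have hs2 : T.sig (k + 1) (h (k + 1)) = h (k + 1 + 1) := T.sph_sig h hh (k + 1) (by omega)
    have hne : h k ≠ 0 := by
      intro hc
      rw [hc, map_zero] at hs1
      exact D.hne hs1.symm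
    have hdegk := T.sph_deg h hh k (by omega)
    have hdegk1 := T.sph_deg h hh (k + 1) (by omega)
    have hc2 : ∀ r, T.comp (k + 1) r (h (k + 1)) ∘ₗ inc r (k + 1) = 0 := by
      intro r
      have := T.comp_sig (k + 1) (by omega) (by omega) (d + (k + 1)) (by omega) _ hdegk1 r
      rw [hs2, D.hz, map_zero] at this
      exact this.symm
    rcases Nat.eq_zero_or_pos k with hk0 | hk0
    · subst hk0
      have hlow : ∃ (r : ℕ) (f : M r 0 →ₗ[F2] F2), f ≠ 0 ∧ Conc f (d + 0) ∧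
          ((∀ a, 1 ≤ a → T.Sq 0 a (h 0) = 0) → ∀ a, 1 ≤ a → f ∘ₗ S.SqM r 0 a = 0) ∧
          T.comp 1 r (T.sig 0 (h 0)) = f ∘ₗ inc r 0 := by
        rcases T.lowest (d + 0) (by omega) (by omega) (h 0) hdegk hne with hl | hl
        · exact ⟨0, T.c1 (h 0), hl.1, hl.2.1, hl.2.2.1, hl.2.2.2⟩
        · obtain ⟨-, r, f, -, hf⟩ := hl
          exact ⟨r, f, hf⟩
      obtain ⟨r, f, hf, hc, hA, hcomp⟩ := hlow
      refine no_even S h61 r 0 m hm (by omega) f hf
        (hA (fun a ha => T.sph_Sq h hh 0 (by omega) a ha)) ?_ ?_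
      · have : 2 * m - (0 + 1) = d + 0 := by omega
        rw [this]; exact hc
      · rw [← hcomp, hs1]
        exact hc2 r
    · have hex : ∃ r, T.comp k r (h k) ≠ 0 := by
        by_contra hc
        push Not at hc
        refine hne (T.comp_inj k hk0 (by omega) (d + k) (by omega) _ hdegk ?_ hc)
        exact T.c0_deg k hk0 (by omega) (d + k) (by omega) _ hdegk (by omega)
      obtain ⟨r, hr⟩ := hex
      refine no_even S h61 r k m hm (by omega) (T.comp k r (h k)) hr ?_ ?_ ?_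
      · intro a ha
        rw [← T.comp_Sq k hk0 (by omega) (d + k) (by omega) _ hdegk r a,
          T.sph_Sq h hh k (by omega) a ha, map_zero]
      · intro g i hg hi
        exact T.comp_deg k hk0 (by omega) (d + k) (by omega) _ hdegk r g i hg (by omega)
      · rw [← T.comp_sig k hk0 (by omega) (d + k) (by omega) _ hdegk r, hs1]
        exact hc2 r

/-- application of theorem 06 -/
theorem Desc.app06 (h06 : Thm06 S) (hE : LemEven S) (h61 : Lem61 S) (hd : 1 ≤ d)
    {h : ∀ k, T.P k} (hh : h ∈ T.Sph) {k m : ℕ} {ξ : T.P k} (D : T.Desc h k m ξ) (r : ℕ)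
    (f : M r k →ₗ[F2] F2) (hf : f ≠ 0) (hc : Conc f (m - k))
    (hA : ∀ a, 1 ≤ a → f ∘ₗ S.SqM r k a = 0)
    (hcomp : T.comp (k + 1) r (T.sig k ξ) = f ∘ₗ inc r k) :
    r = 0 ∧ k = 0 ∧ ∃ l, m + 1 = 2 ^ l := by
  have hm1 := D.m_pos hd
  have hkd := D.hk
  have h2 := D.h2
  have hkm := D.k_le
  obtain ⟨Tt, hbm, hdeg, hbig, htop, -, -⟩ := D.ext_data hd hh
  refine h06 r k m (D.odd hE h61 hd hh) f (fun a => T.comp (k + 1) r (Tt a)) hf hkm hc hA ?_
    (hbm r) ?_
  · intro a ha g i hg hne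
    rcases Nat.lt_or_ge (2 * m + 1) a with hb | hb
    · show T.comp (k + 1) r (Tt a) g = 0
      rw [hbig a hb]; simp
    · exact T.comp_deg (k + 1) (by omega) (by omega) _ (by omega) _ (hdeg a ha hb) r g i hg
        (by omega)
  · intro g
    show T.comp (k + 1) r (Tt (m + 1)) g = f (inc r k g)
    rw [htop, hcomp]; rfl

variable (T)

/-- the trichotomy: conclusion (2) of section 09. -/
theorem main (h06 : Thm06 S) (hE : LemEven S) (h61 : Lem61 S) (hd : 1 ≤ d)
    (h : ∀ k, T.P k) (hh : h ∈ T.Sph) (h0 : h 0 ≠ 0) :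
    (Odd d ∧ h d ≠ 0 ∧ h (d + 1) = 0 ∧ ∃ ξ ∈ T.deg d d, T.frob d ξ = h d ∧ T.c0 d ξ ≠ 0 ∧
      ∀ r, T.comp d r ξ = 0) ∨
    (∃ m l, 2 * m = d ∧ m + 1 = 2 ^ l ∧ ∃ ξ ∈ T.deg 0 m, T.frob 0 ξ = h 0 ∧ T.c1 ξ ≠ 0 ∧
      Conc (T.c1 ξ) m) := by
  obtain ⟨k, m, ξ, D⟩ := T.exists_desc hd h hh h0
  have hm1 := D.m_pos hd
  have hkd := D.hk
  have h2 := D.h2
  have hkm := D.k_le
  have hodd := D.odd hE h61 hd hh
  rcases Nat.eq_zero_or_pos k with hk0 | hk
  · subst hk0
    right
    rcases T.lowest m (by omega) (by omega) ξ D.mem D.ne with hl | hl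
    · obtain ⟨hc1, hconc, hA, hcomp⟩ := hl
      obtain ⟨-, -, l, hl⟩ := D.app06 h06 hE h61 hd hh 0 (T.c1 ξ) hc1 (by simpa using hconc)
        (hA D.ann) hcomp
      exact ⟨m, l, by omega, hl, ξ, D.mem, D.fr, hc1, hconc⟩
    · obtain ⟨-, r, f, hr, hf, hconc, hA, hcomp⟩ := hl
      obtain ⟨h1, -, -⟩ := D.app06 h06 hE h61 hd hh r f hf (by simpa using hconc)
        (hA D.ann) hcomp
      omega
  · left
    have hcz : ∀ r, T.comp k r ξ = 0 := by
      intro r
      by_contra hne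
      obtain ⟨-, h1, -⟩ := D.app06 h06 hE h61 hd hh r (T.comp k r ξ) hne
        (fun g i hg hi => T.comp_deg k hk (by omega) m (by omega) ξ D.mem r g i hg (by omega))
        (fun a ha => by
          rw [← T.comp_Sq k hk (by omega) m (by omega) ξ D.mem r a, D.ann a ha, map_zero])
        (T.comp_sig k hk D.hk m (by omega) ξ D.mem r)
      omega
    have hc0 : T.c0 k ξ ≠ 0 := by
      intro hc
      exact D.ne (T.comp_inj k hk (by omega) m (by omega) ξ D.mem hc hcz)
    have hmk : m = k := by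
      by_contra hne
      exact hc0 (T.c0_deg k hk (by omega) m (by omega) ξ D.mem hne)
    have hdk : d = k := by omega
    subst hmk
    subst hdk
    exact ⟨hodd, D.hne, D.hz, ξ, D.mem, D.fr, hc0, hcz⟩

/-- S0314 core -/
theorem core14 (h06 : Thm06 S) (hE : LemEven S) (h61 : Lem61 S) (hd : 1 ≤ d)
    (h1 : d ≠ 1) (h3 : d ≠ 3) (h7 : d ≠ 7) (hK : ∀ j : ℕ, d + 2 ≠ 2 ^ j)
    (h : ∀ k, T.P k) (hh : h ∈ T.Sph) : h 0 = 0 := by
  by_contra h0
  rcases T.main h06 hE h61 hd h hh h0 with hc | hc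
  · obtain ⟨hodd, -, hz, ξ, hξ, hfr, hc0, hcz⟩ := hc
    rcases T.hopf h hh hodd ξ hξ hfr hc0 hcz hz with h | h | h <;> omega
  · obtain ⟨m, l, hm, hl, -⟩ := hc
    refine hK (l + 1) ?_
    rw [pow_succ, ← hl]; omega

/-- two nonzero functionals on `F2[Q_0]_m` agree -/
theorem conc_unique {m : ℕ} {f g : M 0 0 →ₗ[F2] F2} (hf : Conc f m) (hg : Conc g m)
    (hf0 : f ≠ 0) (hg0 : g ≠ 0) : f = g := by
  have hw : ∀ s : Fin (0 + 1) →₀ ℕ, Finsupp.weight (wt 0) s = s 0 := by
    intro s; rw [weight_eq]; simp [wt]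
  have huniq : ∀ s t : Fin (0 + 1) →₀ ℕ, s 0 = t 0 → s = t := by
    intro s t h
    ext i
    have : i = 0 := by
      apply Fin.ext
      have := i.2
      simp only [Fin.val_zero]
      omega
    rw [this]; exact h
  have hval : ∀ x : F2, x ≠ 0 → x = 1 := by decide
  obtain ⟨s, hs, hfs⟩ := exists_mon f hf0
  obtain ⟨t, ht, hgt⟩ := exists_mon g hg0
  have hsm : s 0 = m := by
    by_contra hne
    exact hfs (hf _ _ (mon_hom s hs) (by rw [hw]; exact hne))
  have htm : t 0 = m := by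
    by_contra hne
    exact hgt (hg _ _ (mon_hom t ht) (by rw [hw]; exact hne))
  have hst : s = t := huniq s t (by omega)
  subst hst
  rw [← sub_eq_zero]
  refine mon_ext _ fun u hu => ?_
  rw [LinearMap.sub_apply]
  by_cases hum : u 0 = m
  · have : u = s := huniq u s (by omega)
    subst this
    rw [hval _ hfs, hval _ hgt, sub_self]
  · rw [hf _ _ (mon_hom u hu) (by rw [hw]; exact hum),
      hg _ _ (mon_hom u hu) (by rw [hw]; exact hum), sub_self]

/-- S0315 core -/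
theorem core15 (h06 : Thm06 S) (hE : LemEven S) (h61 : Lem61 S) (hd : 1 ≤ d)
    (h h' : ∀ k, T.P k) (hh : h ∈ T.Sph) (hh' : h' ∈ T.Sph) :
    h 0 = 0 ∨ h' 0 = 0 ∨ h 0 = h' 0 := by
  by_contra hcon
  push Not at hcon
  obtain ⟨ha, hb, hab⟩ := hcon
  have two : ∀ (k : ℕ) (x : T.P k), x + x = 0 := by
    intro k x
    have : ((1 : F2) + 1) • x = 0 := by
      have e : (1 : F2) + 1 = 0 := by decide
      rw [e, zero_smul]
    rwa [add_smul, one_smul] at this
  have hs := T.sph_add h hh h' hh'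
  have hs0 : (h + h') 0 ≠ 0 := by
    intro hc
    apply hab
    have : h 0 + h' 0 = 0 := hc
    calc h 0 = h 0 + (h' 0 + h' 0) := by rw [two, add_zero]
      _ = (h 0 + h' 0) + h' 0 := by abel
      _ = h' 0 := by rw [this, zero_add]
  have hval : ∀ x : F2, x ≠ 0 → x = 1 := by decide
  rcases T.main h06 hE h61 hd h hh ha with A | A
  · rcases T.main h06 hE h61 hd h' hh' hb with B | B
    · rcases T.main h06 hE h61 hd (h + h') hs hs0 with C | C
      · obtain ⟨-, -, -, ξ, hξ, hfr, hc0, hcz⟩ := A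
        obtain ⟨-, -, -, ξ', hξ', hfr', hc0', hcz'⟩ := B
        obtain ⟨-, hne, -⟩ := C
        have hd' : d + 1 ≤ d + 1 := le_rfl
        have : ξ - ξ' = 0 := by
          refine T.comp_inj d hd (by omega) d (by omega) _ (Submodule.sub_mem _ hξ hξ') ?_ ?_
          · rw [map_sub, hval _ hc0, hval _ hc0', sub_self]
          · intro r; rw [map_sub, hcz, hcz', sub_self]
        have hEq : ξ = ξ' := sub_eq_zero.1 this
        apply hne
        show h d + h' d = 0
        rw [← hfr, ← hfr', hEq, two]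
      · obtain ⟨m, l, hm, -⟩ := C
        obtain ⟨⟨q, hq⟩, -⟩ := A
        omega
    · obtain ⟨m, l, hm, -⟩ := B
      obtain ⟨⟨q, hq⟩, -⟩ := A
      omega
  · rcases T.main h06 hE h61 hd h' hh' hb with B | B
    · obtain ⟨m, l, hm, -⟩ := A
      obtain ⟨⟨q, hq⟩, -⟩ := B
      omega
    · rcases T.main h06 hE h61 hd (h + h') hs hs0 with C | C
      · obtain ⟨m, l, hm, -⟩ := A
        obtain ⟨⟨q, hq⟩, -⟩ := C
        omega
      · obtain ⟨m, l, hm, -, ξ, hξ, hfr, hc1, hconc⟩ := A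
        obtain ⟨m', l', hm', -, ξ', hξ', hfr', hc1', hconc'⟩ := B
        obtain ⟨m'', l'', hm'', -, ξ'', hξ'', hfr'', hc1'', hconc''⟩ := C
        have e1 : m' = m := by omega
        have e2 : m'' = m := by omega
        subst e1
        subst e2
        have hsum : ξ'' = ξ + ξ' := by
          rw [← sub_eq_zero]
          refine T.frob_inj 0 (by omega) m'' (by omega) _
            (Submodule.sub_mem _ hξ'' (Submodule.add_mem _ hξ hξ')) ?_
          rw [map_sub, map_add, hfr, hfr', hfr'']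
          show h 0 + h' 0 - (h 0 + h' 0) = 0
          rw [sub_self]
        have heq : T.c1 ξ = T.c1 ξ' := conc_unique hconc hconc' hc1 hc1'
        apply hc1''
        rw [hsum, map_add, heq]
        ext g
        have e : ∀ x : F2, x + x = 0 := by decide
        exact e _

end Tower

end Crest.Agent.R204.Spine693
end
end

-- ▼ part R204/Glue_693
section

/-!
# Row 204: glue `Spec114.Facts → Spine693.Tower`: spherical families, cofibre, section 08, Hopf (helper693)
-/

set_option autoImplicit false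

noncomputable section

namespace Crest.Agent.R204.Glue693

open Spec114 TensorProduct Glue114
open scoped TensorProduct

variable {X : Spec114.Tower} {S : Spec114.Sph X} {D d : ℕ}

/-- the family of primitives attached to `α` -/
def fam (F : Facts X S D d) (α : S.A) : ∀ k, P X k := fun k =>
  if h : k ≤ D + 2 then ⟨S.h k α, (F.sph.1 k h α).2.1⟩ else 0

theorem coe_fam (F : Facts X S D d) (α : S.A) {k : ℕ} (hk : k ≤ D + 2) :
    ((fam F α k : P X k) : X.H k) = S.h k α := by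
  rw [fam, dif_pos hk]

theorem fam_mem (F : Facts X S D d) (α : S.A) : fam F α ∈ SphSet S d := by
  refine ⟨α, fun k hk => coe_fam F α ?_⟩
  have := F.dD
  omega

theorem sph_deg (F : Facts X S D d) (h : ∀ k, P X k) (hh : h ∈ SphSet S d) (k : ℕ)
    (hk : k ≤ d + 1) : h k ∈ deg X k (d + k) := by
  obtain ⟨α, hα⟩ := hh
  have hD := F.dD
  rw [mem_deg, hα k hk]
  have h1 := (F.sph.1 k (by omega) α).1
  cases k with
  | zero => exact ⟨h1, F.sph.2.2 α⟩
  | succ k => exact h1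

theorem sph_sig (F : Facts X S D d) (h : ∀ k, P X k) (hh : h ∈ SphSet S d) (k : ℕ)
    (hk : k ≤ d) : sig X k (h k) = h (k + 1) := by
  obtain ⟨α, hα⟩ := hh
  have hD := F.dD
  apply Subtype.ext
  rw [coe_sig F.sigma (by omega), hα k (by omega), hα (k + 1) (by omega)]
  exact F.sph.2.1 k (by omega) α

theorem sph_Sq (F : Facts X S D d) (h : ∀ k, P X k) (hh : h ∈ SphSet S d) (k : ℕ)
    (hk : k ≤ d + 1) (a : ℕ) (ha : 1 ≤ a) : Sq X k a (h k) = 0 := by
  obtain ⟨α, hα⟩ := hh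
  have hD := F.dD
  apply Subtype.ext
  rw [coe_Sq F.sq (by omega), hα k hk]
  exact (F.sph.1 k (by omega) α).2.2.1 a ha

theorem sph_add (F : Facts X S D d) (h : ∀ k, P X k) (hh : h ∈ SphSet S d)
    (h' : ∀ k, P X k) (hh' : h' ∈ SphSet S d) : h + h' ∈ SphSet S d := by
  obtain ⟨α, hα⟩ := hh
  obtain ⟨β, hβ⟩ := hh'
  have hD := F.dD
  refine ⟨S.sub α β, fun k hk => ?_⟩
  rw [(F.sph.1 k (by omega) α).2.2.2 β, ← hα k hk, ← hβ k hk]
  rfl

/-- degree zero primitives vanish (`k ≥ 1`) -/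
theorem prim_gr_zero (F : Facts X S D d) {k : ℕ} (hk : 1 ≤ k) (hkD : k ≤ D + 2) (s : X.H k)
    (hs : s ∈ X.prim k) (h0 : s ∈ X.gr k 0) : s = 0 := by
  classical
  obtain ⟨p, hp, hps⟩ := (F.poly k hk hkD).2 0 (Nat.zero_le _) h0
  -- `p` is constant
  have hconst : ∃ c : F2, p = MvPolynomial.C c := by
    refine ⟨p.coeff 0, ?_⟩
    ext t
    rw [MvPolynomial.coeff_C]
    split_ifs with ht
    · rw [← ht]
    · by_contra hne
      have hw : Finsupp.weight (fun I : Tower.Wd => Tower.wdeg k I.1) t = 0 := hp hne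
      apply ht
      symm
      rw [Finsupp.weight_apply, Finsupp.sum, Finset.sum_eq_zero_iff] at hw
      ext i
      by_contra hi
      have h1 := hw i (Finsupp.mem_support_iff.2 hi)
      have h2 : 1 ≤ Tower.wdeg k i.1 := by
        have : ∀ I : List ℕ, 1 ≤ Tower.wdeg k I := by
          intro I
          induction I with
          | nil => exact hk
          | cons a I ih =>
            show 1 ≤ 2 * Tower.wdeg k I + a
            omega
        exact this _
      rw [smul_eq_mul, mul_eq_zero] at h1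
      rcases h1 with h1 | h1
      · exact hi (by simpa using h1)
      · omega
  obtain ⟨c, rfl⟩ := hconst
  have hs' : s = algebraMap F2 (X.H k) c := by
    rw [← hps]
    show MvPolynomial.aeval _ (MvPolynomial.C c) = _
    rw [MvPolynomial.aeval_C]
  -- the augmentation of a primitive vanishes
  have hε : X.ε k s = 0 := by
    have hl := (F.delta k hkD).1 s
    rw [(Tower.mem_prim X).1 hs] at hl
    have e : TensorProduct.lid F2 (X.H k) (TensorProduct.map (X.ε k).toLinearMap LinearMap.id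
        (s ⊗ₜ[F2] (1 : X.H k) + 1 ⊗ₜ[F2] s)) = X.ε k s • (1 : X.H k) + s := by
      simp [TensorProduct.map_tmul]
    rw [e] at hl
    have h0' : X.ε k s • (1 : X.H k) = 0 := by
      have := sub_eq_zero.2 hl
      rwa [add_sub_cancel_right] at this
    have := congrArg (X.ε k) h0'
    rw [map_smul, map_one, map_zero, smul_eq_mul, mul_one] at this
    exact this
  rw [hs', AlgHom.commutes] at hε
  have : c = 0 := by simpa using hε
  rw [hs', this, map_zero]

theorem cofib (F : Facts X S D d) (h : ∀ k, P X k) (hh : h ∈ SphSet S d) (k : ℕ) (hk : k ≤ d)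
    (m : ℕ) (hm : 1 ≤ m) (h2 : 2 * m = d + k) (ξ : P X k) (hξ : ξ ∈ deg X k m)
    (hA : ∀ a, 1 ≤ a → Sq X k a ξ = 0) (hf : frob X k ξ = h k) (hz : h (k + 1) = 0) :
    ∃ (E : Type) (_ : AddCommGroup E) (_ : Module F2 E) (SE : ℕ → (E →ₗ[F2] E))
      (ι : P X (k + 1) →ₗ[F2] E) (τ : E) (T : ℕ → P X (k + 1)),
      Spine693.CoBM SE ∧ SE 0 = LinearMap.id ∧ Function.Injective ι ∧
      (∀ a x, SE a (ι x) = ι (Sq X (k + 1) a x)) ∧
      (∀ a, 1 ≤ a → SE a τ = ι (T a)) ∧
      (∀ a, 1 ≤ a → a ≤ 2 * m + 1 → T a ∈ deg X (k + 1) (2 * m + 2 - a)) ∧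
      (∀ a, 2 * m + 1 < a → T a = 0) ∧
      T (m + 1) = sig X k ξ := by
  obtain ⟨α, hα⟩ := hh
  have hD := F.dD
  obtain ⟨E, iE, mE, SE, ι, τ, hbm, h0, hι, hS, hτ, htop⟩ :=
    F.cone k (by omega) hk α m (ξ : X.H k) hm h2 (grB_le X k m hξ) ξ.2
      (by
        intro a ha
        rw [← coe_Sq F.sq (by omega), hA a ha]; rfl)
      (by
        rw [← hα k (by omega), ← hf]; rfl)
      (by
        rw [← hα (k + 1) (by omega), hz]; rfl)
  obtain ⟨T, hT⟩ : ∃ T : ℕ → P X (k + 1), ∀ a, 1 ≤ a →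
      ((T a : P X (k + 1)) : X.H (k + 1)) ∈ X.gr (k + 1) (2 * m + 2 - a) ∧
      SE a τ = ι ((T a : P X (k + 1)) : X.H (k + 1)) := by
    have : ∀ a, ∃ t : P X (k + 1), 1 ≤ a →
        ((t : P X (k + 1)) : X.H (k + 1)) ∈ X.gr (k + 1) (2 * m + 2 - a) ∧
        SE a τ = ι ((t : P X (k + 1)) : X.H (k + 1)) := by
      intro a
      by_cases ha : 1 ≤ a
      · obtain ⟨s, hs, hs'⟩ := hτ a ha
        rw [Submodule.mem_inf] at hs
        exact ⟨⟨s, hs.1⟩, fun _ => ⟨hs.2, hs'⟩⟩
      · exact ⟨0, fun h => absurd h ha⟩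
    exact ⟨fun a => (this a).choose, fun a => (this a).choose_spec⟩
  refine ⟨E, iE, mE, SE, ι ∘ₗ (X.prim (k + 1)).subtype, τ, T, ?_, ?_, ?_, ?_, ?_, ?_, ?_, ?_⟩
  · intro n i hi
    refine LinearMap.ext fun y => ?_
    have := hbm n i hi y
    simpa only [LinearMap.sum_apply, LinearMap.smul_apply, LinearMap.comp_apply,
      Spine693.bmc] using this
  · ext y; exact h0 y
  · intro x y hxy
    exact Subtype.ext (hι hxy)
  · intro a x
    show SE a (ι (x : X.H (k + 1))) = ι ((Sq X (k + 1) a x : P X (k + 1)) : X.H (k + 1))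
    rw [hS, coe_Sq F.sq (by omega)]
  · intro a ha
    exact (hT a ha).2
  · intro a ha _
    exact (hT a ha).1
  · intro a ha
    apply Subtype.ext
    have h1 := hT a (by omega)
    have e : 2 * m + 2 - a = 0 := by omega
    rw [e] at h1
    exact prim_gr_zero F (by omega) (by omega) _ (T a).2 h1.1
  · apply Subtype.ext
    apply hι
    rw [coe_sig F.sigma (by omega), ← htop]
    exact (hT (m + 1) (by omega)).2.symm

theorem sec08 (F : Facts X S D d) (h : ∀ k, P X k) (hh : h ∈ SphSet S d) (j : ℕ) (hj : 1 ≤ j)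
    (h4 : 4 * j = d) (ζ : P X 0) (hζ : ζ ∈ deg X 0 j) (hA : ∀ a, 1 ≤ a → Sq X 0 a ζ = 0)
    (hf : frob X 0 (frob X 0 ζ) = h 0) : h 0 = 0 := by
  obtain ⟨α, hα⟩ := hh
  have hD := F.dD
  have hz : (ζ : X.H 0) = 0 := by
    refine F.four α j ζ hj h4 hζ.1 hζ.2 ζ.2 ?_ ?_
    · intro a ha
      rw [← coe_Sq F.sq (by omega), hA a ha]; rfl
    · rw [← hα 0 (by omega), ← hf, coe_frob, coe_frob]; ring
  have : ζ = 0 := Subtype.ext hz
  rw [← hf, this, map_zero, map_zero]

/-- `ξ = x_d` forces `d + 1 ∈ {2,4,8}` -/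
theorem hopf (F : Facts X S D d) (H : S.FactHopf d) (h : ∀ k, P X k) (hh : h ∈ SphSet S d)
    (hodd : Odd d) (ξ : P X d) (hx : (ξ : X.H d) = X.x d) (hf : frob X d ξ = h d) :
    d + 1 = 2 ∨ d + 1 = 4 ∨ d + 1 = 8 := by
  obtain ⟨α, hα⟩ := hh
  have hD := F.dD
  have := H α hodd (by
    rw [← hα d (by omega), ← hf, coe_frob, hx])
  omega

end Crest.Agent.R204.Glue693
end
end

-- ▼ part R204/GlueD_114
section

/-!
# Row 204: glue, part D: the second-layer tower from the facts, given the outputs of Theorem 3 (helper114)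
-/

set_option autoImplicit false

noncomputable section

namespace Crest.Agent.R204.Glue114

open Spec114 TensorProduct MvPolynomial Rng114
open scoped TensorProduct

variable {Y : Spec114.Tower} {S : Sph Y} {D d : ℕ}

/-- `frob_inj`, `k ≥ 1` -/
theorem frob_inj_pos (hF : Facts Y S D d) {k : ℕ} (h1 : 1 ≤ k) (hk : k ≤ d + 1) (i : ℕ)
    (hi : 2 * i ≤ 2 * d + 2) (x : P Y k) (hx : x ∈ deg Y k i) (h0 : frob Y k x = 0) : x = 0 := by
  have hD := hF.dD
  apply Subtype.ext
  exact sq_inj hF h1 (by omega) (t := i) (by omega) (grB_le Y k i hx) (congrArg Subtype.val h0)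

/-- `ker_sig`, `k ≥ 1` -/
theorem ker_sig_pos' (hF : Facts Y S D d) {k : ℕ} (h1 : 1 ≤ k) (hk : k ≤ d) (i : ℕ) (hi1 : 1 ≤ i)
    (hi : i ≤ 2 * d + 2) (x : P Y k) (hx : x ∈ deg Y k i) (hne : x ≠ 0) (h0 : sig Y k x = 0) :
    ∃ j, 2 * j = i ∧ ∃ y ∈ deg Y k j, x = frob Y k y := by
  have hD := hF.dD
  have h2 : Y.σ k (x : Y.H k) = 0 := by
    rw [← coe_sig hF.sigma (by omega), h0]; rfl
  obtain ⟨j, hj, ζ, hζ, hζp, he⟩ := ker_sig_pos hF h1 (by omega) hi1 (by omega)
    (grB_le Y k i hx) x.2 (fun h => hne (Subtype.ext h)) h2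
  refine ⟨j, hj, ⟨ζ, hζp⟩, ?_, Subtype.ext he⟩
  rw [mem_deg, grB_pos Y h1]
  exact hζ

/-- the outputs of Theorem 3 and of the `k = 0` analysis, as needed by `Spine693.Tower` -/
structure T3Out (St : Spine693.Dick) (Y : Spec114.Tower) (d : ℕ) where
  c0 : ∀ k : ℕ, P Y k →ₗ[F2] F2
  comp : ∀ k r : ℕ, P Y k →ₗ[F2] (Spine693.M r k →ₗ[F2] F2)
  c1 : P Y 0 →ₗ[F2] (Spine693.M 0 0 →ₗ[F2] F2)
  frob_inj0 : ∀ i, 2 * i ≤ 2 * d + 2 → ∀ x ∈ deg Y 0 i, frob Y 0 x = 0 → x = 0
  ker_sig0 : ∀ i, 1 ≤ i → i ≤ 2 * d + 2 → ∀ x ∈ deg Y 0 i, x ≠ 0 → sig Y 0 x = 0 →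
    ∃ j, 2 * j = i ∧ ∃ y ∈ deg Y 0 j, x = frob Y 0 y
  comp_Sq : ∀ k, 1 ≤ k → k ≤ d + 1 → ∀ i, i ≤ 2 * d + 2 → ∀ x ∈ deg Y k i, ∀ r a,
    comp k r (Sq Y k a x) = comp k r x ∘ₗ St.SqM r k a
  comp_deg : ∀ k, 1 ≤ k → k ≤ d + 1 → ∀ i, i ≤ 2 * d + 2 → ∀ x ∈ deg Y k i,
    ∀ r (g : Spine693.M r k) (j : ℕ),
    IsWeightedHomogeneous (Spine693.wt r) (g : Spine693.D (r + 1)) j → j + k ≠ i → comp k r x g = 0
  c0_deg : ∀ k, 1 ≤ k → k ≤ d + 1 → ∀ i, i ≤ 2 * d + 2 → ∀ x ∈ deg Y k i, i ≠ k → c0 k x = 0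
  c0_Sq : ∀ k, 1 ≤ k → k ≤ d + 1 → ∀ i, i ≤ 2 * d + 2 → ∀ x ∈ deg Y k i, ∀ a, 1 ≤ a →
    c0 k (Sq Y k a x) = 0
  comp_inj : ∀ k, 1 ≤ k → k ≤ d + 1 → ∀ i, i ≤ 2 * d + 2 → ∀ x ∈ deg Y k i,
    c0 k x = 0 → (∀ r, comp k r x = 0) → x = 0
  comp_sig : ∀ k, 1 ≤ k → k ≤ d → ∀ i, i ≤ 2 * d + 1 → ∀ x ∈ deg Y k i, ∀ r,
    comp (k + 1) r (sig Y k x) = comp k r x ∘ₗ Spine693.inc r k
  c0_x : ∀ ξ ∈ deg Y d d, c0 d ξ ≠ 0 → (∀ r, comp d r ξ = 0) → (ξ : Y.H d) = Y.x d
  lowest : ∀ i, 1 ≤ i → i ≤ 2 * d + 2 → ∀ x ∈ deg Y 0 i, x ≠ 0 →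
    (c1 x ≠ 0 ∧ Spine693.Conc (c1 x) i ∧
      ((∀ a, 1 ≤ a → Sq Y 0 a x = 0) → ∀ a, 1 ≤ a → c1 x ∘ₗ St.SqM 0 0 a = 0) ∧
      comp 1 0 (sig Y 0 x) = c1 x ∘ₗ Spine693.inc 0 0) ∨
    (c1 x = 0 ∧ ∃ (r : ℕ) (f : Spine693.M r 0 →ₗ[F2] F2), 1 ≤ r ∧ f ≠ 0 ∧ Spine693.Conc f i ∧
      ((∀ a, 1 ≤ a → Sq Y 0 a x = 0) → ∀ a, 1 ≤ a → f ∘ₗ St.SqM r 0 a = 0) ∧
      comp 1 r (sig Y 0 x) = f ∘ₗ Spine693.inc r 0)

/-- the second-layer tower -/
def mkTower {St : Spine693.Dick} (hF : Facts Y S D d) (hH : S.FactHopf d) (T : T3Out St Y d) :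
    Spine693.Tower St d where
  P := P Y
  deg := deg Y
  Sq := Sq Y
  sig := sig Y
  frob := frob Y
  c0 := T.c0
  comp := T.comp
  c1 := T.c1
  Sph := SphSet S d
  frob_deg k hk i x hx := frob_deg hF.gr (by have := hF.dD; omega) i x hx
  sig_deg k hk i x hx := sig_deg hF.sigma (by have := hF.dD; omega) i x hx
  Sq_deg k hk i x hx a := Sq_deg hF.sq hF.base (by have := hF.dD; omega) i x hx a
  frob_inj k hk i hi x hx h0 := by
    rcases Nat.eq_zero_or_pos k with rfl | h1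
    · exact T.frob_inj0 i hi x hx h0
    · exact frob_inj_pos hF h1 hk i hi x hx h0
  frob_Sq k hk a x := frob_Sq hF.sq (by have := hF.dD; omega) a x
  ker_sig k hk i hi1 hi x hx hne h0 := by
    rcases Nat.eq_zero_or_pos k with rfl | h1
    · exact T.ker_sig0 i hi1 hi x hx hne h0
    · exact ker_sig_pos' hF h1 hk i hi1 hi x hx hne h0
  comp_Sq := T.comp_Sq
  comp_deg := T.comp_deg
  c0_deg := T.c0_deg
  c0_Sq := T.c0_Sq
  comp_inj := T.comp_inj
  comp_sig := T.comp_sig
  lowest := T.lowest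
  sph_deg := Glue693.sph_deg hF
  sph_sig := Glue693.sph_sig hF
  sph_Sq := Glue693.sph_Sq hF
  sph_add h hh h' hh' := Glue693.sph_add hF h hh h' hh'
  cofib h hh k hk m hm h2 ξ hξ hA hf hz := Glue693.cofib hF h hh k hk m hm h2 ξ hξ hA hf hz
  sec08 h hh j hj h4 ζ hζ hA hf := Glue693.sec08 hF h hh j hj h4 ζ hζ hA hf
  hopf h hh hodd ξ hξ hfr hc0 hc _ := Glue693.hopf hF hH h hh hodd ξ (T.c0_x ξ hξ hc0 hc) hfr

theorem eval_fam (hF : Facts Y S D d) (α : S.A) :
    ((Glue693.fam hF α 0 : P Y 0) : Y.H 0) = S.h 0 α := Glue693.coe_fam hF α (by omega)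

/-- `Core314` from the outputs of Theorem 3 and block F -/
theorem core314_of {St : Spine693.Dick} (h06 : Spine693.Thm06 St) (hE : Spine693.LemEven St)
    (h61 : Spine693.Lem61 St)
    (T : ∀ (Y : Spec114.Tower) (S : Sph Y) (D d : ℕ), Facts Y S D d → Nonempty (T3Out St Y d)) :
    Core314 := by
  intro Y S D d hF hH h1 h3 h7 hj α
  obtain ⟨T⟩ := T Y S D d hF
  have := (mkTower hF hH T).core14 h06 hE h61 hF.d_pos h1 h3 h7 hj (Glue693.fam hF α)
    (Glue693.fam_mem hF α)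
  rw [← eval_fam hF α]
  exact congrArg Subtype.val this

/-- `Core315` (with Hopf invariant one as extra input) -/
theorem core315_of {St : Spine693.Dick} (h06 : Spine693.Thm06 St) (hE : Spine693.LemEven St)
    (h61 : Spine693.Lem61 St)
    (T : ∀ (Y : Spec114.Tower) (S : Sph Y) (D d : ℕ), Facts Y S D d → Nonempty (T3Out St Y d))
    (X : Spec114.Tower) (S : Sph X) (D d : ℕ) (hF : Facts X S D d) (hH : S.FactHopf d)
    (α β : S.A) : S.h 0 α = 0 ∨ S.h 0 β = 0 ∨ S.h 0 α = S.h 0 β := by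
  obtain ⟨T⟩ := T X S D d hF
  have := (mkTower hF hH T).core15 h06 hE h61 hF.d_pos (Glue693.fam hF α) (Glue693.fam hF β)
    (Glue693.fam_mem hF α) (Glue693.fam_mem hF β)
  rw [← eval_fam hF α, ← eval_fam hF β]
  rcases this with h | h | h
  · exact Or.inl (congrArg Subtype.val h)
  · exact Or.inr (Or.inl (congrArg Subtype.val h))
  · exact Or.inr (Or.inr (congrArg Subtype.val h))

end Crest.Agent.R204.Glue114
end
end

-- ▼ part R204/Thm3g_737

/-!
# Row 204, Theorem 3, part g: `T3Out` (the interface of `GlueD_114`) from the facts (owner helper737)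
-/

set_option autoImplicit false

noncomputable section

namespace Crest.Agent.R204.Thm3Glue

open Thm3 Finset Spec114 TowerOps85 Glue114 MvPolynomial
open Crest.Agent.R204.DickInst91 (dick)

variable {Y : Spec114.Tower} {S : Sph Y} {D d : ℕ}

/-- the hypotheses of helper407's `k = 0` analysis -/
theorem hyp (hF : Facts Y S D d) : HopfZ407.Hyp Y D where
  gr := hF.gr
  eps := hF.eps
  delta := hF.delta
  sq := hF.sq
  t := hF.t
  t0 := hF.t0
  q := hF.q
  sigma := hF.sigma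
  x := hF.x
  base := hF.base
  poly0 := hF.poly0
  w := fun _ _ _ ht1 ht => TowerOps85.W0 hF.sq hF.t hF.gl2 hF.q hF.f13 hF.t0 hF.x hF.poly0 ht1 ht
  lin1 := fun _ ht => Glue114.adm_li hF le_rfl (by omega) (by omega)

theorem c0_x (hF : Facts Y S D d) (ξ : P Y d) (hξ : ξ ∈ deg Y d d) (h0 : c0 hF d ξ ≠ 0)
    (hr : ∀ r, comp hF d r ξ = 0) : (ξ : Y.H d) = Y.x d := by
  have hD := hF.dD
  have hd := hF.d_pos
  have hk : d ≤ D + 2 := by omega
  set x' : P Y d := ⟨Y.x d, hF.x.2.1 d hd hk⟩ with hx'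
  have hx'd : x' ∈ deg Y d d := by
    rw [mem_deg, grB_pos Y hd]
    exact (hF.x.1 d hk).1
  have h1 : c0 hF d x' = 1 := by
    rw [c0_apply hF hd hk]; exact (stage hF hd hk).c0_x
  have h2 : ∀ r, comp hF d r x' = 0 := fun r => by
    rw [comp_apply hF hd hk]; exact (stage hF hd hk).comp_x r
  have h3 : c0 hF d ξ = 1 := by
    generalize c0 hF d ξ = c at h0
    revert c; decide
  have h4 : ξ - x' = 0 := comp_inj hF hd hk (i := d) (by omega) _ (Submodule.sub_mem _ hξ hx'd)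
    (by rw [map_sub, h1, h3, sub_self]) (fun r => by rw [map_sub, hr r, h2 r, sub_self])
  rw [sub_eq_zero.1 h4]

/-- **the outputs of Theorem 3 and of the `k = 0` analysis** -/
def t3out (hF : Facts Y S D d) (hL : LowL Y D) : T3Out dick Y d where
  c0 := c0 hF
  comp := comp hF
  c1 := c1 hF
  frob_inj0 i hi x hx h0 := by
    have hD := hF.dD
    apply Subtype.ext
    exact (hyp hF).frob_inj (j := i) (by omega) hx.1 hx.2 (congrArg Subtype.val h0)
  ker_sig0 i hi1 hi x hx hne h0 := by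
    have hD := hF.dD
    have h2 : Y.σ 0 (x : Y.H 0) = 0 := by
      rw [← coe_sig hF.sigma (Nat.zero_le _), h0]; rfl
    obtain ⟨j, hj, y, hy, hyb, hyp, he⟩ := (hyp hF).ker_sigma hi1 (by omega) hx.1 hx.2 x.2
      (fun h => hne (Subtype.ext h)) h2
    exact ⟨j, hj, ⟨y, hyp⟩, ⟨hy, hyb⟩, Subtype.ext he⟩
  comp_Sq k h1 hk i hi x hx r a := by
    have hD := hF.dD
    exact comp_Sq hF h1 (by omega) (by omega) x hx r a
  comp_deg k h1 hk i hi x hx r g j hg hj := by
    have hD := hF.dD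
    exact comp_deg hF h1 (by omega) (by omega) x hx r g j hg hj
  c0_deg k h1 hk i hi x hx hne := by
    have hD := hF.dD
    exact c0_deg hF h1 (by omega) (by omega) x hx hne
  c0_Sq k h1 hk i hi x hx a ha := by
    have hD := hF.dD
    exact c0_Sq hF h1 (by omega) (by omega) x hx a ha
  comp_inj k h1 hk i hi x hx h0 hr := by
    have hD := hF.dD
    exact comp_inj hF h1 (by omega) (by omega) x hx h0 hr
  comp_sig k h1 hk i hi x hx r := by
    have hD := hF.dD
    exact comp_sig hF h1 (by omega) (by omega) x hx r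
  c0_x := c0_x hF
  lowest i hi1 hi x hx hne := by
    have hD := hF.dD
    exact lowest hF hL hi1 (by omega) x hx hne

end Crest.Agent.R204.Thm3Glue
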