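import Crest.Agent.R204.CoBM_596
import Crest.Agent.R204.SqCartan_898
import Crest.Agent.R204.Spec_114
import Mathlib
import Crest.Agent.R204.FB_166
import Crest.Agent.R204.SpineA_693
import Crest.Agent.R204.FA3_550
import Crest.Agent.R204.FA5_550
import Crest.Agent.R204.DickInst_91
import Crest.Agent.R204.HopfZ_407
import Crest.Agent.R204.Thm3g_737
import Crest.Agent.R204.InstHopf_478
import Crest.Agent.R204.ConnE_747
import Crest.Agent.R204.Sph_94d
import Crest.Agent.R204.Norm_76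
import Crest.Agent.R204.EZAW_271
import Crest.Agent.R204.AdjC_330
import Crest.Agent.R204.Defs
import Crest.Agent.R204.Cone_330
import Crest.Agent.R204.EZInst_847
import Crest.Agent.R204.FactSph_478
import Crest.Agent.R204.InstSph_478
import Crest.Agent.R204.Sigma2_88
import Crest.Agent.R204.OmS_94
import Crest.Agent.R204.Hopf11c_478
import Crest.Agent.R204.InstF_114
import Crest.Agent.R204.InstSig_194
import Crest.Agent.R204.PolyV_979
import Crest.Agent.R204.InstBase_194
import Crest.Agent.R204.InstX_194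

-- ▼ part R204/DualBM_596
section

set_option autoImplicit false

/-!
# Row 204, leaf S3: the dual Bullett--Macdonald identity for the dual Steenrod squares, unconditional
-/

noncomputable section

namespace Crest.Agent.R204.Adem596

theorem cartan_Sq252 (K : SS) : Cartan K := fun a x y => C6898.Sq_cr BZ498.BZ K a x y

theorem sqB_Sq252 : SqB := fun i b => C6898.Sq252_aZ i b

/-- the dual Bullett--Macdonald identity, in the form of `Spine_693` -/
theorem coBM_Sq252 (K : SS) : Spine693.CoBM (Sq252.Sq K) := coBM (cartan_Sq252 K) sqB_Sq252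

/-- the dual Bullett--Macdonald identity, in the form of `Spec_114` -/
theorem dualBM_Sq252 (K : SS) : Spec114.Tower.DualBM (Sq252.Sq K) := by
  intro n i hi y
  have h := LinearMap.congr_fun (coBM_Sq252 K n i hi) y
  simpa only [LinearMap.sum_apply, LinearMap.smul_apply, LinearMap.comp_apply, Spine693.bmc] using h

end Crest.Agent.R204.Adem596
end
end

-- ▼ part R204/FD_166
section

/-!
# Row 204, block F-D (helper166): 6.4, the induction, and Theorem 06
-/

set_option autoImplicit false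

noncomputable section

namespace Crest.Agent.R204.F166

open MvPolynomial Crest.Agent.R204 Crest.Agent.R204.Spine693

/-- the `Sq^2` / `Sq_1` formulas of 6.4 (ii) -/
def SqForm (S : Dick) : Prop :=
  ∀ (r e : ℕ) (s : Fin (r + 1) →₀ ℕ), 1 ≤ r → 1 ≤ e → e ≤ 2 → Even (e + (r + 1)) → TypeA s →
    s 0 = e → ∃ x ∈ M r e, S.Sq r 2 x = S.Sq r (wd r s + e - 2) (monomial s 1)

/-- instability -/
def Instab (S : Dick) : Prop :=
  ∀ (r a n : ℕ) (g : D (r + 1)), IsWeightedHomogeneous (wt r) g n → n < a → S.Sq r a g = 0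

/-! ### the exponents `kapE` -/

theorem sum_two_pow (r : ℕ) : ∑ i : Fin r, ((2 : ℤ) ^ (r + 1) - 2 ^ ((i : ℕ) + 1)) =
    r * 2 ^ (r + 1) - 2 ^ (r + 1) + 2 := by
  rw [Finset.sum_sub_distrib]
  have h1 : ∑ i : Fin r, (2 : ℤ) ^ (r + 1) = r * 2 ^ (r + 1) := by simp
  have h2 : ∑ i : Fin r, (2 : ℤ) ^ ((i : ℕ) + 1) = 2 ^ (r + 1) - 2 := by
    rw [Fin.sum_univ_eq_sum_range (fun i => (2 : ℤ) ^ (i + 1)) r]
    induction r with
    | zero => simp
    | succ r ih =>
      rw [Finset.sum_range_succ, ih]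
      · ring
      · simp
  rw [h1, h2]; ring

theorem wt_int (r : ℕ) (i : Fin (r + 1)) : ((wt r i : ℕ) : ℤ) = 2 ^ (r + 1) - 2 ^ (i : ℕ) := by
  unfold wt
  rw [Nat.cast_sub (Nat.pow_le_pow_right (by norm_num) i.2.le)]
  push_cast
  rfl

/-- `|κ f²| = 2|f| + R` -/
theorem wd_kapE (r : ℕ) (J : Fin (r + 1) →₀ ℕ) (hJ : r + 1 ≤ 2 * J 0 + 2) :
    wd r (kapE r J) = 2 * wd r J + (r + 1) := by
  rw [wd_eq, wd_eq, Fin.sum_univ_succ, Fin.sum_univ_succ]
  have h0 : kapE r J 0 = 2 * J 0 + 2 - (r + 1) := kapE_zero r J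
  have h1 : ∀ i : Fin r, kapE r J i.succ = 2 * J i.succ + 1 := fun i =>
    kapE_ne r J (Fin.succ_ne_zero i)
  simp only [h0, h1]
  zify [hJ]
  have h2 : ∀ i : Fin r, ((wt r i.succ : ℕ) : ℤ) = 2 ^ (r + 1) - 2 ^ ((i : ℕ) + 1) := by
    intro i; rw [wt_int]; simp
  have h3 : ((wt r 0 : ℕ) : ℤ) = 2 ^ (r + 1) - 1 := by rw [wt_int]; simp
  have h4 : ∑ i : Fin r, (2 * (J i.succ : ℤ) + 1) * ((wt r i.succ : ℕ) : ℤ) =
      2 * ∑ i : Fin r, (J i.succ : ℤ) * ((wt r i.succ : ℕ) : ℤ) +
      ∑ i : Fin r, ((2 : ℤ) ^ (r + 1) - 2 ^ ((i : ℕ) + 1)) := by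
    rw [Finset.mul_sum, ← Finset.sum_add_distrib]
    refine Finset.sum_congr rfl fun i _ => ?_
    rw [h2 i]; ring
  rw [h4, sum_two_pow, h3]
  ring

/-- a type A exponent is `kapE J` -/
theorem exists_kapE {r c : ℕ} (s : Fin (r + 1) →₀ ℕ) (hA : TypeA s)
    (hs : 2 * c + 2 ≤ s 0 + (r + 1)) :
    ∃ J : Fin (r + 1) →₀ ℕ, kapE r J = s ∧ c ≤ J 0 ∧ r + 1 ≤ 2 * J 0 + 2 := by
  obtain ⟨h1, h2⟩ := hA
  have hpar : Even (s 0 + (r + 1)) := by
    rw [Fin.sum_univ_succ] at h2
    have h3 : Even (∑ i : Fin r, s i.succ + r) := by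
      have : ∑ i : Fin r, s i.succ + r = ∑ i : Fin r, (s i.succ + 1) := by
        rw [Finset.sum_add_distrib]; simp
      rw [this]
      exact Finset.even_sum _ fun i _ => (h1 i.succ (Fin.succ_ne_zero i)).add_one
    have h4 : Odd (s 0 + r) := by
      have h5 : Odd (s 0 + ∑ i : Fin r, s i.succ + (∑ i : Fin r, s i.succ + r)) := h2.add_even h3
      have h6 : s 0 + ∑ i : Fin r, s i.succ + (∑ i : Fin r, s i.succ + r) =
        (s 0 + r) + 2 * ∑ i : Fin r, s i.succ := by ring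
      rw [h6] at h5
      rw [← Nat.not_even_iff_odd] at h5 ⊢
      intro h7
      exact h5 (h7.add (even_two_mul _))
    have := h4.add_one
    rwa [add_assoc] at this
  obtain ⟨q, hq⟩ := hpar
  refine ⟨Finsupp.equivFunOnFinite.symm (fun i => if i = 0 then q - 1 else (s i - 1) / 2), ?_, ?_, ?_⟩
  · ext i
    by_cases hi : i = 0
    · subst hi
      rw [kapE_zero]
      simp only [Finsupp.coe_equivFunOnFinite_symm, if_true]
      omega
    · rw [kapE_ne _ _ hi]
      simp only [Finsupp.coe_equivFunOnFinite_symm, if_neg hi]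
      obtain ⟨m, hm⟩ := h1 i hi
      omega
  · simp only [Finsupp.coe_equivFunOnFinite_symm, if_true]
    omega
  · simp only [Finsupp.coe_equivFunOnFinite_symm, if_true]
    omega

theorem typeA_parity {r : ℕ} {s : Fin (r + 1) →₀ ℕ} (hA : TypeA s) : Even (s 0 + (r + 1)) := by
  obtain ⟨h1, h2⟩ := hA
  rw [Fin.sum_univ_succ] at h2
  have h3 : Even (∑ i : Fin r, s i.succ + r) := by
    have : ∑ i : Fin r, s i.succ + r = ∑ i : Fin r, (s i.succ + 1) := by
      rw [Finset.sum_add_distrib]; simp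
    rw [this]
    exact Finset.even_sum _ fun i _ => (h1 i.succ (Fin.succ_ne_zero i)).add_one
  have h4 : Odd (s 0 + r) := by
    have h5 : Odd (s 0 + ∑ i : Fin r, s i.succ + (∑ i : Fin r, s i.succ + r)) := h2.add_even h3
    have h6 : s 0 + ∑ i : Fin r, s i.succ + (∑ i : Fin r, s i.succ + r) =
      (s 0 + r) + 2 * ∑ i : Fin r, s i.succ := by ring
    rw [h6] at h5
    rw [← Nat.not_even_iff_odd] at h5 ⊢
    intro h7
    exact h5 (h7.add (even_two_mul _))
  have := h4.add_one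
  rwa [add_assoc] at this

/-- `kap` doubles degrees -/
theorem kap_hom (r c : ℕ) (hc : r + 1 ≤ 2 * c + 2) (f : D (r + 1)) (hf : f ∈ M r c) (i : ℕ)
    (hi : IsWeightedHomogeneous (wt r) f i) :
    IsWeightedHomogeneous (wt r) (kap r f) (2 * i + (r + 1)) := by
  rw [← support_sum_monomial_coeff f, map_sum]
  refine Submodule.sum_mem (weightedHomogeneousSubmodule F2 (wt r) _) fun s hs => ?_
  have h2 : (monomial s (f.coeff s) : D (r + 1)) = f.coeff s • monomial s 1 := by
    rw [smul_monomial, smul_eq_mul, mul_one]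
  rw [h2, map_smul, kap_monomial]
  refine Submodule.smul_mem _ _ ?_
  have h3 : c ≤ s 0 := hf s (mem_support_iff.1 hs)
  have h4 : wd r s = i := hi (mem_support_iff.1 hs)
  have h5 := homog_monomial r (kapE r s) 1
  rw [wd_kapE r s (by omega), h4] at h5
  exact h5

theorem kap_mem' (r c e : ℕ) (he : e + (r + 1) ≤ 2 * c + 2) (f : D (r + 1)) (hf : f ∈ M r c) :
    kap r f ∈ M r e := by
  rw [← support_sum_monomial_coeff f, map_sum]
  refine Submodule.sum_mem _ fun s hs => ?_
  have h2 : (monomial s (f.coeff s) : D (r + 1)) = f.coeff s • monomial s 1 := by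
    rw [smul_monomial, smul_eq_mul, mul_one]
  rw [h2, map_smul, kap_monomial]
  refine Submodule.smul_mem _ _ (monomial_mem_M ?_ 1)
  have h3 : c ≤ s 0 := hf s (mem_support_iff.1 hs)
  rw [kapE_zero]
  omega

/-! ### Adem relations needed -/

section Adem

variable {E : Type} [AddCommGroup E] [Module F2 E] {S : ℕ → (E →ₗ[F2] E)}

/-- `Sq^2 Sq^2 = Sq^1 Sq^2 Sq^1` -/
theorem sq22 (h0 : S 0 = LinearMap.id) (h : BM S) (x : E) : S 2 (S 2 x) = S 1 (S 2 (S 1 x)) := by
  have h1 := (BM.isBM h0 h).adem 2 2 (by norm_num)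
  have h2 := LinearMap.congr_fun h1 x
  have e1 : (S 2 * S 2 : Module.End F2 E) x = S 2 (S 2 x) := rfl
  rw [e1] at h2
  rw [h2, show 2 / 2 + 1 = 2 from rfl, Finset.sum_range_succ, Finset.sum_range_one]
  have e2 : ((Nat.choose (2 - 1 - 0) (2 - 2 * 0) : ℕ) : ZMod 2) = 0 := by decide
  have e3 : ((Nat.choose (2 - 1 - 1) (2 - 2 * 1) : ℕ) : ZMod 2) = 1 := by decide
  rw [e2, e3, zero_smul, one_smul, zero_add, show 2 + 2 - 1 = 2 + 1 from rfl]
  have e4 : (S (2 + 1) * S 1 : Module.End F2 E) x = S (2 + 1) (S 1 x) := rfl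
  rw [e4, sq_odd h0 h 2 even_two]

/-- `Sq^n = Sq^2 Sq^{n-2} + Sq^1 Sq^{n-2} Sq^1` for `n = 2n'`, `n'` odd `≥ 3` -/
theorem sq_two_mod_four (h0 : S 0 = LinearMap.id) (h : BM S) {n' : ℕ} (hn : Odd n') (hn3 : 3 ≤ n')
    (x : E) : S (2 * n') x = S 2 (S (2 * n' - 2) x) + S 1 (S (2 * n' - 2) (S 1 x)) := by
  have h1 := (BM.isBM h0 h).adem 2 (2 * n' - 2) (by omega)
  have h2 := LinearMap.congr_fun h1 x
  have e1 : (S 2 * S (2 * n' - 2) : Module.End F2 E) x = S 2 (S (2 * n' - 2) x) := rfl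
  rw [e1] at h2
  rw [h2, show 2 / 2 + 1 = 2 from rfl, Finset.sum_range_succ, Finset.sum_range_one]
  obtain ⟨q, hq⟩ := hn
  have e2 : ((Nat.choose (2 * n' - 2 - 1 - 0) (2 - 2 * 0) : ℕ) : ZMod 2) = 1 := by
    have : 2 * n' - 2 - 1 - 0 = 4 * (q - 1) + 3 := by omega
    rw [this, show 2 - 2 * 0 = 2 from rfl, Nat.choose_two_right]
    have h3 : (4 * (q - 1) + 3) * (4 * (q - 1) + 3 - 1) / 2 =
        2 * ((4 * (q - 1) + 3) * (q - 1) + 2 * (q - 1) + 1) + 1 := by
      have : (4 * (q - 1) + 3) * (4 * (q - 1) + 3 - 1) =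
          2 * (2 * ((4 * (q - 1) + 3) * (q - 1) + 2 * (q - 1) + 1) + 1) := by
        rw [show 4 * (q - 1) + 3 - 1 = 4 * (q - 1) + 2 by omega]; ring
      rw [this]; omega
    rw [h3]
    exact cast_odd (odd_two_mul_add_one _)
  have e3 : ((Nat.choose (2 * n' - 2 - 1 - 1) (2 - 2 * 1) : ℕ) : ZMod 2) = 1 := by simp
  rw [e2, e3, one_smul, one_smul]
  have e4 : (S (2 + (2 * n' - 2) - 0) * S 0 + S (2 + (2 * n' - 2) - 1) * S 1 :
      Module.End F2 E) x = S (2 + (2 * n' - 2) - 0) (S 0 x) + S (2 + (2 * n' - 2) - 1) (S 1 x) := rfl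
  rw [e4, h0, LinearMap.id_apply, show 2 + (2 * n' - 2) - 0 = 2 * n' by omega,
    show 2 + (2 * n' - 2) - 1 = (2 * n' - 2) + 1 by omega,
    sq_odd h0 h (2 * n' - 2) (by exact ⟨n' - 1, by omega⟩), add_assoc, add_self2, add_zero]

end Adem

/-! ### the inductive step -/

theorem ext_apply_zero_snd {S : Dick} {r e : ℕ} {φ : ℕ → (M r e →ₗ[F2] F2)} {a : ℕ} (ha : 1 ≤ a)
    (x : M r e × F2) : (extSq S r e φ a x).2 = φ a x.1 := by
  obtain ⟨g, c⟩ := x
  rw [ext_apply ha]

/-- **Theorem 06** -/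
theorem thm06 {S : Dick} (F : Facts S) (hH : Halving S) (hX : HalvingXi S) (hE : LemEven S)
    (hI : Instab S) (hSF : SqForm S) : Thm06 S := by
  intro r k m
  induction m using Nat.strong_induction_on generalizing k with
  | _ m IH =>
  intro hm ξ φ hξ hkm hcx han hcp hBM hc
  have h61 := lem61 F
  -- Step 1
  obtain ⟨s, hs, hξs⟩ := exists_mon ξ hξ
  have hwd : wd r s = m - k := by
    by_contra h
    exact hξs (hcx _ _ (mon_hom s hs) h)
  have hpar0 : Even (s 0 + (k + 1)) := by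
    have h1 := wd_parity r s
    rw [hwd] at h1
    have h2 : Odd (m - k + k) := by rwa [Nat.sub_add_cancel hkm]
    rw [Nat.even_add, Nat.even_add_one]
    rw [Nat.odd_add] at h2
    rw [← Nat.not_even_iff_odd] at h2
    tauto
  have hs1 : k + 1 ≤ s 0 := by
    by_contra h
    have h2 : s 0 = k := by omega
    rw [h2, ← add_assoc, ← two_mul] at hpar0
    exact (Nat.not_even_iff_odd.2 (odd_two_mul_add_one k)) hpar0
  have hA : TypeA s := by
    by_contra hA
    exact hξs (h61 r k ξ han s hs1 hA (mon s hs) rfl)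
  have hparA := typeA_parity hA
  have hpar2 : Even ((k + 1) + (r + 1)) := by
    rw [Nat.even_add] at hpar0 hparA ⊢
    tauto
  -- Step 2: normal form
  have hcT : ConcT r (k + 1) (2 * m + 2 - (k + 1)) φ := by
    intro a ha g i hg hi
    exact hcp a ha g i hg (by omega)
  have hparT : Even (2 * m + 2 - (k + 1) + (k + 1)) := by
    rw [Nat.sub_add_cancel (by omega)]
    exact ⟨m + 1, by ring⟩
  obtain ⟨l, hBM', hcT', hmil⟩ := normalForm F φ hBM hcT hparT hpar2
  set φ' := phiN S r (k + 1) φ l with hφ'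
  have hc' : ∀ g : M r (k + 1), φ' (m + 1) g = ξ (inc r k g) := by
    intro g
    rw [← hc g]
    have key : (l ∘ₗ S.SqM r (k + 1) (m + 1)) = 0 := by
      refine mon_ext _ fun u hu => ?_
      by_cases hd : wd r u + (m + 1) = 2 * m + 2 - (k + 1)
      · have : S.SqM r (k + 1) (m + 1) (mon u hu) = 0 := by
          apply Subtype.ext
          exact hI r (m + 1) (wd r u) _ (mon_hom u hu) (by omega)
        rw [LinearMap.comp_apply, this, map_zero]
      · have h1 := hcT' (m + 1) (by omega) (mon u hu) _ (mon_hom u hu) hd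
        have h2 := hcT (m + 1) (by omega) (mon u hu) _ (mon_hom u hu) hd
        rw [hφ'] at h1
        have h3 : phiN S r (k + 1) φ l (m + 1) (mon u hu) =
          φ (m + 1) (mon u hu) + (l ∘ₗ S.SqM r (k + 1) (m + 1)) (mon u hu) := rfl
        rw [h3, h2, zero_add] at h1
        exact h1
    have h3 : φ' (m + 1) g = φ (m + 1) g + (l ∘ₗ S.SqM r (k + 1) (m + 1)) g := rfl
    rw [h3, key, LinearMap.zero_apply, add_zero]
  have hφ1 : ∀ g : M r (k + 1), φ' 1 g = 0 := by
    intro g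
    have := hmil 1 le_rfl (by omega) g
    rwa [mil_one, ext_apply le_rfl] at this
  -- Step 3: halving
  obtain ⟨k', hk'⟩ : ∃ k', (k + 1) + (r + 1) = 2 * (k' + 1) := by
    obtain ⟨q, hq⟩ := hpar2
    exact ⟨q - 1, by omega⟩
  obtain ⟨n', hn'⟩ : ∃ n', m + 1 = 2 * n' := by
    obtain ⟨q, hq⟩ := hm
    exact ⟨q + 1, by omega⟩
  have hBMh := hH r (k + 1) (k' + 1) φ' (by omega) hk' hBM' hmil
  set φh := half φ' (k' + 1) with hφh
  set ξh : M r k' →ₗ[F2] F2 := extD ξ ∘ₗ kap r ∘ₗ (M r k').subtype with hξh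
  have hanh : ∀ a, 1 ≤ a → ξh ∘ₗ S.SqM r k' a = 0 := hX r k (k' + 1) ξ hk' han
  have hξh_apply : ∀ (J : Fin (r + 1) →₀ ℕ) (hJ : k' ≤ J 0), ξh (mon J hJ) =
      extD ξ (monomial (kapE r J) 1) := by
    intro J hJ
    rw [hξh]
    show extD ξ (kap r (monomial J 1)) = _
    rw [kap_monomial]
  have hφh_apply : ∀ (a : ℕ) (f : M r (k' + 1)), φh a f =
      φ' (2 * a) ⟨kap r f, kap_mem' r (k' + 1) (k + 1) (by omega) _ f.2⟩ := by
    intro a f
    rw [hφh]
    show extD (φ' (2 * a)) (kap r f) = _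
    rw [extD_apply]
  -- (c) for the halved data
  have hch : ∀ f : M r (k' + 1), φh n' f = ξh (inc r k' f) := by
    intro f
    rw [hφh_apply, ← hn', hc']
    rw [hξh]
    show _ = extD ξ (kap r f)
    rw [extD_apply ξ (kap r f) (kap_mem' r (k' + 1) k (by omega) _ f.2)]
    rfl
  have hcxh : Conc ξh (n' - (k' + 1)) := by
    intro g i hg hi
    rw [hξh]
    show extD ξ (kap r g) = 0
    have hgM : kap r g ∈ M r k := kap_mem' r k' k (by omega) _ g.2
    rw [extD_apply ξ _ hgM]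
    refine hcx _ (2 * i + (r + 1)) ?_ ?_
    · exact kap_hom r k' (by omega) _ g.2 i hg
    · omega
  have hcph : ∀ a, 1 ≤ a → ∀ (g : M r (k' + 1)) (i : ℕ),
      IsWeightedHomogeneous (wt r) (g : D (r + 1)) i → i + a + (k' + 1) ≠ 2 * n' → φh a g = 0 := by
    intro a ha g i hg hi
    rw [hφh_apply]
    refine hcT' (2 * a) (by omega) _ (2 * i + (r + 1)) ?_ ?_
    · exact kap_hom r (k' + 1) (by omega) _ g.2 i hg
    · omega
  -- the exponent `J` of `s`
  obtain ⟨J, hJs, hJ0, hJ1⟩ := exists_kapE (c := k') s hA (by omega)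
  have hξs' : extD ξ (monomial s 1) ≠ 0 := by
    rw [extD_apply ξ _ (monomial_mem_M hs 1)]
    exact hξs
  have hξhJ : ξh (mon J hJ0) ≠ 0 := by
    rw [hξh_apply, hJs]; exact hξs'
  have hξh0 : ξh ≠ 0 := by
    intro h0; rw [h0] at hξhJ; exact hξhJ rfl
  have hwdJ : wd r s = 2 * wd r J + (r + 1) := by rw [← hJs, wd_kapE r J hJ1]
  -- Step 4
  rcases Nat.even_or_odd n' with hne | hno
  · -- `n'` even
    obtain ⟨m', rfl⟩ : ∃ m', n' = m' + 1 := ⟨n' - 1, by omega⟩
    have hm'odd : Odd m' := by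
      rw [Nat.even_add_one, Nat.not_even_iff_odd] at hne; exact hne
    obtain ⟨h1, h2, l', h3⟩ := IH m' (by omega) k' hm'odd ξh φh hξh0 (by omega)
      (by
        have : m' - k' = m' + 1 - (k' + 1) := by omega
        rw [this]; exact hcxh) hanh
      (fun a ha g i hg hi => hcph a ha g i hg (by omega)) hBMh hch
    refine ⟨h1, by omega, l' + 1, ?_⟩
    rw [hn', h3, pow_succ]; ring
  · -- `n'` odd
    rcases Nat.lt_or_ge n' 3 with hn3 | hn3
    · -- `n' = 1`, `m = 1`
      have hn1 : n' = 1 := by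
        obtain ⟨q, hq⟩ := hno; omega
      have hwle := le_weight r s
      have hwe : wd r s = Finsupp.weight (wt r) s := rfl
      have hk0 : k = 0 := by omega
      have hw1 : wd r s = 1 := by omega
      refine ⟨by omega, hk0, 1, by omega⟩
    · exfalso
      -- `φh n' = 0` on `M_{k'+1}`
      have hle : k' + 1 ≤ n' := by omega
      have hφhn : φh n' = 0 := by
        refine hE r (k' + 1) n' (by omega) hle hno hn3 (φh n') (φh 1) ?_ ?_ ?_
        · intro g i hg hi
          exact hcph n' (by omega) g i hg (by omega)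
        · refine LinearMap.ext fun g => ?_
          have h1 := sq_one_sq ext_zero hBMh 1 (g, (0 : F2))
          rw [show ((1 + 1 : ℕ) : F2) = 0 from rfl, zero_smul] at h1
          have h2 := congrArg Prod.snd h1
          rw [ext_apply_zero_snd le_rfl, ext_fst] at h2
          exact h2
        · refine LinearMap.ext fun g => ?_
          have h0 : Even (n' - 1) := by
            obtain ⟨q, hq⟩ := hno; exact ⟨q, by omega⟩
          have h1 := sq_odd ext_zero hBMh (n' - 1) h0 (g, (0 : F2))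
          rw [Nat.sub_add_cancel (by omega)] at h1
          have h2 := congrArg Prod.snd h1
          rw [ext_apply_zero_snd (by omega), ext_apply_zero_snd le_rfl, ext_fst] at h2
          exact h2
      -- `a_0 = e`
      have hJk : J 0 = k' := by
        by_contra hne
        have hJ' : k' + 1 ≤ J 0 := by omega
        have h1 := hch (mon J hJ')
        rw [hφhn, LinearMap.zero_apply] at h1
        have h2 : inc r k' (mon J hJ') = mon J hJ0 := rfl
        rw [h2] at h1
        exact hξhJ h1.symm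
      have hs0 : s 0 = k + 1 := by
        rw [← hJs, kapE_zero, hJk]; omega
      -- `ξ(g) = φ'_2(Sq^{n-2} g)`
      have hg1 : φ' (m + 1) (mon s hs1) = ξ (mon s hs) := by
        rw [hc']; rfl
      have hg2 : φ' (m + 1) (mon s hs1) = φ' 2 (S.SqM r (k + 1) (2 * n' - 2) (mon s hs1)) := by
        have h1 := sq_two_mod_four ext_zero hBM' hno hn3 (mon s hs1, (0 : F2))
        have h2 := congrArg Prod.snd h1
        rw [Prod.snd_add, ext_apply_zero_snd (by omega), ext_apply_zero_snd (by omega),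
          ext_apply_zero_snd le_rfl, ext_fst, hφ1, add_zero, ← hn'] at h2
        rw [h2, hn']
      rw [← hg1, hg2] at hξs
      apply hξs
      rcases Nat.lt_or_ge 2 (k + 1) with he3 | he2
      · have : S.SqM r (k + 1) (2 * n' - 2) (mon s hs1) = 0 := by
          apply Subtype.ext
          exact hI r (2 * n' - 2) (wd r s) _ (mon_hom s hs1) (by omega)
        rw [this, map_zero]
      · rcases Nat.eq_zero_or_pos r with hr | hr
        · -- rank one, `e = 1`
          exfalso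
          subst hr
          have hk0 : k = 0 := by omega
          subst hk0
          have : wd 0 s = 1 := by
            rw [wd_eq]
            simp [hs0, wt]
          omega
        · obtain ⟨x, hx, hx2⟩ := hSF r (k + 1) s hr (by omega) he2 hpar2 hA hs0
          have h1 : S.SqM r (k + 1) (2 * n' - 2) (mon s hs1) = S.SqM r (k + 1) 2 ⟨x, hx⟩ := by
            apply Subtype.ext
            have : wd r s + (k + 1) - 2 = 2 * n' - 2 := by omega
            rw [this] at hx2
            exact hx2.symm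
          rw [h1]
          have h2 := sq22 ext_zero hBM' ((⟨x, hx⟩ : M r (k + 1)), (0 : F2))
          have h3 := congrArg Prod.snd h2
          rw [ext_apply_zero_snd (by omega), ext_apply_zero_snd le_rfl, ext_fst, hφ1] at h3
          exact h3

end Crest.Agent.R204.F166
end
end

-- ▼ part R204/FSq_787
section

/-!
# Row 204, block F (helper787): the formulas for `Sq^2` and `Sq_1` (6.4), `SqForm`
-/

set_option autoImplicit false

noncomputable section

namespace Crest.Agent.R204.FSq787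

open MvPolynomial
open Crest.Agent.R204.Spine693 (M TypeA)
open Crest.Agent.R204.FA550 (SQ Sq Q Top)

/-! ### `Sq^1`, `Sq^2` of products and squares -/

section basic

variable {R : ℕ}

lemma Sq_one_mul (x y : FA550.D R) : Sq R 1 (x * y) = x * Sq R 1 y + y * Sq R 1 x :=
  FA550.Sq_one_mul R x y

lemma coeff_two_mul (p q : Polynomial (FA550.D R)) :
    (p * q).coeff 2 = p.coeff 0 * q.coeff 2 + p.coeff 1 * q.coeff 1 + p.coeff 2 * q.coeff 0 := by
  rw [Polynomial.coeff_mul, Finset.Nat.sum_antidiagonal_eq_sum_range_succ_mk]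
  simp [Finset.sum_range_succ]

lemma SQ_coeff_zero (x : FA550.D R) : (SQ R x).coeff 0 = x := FA550.Sq_zero_apply R x

lemma Sq_two_mul (x y : FA550.D R) :
    Sq R 2 (x * y) = x * Sq R 2 y + Sq R 1 x * Sq R 1 y + Sq R 2 x * y := by
  rw [FA550.Sq_apply, map_mul, coeff_two_mul, SQ_coeff_zero, SQ_coeff_zero]
  rfl

lemma Sq_one_sq (z : FA550.D R) : Sq R 1 (z ^ 2) = 0 := by
  rw [sq, Sq_one_mul]; exact CharTwo.add_self_eq_zero _

lemma Sq_two_sq (z : FA550.D R) : Sq R 2 (z ^ 2) = (Sq R 1 z) ^ 2 := by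
  rw [sq, Sq_two_mul, sq]
  have := CharTwo.add_self_eq_zero (z * Sq R 2 z)
  linear_combination this

/-- killed by `Sq^1` and `Sq^2` -/
def Inert (y : FA550.D R) : Prop := Sq R 1 y = 0 ∧ Sq R 2 y = 0

lemma Inert.one_mul {y : FA550.D R} (h : Inert y) (x : FA550.D R) :
    Sq R 1 (y * x) = y * Sq R 1 x := by
  rw [Sq_one_mul, h.1, mul_zero, add_zero]

lemma Inert.two_mul {y : FA550.D R} (h : Inert y) (x : FA550.D R) :
    Sq R 2 (y * x) = y * Sq R 2 x := by
  rw [Sq_two_mul, h.1, h.2, zero_mul, zero_mul, add_zero, add_zero]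

lemma Inert.mul {y x : FA550.D R} (h : Inert y) (h' : Inert x) : Inert (y * x) :=
  ⟨by rw [h.one_mul, h'.1, mul_zero], by rw [h.two_mul, h'.2, mul_zero]⟩

lemma inert_one : Inert (1 : FA550.D R) := by
  constructor <;> rw [FA550.Sq_apply, map_one, Polynomial.coeff_one] <;> simp

lemma Inert.pow {y : FA550.D R} (h : Inert y) (n : ℕ) : Inert (y ^ n) := by
  induction n with
  | zero => rw [pow_zero]; exact inert_one
  | succ n ih => rw [pow_succ]; exact ih.mul h

lemma inert_sq {z : FA550.D R} (h : Sq R 1 z = 0) : Inert (z ^ 2) :=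
  ⟨Sq_one_sq z, by rw [Sq_two_sq, h]; simp⟩

lemma inert_four (k : FA550.D R) : Inert ((k ^ 2) ^ 2) := inert_sq (Sq_one_sq k)

lemma Sq_one_prod {ι : Type*} (s : Finset ι) (f : ι → FA550.D R) (h : ∀ i ∈ s, Sq R 1 (f i) = 0) :
    Sq R 1 (∏ i ∈ s, f i) = 0 := by
  classical
  induction s using Finset.induction_on with
  | empty => rw [Finset.prod_empty]; exact inert_one.1
  | insert a s ha ih =>
    rw [Finset.prod_insert ha, Sq_one_mul, h a (Finset.mem_insert_self _ _),
      ih fun i hi => h i (Finset.mem_insert_of_mem hi), mul_zero, mul_zero, add_zero]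

/-! ### generators -/

lemma Sq_one_Q {j : ℕ} (hR : 1 < R) (hj : j ≤ R) :
    Sq R 1 (Q R j) = if j = 1 then Q R 0 else 0 := by
  rw [FA550.Sq_one_eq, FA550.del0_Q hR hj]

lemma Sq_two_Q {j : ℕ} (hR : 2 < R) (hj : j ≤ R) :
    Sq R 2 (Q R j) = if j = 2 then Q R 1 else 0 := by
  rcases Nat.lt_or_ge j R with h | h
  swap
  · obtain rfl : j = R := le_antisymm hj h
    rw [FA550.Q_self, inert_one.2, if_neg (by omega)]
  have h8 : (2:ℕ) ^ R = 2 * 2 ^ (R - 1) := by rw [← pow_succ']; congr 1; omega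
  have h4 : (4:ℕ) ≤ 2 ^ (R - 1) := by
    have := FA550.two_pow_le (show 2 ≤ R - 1 by omega)
    simpa using this
  have hlt : ∀ a, a < R → (4:ℕ) ≤ 2 ^ R - 2 ^ a := by
    intro a ha
    have := FA550.two_pow_le (show a ≤ R - 1 by omega)
    omega
  rw [FA550.Sq_apply, FA550.SQ_Q h, FA550.SQgen_eq, Polynomial.coeff_add, Polynomial.coeff_mul_C,
    Polynomial.coeff_X_pow, if_neg (by have := hlt j h; omega), zero_mul, zero_add,
    FA550.fAB_coeff]
  by_cases hj2 : j = 2
  · subst hj2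
    rw [if_pos rfl, Finset.sum_eq_single 1, Finset.sum_eq_single R]
    · rw [if_pos (by simp), FA550.Q_self, mul_one]
    · intro a ha haR
      have ha0 := Finset.mem_Ioc.1 ha
      rw [if_neg]
      have := hlt a (by omega)
      simp; omega
    · intro h'; exact absurd (Finset.mem_Ioc.2 ⟨h, le_rfl⟩) h'
    · intro b hb hb1
      refine Finset.sum_eq_zero fun a ha => ?_
      have ha0 := Finset.mem_Ioc.1 ha
      have hb0 := Finset.mem_range.1 hb
      rw [if_neg]
      rcases Nat.lt_or_ge a R with haR | haR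
      · have := hlt a haR
        omega
      · obtain rfl : a = R := by omega
        have : b = 0 ∨ b = 2 := by omega
        rcases this with rfl | rfl <;> simp
    · intro h'; simp at h'
  · rw [if_neg hj2]
    refine Finset.sum_eq_zero fun b hb => Finset.sum_eq_zero fun a ha => ?_
    have ha0 := Finset.mem_Ioc.1 ha
    have hb0 := Finset.mem_range.1 hb
    rw [if_neg]
    rcases Nat.lt_or_ge a R with haR | haR
    · have := hlt a haR
      omega
    · obtain rfl : a = R := by omega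
      rw [Nat.sub_self, add_zero]
      intro h2
      have hbj := FA550.two_pow_le (show b ≤ j by omega)
      rcases Nat.lt_or_ge j 2 with hj' | hj'
      · have h5 : j = 0 ∨ j = 1 := by omega
        rcases h5 with rfl | rfl
        · have := Nat.one_le_two_pow (n := b)
          omega
        · have := Nat.one_le_two_pow (n := b)
          omega
      · have h6 : 8 ≤ 2 ^ j := by
          have := FA550.two_pow_le (show 3 ≤ j by omega)
          simpa using this
        have h7 : 8 ∣ 2 ^ j := by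
          have := pow_dvd_pow 2 (show 3 ≤ j by omega)
          simpa using this
        rcases Nat.lt_or_ge b 3 with hb3 | hb3
        · have h5 : b = 0 ∨ b = 1 ∨ b = 2 := by omega
          rcases h5 with rfl | rfl | rfl <;> omega
        · have h9 : 8 ∣ 2 ^ b := by
            have := pow_dvd_pow 2 hb3
            simpa using this
          omega

lemma Sq_two_Q_two : Sq 2 2 (Q 2 1) = Q 2 1 ^ 2 := by
  rw [FA550.Sq_apply, FA550.SQ_Q (by norm_num), FA550.SQgen_eq, Polynomial.coeff_add,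
    Polynomial.coeff_mul_C, Polynomial.coeff_X_pow, if_pos (by norm_num), one_mul, FA550.fAB_coeff]
  have : ∑ b ∈ Finset.range (1 + 1), ∑ a ∈ Finset.Ioc 1 2,
      (if 2 = (2 ^ 1 - 2 ^ b) + (2 ^ 2 - 2 ^ a) then Q 2 b * Q 2 a else 0) = 0 := by
    refine Finset.sum_eq_zero fun b hb => Finset.sum_eq_zero fun a ha => ?_
    have ha0 := Finset.mem_Ioc.1 ha
    have hb0 := Finset.mem_range.1 hb
    obtain rfl : a = 2 := by omega
    have : b = 0 ∨ b = 1 := by omega
    rw [if_neg]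
    rcases this with rfl | rfl <;> simp
  rw [this, add_zero]

lemma Sq_two_Q1Q2 (hR : 1 < R) : Sq R 2 (Q R 1 * Q R 2) = Q R 1 ^ 2 := by
  rcases Nat.lt_or_ge 2 R with h | h
  · rw [Sq_two_mul, Sq_two_Q h (by omega), Sq_two_Q h (by omega), if_pos rfl, if_neg (by norm_num),
      Sq_one_Q hR (by omega), Sq_one_Q hR (by omega), if_pos rfl, if_neg (by norm_num)]
    ring
  · obtain rfl : R = 2 := by omega
    rw [FA550.Q_self, mul_one, Sq_two_Q_two]

lemma Sq_two_Q1sqQ2 (hR : 2 < R) :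
    Sq R 2 (Q R 1 ^ 2 * Q R 2) = Q R 1 ^ 3 + Q R 0 ^ 2 * Q R 2 := by
  rw [Sq_two_mul, Sq_two_Q hR (by omega), if_pos rfl, Sq_one_sq, Sq_two_sq,
    Sq_one_Q (j := 1) (by omega) (by omega), if_pos rfl]
  ring

lemma inert_Q {j : ℕ} (hR : 2 < R) (hj : j ≤ R) (h1 : j ≠ 1) (h2 : j ≠ 2) : Inert (Q R j) :=
  ⟨by rw [Sq_one_Q (by omega) hj, if_neg h1], by rw [Sq_two_Q hR hj, if_neg h2]⟩

end basic

/-! ### the second leading coefficient of a squarefree product -/

open Classical in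
lemma Top_prod (r : ℕ) (s : Finset (Fin (r + 1))) :
    Top r (∑ i ∈ s, Spine693.wt r i) ((∏ i ∈ s, (X i : FA550.D (r + 1))) ^ 2)
      (∑ j ∈ s, (∏ i ∈ s.erase j, (X i : FA550.D (r + 1))) ^ 2 * (Q (r + 1) 0 * Q (r + 1) ((j : ℕ) + 1)))
      (SQ (r + 1) (∏ i ∈ s, X i)) := by
  induction s using Finset.induction_on with
  | empty => simpa using Top.one r
  | insert a s ha ih =>
    have h1 : Top r (Spine693.wt r a) ((X a : FA550.D (r + 1)) ^ 2)
        (Q (r + 1) 0 * Q (r + 1) ((a : ℕ) + 1)) (SQ (r + 1) (X a)) := by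
      have := FA550.SQgen_Top a.2
      rw [← FA550.SQ_Q a.2, FA550.Q_coe] at this
      exact this
    have h2 := h1.mul ih
    rw [Finset.sum_insert ha, Finset.prod_insert ha, map_mul, mul_pow, Finset.sum_insert ha,
      Finset.erase_insert ha]
    have h3 : ∑ j ∈ s, (∏ i ∈ (insert a s).erase j, (X i : FA550.D (r + 1))) ^ 2 *
        (Q (r + 1) 0 * Q (r + 1) ((j : ℕ) + 1)) = (X a) ^ 2 *
        ∑ j ∈ s, (∏ i ∈ s.erase j, (X i : FA550.D (r + 1))) ^ 2 *
          (Q (r + 1) 0 * Q (r + 1) ((j : ℕ) + 1)) := by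
      rw [Finset.mul_sum]
      refine Finset.sum_congr rfl fun j hj => ?_
      have hja : j ≠ a := fun h => ha (h ▸ hj)
      rw [Finset.erase_insert_of_ne hja.symm, Finset.prod_insert (fun h => ha (Finset.mem_of_mem_erase h)),
        mul_pow, mul_assoc]
    rw [h3]
    have h4 : (∏ i ∈ s, (X i : FA550.D (r + 1))) ^ 2 * (Q (r + 1) 0 * Q (r + 1) ((a : ℕ) + 1)) +
        X a ^ 2 * ∑ j ∈ s, (∏ i ∈ s.erase j, (X i : FA550.D (r + 1))) ^ 2 *
          (Q (r + 1) 0 * Q (r + 1) ((j : ℕ) + 1)) =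
        X a ^ 2 * ∑ j ∈ s, (∏ i ∈ s.erase j, (X i : FA550.D (r + 1))) ^ 2 *
          (Q (r + 1) 0 * Q (r + 1) ((j : ℕ) + 1)) +
        (Q (r + 1) 0 * Q (r + 1) ((a : ℕ) + 1)) * (∏ i ∈ s, (X i : FA550.D (r + 1))) ^ 2 := by ring
    rw [h4]
    exact h2

lemma Top_four {r n : ℕ} {g g' : FA550.D (r + 1)} {p : Polynomial (FA550.D (r + 1))}
    (h : Top r n g g' p) : Top r (n + n) (g ^ 2) 0 (p ^ 2) := by
  have h1 := h.mul h
  have h2 : g * g' + g' * g = 0 := by
    rw [mul_comm g g']; exact CharTwo.add_self_eq_zero (g' * g)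
  rw [h2, ← sq, ← sq] at h1
  exact h1

/-- `Sq_1` of `k² · ∏_{i ∈ s} Q_i` -/
lemma Sq_sub_one (r : ℕ) (s : Finset (Fin (r + 1))) (t : Fin (r + 1) →₀ ℕ)
    (h1 : 1 ≤ 2 * Finsupp.weight (Spine693.wt r) t + ∑ i ∈ s, Spine693.wt r i) :
    Sq (r + 1) (2 * Finsupp.weight (Spine693.wt r) t + ∑ i ∈ s, Spine693.wt r i - 1)
      ((monomial t 1) ^ 2 * ∏ i ∈ s, X i) =
    ((monomial t 1 : FA550.D (r + 1)) ^ 2) ^ 2 *
      ∑ j ∈ s, (∏ i ∈ s.erase j, (X i : FA550.D (r + 1))) ^ 2 *
        (Q (r + 1) 0 * Q (r + 1) ((j : ℕ) + 1)) := by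
  obtain ⟨g', hg⟩ := FA550.SQ_monomial_Top r t
  have h2 := (Top_four hg).mul (Top_prod r s)
  have h3 : SQ (r + 1) ((monomial t 1) ^ 2 * ∏ i ∈ s, X i) =
      SQ (r + 1) (monomial t 1) ^ 2 * SQ (r + 1) (∏ i ∈ s, X i) := by rw [map_mul, map_pow]
  rw [← h3, zero_mul, add_zero, ← two_mul] at h2
  exact h2.2.2.1 h1

/-! ### type A monomials -/

/-- half of an exponent -/
def hf {r : ℕ} (s : Fin (r + 1) →₀ ℕ) : Fin (r + 1) →₀ ℕ := s.mapRange (fun n => n / 2) rfl

lemma hf_apply {r : ℕ} (s : Fin (r + 1) →₀ ℕ) (i : Fin (r + 1)) : hf s i = s i / 2 :=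
  Finsupp.mapRange_apply (hf := rfl)

lemma mon_eq {r : ℕ} (s : Fin (r + 1) →₀ ℕ) (S : Finset (Fin (r + 1)))
    (hS : ∀ i, i ∈ S ↔ Odd (s i)) :
    (monomial s 1 : FA550.D (r + 1)) = (monomial (hf s) 1) ^ 2 * ∏ i ∈ S, X i := by
  rw [monomial_eq, monomial_eq, map_one, one_mul, one_mul, Finsupp.prod_fintype _ _ (by simp),
    Finsupp.prod_fintype _ _ (by simp), ← Finset.prod_pow]
  have h1 : ∏ i ∈ S, (X i : FA550.D (r + 1)) = ∏ i, (X i) ^ (s i % 2) := by
    rw [← Finset.prod_subset (Finset.subset_univ S)]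
    · refine Finset.prod_congr rfl fun i hi => ?_
      rw [Nat.odd_iff.1 ((hS i).1 hi), pow_one]
    · intro i _ hi
      have : s i % 2 = 0 := by
        have := mt (hS i).2 hi
        rw [Nat.not_odd_iff_even, Nat.even_iff] at this
        exact this
      rw [this, pow_zero]
  rw [h1, ← Finset.prod_mul_distrib]
  refine Finset.prod_congr rfl fun i _ => ?_
  rw [hf_apply, ← pow_mul, ← pow_add]
  congr 1
  omega

lemma wd_hf {r : ℕ} (s : Fin (r + 1) →₀ ℕ) (S : Finset (Fin (r + 1)))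
    (hS : ∀ i, i ∈ S ↔ Odd (s i)) :
    F166.wd r s = 2 * Finsupp.weight (Spine693.wt r) (hf s) + ∑ i ∈ S, Spine693.wt r i := by
  have h1 : ∑ i ∈ S, Spine693.wt r i = ∑ i, (s i % 2) * Spine693.wt r i := by
    rw [← Finset.sum_subset (Finset.subset_univ S)]
    · refine Finset.sum_congr rfl fun i hi => ?_
      rw [Nat.odd_iff.1 ((hS i).1 hi), one_mul]
    · intro i _ hi
      have : s i % 2 = 0 := by
        have := mt (hS i).2 hi
        rw [Nat.not_odd_iff_even, Nat.even_iff] at this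
        exact this
      rw [this, zero_mul]
  have h2 : Finsupp.weight (Spine693.wt r) (hf s) = ∑ i, hf s i * Spine693.wt r i := F166.wd_eq r (hf s)
  rw [F166.wd_eq, h1, h2, Finset.mul_sum, ← Finset.sum_add_distrib]
  refine Finset.sum_congr rfl fun i _ => ?_
  rw [hf_apply, ← mul_assoc, ← add_mul]
  congr 1
  omega

section main

variable {r : ℕ} (hr : 1 ≤ r)

/-- the index `1` -/
def i1 : Fin (r + 1) := ⟨1, by omega⟩

lemma Q_one : Q (r + 1) 1 = X (i1 hr) := FA550.Q_lt (by omega)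

lemma i1_ne : i1 hr ≠ 0 := by
  intro h
  have := congrArg Fin.val h
  simp [i1] at this

/-- the indices `≥ 2` -/
def E2 : Finset (Fin (r + 1)) := (Finset.univ.erase 0).erase (i1 hr)

lemma mem_E2 {i : Fin (r + 1)} (hi : i ∈ E2 hr) : (i : ℕ) ≠ 0 ∧ (i : ℕ) ≠ 1 := by
  unfold E2 at hi
  have h1 := Finset.ne_of_mem_erase hi
  have h2 := Finset.ne_of_mem_erase (Finset.mem_of_mem_erase hi)
  refine ⟨fun h => h2 (Fin.ext h), fun h => h1 (Fin.ext h)⟩

lemma Sq_one_X {i : Fin (r + 1)} (hi : (i : ℕ) ≠ 1) (hr : 1 ≤ r) :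
    Sq (r + 1) 1 (X i : FA550.D (r + 1)) = 0 := by
  rw [← FA550.Q_coe i, Sq_one_Q (by omega) i.2.le, if_neg hi]

include hr in
lemma case_two (s : Fin (r + 1) →₀ ℕ) (hA : ∀ j : Fin (r + 1), j ≠ 0 → Odd (s j)) (h0 : s 0 = 2) :
    ∃ x ∈ M r 2, Sq (r + 1) 2 x = Sq (r + 1) (F166.wd r s + 2 - 2) (monomial s 1) := by
  have hS : ∀ i, i ∈ Finset.univ.erase (0 : Fin (r + 1)) ↔ Odd (s i) := by
    intro i
    by_cases hi : i = 0
    · subst hi
      rw [h0]
      simp
    · exact ⟨fun _ => hA i hi, fun _ => Finset.mem_erase.2 ⟨hi, Finset.mem_univ _⟩⟩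
  set k : FA550.D (r + 1) := monomial (hf s) 1 with hk
  set B : FA550.D (r + 1) := ∏ i ∈ E2 hr, X i with hB
  have h1 : Sq (r + 1) 1 (B * k ^ 2) = 0 := by
    rw [Sq_one_mul, Sq_one_sq, hB, Sq_one_prod _ _ fun i hi => Sq_one_X (mem_E2 hr hi).2 hr,
      mul_zero, mul_zero, add_zero]
  have h2 : (∏ i ∈ Finset.univ.erase (0 : Fin (r + 1)), (X i : FA550.D (r + 1))) =
      Q (r + 1) 1 * B := by
    rw [Q_one hr, hB]
    exact (Finset.mul_prod_erase _ _ (Finset.mem_erase.2 ⟨i1_ne hr, Finset.mem_univ _⟩)).symm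
  refine ⟨(B * k ^ 2) ^ 2 * (Q (r + 1) 1 * Q (r + 1) 2), ?_, ?_⟩
  · rw [FA550.mem_M_iff]
    have h3 : (X 0 : FA550.D (r + 1)) ∣ k := by
      rw [hk, X_dvd_monomial]
      right
      rw [hf_apply, h0]; norm_num
    refine Dvd.dvd.mul_right ?_ _
    refine pow_dvd_pow_of_dvd ?_ 2
    exact Dvd.dvd.mul_left (h3.trans (dvd_pow_self _ two_ne_zero)) _
  · rw [(inert_sq h1).two_mul, Sq_two_Q1Q2 (by omega), Nat.add_sub_cancel,
      FA550.Sq_top (isWeightedHomogeneous_monomial _ _ _ rfl), mon_eq s _ hS, h2]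
    ring

include hr in
lemma case_one (s : Fin (r + 1) →₀ ℕ) (hr2 : 2 ≤ r) (hA : ∀ j : Fin (r + 1), j ≠ 0 → Odd (s j))
    (h0 : s 0 = 1) :
    ∃ x ∈ M r 1, Sq (r + 1) 2 x = Sq (r + 1) (F166.wd r s + 1 - 2) (monomial s 1) := by
  have hS : ∀ i, i ∈ (Finset.univ : Finset (Fin (r + 1))) ↔ Odd (s i) := by
    intro i
    by_cases hi : i = 0
    · subst hi
      rw [h0]
      simp
    · exact ⟨fun _ => hA i hi, fun _ => Finset.mem_univ _⟩
  set k : FA550.D (r + 1) := monomial (hf s) 1 with hk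
  set B : FA550.D (r + 1) := ∏ i ∈ E2 hr, X i with hB
  set Bj : Fin (r + 1) → FA550.D (r + 1) := fun j => ∏ i ∈ (E2 hr).erase j, X i with hBj
  have hBin : Inert (B ^ 2) :=
    inert_sq (Sq_one_prod _ _ fun i hi => Sq_one_X (mem_E2 hr hi).2 hr)
  have hBjin : ∀ j, Inert ((Bj j) ^ 2) := fun j =>
    inert_sq (Sq_one_prod _ _ fun i hi => Sq_one_X (mem_E2 hr (Finset.mem_of_mem_erase hi)).2 hr)
  have hQ0 : Inert (Q (r + 1) 0) := inert_Q (by omega) (by omega) (by norm_num) (by norm_num)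
  have hk4 : Inert ((k ^ 2) ^ 2) := inert_four k
  refine ⟨(k ^ 2) ^ 2 * (Q (r + 1) 0 * (B ^ 2 * (Q (r + 1) 1 ^ 2 * Q (r + 1) 2)) +
    ∑ j ∈ E2 hr, Q (r + 1) 0 ^ 3 * (Q (r + 1) ((j : ℕ) + 1) * ((Bj j) ^ 2 *
      (Q (r + 1) 1 * Q (r + 1) 2)))), ?_, ?_⟩
  · rw [FA550.mem_M_iff, pow_one, ← FA550.Q_zero_eq]
    refine Dvd.dvd.mul_left (dvd_add (dvd_mul_right _ _) (Finset.dvd_sum fun j _ => ?_)) _
    exact Dvd.dvd.mul_right (dvd_pow_self _ three_ne_zero) _
  · rw [hk4.two_mul, map_add, map_sum, hQ0.two_mul, hBin.two_mul, Sq_two_Q1sqQ2 (by omega)]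
    have h3 : ∀ j ∈ E2 hr, Sq (r + 1) 2 (Q (r + 1) 0 ^ 3 * (Q (r + 1) ((j : ℕ) + 1) * ((Bj j) ^ 2 *
        (Q (r + 1) 1 * Q (r + 1) 2)))) = Q (r + 1) 0 ^ 3 * (Q (r + 1) ((j : ℕ) + 1) * ((Bj j) ^ 2 *
        Q (r + 1) 1 ^ 2)) := by
      intro j hj
      have hj' := mem_E2 hr hj
      have hjin : Inert (Q (r + 1) ((j : ℕ) + 1)) :=
        inert_Q (by omega) (by omega) (by omega) (by omega)
      rw [(hQ0.pow 3).two_mul, hjin.two_mul, (hBjin j).two_mul, Sq_two_Q1Q2 (by omega)]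
    rw [Finset.sum_congr rfl h3]
    have hwd := wd_hf s _ hS
    have hpos : 1 ≤ ∑ i, Spine693.wt r i := by
      refine le_trans ?_ (Finset.single_le_sum (fun i _ => Nat.zero_le _) (Finset.mem_univ 0))
      have := FA550.two_pow_lt (show 0 < r + 1 by omega)
      unfold Spine693.wt
      simp only [Fin.val_zero]
      omega
    have h4 := Sq_sub_one r Finset.univ (hf s) (by omega)
    rw [show F166.wd r s + 1 - 2 = F166.wd r s - 1 by omega, hwd, mon_eq s _ hS, h4]
    congr 1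
    rw [← Finset.add_sum_erase _ _ (Finset.mem_univ (0 : Fin (r + 1))),
      ← Finset.add_sum_erase _ _ (Finset.mem_erase.2 ⟨i1_ne hr, Finset.mem_univ (i1 hr)⟩)]
    have h5 : (∏ i ∈ Finset.univ.erase (0 : Fin (r + 1)), (X i : FA550.D (r + 1))) =
        Q (r + 1) 1 * B := by
      rw [Q_one hr, hB]
      exact (Finset.mul_prod_erase _ _ (Finset.mem_erase.2 ⟨i1_ne hr, Finset.mem_univ _⟩)).symm
    have h6 : (∏ i ∈ Finset.univ.erase (i1 hr), (X i : FA550.D (r + 1))) =
        Q (r + 1) 0 * B := by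
      rw [FA550.Q_zero_eq, hB, E2, Finset.erase_right_comm]
      exact (Finset.mul_prod_erase _ _ (Finset.mem_erase.2 ⟨(i1_ne hr).symm, Finset.mem_univ _⟩)).symm
    have h7 : ∀ j ∈ E2 hr, (∏ i ∈ Finset.univ.erase j, (X i : FA550.D (r + 1))) =
        Q (r + 1) 0 * (Q (r + 1) 1 * Bj j) := by
      intro j hj
      have hj' := mem_E2 hr hj
      have hj0 : j ≠ 0 := fun h => hj'.1 (by rw [h]; rfl)
      have hj1 : j ≠ i1 hr := fun h => hj'.2 (by rw [h]; rfl)
      rw [FA550.Q_zero_eq, Q_one hr, hBj, E2]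
      have e1 : (((Finset.univ.erase (0 : Fin (r + 1))).erase (i1 hr)).erase j) =
          ((Finset.univ.erase j).erase 0).erase (i1 hr) := by
        rw [Finset.erase_right_comm (s := Finset.univ.erase 0), Finset.erase_right_comm (s := Finset.univ)]
      simp only []
      rw [e1, Finset.mul_prod_erase _ _ (Finset.mem_erase.2 ⟨i1_ne hr, Finset.mem_erase.2
        ⟨hj1.symm, Finset.mem_univ _⟩⟩), Finset.mul_prod_erase _ _ (Finset.mem_erase.2
        ⟨hj0.symm, Finset.mem_univ _⟩)]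
    have h8 : ∑ j ∈ (Finset.univ.erase (0 : Fin (r + 1))).erase (i1 hr),
        (∏ i ∈ Finset.univ.erase j, (X i : FA550.D (r + 1))) ^ 2 *
        (Q (r + 1) 0 * Q (r + 1) ((j : ℕ) + 1)) = ∑ j ∈ E2 hr, Q (r + 1) 0 ^ 3 *
        (Q (r + 1) ((j : ℕ) + 1) * ((Bj j) ^ 2 * Q (r + 1) 1 ^ 2)) := by
      refine Finset.sum_congr rfl fun j hj => ?_
      rw [h7 j hj]; ring
    rw [h8, h5, h6]
    have e2 : ((i1 hr : Fin (r + 1)) : ℕ) + 1 = 2 := rfl
    have e3 : ((0 : Fin (r + 1)) : ℕ) + 1 = 1 := rfl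
    rw [e2, e3]
    ring

end main

/-- the formulas of 6.4 (ii) at the level of `Sq (r+1)` -/
theorem sqForm {r e : ℕ} (s : Fin (r + 1) →₀ ℕ) (hr : 1 ≤ r) (he : 1 ≤ e) (he2 : e ≤ 2)
    (hev : Even (e + (r + 1))) (hA : TypeA s) (h0 : s 0 = e) :
    ∃ x ∈ M r e, Sq (r + 1) 2 x = Sq (r + 1) (F166.wd r s + e - 2) (monomial s 1) := by
  have h1 : e = 1 ∨ e = 2 := by omega
  rcases h1 with rfl | rfl
  · refine case_one hr s ?_ hA.1 h0
    rcases hev with ⟨m, hm⟩
    omega
  · exact case_two hr s hA.1 h0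

theorem sqForm_of {S : Spine693.Dick} (h : ∀ r a, S.Sq r a = FA550.Sq (r + 1) a) :
    F166.SqForm S := by
  intro r e s hr he he2 hev hA h0
  rw [h, h]
  exact sqForm s hr he he2 hev hA h0

end Crest.Agent.R204.FSq787
end
end

-- ▼ part R204/F_550
section

/-!
# Row 204, block F: assembly (helper550)

`Dick91.dick : Spine693.Dick` (the Dickson algebras with their Steenrod operations) satisfies
Lemma 6.1, the even case `LemEven` and Theorem 06.
-/

set_option autoImplicit false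

noncomputable section

namespace Crest.Agent.R204.F550

open MvPolynomial Crest.Agent.R204 Crest.Agent.R204.Spine693 Crest.Agent.R204.F166

theorem instab_of {S : Dick} (h : ∀ r a, S.Sq r a = FA550.Sq (r + 1) a) : Instab S := by
  intro r a n g hg hn
  rw [h]
  exact FA550.Sq_gt hg hn

theorem thm06_of {S : Dick} (h : ∀ r a, S.Sq r a = FA550.Sq (r + 1) a) (hSF : SqForm S) :
    Thm06 S :=
  thm06 (facts_dick h) (FC787.halving S (FA550.halfInput h)) (FC787.halvingXi S (FA550.halfInput h))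
    (lemEven_dick h) (instab_of h) hSF

theorem lem61_of {S : Dick} (h : ∀ r a, S.Sq r a = FA550.Sq (r + 1) a) : Lem61 S :=
  lem61 (facts_dick h)

theorem lem61_dick : Lem61 DickInst91.dick := lem61_of fun _ _ => rfl

theorem lemEven_dick' : LemEven DickInst91.dick := lemEven_dick fun _ _ => rfl

/-- **Theorem 06** (section 06 of the paper proof) for the Dickson algebras -/
theorem thm06_dick : Thm06 DickInst91.dick :=
  thm06_of (fun _ _ => rfl) (FSq787.sqForm_of fun _ _ => rfl)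

end Crest.Agent.R204.F550
end
end

-- ▼ part R204/HopfZ2_407
section

/-!
Row 204: the `k = 0` side of section 04, part 2: weight components, Steenrod operations,
lowest weight component (helper407).
-/

set_option autoImplicit false

namespace Crest.Agent.R204.HopfZ407

open MvPolynomial TensorProduct
open scoped TensorProduct
open Crest.Agent.R204 Crest.Agent.R204.Spec114 Crest.Agent.R204.Spec114.Tower

section main

variable {X : Tower} {D : ℕ} (h : Hyp X D)

include h in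
theorem Hyp.inj_Sle {p : MvPolynomial Wd0 F2} (hp : p ∈ Rng114.Sle v0 D) (h0 : e0 X p = 0) :
    p = 0 :=
  Rng114.inj_Sle h.ind (h.gr 0 (by omega)).2.1 (h.gr 0 (by omega)).2.2
    (fun i hi => h.y0_mem_gr i hi) (fun _ ht _ hp h0 => h.inj ht hp h0) hp h0

include h in
theorem Hyp.ker_Sle : LinearMap.ker ((e0 X).toLinearMap ∘ₗ (Rng114.Sle v0 D).subtype) = ⊥ := by
  rw [LinearMap.ker_eq_bot']
  rintro ⟨p, hp⟩ h0
  exact Subtype.ext (h.inj_Sle hp h0)

/-- A linear left inverse of `e0` in the range. -/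
noncomputable def Hyp.linv : X.H 0 →ₗ[F2] Rng114.Sle v0 D :=
  Classical.choose (LinearMap.exists_leftInverse_of_injective
    ((e0 X).toLinearMap ∘ₗ (Rng114.Sle v0 D).subtype) h.ker_Sle)

include h in
theorem Hyp.linv_e0 {p : MvPolynomial Wd0 F2} (hp : p ∈ Rng114.Sle v0 D) :
    (h.linv (e0 X p) : MvPolynomial Wd0 F2) = p := by
  have h1 := Classical.choose_spec (LinearMap.exists_leftInverse_of_injective
    ((e0 X).toLinearMap ∘ₗ (Rng114.Sle v0 D).subtype) h.ker_Sle)
  exact congrArg Subtype.val (LinearMap.congr_fun h1 ⟨p, hp⟩)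

/-- The weight components on `H 0` (meaningful on the base component in degrees `≤ D`). -/
noncomputable def Hyp.wc (m : ℕ) : X.H 0 →ₗ[F2] X.H 0 :=
  (e0 X).toLinearMap ∘ₗ weightedHomogeneousComponent w0 m ∘ₗ (Rng114.Sle v0 D).subtype ∘ₗ h.linv

include h in
theorem Hyp.wc_e0' (m : ℕ) {p : MvPolynomial Wd0 F2} (hp : p ∈ Rng114.Sle v0 D) :
    h.wc m (e0 X p) = e0 X (weightedHomogeneousComponent w0 m p) := by
  rw [Hyp.wc, LinearMap.comp_apply, LinearMap.comp_apply, LinearMap.comp_apply,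
    Submodule.subtype_apply, h.linv_e0 hp, AlgHom.toLinearMap_apply]

include h in
theorem Hyp.wc_e0 (m : ℕ) {t : ℕ} (ht : t ≤ D) {p : MvPolynomial Wd0 F2} (hp : p ∈ VV t) :
    h.wc m (e0 X p) = e0 X (weightedHomogeneousComponent w0 m p) :=
  h.wc_e0' m (Rng114.V_le_Sle v0 ht hp)

/-- Image of the bihomogeneous polynomials. -/
noncomputable def BB (X : Tower) (m t : ℕ) : Submodule F2 (X.H 0) :=
  (PB m t).map (e0 X).toLinearMap

theorem mem_BB {m t : ℕ} {z : X.H 0} : z ∈ BB X m t ↔ ∃ f ∈ PB m t, e0 X f = z := Iff.rfl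

theorem BB_mul {m t m' t' : ℕ} {a b : X.H 0} (ha : a ∈ BB X m t) (hb : b ∈ BB X m' t') :
    a * b ∈ BB X (m + m') (t + t') := by
  obtain ⟨f, hf, rfl⟩ := mem_BB.1 ha
  obtain ⟨g, hg, rfl⟩ := mem_BB.1 hb
  exact mem_BB.2 ⟨f * g, PB_mul hf hg, map_mul _ _ _⟩

include h in
theorem Hyp.wc_BB {m t : ℕ} (ht : t ≤ D) {z : X.H 0} (hz : z ∈ BB X m t) (m' : ℕ) :
    h.wc m' z = if m' = m then z else 0 := by
  obtain ⟨f, hf, rfl⟩ := mem_BB.1 hz
  rw [h.wc_e0 m' ht hf.2, weightedHomogeneousComponent_of_mem (mem_PB.1 hf).1]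
  split_ifs <;> simp

/-! ### Steenrod operations preserve the weights -/

theorem Sq_tword (hS : X.FactSq D) (hT : X.FactT D) (hX : X.FactX D) :
    ∀ J : List ℕ, (∀ i ∈ J, i ≤ D + 1) → ∀ a : ℕ, X.Sq 0 a (X.tword 0 J) ∈
      Submodule.span F2 {z : X.H 0 | ∃ J' : List ℕ, J'.length = J.length ∧
        J'.sum + a = J.sum ∧ z = X.tword 0 J'} := by
  intro J
  induction J with
  | nil =>
    intro _ a
    rcases Nat.eq_zero_or_pos a with ha | ha
    · subst ha
      rw [(hS 0 (by omega)).1]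
      exact Submodule.subset_span ⟨[], rfl, rfl, rfl⟩
    · rw [tword_nil, (hX.1 0 (by omega)).2 a ha]
      exact Submodule.zero_mem _
  | cons i J ih =>
    intro hJ a
    rw [tword_cons, (hT 0 (by omega) i (hJ i (by simp))).2.2.2 a]
    refine Submodule.sum_mem _ fun b hb => ?_
    have hb' : b ≤ a := Nat.lt_succ_iff.1 (Finset.mem_range.1 hb)
    by_cases h2 : 2 * b ≤ i
    · rw [if_pos h2]
      refine Submodule.smul_mem _ _ ?_
      have h1 := Submodule.mem_map_of_mem (f := X.T 0 (i - b))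
        (ih (fun j hj => hJ j (by simp [hj])) (a - b))
      rw [Submodule.map_span] at h1
      refine Submodule.span_mono ?_ h1
      rintro _ ⟨_, ⟨J', h3, h4, rfl⟩, rfl⟩
      refine ⟨(i - b) :: J', by simp [h3], ?_, rfl⟩
      simp only [List.sum_cons]
      omega
    · rw [if_neg h2, zero_smul]
      exact Submodule.zero_mem _

theorem Sq_mul_deg_zero (hS : X.FactSq D) {u : X.H 0} (hu : u ∈ X.gr 0 0) (a : ℕ) (y : X.H 0) :
    X.Sq 0 a (y * u) = X.Sq 0 a y * u := by
  have h := hS 0 (by omega)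
  rw [h.2.2.2.1, Finset.sum_eq_single (a, 0)]
  · rw [h.1]
  · rintro ⟨p, q⟩ hp hne
    have hpq : p + q = a := Finset.HasAntidiagonal.mem_antidiagonal.1 hp
    have hq : 0 < q := by
      rcases Nat.eq_zero_or_pos q with hq | hq
      · exfalso
        apply hne
        rw [hq] at hpq ⊢
        rw [← hpq]
        rfl
      · exact hq
    rw [h.2.2.1 q 0 u hu (by omega), mul_zero]
  · intro hn
    exact absurd (Finset.HasAntidiagonal.mem_antidiagonal.2 (by simp)) hn

theorem Sq_St (hG : X.FactGr D) (hS : X.FactSq D) (hT : X.FactT D) (hX : X.FactX D)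
    {r t : ℕ} (ht : t ≤ D + 1) {z : X.H 0} (hz : z ∈ St X r t) {a t' : ℕ} (ha : t' + a = t) :
    X.Sq 0 a z ∈ St X r t' := by
  induction hz using Submodule.span_induction with
  | mem z hz =>
    obtain ⟨J, rfl, rfl, rfl⟩ := hz
    have h1 := Sq_tword hS hT hX J (fun i hi => (entries_le_sum hi).trans ht) a
    have h2 := Submodule.mem_map_of_mem (f := LinearMap.mulRight F2
      (X.xinv ^ (2 ^ J.length))) h1
    rw [Submodule.map_span] at h2
    rw [Tower.tword0, Sq_mul_deg_zero hS (pow_mem_gr_zero hG hX.2.2.2.1 _)]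
    refine Submodule.span_mono ?_ h2
    rintro _ ⟨_, ⟨J', h3, h4, rfl⟩, rfl⟩
    refine ⟨J', h3, by omega, ?_⟩
    rw [LinearMap.mulRight_apply, Tower.tword0, h3]
  | zero => rw [map_zero]; exact Submodule.zero_mem _
  | add a b _ _ ha hb => rw [map_add]; exact Submodule.add_mem _ ha hb
  | smul c a _ ha => rw [map_smul]; exact Submodule.smul_mem _ _ ha

/-- the property of an element: Steenrod operations keep the weight -/
def Keep (X : Tower) (m t : ℕ) (z : X.H 0) : Prop :=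
  ∀ a, X.Sq 0 a z ∈ (if a ≤ t then BB X m (t - a) else ⊥)

theorem Keep.mul (hS : X.FactSq D) {m t m' t' : ℕ} {y z : X.H 0} (hy : Keep X m t y)
    (hz : Keep X m' t' z) : Keep X (m + m') (t + t') (y * z) := by
  intro a
  rw [(hS 0 (by omega)).2.2.2.1]
  refine Submodule.sum_mem _ fun p hp => ?_
  have hp' : p.1 + p.2 = a := Finset.HasAntidiagonal.mem_antidiagonal.1 hp
  have h1 := hy p.1
  have h2 := hz p.2
  by_cases h3 : p.1 ≤ t
  · by_cases h4 : p.2 ≤ t'
    · rw [if_pos h3] at h1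
      rw [if_pos h4] at h2
      rw [if_pos (by omega)]
      have h5 := BB_mul h1 h2
      have h6 : t - p.1 + (t' - p.2) = t + t' - a := by omega
      rwa [h6] at h5
    · rw [if_neg h4, Submodule.mem_bot] at h2
      rw [h2, mul_zero]
      exact Submodule.zero_mem _
  · rw [if_neg h3, Submodule.mem_bot] at h1
    rw [h1, zero_mul]
    exact Submodule.zero_mem _

theorem Keep.one (hG : X.FactGr D) (hS : X.FactSq D) : Keep X 0 0 1 := by
  intro a
  rcases Nat.eq_zero_or_pos a with ha | ha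
  · subst ha
    rw [if_pos le_rfl, (hS 0 (by omega)).1]
    refine mem_BB.2 ⟨1, ?_, map_one _⟩
    rw [mem_PB]
    exact ⟨isWeightedHomogeneous_one F2 w0, isWeightedHomogeneous_one F2 v0⟩
  · rw [(hS 0 (by omega)).2.2.1 a 0 1 (hG 0 (by omega)).2.1 (by omega)]
    exact Submodule.zero_mem _

include h

theorem Hyp.keep_y0 (I : Wd0) (hI : v0 I ≤ D) : Keep X (w0 I) (v0 I) (y0 X I) := by
  intro a
  have hr : 1 ≤ I.1.1.length := by
    rcases h' : I.1.1 with _ | ⟨a, l⟩
    · exact absurd h' I.2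
    · simp
  have hpos := v0_pos I
  by_cases ha : a < v0 I
  · rw [if_pos ha.le]
    have h1 : y0 X I ∈ Wsp X I.1.1.length (v0 I) :=
      Submodule.subset_span ⟨I.1.1, I.1.2.1, rfl, rfl, rfl⟩
    rw [← h.w _ _ hr hpos hI] at h1
    have h2 := Sq_St h.gr h.sq h.t h.x (by omega) h1 (a := a) (t' := v0 I - a) (by omega)
    rw [h.w _ _ hr (by omega) (by omega)] at h2
    exact Wsp_le h.q (by omega) h2
  · rw [(h.sq 0 (by omega)).2.2.1 a _ _ (h.y0_mem_gr I hI) (by omega)]
    exact Submodule.zero_mem _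

theorem Hyp.keep_monomial (d : Wd0 →₀ ℕ) (hd : Finsupp.weight v0 d ≤ D) :
    Keep X (Finsupp.weight w0 d) (Finsupp.weight v0 d) (e0 X (monomial d 1)) := by
  have hone : Keep X (Finsupp.weight w0 (0 : Wd0 →₀ ℕ)) (Finsupp.weight v0 (0 : Wd0 →₀ ℕ))
      (e0 X (monomial 0 1)) := by
    have : (monomial (0 : Wd0 →₀ ℕ) (1 : F2)) = 1 := rfl
    rw [this, map_one, map_zero, map_zero]
    exact Keep.one h.gr h.sq
  have hadd : ∀ f g : Wd0 →₀ ℕ,
      Keep X (Finsupp.weight w0 f) (Finsupp.weight v0 f) (e0 X (monomial f 1)) →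
      Keep X (Finsupp.weight w0 g) (Finsupp.weight v0 g) (e0 X (monomial g 1)) →
      Keep X (Finsupp.weight w0 (f + g)) (Finsupp.weight v0 (f + g))
        (e0 X (monomial (f + g) 1)) := by
    intro f g hf hg
    have hm : (monomial (f + g) (1 : F2)) = monomial f 1 * monomial g 1 := by
      rw [monomial_mul, one_mul]
    rw [hm, map_mul, map_add, map_add]
    exact Keep.mul h.sq hf hg
  induction d using Finsupp.induction_linear with
  | zero => exact hone
  | add f g hf hg =>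
    rw [map_add] at hd
    exact hadd f g (hf (by omega)) (hg (by omega))
  | single I n =>
    induction n with
    | zero => rw [Finsupp.single_zero]; exact hone
    | succ n ih =>
      rw [Finsupp.single_add] at hd ⊢
      rw [map_add] at hd
      refine hadd _ _ (ih (by omega)) ?_
      have hs1 : Finsupp.weight v0 (Finsupp.single I 1) = v0 I := by
        rw [Finsupp.weight_single, one_smul]
      have hs2 : Finsupp.weight w0 (Finsupp.single I 1) = w0 I := by
        rw [Finsupp.weight_single, one_smul]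
      rw [hs1] at hd ⊢
      rw [hs2]
      have h1 : e0 X (monomial (Finsupp.single I 1) 1) = y0 X I := by
        rw [← MvPolynomial.X, aeval_X]
      rw [h1]
      exact h.keep_y0 I (by omega)

/-- Steenrod operations commute with the weight components. -/
theorem Hyp.Sq_wc {t : ℕ} (ht : t ≤ D) {p : MvPolynomial Wd0 F2} (hp : p ∈ VV t) (a m : ℕ) :
    X.Sq 0 a (h.wc m (e0 X p)) = h.wc m (X.Sq 0 a (e0 X p)) := by
  rw [mem_weightedHomogeneousSubmodule] at hp
  rw [p.as_sum, map_sum, map_sum, map_sum, map_sum, map_sum]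
  refine Finset.sum_congr rfl fun d hd => ?_
  have hdt := hp (mem_support_iff.1 hd)
  have h1 : monomial d (coeff d p) = (coeff d p) • monomial d (1 : F2) := by
    rw [smul_monomial, smul_eq_mul, mul_one]
  rw [h1, map_smul, map_smul, map_smul, map_smul, map_smul]
  congr 1
  have h2 : e0 X (monomial d (1 : F2)) ∈ BB X (Finsupp.weight w0 d) (Finsupp.weight v0 d) :=
    mem_BB.2 ⟨_, mem_PB.2 ⟨isWeightedHomogeneous_monomial w0 d 1 rfl,
      isWeightedHomogeneous_monomial v0 d 1 rfl⟩, rfl⟩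
  rw [h.wc_BB (by omega) h2]
  have h3 := h.keep_monomial d (by omega) a
  by_cases ha : a ≤ Finsupp.weight v0 d
  · rw [if_pos ha] at h3
    rw [h.wc_BB (by omega) h3]
    split_ifs <;> simp
  · rw [if_neg ha, Submodule.mem_bot] at h3
    rw [h3, map_zero]
    split_ifs
    · exact h3
    · exact map_zero _


/-- **(4.2), `k = 0`: the lowest weight component.** -/
theorem Hyp.lowest {i : ℕ} (hi1 : 1 ≤ i) (hi : i ≤ D) {x : X.H 0} (hx : x ∈ X.gr 0 i)
    (hb : x ∈ X.base) (hprim : X.IsPrim 0 x) (hne : x ≠ 0) :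
    ∃ r, 1 ≤ r ∧ (∀ m < 2 ^ r, h.wc m x = 0) ∧ h.wc (2 ^ r) x ≠ 0 ∧ h.wc (2 ^ r) x ∈ Wsp X r i ∧
      ((∀ a, 1 ≤ a → X.Sq 0 a x = 0) → ∀ a, 1 ≤ a → X.Sq 0 a (h.wc (2 ^ r) x) = 0) ∧
      X.σ 0 x - X.σ 0 (h.wc (2 ^ r) x) ∈ Submodule.span F2 {z : X.H 1 | ∃ J : List ℕ,
        J.Pairwise (· ≤ ·) ∧ r < J.length ∧ wdeg 1 J = i + 1 ∧ z = X.word 1 J} := by
  classical
  obtain ⟨p, hp, rfl⟩ := h.exists_poly hi hx hb
  have hP := h.prim_lift hi hp hprim
  have hbij := h.del_spec.2.2.bij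
  have hae : ∀ f : MvPolynomial Wd0 F2,
      aeval (MvPolynomial.X : Wd0 → MvPolynomial Wd0 F2) f = f := fun f => by simp
  have hp0 : p ≠ 0 := by
    rintro rfl
    exact hne (map_zero _)
  obtain ⟨m, ⟨I₀, j₀, hm⟩, hge, hcne, hcsp⟩ := h.del_spec.2.2.exists_lowest hP hp0
  have hcmp : ∀ m, Hopf407.cmp w0 hbij m p = weightedHomogeneousComponent w0 m p := by
    intro m
    have := Hopf407.cmp_aeval w0 hbij m p
    rwa [hae, hae] at this
  rw [hcmp] at hcne hcsp
  have hlt : ∀ m' < m, weightedHomogeneousComponent w0 m' p = 0 := by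
    intro m' hm'
    rw [← hcmp]
    exact (Hopf407.mem_WtGe_iff hbij).1 hge m' hm'
  have hr : m = 2 ^ (j₀ + I₀.1.1.length) := by
    rw [← hm, w0, pow_add]
  have hr1 : 1 ≤ j₀ + I₀.1.1.length := by
    rcases h' : I₀.1.1 with _ | ⟨a, l⟩
    · exact absurd h' I₀.2
    · simp; omega
  set r := j₀ + I₀.1.1.length with hrdef
  subst hr
  have hwc : ∀ m', h.wc m' (e0 X p) = e0 X (weightedHomogeneousComponent w0 m' p) :=
    fun m' => h.wc_e0 m' hi hp
  have hcV : weightedHomogeneousComponent w0 (2 ^ r) p ∈ VV i := by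
    rw [mem_weightedHomogeneousSubmodule]
    intro d hd
    rw [coeff_weightedHomogeneousComponent] at hd
    split_ifs at hd with h1
    · exact hp hd
    · exact absurd rfl hd
  refine ⟨r, hr1, ?_, ?_, ?_, ?_, ?_⟩
  · intro m' hm'
    rw [hwc, hlt m' hm', map_zero]
  · rw [hwc]
    intro h0
    exact hcne (h.inj hi hcV h0)
  · rw [hwc]
    have key : ∀ q ∈ Submodule.span F2 {a : MvPolynomial Wd0 F2 | ∃ I j,
        2 ^ j * w0 I = 2 ^ r ∧ a = MvPolynomial.X I ^ (2 ^ j)},
        e0 X (weightedHomogeneousComponent v0 i q) ∈ Wsp X r i := by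
      intro q hq
      induction hq using Submodule.span_induction with
      | mem q hq =>
        obtain ⟨I, j, hij, rfl⟩ := hq
        rw [weightedHomogeneousComponent_of_mem (mem_PB.1 (X_pow_mem_PB I j)).2]
        split_ifs with hdeg
        · refine Submodule.subset_span ⟨List.replicate j 0 ++ I.1.1,
            pairwise_replicate_append I.1.2.1, ?_, ?_, ?_⟩
          · rw [List.length_append, List.length_replicate]
            rw [w0, ← pow_add] at hij
            exact Nat.pow_right_injective (le_refl 2) hij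
          · rw [wdeg_replicate, hdeg]; rfl
          · rw [word0_replicate h.q, map_pow, aeval_X]; rfl
        · rw [map_zero]; exact Submodule.zero_mem _
      | zero => rw [map_zero, map_zero]; exact Submodule.zero_mem _
      | add a b _ _ ha hb => rw [map_add, map_add]; exact Submodule.add_mem _ ha hb
      | smul c a _ ha => rw [map_smul, map_smul]; exact Submodule.smul_mem _ _ ha
    have h1 := key _ hcsp
    rwa [weightedHomogeneousComponent_of_mem hcV, if_pos rfl] at h1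
  · intro hSq a ha
    rw [h.Sq_wc hi hp, hSq a ha, map_zero]
  · rw [← map_sub, hwc, ← map_sub]
    set q := p - weightedHomogeneousComponent w0 (2 ^ r) p with hq
    have hqV : q ∈ VV i := Submodule.sub_mem _ hp hcV
    rw [h.sigma_e0 hi hi1 hqV]
    refine Submodule.sum_mem _ fun I _ => ?_
    by_cases hc : coeff (Finsupp.single I 1) q = 0
    · rw [hc, zero_smul]; exact Submodule.zero_mem _
    · have hvI : v0 I = i := by
        have := (mem_weightedHomogeneousSubmodule F2 v0 i q).1 hqV hc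
        simpa [Finsupp.weight_single] using this
      refine Submodule.smul_mem _ _ ?_
      rw [h.sigma_y0 I (by omega)]
      refine Submodule.subset_span ⟨_, pairwise_map_pred I.1.2.1, ?_, ?_, rfl⟩
      · rw [List.length_map]
        by_contra hcon
        push Not at hcon
        apply hc
        have hwI : Finsupp.weight w0 (Finsupp.single I 1) = 2 ^ I.1.1.length := by
          rw [Finsupp.weight_single, one_smul]; rfl
        rcases hcon.lt_or_eq with h1 | h1
        · have h2 : 2 ^ I.1.1.length < 2 ^ r := Nat.pow_lt_pow_right (by norm_num) h1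
          have h3 := hlt _ h2
          have h4 := congrArg (coeff (Finsupp.single I 1)) h3
          rw [coeff_weightedHomogeneousComponent, if_pos hwI, coeff_zero] at h4
          rw [hq, coeff_sub, h4, coeff_weightedHomogeneousComponent, if_neg, sub_zero]
          rw [hwI]; omega
        · rw [hq, coeff_sub, coeff_weightedHomogeneousComponent, if_pos, sub_self]
          rw [hwI, h1]
      · rw [wdeg_map_pred _ I.1.2.2]
        exact congrArg (· + 1) hvI

end main

end Crest.Agent.R204.HopfZ407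
end

-- ▼ part R204/Core_737
section

/-!
# Row 204: the abstract cores `Core314` and `Core315` (helper737)

`core314 : Core314` and `core315'` (= `Core315` with `FactHopf` as extra hypothesis), unconditional.
-/

set_option autoImplicit false

noncomputable section

namespace Crest.Agent.R204.Thm3Glue

open Spec114 Glue114
open Crest.Agent.R204.DickInst91 (dick)

variable {Y : Spec114.Tower} {S : Sph Y} {D d : ℕ}

/-- (L), from helper407 -/
theorem lowL (hF : Facts Y S D d) : LowL Y D := by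
  intro i hi1 hi x hx hb hp hne
  obtain ⟨r, hr, _, h1, h2, h3, h4⟩ := (hyp hF).lowest hi1 hi hx hb hp hne
  exact ⟨r, hr, _, h2, h1, h3, h4⟩

/-- **the outputs of Theorem 3 and of the `k = 0` analysis** -/
def t3out' (hF : Facts Y S D d) : T3Out dick Y d := t3out hF (lowL hF)

/-- **`Core314`** -/
theorem core314 : Core314 :=
  core314_of (St := dick) F550.thm06_dick F550.lemEven_dick' F550.lem61_dick
    fun _ _ _ _ hF => ⟨t3out' hF⟩

/-- **`Core315`**, with Hopf invariant one as extra input -/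
theorem core315' (X : Spec114.Tower) (S : Sph X) (D d : ℕ) (hF : Facts X S D d) (hH : S.FactHopf d)
    (α β : S.A) : S.h 0 α = 0 ∨ S.h 0 β = 0 ∨ S.h 0 α = S.h 0 β :=
  core315_of (St := dick) F550.thm06_dick F550.lemEven_dick' F550.lem61_dick
    (fun _ _ _ _ hF => ⟨t3out' hF⟩) X S D d hF hH α β

end Crest.Agent.R204.Thm3Glue
end
end

-- ▼ part R204/Final_478
section

/-!
# Row 204 (helper478): the final assembly

`AllFacts` = the facts of `Spec114` for the concrete tower with arbitrarily many loop coordinates.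
From `AllFacts`, `HopfLow`, `BS` the exact statements S0314 and S0315 follow.
-/

set_option autoImplicit false
set_option linter.style.haveILetI false

noncomputable section

namespace Crest.Agent.R204.Final478

open scoped TensorProduct _root_.Topology _root_.Topology.Homotopy
open Crest.Agent.R204 Spec114 Cone330 SphSS478 FactSph478 Inst194 Freu297 Sus330 HopfLow478 Hopf11
  InstSph478

/-- **all the facts for the concrete tower**, arbitrarily large sphere dimension -/
def AllFacts : Prop := ∀ e N : ℕ, ∃ (p : Par) (D : ℕ), N ≤ p.n ∧ e + 1 ≤ D ∧ e + 1 ≤ p.K ∧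
  Facts p.tower (pSph p e) D (e + 1)

theorem vanish (hA : AllFacts) (HL : HopfLow) (hBS : BS) (e N : ℕ) (h1 : e + 1 ≠ 1)
    (h3 : e + 1 ≠ 3) (h7 : e + 1 ≠ 7) (hj : ∀ j : ℕ, e + 1 + 2 ≠ 2 ^ j) :
    ∃ p : Par, N ≤ p.n ∧ ∀ (a : (p.S 0).S (e + 1))
      (ha : IsSph (K := p.S 0) HspSS696.eS a), scl a ha = 0 := by
  obtain ⟨p, D, hN, hD, hK, hF⟩ := hA e N
  refine ⟨p, hN, fun a ha => ?_⟩
  exact Thm3Glue.core314 p.tower (pSph p e) D (e + 1) hF (factHopf HL hBS p hF.poly hD hK)
    h1 h3 h7 hj ⟨a, ha⟩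

theorem unique (hA : AllFacts) (HL : HopfLow) (hBS : BS) (e N : ℕ) :
    ∃ p : Par, N ≤ p.n ∧ ∀ (a b : (p.S 0).S (e + 1))
      (ha : IsSph (K := p.S 0) HspSS696.eS a) (hb : IsSph (K := p.S 0) HspSS696.eS b),
        scl a ha = 0 ∨ scl b hb = 0 ∨ scl a ha = scl b hb := by
  obtain ⟨p, D, hN, hD, hK, hF⟩ := hA e N
  refine ⟨p, hN, fun a b ha hb => ?_⟩
  exact Thm3Glue.core315' p.tower (pSph p e) D (e + 1) hF (factHopf HL hBS p hF.poly hD hK)
    ⟨a, ha⟩ ⟨b, hb⟩

theorem huge314 (hA : AllFacts) (HL : HopfLow) (hBS : BS) : SusMap478.Huge314 := by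
  intro e h1 h3 h7 hj N
  obtain ⟨p, hN, h⟩ := vanish hA HL hBS e N h1 h3 h7 hj
  refine ⟨p.n, hN, pt p.n, fun a ha => ?_⟩
  exact h a (FactSph478.isSph_iff.1 ha)

theorem huge315 (hA : AllFacts) (HL : HopfLow) (hBS : BS) : SusMap478.Huge315 := by
  intro e N
  obtain ⟨p, hN, h⟩ := unique hA HL hBS e N
  refine ⟨p.n, hN, pt p.n, fun a b ha hb => ?_⟩
  exact h a b (FactSph478.isSph_iff.1 ha) (FactSph478.isSph_iff.1 hb)

theorem core314 (hA : AllFacts) (HL : HopfLow) (hBS : BS) : Red478.Core314 :=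
  SusMap478.core314_of_huge Conn747.stab (huge314 hA HL hBS)

theorem core315 (hA : AllFacts) (HL : HopfLow) (hBS : BS) : Red478.Core315 :=
  SusMap478.core315_of_huge Conn747.stab (huge315 hA HL hBS)

/-- **S0314** from the three remaining inputs -/
theorem s0314 (hA : AllFacts) (HL : HopfLow) (hBS : BS)
    (d n : ℕ) (hd : 0 < d) (h1 : d ≠ 1) (h3 : d ≠ 3) (h7 : d ≠ 7) (hK : ∀ j : ℕ, d + 2 ≠ 2 ^ j)
    (hn : d + 2 ≤ n)
    (x : Metric.sphere (0 : EuclideanSpace ℝ (Fin (n + 1))) 1)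
    (s : Metric.sphere (0 : EuclideanSpace ℝ (Fin (d + 1))) 1)
    (f : C(Metric.sphere (0 : EuclideanSpace ℝ (Fin (d + 1))) 1,
      GenLoop (Fin n) (Metric.sphere (0 : EuclideanSpace ℝ (Fin (n + 1))) 1) x))
    (hf : f s = GenLoop.const) :
    ((AlgebraicTopology.singularHomologyFunctor (ModuleCat.{0} (ZMod 2)) d).obj
        (ModuleCat.of (ZMod 2) (ZMod 2))).map (TopCat.ofHom f) = 0 :=
  Red478.s0314_of dgAcyclic Sph94.spheres (core314 hA HL hBS) d n hd h1 h3 h7 hK hn x s f hf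

/-- **S0315** from the three remaining inputs -/
theorem s0315 (hA : AllFacts) (HL : HopfLow) (hBS : BS)
    (d n : ℕ) (hd : 0 < d) (hn : d + 2 ≤ n)
    (x : Metric.sphere (0 : EuclideanSpace ℝ (Fin (n + 1))) 1)
    (s : Metric.sphere (0 : EuclideanSpace ℝ (Fin (d + 1))) 1)
    (f g : C(Metric.sphere (0 : EuclideanSpace ℝ (Fin (d + 1))) 1,
      GenLoop (Fin n) (Metric.sphere (0 : EuclideanSpace ℝ (Fin (n + 1))) 1) x))
    (hf : f s = GenLoop.const) (hg : g s = GenLoop.const) :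
    ((AlgebraicTopology.singularHomologyFunctor (ModuleCat.{0} (ZMod 2)) d).obj
        (ModuleCat.of (ZMod 2) (ZMod 2))).map (TopCat.ofHom f) = 0 ∨
    ((AlgebraicTopology.singularHomologyFunctor (ModuleCat.{0} (ZMod 2)) d).obj
        (ModuleCat.of (ZMod 2) (ZMod 2))).map (TopCat.ofHom g) = 0 ∨
    ((AlgebraicTopology.singularHomologyFunctor (ModuleCat.{0} (ZMod 2)) d).obj
        (ModuleCat.of (ZMod 2) (ZMod 2))).map (TopCat.ofHom f) =
      ((AlgebraicTopology.singularHomologyFunctor (ModuleCat.{0} (ZMod 2)) d).obj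
        (ModuleCat.of (ZMod 2) (ZMod 2))).map (TopCat.ofHom g) :=
  Red478.s0315_of dgAcyclic Sph94.spheres (core315 hA HL hBS) d n hd hn x s f g hf hg

end Crest.Agent.R204.Final478
end
end

-- ▼ part R204/CopX_330
section

/-!
# Row 204, block E (helper330): the cross product is a strict coalgebra map over `F2`
`cop (cross a b) = Σ (a' × b') ⊗ (a'' × b'')`
-/

set_option autoImplicit false

noncomputable section

namespace Crest.Agent.R204.CopX330

open EZ271
open scoped TensorProduct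

theorem sg_F2 {K : SS} (c : N F2 K) : EZ271.sg F2 c = c := by
  have : EZ271.sg F2 (K := K) = LinearMap.id := by
    refine hom_ext fun n x => ?_
    rw [sg_sx, show (-1 : F2) = 1 from rfl, one_pow, one_smul]
    rfl
  rw [this]; rfl

/-- `(a' ⊗ a'') (b' ⊗ b'') ↦ (a' × b') ⊗ (a'' × b'')` -/
def CC (K L : SS) : (N F2 K ⊗[F2] N F2 K) →ₗ[F2] (N F2 L ⊗[F2] N F2 L) →ₗ[F2]
    (N F2 (K.prod L) ⊗[F2] N F2 (K.prod L)) :=
  TensorProduct.map₂ (cross F2) (cross F2)

@[simp] theorem CC_tmul {K L : SS} (a a' : N F2 K) (b b' : N F2 L) :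
    CC K L (a ⊗ₜ a') (b ⊗ₜ b') = cross F2 a b ⊗ₜ cross F2 a' b' := by
  rw [CC, TensorProduct.map₂_apply_tmul, TensorProduct.map_tmul]

theorem CC_map {K L K' L' : SS} (f : SS.Hom K K') (g : SS.Hom L L') (s : N F2 K ⊗[F2] N F2 K)
    (t : N F2 L ⊗[F2] N F2 L) :
    CC K' L' (TensorProduct.map (N.map F2 f) (N.map F2 f) s)
      (TensorProduct.map (N.map F2 g) (N.map F2 g) t) =
    TensorProduct.map (N.map F2 (SS.prodMap f g)) (N.map F2 (SS.prodMap f g)) (CC K L s t) := by
  induction s using TensorProduct.induction_on with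
  | zero => simp
  | add x y hx hy => simp only [map_add, LinearMap.add_apply, hx, hy]
  | tmul a a' =>
    induction t using TensorProduct.induction_on with
    | zero => simp
    | add x y hx hy => simp only [map_add, hx, hy]
    | tmul b b' =>
      simp only [TensorProduct.map_tmul, CC_tmul, map_cross]

theorem CC_c_bot {K L : SS} (A : Cone K) (B : Cone L) (s : N F2 K ⊗[F2] N F2 K) (z : N F2 L) :
    CC K L (TensorProduct.map (A.c F2) LinearMap.id s) (N.sx F2 B.bot ⊗ₜ z) =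
      TensorProduct.map ((A.prod B).c F2) LinearMap.id (CC K L s (N.sx F2 B.bot ⊗ₜ z)) := by
  induction s using TensorProduct.induction_on with
  | zero => simp
  | add x y hx hy => simp only [map_add, LinearMap.add_apply, hx, hy]
  | tmul a a' =>
    simp only [TensorProduct.map_tmul, CC_tmul, LinearMap.id_apply, cross_c_bot]

theorem CC_bot_c {K L : SS} (A : Cone K) (B : Cone L) (t : N F2 L ⊗[F2] N F2 L) (z : N F2 K) :
    CC K L (N.sx F2 A.bot ⊗ₜ z) (TensorProduct.map (B.c F2) LinearMap.id t) =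
      TensorProduct.map ((A.prod B).c F2) LinearMap.id (CC K L (N.sx F2 A.bot ⊗ₜ z) t) := by
  induction t using TensorProduct.induction_on with
  | zero => simp
  | add x y hx hy => simp only [map_add, hx, hy]
  | tmul b b' =>
    simp only [TensorProduct.map_tmul, CC_tmul, LinearMap.id_apply, cross_bot_c]

theorem CC_c_c {K L : SS} (A : Cone K) (B : Cone L) (s : N F2 K ⊗[F2] N F2 K)
    (t : N F2 L ⊗[F2] N F2 L) :
    CC K L (TensorProduct.map (A.c F2) LinearMap.id s) (TensorProduct.map (B.c F2) LinearMap.id t) =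
      TensorProduct.map ((A.prod B).c F2) LinearMap.id
        (CC K L s (TensorProduct.map (B.c F2) LinearMap.id t) +
          CC K L (TensorProduct.map (A.c F2) LinearMap.id s) t) := by
  induction s using TensorProduct.induction_on with
  | zero => simp
  | add x y hx hy =>
    simp only [map_add, LinearMap.add_apply] at hx hy ⊢
    rw [hx, hy]; abel
  | tmul a a' =>
    induction t using TensorProduct.induction_on with
    | zero => simp
    | add x y hx hy =>
      simp only [map_add] at hx hy ⊢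
      rw [hx, hy]; abel
    | tmul b b' =>
      simp only [TensorProduct.map_tmul, CC_tmul, LinearMap.id_apply, cross_c_c, sg_F2, map_add,
        TensorProduct.add_tmul]

/-- the cross product is a strict coalgebra map -/
theorem cop_cross {K L : SS} (a : N F2 K) (b : N F2 L) :
    cop F2 (cross F2 a b) = CC K L (cop F2 a) (cop F2 b) := by
  refine ind2 F2 (M := fun K L => N F2 (K.prod L) ⊗[F2] N F2 (K.prod L))
    (fun K L => (cross F2).compr₂ (cop F2)) (fun K L => ((CC K L).comp (cop F2)).compl₂ (cop F2))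
    ?_ ?_ ?_ ?_ ?_ K L a b
  · intro K L K' L' g h a b e
    simp only [LinearMap.compr₂_apply, LinearMap.compl₂_apply, LinearMap.comp_apply] at e ⊢
    rw [← map_cross, cop_map, e, cop_map, cop_map, CC_map]
  · intro K L A B
    simp only [LinearMap.compr₂_apply, LinearMap.compl₂_apply, LinearMap.comp_apply]
    rw [cross_bot, cop_bot, cop_bot, cop_bot, CC_tmul, cross_bot]
  · intro K L A B a e
    simp only [LinearMap.compr₂_apply, LinearMap.compl₂_apply, LinearMap.comp_apply] at e ⊢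
    rw [cross_c_bot, cop_c, e, cop_c, cop_bot, map_add, LinearMap.add_apply, CC_c_bot, CC_tmul,
      cross_bot, cross_c_bot]
  · intro K L A B b e
    simp only [LinearMap.compr₂_apply, LinearMap.compl₂_apply, LinearMap.comp_apply] at e ⊢
    rw [cross_bot_c, cop_c, e, cop_c, cop_bot, map_add, CC_bot_c, CC_tmul,
      cross_bot, cross_bot_c]
  · intro K L A B a b e1 e2 e3
    simp only [LinearMap.compr₂_apply, LinearMap.compl₂_apply, LinearMap.comp_apply] at e1 e2 e3 ⊢
    have h1 : cross F2 (A.c F2 a) (B.c F2 b) =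
        (A.prod B).c F2 (cross F2 a (B.c F2 b) + cross F2 (A.c F2 a) b) := by
      rw [cross_c_c, sg_F2]
    rw [h1, cop_c, map_add (cop F2), e1, e2, ← h1]
    simp only [cop_c F2 A, cop_c F2 B, map_add, LinearMap.add_apply, CC_tmul, cross_bot]
    rw [CC_c_c, CC_c_bot, CC_bot_c]
    simp only [map_add]
    abel

end Crest.Agent.R204.CopX330
end
end

-- ▼ part R204/CopLem_330
section

/-!
# Row 204, block E (helper330): THE COPRODUCT LEMMA on chains (E3)
-/

set_option autoImplicit false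

noncomputable section

namespace Crest.Agent.R204.Sus330

open Cone330 CopX330
open EZ271 (cross cross_sx map_cross map_map map_bd' map_idHom aug bd_sx_succ bd_sx_zero hom_ext
  aug_map aug_cross bd_cross sg_sx yo_iota comp_yo cop cop_sx cop_map cop_vertex fst_cross snd_cross
  front back front_val back_val front_self back_self)
open scoped unitInterval TensorProduct

variable {P Y : Type} [TopologicalSpace P] [TopologicalSpace Y] {g0 : P} {y0 : Y}

/-! ## generalities -/

/-- `Σ φ(c') ⊗ ψ(c'')` with `φ = aug • b` -/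
theorem map_cop_aug_left {K : SS} {M : Type} [AddCommGroup M] [Module F2 M] (b : M)
    (ψ : N F2 K →ₗ[F2] M) (c : N F2 K) :
    TensorProduct.map ((aug F2 (K := K)).smulRight b) ψ (cop F2 c) = b ⊗ₜ ψ c := by
  have h : ∀ t : N F2 K ⊗[F2] N F2 K, TensorProduct.map ((aug F2 (K := K)).smulRight b) ψ t =
      b ⊗ₜ ψ (TensorProduct.lid F2 _ (TensorProduct.map (aug F2) LinearMap.id t)) := by
    intro t
    induction t using TensorProduct.induction_on with
    | zero => simp
    | add x y hx hy => simp only [map_add, hx, hy, TensorProduct.tmul_add]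
    | tmul x y =>
      simp only [TensorProduct.map_tmul, LinearMap.smulRight_apply, LinearMap.id_apply,
        TensorProduct.lid_tmul, map_smul, TensorProduct.smul_tmul]
  rw [h, EZ271.aug_cop_left]

theorem map_cop_aug_right {K : SS} {M : Type} [AddCommGroup M] [Module F2 M] (b : M)
    (ψ : N F2 K →ₗ[F2] M) (c : N F2 K) :
    TensorProduct.map ψ ((aug F2 (K := K)).smulRight b) (cop F2 c) = ψ c ⊗ₜ b := by
  have h : ∀ t : N F2 K ⊗[F2] N F2 K, TensorProduct.map ψ ((aug F2 (K := K)).smulRight b) t =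
      ψ (TensorProduct.rid F2 _ (TensorProduct.map LinearMap.id (aug F2) t)) ⊗ₜ b := by
    intro t
    induction t using TensorProduct.induction_on with
    | zero => simp
    | add x y hx hy => simp only [map_add, hx, hy, TensorProduct.add_tmul]
    | tmul x y =>
      simp only [TensorProduct.map_tmul, LinearMap.smulRight_apply, LinearMap.id_apply,
        TensorProduct.rid_tmul, map_smul, TensorProduct.smul_tmul, TensorProduct.tmul_smul]
  rw [h, EZ271.aug_cop_right]

/-- crossing with a fixed tensor -/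
theorem CC_tmul_left {K L : SS} (a a' : N F2 K) (t : N F2 L ⊗[F2] N F2 L) :
    CC K L (a ⊗ₜ a') t = TensorProduct.map (cross F2 a) (cross F2 a') t := by
  induction t using TensorProduct.induction_on with
  | zero => simp
  | add x y hx hy => simp only [map_add, hx, hy]
  | tmul b b' => rw [CC_tmul, TensorProduct.map_tmul]

theorem cop_io : cop F2 (N.sx F2 io) =
    N.sx F2 (ve 0) ⊗ₜ N.sx F2 io + N.sx F2 io ⊗ₜ N.sx F2 (ve 1) := by
  rw [cop_sx, Finset.sum_range_succ, Finset.sum_range_one]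
  congr 1
  · congr 1
    · congr 1
      refine OrderHom.ext _ _ (funext fun a => ?_)
      have : a = 0 := Fin.ext (by omega)
      subst this
      refine Fin.ext ?_
      show (front 0 1 0 : ℕ) = 0
      rw [front_val]; simp
    · rw [show 1 - 0 = 1 from rfl, back_self, (SS.std 1).act_id]
  · congr 1
    · rw [front_self, (SS.std 1).act_id]
    · rw [show 1 - 1 = 0 from rfl]
      congr 1
      refine OrderHom.ext _ _ (funext fun a => ?_)
      have : a = 0 := Fin.ext (by omega)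
      subst this
      refine Fin.ext ?_
      show (back 0 1 0 : ℕ) = 1
      rw [back_val]; simp

/-! ## the simplex `Δ^2` -/

/-- fundamental simplex of `Δ^2` -/
def i2 : (SS.std 2).S 2 := (OrderHom.id : Op 2 2)

/-- vertices of `Δ^2` -/
def v2 (i : Fin 3) : (SS.std 2).S 0 := (⟨fun _ => i, fun _ _ _ => le_rfl⟩ : Op 0 2)

theorem sx_face (i : Fin 3) : N.sx F2 (K := SS.std 2) (n := 1) (Op.face i : Op 1 2) =
    N.map F2 (stdMap (Op.face i)) (N.sx F2 io) := by
  rw [N.map_sx]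
  rfl

theorem bd_i2 : N.bd F2 (SS.std 2) (N.sx F2 i2) =
    N.map F2 (stdMap (Op.face 0)) (N.sx F2 io) + N.map F2 (stdMap (Op.face 1)) (N.sx F2 io) +
      N.map F2 (stdMap (Op.face 2)) (N.sx F2 io) := by
  rw [bd_sx_succ, Fin.sum_univ_three, ← sx_face, ← sx_face, ← sx_face,
    show (-1 : F2) = 1 from rfl, one_pow, one_pow, one_pow, one_smul, one_smul, one_smul]
  rfl

theorem cop_i2 : cop F2 (N.sx F2 i2) =
    N.sx F2 (v2 0) ⊗ₜ N.sx F2 i2 +
      N.map F2 (stdMap (Op.face 2)) (N.sx F2 io) ⊗ₜ N.map F2 (stdMap (Op.face 0)) (N.sx F2 io) +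
      N.sx F2 i2 ⊗ₜ N.sx F2 (v2 2) := by
  rw [cop_sx, Finset.sum_range_succ, Finset.sum_range_succ, Finset.sum_range_one, ← sx_face,
    ← sx_face]
  congr 1
  · congr 1
    · congr 1
      · congr 1
        refine OrderHom.ext _ _ (funext fun a => ?_)
        have : a = 0 := Fin.ext (by omega)
        subst this
        refine Fin.ext ?_
        show (front 0 2 0 : ℕ) = 0
        rw [front_val]; simp
      · rw [show 2 - 0 = 2 from rfl, back_self, (SS.std 2).act_id]
    · congr 1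
      · congr 1
        refine OrderHom.ext _ _ (funext fun a => Fin.ext ?_)
        show (front 1 2 a : ℕ) = (Op.face 2 a : Fin 3)
        rw [front_val, Ch.face_val]
        have := a.isLt
        simp
        omega
      · congr 1
        refine OrderHom.ext _ _ (funext fun a => Fin.ext ?_)
        show (back 1 2 a : ℕ) = (Op.face 0 a : Fin 3)
        rw [back_val, Ch.face_val]
        have := a.isLt
        simp
        omega
  · congr 1
    · rw [front_self, (SS.std 2).act_id]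
    · rw [show 2 - 2 = 0 from rfl]
      congr 1
      refine OrderHom.ext _ _ (funext fun a => ?_)
      have : a = 0 := Fin.ext (by omega)
      subst this
      refine Fin.ext ?_
      show (back 0 2 0 : ℕ) = 2
      rw [back_val]; simp

namespace LoopStr

variable (Λ : LoopStr P Y g0 y0)

/-- the base vertex class of `Sing Y` -/
abbrev bv (y0 : Y) : N F2 (SS.Sing Y) := N.sx F2 (cY y0 0)

theorem map_evH_vertex' (i : Fin 2) : N.map F2 Λ.evH ∘ₗ cross F2 (N.sx F2 (ve i)) =
    (aug F2 (K := SS.Sing P)).smulRight (bv y0) := by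
  refine LinearMap.ext fun c => ?_
  exact Λ.map_evH_vertex F2 i c

/-- suspensions are primitive on chains -/
theorem cop_sig (w : N F2 (SS.Sing P)) :
    cop F2 (Λ.sig F2 w) = bv y0 ⊗ₜ Λ.sig F2 w + Λ.sig F2 w ⊗ₜ bv y0 := by
  have h : ∀ (f g : N F2 (SS.Sing P) →ₗ[F2] N F2 ((SS.std 1).prod (SS.Sing P)))
      (t : N F2 (SS.Sing P) ⊗[F2] N F2 (SS.Sing P)),
      TensorProduct.map (N.map F2 Λ.evH) (N.map F2 Λ.evH) (TensorProduct.map f g t) =
        TensorProduct.map (N.map F2 Λ.evH ∘ₗ f) (N.map F2 Λ.evH ∘ₗ g) t := by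
    intro f g t
    rw [TensorProduct.map_comp]; rfl
  rw [sig_apply, cop_map, cop_cross, cop_io, map_add, LinearMap.add_apply, map_add, CC_tmul_left,
    CC_tmul_left, h, h, map_evH_vertex', map_evH_vertex', map_cop_aug_left, map_cop_aug_right]
  rfl

/-- the chain `s_*([Δ^2] × (a × b))` -/
def c2 (a b : N F2 (SS.Sing P)) : N F2 (SS.Sing Y) :=
  N.map F2 Λ.sH (cross F2 (N.sx F2 i2) (cross F2 a b))

/-- a constant-vertex restriction of `sH` -/
theorem map_sH_vertex (i : Fin 3) (hi : i = 0 ∨ i = 2) (c : N F2 ((SS.Sing P).prod (SS.Sing P))) :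
    N.map F2 Λ.sH (cross F2 (N.sx F2 (v2 i)) c) = aug F2 c • bv y0 := by
  rw [cross_vertex, map_map]
  refine map_constHom F2 _ _ (fun n x => ?_) c
  rw [base_sing]
  rcases hi with rfl | rfl
  · exact Λ.sH_zero _ (fun _ => rfl) x.1 x.2
  · exact Λ.sH_two _ (fun _ => rfl) x.1 x.2

theorem map_sH_face_two (c : N F2 ((SS.Sing P).prod (SS.Sing P))) :
    N.map F2 Λ.sH (cross F2 (N.map F2 (stdMap (Op.face 2)) (N.sx F2 io)) c) =
      Λ.sig F2 (N.map F2 (SS.fst _ _) c) := by
  have e1 : cross F2 (N.map F2 (stdMap (Op.face 2)) (N.sx F2 io)) c =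
      N.map F2 (SS.prodMap (stdMap (Op.face 2)) (SS.Hom.id _)) (cross F2 (N.sx F2 io) c) := by
    rw [map_cross, map_idHom]
  rw [e1, map_map, sig_apply]
  have e2 : cross F2 (N.sx F2 io) (N.map F2 (SS.fst (SS.Sing P) (SS.Sing P)) c) =
      N.map F2 (SS.prodMap (SS.Hom.id _) (SS.fst _ _)) (cross F2 (N.sx F2 io) c) := by
    rw [map_cross, map_idHom]
  rw [e2, map_map]
  congr 1
  congr 1
  refine SS.Hom.ext (funext fun n => funext fun x => ?_)
  exact Λ.sH_face_two x.1 x.2.1 x.2.2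

theorem map_sH_face_zero (c : N F2 ((SS.Sing P).prod (SS.Sing P))) :
    N.map F2 Λ.sH (cross F2 (N.map F2 (stdMap (Op.face 0)) (N.sx F2 io)) c) =
      Λ.sig F2 (N.map F2 (SS.snd _ _) c) := by
  have e1 : cross F2 (N.map F2 (stdMap (Op.face 0)) (N.sx F2 io)) c =
      N.map F2 (SS.prodMap (stdMap (Op.face 0)) (SS.Hom.id _)) (cross F2 (N.sx F2 io) c) := by
    rw [map_cross, map_idHom]
  rw [e1, map_map, sig_apply]
  have e2 : cross F2 (N.sx F2 io) (N.map F2 (SS.snd (SS.Sing P) (SS.Sing P)) c) =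
      N.map F2 (SS.prodMap (SS.Hom.id _) (SS.snd _ _)) (cross F2 (N.sx F2 io) c) := by
    rw [map_cross, map_idHom]
  rw [e2, map_map]
  congr 1
  congr 1
  refine SS.Hom.ext (funext fun n => funext fun x => ?_)
  exact Λ.sH_face_zero x.1 x.2.1 x.2.2

theorem map_sH_face_one (c : N F2 ((SS.Sing P).prod (SS.Sing P))) :
    N.map F2 Λ.sH (cross F2 (N.map F2 (stdMap (Op.face 1)) (N.sx F2 io)) c) =
      Λ.sig F2 (N.map F2 Λ.muH c) := by
  have e1 : cross F2 (N.map F2 (stdMap (Op.face 1)) (N.sx F2 io)) c =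
      N.map F2 (SS.prodMap (stdMap (Op.face 1)) (SS.Hom.id _)) (cross F2 (N.sx F2 io) c) := by
    rw [map_cross, map_idHom]
  rw [e1, map_map, sig_apply]
  have e2 : cross F2 (N.sx F2 io) (N.map F2 Λ.muH c) =
      N.map F2 (SS.prodMap (SS.Hom.id _) Λ.muH) (cross F2 (N.sx F2 io) c) := by
    rw [map_cross, map_idHom]
  rw [e2, map_map]
  congr 1
  congr 1
  refine SS.Hom.ext (funext fun n => funext fun x => ?_)
  exact Λ.sH_face_one x.1 x.2.1 x.2.2

/-- boundary of `c2` -/
theorem bd_c2 (a b : N F2 (SS.Sing P)) : N.bd F2 _ (Λ.c2 a b) =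
    aug F2 a • Λ.sig F2 b + Λ.sig F2 (N.map F2 Λ.muH (cross F2 a b)) + aug F2 b • Λ.sig F2 a +
      (Λ.c2 (N.bd F2 _ a) b + Λ.c2 a (N.bd F2 _ b)) := by
  rw [c2, ← map_bd', bd_cross, map_add, bd_i2, sg_F2, map_add, map_add, LinearMap.add_apply,
    LinearMap.add_apply, map_add, map_add, map_sH_face_zero, map_sH_face_one, map_sH_face_two,
    snd_cross, fst_cross, map_smul, map_smul, bd_cross, sg_F2, map_add, map_add]
  rfl

/-- the coproduct of `c2`: the heart of the coproduct lemma -/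
theorem cop_c2 (a b : N F2 (SS.Sing P)) : cop F2 (Λ.c2 a b) =
    bv y0 ⊗ₜ Λ.c2 a b + Λ.sig F2 a ⊗ₜ Λ.sig F2 b + Λ.c2 a b ⊗ₜ bv y0 := by
  have h : ∀ (f g : N F2 ((SS.Sing P).prod (SS.Sing P)) →ₗ[F2]
        N F2 ((SS.std 2).prod ((SS.Sing P).prod (SS.Sing P))))
      (t : N F2 ((SS.Sing P).prod (SS.Sing P)) ⊗[F2] N F2 ((SS.Sing P).prod (SS.Sing P))),
      TensorProduct.map (N.map F2 Λ.sH) (N.map F2 Λ.sH) (TensorProduct.map f g t) =
        TensorProduct.map (N.map F2 Λ.sH ∘ₗ f) (N.map F2 Λ.sH ∘ₗ g) t := by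
    intro f g t
    rw [TensorProduct.map_comp]; rfl
  have hv : ∀ i : Fin 3, i = 0 ∨ i = 2 → N.map F2 Λ.sH ∘ₗ cross F2 (N.sx F2 (v2 i)) =
      (aug F2 (K := (SS.Sing P).prod (SS.Sing P))).smulRight (bv y0) := fun i hi =>
    LinearMap.ext fun c => Λ.map_sH_vertex i hi c
  have hmid : TensorProduct.map
      (N.map F2 Λ.sH ∘ₗ cross F2 (N.map F2 (stdMap (Op.face 2)) (N.sx F2 io)))
      (N.map F2 Λ.sH ∘ₗ cross F2 (N.map F2 (stdMap (Op.face 0)) (N.sx F2 io)))
      (cop F2 (cross F2 a b)) = Λ.sig F2 a ⊗ₜ Λ.sig F2 b := by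
    have e2 : N.map F2 Λ.sH ∘ₗ cross F2 (N.map F2 (stdMap (Op.face 2)) (N.sx F2 io)) =
        Λ.sig F2 ∘ₗ N.map F2 (SS.fst _ _) := LinearMap.ext fun c => Λ.map_sH_face_two c
    have e0 : N.map F2 Λ.sH ∘ₗ cross F2 (N.map F2 (stdMap (Op.face 0)) (N.sx F2 io)) =
        Λ.sig F2 ∘ₗ N.map F2 (SS.snd _ _) := LinearMap.ext fun c => Λ.map_sH_face_zero c
    rw [e2, e0, TensorProduct.map_comp, LinearMap.comp_apply, cop_cross]
    have e3 : ∀ (s t : N F2 (SS.Sing P) ⊗[F2] N F2 (SS.Sing P)),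
        TensorProduct.map (N.map F2 (SS.fst (SS.Sing P) (SS.Sing P)))
          (N.map F2 (SS.snd (SS.Sing P) (SS.Sing P))) (CC _ _ s t) =
        (TensorProduct.rid F2 _ (TensorProduct.map LinearMap.id (aug F2) s)) ⊗ₜ
          (TensorProduct.lid F2 _ (TensorProduct.map (aug F2) LinearMap.id t)) := by
      intro s t
      induction s using TensorProduct.induction_on with
      | zero => simp
      | add x y hx hy =>
        simp only [map_add, LinearMap.add_apply, hx, hy, TensorProduct.add_tmul]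
      | tmul x x' =>
        induction t using TensorProduct.induction_on with
        | zero => simp
        | add y z hy hz => simp only [map_add, hy, hz, TensorProduct.tmul_add]
        | tmul y y' =>
          rw [CC_tmul, TensorProduct.map_tmul, fst_cross, snd_cross]
          simp only [TensorProduct.map_tmul, LinearMap.id_apply, TensorProduct.rid_tmul,
            TensorProduct.lid_tmul]
          rw [TensorProduct.smul_tmul_smul, TensorProduct.smul_tmul_smul, mul_comm]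
    rw [e3, EZ271.aug_cop_right, EZ271.aug_cop_left, TensorProduct.map_tmul]
  rw [c2, cop_map, cop_cross (N.sx F2 i2) (cross F2 a b), cop_i2, map_add, map_add, LinearMap.add_apply,
    LinearMap.add_apply, map_add, map_add, CC_tmul_left, CC_tmul_left, CC_tmul_left, h, h, h,
    hv 0 (Or.inl rfl), hv 2 (Or.inr rfl), map_cop_aug_left, map_cop_aug_right, hmid]
  rfl

end LoopStr

/-! ## the new cell -/

section Cell

variable {K : SS} {b : K.S 0} {M : ℕ} {x : K.S (M + 1)} (hx : IsSph b x)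

/-- the base vertex of the cone -/
theorem cop_top : cop F2 (N.sx F2 (top hx)) =
    N.map F2 (incl hx) (N.sx F2 b) ⊗ₜ N.sx F2 (top hx) +
      N.sx F2 (top hx) ⊗ₜ N.map F2 (incl hx) (N.sx F2 b) := by
  rw [cop_sx, Finset.sum_range_succ, Finset.sum_range_succ', Finset.sum_eq_zero, zero_add]
  · congr 1
    · congr 1
      · rw [act_top_zero hx _ _ _, base_zero, N.map_sx]
        · rfl
        · intro hs
          have := le_of_surjective _ hs
          omega
        · refine Fin.ext ?_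
          rw [front_val]; simp
      · rw [Nat.sub_zero, back_self, SS.act_id]
    · congr 1
      · rw [front_self, SS.act_id]
      · rw [Nat.sub_self, act_top_ne hx _ _, N.map_sx]
        · congr 2
          rw [hx _, base_zero]
          intro hs
          have := le_of_surjective _ hs
          omega
        · intro h0
          have := congrArg Fin.val h0
          rw [back_val] at this
          simp at this
  · intro a ha
    rw [Finset.mem_range] at ha
    rw [act_top_zero hx _ _ _, sx_base _ _ F2 (Nat.succ_pos a), TensorProduct.zero_tmul]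
    · intro hs
      have := le_of_surjective _ hs
      omega
    · refine Fin.ext ?_
      rw [front_val]; simp

end Cell

end Crest.Agent.R204.Sus330
end
end

-- ▼ part R204/CopLem2_330
section

/-!
# Row 204, block E (helper330): E3, final form of the coproduct lemma on chains
-/

set_option autoImplicit false

noncomputable section

namespace Crest.Agent.R204.Sus330

open Cone330 CopX330
open EZ271 (cross cross_sx map_cross map_map map_bd' map_idHom aug bd_sx_succ bd_sx_zero hom_ext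
  aug_map aug_cross bd_cross sg_sx yo_iota comp_yo cop cop_sx cop_map cop_vertex fst_cross snd_cross
  front back front_val back_val front_self back_self)
open scoped unitInterval TensorProduct

variable {P Y : Type} [TopologicalSpace P] [TopologicalSpace Y] {g0 : P} {y0 : Y}

theorem aug_of_mem_gr {K : SS} {n : ℕ} (hn : 0 < n) {c : N F2 K} (hc : c ∈ N.gr F2 K n) :
    aug F2 c = 0 := by
  refine gr_ind F2 (p := fun c => aug F2 c = 0) hc (by simp) ?_ ?_ ?_
  · intro a b ha hb; rw [map_add, ha, hb, add_zero]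
  · intro r a ha; rw [map_smul, ha, smul_zero]
  · intro x
    obtain ⟨k, rfl⟩ : ∃ k, n = k + 1 := ⟨n - 1, by omega⟩
    exact EZ271.aug_sx_succ F2 x

theorem add_self_F2 {M : Type*} [AddCommGroup M] [Module F2 M] (x : M) : x + x = 0 := by
  have h := neg_eq_self_F2 x
  calc x + x = -x + x := by rw [h]
    _ = 0 := neg_add_cancel x

namespace LoopStr

variable (Λ : LoopStr P Y g0 y0)

theorem c2_mem_gr {p q : ℕ} {a b : N F2 (SS.Sing P)} (ha : a ∈ N.gr F2 _ p) (hb : b ∈ N.gr F2 _ q) :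
    Λ.c2 a b ∈ N.gr F2 _ (2 + (p + q)) :=
  map_mem_gr F2 _ (cross_mem_gr F2 (mem_gr_sx F2 _) (cross_mem_gr F2 ha hb))

/-- the class `T` of the coproduct lemma -/
def T {M : ℕ} {x : (SS.Sing Y).S M} (hx : IsSph (K := SS.Sing Y) (cY y0 0) x)
    (z w : N F2 (SS.Sing P)) : N F2 (Cone (SS.Sing Y) (cY y0 0) x hx) :=
  N.map F2 (incl hx) (Λ.c2 z z + Λ.sig F2 w) + N.sx F2 (top hx)

variable {M : ℕ} {x : (SS.Sing Y).S (M + 1)} (hx : IsSph (K := SS.Sing Y) (cY y0 0) x)

theorem coef_T (z w : N F2 (SS.Sing P)) : coef hx F2 (Λ.T hx z w) = 1 := by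
  rw [T, map_add, coef_incl, coef_top, zero_add]

/-- `dT = 0` -/
theorem bd_T {z w : N F2 (SS.Sing P)} {a : (SS.Sing P).S M}
    (hz : N.bd F2 _ z = 0) (hz0 : aug F2 z = 0) (hsig : Λ.sig F2 (N.sx F2 a) = N.sx F2 x)
    (hw : N.bd F2 _ w = N.map F2 Λ.muH (cross F2 z z) + N.sx F2 a) :
    N.bd F2 _ (Λ.T hx z w) = 0 := by
  rw [T, map_add, bd_top hx F2 (Nat.succ_pos M), ← map_bd', ← map_add]
  have : N.bd F2 (SS.Sing Y) (Λ.c2 z z + Λ.sig F2 w) + N.sx F2 x = 0 := by
    rw [map_add, bd_c2, bd_sig, neg_eq_self_F2, hz, hw, hz0, zero_smul, zero_add,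
      add_zero, map_add, hsig]
    have e0 : Λ.c2 0 z = 0 := by rw [c2, map_zero, LinearMap.zero_apply, map_zero, map_zero]
    have e1 : Λ.c2 z 0 = 0 := by rw [c2, map_zero, map_zero, map_zero]
    rw [e0, e1, add_zero, add_zero]
    have h1 := add_self_F2 (Λ.sig F2 (N.map F2 Λ.muH (cross F2 z z)))
    have h2 := add_self_F2 (N.sx F2 x)
    calc _ = (Λ.sig F2 (N.map F2 Λ.muH (cross F2 z z)) +
          Λ.sig F2 (N.map F2 Λ.muH (cross F2 z z))) + (N.sx F2 x + N.sx F2 x) := by abel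
      _ = 0 := by rw [h1, h2, add_zero]
  rw [this, map_zero]

theorem T_mem_gr {m : ℕ} {x : (SS.Sing Y).S (2 * m + 1)}
    (hx : IsSph (K := SS.Sing Y) (cY y0 0) x) {z w : N F2 (SS.Sing P)}
    (hz : z ∈ N.gr F2 _ m) (hw : w ∈ N.gr F2 _ (2 * m + 1)) :
    Λ.T hx z w ∈ N.gr F2 _ (2 * m + 2) := by
  refine Submodule.add_mem _ (map_mem_gr F2 _ (Submodule.add_mem _ ?_ ?_)) (mem_gr_sx F2 _)
  · exact mem_gr_congr F2 (by omega) (Λ.c2_mem_gr hz hz)
  · exact Λ.sig_mem_gr F2 hw

/-- THE COPRODUCT LEMMA (exact chain identity) -/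
theorem cop_T (z w : N F2 (SS.Sing P)) : cop F2 (Λ.T hx z w) =
    N.map F2 (incl hx) (bv y0) ⊗ₜ Λ.T hx z w + Λ.T hx z w ⊗ₜ N.map F2 (incl hx) (bv y0) +
      N.map F2 (incl hx) (Λ.sig F2 z) ⊗ₜ N.map F2 (incl hx) (Λ.sig F2 z) := by
  rw [T, map_add, cop_top, cop_map, map_add (cop F2), cop_c2, cop_sig]
  simp only [map_add, TensorProduct.map_tmul, TensorProduct.tmul_add, TensorProduct.add_tmul]
  abel

end LoopStr

end Crest.Agent.R204.Sus330
end
end

-- ▼ part R204/ConeH_670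
section

/-!
# Row 204, block E4: homology of an algebraic cone (attaching one cell)

`ConeData d d' i e x₀ p`: `M' = i(M) ⊕ R e`, `d' e = i x₀`, `p` = coefficient of `e`.
-/

set_option autoImplicit false

namespace Crest.Agent.R204.ConeH670

open Crest.Agent.R204

variable {R M M' : Type*} [CommRing R] [AddCommGroup M] [Module R M] [AddCommGroup M'] [Module R M']

/-- `(M', d')` is `(M, d)` with one extra generator `e`, `d' e = i x₀`. -/
structure ConeData (d : M →ₗ[R] M) (d' : M' →ₗ[R] M') (i : M →ₗ[R] M') (e : M') (x₀ : M)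
    (p : M' →ₗ[R] R) : Prop where
  inj : Function.Injective i
  comm : ∀ m, d' (i m) = i (d m)
  de : d' e = i x₀
  pi : ∀ m, p (i m) = 0
  pe : p e = 1
  decomp : ∀ y, ∃ m, y = i m + p y • e

namespace ConeData

variable {d : M →ₗ[R] M} {d' : M' →ₗ[R] M'} {i : M →ₗ[R] M'} {e : M'} {x₀ : M} {p : M' →ₗ[R] R}

theorem comm' (h : ConeData d d' i e x₀ p) : i ∘ₗ d = d' ∘ₗ i := by
  ext m; exact (h.comm m).symm

/-- `p` kills boundaries -/
theorem p_d (h : ConeData d d' i e x₀ p) (y : M') : p (d' y) = 0 := by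
  obtain ⟨m, hm⟩ := h.decomp y
  rw [hm, map_add, map_smul, h.comm, h.de, ← map_smul, ← map_add, h.pi]

theorem d_decomp (h : ConeData d d' i e x₀ p) {y : M'} {m : M} (hm : y = i m + p y • e) :
    d' y = i (d m + p y • x₀) := by
  conv_lhs => rw [hm]
  rw [map_add, map_smul, h.comm, h.de, ← map_smul, ← map_add]

theorem of_p_eq_zero (h : ConeData d d' i e x₀ p) {y : M'} (hy : p y = 0) : ∃ m, y = i m := by
  obtain ⟨m, hm⟩ := h.decomp y
  refine ⟨m, ?_⟩
  rw [hm, hy, zero_smul, add_zero]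


/-- inclusion on homology -/
def inc (h : ConeData d d' i e x₀ p) : Hd d →ₗ[R] Hd d' := Hd.map i h.comm'

@[simp] theorem inc_mk (h : ConeData d d' i e x₀ p) (z : M) (hz : d z = 0) :
    h.inc (Hd.mk d z hz) = Hd.mk d' (i z) (by rw [h.comm, hz, map_zero]) := rfl

/-- coefficient of the top cell on homology -/
def top (h : ConeData d d' i e x₀ p) : Hd d' →ₗ[R] R :=
  Submodule.liftQ _ (p ∘ₗ (LinearMap.ker d').subtype) (by
    rintro ⟨x, hx⟩ hx'
    simp only [Submodule.mem_comap, Submodule.subtype_apply, LinearMap.mem_range] at hx'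
    obtain ⟨y, rfl⟩ := hx'
    simp [h.p_d])

@[simp] theorem top_mk (h : ConeData d d' i e x₀ p) (z : M') (hz : d' z = 0) :
    h.top (Hd.mk d' z hz) = p z := rfl

@[simp] theorem top_inc (h : ConeData d d' i e x₀ p) (x : Hd d) : h.top (h.inc x) = 0 := by
  obtain ⟨z, hz, rfl⟩ := Hd.mk_surj d x
  simp [h.pi]

/-- the image of `H(M)` is the kernel of `top` -/
theorem exists_inc (h : ConeData d d' i e x₀ p) {y : Hd d'} (hy : h.top y = 0) :
    ∃ x, h.inc x = y := by
  obtain ⟨z, hz, rfl⟩ := Hd.mk_surj d' y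
  rw [top_mk] at hy
  obtain ⟨m, rfl⟩ := h.of_p_eq_zero hy
  have hm : d m = 0 := by
    apply h.inj; rw [← h.comm, hz, map_zero]
  exact ⟨Hd.mk d m hm, rfl⟩



/-- kernel of the inclusion: multiples of `[x₀]` -/
theorem inc_eq_zero (h : ConeData d d' i e x₀ p) (hx : d x₀ = 0) {x : Hd d} (h0 : h.inc x = 0) :
    ∃ r : R, x = r • Hd.mk d x₀ hx := by
  obtain ⟨z, hz, rfl⟩ := Hd.mk_surj d x
  rw [inc_mk, Hd.mk_eq_zero] at h0
  obtain ⟨y, hy⟩ := h0
  obtain ⟨m, hm⟩ := h.decomp y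
  have h1 := h.d_decomp hm
  rw [hy] at h1
  have h2 : z = d m + p y • x₀ := h.inj h1
  refine ⟨p y, ?_⟩
  have h3 : p y • Hd.mk d x₀ hx = Hd.mk d (p y • x₀) (by rw [map_smul, hx, smul_zero]) := rfl
  rw [h3, Hd.mk_eq_mk]
  exact ⟨m, by rw [h2]; abel⟩

/-- if `[x₀] = 0` then `H(M) → H(M')` is injective -/
theorem inc_injective (h : ConeData d d' i e x₀ p) {w : M} (hw : d w = x₀) (hdd : ∀ m, d (d m) = 0) :
    Function.Injective h.inc := by
  have hx : d x₀ = 0 := by rw [← hw]; exact hdd w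
  rw [injective_iff_map_eq_zero]
  intro x hx'
  obtain ⟨r, rfl⟩ := h.inc_eq_zero hx hx'
  have : Hd.mk d x₀ hx = 0 := Hd.mk_eq_zero.2 ⟨w, hw⟩
  rw [this, smul_zero]

/-- decomposition of a homology class of the cone, given a top class `τ` with coefficient one -/
theorem exists_decomp (h : ConeData d d' i e x₀ p) {τ : Hd d'} (hτ : h.top τ = 1) (y : Hd d') :
    ∃ x, y = h.inc x + h.top y • τ := by
  obtain ⟨x, hx⟩ := h.exists_inc (y := y - h.top y • τ) (by simp [hτ])
  exact ⟨x, by rw [hx]; abel⟩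

/-- `H(M') = H(M) ⊕ R τ` -/
noncomputable def equiv (h : ConeData d d' i e x₀ p) (hinj : Function.Injective h.inc) {τ : Hd d'}
    (hτ : h.top τ = 1) : (Hd d × R) ≃ₗ[R] Hd d' :=
  LinearEquiv.ofBijective (LinearMap.coprod h.inc (LinearMap.toSpanSingleton R (Hd d') τ)) (by
    constructor
    · rw [injective_iff_map_eq_zero]
      rintro ⟨x, r⟩ hxr
      simp only [LinearMap.coprod_apply, LinearMap.toSpanSingleton_apply] at hxr
      have h1 := congrArg h.top hxr
      simp only [map_add, top_inc, map_smul, hτ, smul_eq_mul, mul_one, zero_add, map_zero] at h1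
      rw [h1, zero_smul, add_zero] at hxr
      rw [Prod.mk_eq_zero]
      exact ⟨hinj (by rw [hxr, map_zero]), h1⟩
    · intro y
      obtain ⟨x, hx⟩ := h.exists_decomp hτ y
      exact ⟨(x, h.top y), by simpa using hx.symm⟩)

@[simp] theorem equiv_apply (h : ConeData d d' i e x₀ p) (hinj : Function.Injective h.inc) {τ : Hd d'}
    (hτ : h.top τ = 1) (x : Hd d) (r : R) : h.equiv hinj hτ (x, r) = h.inc x + r • τ := by
  change LinearMap.coprod h.inc (LinearMap.toSpanSingleton R (Hd d') τ) (x, r) = _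
  rw [LinearMap.coprod_apply, LinearMap.toSpanSingleton_apply]

/-! ### gradings -/


end ConeData

end Crest.Agent.R204.ConeH670
end

-- ▼ part R204/CofAlg_670
section

/-!
# Row 204, block E5 (algebraic part): the cofibre of a spherical class as an extension of modules over
the (lower) Steenrod squares.

Everything is stated for plain modules over `F2` with operators `Sq a` lowering the degree and a linear
coproduct; nothing else is assumed about the coproduct.
-/

set_option autoImplicit false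

open scoped TensorProduct

namespace Crest.Agent.R204.CofAlg670

open Crest.Agent.R204 Finset

/-- `u ⊗ u` followed by multiplication. -/
noncomputable def sqPair {E : Type*} [AddCommGroup E] [Module F2 E] (u : E →ₗ[F2] F2) :
    E ⊗[F2] E →ₗ[F2] F2 :=
  LinearMap.mul' F2 F2 ∘ₗ TensorProduct.map u u

@[simp] theorem sqPair_tmul {E : Type*} [AddCommGroup E] [Module F2 E] (u : E →ₗ[F2] F2) (x y : E) :
    sqPair u (x ⊗ₜ[F2] y) = u x * u y := by
  simp [sqPair]

theorem F2_mul_self (a : F2) : a * a = a := by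
  revert a; decide

theorem F2_add_self {E : Type*} [AddCommGroup E] [Module F2 E] (x : E) : x + x = 0 := by
  rw [← two_smul F2 x]
  have : (2 : F2) = 0 := by decide
  rw [this, zero_smul]

/-- linear functionals separate points over `F2`. -/
theorem ext_functional {E : Type*} [AddCommGroup E] [Module F2 E] {x y : E}
    (h : ∀ u : E →ₗ[F2] F2, u x = u y) : x = y := by
  rw [← sub_eq_zero]
  exact (Module.forall_dual_apply_eq_zero_iff F2 (x - y)).1 fun u => by rw [map_sub, h u, sub_self]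

section

variable {C E : Type*} [AddCommGroup C] [Module F2 C] [AddCommGroup E] [Module F2 E]

/-- `Δ (Sq^a τ)` is primitive for `a ≥ 1` if the reduced coproduct of `τ` is `η ⊗ η` with `η`
annihilated by all `Sq^a`, `a ≥ 1`. -/
theorem coprod_sq_top (Δ : E →ₗ[F2] E ⊗[F2] E) (Sq : ℕ → E →ₗ[F2] E)
    (h0 : ∀ x, Sq 0 x = x)
    (cartan : ∀ a y, Δ (Sq a y) = ∑ p ∈ antidiagonal a, TensorProduct.map (Sq p.1) (Sq p.2) (Δ y))
    {b η τ : E} (hb : ∀ a, 1 ≤ a → Sq a b = 0) (hη : ∀ a, 1 ≤ a → Sq a η = 0)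
    (hτ : Δ τ = b ⊗ₜ[F2] τ + τ ⊗ₜ[F2] b + η ⊗ₜ[F2] η) {a : ℕ} (ha : 1 ≤ a) :
    Δ (Sq a τ) = b ⊗ₜ[F2] Sq a τ + Sq a τ ⊗ₜ[F2] b := by
  rw [cartan, hτ]
  simp only [map_add, TensorProduct.map_tmul, Finset.sum_add_distrib]
  have e1 : ∑ p ∈ antidiagonal a, (Sq p.1 b) ⊗ₜ[F2] (Sq p.2 τ) = b ⊗ₜ[F2] Sq a τ := by
    rw [Finset.sum_eq_single (0, a)]
    · simp [h0]
    · rintro ⟨i, j⟩ hij hne
      have : 1 ≤ i := by
        rw [Finset.HasAntidiagonal.mem_antidiagonal] at hij
        rcases Nat.eq_zero_or_pos i with rfl | h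
        · simp only [zero_add] at hij
          subst hij
          exact absurd rfl hne
        · exact h
      simp [hb i this]
    · intro h
      exact absurd (by simp) h
  have e2 : ∑ p ∈ antidiagonal a, (Sq p.1 τ) ⊗ₜ[F2] (Sq p.2 b) = Sq a τ ⊗ₜ[F2] b := by
    rw [Finset.sum_eq_single (a, 0)]
    · simp [h0]
    · rintro ⟨i, j⟩ hij hne
      have : 1 ≤ j := by
        rw [Finset.HasAntidiagonal.mem_antidiagonal] at hij
        rcases Nat.eq_zero_or_pos j with rfl | h
        · simp only [add_zero] at hij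
          subst hij
          exact absurd rfl hne
        · exact h
      simp [hb j this]
    · intro h
      exact absurd (by simp) h
  have e3 : ∑ p ∈ antidiagonal a, (Sq p.1 η) ⊗ₜ[F2] (Sq p.2 η) = 0 := by
    apply Finset.sum_eq_zero
    rintro ⟨i, j⟩ hij
    rw [Finset.HasAntidiagonal.mem_antidiagonal] at hij
    simp only at hij
    rcases Nat.eq_zero_or_pos i with rfl | h
    · rw [hη j (by omega), TensorProduct.tmul_zero]
    · rw [hη i h, TensorProduct.zero_tmul]
  rw [e1, e2, e3, add_zero]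

/-- top square: `Sq^{m+1} τ = η`. -/
theorem sq_top_eq (Δ : E →ₗ[F2] E ⊗[F2] E) (S : E →ₗ[F2] E) {b η τ : E}
    (hS : ∀ u : E →ₗ[F2] F2, u (S τ) = sqPair u (Δ τ))
    (hτ : Δ τ = b ⊗ₜ[F2] τ + τ ⊗ₜ[F2] b + η ⊗ₜ[F2] η) : S τ = η := by
  apply ext_functional
  intro u
  rw [hS, hτ]
  simp only [map_add, sqPair_tmul]
  rw [mul_comm (u b), F2_add_self, zero_add, F2_mul_self]

/-- primitivity descends along an injective map of "coalgebras". -/
theorem primitive_descend (ι : C →ₗ[F2] E) (hι : Function.Injective ι)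
    (ΔC : C →ₗ[F2] C ⊗[F2] C) (ΔE : E →ₗ[F2] E ⊗[F2] E)
    (hΔ : ∀ c, ΔE (ι c) = TensorProduct.map ι ι (ΔC c)) {bC c : C}
    (h : ΔE (ι c) = ι bC ⊗ₜ[F2] ι c + ι c ⊗ₜ[F2] ι bC) :
    ΔC c = bC ⊗ₜ[F2] c + c ⊗ₜ[F2] bC := by
  have hinj : Function.Injective (TensorProduct.map ι ι) := by
    have h1 : Function.Injective (LinearMap.lTensor E ι) := Module.Flat.lTensor_preserves_injective_linearMap ι hι
    have h2 : Function.Injective (LinearMap.rTensor C ι) := Module.Flat.rTensor_preserves_injective_linearMap ι hι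
    have h3 : TensorProduct.map ι ι = (LinearMap.lTensor E ι) ∘ₗ (LinearMap.rTensor C ι) := by
      rw [LinearMap.lTensor, LinearMap.rTensor, ← TensorProduct.map_comp]
      rfl
    rw [h3]
    exact h1.comp h2
  apply hinj
  rw [← hΔ, h]
  simp

/-- **The abstract cofibre theorem** (section 05 of the paper, output `COF`).

`C = H(Y)`, `E = H(Y ∪ e^{2m+2})`, `ι` the inclusion, `top` the coefficient of the top cell. -/
theorem cofibre (ι : C →ₗ[F2] E) (hι : Function.Injective ι) (top : E →ₗ[F2] F2)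
    (htop : ∀ y, top y = 0 → ∃ c, ι c = y)
    (grC : ℕ → Submodule F2 C) (grE : ℕ → Submodule F2 E)
    (hgr : ∀ n c, ι c ∈ grE n → c ∈ grC n)
    (ΔC : C →ₗ[F2] C ⊗[F2] C) (ΔE : E →ₗ[F2] E ⊗[F2] E)
    (hΔ : ∀ c, ΔE (ι c) = TensorProduct.map ι ι (ΔC c))
    (SqC : ℕ → C →ₗ[F2] C) (SqE : ℕ → E →ₗ[F2] E)
    (hSq : ∀ a c, SqE a (ι c) = ι (SqC a c))
    (h0 : ∀ x, SqE 0 x = x)
    (hdeg : ∀ n a y, y ∈ grE (n + a) → SqE a y ∈ grE n)
    (hbig : ∀ n a y, y ∈ grE n → n < a → SqE a y = 0)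
    (cartan : ∀ a y, ΔE (SqE a y) = ∑ p ∈ antidiagonal a, TensorProduct.map (SqE p.1) (SqE p.2) (ΔE y))
    (m : ℕ)
    (htopgr : ∀ n y, n ≠ 2 * m + 2 → y ∈ grE n → top y = 0)
    {bC η : C} {τ : E} (hb : ∀ a, 1 ≤ a → SqC a bC = 0) (hη : ∀ a, 1 ≤ a → SqC a η = 0)
    (hτgr : τ ∈ grE (2 * m + 2))
    (hτ : ΔE τ = ι bC ⊗ₜ[F2] τ + τ ⊗ₜ[F2] ι bC + ι η ⊗ₜ[F2] ι η)
    (hsq : ∀ u : E →ₗ[F2] F2, u (SqE (m + 1) τ) = sqPair u (ΔE τ)) :
    (∀ a, 1 ≤ a → ∃ c, SqE a τ = ι c ∧ ΔC c = bC ⊗ₜ[F2] c + c ⊗ₜ[F2] bC ∧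
        (∀ n, n + a = 2 * m + 2 → c ∈ grC n)) ∧
      SqE (m + 1) τ = ι η := by
  refine ⟨fun a ha => ?_, sq_top_eq ΔE (SqE (m + 1)) hsq hτ⟩
  have hb' : ∀ a, 1 ≤ a → SqE a (ι bC) = 0 := fun a ha => by rw [hSq, hb a ha, map_zero]
  have hη' : ∀ a, 1 ≤ a → SqE a (ι η) = 0 := fun a ha => by rw [hSq, hη a ha, map_zero]
  have hp := coprod_sq_top ΔE SqE h0 cartan hb' hη' hτ ha
  have hz : top (SqE a τ) = 0 := by
    rcases Nat.lt_or_ge (2 * m + 2) a with hlt | hge
    · rw [hbig _ _ _ hτgr hlt, map_zero]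
    · obtain ⟨n, hn⟩ := Nat.exists_eq_add_of_le' hge
      exact htopgr n _ (by omega) (hdeg n a τ (by rw [← hn]; exact hτgr))
  obtain ⟨c, hc⟩ := htop _ hz
  refine ⟨c, hc.symm, ?_, ?_⟩
  · apply primitive_descend ι hι ΔC ΔE hΔ
    rw [hc]; exact hp
  · intro n hn
    apply hgr
    rw [hc]
    exact hdeg n a τ (by rw [hn]; exact hτgr)

end

end Crest.Agent.R204.CofAlg670
end

-- ▼ part R204/Cofib_670
section

/-!
# Row 204, block E: the extension `0 → PH(K) → E → F2 τ → 0` for the simplicial cone `Cone K b x`,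
from a package `StPkg` of coproduct + dual Steenrod squares on `H F2 K`.
-/

set_option autoImplicit false

open scoped TensorProduct

namespace Crest.Agent.R204.Cofib670

open Crest.Agent.R204 Finset ConeH670 CofAlg670 Cone330

/-! ## the simplicial cone as an algebraic cone -/

section Cone

variable {K : SS} {b : K.S 0} {M : ℕ} {x : K.S M} (hx : IsSph b x)

/-- 330's cone is an instance of `ConeData` -/
theorem coneData (R : Type) [CommRing R] (hM : 0 < M) :
    ConeData (N.bd R K) (N.bd R (Cone K b x hx)) (N.map R (incl hx)) (N.sx R (top hx)) (N.sx R x)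
      (coef hx R) where
  inj := map_incl_injective hx
  comm m := (LinearMap.congr_fun (N.map_bd (incl hx)) m).symm
  de := bd_top hx R hM
  pi := coef_incl hx
  pe := coef_top hx R
  decomp y := ⟨_, decomp hx y⟩


/-- induction on homogeneous chains -/
theorem gr_induction {R : Type} [CommRing R] {L : SS} {n : ℕ} {p : N R L → Prop} {c : N R L}
    (hc : c ∈ N.gr R L n) (h0 : p 0) (hadd : ∀ a b, p a → p b → p (a + b))
    (hs : ∀ (r : R) (y : L.S n), p (r • N.sx R y)) : p c := by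
  obtain ⟨c, hc', rfl⟩ := hc
  have : ∀ c ∈ Ch.gr R L n, p (Submodule.mkQ _ c) := by
    intro c hc
    refine Submodule.span_induction (p := fun c _ => ∀ r : R, p (Submodule.mkQ _ (r • c)))
      ?_ ?_ ?_ ?_ hc 1 |> fun h => by simpa using h
    · rintro _ ⟨y, rfl⟩ r
      rw [map_smul]
      exact hs r y
    · intro r
      rw [smul_zero, map_zero]; exact h0
    · intro a b _ _ ha hb r
      rw [smul_add, map_add]; exact hadd _ _ (ha r) (hb r)
    · intro s a _ ha r
      rw [smul_smul]; exact ha _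
  exact this c hc'

theorem sx_mem_gr {R : Type} [CommRing R] {L : SS} {n : ℕ} (y : L.S n) : N.sx R y ∈ N.gr R L n :=
  ⟨_, Submodule.subset_span ⟨y, rfl⟩, rfl⟩

theorem map_mem_gr {R : Type} [CommRing R] {K L : SS} (f : SS.Hom K L) {n : ℕ} {c : N R K}
    (hc : c ∈ N.gr R K n) : N.map R f c ∈ N.gr R L n := by
  refine gr_induction (p := fun c => N.map R f c ∈ N.gr R L n) hc ?_ ?_ ?_
  · rw [map_zero]; exact zero_mem _
  · intro a b ha hb; rw [map_add]; exact add_mem ha hb
  · intro r y; rw [map_smul, N.map_sx]; exact Submodule.smul_mem _ _ (sx_mem_gr _)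

theorem coef_gr {R : Type} [CommRing R] {n : ℕ} (hn : n ≠ M + 1) {c : N R (Cone K b x hx)}
    (hc : c ∈ N.gr R (Cone K b x hx) n) : coef hx R c = 0 := by
  refine gr_induction (p := fun c => coef hx R c = 0) hc ?_ ?_ ?_
  · rw [map_zero]
  · intro a b ha hb; rw [map_add, ha, hb, add_zero]
  · intro r y
    rw [map_smul]
    rcases y with y | θ
    · change r • coef hx R (N.sx R ((incl hx).app n y)) = 0
      rw [coef_inl, smul_zero]
    · change r • coefCh hx R (Finsupp.single ⟨n, Sum.inr θ⟩ 1) = 0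
      rw [coefCh_inr, if_neg hn, smul_zero]

theorem proj_gr {R : Type} [CommRing R] {n : ℕ} {c : N R (Cone K b x hx)}
    (hc : c ∈ N.gr R (Cone K b x hx) n) : proj hx R c ∈ N.gr R K n := by
  refine gr_induction (p := fun c => proj hx R c ∈ N.gr R K n) hc ?_ ?_ ?_
  · rw [map_zero]; exact zero_mem _
  · intro a b ha hb; rw [map_add]; exact add_mem ha hb
  · intro r y
    rw [map_smul]
    refine Submodule.smul_mem _ _ ?_
    rcases y with y | θ
    · change proj hx R (N.sx R ((incl hx).app n y)) ∈ _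
      rw [proj_inl]; exact sx_mem_gr _
    · change (Submodule.Quotient.mk (projCh hx R (Finsupp.single ⟨n, Sum.inr θ⟩ 1)) : N R K) ∈ _
      rw [projCh_inr]; exact zero_mem _

theorem mem_H_gr {R : Type} [CommRing R] {L : SS} {n : ℕ} {y : H R L} :
    y ∈ H.gr R L n ↔ ∃ z, ∃ hz : N.bd R L z = 0, z ∈ N.gr R L n ∧ Hd.mk _ z hz = y := by
  constructor
  · rintro ⟨⟨z, hz⟩, hzn, rfl⟩
    exact ⟨z, hz, hzn, rfl⟩
  · rintro ⟨z, hz, hzn, rfl⟩
    exact ⟨⟨z, hz⟩, hzn, rfl⟩


/-- homogeneous classes of the cone coming from `K` come from homogeneous classes -/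
theorem mem_gr_of_inc {R : Type} [CommRing R] (hM : 0 < M)
    (hinj : Function.Injective (coneData hx R hM).inc) {n : ℕ} {c : H R K}
    (hc : (coneData hx R hM).inc c ∈ H.gr R _ n) : c ∈ H.gr R K n := by
  obtain ⟨z, hz, hzn, he⟩ := mem_H_gr.1 hc
  have h1 : coef hx R z = 0 := by
    have := congrArg (coneData hx R hM).top he
    rwa [ConeData.top_inc, ConeData.top_mk] at this
  have h2 : z = N.map R (incl hx) (proj hx R z) := by
    conv_lhs => rw [decomp hx z, h1, zero_smul, add_zero]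
  have h3 : N.bd R K (proj hx R z) = 0 := by
    have := (bd_eq_zero_iff hx hM z).1 hz
    rwa [h1, zero_smul, add_zero] at this
  have h4 : c = Hd.mk _ (proj hx R z) h3 := by
    apply hinj
    rw [ConeData.inc_mk, ← he, Hd.mk_eq_mk]
    exact ⟨0, by rw [← h2, sub_self, map_zero]⟩
  rw [h4]
  exact mem_H_gr.2 ⟨_, h3, proj_gr hx hzn, rfl⟩

end Cone

/-! ## coproduct + Steenrod package -/

/-- coproduct and dual Steenrod squares on `H F2 K`, with the properties used for the cofibre. -/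
structure StPkg where
  cop : ∀ K : SS, H F2 K →ₗ[F2] H F2 K ⊗[F2] H F2 K
  cop_nat : ∀ {K L : SS} (f : SS.Hom K L) (y : H F2 K),
    cop L (H.map F2 f y) = TensorProduct.map (H.map F2 f) (H.map F2 f) (cop K y)
  Sq : ∀ K : SS, ℕ → (H F2 K →ₗ[F2] H F2 K)
  Sq_nat : ∀ {K L : SS} (f : SS.Hom K L) (a : ℕ) (y : H F2 K),
    Sq L a (H.map F2 f y) = H.map F2 f (Sq K a y)
  Sq_zero : ∀ (K : SS) (y : H F2 K), Sq K 0 y = y
  Sq_deg : ∀ (K : SS) (n a : ℕ) (y : H F2 K), y ∈ H.gr F2 K (n + a) → Sq K a y ∈ H.gr F2 K n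
  Sq_unst : ∀ (K : SS) (n a : ℕ) (y : H F2 K), y ∈ H.gr F2 K n → n < 2 * a → Sq K a y = 0
  cartan : ∀ (K : SS) (a : ℕ) (y : H F2 K), cop K (Sq K a y) =
    ∑ p ∈ antidiagonal a, TensorProduct.map (Sq K p.1) (Sq K p.2) (cop K y)
  topSq : ∀ (K : SS) (n : ℕ) (y : H F2 K), y ∈ H.gr F2 K (2 * n) →
    ∀ u : H F2 K →ₗ[F2] F2, u (Sq K n y) = sqPair u (cop K y)

/-- class of a vertex -/
noncomputable def vtx {K : SS} (b : K.S 0) : H F2 K :=
  Hd.mk _ (N.sx F2 b) (by
    rw [N.sx, N.bd_mk, Ch.bd_single_zero]; rfl)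

theorem vtx_mem {K : SS} (b : K.S 0) : vtx b ∈ H.gr F2 K 0 := mem_H_gr.2 ⟨_, _, sx_mem_gr b, rfl⟩

/-- **output of block E** (`COF`) -/
theorem cofib (S : StPkg) {K : SS} {b : K.S 0} (m : ℕ) {x : K.S (2 * m + 1)} (hx : IsSph b x)
    {v : N F2 K} (hv : N.bd F2 K v = N.sx F2 x) {η : H F2 K}
    (hη : ∀ a, 1 ≤ a → S.Sq K a η = 0)
    {T : N F2 (Cone K b x hx)} (hT : N.bd F2 _ T = 0) (hTgr : T ∈ N.gr F2 _ (2 * m + 2))
    (_hT1 : coef hx F2 T = 1)
    (hcop : S.cop _ (Hd.mk _ T hT) =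
      H.map F2 (incl hx) (vtx b) ⊗ₜ[F2] Hd.mk _ T hT + Hd.mk _ T hT ⊗ₜ[F2] H.map F2 (incl hx) (vtx b)
        + H.map F2 (incl hx) η ⊗ₜ[F2] H.map F2 (incl hx) η) :
    Function.Injective (H.map F2 (incl hx)) ∧
    ∃ c : ℕ → H F2 K,
      (∀ a, 1 ≤ a → S.Sq _ a (Hd.mk _ T hT) = H.map F2 (incl hx) (c a)) ∧
      (∀ a, 1 ≤ a → S.cop K (c a) = vtx b ⊗ₜ[F2] c a + c a ⊗ₜ[F2] vtx b) ∧
      (∀ a, 1 ≤ a → a ≤ 2 * m + 1 → c a ∈ H.gr F2 K (2 * m + 2 - a)) ∧
      (∀ a, 2 * m + 1 < a → c a = 0) ∧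
      c (m + 1) = η := by
  have hM : 0 < 2 * m + 1 := Nat.succ_pos _
  have hinj : Function.Injective (coneData hx F2 hM).inc :=
    (coneData hx F2 hM).inc_injective hv N.bd_bd
  have hinj' : Function.Injective (H.map F2 (incl hx)) := hinj
  have hTcl : Hd.mk _ T hT ∈ H.gr F2 (Cone K b x hx) (2 * m + 2) := mem_H_gr.2 ⟨T, hT, hTgr, rfl⟩
  have hb : ∀ a, 1 ≤ a → S.Sq K a (vtx b) = 0 := fun a ha =>
    S.Sq_unst K 0 a _ (vtx_mem b) (by omega)
  have hbig : ∀ n a (y : H F2 (Cone K b x hx)), y ∈ H.gr F2 _ n → n < a → S.Sq _ a y = 0 :=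
    fun n a y hy hna => S.Sq_unst _ n a y hy (by omega)
  obtain ⟨h1, h2⟩ := cofibre (C := H F2 K) (E := H F2 (Cone K b x hx)) (H.map F2 (incl hx)) hinj'
    (coneData hx F2 hM).top (fun y hy => (coneData hx F2 hM).exists_inc hy)
    (H.gr F2 K) (H.gr F2 _) (fun n c hc => mem_gr_of_inc hx hM hinj hc)
    (S.cop K) (S.cop _) (S.cop_nat _) (S.Sq K) (S.Sq _) (S.Sq_nat _) (S.Sq_zero _)
    (fun n a y hy => S.Sq_deg _ n a y hy) hbig (S.cartan _) m
    (fun n y hn hy => by
      obtain ⟨z, hz, hzn, rfl⟩ := mem_H_gr.1 hy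
      rw [ConeData.top_mk]
      exact coef_gr hx hn hzn)
    hb hη hTcl hcop (S.topSq _ (m + 1) _ hTcl)
  refine ⟨hinj', ?_⟩
  classical
  have hex : ∀ a, ∃ c : H F2 K, 1 ≤ a → (S.Sq _ a (Hd.mk _ T hT) = H.map F2 (incl hx) c ∧
      S.cop K c = vtx b ⊗ₜ[F2] c + c ⊗ₜ[F2] vtx b ∧
      (∀ n, n + a = 2 * m + 2 → c ∈ H.gr F2 K n)) := by
    intro a
    by_cases ha : 1 ≤ a
    · obtain ⟨c, hc⟩ := h1 a ha
      exact ⟨c, fun _ => hc⟩
    · exact ⟨0, fun h => absurd h ha⟩
  choose c hc using hex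
  refine ⟨c, fun a ha => (hc a ha).1, fun a ha => (hc a ha).2.1,
    fun a ha ha' => (hc a ha).2.2 _ (by omega), fun a ha => ?_, ?_⟩
  · apply hinj'
    rw [← (hc a (by omega)).1, map_zero]
    exact S.Sq_unst _ _ a _ hTcl (by omega)
  · apply hinj'
    rw [← (hc (m + 1) (by omega)).1, h2]

end Crest.Agent.R204.Cofib670
end

-- ▼ part R204/FCone_330
section

/-!
# Row 204, block E (helper330): FactCone, one stage, for an arbitrary loop structure

* `ezd_cop_mk`  : from the chain level coproduct to 847's `ezd.cop`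
* `SphCls`      : classes of spherical simplices; `SphCls.sigma`
* `fcone_step`  : the existential of `Spec114.Sph.FactCone`
-/

set_option autoImplicit false

noncomputable section

namespace Crest.Agent.R204.FCone330

open Sus330 Cone330 Cofib670 EZ847
open EZ271 (cross cop aw crossT)
open Sus330.LoopStr (cY bv)
open scoped TensorProduct

/-! ## coproduct on homology from the coproduct on chains -/

section cop
variable {K : SS}

theorem mk_add_mk {R M : Type} [CommRing R] [AddCommGroup M] [Module R M] {d : M →ₗ[R] M} {z z' : M}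
    (hz : d z = 0) (hz' : d z' = 0) :
    Hd.mk d z hz + Hd.mk d z' hz' = Hd.mk d (z + z') (by rw [map_add, hz, hz', add_zero]) := rfl

theorem aw_diag (z : N F2 K) : aw F2 (N.map F2 (SS.diag K) z) = cop F2 z := by
  rw [aw, LinearMap.comp_apply, EZ271.cop_map, ← LinearMap.comp_apply, ← TensorProduct.map_comp]
  have h1 : N.map F2 (SS.fst K K) ∘ₗ N.map F2 (SS.diag K) = LinearMap.id :=
    LinearMap.ext fun c => by
      rw [LinearMap.comp_apply, ← Coalg847.nMap_comp]
      exact Coalg847.nMap_id c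
  have h2 : N.map F2 (SS.snd K K) ∘ₗ N.map F2 (SS.diag K) = LinearMap.id :=
    LinearMap.ext fun c => by
      rw [LinearMap.comp_apply, ← Coalg847.nMap_comp]
      exact Coalg847.nMap_id c
  rw [h1, h2, TensorProduct.map_id, LinearMap.id_apply]

/-- `ezd.cop` of a class from the coproduct of the cycle -/
theorem ezd_cop_mk {z b s : N F2 K} (hz : N.bd F2 K z = 0) (hb : N.bd F2 K b = 0)
    (hs : N.bd F2 K s = 0) (h : cop F2 z = b ⊗ₜ z + z ⊗ₜ b + s ⊗ₜ s) :
    ezd.cop K (Hd.mk _ z hz) = Hd.mk _ b hb ⊗ₜ Hd.mk _ z hz + Hd.mk _ z hz ⊗ₜ Hd.mk _ b hb +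
      Hd.mk _ s hs ⊗ₜ Hd.mk _ s hs := by
  apply (ezd.cr K K).injective
  have key := EZ271.hEZ_homotopy F2 (N.map F2 (SS.diag K) z)
  have hzz : N.bd F2 _ (N.map F2 (SS.diag K) z) = 0 := by
    rw [← EZ271.map_bd', hz, map_zero]
  rw [hzz, map_zero, add_zero, aw_diag, h, map_add, map_add, EZ271.crossT_tmul,
    EZ271.crossT_tmul, EZ271.crossT_tmul] at key
  rw [ezd.cr_cop, map_add, map_add, ezd.cr_mk, ezd.cr_mk, ezd.cr_mk, Coalg847.hMap_mk,
    mk_add_mk, mk_add_mk, eq_comm, Hd.mk_eq_mk]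
  exact ⟨EZ271.hEZ F2 (N.map F2 (SS.diag K) z), key⟩

end cop

/-! ## classes of spherical simplices -/

/-- the class of a spherical simplex of dimension `n` -/
def SphCls {K : SS} (b : K.S 0) (n : ℕ) (y : H F2 K) : Prop :=
  ∃ (a : K.S n) (_ : IsSph b a) (hz : N.bd F2 K (N.sx F2 a) = 0), y = Hd.mk _ (N.sx F2 a) hz

variable {P Y : Type} [TopologicalSpace P] [TopologicalSpace Y] {g0 : P} {y0 : Y}

theorem sub_eq_add_F2 {M : Type*} [AddCommGroup M] [Module F2 M] (x y : M) : x - y = x + y := by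
  rw [sub_eq_add_neg, neg_eq_self_F2]

/-- spherical classes go to spherical classes under the loop suspension -/
theorem SphCls.sigma' (Λ : LoopStr P Y g0 y0) {n : ℕ} {y : H F2 (SS.Sing P)}
    (h : SphCls (K := SS.Sing P) (cY g0 0) n y) :
    ∃ (x : (SS.Sing Y).S (n + 1)) (a' : (SS.Sing P).S n) (_ : IsSph (K := SS.Sing Y) (cY y0 0) x)
      (_ : IsSph (K := SS.Sing P) (cY g0 0) a') (ha : N.bd F2 _ (N.sx F2 a') = 0)
      (hx : N.bd F2 _ (N.sx F2 x) = 0),
      Λ.sig F2 (N.sx F2 a') = N.sx F2 x ∧ y = Hd.mk _ (N.sx F2 a') ha ∧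
      Λ.sigma y = Hd.mk _ (N.sx F2 x) hx := by
  obtain ⟨a, has, hz, rfl⟩ := h
  obtain ⟨x, a', hx, ha', hsig, hw⟩ := Λ.exists_adj_chain a has
  obtain ⟨w, _, hw⟩ := hw F2
  have ha0 : N.bd F2 _ (N.sx F2 a') = 0 := by
    have h1 : N.bd F2 _ (N.bd F2 _ w) = 0 := N.bd_bd w
    rw [hw, map_sub, hz, sub_zero] at h1
    exact h1
  have hx0 : N.bd F2 _ (N.sx F2 x) = 0 := by
    rw [← hsig F2, Λ.bd_sig F2, ha0, map_zero, neg_zero]
  have he : Hd.mk _ (N.sx F2 a) hz = Hd.mk _ (N.sx F2 a') ha0 := by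
    rw [eq_comm, Hd.mk_eq_mk]
    exact ⟨w, hw⟩
  refine ⟨x, a', hx, ha', ha0, hx0, hsig F2, he, ?_⟩
  rw [he, Λ.sigma_mk]
  congr 1
  exact hsig F2

theorem SphCls.sigma (Λ : LoopStr P Y g0 y0) {n : ℕ} {y : H F2 (SS.Sing P)}
    (h : SphCls (K := SS.Sing P) (cY g0 0) n y) :
    SphCls (K := SS.Sing Y) (cY y0 0) (n + 1) (Λ.sigma y) := by
  obtain ⟨x, a', hx, ha', ha0, hx0, hsig, he, hs⟩ := h.sigma' Λ
  exact ⟨x, hx, hx0, hs⟩

/-! ## one stage of `FactCone` -/

/-- **block E for one loop structure**: `a` spherical of dimension `2m` in `P = ΩY` with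
`[a] = ξ * ξ`, adjoint class zero. -/
theorem fcone_step (S : StPkg) (hcop : ∀ K, S.cop K = ezd.cop K)
    (hBM : ∀ K, Spec114.Tower.DualBM (S.Sq K)) (Λ : LoopStr P Y g0 y0) {m : ℕ} (hm : 1 ≤ m)
    {ξ : H F2 (SS.Sing P)} (hξ : ξ ∈ H.gr F2 _ m)
    (hSq : ∀ a, 1 ≤ a → S.Sq _ a (Λ.sigma ξ) = 0)
    {y : H F2 (SS.Sing P)} (hy : SphCls (K := SS.Sing P) (cY g0 0) (2 * m) y)
    (hyy : y = H.map F2 Λ.muH (ezd.cr _ _ (ξ ⊗ₜ ξ))) (h0 : Λ.sigma y = 0) :
    ∃ (E : Type) (_ : AddCommGroup E) (_ : Module F2 E) (SE : ℕ → (E →ₗ[F2] E))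
      (ι : H F2 (SS.Sing Y) →ₗ[F2] E) (τ : E),
      Spec114.Tower.DualBM SE ∧ (∀ y : E, SE 0 y = y) ∧ Function.Injective ι ∧
      (∀ (a : ℕ) (y : H F2 (SS.Sing Y)), SE a (ι y) = ι (S.Sq _ a y)) ∧
      (∀ a, 1 ≤ a → ∃ s : H F2 (SS.Sing Y),
        ezd.cop _ s = vtx (K := SS.Sing Y) (cY y0 0) ⊗ₜ s + s ⊗ₜ vtx (K := SS.Sing Y) (cY y0 0) ∧
        s ∈ H.gr F2 _ (2 * m + 2 - a) ∧ SE a τ = ι s) ∧
      SE (m + 1) τ = ι (Λ.sigma ξ) := by
  obtain ⟨x, a', hx, ha', ha0, hx0, hsig, hya, hs⟩ := hy.sigma' Λ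
  -- a homogeneous cycle for `ξ`
  obtain ⟨z, hz, hzgr, rfl⟩ := mem_H_gr.1 hξ
  -- the boundary of `x`
  rw [hs, Hd.mk_eq_zero] at h0
  obtain ⟨v, hv⟩ := h0
  -- the product relation
  have hmu : N.bd F2 _ (N.map F2 Λ.muH (cross F2 z z)) = 0 := by
    rw [← EZ271.map_bd', EZ271.bd_cross, hz]
    simp
  have hrel : Hd.mk _ (N.map F2 Λ.muH (cross F2 z z)) hmu = Hd.mk _ (N.sx F2 a') ha0 := by
    rw [← hya, hyy, ezd.cr_mk, Coalg847.hMap_mk]
    rfl
  have hg1 : N.map F2 Λ.muH (cross F2 z z) ∈ N.gr F2 _ (2 * m) :=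
    Sus330.map_mem_gr F2 _ (mem_gr_congr F2 (by omega) (Sus330.cross_mem_gr F2 hzgr hzgr))
  have hg2 : N.sx F2 a' ∈ N.gr F2 _ (2 * m) := Sus330.mem_gr_sx F2 a'
  obtain ⟨w, hwgr, hw⟩ := (Gr334.mk_gr_eq_mk hg1 hg2).1 hrel
  rw [sub_eq_add_F2] at hw
  have hsz : N.bd F2 _ (Λ.sig F2 z) = 0 := by rw [Λ.bd_sig F2, hz, map_zero, neg_zero]
  have hT0 := Λ.bd_T hx hz (aug_of_mem_gr hm hzgr) hsig hw
  have hTgr := Λ.T_mem_gr hx hzgr hwgr
  have hb0 : N.bd F2 _ (bv y0) = 0 := Coalg847.bd_vertex _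
  have hc := Λ.cop_T hx z w
  have hcopT := ezd_cop_mk hT0 (b := N.map F2 (incl hx) (bv y0))
    (s := N.map F2 (incl hx) (Λ.sig F2 z)) (by rw [← EZ271.map_bd', hb0, map_zero])
    (by rw [← EZ271.map_bd', hsz, map_zero]) hc
  obtain ⟨hinj, c, h1, h2, h3, h4, h5⟩ := cofib S m hx hv (η := Hd.mk _ (Λ.sig F2 z) hsz)
    (by rw [← Λ.sigma_mk z hz]; exact hSq) hT0 hTgr (Λ.coef_T hx z w) (by rw [hcop]; exact hcopT)
  refine ⟨H F2 (Cone (SS.Sing Y) (cY y0 0) x hx), inferInstance, inferInstance, S.Sq _,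
    H.map F2 (incl hx), Hd.mk _ _ hT0, hBM _, S.Sq_zero _, hinj, fun a y => S.Sq_nat _ a y,
    fun a ha => ⟨c a, ?_, ?_, h1 a ha⟩, ?_⟩
  · rw [← hcop]; exact h2 a ha
  · rcases le_or_gt a (2 * m + 1) with h | h
    · exact h3 a ha h
    · rw [h4 a h]; exact zero_mem _
  · rw [h1 (m + 1) (by omega), h5, Λ.sigma_mk]

end Crest.Agent.R204.FCone330
end
end

-- ▼ part R204/FConeT_330
section

/-!
# Row 204, block E (helper330): `FactCone` for a tower of loop structures

`factCone_of` : `Spec114.Sph.FactCone` for 478's `mkSph X A h0 sub`, when `X.H k` is (linearly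
identified with) `H F2 (Sing (P k))`, `P k` is a loop space of `P (k+1)` (`LoopStr`), the square in
`X.H k` is the Pontryagin square for `muH`, `X.σ` is `LoopStr.sigma`, the coproduct is `ezd.cop` and
the classes `h0 α` are classes of spherical simplices.
-/

set_option autoImplicit false

noncomputable section

namespace Crest.Agent.R204.FCone330

open Sus330 Cone330 Cofib670 EZ847 Spec114 FactSph478
open Sus330.LoopStr (cY bv)
open scoped TensorProduct

/-- a spherical class from 478's `scl` -/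
theorem sphCls_scl {K : SS} {b : K.S 0} {e : ℕ} (x : K.S (e + 1)) (hx : IsSph b x) :
    SphCls b (e + 1) (SphSS478.scl x hx) := ⟨x, hx, _, rfl⟩

section tower

variable (X : Tower) (A : Type) (h0 : A → X.H 0) (sub : A → A → A) {D d : ℕ}
  (P : ℕ → Type) [∀ k, TopologicalSpace (P k)] (g : ∀ k, P k)
  (Λ : ∀ k, k ≤ D + 1 → LoopStr (P k) (P (k + 1)) (g k) (g (k + 1)))
  (e : ∀ k, X.H k ≃ₗ[F2] H F2 (SS.Sing (P k)))

include Λ in
theorem sphCls_hk (hs : ∀ k (h : k ≤ D + 1) (y : X.H k), e (k + 1) (X.σ k y) = (Λ k h).sigma (e k y))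
    {y : X.H 0} (hy : SphCls (K := SS.Sing (P 0)) (cY (g 0) 0) d (e 0 y)) :
    ∀ k ≤ D + 2, SphCls (K := SS.Sing (P k)) (cY (g k) 0) (d + k) (e k (hk X y k)) := by
  intro k
  induction k with
  | zero => intro _; exact hy
  | succ k ih =>
    intro hk'
    show SphCls _ (d + k + 1) (e (k + 1) (X.σ k (hk X y k)))
    rw [hs k (by omega)]
    exact (ih (by omega)).sigma _

/-- **block E**: `FactCone` -/
theorem factCone_of (hσ : X.FactSigma D)
    (hgr : ∀ k ≤ D + 2, ∀ (t : ℕ) (y : X.H k), y ∈ X.gr k t ↔ e k y ∈ H.gr F2 _ t)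
    (hmul : ∀ k (h : k ≤ D + 1) (ξ : X.H k),
      e k (ξ * ξ) = H.map F2 (Λ k h).muH (ezd.cr _ _ (e k ξ ⊗ₜ e k ξ)))
    (hs : ∀ k (h : k ≤ D + 1) (y : X.H k), e (k + 1) (X.σ k y) = (Λ k h).sigma (e k y))
    (hΔ : ∀ k ≤ D + 2, ∀ s : X.H k, ezd.cop _ (e k s) =
      vtx (K := SS.Sing (P k)) (cY (g k) 0) ⊗ₜ e k s + e k s ⊗ₜ vtx (K := SS.Sing (P k)) (cY (g k) 0) →
      s ∈ X.prim k)
    (S : StPkg) (hcop : ∀ K, S.cop K = ezd.cop K) (hBM : ∀ K, Tower.DualBM (S.Sq K))
    (hSq : ∀ k ≤ D + 2, ∀ (a : ℕ) (y : X.H k), e k (X.Sq k a y) = S.Sq _ a (e k y))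
    (hsph : ∀ α, SphCls (K := SS.Sing (P 0)) (cY (g 0) 0) d (e 0 (h0 α))) :
    (mkSph X A h0 sub).FactCone D d := by
  intro k hk1 hkd α m ξ hm h2m hξ hprim hkill hsq hz
  have hk' : k ≤ D + 1 := by omega
  have hy := sphCls_hk X P g Λ e hs (hsph α) k (by omega)
  rw [← h2m] at hy
  have hsqk : ∀ a, 1 ≤ a → S.Sq _ a ((Λ k hk').sigma (e k ξ)) = 0 := by
    intro a ha
    rw [← hs, ← hSq (k + 1) (by omega), ← (hσ k hk').2.2.2.1, hkill a ha, map_zero, map_zero]
  have hh : (mkSph X A h0 sub).h k α = hk X (h0 α) k := rfl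
  have hh1 : (mkSph X A h0 sub).h (k + 1) α = X.σ k (hk X (h0 α) k) := rfl
  rw [hh] at hsq
  rw [hh1] at hz
  obtain ⟨E, i1, i2, SE, ι, τ, a1, a2, a3, a4, a5, a6⟩ :=
    fcone_step S hcop hBM (Λ k hk') hm ((hgr k (by omega) m ξ).1 hξ) hsqk hy
      (by rw [hsq, hmul k hk']) (by rw [← hs, hz, map_zero])
  refine ⟨E, i1, i2, SE, ι ∘ₗ (e (k + 1)).toLinearMap, τ, a1, a2, a3.comp (e (k + 1)).injective, ?_,
    ?_, ?_⟩
  · intro a y
    show SE a (ι (e (k + 1) y)) = ι (e (k + 1) (X.Sq (k + 1) a y))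
    rw [a4, hSq (k + 1) (by omega)]
  · intro a ha
    obtain ⟨s, s1, s2, s3⟩ := a5 a ha
    refine ⟨(e (k + 1)).symm s, ⟨hΔ (k + 1) (by omega) _ ?_, ?_⟩, ?_⟩
    · rw [LinearEquiv.apply_symm_apply]; exact s1
    · exact (hgr (k + 1) (by omega) _ _).2 (by rw [LinearEquiv.apply_symm_apply]; exact s2)
    · rw [LinearMap.comp_apply, LinearEquiv.coe_coe, LinearEquiv.apply_symm_apply]; exact s3
  · rw [LinearMap.comp_apply, LinearEquiv.coe_coe, hs k hk']; exact a6

end tower

end Crest.Agent.R204.FCone330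
end
end

-- ▼ part R204/StPkg_898
section

/-!
# Row 204, block S/E (helper898): the `StPkg` of helper670 for `Sq252.Sq` and `EZ847.ezd`
-/

set_option autoImplicit false

noncomputable section

namespace Crest.Agent.R204.C6898

open SS TensorProduct Coalg847 EZ271 EZ847
open Finset.HasAntidiagonal (antidiagonal mem_antidiagonal)

/-- the Steenrod package -/
def stPkg : Cofib670.StPkg where
  cop K := Ez.cop K
  cop_nat f y := Ez.cop_nat f y
  Sq K a := Sq252.Sq K a
  Sq_nat f a y := (Sq252.Sq_map f a y).symm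
  Sq_zero _ y := Sq252.Sq_zero y
  Sq_deg K n a y hy := by
    have := Sq252.Sq_mem_gr (l := a) hy
    rwa [Nat.add_sub_cancel] at this
  Sq_unst _ _ _ _ hy h := Sq252.Sq_unst hy h
  cartan _ a y := cop_Sq252 a y
  topSq K n y hy u := by
    rw [top_Sq u hy]
    generalize Ez.cop K y = t
    induction t with
    | zero => simp
    | add a b ha hb => simp only [map_add, ha, hb]
    | tmul a b => rfl

end Crest.Agent.R204.C6898
end
end

-- ▼ part R204/InstCone_478
section

/-!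
# Row 204, block E (helper478): `FactCone` for the concrete tower
-/

set_option autoImplicit false
set_option linter.style.haveILetI false

noncomputable section

namespace Crest.Agent.R204.InstSph478

open scoped TensorProduct _root_.Topology _root_.unitInterval _root_.Topology.Homotopy
open Crest.Agent.R204 Spec114 Cone330 SphSS478 FactSph478 Inst194 Freu297 Sus330

theorem map_mu0_loopC {M a b : ℕ} {Z : Type} [TopologicalSpace Z] {z₀ : Z} (h : a = b + 1)
    (hM : 1 ≤ M) (ha : M + 1 ≤ a) :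
    H.map F2 (mu0 ha : SS.Hom ((SS.Sing (Ω^ (Fin a) Z z₀)).prod (SS.Sing (Ω^ (Fin a) Z z₀)))
      (SS.Sing (Ω^ (Fin a) Z z₀))) = H.map F2 (loopC (Z := Z) (z₀ := z₀) h).muH := by
  subst h
  haveI : Nontrivial (Fin (b + 1)) := Fin.nontrivial_iff_two_le.2 (two_le hM ha)
  exact Sigma88.map_mulS HtpInv334.homotopyInv (Hsp696.halves (i0 ha))

/-- **FactCone for the concrete tower** -/
theorem factCone (p : Par) {D e : ℕ} (hσ : p.tower.FactSigma D) (hK : D + 2 ≤ p.K) :
    (pSph p e).FactCone D (e + 1) := by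
  have hlt : ∀ k, k ≤ D + 1 → k < p.K := fun k hk => by omega
  refine FCone330.factCone_of p.tower (Asph (p.S 0) HspSS696.eS e) (fun α => scl α.1 α.2) _
    (fun k => p.X k) (fun k => GenLoop.const) (fun k hk => loopX p.J0 (hlt k hk))
    (fun k => LinearEquiv.refl F2 _) hσ (fun k _ t y => Iff.rfl) ?_ ?_ ?_ C6898.stPkg
    (fun K => rfl) (fun K => Adem596.dualBM_Sq252 K) (fun k _ a y => rfl) ?_
  · intro k hk ξ
    exact congrArg (fun f : H F2 ((p.S k).prod (p.S k)) →ₗ[F2] H F2 (p.S k) =>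
      f (EZ847.ezd.cr (p.S k) (p.S k) (ξ ⊗ₜ[F2] ξ))) (map_mu0_loopC (cd_succ (hlt k hk)) p.hM (p.hc k))
  · intro k hk y
    exact congrArg (fun f : H F2 (p.S k) →ₗ[F2] H F2 (p.S (k + 1)) => f y)
      (dif_pos (hlt k hk) : p.sig k = _)
  · intro k _ s hs
    exact hs.trans (add_comm _ _)
  · intro α
    exact FCone330.sphCls_scl α.1 α.2

end Crest.Agent.R204.InstSph478
end
end

-- ▼ part R204/BSInst_94
section

/-!
# Row 204, leaf B.S in the form of helper478 (`Hopf11.BS`)
-/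

set_option autoImplicit false

namespace Crest.Agent.R204.OmS94

open Crest.Agent.R204 Crest.Agent.R204.SS

/-- `H_{2d}(Ω S^{d+1}; F2)` is spanned by `x²` -/
theorem bs : Hopf11.BS := by
  intro e x hx hx0 y hy
  rcases omS_sq (k := e + 1) (by omega) hx hx0 (y := y) hy with h | h
  · exact ⟨0, by rw [h, zero_smul]⟩
  · exact ⟨1, by rw [one_smul]; exact h⟩

end Crest.Agent.R204.OmS94
end

-- ▼ part R204/Final_114

/-!
# Row 204: assembly of the facts of the concrete tower (helper114)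

`pSph p e` (478) : the spherical classes of stem `e + 1` of the concrete tower `p.tower` (194).
`Rest p e D` : the facts on `p.tower` which are not yet unconditional.
`allFacts_of` : `Final478.AllFacts` from `Rest`.
-/

set_option autoImplicit false
set_option linter.style.haveILetI false

noncomputable section

namespace Crest.Agent.R204.Final114

open Crest.Agent.R204 Spec114 Inst194 FactSph478 SphSS478 Freu297 InstSph478
open scoped TensorProduct

/-- the facts on `p.tower` which are still hypotheses -/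
structure Rest (p : Par) (e D : ℕ) : Prop where
  poly0 : p.tower.FactPoly0 D
  four : (pSph p e).FactFour (e + 1)

/-- all facts -/
theorem facts {p : Par} {e D : ℕ} (hD : 2 * (e + 1) + 4 ≤ D) (hM : D + 3 ≤ p.M)
    (hJ : 2 * (p.M + 1) ≤ p.J0) (hK : D + 2 ≤ p.K) (R : Rest p e D) :
    Facts p.tower (pSph p e) D (e + 1) where
  d_pos := by omega
  dD := hD
  gr := p.factGr D
  eps := p.factEps D
  delta := p.factDelta D
  sq := p.factSq D
  bm := p.factBM D Adem596.dualBM_Sq252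
  t := p.factT (by omega)
  t0 := p.factT0 D
  gl2 := p.factGL2 (by omega) hJ
  q := p.factQ (by omega)
  f13 := p.fact13 (by omega)
  sigma := p.factSigma (by omega) hK
  x := p.factX (by omega) hK
  base := p.factBase D
  poly := PolyU979.factPoly' p (by omega) hK
  poly0 := R.poly0
  sph := factSph p (p.factSigma (by omega) hK)
  cone := InstSph478.factCone p (p.factSigma (by omega) hK) hK
  four := R.four

/-- the parameters; `J0 ≥ 16 (M + 1)` -/
def par (e N : ℕ) : Par where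
  M := 2 * (e + 1) + 4 + 3
  J0 := 16 * (2 * (e + 1) + 4 + 3 + 1) + N
  K := 2 * (e + 1) + 4 + 2
  hM := by omega
  hJ := by omega

theorem allFacts_of (R : ∀ e N : ℕ, Rest (par e N) e (2 * (e + 1) + 4)) : Final478.AllFacts := by
  intro e N
  refine ⟨par e N, 2 * (e + 1) + 4, ?_, by omega, ?_, ?_⟩
  · simp only [Par.n, par]; omega
  · simp only [par]; omega
  · exact facts le_rfl le_rfl (by simp only [par]; omega) le_rfl (R e N)

end Crest.Agent.R204.Final114
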