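import Crest.Agent.R204.E2_803
import Crest.Agent.R204.E_803
import Crest.Agent.R204.SQdef_803

-- ▼ part R204/Q_803
section

/-!
# Reduction theorems (row 204, leaf G5; helper803)
-/

set_option autoImplicit false
set_option linter.unusedSectionVars false

namespace Crest.Agent.R204.SQ803

open Co

section J
variable {J X Y : Type*} [Group X] [Group Y] [MulAction (X × Y) J] {n : ℕ}

/-- homogeneous elements of `S` -/
def HmS (M : ℕ) (s : Co X (Co Y (ZMod n))) : Prop :=
  ∀ x y, x.length + y.length ≠ M → (s.f x).f y = 0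

/-- invariant normalised elements of `S`, total length `M` -/
def SA (X Y : Type*) [Group X] [Group Y] (n M : ℕ) : AddSubgroup (Co X (Co Y (ZMod n))) where
  carrier := {s | NzS s ∧ HmS M s ∧ ∀ g : X × Y, aS g s = s}
  zero_mem' := ⟨NzS.zero, fun _ _ _ => rfl, fun g => map_zero _⟩
  add_mem' {F G} hF hG := ⟨hF.1.add hG.1, fun x y h => by
    rw [add_f, add_f, hF.2.1 x y h, hG.2.1 x y h, add_zero], fun g => by
    rw [map_add, hF.2.2, hG.2.2]⟩
  neg_mem' {F} hF := ⟨hF.1.neg, fun x y h => by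
    rw [neg_f, neg_f, hF.2.1 x y h, neg_zero], fun g => by rw [map_neg, hF.2.2]⟩


theorem NzE.kap {s : Co X (Co Y (ZMod n))} (hs : NzS s) : NzE (J := J) (kap s) :=
  ⟨rfl, fun l => by rw [kap_f]; split_ifs; exacts [hs, NzS.zero]⟩

theorem kap_mem_PA {M : ℕ} {s : Co X (Co Y (ZMod n))} (hs : s ∈ SA X Y n M) :
    kap s ∈ PA J X Y n (M + 1) := by
  refine ⟨NzE.kap hs.1, fun l x y h => ?_, fun g => ?_⟩
  · rw [kap_f]; split_ifs with hl
    · exact hs.2.1 x y (by omega)
    · rfl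
  · unfold aA
    rw [pull_kap, hs.2.2]

/-- differential in the `J` direction -/
def d1J : Co J (Co X (Co Y (ZMod n))) →+ Co J (Co X (Co Y (ZMod n))) where
  toFun F := ⟨fun l => dl l (nz F.f)⟩
  map_zero' := Co.ext fun l => by
    have h : nz (0 : Co J (Co X (Co Y (ZMod n)))).f = fun _ => 0 := by funext l; cases l <;> rfl
    show dl l (nz (0 : Co J (Co X (Co Y (ZMod n)))).f) = 0
    rw [h, dl_zero]
  map_add' F G := Co.ext fun l => by
    show dl l (nz (F + G).f) = _
    rw [nz_add, dl_add]; rfl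

theorem d1J_f (F : Co J (Co X (Co Y (ZMod n)))) (l : List J) : (d1J F).f l = dl l (nz F.f) := rfl

theorem htopJ (F : Co J (Co X (Co Y (ZMod n)))) (hF : F.f [] = 0) (K : ℕ)
    (h : ∀ k > K, cJ k F = 0) : cJ (K + 1) (Cx.δ F) = d1J (cJ K F) := by
  refine Co.ext fun l => ?_
  rw [cJ_f, d1J_f]
  split_ifs with hl
  · have h1 : F.f l = 0 := by
      have := congrArg (fun G => G.f l) (h (K + 1) (by omega))
      simpa [cJ_f, hl] using this
    rw [δ_of hF, h1, map_zero, smul_zero, add_zero]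
    refine dl_congr fun l' hl' => ?_
    rcases l' with _ | ⟨a, l'⟩
    · rw [hF]; rfl
    · rw [nz_cons, cJ_f, if_pos (by omega)]
  · refine (dl_eq_zero fun l' hl' => ?_).symm
    rcases l' with _ | ⟨a, l'⟩
    · rfl
    · rw [nz_cons, cJ_f, if_neg (by omega)]

theorem cJ_cJ (k : ℕ) (F : Co J (Co X (Co Y (ZMod n)))) : cJ k (cJ k F) = cJ k F := by
  refine Co.ext fun l => ?_
  rw [cJ_f, cJ_f]; split_ifs <;> rfl

theorem cJ_cJ' (j k : ℕ) (F : Co J (Co X (Co Y (ZMod n)))) (h : j ≠ k) : cJ j (cJ k F) = 0 := by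
  refine Co.ext fun l => ?_
  rw [cJ_f, cJ_f]
  split_ifs with h1 h2
  · exact absurd (h1.symm.trans h2) h
  · rfl
  · rfl

/-- contraction in the `J` direction -/
def hJ (j0 : J) (G : Co J (Co X (Co Y (ZMod n)))) : Co J (Co X (Co Y (ZMod n))) :=
  ⟨fun l => ⟨fun x => ⟨fun y => ((G.f ((((x.headD 1), (y.headD 1)) : X × Y) • j0 :: l)).f x).f y⟩⟩⟩

theorem hJ_f (j0 : J) (G : Co J (Co X (Co Y (ZMod n)))) (l : List J) (x : List X) (y : List Y) :
    (((hJ j0 G).f l).f x).f y =
      ((G.f ((((x.headD 1), (y.headD 1)) : X × Y) • j0 :: l)).f x).f y := rfl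

theorem hexJ (j0 : J) {M k : ℕ} (hk : 1 < k) {G : Co J (Co X (Co Y (ZMod n)))}
    (hG : G ∈ PA J X Y n (M + 1)) (hc : cJ k G = G) (hd : d1J G = 0) :
    ∃ H ∈ PA J X Y n M, cJ (k - 1) H = H ∧ d1J H = G := by
  have hG0 : ∀ l : List J, l.length ≠ k → G.f l = 0 := fun l hl => by
    rw [← hc, cJ_f, if_neg hl]
  refine ⟨hJ j0 G, ⟨⟨?_, fun l => ⟨?_, fun x => ?_⟩⟩, fun l x y h => ?_, fun g => ?_⟩, ?_, ?_⟩
  · refine Co.ext fun x => Co.ext fun y => ?_
    rw [hJ_f, hG0 _ (by simp; omega)]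
  · refine Co.ext fun y => ?_
    rw [hJ_f, (hG.1.2 _).1]
  · rw [hJ_f, (hG.1.2 _).2]
  · rw [hJ_f]
    exact hG.2.1 _ _ _ (by simp only [List.length_cons]; omega)
  · refine Co.ext fun l => Co.ext fun x => Co.ext fun y => ?_
    rw [aA_f, aS_f, hJ_f, hJ_f]
    rcases x with _ | ⟨a, x⟩
    · rw [List.map_nil, (hG.1.2 _).1, (hG.1.2 _).1]; rfl
    · rcases y with _ | ⟨b, y⟩
      · rw [List.map_nil, (hG.1.2 _).2, (hG.1.2 _).2]
      · have e : (((List.map (fun a => g.1 * a) (a :: x)).headD 1,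
            (List.map (fun b => g.2 * b) (b :: y)).headD 1) : X × Y) = g * (a, b) := rfl
        have h := congrArg (fun F => ((F.f (((a, b) : X × Y) • j0 :: l)).f (a :: x)).f (b :: y)) (hG.2.2 g)
        simp only [aA_f, aS_f, List.map_cons] at h
        rw [e, mul_smul]
        simp only [List.map_cons, List.headD_cons]
        exact h
  · refine Co.ext fun l => ?_
    rw [cJ_f]
    split_ifs with hl
    · rfl
    · refine Co.ext fun x => Co.ext fun y => ?_
      rw [hJ_f, hG0 _ (by simp; omega)]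
  · refine Co.ext fun l => Co.ext fun x => Co.ext fun y => ?_
    rw [d1J_f, dl_f, dl_f]
    have h0 : nz (hJ j0 G).f = (hJ j0 G).f := nz_of (by
      refine Co.ext fun x => Co.ext fun y => ?_
      rw [hJ_f, hG0 _ (by simp; omega)])
    rw [h0]
    have hc := contr ((((x.headD 1), (y.headD 1)) : X × Y) • j0) l (fun l' => ((G.f l').f x).f y)
    have hd' := congrArg (fun F => ((F.f ((((x.headD 1), (y.headD 1)) : X × Y) • j0 :: l)).f x).f y) hd
    simp only [d1J_f, dl_f, nz_of hG.1.1] at hd'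
    rw [hd'] at hc
    rw [hc]
    simp [hJ_f]

theorem redJ (j0 : J) {M : ℕ} {F : Co J (Co X (Co Y (ZMod n)))} (hF : F ∈ PA J X Y n (M + 1))
    (h : ∀ k > 1, cJ k (Cx.δ F) = 0) :
    ∃ z ∈ SA X Y n M, ∃ H ∈ PA J X Y n M, F = kap z + Cx.δ H := by
  obtain ⟨F', hF', H, hH, e, h0⟩ := dc (Cx.δ) d1J Cx.δδ cJ (PA J X Y n (M + 1)) (PA J X Y n M) 1
    (fun H hH => δ_mem_PA hH) (fun k F hF => cJ_mem_PA hF k)
    (fun F K hF h => htopJ F (by rcases hF with h | h <;> exact h.1.1) K h)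
    cJ_cJ cJ_cJ' (fun k hk G hG hc hd => hexJ j0 hk hG hc hd) (M + 1) F hF
    (fun k hk => by
      refine Co.ext fun l => ?_
      rw [cJ_f]
      split_ifs with hl
      · refine Co.ext fun x => Co.ext fun y => hF.2.1 _ _ _ (by omega)
      · rfl)
    (fun k hk => h k (by omega))
  have hF0 : ∀ l : List J, l.length ≠ 1 → F'.f l = 0 := fun l hl => by
    rcases l with _ | ⟨a, l⟩
    · exact hF'.1.1
    · have := congrArg (fun G => G.f (a :: l)) (h0 (a :: l).length (by
        simp only [List.length_cons] at hl ⊢; omega))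
      simpa [cJ_f] using this
  have hconst : ∀ a b : J, F'.f [a] = F'.f [b] := fun a b => by
    have h2 : cJ 2 (Cx.δ F') = 0 := by
      have : F' = F - Cx.δ H := by rw [e]; abel
      rw [this, map_sub, Cx.δδ, sub_zero]; exact h 2 (by omega)
    have := congrArg (fun G => G.f [a, b]) h2
    simp only [cJ_f, zero_f] at this
    rw [if_pos (by simp), δ_of hF'.1.1, hF0 [a, b] (by simp), map_zero, smul_zero, add_zero,
      dl_cons, dl_cons, dl_nil, sub_zero, sub_eq_zero] at this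
    exact this.symm
  refine ⟨F'.f [j0], ⟨hF'.1.2 _, fun x y hxy => hF'.2.1 _ _ _ (by simp; omega), fun g => ?_⟩, H, hH, ?_⟩
  · have := congrArg (fun G => G.f [j0]) (hF'.2.2 g)
    simp only [aA_f, List.map_cons, List.map_nil] at this
    rw [hconst (g • j0) j0] at this
    exact this
  · rw [e]
    congr 1
    refine Co.ext fun l => ?_
    rw [kap_f]
    split_ifs with hl
    · obtain ⟨a, rfl⟩ := List.length_eq_one_iff.1 hl
      exact hconst a j0
    · exact hF0 l hl

/-- differential in the `S` direction -/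
def d1S : Co J (Co X (Co Y (ZMod n))) →+ Co J (Co X (Co Y (ZMod n))) where
  toFun F := ⟨fun l => sg l.length • Cx.δ (F.f l)⟩
  map_zero' := Co.ext fun l => by
    show sg l.length • Cx.δ ((0 : Co J (Co X (Co Y (ZMod n)))).f l) = 0
    rw [zero_f, map_zero, smul_zero]
  map_add' F G := Co.ext fun l => by
    show sg l.length • Cx.δ ((F + G).f l) = _
    rw [add_f, map_add, smul_add]; rfl

theorem d1S_f (F : Co J (Co X (Co Y (ZMod n)))) (l : List J) :
    (d1S F).f l = sg l.length • Cx.δ (F.f l) := rfl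

theorem htopS (F : Co J (Co X (Co Y (ZMod n)))) (hF : NzE F) (K : ℕ)
    (h : ∀ k > K, cS k F = 0) : cS (K + 1) (Cx.δ F) = d1S (cS K F) := by
  have h0 : ∀ l x y, K < x.length + y.length → ((F.f l).f x).f y = 0 := fun l x y hxy => by
    have := congrArg (fun G => ((G.f l).f x).f y) (h _ hxy)
    simpa [cS_f, cSS_f] using this
  refine Co.ext fun l => Co.ext fun x => Co.ext fun y => ?_
  rw [cS_f, cSS_f, d1S_f, zsmul_f, zsmul_f, ((hF.cS K).2 l).δ_fz, hF.δ_f]
  simp only [cS_f, cSS_f]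
  split_ifs with hxy
  · rw [dl_eq_zero fun l' _ => h0 l' x y (by omega), zero_add]
    congr 2
    · refine dl_congr fun x' hx' => ?_
      rw [if_pos (by omega)]
    · congr 1
      refine dl_congr fun y' hy' => ?_
      rw [cSS_f, if_pos (by omega)]
  · rw [dl_eq_zero fun x' hx' => if_neg (by omega), dl_eq_zero fun y' hy' => by
      rw [cSS_f, if_neg (by omega)]]
    simp

theorem cS_cS (k : ℕ) (F : Co J (Co X (Co Y (ZMod n)))) : cS k (cS k F) = cS k F := by
  refine Co.ext fun l => Co.ext fun x => Co.ext fun y => ?_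
  rw [cS_f, cS_f, cSS_f, cSS_f]; split_ifs <;> rfl

theorem cS_cS' (j k : ℕ) (F : Co J (Co X (Co Y (ZMod n)))) (h : j ≠ k) : cS j (cS k F) = 0 := by
  refine Co.ext fun l => Co.ext fun x => Co.ext fun y => ?_
  rw [cS_f, cS_f, cSS_f, cSS_f]
  split_ifs with h1 h2
  · exact absurd (h1.symm.trans h2) h
  · rfl
  · rfl

theorem hA_aS (g : X × Y) (c1 : X) (c2 : Y) (s : Co X (Co Y (ZMod n))) :
    aS g (hA (g.1 * c1) (g.2 * c2) s) = hA c1 c2 (aS g s) := by
  refine Co.ext fun x => Co.ext fun y => ?_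
  rw [aS_f]
  simp [hA]

/-- equivariant maps to the groups -/
structure EqM (J X Y : Type*) [Group X] [Group Y] [MulAction (X × Y) J] where
  c1 : J → X
  c2 : J → Y
  c1_smul : ∀ (g : X × Y) (j : J), c1 (g • j) = g.1 * c1 j
  c2_smul : ∀ (g : X × Y) (j : J), c2 (g • j) = g.2 * c2 j

/-- contraction in the `S` direction -/
def hS (C : EqM J X Y) (G : Co J (Co X (Co Y (ZMod n)))) : Co J (Co X (Co Y (ZMod n))) :=
  ⟨fun l => match l with
    | [] => 0
    | j :: l => sg (j :: l).length • hA (C.c1 j) (C.c2 j) (G.f (j :: l))⟩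

theorem hexS (C : EqM J X Y) {k : ℕ} (hk : 2 < k) {G : Co J (Co X (Co Y (ZMod n)))}
    (hG : G ∈ QA J X Y n) (hc : cS k G = G) (hd : d1S G = 0) :
    ∃ H ∈ QA J X Y n, cS (k - 1) H = H ∧ d1S H = G := by
  have hG0 : ∀ l x y, x.length + y.length ≠ k → ((G.f l).f x).f y = 0 := fun l x y h => by
    rw [← hc, cS_f, cSS_f, if_neg h]
  have hH0 : ∀ l x y, x.length + y.length ≠ k - 1 → (((hS C G).f l).f x).f y = 0 := fun l x y h => by
    rcases l with _ | ⟨j, l⟩
    · rfl
    · show ((sg (j :: l).length • hA (C.c1 j) (C.c2 j) (G.f (j :: l))).f x).f y = 0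
      rw [zsmul_f, zsmul_f]
      rcases x with _ | ⟨a, x⟩
      · rw [(hA_nz _ _ _).1]; simp
      · rcases y with _ | ⟨b, y⟩
        · rw [(hA_nz _ _ _).2]; simp
        · simp only [List.length_cons] at h
          rw [hA_cons, hG0 _ _ _ (by simp only [List.length_cons]; omega)]
          split_ifs with hx
          · subst hx
            simp only [List.length_nil] at h
            rw [hG0 _ _ _ (by simp only [List.length_cons, List.length_nil]; omega)]; simp
          · simp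
  refine ⟨hS C G, ⟨⟨rfl, fun l => ?_⟩, ⟨k - 1, fun l x y h => hH0 l x y (by omega)⟩, fun g => ?_⟩,
    ?_, ?_⟩
  · rcases l with _ | ⟨j, l⟩
    · exact NzS.zero
    · exact (hA_nz _ _ _).zsmul _
  · refine Co.ext fun l => ?_
    rcases l with _ | ⟨j, l⟩
    · exact map_zero _
    · show aS g (sg (g • j :: l.map fun j => g • j).length • hA (C.c1 (g • j)) (C.c2 (g • j))
        (G.f (g • j :: l.map fun j => g • j))) = sg (j :: l).length • hA (C.c1 j) (C.c2 j) (G.f (j :: l))
      rw [map_zsmul, C.c1_smul, C.c2_smul, hA_aS]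
      have h := congrArg (fun F => F.f (j :: l)) (hG.2.2 g)
      simp only [aA_f, List.map_cons] at h
      rw [h]
      simp
  · refine Co.ext fun l => Co.ext fun x => Co.ext fun y => ?_
    rw [cS_f, cSS_f]
    split_ifs with h
    · rfl
    · exact (hH0 l x y h).symm
  · refine Co.ext fun l => ?_
    rcases l with _ | ⟨j, l⟩
    · rw [hG.1.1, d1S_f]
      show _ • Cx.δ (0 : Co X (Co Y (ZMod n))) = 0
      rw [map_zero, smul_zero]
    · rw [d1S_f]
      show sg (j :: l).length • Cx.δ (sg (j :: l).length • hA (C.c1 j) (C.c2 j) (G.f (j :: l))) = _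
      have hd' := congrArg (fun F => F.f (j :: l)) hd
      simp only [d1S_f, zero_f] at hd'
      have hd2 : Cx.δ (G.f (j :: l)) = 0 := by
        have := congrArg (fun s => sg (j :: l).length • s) hd'
        simpa only [smul_smul, sg_mul_self, one_smul, smul_zero] using this
      rw [map_zsmul, smul_smul, sg_mul_self, one_smul]
      exact hA_spec _ _ (hG.1.2 _) hd2 (hG0 _ _ _ (by simp; omega))

/-- inclusion of cochains on `J` -/
def io : Co J (ZMod n) →+ Co J (Co X (Co Y (ZMod n))) := pull (fun j => j) (kap.comp kap)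

theorem io_f (f : Co J (ZMod n)) (l : List J) : (io (X := X) (Y := Y) f).f l = kap (kap (f.f l)) := by
  show kap (kap (f.f (l.map fun j => j))) = _
  rw [List.map_id']

theorem δ_io (f : Co J (ZMod n)) : Cx.δ (io (X := X) (Y := Y) f) = io (Cx.δ f) :=
  δ_pull _ _ (fun b => by
    show Cx.δ (kap (kap b)) = kap (kap (Cx.δ b))
    rw [δ_kap, δ_kap]) f

theorem io_mul (f g : Co J (ZMod n)) : io (X := X) (Y := Y) (f * g) = io f * io g :=
  pull_mul _ _ (fun a b => by
    show kap (kap (a * b)) = kap (kap a) * kap (kap b)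
    rw [kap_mul_kap, kap_mul_kap]) f g

theorem io_inj {f g : Co J (ZMod n)} (h : io (X := X) (Y := Y) f = io g) : f = g := by
  refine Co.ext fun l => ?_
  have := congrArg (fun F => ((F.f l).f [1]).f [1]) h
  simpa [io_f] using this

/-- invariant cochains on `J` -/
def FA (J X Y : Type*) [Group X] [Group Y] [MulAction (X × Y) J] (n : ℕ) : AddSubgroup (Co J (ZMod n)) where
  carrier := {f | f.f [] = 0 ∧ ∀ (g : X × Y) (l : List J), f.f (l.map fun j => g • j) = f.f l}
  zero_mem' := ⟨rfl, fun _ _ => rfl⟩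
  add_mem' {F G} hF hG := ⟨by rw [add_f, hF.1, hG.1, add_zero], fun g l => by
    rw [add_f, add_f, hF.2, hG.2]⟩
  neg_mem' {F} hF := ⟨by rw [neg_f, hF.1, neg_zero], fun g l => by rw [neg_f, neg_f, hF.2]⟩

theorem io_mem_QA {f : Co J (ZMod n)} (hf : f ∈ FA J X Y n) : io f ∈ QA J X Y n := by
  refine ⟨⟨?_, fun l => ⟨?_, fun x => ?_⟩⟩, ⟨2, fun l x y h => ?_⟩, fun g => ?_⟩
  · rw [io_f, hf.1, map_zero, map_zero]
  · rw [io_f]; rfl
  · rw [io_f, kap_f]; split_ifs <;> rfl
  · rw [io_f, kap_f]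
    split_ifs with hx
    · rw [kap_f, if_neg (by omega)]
    · rfl
  · refine Co.ext fun l => Co.ext fun x => Co.ext fun y => ?_
    rw [aA_f, aS_f, io_f, io_f, kap_f, kap_f, List.length_map]
    split_ifs
    · rw [kap_f, kap_f, List.length_map, hf.2]
    · rfl

theorem lowS {F : Co J (Co X (Co Y (ZMod n)))} (hF : F ∈ QA J X Y n) (h0 : ∀ k > 2, cS k F = 0)
    (h3 : cS 3 (Cx.δ F) = 0) : ∃ f ∈ FA J X Y n, F = io f ∧ ∀ l, f.f l = ((F.f l).f [1]).f [1] := by
  have hF0 : ∀ l x y, 2 < x.length + y.length → ((F.f l).f x).f y = 0 := fun l x y hxy => by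
    have := congrArg (fun G => ((G.f l).f x).f y) (h0 _ hxy)
    simpa [cS_f, cSS_f] using this
  have h3' : ∀ l x y, x.length + y.length = 3 → (((Cx.δ F).f l).f x).f y = 0 := fun l x y hxy => by
    have := congrArg (fun G => ((G.f l).f x).f y) h3
    simpa [cS_f, cSS_f, hxy] using this
  have hx : ∀ l a a' b, ((F.f l).f [a]).f [b] = ((F.f l).f [a']).f [b] := fun l a a' b => by
    have h := h3' l [a', a] [b] rfl
    rw [hF.1.δ_f, dl_eq_zero fun l' _ => hF0 l' _ _ (by simp), dl_cons b, dl_nil, (hF.1.2 l).2] at h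
    simp only [dl_cons, dl_nil, sub_zero, smul_zero, add_zero, zero_add] at h
    have := congrArg (fun s => sg l.length • s) h
    simp only [smul_smul, sg_mul_self, one_smul, smul_zero, sub_eq_zero] at this
    exact this
  have hy : ∀ l a b b', ((F.f l).f [a]).f [b] = ((F.f l).f [a]).f [b'] := fun l a b b' => by
    have h := h3' l [a] [b', b] rfl
    rw [hF.1.δ_f, dl_eq_zero fun l' _ => hF0 l' _ _ (by simp), dl_cons a] at h
    simp only [dl_cons, dl_nil, sub_zero, zero_add, (hF.1.2 l).1, zero_f] at h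
    have := congrArg (fun s => sg [a].length • sg l.length • s) h
    simp only [smul_smul] at this
    rw [show sg [a].length * (sg l.length * (sg l.length * sg [a].length)) =
      (sg [a].length * sg [a].length) * (sg l.length * sg l.length) by ring, sg_mul_self,
      sg_mul_self] at this
    simp only [one_smul, mul_one, smul_zero, sub_eq_zero] at this
    exact this
  have hxy : ∀ l a b, ((F.f l).f [a]).f [b] = ((F.f l).f [1]).f [1] := fun l a b =>
    (hx l a 1 b).trans (hy l 1 b 1)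
  refine ⟨⟨fun l => ((F.f l).f [1]).f [1]⟩, ⟨?_, fun g l => ?_⟩, ?_, fun l => rfl⟩
  · show ((F.f []).f [1]).f [1] = 0
    rw [hF.1.1]; rfl
  · show ((F.f (l.map fun j => g • j)).f [1]).f [1] = ((F.f l).f [1]).f [1]
    have h := congrArg (fun F => ((F.f l).f [1]).f [1]) (hF.2.2 g)
    simp only [aA_f, aS_f, List.map_cons, List.map_nil] at h
    rw [hxy] at h
    exact h
  · refine Co.ext fun l => ?_
    refine (hF.1.2 l).ext (by rw [io_f]; exact ⟨rfl, fun x => by rw [kap_f]; split_ifs <;> rfl⟩) ?_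
    intro a x b y
    rw [io_f, kap_f]
    split_ifs with h1
    · rw [kap_f]
      split_ifs with h2
      · have e1 : x = [] := by simpa using h1
        have e2 : y = [] := by simpa using h2
        subst e1; subst e2
        exact hxy l a b
      · exact hF0 _ _ _ (by simp only [List.length_cons] at h1 h2 ⊢; omega)
    · exact hF0 _ _ _ (by simp only [List.length_cons] at h1 ⊢; omega)


end J

section B
variable {J X : Type*} [Group X] [MulAction (X × X) J] {n : ℕ}

/-- equivariant maps of a swap situation -/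
def Sig.eqM (W : Sig J X) : EqM J X X := ⟨W.c1, W.c2, W.c1_smul, W.c2_smul⟩

/-- value of `ε` at the head -/
def Sig.hd (W : Sig J X) : List J → Bool
  | [] => false
  | j :: _ => W.ε j

/-- restriction to `ε = false` -/
def Sig.e (W : Sig J X) (n : ℕ) : Co J (Co X (Co X (ZMod n))) →+ Co J (Co X (Co X (ZMod n))) where
  toFun F := ⟨fun l => if W.hd l then 0 else F.f l⟩
  map_zero' := Co.ext fun l => by simp
  map_add' F G := Co.ext fun l => by simp only [add_f]; split_ifs <;> simp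

theorem Sig.e_f (W : Sig J X) (F : Co J (Co X (Co X (ZMod n)))) (l : List J) :
    (W.e n F).f l = if W.hd l then 0 else F.f l := rfl

theorem Sig.hd_smul (W : Sig J X) (g : X × X) (l : List J) : W.hd (l.map fun j => g • j) = W.hd l := by
  cases l with
  | nil => rfl
  | cons j l => exact W.ε_smul g j

theorem Sig.hd_σ (W : Sig J X) (j : J) (l : List J) : W.hd ((j :: l).map W.σ) = !W.hd (j :: l) :=
  W.ε_σ j

theorem e_mem_QA (W : Sig J X) {F : Co J (Co X (Co X (ZMod n)))} (hF : F ∈ QA J X X n) :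
    W.e n F ∈ QA J X X n := by
  refine ⟨⟨hF.1.1, fun l => ?_⟩, ?_, fun g => ?_⟩
  · rw [W.e_f]; split_ifs; exacts [NzS.zero, hF.1.2 l]
  · obtain ⟨K, hK⟩ := hF.2.1
    refine ⟨K, fun l x y h => ?_⟩
    rw [W.e_f]; split_ifs
    · rfl
    · exact hK _ _ _ h
  · refine Co.ext fun l => ?_
    rw [aA_f, W.e_f, W.e_f, W.hd_smul]
    split_ifs
    · exact map_zero _
    · rw [← aA_f, hF.2.2]

/-- symmetrisation -/
theorem e_sym (W : Sig J X) {F : Co J (Co X (Co X (ZMod n)))} (hF : aT W.σ F = F) (h0 : F.f [] = 0) :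
    W.e n F + aT W.σ (W.e n F) = F := by
  refine Co.ext fun l => ?_
  rcases l with _ | ⟨j, l⟩
  · rw [add_f, W.e_f, aT_f, List.map_nil, W.e_f, h0]; simp
  · rw [add_f, aT_f, W.e_f, W.e_f, W.hd_σ]
    have h := congrArg (fun F => F.f (j :: l)) hF
    simp only [aT_f] at h
    cases W.hd (j :: l)
    · simp
    · simpa using h

theorem d1S_e (W : Sig J X) (F : Co J (Co X (Co X (ZMod n)))) : d1S (W.e n F) = W.e n (d1S F) := by
  refine Co.ext fun l => ?_
  rw [d1S_f, W.e_f, W.e_f, d1S_f]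
  split_ifs
  · rw [map_zero, smul_zero]
  · rfl

theorem d1S_aT (W : Sig J X) (F : Co J (Co X (Co X (ZMod n)))) :
    d1S (aT W.σ F) = aT W.σ (d1S F) := by
  refine Co.ext fun l => ?_
  rw [d1S_f, aT_f, aT_f, d1S_f, List.length_map, map_zsmul, Tn_δ]

theorem cS_e (W : Sig J X) (k : ℕ) (F : Co J (Co X (Co X (ZMod n)))) :
    cS k (W.e n F) = W.e n (cS k F) := by
  refine Co.ext fun l => ?_
  rw [cS_f, W.e_f, W.e_f, cS_f]
  split_ifs
  · exact map_zero _
  · rfl

theorem cS_aT (W : Sig J X) (k : ℕ) (F : Co J (Co X (Co X (ZMod n)))) :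
    cS k (aT W.σ F) = aT W.σ (cS k F) := by
  refine Co.ext fun l => ?_
  rw [cS_f, aT_f, aT_f, cS_f, Tn_cSS]

/-- transfer -/
theorem tr_mem_QB (W : Sig J X) {F : Co J (Co X (Co X (ZMod n)))} (hF : F ∈ QA J X X n) :
    F + aT W.σ F ∈ QB W n :=
  ⟨AddSubgroup.add_mem _ hF (aT_mem_QA W hF), by rw [map_add, aT_aT W.inv hF.1, add_comm]⟩

/-- swap-invariant cochains on `J` -/
def FB (W : Sig J X) (n : ℕ) : AddSubgroup (Co J (ZMod n)) where
  carrier := {f | f ∈ FA J X X n ∧ ∀ l : List J, f.f (l.map W.σ) = f.f l}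
  zero_mem' := ⟨AddSubgroup.zero_mem _, fun _ => rfl⟩
  add_mem' {F G} hF hG := ⟨AddSubgroup.add_mem _ hF.1 hG.1, fun l => by
    rw [add_f, add_f, hF.2, hG.2]⟩
  neg_mem' {F} hF := ⟨AddSubgroup.neg_mem _ hF.1, fun l => by rw [neg_f, neg_f, hF.2]⟩

theorem sw_one_one : sw 1 1 = 1 := by decide

theorem io_mem_QB {W : Sig J X} {f : Co J (ZMod n)} (hf : f ∈ FB W n) : io f ∈ QB W n := by
  refine ⟨io_mem_QA hf.1, Co.ext fun l => Co.ext fun x => Co.ext fun y => ?_⟩
  rw [aT_f, Tn_f, ((io_mem_QA hf.1).1.2 _).vv, io_f, io_f, hf.2]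
  simp only [kap_f]
  by_cases hx : x.length = 1
  · by_cases hy : y.length = 1
    · simp [hx, hy, kap_f, sw_one_one]
    · simp [hx, hy, kap_f]
  · by_cases hy : y.length = 1
    · simp [hx, hy, kap_f]
    · simp [hx, hy]

theorem redS_B (W : Sig J X) {F : Co J (Co X (Co X (ZMod n)))} (hF : F ∈ QB W n)
    (h : ∀ k > 2, cS k (Cx.δ F) = 0) : ∃ f ∈ FB W n, ∃ H ∈ QB W n, F = io f + Cx.δ H := by
  obtain ⟨K, hK⟩ := hF.1.2.1
  obtain ⟨F', hF', H, hH, e, h0⟩ := dc (Cx.δ) d1S Cx.δδ cS (QB W n) (QB W n) 2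
    (fun H hH => δ_mem_QB hH) (fun k F hF => cS_mem_QB hF k)
    (fun F K hF h => htopS F (by rcases hF with h | h <;> exact h.1.1) K h)
    cS_cS cS_cS' (fun k hk G hG hc hd => by
      obtain ⟨H, hH, e1, e2⟩ := hexS W.eqM hk hG.1 hc hd
      refine ⟨W.e n H + aT W.σ (W.e n H), tr_mem_QB W (e_mem_QA W hH), ?_, ?_⟩
      · rw [map_add, cS_aT, cS_e, e1]
      · rw [map_add, d1S_aT, d1S_e, e2, e_sym W hG.2 hG.1.1.1]) K F hF
    (fun k hk => by
      refine Co.ext fun l => Co.ext fun x => Co.ext fun y => ?_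
      rw [cS_f, cSS_f]
      split_ifs with hl
      · exact hK _ _ _ (by omega)
      · rfl)
    (fun k hk => h k (by omega))
  have h3 : cS 3 (Cx.δ F') = 0 := by
    have : F' = F - Cx.δ H := by rw [e]; abel
    rw [this, map_sub, Cx.δδ, sub_zero]; exact h 3 (by omega)
  obtain ⟨f, hf, ef, ef'⟩ := lowS hF'.1 h0 h3
  refine ⟨f, ⟨hf, fun l => ?_⟩, H, hH, by rw [e, ef]⟩
  rw [ef', ef']
  conv_rhs => rw [← hF'.2]
  rw [aT_f, Tn_f, vv_cons, List.length_singleton, sw_one_one, one_smul]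

end B

end Crest.Agent.R204.SQ803
end

-- ▼ part R204/K_803
section

/-!
# Künneth decomposition of cocycles of `S` mod 2 (row 204, leaf G5; helper803)
-/

set_option autoImplicit false
set_option linter.unusedSectionVars false

namespace Crest.Agent.R204.SQ803

open Co

section one
variable {D : Type*} [Group D]

/-- invariant functions supported on lists of length `q` -/
def CM (D : Type*) [Group D] (q : ℕ) : Submodule (ZMod 2) (List D → ZMod 2) where
  carrier := {f | f [] = 0 ∧ (∀ l, l.length ≠ q → f l = 0) ∧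
    ∀ (g : D) (l : List D), f (l.map fun a => g * a) = f l}
  zero_mem' := ⟨rfl, fun _ _ => rfl, fun _ _ => rfl⟩
  add_mem' {f f'} h h' := ⟨by simp [h.1, h'.1], fun l hl => by simp [h.2.1 l hl, h'.2.1 l hl],
    fun g l => by simp [h.2.2 g l, h'.2.2 g l]⟩
  smul_mem' c {f} h := ⟨by simp [h.1], fun l hl => by simp [h.2.1 l hl],
    fun g l => by simp [h.2.2 g l]⟩

/-- the differential as a linear map -/
def dd (X : Type*) : (List X → ZMod 2) →ₗ[ZMod 2] (List X → ZMod 2) where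
  toFun f := fun l => dl l f
  map_add' f g := funext fun l => dl_add l f g
  map_smul' c f := funext fun l => dl_hom (AddMonoidHom.mulLeft c) l f

@[simp] theorem dd_apply {X : Type*} (f : List X → ZMod 2) (l : List X) : dd X f l = dl l f := rfl

theorem dd_dd {X : Type*} (f : List X → ZMod 2) : dd X (dd X f) = 0 := funext fun l => dl_dl l f

theorem dd_mem {q : ℕ} {f : List D → ZMod 2} (hf : f ∈ CM D q) : dd D f ∈ CM D (q + 1) := by
  refine ⟨rfl, fun l hl => ?_, fun g l => ?_⟩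
  · exact dl_eq_zero fun l' hl' => hf.2.1 l' (by omega)
  · rw [dd_apply, dd_apply, ← dl_map]
    exact dl_congr fun l' _ => hf.2.2 g l'

/-- generalised inverse of a linear map over a field -/
theorem exists_ginv {K V V' : Type*} [Field K] [AddCommGroup V] [Module K V] [AddCommGroup V']
    [Module K V'] (W : Submodule K V) (d : V →ₗ[K] V') :
    ∃ g : V' →ₗ[K] W, ∀ w ∈ W, d (g (d w)) = d w := by
  let T : W →ₗ[K] V' := d.comp W.subtype
  obtain ⟨r, hr⟩ := T.rangeRestrict.exists_rightInverse_of_surjective T.range_rangeRestrict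
  obtain ⟨g, hg⟩ := LinearMap.exists_extend r
  refine ⟨g, fun w hw => ?_⟩
  have h1 : g (d w) = r ⟨d w, ⟨⟨w, hw⟩, rfl⟩⟩ := by rw [← hg]; rfl
  rw [h1]
  have h2 := LinearMap.congr_fun hr ⟨d w, ⟨⟨w, hw⟩, rfl⟩⟩
  exact congrArg Subtype.val h2

/-- homogeneous part -/
def pr (X : Type*) (q : ℕ) : (List X → ZMod 2) →ₗ[ZMod 2] (List X → ZMod 2) where
  toFun f := fun l => if l.length = q then f l else 0
  map_add' f g := by funext l; simp only [Pi.add_apply]; split_ifs <;> simp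
  map_smul' c f := by funext l; simp

theorem pr_apply {X : Type*} (q : ℕ) (f : List X → ZMod 2) (l : List X) :
    pr X q f l = if l.length = q then f l else 0 := rfl

/-- the homotopy -/
theorem exists_hh (D : Type*) [Group D] : ∃ h : (List D → ZMod 2) →ₗ[ZMod 2] (List D → ZMod 2),
    (∀ q, ∀ f ∈ CM D (q + 1), h f ∈ CM D q) ∧
    (∀ f, h f [] = 0) ∧ (∀ f (g : D) (l : List D), h f (l.map fun a => g * a) = h f l) ∧
    (∀ q, ∀ f ∈ CM D q, dd D (h (dd D f)) = dd D f) := by
  choose g hg using fun p => exists_ginv (CM D p) (dd D)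
  let h : (List D → ZMod 2) →ₗ[ZMod 2] (List D → ZMod 2) :=
    { toFun := fun f l => (g l.length (pr D (l.length + 1) f)).1 l
      map_add' := fun f f' => by funext l; simp
      map_smul' := fun c f => by funext l; simp }
  have hdef : ∀ f l, h f l = (g l.length (pr D (l.length + 1) f)).1 l := fun _ _ => rfl
  have hmem : ∀ q, ∀ f ∈ CM D (q + 1), h f = (g q f).1 := by
    intro q f hf
    funext l
    rw [hdef]
    by_cases hl : l.length = q
    · subst hl
      have e : pr D (l.length + 1) f = f := by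
        funext l'
        rw [pr_apply]
        split_ifs with h'
        · rfl
        · exact (hf.2.1 l' h').symm
      rw [e]
    · have : pr D (l.length + 1) f = 0 := by
        funext l'
        rw [pr_apply]
        split_ifs with h'
        · exact hf.2.1 l' (by omega)
        · rfl
      rw [this, map_zero, (g q f).2.2.1 l hl]
      rfl
  refine ⟨h, fun q f hf => by rw [hmem q f hf]; exact (g q f).2, fun f => ?_, fun f a l => ?_,
    fun q f hf => ?_⟩
  · rw [hdef]; exact (g _ _).2.1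
  · rw [hdef, hdef, List.length_map]; exact (g _ _).2.2.2 a l
  · rw [hmem q _ (dd_mem hf)]
    exact hg q f hf

/-- the projection `1 + dh + hd` -/
def pp {X : Type*} (h : (List X → ZMod 2) →ₗ[ZMod 2] (List X → ZMod 2)) :
    (List X → ZMod 2) →ₗ[ZMod 2] (List X → ZMod 2) :=
  LinearMap.id + (dd X).comp h + h.comp (dd X)

theorem pp_apply {X : Type*} (h : (List X → ZMod 2) →ₗ[ZMod 2] (List X → ZMod 2))
    (f : List X → ZMod 2) : pp h f = f + dd X (h f) + h (dd X f) := rfl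

theorem CM_zero {f : List D → ZMod 2} (hf : f ∈ CM D 0) : f = 0 := by
  funext l
  rcases l with _ | ⟨a, l⟩
  · exact hf.1
  · exact hf.2.1 _ (by simp)

theorem fun_two {X : Type*} (f : List X → ZMod 2) : f + f = 0 := funext fun l => DG2.two (f l)

theorem dd_pp {h : (List D → ZMod 2) →ₗ[ZMod 2] (List D → ZMod 2)}
    (hh : ∀ q, ∀ f ∈ CM D q, dd D (h (dd D f)) = dd D f) {q : ℕ} {f : List D → ZMod 2}
    (hf : f ∈ CM D q) : dd D (pp h f) = 0 := by
  rw [pp_apply, map_add, map_add, dd_dd, hh q f hf, add_zero, fun_two]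

theorem pp_dd {h : (List D → ZMod 2) →ₗ[ZMod 2] (List D → ZMod 2)}
    (hh : ∀ q, ∀ f ∈ CM D q, dd D (h (dd D f)) = dd D f) {q : ℕ} {f : List D → ZMod 2}
    (hf : f ∈ CM D q) : pp h (dd D f) = 0 := by
  rw [pp_apply, dd_dd, map_zero, hh q f hf, add_zero, fun_two]

end one

section ops
variable {X Y : Type*}

/-- operator in the first variable -/
def op1 (A : (List X → ZMod 2) →ₗ[ZMod 2] (List X → ZMod 2)) :
    Co X (Co Y (ZMod 2)) →+ Co X (Co Y (ZMod 2)) where
  toFun s := ⟨fun x => ⟨fun y => A (fun x' => (s.f x').f y) x⟩⟩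
  map_zero' := Co.ext fun x => Co.ext fun y => by
    show A (fun _ => 0) x = 0
    exact congrFun (map_zero A) x
  map_add' s t := Co.ext fun x => Co.ext fun y => by
    show A (fun x' => (s.f x').f y + (t.f x').f y) x = _
    exact congrFun (map_add A (fun x' => (s.f x').f y) (fun x' => (t.f x').f y)) x

/-- operator in the second variable -/
def op2 (A : (List Y → ZMod 2) →ₗ[ZMod 2] (List Y → ZMod 2)) :
    Co X (Co Y (ZMod 2)) →+ Co X (Co Y (ZMod 2)) where
  toFun s := ⟨fun x => ⟨fun y => A (s.f x).f y⟩⟩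
  map_zero' := Co.ext fun x => Co.ext fun y => by
    show A (fun _ => 0) y = 0
    exact congrFun (map_zero A) y
  map_add' s t := Co.ext fun x => Co.ext fun y => by
    exact congrFun (map_add A (s.f x).f (t.f x).f) y

theorem op1_f (A : (List X → ZMod 2) →ₗ[ZMod 2] (List X → ZMod 2)) (s : Co X (Co Y (ZMod 2)))
    (x : List X) (y : List Y) : ((op1 A s).f x).f y = A (fun x' => (s.f x').f y) x := rfl

theorem op2_f (A : (List Y → ZMod 2) →ₗ[ZMod 2] (List Y → ZMod 2)) (s : Co X (Co Y (ZMod 2)))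
    (x : List X) (y : List Y) : ((op2 A s).f x).f y = A (s.f x).f y := rfl

theorem op_comm [Finite X] (A : (List X → ZMod 2) →ₗ[ZMod 2] (List X → ZMod 2))
    (B : (List Y → ZMod 2) →ₗ[ZMod 2] (List Y → ZMod 2)) {M : ℕ} {s : Co X (Co Y (ZMod 2))}
    (hs : HmS M s) : op1 A (op2 B s) = op2 B (op1 A s) := by
  classical
  have hfin : {x : List X | x.length ≤ M}.Finite := List.finite_length_le X M
  let F : Finset (List X) := hfin.toFinset
  have hF : ∀ x, x ∉ F → ∀ y, (s.f x).f y = 0 := fun x hx y => by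
    have : ¬ x.length ≤ M := by simpa [F] using hx
    exact hs x y (by omega)
  have hF' : ∀ x, x ∉ F → (s.f x).f = 0 := fun x hx => funext (hF x hx)
  have key : ∀ φ : List X → ZMod 2, (∀ x, x ∉ F → φ x = 0) →
      φ = ∑ x0 ∈ F, φ x0 • (Pi.single x0 1 : List X → ZMod 2) := by
    intro φ hφ
    funext x
    rw [Finset.sum_apply]
    by_cases hx : x ∈ F
    · rw [Finset.sum_eq_single x]
      · simp
      · intro b _ hb
        simp [Pi.single_apply, Ne.symm hb]
      · exact fun h => absurd hx h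
    · rw [hφ x hx, Finset.sum_eq_zero]
      intro b hb
      have : x ≠ b := fun h => hx (h ▸ hb)
      simp [Pi.single_apply, this]
  refine Co.ext fun x => Co.ext fun y => ?_
  rw [op1_f, op2_f]
  have e1 : (fun x' => ((op2 B s).f x').f y) =
      ∑ x0 ∈ F, (B (s.f x0).f y) • (Pi.single x0 1 : List X → ZMod 2) := by
    rw [← key (fun x' => B (s.f x').f y)]
    · rfl
    · intro x' hx'
      show B (s.f x').f y = 0
      rw [hF' x' hx', map_zero]; rfl
  have e2 : ((op1 A s).f x).f = ∑ x0 ∈ F, (A (Pi.single x0 1) x) • (s.f x0).f := by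
    funext y'
    rw [op1_f, key (fun x' => (s.f x').f y') (fun x' hx' => hF x' hx' y'), map_sum,
      Finset.sum_apply, Finset.sum_apply]
    refine Finset.sum_congr rfl fun x0 _ => ?_
    rw [map_smul, Pi.smul_apply, Pi.smul_apply, smul_eq_mul, smul_eq_mul, mul_comm]
  rw [e1, e2, map_sum, map_sum, Finset.sum_apply, Finset.sum_apply]
  refine Finset.sum_congr rfl fun x0 _ => ?_
  rw [map_smul, map_smul, Pi.smul_apply, Pi.smul_apply, smul_eq_mul, smul_eq_mul, mul_comm]

theorem NzS.δ_two {s : Co X (Co Y (ZMod 2))} (h : NzS s) : Cx.δ s = op1 (dd X) s + op2 (dd Y) s := by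
  refine Co.ext fun x => Co.ext fun y => ?_
  rw [h.δ_fz, sg_smul_of_two DG2.two]; rfl

end ops

section SAops
variable {X Y : Type*} [Group X] [Group Y]

theorem SA_col {M : ℕ} {s : Co X (Co Y (ZMod 2))} (hs : s ∈ SA X Y 2 M) (y : List Y) :
    (fun x' => (s.f x').f y) ∈ CM X (M - y.length) := by
  refine ⟨by show (s.f []).f y = 0; rw [hs.1.1]; rfl, fun x hx => ?_, fun g x => ?_⟩
  · by_cases h : x.length + y.length = M
    · omega
    · exact hs.2.1 x y h
  · have h := congrArg (fun s => (s.f x).f y) (hs.2.2 (g, 1))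
    simpa using h

theorem SA_row {M : ℕ} {s : Co X (Co Y (ZMod 2))} (hs : s ∈ SA X Y 2 M) (x : List X) :
    (s.f x).f ∈ CM Y (M - x.length) := by
  refine ⟨hs.1.2 x, fun y hy => ?_, fun g y => ?_⟩
  · by_cases h : x.length + y.length = M
    · omega
    · exact hs.2.1 x y h
  · have h := congrArg (fun s => (s.f x).f y) (hs.2.2 (1, g))
    simpa using h

theorem op1_mem {M k : ℕ} (hk : k ≤ 1) {A : (List X → ZMod 2) →ₗ[ZMod 2] (List X → ZMod 2)}
    (hA : ∀ q, ∀ f ∈ CM X (q + k), A f ∈ CM X q) (hA0 : ∀ f, f [] = 0 → A f [] = 0)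
    {s : Co X (Co Y (ZMod 2))} (hs : s ∈ SA X Y 2 (M + k)) : op1 A s ∈ SA X Y 2 M := by
  have hz : ∀ y : List Y, M < y.length → ∀ x, ((op1 A s).f x).f y = 0 := fun y hy x => by
    rw [op1_f]
    have h1 := SA_col hs y
    rw [show M + k - y.length = 0 by omega] at h1
    rw [CM_zero h1, map_zero]; rfl
  have hc : ∀ y : List Y, y.length ≤ M → A (fun x' => (s.f x').f y) ∈ CM X (M - y.length) :=
    fun y hy => hA _ _ (by
      have := SA_col hs y
      rwa [show M + k - y.length = M - y.length + k by omega] at this)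
  refine ⟨⟨Co.ext fun y => ?_, fun x => ?_⟩, fun x y h => ?_, fun g => Co.ext fun x => Co.ext fun y => ?_⟩
  · rw [op1_f, hA0 _ (by show (s.f []).f y = 0; rw [hs.1.1]; rfl)]; rfl
  · rw [op1_f]
    have : (fun x' => (s.f x').f []) = 0 := funext fun x' => hs.1.2 x'
    rw [this, map_zero]; rfl
  · rcases Nat.lt_or_ge M y.length with hy | hy
    · exact hz y hy x
    · exact (hc y hy).2.1 x (by omega)
  · rw [aS_f]
    rcases Nat.lt_or_ge M y.length with hy | hy
    · rw [hz _ (by simpa using hy), hz y hy]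
    · have h1 : (fun x' => (s.f x').f (y.map fun b => g.2 * b)) = fun x' => (s.f x').f y :=
        funext fun x' => (SA_row hs x').2.2 g.2 y
      rw [op1_f, op1_f, h1]
      exact (hc y hy).2.2 g.1 x

theorem op2_mem {M k : ℕ} (hk : k ≤ 1) {A : (List Y → ZMod 2) →ₗ[ZMod 2] (List Y → ZMod 2)}
    (hA : ∀ q, ∀ f ∈ CM Y (q + k), A f ∈ CM Y q) (hA0 : ∀ f, f [] = 0 → A f [] = 0)
    {s : Co X (Co Y (ZMod 2))} (hs : s ∈ SA X Y 2 (M + k)) : op2 A s ∈ SA X Y 2 M := by
  have hz : ∀ x : List X, M < x.length → ∀ y, ((op2 A s).f x).f y = 0 := fun x hx y => by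
    rw [op2_f]
    have h1 := SA_row hs x
    rw [show M + k - x.length = 0 by omega] at h1
    rw [CM_zero h1, map_zero]; rfl
  have hc : ∀ x : List X, x.length ≤ M → A (s.f x).f ∈ CM Y (M - x.length) :=
    fun x hx => hA _ _ (by
      have := SA_row hs x
      rwa [show M + k - x.length = M - x.length + k by omega] at this)
  refine ⟨⟨Co.ext fun y => ?_, fun x => ?_⟩, fun x y h => ?_, fun g => Co.ext fun x => Co.ext fun y => ?_⟩
  · rw [op2_f]
    have : (s.f []).f = 0 := by rw [hs.1.1]; rfl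
    rw [this, map_zero]; rfl
  · rw [op2_f, hA0 _ (hs.1.2 x)]
  · rcases Nat.lt_or_ge M x.length with hx | hx
    · exact hz x hx y
    · exact (hc x hx).2.1 y (by omega)
  · rw [aS_f]
    rcases Nat.lt_or_ge M x.length with hx | hx
    · rw [hz _ (by simpa using hx), hz x hx]
    · have h1 : (s.f (x.map fun b => g.1 * b)).f = (s.f x).f :=
        funext fun y' => (SA_col hs y').2.2 g.1 x
      rw [op2_f, op2_f, h1]
      exact (hc x hx).2.2 g.2 y

theorem op1_comp (A B : (List X → ZMod 2) →ₗ[ZMod 2] (List X → ZMod 2)) (s : Co X (Co Y (ZMod 2))) :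
    op1 A (op1 B s) = op1 (A.comp B) s := rfl

theorem op2_comp (A B : (List Y → ZMod 2) →ₗ[ZMod 2] (List Y → ZMod 2)) (s : Co X (Co Y (ZMod 2))) :
    op2 A (op2 B s) = op2 (A.comp B) s := rfl

theorem op1_congr {M : ℕ} {A B : (List X → ZMod 2) →ₗ[ZMod 2] (List X → ZMod 2)}
    (h : ∀ q, ∀ f ∈ CM X q, A f = B f) {s : Co X (Co Y (ZMod 2))} (hs : s ∈ SA X Y 2 M) :
    op1 A s = op1 B s :=
  Co.ext fun x => Co.ext fun y => congrFun (h _ _ (SA_col hs y)) x

theorem op2_congr {M : ℕ} {A B : (List Y → ZMod 2) →ₗ[ZMod 2] (List Y → ZMod 2)}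
    (h : ∀ q, ∀ f ∈ CM Y q, A f = B f) {s : Co X (Co Y (ZMod 2))} (hs : s ∈ SA X Y 2 M) :
    op2 A s = op2 B s :=
  Co.ext fun x => Co.ext fun y => congrFun (h _ _ (SA_row hs x)) y


theorem two_Co {X Y : Type*} (s : Co X (Co Y (ZMod 2))) : s + s = 0 :=
  Co.ext fun x => Co.ext fun y => DG2.two _


variable {h : (List X → ZMod 2) →ₗ[ZMod 2] (List X → ZMod 2)}
  {h' : (List Y → ZMod 2) →ₗ[ZMod 2] (List Y → ZMod 2)}

theorem pp_mem (h1 : ∀ q, ∀ f ∈ CM X (q + 1), h f ∈ CM X q) (q : ℕ) (f : List X → ZMod 2)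
    (hf : f ∈ CM X q) : pp h f ∈ CM X q := by
  rw [pp_apply]
  refine Submodule.add_mem _ (Submodule.add_mem _ hf ?_) (h1 _ _ (dd_mem hf))
  cases q with
  | zero => rw [CM_zero hf, map_zero, map_zero]; exact Submodule.zero_mem _
  | succ q => exact dd_mem (h1 _ _ hf)

theorem pp_zero' (h0 : ∀ f, h f [] = 0) {f : List X → ZMod 2} (hf : f [] = 0) : pp h f [] = 0 := by
  rw [pp_apply, Pi.add_apply, Pi.add_apply, hf, h0, dd_apply, dl_nil]; simp

/-- normalised cocycles in one variable -/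
def ZC (X : Type*) [Group X] (q : ℕ) : Submodule (ZMod 2) (List X → ZMod 2) :=
  CM X q ⊓ LinearMap.ker (dd X)


/-- cross product -/
def crs {X Y : Type*} {n : ℕ} (a : List X → ZMod n) (b : List Y → ZMod n) : Co X (Co Y (ZMod n)) :=
  ⟨fun x => ⟨fun y => a x * b y⟩⟩

@[simp] theorem crs_f {X Y : Type*} {n : ℕ} (a : List X → ZMod n) (b : List Y → ZMod n) (x : List X)
    (y : List Y) : ((crs a b).f x).f y = a x * b y := rfl

/-- elements all of whose rows and columns are cocycles -/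
def ZZ (X Y : Type*) [Group X] [Group Y] (M : ℕ) : AddSubgroup (Co X (Co Y (ZMod 2))) where
  carrier := {s | s ∈ SA X Y 2 M ∧ op1 (dd X) s = 0 ∧ op2 (dd Y) s = 0}
  zero_mem' := ⟨AddSubgroup.zero_mem _, map_zero _, map_zero _⟩
  add_mem' {s t} hs ht := ⟨AddSubgroup.add_mem _ hs.1 ht.1, by rw [map_add, hs.2.1, ht.2.1, add_zero],
    by rw [map_add, hs.2.2, ht.2.2, add_zero]⟩
  neg_mem' {s} hs := ⟨AddSubgroup.neg_mem _ hs.1, by rw [map_neg, hs.2.1, neg_zero],
    by rw [map_neg, hs.2.2, neg_zero]⟩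


theorem ZZ_row {M : ℕ} {s : Co X (Co Y (ZMod 2))} (hs : s ∈ ZZ X Y M) (x : List X) :
    (s.f x).f ∈ ZC Y (M - x.length) :=
  ⟨SA_row hs.1 x, funext fun y => congrArg (fun s => (s.f x).f y) hs.2.2⟩

theorem crs_mem_ZZ {p q M : ℕ} {a : List X → ZMod 2} {b : List Y → ZMod 2} (ha : a ∈ ZC X p)
    (hb : b ∈ ZC Y q) (hM : p + q = M) : crs a b ∈ ZZ X Y M := by
  refine ⟨⟨⟨Co.ext fun y => ?_, fun x => ?_⟩, fun x y hxy => ?_, fun g => Co.ext fun x => Co.ext fun y => ?_⟩,
    Co.ext fun x => Co.ext fun y => ?_, Co.ext fun x => Co.ext fun y => ?_⟩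
  · rw [crs_f, ha.1.1, zero_mul]; rfl
  · rw [crs_f, hb.1.1, mul_zero]
  · rw [crs_f]
    by_cases hx : x.length = p
    · rw [hb.1.2.1 y (by omega), mul_zero]
    · rw [ha.1.2.1 x hx, zero_mul]
  · rw [aS_f, crs_f, crs_f, ha.1.2.2, hb.1.2.2]
  · rw [op1_f]
    have : (fun x' => ((crs a b).f x').f y) = b y • a := by
      funext x'; rw [crs_f, Pi.smul_apply, smul_eq_mul, mul_comm]
    rw [this, map_smul, ha.2, smul_zero]; rfl
  · rw [op2_f]
    have : ((crs a b).f x).f = a x • b := by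
      funext y'; rw [crs_f, Pi.smul_apply, smul_eq_mul]
    rw [this, map_smul, hb.2, smul_zero]; rfl

theorem F2_one {a : ZMod 2} (h : a ≠ 0) : a = 1 := by revert a; decide



/-- the projection to `ZZ` -/
theorem proj_ZZ [Finite X]
    (h1 : ∀ q, ∀ f ∈ CM X (q + 1), h f ∈ CM X q) (h2 : ∀ f, h f [] = 0)
    (h4 : ∀ q, ∀ f ∈ CM X q, dd X (h (dd X f)) = dd X f)
    (h1' : ∀ q, ∀ f ∈ CM Y (q + 1), h' f ∈ CM Y q) (h2' : ∀ f, h' f [] = 0)
    (h4' : ∀ q, ∀ f ∈ CM Y q, dd Y (h' (dd Y f)) = dd Y f)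
    {M : ℕ} {z : Co X (Co Y (ZMod 2))} (hz : z ∈ SA X Y 2 (M + 1)) (hδ : Cx.δ z = 0) :
    op1 (pp h) (op2 (pp h') z) ∈ ZZ X Y (M + 1) ∧
      ∃ w ∈ SA X Y 2 M, z = op1 (pp h) (op2 (pp h') z) + Cx.δ w := by
  have comm : ∀ (A : (List X → ZMod 2) →ₗ[ZMod 2] (List X → ZMod 2))
      (B : (List Y → ZMod 2) →ₗ[ZMod 2] (List Y → ZMod 2)) {K : ℕ} {s : Co X (Co Y (ZMod 2))},
      s ∈ SA X Y 2 K → op1 A (op2 B s) = op2 B (op1 A s) := fun A B K s hs => op_comm A B hs.2.1
  have sum0 : ∀ a b : Co X (Co Y (ZMod 2)), a + b = 0 → a = b := fun a b hab => by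
    rw [← add_zero a, ← two_Co b, ← add_assoc, hab, zero_add]
  -- one-variable statements
  have A1 : ∀ {K : ℕ} {s : Co X (Co Y (ZMod 2))}, s ∈ SA X Y 2 (K + 1) → Cx.δ s = 0 →
      op1 (pp h) s = s + Cx.δ (op1 h s) := by
    intro K s hs hδs
    have hH : op1 h s ∈ SA X Y 2 K := op1_mem le_rfl h1 (fun f _ => h2 f) hs
    have e0 : op1 (dd X) s = op2 (dd Y) s := sum0 _ _ (by rw [← hs.1.δ_two, hδs])
    have e1 : op1 (pp h) s = s + op1 (dd X) (op1 h s) + op1 h (op1 (dd X) s) := rfl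
    rw [e1, e0, comm h (dd Y) hs, hH.1.δ_two]
    abel
  have A2 : ∀ {K : ℕ} {s : Co X (Co Y (ZMod 2))}, s ∈ SA X Y 2 (K + 1) → Cx.δ s = 0 →
      op2 (pp h') s = s + Cx.δ (op2 h' s) := by
    intro K s hs hδs
    have hH : op2 h' s ∈ SA X Y 2 K := op2_mem le_rfl h1' (fun f _ => h2' f) hs
    have e0 : op1 (dd X) s = op2 (dd Y) s := sum0 _ _ (by rw [← hs.1.δ_two, hδs])
    have e1 : op2 (pp h') s = s + op2 (dd Y) (op2 h' s) + op2 h' (op2 (dd Y) s) := rfl
    rw [e1, ← e0, ← comm (dd X) h' hs, hH.1.δ_two]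
    abel
  have hz2 : op2 (pp h') z ∈ SA X Y 2 (M + 1) :=
    op2_mem (k := 0) (M := M + 1) (by omega) (A := pp h') (fun q f hf => pp_mem h1' q f hf)
      (fun f hf => pp_zero' h2' hf) hz
  have hz2δ : Cx.δ (op2 (pp h') z) = 0 := by rw [A2 hz hδ, map_add, hδ, Cx.δδ, add_zero]
  have hz1 : op1 (pp h) (op2 (pp h') z) ∈ SA X Y 2 (M + 1) :=
    op1_mem (k := 0) (M := M + 1) (by omega) (A := pp h) (fun q f hf => pp_mem h1 q f hf)
      (fun f hf => pp_zero' h2 hf) hz2
  refine ⟨⟨hz1, ?_, ?_⟩, op2 h' z + op1 h (op2 (pp h') z), ?_, ?_⟩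
  · rw [op1_comp, op1_congr (B := 0) (fun q f hf => dd_pp h4 hf) hz2]; rfl
  · rw [comm _ _ hz, op2_comp, op2_congr (B := 0) (fun q f hf => dd_pp h4' hf)
      (op1_mem (k := 0) (M := M + 1) (by omega) (A := pp h) (fun q f hf => pp_mem h1 q f hf)
      (fun f hf => pp_zero' h2 hf) hz)]
    rfl
  · exact AddSubgroup.add_mem _ (op2_mem le_rfl h1' (fun f _ => h2' f) hz)
      (op1_mem le_rfl h1 (fun f _ => h2 f) hz2)
  · rw [A1 hz2 hz2δ, map_add, A2 hz hδ]
    have t := two_Co (Cx.δ (op2 h' z))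
    have t' := two_Co (Cx.δ (op1 h (z + Cx.δ (op2 h' z))))
    calc z = z + (Cx.δ (op2 h' z) + Cx.δ (op2 h' z)) +
          (Cx.δ (op1 h (z + Cx.δ (op2 h' z))) + Cx.δ (op1 h (z + Cx.δ (op2 h' z)))) := by
            rw [t, t', add_zero, add_zero]
      _ = _ := by abel


end SAops

section sym
variable {D : Type*} [Group D]

/-- transposition -/
def tp : Co D (Co D (ZMod 2)) →+ Co D (Co D (ZMod 2)) where
  toFun s := ⟨fun x => ⟨fun y => (s.f y).f x⟩⟩
  map_zero' := rfl
  map_add' _ _ := rfl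

@[simp] theorem tp_f (s : Co D (Co D (ZMod 2))) (x y : List D) : ((tp s).f x).f y = (s.f y).f x := rfl

theorem sym_dec [Finite D] {M : ℕ} : ∀ (N : ℕ) (z : Co D (Co D (ZMod 2))), z ∈ ZZ D D M → tp z = z →
    {x | z.f x ≠ 0}.ncard ≤ N →
    z ∈ AddSubgroup.closure ({w | ∃ p, p + p = M ∧ ∃ a ∈ ZC D p, w = crs a a} ∪
      {w | ∃ p q, p + q = M ∧ ∃ a ∈ ZC D p, ∃ b ∈ ZC D q, w = crs a b + crs b a}) := by
  have hfin : ∀ z ∈ ZZ D D M, {x | z.f x ≠ 0}.Finite := fun z hz => by
    refine (List.finite_length_le D M).subset fun x hx => ?_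
    by_contra hlen
    refine hx (Co.ext fun y => hz.1.2.1 x y ?_)
    have : ¬ x.length ≤ M := hlen
    omega
  intro N
  induction N with
  | zero =>
    intro z hz _ hN
    have : {x | z.f x ≠ 0} = ∅ := (Set.ncard_eq_zero (hfin z hz)).1 (by omega)
    have h0 : z = 0 := Co.ext fun x => by
      by_contra hx
      have : x ∈ {x | z.f x ≠ 0} := hx
      simp_all
    rw [h0]; exact AddSubgroup.zero_mem _
  | succ N ih =>
    intro z hz hsym hN
    have hs : ∀ x y, (z.f y).f x = (z.f x).f y := fun x y => congrArg (fun s => (s.f x).f y) hsym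
    by_cases hdiag : ∃ x0, (z.f x0).f x0 ≠ 0
    · obtain ⟨x0, hx0⟩ := hdiag
      have hxy := F2_one hx0
      have hM : x0.length + x0.length = M := by
        by_contra hc
        exact hx0 (hz.1.2.1 _ _ hc)
      have hr := ZZ_row hz x0
      let w := crs (z.f x0).f (z.f x0).f
      have hw : w ∈ ZZ D D M := crs_mem_ZZ hr hr (by omega)
      have hzw : z = (z + w) + w := by rw [add_assoc, two_Co, add_zero]
      rw [hzw]
      refine AddSubgroup.add_mem _ (ih (z + w) (AddSubgroup.add_mem _ hz hw) ?_ ?_)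
        (AddSubgroup.subset_closure (Or.inl ⟨_, by omega, _, hr, rfl⟩))
      · refine Co.ext fun x => Co.ext fun y => ?_
        show (z.f y).f x + (z.f x0).f y * (z.f x0).f x = (z.f x).f y + (z.f x0).f x * (z.f x0).f y
        rw [hs x y, mul_comm]
      have hsub : {x | (z + w).f x ≠ 0} ⊆ {x | z.f x ≠ 0} \ {x0} := by
        intro x hx
        refine ⟨fun hzx => hx (Co.ext fun y => ?_), fun hxx => hx (Co.ext fun y => ?_)⟩
        · show (z.f x).f y + (z.f x0).f x * (z.f x0).f y = 0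
          rw [hs x x0, hzx]; simp
        · rw [Set.mem_singleton_iff] at hxx
          subst hxx
          show (z.f x).f y + (z.f x).f x * (z.f x).f y = 0
          rw [hxy, one_mul]; exact DG2.two _
      have h1 := Set.ncard_le_ncard hsub ((hfin z hz).subset Set.diff_subset)
      have hx1 : x0 ∈ {x | z.f x ≠ 0} := fun h => hx0 (by rw [h]; rfl)
      have h2 := Set.ncard_diff_singleton_lt_of_mem hx1 (hfin z hz)
      omega
    · push Not at hdiag
      by_cases h0 : ∃ x0, z.f x0 ≠ 0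
      · obtain ⟨x0, hx0⟩ := h0
        have : ∃ y0, (z.f x0).f y0 ≠ 0 := by
          by_contra hc
          push Not at hc
          exact hx0 (Co.ext hc)
        obtain ⟨y0, hy0⟩ := this
        have hxy := F2_one hy0
        have hM : x0.length + y0.length = M := by
          by_contra hc
          exact hy0 (hz.1.2.1 _ _ hc)
        have hr := ZZ_row hz x0
        have hr' := ZZ_row hz y0
        let w := crs (z.f x0).f (z.f y0).f + crs (z.f y0).f (z.f x0).f
        have hw : w ∈ ZZ D D M := AddSubgroup.add_mem _ (crs_mem_ZZ hr hr' (by omega))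
          (crs_mem_ZZ hr' hr (by omega))
        have hzw : z = (z + w) + w := by rw [add_assoc, two_Co, add_zero]
        rw [hzw]
        refine AddSubgroup.add_mem _ (ih (z + w) (AddSubgroup.add_mem _ hz hw) ?_ ?_)
          (AddSubgroup.subset_closure (Or.inr ⟨_, _, by omega, _, hr, _, hr', rfl⟩))
        · refine Co.ext fun x => Co.ext fun y => ?_
          show (z.f y).f x + ((z.f x0).f y * (z.f y0).f x + (z.f y0).f y * (z.f x0).f x) =
            (z.f x).f y + ((z.f x0).f x * (z.f y0).f y + (z.f y0).f x * (z.f x0).f y)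
          rw [hs x y]; ring
        have hsub : {x | (z + w).f x ≠ 0} ⊆ {x | z.f x ≠ 0} \ {x0} := by
          intro x hx
          refine ⟨fun hzx => hx (Co.ext fun y => ?_), fun hxx => hx (Co.ext fun y => ?_)⟩
          · show (z.f x).f y + ((z.f x0).f x * (z.f y0).f y + (z.f y0).f x * (z.f x0).f y) = 0
            rw [hs x x0, hs x y0, hzx]; simp
          · rw [Set.mem_singleton_iff] at hxx
            subst hxx
            show (z.f x).f y + ((z.f x).f x * (z.f y0).f y + (z.f y0).f x * (z.f x).f y) = 0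
            rw [hdiag, hs x y0, hxy, zero_mul, one_mul, zero_add]; exact DG2.two _
        have h1 := Set.ncard_le_ncard hsub ((hfin z hz).subset Set.diff_subset)
        have h2 := Set.ncard_diff_singleton_lt_of_mem (s := {x | z.f x ≠ 0}) hx0 (hfin z hz)
        omega
      · push Not at h0
        have h0' : z = 0 := Co.ext h0
        rw [h0']; exact AddSubgroup.zero_mem _

theorem kunneth_sym [Finite D] {M : ℕ} {z : Co D (Co D (ZMod 2))} (hz : z ∈ SA D D 2 (M + 1))
    (hδ : Cx.δ z = 0) {w : Co D (Co D (ZMod 2))} (hw : w ∈ SA D D 2 M) (hsym : z + tp z = Cx.δ w) :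
    ∃ z' ∈ AddSubgroup.closure ({w | ∃ p, p + p = M + 1 ∧ ∃ a ∈ ZC D p, w = crs a a} ∪
      {w | ∃ p q, p + q = M + 1 ∧ ∃ a ∈ ZC D p, ∃ b ∈ ZC D q, w = crs a b + crs b a}),
      z' ∈ SA D D 2 (M + 1) ∧ tp z' = z' ∧ ∃ w ∈ SA D D 2 M, z = z' + Cx.δ w := by
  obtain ⟨h, h1, h2, h3, h4⟩ := exists_hh D
  obtain ⟨hp, w', hw', e⟩ := proj_ZZ h1 h2 h4 h1 h2 h4 hz hδ
  suffices hs : tp (op1 (pp h) (op2 (pp h) z)) = op1 (pp h) (op2 (pp h) z) from
    ⟨_, sym_dec _ _ hp hs le_rfl, hp.1, hs, w', hw', e⟩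
  have e1 : tp (op1 (pp h) (op2 (pp h) z)) = op2 (pp h) (op1 (pp h) (tp z)) := rfl
  have e2 : tp z = z + Cx.δ w := by rw [← hsym, ← add_assoc, two_Co, zero_add]
  have e3 : op2 (pp h) (op1 (pp h) (Cx.δ w)) = 0 := by
    rw [hw.1.δ_two, map_add, map_add, op1_comp, op1_congr (B := 0) (fun q f hf => pp_dd h4 hf) hw,
      op_comm _ _ hw.2.1, op2_comp]
    have hw1 : op1 (pp h) w ∈ SA D D 2 M :=
      op1_mem (k := 0) (M := M) (by omega) (A := pp h) (fun q f hf => pp_mem h1 q f hf)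
        (fun f hf => pp_zero' h2 hf) hw
    rw [op2_congr (B := 0) (fun q f hf => pp_dd h4 hf) hw1]
    show op2 (pp h) 0 + 0 = 0
    rw [map_zero, add_zero]
  rw [e1, e2, map_add, map_add, e3, add_zero, op_comm _ _ hz.2.1]

end sym

end Crest.Agent.R204.SQ803
end

-- ▼ part R204/SQW_334
section

/-!
# Row 204, block G, lemma SQ: Gysin lemma, the class `t` of an index two subgroup and its integral square
(helper334)
-/

set_option autoImplicit false
set_option linter.unusedSectionVars false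

namespace Crest.Agent.R204.SQ803

open Co

variable {J B : Type*}

section ops
variable [AddCommGroup B] (e : J → Bool)

/-- `w1` on lists whose head has `e = false`, `w2` on those with `e = true` -/
def mix (w1 w2 : Co J B) : Co J B :=
  ⟨fun l => match l with
    | [] => 0
    | x :: l => if e x then w2.f (x :: l) else w1.f (x :: l)⟩

@[simp] theorem mix_nil (w1 w2 : Co J B) : (mix e w1 w2).f [] = 0 := rfl
@[simp] theorem mix_cons (w1 w2 : Co J B) (x : J) (l : List J) :
    (mix e w1 w2).f (x :: l) = if e x then w2.f (x :: l) else w1.f (x :: l) := rfl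

/-- multiplication by `t`, `t (x, y) = [e x ≠ e y]` -/
def tm : Co J B →+ Co J B where
  toFun F := ⟨fun l => match l with
    | [] => 0
    | [_] => 0
    | x :: y :: l => if e x = e y then 0 else F.f (y :: l)⟩
  map_zero' := Co.ext fun l => by
    rcases l with _ | ⟨x, _ | ⟨y, l⟩⟩
    · rfl
    · rfl
    · show (if e x = e y then (0 : B) else 0) = 0
      split_ifs <;> rfl
  map_add' F G := Co.ext fun l => by
    rcases l with _ | ⟨x, _ | ⟨y, l⟩⟩
    · simp
    · simp
    · show (if e x = e y then (0 : B) else F.f (y :: l) + G.f (y :: l)) = _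
      rw [add_f]
      show _ = (if e x = e y then (0 : B) else F.f (y :: l)) + (if e x = e y then (0 : B) else G.f (y :: l))
      split_ifs <;> simp

@[simp] theorem tm_nil (F : Co J B) : (tm e F).f [] = 0 := rfl
@[simp] theorem tm_single (F : Co J B) (x : J) : (tm e F).f [x] = 0 := rfl
@[simp] theorem tm_cons (F : Co J B) (x y : J) (l : List J) :
    (tm e F).f (x :: y :: l) = if e x = e y then 0 else F.f (y :: l) := rfl

theorem dl_mix [Cx B] (w1 w2 : Co J B) (x : J) (l : List J) :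
    dl (x :: l) (mix e w1 w2).f =
      (if e x then dl (x :: l) (nz w2.f) else dl (x :: l) (nz w1.f)) +
      (nz (mix e w1 w2).f l - if e x then nz w2.f l else nz w1.f l) := by
  have h : (fun l' => (mix e w1 w2).f (x :: l')) =
      fun l' => if e x then nz w2.f (x :: l') else nz w1.f (x :: l') := by
    funext l'; rw [mix_cons]; rfl
  have h2 : nz (mix e w1 w2).f l = (mix e w1 w2).f l := by cases l <;> rfl
  rw [dl_cons, h, h2]
  by_cases hx : e x
  · simp only [hx, if_true]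
    rw [dl_cons]; abel
  · simp only [hx, if_false, Bool.false_eq_true]
    rw [dl_cons]; abel

theorem δ_mix [Cx B] (w1 w2 : Co J B) (l : List J) :
    (Cx.δ (mix e w1 w2)).f l = (mix e (Cx.δ w1) (Cx.δ w2)).f l +
      (match l with
        | [] => 0
        | [_] => 0
        | x :: y :: l => if e x = e y then 0 else
            if e x then w1.f (y :: l) - w2.f (y :: l) else w2.f (y :: l) - w1.f (y :: l)) := by
  rcases l with _ | ⟨x, l⟩
  · simp
  · have hn : nz (mix e w1 w2).f = (mix e w1 w2).f := nz_of rfl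
    rw [δ_of (mix_nil e w1 w2), dl_mix, mix_cons, mix_cons]
    have hc : (if e x then dl (x :: l) (nz w2.f) else dl (x :: l) (nz w1.f)) +
        sg (x :: l).length • Cx.δ (if e x then w2.f (x :: l) else w1.f (x :: l)) =
        if e x then (Cx.δ w2).f (x :: l) else (Cx.δ w1).f (x :: l) := by
      split_ifs
      · rw [δ_eq, dlt_f]; rfl
      · rw [δ_eq, dlt_f]; rfl
    rw [← hc]
    rcases l with _ | ⟨y, l⟩
    · simp
    · simp only [nz_cons, mix_cons]
      by_cases hx : e x <;> by_cases hy : e y <;> simp [hx, hy]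
      all_goals abel

/-- **Gysin lemma** -/
theorem gysin [Cx B] (two : ∀ b : B, b + b = 0) (w1 w2 : Co J B) :
    Cx.δ (mix e w1 w2) = mix e (Cx.δ w1) (Cx.δ w2) + tm e (w1 + w2) := by
  refine Co.ext fun l => ?_
  rw [δ_mix, add_f]
  congr 1
  rcases l with _ | ⟨x, _ | ⟨y, l⟩⟩
  · rfl
  · rfl
  · simp only [tm_cons, add_f, sub_eq_add_of_two two]
    by_cases hx : e x <;> by_cases hy : e y <;> simp [hx, hy]
    all_goals rw [add_comm]

theorem mix_self (w : Co J B) (h : w.f [] = 0) : mix e w w = w := by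
  refine Co.ext fun l => ?_
  rcases l with _ | ⟨x, l⟩
  · rw [mix_nil, h]
  · rw [mix_cons]; split_ifs <;> rfl

theorem δ_tm [Cx B] (F : Co J B) : Cx.δ (tm e F) = (2 : ℤ) • tm e (tm e F) - tm e (Cx.δ F) := by
  refine Co.ext fun l => ?_
  rw [δ_of (tm_nil e F), sub_f, zsmul_f]
  rcases l with _ | ⟨x, _ | ⟨y, l⟩⟩
  · simp
  · simp [dl_cons]
  · rw [tm_cons, tm_cons, tm_cons, δ_eq, dlt_f]
    have h1 : (fun l' => (tm e F).f (x :: y :: l')) = fun l' => if e x = e y then 0 else nz F.f (y :: l') := rfl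
    have h2 : dl (y :: l) (fun l' => (tm e F).f (x :: l')) = (tm e F).f (x :: l) -
        if e x = e y then 0 else dl l (fun l' => nz F.f (y :: l')) := by
      rw [dl_cons, h1]
      split_ifs
      · rw [dl_zero]
      · rfl
    have h3 : sg (x :: y :: l).length = - sg (y :: l).length := sg_succ _
    rw [dl_cons, h2, h3, dl_cons y l (nz F.f), nz_cons]
    rcases l with _ | ⟨z, l⟩
    · by_cases hxy : e x = e y <;> simp [hxy]
    · rw [tm_cons, tm_cons, nz_cons]
      by_cases hx : e x <;> by_cases hy : e y <;> by_cases hz : e z <;> simp [hx, hy, hz, two_zsmul]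
      all_goals abel

theorem δ_tm_two [Cx B] (two : ∀ b : B, b + b = 0) (F : Co J B) : Cx.δ (tm e F) = tm e (Cx.δ F) := by
  have h2 : ∀ G : Co J B, (2 : ℤ) • G = 0 := fun G => Co.ext fun l => by
    rw [two_zsmul, add_f, two]; rfl
  have hn : ∀ G : Co J B, -G = G := fun G => Co.ext fun l => by
    rw [neg_f, neg_eq_iff_add_eq_zero, two]
  rw [δ_tm, h2, zero_sub, hn]

theorem δ_tm_tm [Cx B] (F : Co J B) : Cx.δ (tm e (tm e F)) = tm e (tm e (Cx.δ F)) := by
  rw [δ_tm, δ_tm, map_sub, map_zsmul]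
  abel

/-- the reduction `ψ` commutes with `tm` -/
theorem tm_pull {B' : Type*} [AddCommGroup B'] (ψ : B →+ B') (F : Co J B) :
    tm e (pull id ψ F) = pull id ψ (tm e F) := by
  refine Co.ext fun l => ?_
  rw [pull_f]
  rcases l with _ | ⟨x, _ | ⟨y, l⟩⟩
  · simp
  · simp
  · rw [List.map_id, tm_cons, tm_cons, pull_f, List.map_id]
    split_ifs
    · rw [map_zero]
    · rfl

end ops

section mul
variable [NonUnitalRing B] (e : J → Bool)

theorem tm_mul (F G : Co J B) : tm e F * G = tm e (F * G) := by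
  refine Co.ext fun l => ?_
  rcases l with _ | ⟨x, _ | ⟨y, l⟩⟩
  · rfl
  · rw [mul_f, cupl_cons]; simp
  · rw [mul_f, cupl_cons, tm_single, zero_mul, zero_add, tm_cons, mul_f, cupl_cons, cupl_cons]
    split_ifs with h
    · have : (fun l' => (tm e F).f (x :: y :: l')) = fun _ => 0 := by
        funext l'; rw [tm_cons, if_pos h]
      rw [this, cupl_zero_left, tm_cons, if_pos h, zero_mul, zero_add]
    · have : (fun l' => (tm e F).f (x :: y :: l')) = fun l' => F.f (y :: l') := by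
        funext l'; rw [tm_cons, if_neg h]
      rw [this, tm_cons, if_neg h]

theorem kap_mul_tm (b : B) (G : Co J B) : kap b * tm e G = tm e (kap b * G) := by
  refine Co.ext fun l => ?_
  rcases l with _ | ⟨x, _ | ⟨y, l⟩⟩
  · rfl
  · rw [kap_mul _ _ (by simp)]; simp
  · rw [kap_mul _ _ (by simp), tm_cons, tm_cons, kap_mul _ _ (by simp)]
    split_ifs
    · rw [mul_zero]
    · rfl

/-- the square of `t ^ i P` -/
theorem sq_tm_kap (i : ℕ) (P : B) : ((tm e)^[i] (kap P) : Co J B) * (tm e)^[i] (kap P) =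
    (tm e)^[2 * i] (kap (P * P)) := by
  have h1 : ∀ (i : ℕ) (F G : Co J B), (tm e)^[i] F * G = (tm e)^[i] (F * G) := by
    intro i
    induction i with
    | zero => intro F G; rfl
    | succ i ih => intro F G; rw [Function.iterate_succ_apply, ih, tm_mul, Function.iterate_succ_apply]
  have h2 : ∀ (i : ℕ) (G : Co J B), kap P * (tm e)^[i] G = (tm e)^[i] (kap P * G) := by
    intro i
    induction i with
    | zero => intro G; rfl
    | succ i ih => intro G; rw [Function.iterate_succ_apply, ih, kap_mul_tm, Function.iterate_succ_apply]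
  rw [h1, h2, kap_mul_kap, ← Function.iterate_add_apply, two_mul]

end mul

end Crest.Agent.R204.SQ803
end

-- ▼ part R204/T_803
section

/-!
# Cross products and the group of good classes (row 204, leaf G5; helper803)
-/

set_option autoImplicit false
set_option linter.unusedSectionVars false

namespace Crest.Agent.R204.SQ803

open Co

section crs
variable {X Y : Type*} [Group X] [Group Y] {n : ℕ}

/-- invariant bounded functions on lists vanishing at `[]` -/
def CI (X : Type*) [Group X] (n : ℕ) : AddSubgroup (List X → ZMod n) where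
  carrier := {a | a [] = 0 ∧ (∃ K, ∀ l, K < l.length → a l = 0) ∧
    ∀ (g : X) (l : List X), a (l.map fun b => g * b) = a l}
  zero_mem' := ⟨rfl, ⟨0, fun _ _ => rfl⟩, fun _ _ => rfl⟩
  add_mem' {a b} ha hb := by
    refine ⟨by simp [ha.1, hb.1], ?_, fun g l => by simp [ha.2.2 g l, hb.2.2 g l]⟩
    obtain ⟨K, hK⟩ := ha.2.1
    obtain ⟨K', hK'⟩ := hb.2.1
    refine ⟨max K K', fun l h => ?_⟩
    rw [Pi.add_apply, hK l (lt_of_le_of_lt (le_max_left _ _) h),
      hK' l (lt_of_le_of_lt (le_max_right _ _) h), add_zero]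
  neg_mem' {a} ha := by
    refine ⟨by simp [ha.1], ?_, fun g l => by simp [ha.2.2 g l]⟩
    obtain ⟨K, hK⟩ := ha.2.1
    exact ⟨K, fun l h => by rw [Pi.neg_apply, hK l h, neg_zero]⟩

theorem CM_le_CI {q : ℕ} {a : List X → ZMod 2} (ha : a ∈ CM X q) : a ∈ CI X 2 :=
  ⟨ha.1, ⟨q, fun l hl => ha.2.1 l (by omega)⟩, ha.2.2⟩

theorem dl_mem_CI {a : List X → ZMod n} (ha : a ∈ CI X n) : (fun l => dl l a) ∈ CI X n := by
  refine ⟨rfl, ?_, fun g l => ?_⟩
  · obtain ⟨K, hK⟩ := ha.2.1
    exact ⟨K + 1, fun l hl => dl_eq_zero fun l' hl' => hK _ (by omega)⟩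
  · show dl (l.map fun b => g * b) a = dl l a
    rw [← dl_map]
    exact dl_congr fun l' _ => ha.2.2 g l'

theorem cupl_mem_CI {a b : List X → ZMod n} (ha : a ∈ CI X n) (hb : b ∈ CI X n) :
    (fun l => cupl l a b) ∈ CI X n := by
  refine ⟨rfl, ?_, fun g l => ?_⟩
  · obtain ⟨K, hK⟩ := ha.2.1
    obtain ⟨K', hK'⟩ := hb.2.1
    refine ⟨K + K', fun l hl => cupl_eq_zero (fun x => x) rfl (fun _ _ => rfl) fun c d h => ?_⟩
    by_cases h1 : K < c.length
    · rw [hK c h1, zero_mul]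
    · rw [hK' d (by omega), mul_zero]
  · show cupl (l.map fun b => g * b) a b = cupl l a b
    rw [← cupl_map]
    exact cupl_congr (fun x l => ha.2.2 g (x :: l)) (fun x l => hb.2.2 g (x :: l))

/-- invariant bounded normalised elements of `S` -/
def SF (X Y : Type*) [Group X] [Group Y] (n : ℕ) : AddSubgroup (Co X (Co Y (ZMod n))) where
  carrier := {s | NzS s ∧ (∃ K : ℕ, ∀ x y, K < x.length + y.length → (s.f x).f y = 0) ∧
    ∀ g : X × Y, aS g s = s}
  zero_mem' := ⟨NzS.zero, ⟨0, fun _ _ _ => rfl⟩, fun g => map_zero _⟩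
  add_mem' {s t} hs ht := by
    refine ⟨hs.1.add ht.1, ?_, fun g => by rw [map_add, hs.2.2, ht.2.2]⟩
    obtain ⟨K, hK⟩ := hs.2.1
    obtain ⟨K', hK'⟩ := ht.2.1
    refine ⟨max K K', fun x y h => ?_⟩
    rw [add_f, add_f, hK x y (lt_of_le_of_lt (le_max_left _ _) h),
      hK' x y (lt_of_le_of_lt (le_max_right _ _) h), add_zero]
  neg_mem' {s} hs := by
    refine ⟨hs.1.neg, ?_, fun g => by rw [map_neg, hs.2.2]⟩
    obtain ⟨K, hK⟩ := hs.2.1
    exact ⟨K, fun x y h => by rw [neg_f, neg_f, hK x y h, neg_zero]⟩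

theorem crs_mem {a : List X → ZMod n} {b : List Y → ZMod n} (ha : a ∈ CI X n) (hb : b ∈ CI Y n) :
    crs a b ∈ SF X Y n := by
  refine ⟨⟨Co.ext fun y => ?_, fun x => ?_⟩, ?_, fun g => Co.ext fun x => Co.ext fun y => ?_⟩
  · rw [crs_f, ha.1, zero_mul]; rfl
  · rw [crs_f, hb.1, mul_zero]
  · obtain ⟨K, hK⟩ := ha.2.1
    obtain ⟨K', hK'⟩ := hb.2.1
    refine ⟨K + K', fun x y h => ?_⟩
    rw [crs_f]
    by_cases h1 : K < x.length
    · rw [hK x h1, zero_mul]
    · rw [hK' y (by omega), mul_zero]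
  · rw [aS_f, crs_f, crs_f, ha.2.2, hb.2.2]

theorem crs_add_left (a a' : List X → ZMod n) (b : List Y → ZMod n) :
    crs (a + a') b = crs a b + crs a' b :=
  Co.ext fun x => Co.ext fun y => add_mul _ _ _

theorem crs_add_right (a : List X → ZMod n) (b b' : List Y → ZMod n) :
    crs a (b + b') = crs a b + crs a b' :=
  Co.ext fun x => Co.ext fun y => mul_add _ _ _

theorem crs_nz {a : List X → ZMod n} {b : List Y → ZMod n} (ha : a [] = 0) (hb : b [] = 0) :
    NzS (crs a b) :=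
  ⟨Co.ext fun y => by rw [crs_f, ha, zero_mul]; rfl, fun x => by rw [crs_f, hb, mul_zero]⟩

theorem δ_crs {a : List X → ZMod 2} {b : List Y → ZMod 2} (ha : a [] = 0) (hb : b [] = 0) :
    Cx.δ (crs a b) = crs (fun l => dl l a) b + crs a (fun l => dl l b) := by
  refine Co.ext fun x => Co.ext fun y => ?_
  rw [(crs_nz ha hb).δ_fz, sg_smul_of_two DG2.two, add_f, add_f]
  congr 1
  · have := dl_hom (AddMonoidHom.mulRight (b y)) x a
    exact this
  · have := dl_hom (AddMonoidHom.mulLeft (a x)) y b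
    exact this

theorem δ_crs_zero {a : List X → ZMod n} {b : List Y → ZMod n} (ha : a [] = 0) (hb : b [] = 0)
    (da : ∀ l, dl l a = 0) (db : ∀ l, dl l b = 0) : Cx.δ (crs a b) = 0 := by
  refine Co.ext fun x => Co.ext fun y => ?_
  rw [(crs_nz ha hb).δ_fz]
  have h1 := dl_hom (AddMonoidHom.mulRight (b y)) x a
  have h2 := dl_hom (AddMonoidHom.mulLeft (a x)) y b
  rw [da, map_zero] at h1
  rw [db, map_zero] at h2
  have h1' : dl x (fun x' => ((crs a b).f x').f y) = 0 := h1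
  have h2' : dl y ((crs a b).f x).f = 0 := h2
  rw [h1', h2']; simp

theorem cupl_smul_right (c : ZMod n) (y : List Y) (f g : List Y → ZMod n) :
    cupl y f (fun l => c * g l) = c * cupl y f g := by
  induction y generalizing f with
  | nil => simp
  | cons b y ih => rw [cupl_cons, cupl_cons, ih]; ring

theorem crs_mul (a a' : List X → ZMod n) (b b' : List Y → ZMod n) :
    crs a b * crs a' b' = crs (fun l => cupl l a a') (fun l => cupl l b b') := by
  refine Co.ext fun x => Co.ext fun y => ?_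
  rw [mul_f, crs_f]
  have key : ∀ (x : List X) (a : List X → ZMod n),
      (cupl x (crs a b).f (crs a' b').f).f y = cupl x a a' * cupl y b b' := by
    intro x
    induction x with
    | nil => intro a; simp
    | cons x0 x ih =>
      intro a
      rw [cupl_cons, add_f]
      have h1 : ((crs a b).f [x0] * (crs a' b').f (x0 :: x)).f y =
          a [x0] * (a' (x0 :: x) * cupl y b b') := by
        rw [mul_f]
        show cupl y (fun l => a [x0] * b l) (fun l => a' (x0 :: x) * b' l) = _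
        rw [cupl_mul_left, cupl_smul_right]
      have h2 : (cupl x (fun l' => (crs a b).f (x0 :: l')) (crs a' b').f).f y =
          cupl x (fun l' => a (x0 :: l')) a' * cupl y b b' := ih fun l' => a (x0 :: l')
      rw [h1, h2, cupl_cons]; ring
  exact key x a

theorem Tn_crs {a : List X → ZMod 2} {b : List Y → ZMod 2} (ha : a [] = 0) (hb : b [] = 0) :
    Tn (crs a b) = crs b a := by
  refine Co.ext fun y => Co.ext fun x => ?_
  rw [Tn_f2, (crs_nz ha hb).vv, crs_f, crs_f, mul_comm]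

theorem Tn_crs_odd {a : List X → ZMod n} {b : List Y → ZMod n} (ha : a [] = 0) (hb : b [] = 0)
    (oa : ∀ l, a l ≠ 0 → l.length % 2 = 1) : Tn (crs a b) = crs b a := by
  refine Co.ext fun y => Co.ext fun x => ?_
  rw [Tn_f, (crs_nz ha hb).vv, crs_f, crs_f, mul_comm]
  by_cases h : a x = 0
  · rw [h]; simp
  · have h1 := oa x h
    have : sw x.length y.length = 1 := by
      unfold sw
      rw [pow_mul]
      have : Even (x.length + 1) := by rw [Nat.even_iff]; omega
      rw [this.neg_one_pow, one_pow]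
    rw [this, one_smul]

variable {J : Type*} [MulAction (X × Y) J]

theorem kap_mem_QA {s : Co X (Co Y (ZMod n))} (hs : s ∈ SF X Y n) : kap s ∈ QA J X Y n := by
  refine ⟨NzE.kap hs.1, ?_, fun g => ?_⟩
  · obtain ⟨K, hK⟩ := hs.2.1
    refine ⟨K, fun l x y h => ?_⟩
    rw [kap_f]
    split_ifs with hl
    · exact hK x y h
    · rfl
  · unfold aA
    rw [pull_kap, hs.2.2]

end crs

section crsB
variable {J X : Type*} [Group X] [MulAction (X × X) J] {n : ℕ}

theorem aT_kap (σ : J → J) (s : Co X (Co X (ZMod n))) : aT σ (kap s) = kap (Tn s) := pull_kap _ _ _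

theorem kap_mem_QB (W : Sig J X) {s : Co X (Co X (ZMod n))} (hs : s ∈ SF X X n) (ht : Tn s = s) :
    kap s ∈ QB W n := ⟨kap_mem_QA hs, by rw [aT_kap, ht]⟩

theorem tm_mem_QB (W : Sig J X) {F : Co J (Co X (Co X (ZMod n)))} (hF : F ∈ QB W n) :
    tm W.ε F ∈ QB W n := by
  refine ⟨⟨⟨rfl, fun l => ?_⟩, ?_, fun g => Co.ext fun l => ?_⟩, Co.ext fun l => ?_⟩
  · rcases l with _ | ⟨x, _ | ⟨y, l⟩⟩
    · exact NzS.zero
    · exact NzS.zero
    · rw [tm_cons]; split_ifs
      · exact NzS.zero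
      · exact hF.1.1.2 _
  · obtain ⟨K, hK⟩ := hF.1.2.1
    refine ⟨K, fun l x y h => ?_⟩
    rcases l with _ | ⟨a, _ | ⟨b, l⟩⟩
    · rfl
    · rfl
    · rw [tm_cons]; split_ifs
      · rfl
      · exact hK _ _ _ h
  · rw [aA_f]
    rcases l with _ | ⟨a, _ | ⟨b, l⟩⟩
    · exact map_zero _
    · exact map_zero _
    · rw [List.map_cons, List.map_cons, tm_cons, tm_cons, W.ε_smul, W.ε_smul]
      split_ifs
      · exact map_zero _
      · have := congrArg (fun F => F.f (b :: l)) (hF.1.2.2 g)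
        simpa using this
  · rw [aT_f]
    rcases l with _ | ⟨a, _ | ⟨b, l⟩⟩
    · exact map_zero _
    · exact map_zero _
    · rw [List.map_cons, List.map_cons, tm_cons, tm_cons, W.ε_σ, W.ε_σ]
      have e1 : ((!W.ε a) = !W.ε b) ↔ (W.ε a = W.ε b) := by simp
      by_cases h : W.ε a = W.ε b
      · rw [if_pos h, if_pos (e1.2 h)]; exact map_zero _
      · rw [if_neg h, if_neg (fun h' => h (e1.1 h'))]
        have := congrArg (fun F => F.f (b :: l)) hF.2
        simpa using this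

theorem tmi_mem_QB (W : Sig J X) (i : ℕ) {F : Co J (Co X (Co X (ZMod n)))} (hF : F ∈ QB W n) :
    (tm W.ε)^[i] F ∈ QB W n := by
  induction i with
  | zero => exact hF
  | succ i ih => rw [Function.iterate_succ_apply']; exact tm_mem_QB W ih

theorem tmi_add (e : J → Bool) (i : ℕ) (F G : Co J (Co X (Co X (ZMod n)))) :
    (tm e)^[i] (F + G) = (tm e)^[i] F + (tm e)^[i] G := by
  induction i with
  | zero => rfl
  | succ i ih => rw [Function.iterate_succ_apply', ih, map_add, Function.iterate_succ_apply',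
      Function.iterate_succ_apply']

theorem δ_tmi (e : J → Bool) (i : ℕ) (F : Co J (Co X (Co X (ZMod 2)))) :
    Cx.δ ((tm e)^[i] F) = (tm e)^[i] (Cx.δ F) := by
  induction i with
  | zero => rfl
  | succ i ih => rw [Function.iterate_succ_apply', δ_tm_two e DG2.two, ih, Function.iterate_succ_apply']

theorem δ_tmi_two (e : J → Bool) (i : ℕ) (F : Co J (Co X (Co X (ZMod n)))) (h : Cx.δ F = 0) :
    Cx.δ ((tm e)^[2 * i] F) = 0 := by
  induction i with
  | zero => exact h
  | succ i ih =>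
    rw [show 2 * (i + 1) = 2 * i + 1 + 1 by ring, Function.iterate_succ_apply',
      Function.iterate_succ_apply', δ_tm_tm, ih, map_zero, map_zero]

/-- Gysin correction term -/
theorem mix_mem (W : Sig J X) {w : Co J (Co X (Co X (ZMod 2)))} (hw : w ∈ QA J X X 2) :
    mix W.ε w (aT W.σ w) ∈ QB W 2 := by
  have : mix W.ε w (aT W.σ w) = W.e 2 w + aT W.σ (W.e 2 w) := by
    refine Co.ext fun l => ?_
    rcases l with _ | ⟨j, l⟩
    · rw [mix_nil, add_f, W.e_f, aT_f, List.map_nil, W.e_f, hw.1.1]; simp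
    · rw [mix_cons, add_f, aT_f, aT_f, W.e_f, W.e_f, W.hd_σ]
      show _ = (if W.ε j = true then 0 else w.f (j :: l)) +
        Tn (if (!W.ε j) = true then 0 else w.f (List.map W.σ (j :: l)))
      cases W.ε j <;> simp
  rw [this]
  exact tr_mem_QB W (e_mem_QA W hw)

theorem E_two {X Y : Type*} (F : Co J (Co X (Co Y (ZMod 2)))) : F + F = 0 := DG2.two F

/-- an invariant coboundary of a non-invariant cochain -/
theorem gysinB (W : Sig J X) {w X1 : Co J (Co X (Co X (ZMod 2)))} (hw : w ∈ QA J X X 2)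
    (hX : Cx.δ w = X1) (hs : aT W.σ X1 = X1) :
    X1 = Cx.δ (mix W.ε w (aT W.σ w)) + tm W.ε (w + aT W.σ w) := by
  rw [gysin W.ε DG2.two, δ_aT, hX, hs, mix_self, add_assoc, E_two, add_zero]
  rw [← hX]; exact δ_nil _

end crsB

end Crest.Agent.R204.SQ803
end

-- ▼ part R204/GG_803

/-!
# The group of good classes (row 204, leaf G5; helper803)
-/

set_option autoImplicit false
set_option linter.unusedSectionVars false

namespace Crest.Agent.R204.SQ803

open Co

section cf
variable {J B B' B'' : Type*} [AddCommGroup B] [AddCommGroup B']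

/-- change of coefficients -/
def cf (ψ : B' →+ B) : Co J B' →+ Co J B := pull id ψ

@[simp] theorem cf_f (ψ : B' →+ B) (F : Co J B') (l : List J) : (cf ψ F).f l = ψ (F.f l) := by
  show ψ (F.f (l.map id)) = _
  rw [List.map_id]

theorem δ_cf [Cx B] [Cx B'] (ψ : B' →+ B) (hψ : ∀ b, Cx.δ (ψ b) = ψ (Cx.δ b)) (F : Co J B') :
    Cx.δ (cf ψ F) = cf ψ (Cx.δ F) := δ_pull _ _ hψ F

theorem cf_kap (ψ : B' →+ B) (b : B') : cf ψ (kap (J := J) b) = kap (ψ b) := pull_kap _ _ _

theorem tm_cf (e : J → Bool) (ψ : B' →+ B) (F : Co J B') : tm e (cf ψ F) = cf ψ (tm e F) :=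
  tm_pull e ψ F

end cf

section rho
variable {J X Y : Type*} [Group X] [Group Y] [MulAction (X × Y) J] {N : ℕ}

/-- reduction mod 2 -/
def rho (hN : 0 < N) : ZMod (2 ^ N) →+ ZMod 2 :=
  (ZMod.castHom (dvd_pow_self 2 hN.ne') (ZMod 2)).toAddMonoidHom


theorem rho_mul (hN : 0 < N) (a b : ZMod (2 ^ N)) : rho hN (a * b) = rho hN a * rho hN b :=
  map_mul (ZMod.castHom (dvd_pow_self 2 hN.ne') (ZMod 2)) a b

/-- reduction on `S` -/
def rhoS (hN : 0 < N) : Co X (Co Y (ZMod (2 ^ N))) →+ Co X (Co Y (ZMod 2)) := cf (cf (rho hN))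

/-- reduction on `E` -/
def rhoE (hN : 0 < N) : Co J (Co X (Co Y (ZMod (2 ^ N)))) →+ Co J (Co X (Co Y (ZMod 2))) :=
  cf (rhoS hN)

theorem rhoS_f (hN : 0 < N) (s : Co X (Co Y (ZMod (2 ^ N)))) (x : List X) (y : List Y) :
    ((rhoS hN s).f x).f y = rho hN ((s.f x).f y) := by
  unfold rhoS; rw [cf_f, cf_f]

theorem rhoE_f (hN : 0 < N) (F : Co J (Co X (Co Y (ZMod (2 ^ N))))) (l : List J) (x : List X)
    (y : List Y) : (((rhoE hN F).f l).f x).f y = rho hN (((F.f l).f x).f y) := by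
  unfold rhoE; rw [cf_f, rhoS_f]

theorem δ_rhoS (hN : 0 < N) (s : Co X (Co Y (ZMod (2 ^ N)))) : Cx.δ (rhoS hN s) = rhoS hN (Cx.δ s) :=
  δ_cf _ (fun b => δ_cf _ (fun b => by rw [Cx.zmod, Cx.zmod, map_zero]) b) s

theorem δ_rhoE (hN : 0 < N) (F : Co J (Co X (Co Y (ZMod (2 ^ N))))) :
    Cx.δ (rhoE hN F) = rhoE hN (Cx.δ F) := δ_cf _ (fun b => δ_rhoS hN b) F

theorem rhoE_io (hN : 0 < N) (f : Co J (ZMod (2 ^ N))) :
    rhoE hN (io (X := X) (Y := Y) f) = io (cf (rho hN) f) := by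
  refine Co.ext fun l => Co.ext fun x => Co.ext fun y => ?_
  rw [rhoE_f, io_f, io_f, cf_f, kap_f, kap_f]
  split_ifs
  · rw [kap_f, kap_f]; split_ifs
    · rfl
    · exact map_zero _
  · exact map_zero _

theorem rhoE_kap (hN : 0 < N) (s : Co X (Co Y (ZMod (2 ^ N)))) :
    rhoE (J := J) hN (kap s) = kap (rhoS hN s) := cf_kap _ _

theorem rhoS_crs (hN : 0 < N) (a : List X → ZMod (2 ^ N)) (b : List Y → ZMod (2 ^ N)) :
    rhoS hN (crs a b) = crs (fun l => rho hN (a l)) (fun l => rho hN (b l)) := by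
  refine Co.ext fun x => Co.ext fun y => ?_
  rw [rhoS_f, crs_f, crs_f, rho_mul]

theorem rhoE_QA (hN : 0 < N) {F : Co J (Co X (Co Y (ZMod (2 ^ N))))} (hF : F ∈ QA J X Y (2 ^ N)) :
    rhoE hN F ∈ QA J X Y 2 := by
  refine ⟨⟨?_, fun l => ⟨?_, fun x => ?_⟩⟩, ?_, fun g => ?_⟩
  · refine Co.ext fun x => Co.ext fun y => ?_
    rw [rhoE_f, hF.1.1]; exact map_zero _
  · refine Co.ext fun y => ?_
    rw [rhoE_f, (hF.1.2 l).1]; exact map_zero _
  · rw [rhoE_f, (hF.1.2 l).2]; exact map_zero _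
  · obtain ⟨K, hK⟩ := hF.2.1
    exact ⟨K, fun l x y h => by rw [rhoE_f, hK l x y h]; exact map_zero _⟩
  · refine Co.ext fun l => Co.ext fun x => Co.ext fun y => ?_
    have := congrArg (fun F => ((F.f l).f x).f y) (hF.2.2 g)
    rw [aA_f, aS_f, rhoE_f, rhoE_f]
    exact congrArg _ this

end rho

theorem rhoE_QB {J X : Type*} [Group X] [MulAction (X × X) J] {N : ℕ} (hN : 0 < N) {W : Sig J X}
    {F : Co J (Co X (Co X (ZMod (2 ^ N))))} (hF : F ∈ QB W (2 ^ N)) : rhoE hN F ∈ QB W 2 := by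
  refine ⟨rhoE_QA hN hF.1, Co.ext fun l => Co.ext fun x => Co.ext fun y => ?_⟩
  have := congrArg (fun F => ((F.f l).f x).f y) hF.2
  simp only [aT_f, Tn_f] at this
  rw [aT_f, Tn_f, ((rhoE_QA hN hF.1).1.2 _).vv, rhoE_f, rhoE_f, ← this, (hF.1.1.2 _).vv, map_zsmul]

/-! ## the abstract argument -/

section good
variable {J X Y : Type*} [Group X] [Group Y] [MulAction (X × Y) J] {N : ℕ}

/-- hypotheses of the abstract argument -/
structure GH (hN : 0 < N) (Q : AddSubgroup (Co J (Co X (Co Y (ZMod 2)))))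
    (Fq : AddSubgroup (Co J (ZMod 2))) (QR : AddSubgroup (Co J (Co X (Co Y (ZMod (2 ^ N))))))
    (FR : AddSubgroup (Co J (ZMod (2 ^ N)))) : Prop where
  δQ : ∀ F ∈ Q, Cx.δ F ∈ Q
  mulQ : ∀ F ∈ Q, ∀ G ∈ Q, F * G ∈ Q
  ioQ : ∀ f ∈ Fq, io f ∈ Q
  red2 : ∀ F ∈ Q, (∀ k > 2, cS k (Cx.δ F) = 0) → ∃ f ∈ Fq, ∃ H ∈ Q, F = io f + Cx.δ H
  redR : ∀ F ∈ QR, (∀ k > 2, cS k (Cx.δ F) = 0) → ∃ f ∈ FR, ∃ H ∈ QR, F = io f + Cx.δ H
  δF : ∀ f ∈ Fq, Cx.δ f ∈ Fq
  mulF : ∀ f ∈ Fq, ∀ g ∈ Fq, f * g ∈ Fq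
  cupoF : ∀ f ∈ Fq, ∀ g ∈ Fq, (⟨fun l => cupo l f.f g.f⟩ : Co J (ZMod 2)) ∈ Fq
  nzF : ∀ f ∈ Fq, f.f [] = 0
  rhoQ : ∀ F ∈ QR, rhoE hN F ∈ Q
  rhoF : ∀ f ∈ FR, cf (rho hN) f ∈ Fq

theorem cS_io (k : ℕ) (hk : 2 < k) {n : ℕ} (f : Co J (ZMod n)) : cS k (io (X := X) (Y := Y) f) = 0 := by
  refine Co.ext fun l => Co.ext fun x => Co.ext fun y => ?_
  rw [cS_f, cSS_f, io_f, kap_f]
  split_ifs with h1 h2
  · rw [kap_f, if_neg (by omega)]; rfl
  · rfl
  · rfl

theorem sum_zero2 {B : Type*} [AddCommGroup B] (two : ∀ b : B, b + b = 0) {a b : B} (h : a + b = 0) :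
    a = b := by rw [← add_zero a, ← two b, ← add_assoc, h, zero_add]

variable {hN : 0 < N} {Q : AddSubgroup (Co J (Co X (Co Y (ZMod 2))))}
    {Fq : AddSubgroup (Co J (ZMod 2))} {QR : AddSubgroup (Co J (Co X (Co Y (ZMod (2 ^ N)))))}
    {FR : AddSubgroup (Co J (ZMod (2 ^ N)))}

theorem GH.inj (G : GH hN Q Fq QR FR) {f : Co J (ZMod 2)} {H : Co J (Co X (Co Y (ZMod 2)))}
    (hH : H ∈ Q) (h : io f = Cx.δ H) : ∃ v ∈ Fq, f = Cx.δ v := by
  obtain ⟨v, hv, H', hH', e⟩ := G.red2 H hH fun k hk => by rw [← h, cS_io k hk]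
  refine ⟨v, hv, io_inj (X := X) (Y := Y) ?_⟩
  rw [h, e, map_add, Cx.δδ, add_zero, δ_io]

theorem δ_Co_f (f : Co J (ZMod 2)) (hf : f.f [] = 0) (l : List J) : (Cx.δ f).f l = dl l f.f := by
  rw [δ_of hf, Cx.zmod, smul_zero, add_zero]

/-- cup products of cocycles commute up to a coboundary -/
theorem cup_comm' {f g : Co J (ZMod 2)} (hf : f.f [] = 0) (hg : g.f [] = 0) (df : Cx.δ f = 0)
    (dg : Cx.δ g = 0) : f * g + g * f = Cx.δ (⟨fun l => cupo l f.f g.f⟩ : Co J (ZMod 2)) := by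
  refine Co.ext fun l => ?_
  have hf' : (fun l' => dl l' f.f) = fun _ => 0 := by
    funext l'; rw [← δ_Co_f f hf, df]; rfl
  have hg' : (fun l' => dl l' g.f) = fun _ => 0 := by
    funext l'; rw [← δ_Co_f g hg, dg]; rfl
  rw [δ_Co_f _ rfl]
  have h := dl_cupo (DG2.two (B := ZMod 2)) l f.f g.f hg
  have z1 : ∀ (l : List J) (g : List J → ZMod 2), cupo l (fun _ => 0) g = 0 := by
    intro l
    induction l with
    | nil => intro g; rfl
    | cons x l ih => intro g; rw [cupo_cons, cupl_zero_right, ih, add_zero]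
  have z2 : ∀ (l : List J) (f : List J → ZMod 2), cupo l f (fun _ => 0) = 0 := by
    intro l
    induction l with
    | nil => intro g; rfl
    | cons x l ih => intro g; rw [cupo_cons, cupl_zero_left, ih, add_zero]
  rw [hf', hg', z1, z2, zero_add, zero_add] at h
  rw [h]; rfl

/-- the square of a cocycle in the class of a lift -/
def SqL (hN : 0 < N) (Fq : AddSubgroup (Co J (ZMod 2))) (FR : AddSubgroup (Co J (ZMod (2 ^ N))))
    (f : Co J (ZMod 2)) : Prop :=
  ∃ Y ∈ FR, Cx.δ Y = 0 ∧ ∃ v ∈ Fq, f * f = cf (rho hN) Y + Cx.δ v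

theorem Co_two (f : Co J (ZMod 2)) : f + f = 0 := DG2.two f

theorem neg_eq_self2 {B : Type*} [AddCommGroup B] (two : ∀ b : B, b + b = 0) (b : B) : -b = b :=
  neg_eq_of_add_eq_zero_left (two b)

theorem SqL.add (G : GH hN Q Fq QR FR) {f g : Co J (ZMod 2)} (hf : f ∈ Fq) (hg : g ∈ Fq)
    (df : Cx.δ f = 0) (dg : Cx.δ g = 0) (sf : SqL hN Fq FR f) (sg : SqL hN Fq FR g) :
    SqL hN Fq FR (f + g) := by
  obtain ⟨Y, hY, dY, v, hv, e⟩ := sf
  obtain ⟨Y', hY', dY', v', hv', e'⟩ := sg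
  refine ⟨Y + Y', FR.add_mem hY hY', by rw [map_add, dY, dY', add_zero],
    v + v' + ⟨fun l => cupo l f.f g.f⟩, Fq.add_mem (Fq.add_mem hv hv') (G.cupoF f hf g hg), ?_⟩
  rw [map_add, map_add, map_add, ← cup_comm' (G.nzF f hf) (G.nzF g hg) df dg, add_mul, mul_add, mul_add,
    e, e']
  abel

theorem SqL.coh (G : GH hN Q Fq QR FR) {f g w : Co J (ZMod 2)} (hf : f ∈ Fq)
    (df : Cx.δ f = 0) (hw : w ∈ Fq) (e : g = f + Cx.δ w) (sf : SqL hN Fq FR f) :
    SqL hN Fq FR g := by
  obtain ⟨Y, hY, dY, v, hv, ef⟩ := sf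
  refine ⟨Y, hY, dY, v + f * w + w * f + w * Cx.δ w, Fq.add_mem (Fq.add_mem (Fq.add_mem hv
    (G.mulF f hf w hw)) (G.mulF w hw f hf)) (G.mulF w hw _ (G.δF w hw)), ?_⟩
  rw [map_add, map_add, map_add, DG2.leib, DG2.leib, DG2.leib, df, Cx.δδ, e, add_mul, mul_add, mul_add,
    ef]
  simp only [zero_mul, mul_zero, add_zero, zero_add]
  abel

/-- the group of good classes -/
def GG (hN : 0 < N) (Q : AddSubgroup (Co J (Co X (Co Y (ZMod 2)))))
    (Fq : AddSubgroup (Co J (ZMod 2))) (FR : AddSubgroup (Co J (ZMod (2 ^ N))))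
    (F : Co J (Co X (Co Y (ZMod 2)))) : Prop :=
  ∃ f ∈ Fq, Cx.δ f = 0 ∧ (∃ H ∈ Q, F = io f + Cx.δ H) ∧ SqL hN Fq FR f

theorem GG.zero : GG hN Q Fq FR (0 : Co J (Co X (Co Y (ZMod 2)))) := by
  refine ⟨0, Fq.zero_mem, map_zero _, ⟨0, Q.zero_mem, by rw [map_zero, map_zero, add_zero]⟩, 0,
    FR.zero_mem, map_zero _, 0, Fq.zero_mem, by rw [map_zero, map_zero, add_zero, mul_zero]⟩

theorem GG.add (G : GH hN Q Fq QR FR) {F F' : Co J (Co X (Co Y (ZMod 2)))} (h : GG hN Q Fq FR F)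
    (h' : GG hN Q Fq FR F') : GG hN Q Fq FR (F + F') := by
  obtain ⟨f, hf, df, ⟨H, hH, e⟩, s⟩ := h
  obtain ⟨f', hf', df', ⟨H', hH', e'⟩, s'⟩ := h'
  exact ⟨f + f', Fq.add_mem hf hf', by rw [map_add, df, df', add_zero], ⟨H + H', Q.add_mem hH hH', by
    rw [e, e', map_add, map_add]; abel⟩, s.add G hf hf' df df' s'⟩

theorem GG.bd (F : Co J (Co X (Co Y (ZMod 2)))) (hF : F ∈ Q) : GG hN Q Fq FR (Cx.δ F) := by
  refine ⟨0, Fq.zero_mem, map_zero _, ⟨F, hF, by rw [map_zero, zero_add]⟩, 0,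
    FR.zero_mem, map_zero _, 0, Fq.zero_mem, by rw [map_zero, map_zero, add_zero, mul_zero]⟩

/-- a cocycle whose square is the reduction of a cocycle modulo coboundaries is good -/
theorem GG.of_sq (G : GH hN Q Fq QR FR) {F : Co J (Co X (Co Y (ZMod 2)))} (hF : F ∈ Q)
    (dF : Cx.δ F = 0) {Z : Co J (Co X (Co Y (ZMod (2 ^ N))))} (hZ : Z ∈ QR) (dZ : Cx.δ Z = 0)
    {K : Co J (Co X (Co Y (ZMod 2)))} (hK : K ∈ Q) (e : F * F = rhoE hN Z + Cx.δ K) :
    GG hN Q Fq FR F := by
  have two := DG2.two (B := Co J (Co X (Co Y (ZMod 2))))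
  obtain ⟨f, hf, H, hH, e1⟩ := G.red2 F hF fun k _ => by rw [dF, map_zero]
  obtain ⟨U, hU, H', hH', e2⟩ := G.redR Z hZ fun k _ => by rw [dZ, map_zero]
  have df : Cx.δ f = 0 := by
    refine io_inj (X := X) (Y := Y) ?_
    rw [map_zero, ← δ_io]
    have : io f = F - Cx.δ H := by rw [e1]; abel
    rw [this, map_sub, dF, Cx.δδ, sub_zero]
  have dU : Cx.δ U = 0 := by
    refine io_inj (X := X) (Y := Y) ?_
    rw [map_zero, ← δ_io]
    have : io U = Z - Cx.δ H' := by rw [e2]; abel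
    rw [this, map_sub, dZ, Cx.δδ, sub_zero]
  refine ⟨f, hf, df, ⟨H, hH, e1⟩, U, hU, dU, ?_⟩
  have hiof : io f ∈ Q := G.ioQ f hf
  -- `io (f * f) = F * F + δ ..`
  have e3 : io (f * f + cf (rho hN) U) =
      Cx.δ (K + rhoE hN H' + (F * H + H * F + H * Cx.δ H)) := by
    have a1 : io f = F + Cx.δ H := by
      rw [e1, add_assoc, two, add_zero]
    have a2 : io (cf (rho hN) U) = rhoE hN Z + Cx.δ (rhoE hN H') := by
      have a3 : io U = Z - Cx.δ H' := by rw [e2]; abel
      rw [← rhoE_io, δ_rhoE, a3, map_sub, sub_eq_add_neg, neg_eq_self2 two]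
    rw [map_add, io_mul, a1, a2]
    simp only [map_add, DG2.leib, dF, Cx.δδ, add_mul, mul_add, e, zero_mul, mul_zero, add_zero,
      zero_add]
    have t := two (rhoE hN Z)
    calc _ = (rhoE hN Z + rhoE hN Z) + (Cx.δ K + Cx.δ (rhoE hN H') +
        (F * Cx.δ H + Cx.δ H * F + Cx.δ H * Cx.δ H)) := by abel
      _ = _ := by rw [t, zero_add]
  obtain ⟨v, hv, ev⟩ := G.inj (Q.add_mem (Q.add_mem hK (G.rhoQ _ hH')) (Q.add_mem (Q.add_mem
    (G.mulQ _ hF _ hH) (G.mulQ _ hH _ hF)) (G.mulQ _ hH _ (G.δQ _ hH)))) e3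
  exact ⟨v, hv, by rw [← ev, add_comm (f * f), ← add_assoc, Co_two, zero_add]⟩

/-- conclusion for a cocycle on `J` -/
theorem GG.concl (G : GH hN Q Fq QR FR) {u : Co J (ZMod 2)} (hu : u ∈ Fq)
    (h : GG hN Q Fq FR (io (X := X) (Y := Y) u)) : SqL hN Fq FR u := by
  obtain ⟨f, hf, df, ⟨H, hH, e⟩, s⟩ := h
  have h1 : io (X := X) (Y := Y) (u + f) = Cx.δ H := by
    have two := DG2.two (B := Co J (Co X (Co Y (ZMod 2))))
    rw [map_add, e, add_comm, ← add_assoc, two, zero_add]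
  obtain ⟨w, hw, ew⟩ := G.inj hH h1
  exact s.coh G hf df hw (by rw [← ew, add_comm u, ← add_assoc, Co_two, zero_add])

end good

/-- from `SqL` to the conclusion of `SQ` (projection to homogeneous components) -/
theorem SqL.out {J : Type*} {N : ℕ} {hN : 0 < N} {Fq : AddSubgroup (Co J (ZMod 2))}
    {FR : AddSubgroup (Co J (ZMod (2 ^ N)))} (hF : ∀ f ∈ Fq, f.f [] = 0) (hR : ∀ f ∈ FR, f.f [] = 0)
    {u : Co J (ZMod 2)} {m : ℕ} (hu : ∀ l, u.f l ≠ 0 → l.length = m + 1) (h : SqL hN Fq FR u) :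
    ∃ (Y : List J → ZMod (2 ^ N)) (v : List J → ZMod 2) (Y' : Co J (ZMod (2 ^ N)))
      (v' : Co J (ZMod 2)),
      Y' ∈ FR ∧ v' ∈ Fq ∧ (Y = fun l => if l.length = 2 * m + 1 then Y'.f l else 0) ∧
      (v = fun l => if l.length = 2 * m then v'.f l else 0) ∧
      (∀ l, Y l ≠ 0 → l.length = 2 * m + 1) ∧ (∀ l, dl l Y = 0) ∧
      (∀ l, v l ≠ 0 → l.length = 2 * m) ∧ v [] = 0 ∧ ∀ l, cupl l u.f u.f = (Y l).cast + dl l v := by
  obtain ⟨Y', hY', dY', v', hv', e⟩ := h
  refine ⟨_, _, Y', v', hY', hv', rfl, rfl, fun l hl => ?_, fun l => ?_, fun l hl => ?_, ?_, fun l => ?_⟩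
  · by_contra hc; exact hl (if_neg hc)
  · by_cases hl : l.length = 2 * m + 2
    · have h1 : dl l (fun l => if l.length = 2 * m + 1 then Y'.f l else 0) = dl l Y'.f :=
        dl_congr fun l' hl' => if_pos (by omega)
      have h2 := congrArg (fun F => F.f l) dY'
      simp only [δ_of (hR _ hY'), Cx.zmod, smul_zero, add_zero] at h2
      rw [h1, h2]; rfl
    · exact dl_eq_zero fun l' hl' => if_neg (by omega)
  · by_contra hc; exact hl (if_neg hc)
  · show (if ([] : List J).length = 2 * m then v'.f [] else 0) = 0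
    rw [hF _ hv']; simp
  · by_cases hl : l.length = 2 * m + 1
    · have h1 : dl l (fun l => if l.length = 2 * m then v'.f l else 0) = dl l v'.f :=
        dl_congr fun l' hl' => if_pos (by omega)
      have h2 := congrArg (fun F => F.f l) e
      rw [add_f, cf_f, δ_Co_f _ (hF _ hv')] at h2
      rw [h1, if_pos hl]
      exact h2
    · have h1 : dl l (fun l => if l.length = 2 * m then v'.f l else 0) = 0 :=
        dl_eq_zero fun l' hl' => if_neg (by omega)
      rw [h1, if_neg hl]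
      rw [add_zero]
      have h3 : cupl l u.f u.f = 0 := cupl_eq_zero (fun x => x) rfl (fun _ _ => rfl) fun a b hab => by
        by_cases h : u.f a = 0
        · rw [h, zero_mul]
        · have h4 := hu a h
          by_cases h' : u.f b = 0
          · rw [h', mul_zero]
          · have h5 := hu b h'
            omega
      rw [h3]
      exact (map_zero (rho hN)).symm

end Crest.Agent.R204.SQ803
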