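import Crest.Agent.R204.Defs

-- ▼ part R204/HopfF2_477
section

/-!
# Row 204, leaf H10 (helper477): the F2 side of the Hopf invariant

`pf f` = push-forward of normalised singular chains, `cr` = cross product.
-/

set_option autoImplicit false

namespace Crest.Agent.R204.HopfF2477

open SS Finsupp

/-- the unit interval -/
abbrev I : Type := unitInterval

/-- push-forward of normalised singular chains -/
noncomputable def pf {X Y : Type} [TopologicalSpace X] [TopologicalSpace Y] (f : C(X, Y)) :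
    N F2 (Sing X) →ₗ[F2] N F2 (Sing Y) := N.map F2 (SingMap f)

theorem pf_bd {X Y : Type} [TopologicalSpace X] [TopologicalSpace Y] (f : C(X, Y))
    (c : N F2 (Sing X)) : pf f (N.bd F2 _ c) = N.bd F2 _ (pf f c) :=
  LinearMap.congr_fun (N.map_bd (R := F2) (SingMap f)) c

theorem N_ind {K : SS} {p : N F2 K → Prop} (c : N F2 K) (h0 : p 0)
    (hadd : ∀ a b, p a → p b → p (a + b)) (hsx : ∀ (n : ℕ) (x : K.S n), p (N.sx F2 x)) : p c := by
  obtain ⟨c, rfl⟩ := Submodule.Quotient.mk_surjective _ c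
  induction c using Finsupp.induction_linear with
  | zero => exact h0
  | add f g hf hg => exact hadd _ _ hf hg
  | single t r =>
    obtain ⟨n, x⟩ := t
    have hr : r = 0 ∨ r = 1 := by
      revert r; decide
    rcases hr with rfl | rfl
    · simpa using h0
    · exact hsx n x

theorem N_gr_ind {K : SS} {n : ℕ} {p : N F2 K → Prop} (c : N F2 K) (hc : c ∈ N.gr F2 K n) (h0 : p 0)
    (hadd : ∀ a b, p a → p b → p (a + b)) (hsx : ∀ (x : K.S n), p (N.sx F2 x)) : p c := by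
  obtain ⟨c, hc, rfl⟩ := hc
  refine Submodule.span_induction (p := fun c _ => p (Submodule.mkQ _ c)) ?_ ?_ ?_ ?_ hc
  · rintro _ ⟨x, rfl⟩
    exact hsx x
  · simpa using h0
  · intro a b _ _ ha hb
    rw [map_add]; exact hadd _ _ ha hb
  · intro r a _ ha
    have hr : r = 0 ∨ r = 1 := by
      revert r; decide
    rcases hr with rfl | rfl
    · simpa using h0
    · simpa using ha

@[simp] theorem pf_sx {X Y : Type} [TopologicalSpace X] [TopologicalSpace Y] (f : C(X, Y)) {n : ℕ}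
    (x : C(stdSimplex ℝ (Fin (n + 1)), X)) :
    pf f (N.sx F2 (K := Sing X) (n := n) x) = N.sx F2 (K := Sing Y) (n := n) (f.comp x) :=
  N.map_sx (SingMap f) x

theorem pf_comp {X Y Z : Type} [TopologicalSpace X] [TopologicalSpace Y] [TopologicalSpace Z]
    (g : C(Y, Z)) (f : C(X, Y)) (c : N F2 (Sing X)) : pf (g.comp f) c = pf g (pf f c) := by
  induction c using N_ind with
  | h0 => simp
  | hadd a b ha hb => simp only [map_add, ha, hb]
  | hsx n x =>
    refine (pf_sx (g.comp f) (n := n) x).trans ?_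
    exact ((congrArg (pf g) (pf_sx f (n := n) x)).trans (pf_sx g (n := n) (f.comp _))).symm

theorem sx_gr {K : SS} {n : ℕ} (x : K.S n) : N.sx F2 x ∈ N.gr F2 K n :=
  ⟨single ⟨n, x⟩ 1, Submodule.subset_span ⟨x, rfl⟩, rfl⟩

theorem map_gr {K L : SS} (f : Hom K L) {n : ℕ} {c : N F2 K} (hc : c ∈ N.gr F2 K n) :
    N.map F2 f c ∈ N.gr F2 L n := by
  refine N_gr_ind (p := fun c => N.map F2 f c ∈ N.gr F2 L n) c hc ?_ ?_ ?_
  · simp
  · intro a b ha hb; rw [map_add]; exact Submodule.add_mem _ ha hb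
  · intro x; rw [N.map_sx]; exact sx_gr _

theorem pf_gr {X Y : Type} [TopologicalSpace X] [TopologicalSpace Y] (f : C(X, Y)) {n : ℕ}
    {c : N F2 (Sing X)} (hc : c ∈ N.gr F2 (Sing X) n) : pf f c ∈ N.gr F2 (Sing Y) n :=
  map_gr _ hc

/-! ## degenerate simplices -/

theorem sx_act_dgn {K : SS} {m n : ℕ} (f : Op m n) (h : n < m) (y : K.S n) :
    N.sx F2 (K.act f y) = 0 := by
  -- `f` is not injective, so it factors through a codegeneracy
  obtain ⟨m, rfl⟩ : ∃ m', m = m' + 1 := ⟨m - 1, by omega⟩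
  have hex : ∃ j : Fin (m + 1), f j.castSucc = f j.succ := by
    by_contra hcon
    push Not at hcon
    have hmono : StrictMono f := by
      rw [Fin.strictMono_iff_lt_succ]
      intro i
      exact lt_of_le_of_ne (f.monotone (Fin.castSucc_lt_succ).le) (hcon i)
    have := Fintype.card_le_of_injective f hmono.injective
    simp at this
    omega
  obtain ⟨j, hj⟩ := hex
  have hfac : f = (f.comp (Op.face j.succ)).comp (Op.dgn j) := by
    ext a
    simp only [OrderHom.comp_coe, Function.comp_apply]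
    have key : (Op.face j.succ (Op.dgn j a) = a) ∨
        (a = j.succ ∧ Op.face j.succ (Op.dgn j a) = j.castSucc) := by
      by_cases ha : a = j.succ
      · right
        refine ⟨ha, Fin.ext ?_⟩
        subst ha
        rw [Ch.face_val, Ch.dgn_val]
        simp
      · left
        refine Fin.ext ?_
        have ha' : (a : ℕ) ≠ j + 1 := fun h => ha (Fin.ext (by simpa using h))
        rw [Ch.face_val, Ch.dgn_val]
        simp only [Fin.val_succ]
        split_ifs <;> omega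
    rcases key with h | ⟨h1, h2⟩
    · rw [h]
    · rw [h2, h1, hj]
  rw [hfac, K.act_comp]
  exact N.sx_dgn _ _

theorem sx_const {Y : Type} [TopologicalSpace Y] (y : Y) (n : ℕ) :
    N.sx F2 (K := Sing Y) (n := n + 1) (ContinuousMap.const _ y) = 0 :=
  sx_act_dgn (K := Sing Y) (m := n + 1) (n := 0) ⟨fun _ => 0, fun _ _ _ => le_rfl⟩ (by omega)
    (ContinuousMap.const _ y)

theorem pf_const {X Y : Type} [TopologicalSpace X] [TopologicalSpace Y] (y : Y) {n : ℕ}
    {c : N F2 (Sing X)} (hc : c ∈ N.gr F2 (Sing X) (n + 1)) :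
    pf (ContinuousMap.const X y) c = 0 := by
  refine N_gr_ind (p := fun c => pf (ContinuousMap.const X y) c = 0) c hc ?_ ?_ ?_
  · simp
  · intro a b ha hb; rw [map_add, ha, hb, add_zero]
  · intro x; exact (pf_sx _ (n := n + 1) x).trans (sx_const y n)

/-! ## affine simplices in the interval -/

/-- the affine simplex with given vertices in `[0,1]` -/
noncomputable def aff {n : ℕ} (x : Fin (n + 1) → I) : C(stdSimplex ℝ (Fin (n + 1)), I) where
  toFun t := ⟨∑ i, t i * (x i : ℝ), by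
    constructor
    · exact Finset.sum_nonneg fun i _ => mul_nonneg (t.2.1 i) (x i).2.1
    · calc ∑ i, t i * (x i : ℝ) ≤ ∑ i, t i * 1 :=
            Finset.sum_le_sum fun i _ => mul_le_mul_of_nonneg_left (x i).2.2 (t.2.1 i)
        _ = 1 := by simp⟩
  continuous_toFun := by
    refine Continuous.subtype_mk ?_ _
    refine continuous_finsetSum _ fun i _ => ?_
    exact ((continuous_apply i).comp continuous_subtype_val).mul continuous_const

theorem aff_coe {n : ℕ} (x : Fin (n + 1) → I) (t : stdSimplex ℝ (Fin (n + 1))) :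
    ((aff x t : I) : ℝ) = ∑ i, t i * (x i : ℝ) := rfl

theorem sum_map {m n : ℕ} (f : Fin (m + 1) → Fin (n + 1)) (t : stdSimplex ℝ (Fin (m + 1)))
    (g : Fin (n + 1) → ℝ) : ∑ j, stdSimplex.map f t j * g j = ∑ i, t i * g (f i) := by
  simp only [stdSimplex.map_coe, FunOnFinite.linearMap_apply_apply, Finset.sum_mul]
  rw [← Finset.sum_fiberwise_of_maps_to (s := Finset.univ) (t := Finset.univ) (g := f)
    (fun _ _ => Finset.mem_univ _)]
  refine Finset.sum_congr rfl fun j _ => ?_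
  refine Finset.sum_congr rfl fun i hi => ?_
  rw [(Finset.mem_filter.1 hi).2]

theorem aff_act {m n : ℕ} (f : Op m n) (x : Fin (n + 1) → I) :
    (Sing I).act f (aff x) = aff (fun i => x (f i)) := by
  refine ContinuousMap.ext fun t => Subtype.ext ?_
  exact sum_map f t (fun j => (x j : ℝ))

/-- the affine simplex with given vertices in the square -/
noncomputable def aff2 {n : ℕ} (x : Fin (n + 1) → I × I) :
    C(stdSimplex ℝ (Fin (n + 1)), I × I) :=
  (aff fun i => (x i).1).prodMk (aff fun i => (x i).2)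

theorem aff2_act {m n : ℕ} (f : Op m n) (x : Fin (n + 1) → I × I) :
    (Sing (I × I)).act f (aff2 x) = aff2 (fun i => x (f i)) := by
  refine ContinuousMap.ext fun t => Prod.ext ?_ ?_
  · exact congrArg (fun g : C(_, I) => g t) (aff_act f fun i => (x i).1)
  · exact congrArg (fun g : C(_, I) => g t) (aff_act f fun i => (x i).2)

/-! ## boundaries of simplices -/

theorem bd_sx {K : SS} {n : ℕ} (x : K.S (n + 1)) :
    N.bd F2 K (N.sx F2 x) = ∑ i : Fin (n + 2), N.sx F2 (K.act (Op.face i) x) := by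
  have h : ∀ i : ℕ, (1 : F2) * (-1) ^ i = 1 := by
    intro i
    have : (-1 : F2) = 1 := by decide
    rw [this]; simp
  unfold N.sx
  rw [N.bd_mk, Ch.bd_single_succ]
  simp only [h]
  exact map_sum (Submodule.mkQ (Ch.Dg F2 K)) _ _

/-- affine chains in the square -/
noncomputable def A2 {n : ℕ} (x : Fin (n + 1) → I × I) : N F2 (Sing (I × I)) :=
  N.sx F2 (K := Sing (I × I)) (n := n) (aff2 x)

/-- affine chains in the interval -/
noncomputable def A1 {n : ℕ} (x : Fin (n + 1) → I) : N F2 (Sing I) :=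
  N.sx F2 (K := Sing I) (n := n) (aff x)

theorem bd_A2 {n : ℕ} (x : Fin (n + 2) → I × I) :
    N.bd F2 _ (A2 x) = ∑ i : Fin (n + 2), A2 (n := n) (fun j => x (Op.face i j)) := by
  unfold A2
  refine (bd_sx (K := Sing (I × I)) (n := n) (aff2 x)).trans ?_
  exact Finset.sum_congr rfl fun i _ =>
    congrArg (N.sx F2 (K := Sing (I × I)) (n := n)) (aff2_act (Op.face i) x)

theorem bd_A1 {n : ℕ} (x : Fin (n + 2) → I) :
    N.bd F2 _ (A1 x) = ∑ i : Fin (n + 2), A1 (n := n) (fun j => x (Op.face i j)) := by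
  unfold A1
  refine (bd_sx (K := Sing I) (n := n) (aff x)).trans ?_
  exact Finset.sum_congr rfl fun i _ =>
    congrArg (N.sx F2 (K := Sing I) (n := n)) (aff_act (Op.face i) x)


theorem bd_A2_3 (a b c : I × I) :
    N.bd F2 _ (A2 ![a, b, c]) = A2 ![b, c] + A2 ![a, c] + A2 ![a, b] := by
  rw [bd_A2, Fin.sum_univ_three]
  congr 2 <;> (try congr 1) <;> (try (congr 1; funext i; fin_cases i <;> rfl))


theorem bd_A1_2 (a b : I) : N.bd F2 _ (A1 ![a, b]) = A1 ![b] + A1 ![a] := by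
  rw [bd_A1, Fin.sum_univ_two]
  congr 2 <;> (funext i; fin_cases i; rfl)

theorem bd_A1_3 (a b c : I) :
    N.bd F2 _ (A1 ![a, b, c]) = A1 ![b, c] + A1 ![a, c] + A1 ![a, b] := by
  rw [bd_A1, Fin.sum_univ_three]
  congr 2
  · congr 2 <;> (funext i; fin_cases i <;> rfl)

/-! ## affine maps -/

/-- real affine self-maps of the interval -/
def IsAff (f : I → I) : Prop := ∃ c d : ℝ, ∀ x, (f x : ℝ) = c + d * x

theorem IsAff.aff {f : I → I} (hf : IsAff f) {n : ℕ} (x : Fin (n + 1) → I)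
    (t : stdSimplex ℝ (Fin (n + 1))) : f (aff x t) = HopfF2477.aff (fun i => f (x i)) t := by
  obtain ⟨c, d, h⟩ := hf
  refine Subtype.ext ?_
  rw [h, aff_coe, aff_coe]
  have h1 : ∑ i, t i = 1 := stdSimplex.sum_eq_one t
  calc c + d * ∑ i, t i * (x i : ℝ) = c * ∑ i, t i + d * ∑ i, t i * (x i : ℝ) := by rw [h1, mul_one]
    _ = ∑ i, t i * (c + d * (x i : ℝ)) := by
        rw [Finset.mul_sum, Finset.mul_sum, ← Finset.sum_add_distrib]
        exact Finset.sum_congr rfl fun i _ => by ring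
    _ = _ := Finset.sum_congr rfl fun i _ => by rw [h]

theorem pf_A1 (f : C(I, I)) (hf : IsAff f) {n : ℕ} (x : Fin (n + 1) → I) :
    pf f (A1 x) = A1 (fun i => f (x i)) := by
  unfold A1
  refine (pf_sx f (n := n) (aff x)).trans ?_
  refine congrArg (N.sx F2 (K := Sing I) (n := n)) (ContinuousMap.ext fun t => ?_)
  exact hf.aff x t

theorem pf_A1_2 (f g : C(I, I)) (hf : IsAff f) (hg : IsAff g) {n : ℕ} (x : Fin (n + 1) → I) :
    pf (f.prodMk g) (A1 x) = A2 (fun i => (f (x i), g (x i))) := by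
  unfold A1 A2
  refine (pf_sx (f.prodMk g) (n := n) (aff x)).trans ?_
  refine congrArg (N.sx F2 (K := Sing (I × I)) (n := n)) (ContinuousMap.ext fun t => ?_)
  exact Prod.ext (hf.aff x t) (hg.aff x t)

theorem pf_A2 (f g : C(I, I)) (hf : IsAff f) (hg : IsAff g) {n : ℕ} (x : Fin (n + 1) → I × I) :
    pf (f.prodMap g) (A2 x) = A2 (fun i => (f (x i).1, g (x i).2)) := by
  unfold A2
  refine (pf_sx (f.prodMap g) (n := n) (aff2 x)).trans ?_
  refine congrArg (N.sx F2 (K := Sing (I × I)) (n := n)) (ContinuousMap.ext fun t => ?_)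
  exact Prod.ext (hf.aff (fun i => (x i).1) t) (hg.aff (fun i => (x i).2) t)

/-- midpoint -/
noncomputable def mid : I := ⟨1 / 2, by norm_num, by norm_num⟩

/-- `s ↦ s / 2` -/
noncomputable def lo : C(I, I) :=
  ⟨fun s => ⟨(s : ℝ) / 2, by have := s.2.1; positivity, by have := s.2.2; linarith⟩, by fun_prop⟩

/-- `s ↦ (1 + s) / 2` -/
noncomputable def hi : C(I, I) :=
  ⟨fun s => ⟨(1 + (s : ℝ)) / 2, by have := s.2.1; positivity, by have := s.2.2; linarith⟩,
    by fun_prop⟩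

/-- `s ↦ 1 - s` -/
noncomputable def rev : C(I, I) :=
  ⟨fun s => ⟨1 - (s : ℝ), by have := s.2.2; linarith, by have := s.2.1; linarith⟩, by fun_prop⟩

theorem isAff_lo : IsAff lo := ⟨0, 1 / 2, fun x => by show (x : ℝ) / 2 = _; ring⟩
theorem isAff_hi : IsAff hi := ⟨1 / 2, 1 / 2, fun x => by show (1 + (x : ℝ)) / 2 = _; ring⟩
theorem isAff_rev : IsAff rev := ⟨1, -1, fun x => by show 1 - (x : ℝ) = _; ring⟩
theorem isAff_id : IsAff (ContinuousMap.id I) := ⟨0, 1, fun x => by simp⟩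
theorem isAff_const (c : I) : IsAff (ContinuousMap.const I c) := ⟨c, 0, fun x => by simp⟩

theorem lo_zero : lo 0 = 0 := Subtype.ext (by show (0 : ℝ) / 2 = 0; norm_num)
theorem lo_one : lo 1 = mid := Subtype.ext (by show (1 : ℝ) / 2 = 1 / 2; norm_num)
theorem hi_zero : hi 0 = mid := Subtype.ext (by show (1 + (0 : ℝ)) / 2 = 1 / 2; norm_num)
theorem hi_one : hi 1 = 1 := Subtype.ext (by show (1 + (1 : ℝ)) / 2 = 1; norm_num)
theorem rev_zero : rev 0 = 1 := Subtype.ext (by show (1 - (0 : ℝ)) = 1; norm_num)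
theorem rev_one : rev 1 = 0 := Subtype.ext (by show (1 - (1 : ℝ)) = 0; norm_num)

/-! ## cross products -/

/-- what is used of the cross product of singular chains -/
structure Cross where
  /-- the cross product -/
  cr : ∀ {X Y : Type} [TopologicalSpace X] [TopologicalSpace Y],
    N F2 (Sing X) →ₗ[F2] N F2 (Sing Y) →ₗ[F2] N F2 (Sing (X × Y))
  bd : ∀ {X Y : Type} [TopologicalSpace X] [TopologicalSpace Y] (x : N F2 (Sing X))
    (y : N F2 (Sing Y)), N.bd F2 _ (cr x y) = cr (N.bd F2 _ x) y + cr x (N.bd F2 _ y)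
  nat : ∀ {X Y X' Y' : Type} [TopologicalSpace X] [TopologicalSpace Y] [TopologicalSpace X']
    [TopologicalSpace Y'] (f : C(X, X')) (g : C(Y, Y')) (x : N F2 (Sing X)) (y : N F2 (Sing Y)),
    pf (f.prodMap g) (cr x y) = cr (pf f x) (pf g y)
  gr : ∀ {X Y : Type} [TopologicalSpace X] [TopologicalSpace Y] {p q : ℕ} {x : N F2 (Sing X)}
    {y : N F2 (Sing Y)}, x ∈ N.gr F2 (Sing X) p → y ∈ N.gr F2 (Sing Y) q →
      cr x y ∈ N.gr F2 (Sing (X × Y)) (p + q)
  fst : ∀ {X Y : Type} [TopologicalSpace X] [TopologicalSpace Y] {q : ℕ} (x : N F2 (Sing X))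
    {y : N F2 (Sing Y)}, y ∈ N.gr F2 (Sing Y) (q + 1) → pf ContinuousMap.fst (cr x y) = 0
  fst0 : ∀ {X Y : Type} [TopologicalSpace X] [TopologicalSpace Y] (x : N F2 (Sing X))
    (y : (Sing Y).S 0), pf ContinuousMap.fst (cr x (N.sx F2 y)) = x
  swap : ∀ {X Y : Type} [TopologicalSpace X] [TopologicalSpace Y] (x : N F2 (Sing X))
    (y : N F2 (Sing Y)), pf ContinuousMap.prodSwap (cr x y) = cr y x
  assoc : ∀ {X Y Z : Type} [TopologicalSpace X] [TopologicalSpace Y] [TopologicalSpace Z]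
    (x : N F2 (Sing X)) (y : N F2 (Sing Y)) (z : N F2 (Sing Z)),
    pf ⟨Equiv.prodAssoc X Y Z, (Homeomorph.prodAssoc X Y Z).continuous⟩ (cr (cr x y) z) =
      cr x (cr y z)

namespace Cross

variable (𝒞 : Cross)
variable {X Y Z W : Type} [TopologicalSpace X] [TopologicalSpace Y] [TopologicalSpace Z]
  [TopologicalSpace W]

theorem snd {p : ℕ} {x : N F2 (Sing X)} (hx : x ∈ N.gr F2 (Sing X) (p + 1)) (y : N F2 (Sing Y)) :
    pf ContinuousMap.snd (𝒞.cr x y) = 0 := by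
  have h := 𝒞.fst y hx
  rw [← 𝒞.swap x y, ← pf_comp] at h
  exact h

/-- maps which only depend on the first coordinate -/
theorem pf_fst {q : ℕ} (x : N F2 (Sing X)) {y : N F2 (Sing Y)} (hy : y ∈ N.gr F2 (Sing Y) (q + 1))
    (F : C(X × Y, W)) (G : C(X, W)) (h : ∀ a b, F (a, b) = G a) : pf F (𝒞.cr x y) = 0 := by
  have : F = G.comp ContinuousMap.fst := ContinuousMap.ext fun ⟨a, b⟩ => h a b
  rw [this, pf_comp, 𝒞.fst x hy, map_zero]


end Cross

/-- homologous chains (mod 2) -/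
def Hom2 {K : SS} (a b : N F2 K) : Prop := ∃ e, N.bd F2 K e = a + b

theorem add_self' {K : SS} (a : N F2 K) : a + a = 0 := by
  have h : (2 : F2) • a = 0 := by
    have : (2 : F2) = 0 := by decide
    rw [this, zero_smul]
  rwa [two_smul] at h

namespace Hom2

variable {K : SS} {a b c d : N F2 K}

theorem refl (a : N F2 K) : Hom2 a a := ⟨0, by rw [map_zero, add_self']⟩

theorem of_eq (h : a = b) : Hom2 a b := h ▸ refl a

theorem symm (h : Hom2 a b) : Hom2 b a := by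
  obtain ⟨e, he⟩ := h
  exact ⟨e, by rw [he, add_comm]⟩

theorem trans (h : Hom2 a b) (h' : Hom2 b c) : Hom2 a c := by
  obtain ⟨e, he⟩ := h
  obtain ⟨e', he'⟩ := h'
  refine ⟨e + e', ?_⟩
  rw [map_add, he, he']
  calc a + b + (b + c) = a + c + (b + b) := by abel
    _ = _ := by rw [add_self', add_zero]

theorem add (h : Hom2 a b) (h' : Hom2 c d) : Hom2 (a + c) (b + d) := by
  obtain ⟨e, he⟩ := h
  obtain ⟨e', he'⟩ := h'
  exact ⟨e + e', by rw [map_add, he, he']; abel⟩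

theorem bd (e : N F2 K) : Hom2 (N.bd F2 K e) 0 := ⟨e, by rw [add_zero]⟩

end Hom2

/-- the setting: evaluation of loops, multiplication of loops, smash product, collar -/
structure Setting where
  /-- loops -/
  L : Type
  /-- the space -/
  Y : Type
  /-- its smash square -/
  W : Type
  [topL : TopologicalSpace L]
  [topY : TopologicalSpace Y]
  [topW : TopologicalSpace W]
  y0 : Y
  w0 : W
  /-- evaluation -/
  ev : C(L × I, Y)
  ev0 : ∀ l, ev (l, 0) = y0
  ev1 : ∀ l, ev (l, 1) = y0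
  /-- multiplication -/
  mu : C(L × L, L)
  ev_lo : ∀ l l' s, ev (mu (l, l'), lo s) = ev (l, s)
  ev_hi : ∀ l l' s, ev (mu (l, l'), hi s) = ev (l', s)
  /-- the smash product -/
  pr : C(Y × Y, W)
  pr_left : ∀ y, pr (y0, y) = w0
  pr_right : ∀ y, pr (y, y0) = w0
  /-- the null homotopy of the reduced diagonal -/
  nh : C(Y × I, W)
  nh0 : ∀ y, nh (y, 0) = pr (y, y)
  nh1 : ∀ y, nh (y, 1) = w0
  nh_base : ∀ t, nh (y0, t) = w0

namespace Setting

attribute [instance] Setting.topL Setting.topY Setting.topW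

variable (S : Setting)

/-- `(l, (a, b)) ↦ l(a) ∧ l(b)` -/
noncomputable def Phi : C(S.L × (I × I), S.W) :=
  ⟨fun p => S.pr (S.ev (p.1, p.2.1), S.ev (p.1, p.2.2)), by fun_prop⟩

/-- `(l, (s, r)) ↦ nh (l s) r` -/
noncomputable def Nc : C(S.L × (I × I), S.W) :=
  ⟨fun p => S.nh (S.ev (p.1, p.2.1), p.2.2), by fun_prop⟩

/-- `((l, l'), (a, b)) ↦ l'(a) ∧ l(b)` -/
noncomputable def P : C((S.L × S.L) × (I × I), S.W) :=
  ⟨fun p => S.pr (S.ev (p.1.2, p.2.1), S.ev (p.1.1, p.2.2)), by fun_prop⟩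

end Setting

/-- the fundamental chain of the interval -/
noncomputable def iota : N F2 (Sing I) := A1 ![0, 1]

/-- the subdivision chain -/
noncomputable def dl : N F2 (Sing I) := A1 ![0, mid, 1]

/-- the triangle `1 ≥ a ≥ b ≥ 0` -/
noncomputable def Tau : N F2 (Sing (I × I)) := A2 ![(0, 0), (1, 0), (1, 1)]

theorem bd_iota : N.bd F2 _ iota = A1 ![1] + A1 ![0] := bd_A1_2 _ _

theorem lo_iota : pf lo iota = A1 ![0, mid] := by
  unfold iota
  rw [pf_A1 _ isAff_lo]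
  congr 1
  funext i; fin_cases i
  · exact lo_zero
  · exact lo_one

theorem hi_iota : pf hi iota = A1 ![mid, 1] := by
  unfold iota
  rw [pf_A1 _ isAff_hi]
  congr 1
  funext i; fin_cases i
  · exact hi_zero
  · exact hi_one

theorem bd_dl : N.bd F2 _ dl = pf hi iota + iota + pf lo iota := by
  unfold dl
  rw [bd_A1_3, lo_iota, hi_iota]; rfl

theorem iota_eq : iota = pf lo iota + pf hi iota + N.bd F2 _ dl := by
  rw [bd_dl]
  calc iota = iota + (pf lo iota + pf lo iota) + (pf hi iota + pf hi iota) := by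
        rw [add_self', add_self']; simp
    _ = _ := by abel

/-! ## vertices -/

/-- a point as a singular `0`-simplex -/
def vx {Y : Type} [TopologicalSpace Y] (y : Y) : (Sing Y).S 0 :=
  (ContinuousMap.const _ y : C(stdSimplex ℝ (Fin 1), Y))

theorem A1_pt (c : I) : A1 ![c] = N.sx F2 (vx c) := by
  unfold A1 vx
  refine congrArg (N.sx F2 (K := Sing I) (n := 0)) (ContinuousMap.ext fun t => Subtype.ext ?_)
  rw [aff_coe]
  simp

theorem pf_vx {X Y : Type} [TopologicalSpace X] [TopologicalSpace Y] (f : C(X, Y)) (x : X) :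
    pf f (N.sx F2 (vx x)) = N.sx F2 (vx (f x)) := pf_sx f (n := 0) (ContinuousMap.const _ x)

theorem Cross.vertex (𝒞 : Cross) {X Y : Type} [TopologicalSpace X] [TopologicalSpace Y]
    (x : N F2 (Sing X)) (y : Y) : 𝒞.cr x (N.sx F2 (vx y)) =
      pf ((ContinuousMap.id X).prodMk (ContinuousMap.const X y)) x := by
  have h1 : N.sx F2 (vx y) = pf (ContinuousMap.const Unit y) (N.sx F2 (vx ())) :=
    (pf_vx (ContinuousMap.const Unit y) ()).symm
  have h2 := 𝒞.nat (ContinuousMap.id X) (ContinuousMap.const Unit y) x (N.sx F2 (vx ()))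
  have hid : pf (ContinuousMap.id X) x = x := by
    have h3 := 𝒞.fst0 x (vx ())
    rw [← h3, ← pf_comp]; rfl
  rw [hid, ← h1] at h2
  rw [← h2]
  have h4 := 𝒞.fst0 x (vx ())
  conv_rhs => rw [← h4]
  rw [← pf_comp]
  refine congrArg (fun f => pf f (𝒞.cr x (N.sx F2 (vx ())))) ?_
  exact ContinuousMap.ext fun ⟨a, b⟩ => rfl

theorem Cross.vertex' (𝒞 : Cross) {X Y : Type} [TopologicalSpace X] [TopologicalSpace Y]
    (x : X) (y : N F2 (Sing Y)) : 𝒞.cr (N.sx F2 (vx x)) y =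
      pf ((ContinuousMap.const Y x).prodMk (ContinuousMap.id Y)) y := by
  rw [← 𝒞.swap y (N.sx F2 (vx x)), 𝒞.vertex, ← pf_comp]; rfl

theorem pf_id {X : Type} [TopologicalSpace X] (x : N F2 (Sing X)) :
    pf (ContinuousMap.id X) x = x := by
  induction x using N_ind with
  | h0 => simp
  | hadd a b ha hb => simp only [map_add, ha, hb]
  | hsx n x => exact pf_sx (ContinuousMap.id X) (n := n) x

theorem sum_char2 {K : SS} (a b c d e f g h i j k : N F2 K) :
    (a + b + c) + (d + e + f) + (g + h + i) + (j + d + i + k) + (k + c + f) + (g + a + j) +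
      (h + b + e) = 0 := by
  have : (a + b + c) + (d + e + f) + (g + h + i) + (j + d + i + k) + (k + c + f) + (g + a + j) +
      (h + b + e) = (a + a) + (b + b) + (c + c) + (d + d) + (e + e) + (f + f) + (g + g) + (h + h) +
      (i + i) + (j + j) + (k + k) := by abel
  rw [this]; simp only [add_self', add_zero]

section square

variable (𝒞 : Cross)

/-- the subdivision cycle in the square -/
noncomputable def S7 : N F2 (Sing (I × I)) :=
  Tau + pf (lo.prodMap lo) Tau + pf (hi.prodMap hi) Tau + pf (hi.prodMap lo) (𝒞.cr iota iota) +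
    pf ((ContinuousMap.id I).prodMk (ContinuousMap.const I 0)) dl +
    pf ((ContinuousMap.const I 1).prodMk (ContinuousMap.id I)) dl +
    pf ((ContinuousMap.id I).prodMk (ContinuousMap.id I)) dl

theorem bd_sq : N.bd F2 _ (pf (hi.prodMap lo) (𝒞.cr iota iota)) =
    A2 ![(1, 0), (1, mid)] + A2 ![(mid, 0), (mid, mid)] + A2 ![(mid, mid), (1, mid)] +
      A2 ![(mid, 0), (1, 0)] := by
  have h1 : ∀ c : I, pf (hi.prodMap lo) (𝒞.cr (A1 ![c]) iota) =
      A2 ![(hi c, 0), (hi c, mid)] := by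
    intro c
    rw [A1_pt, 𝒞.vertex', ← pf_comp]
    have : (hi.prodMap lo).comp ((ContinuousMap.const I c).prodMk (ContinuousMap.id I)) =
      (ContinuousMap.const I (hi c)).prodMk lo := rfl
    rw [this]
    unfold iota
    rw [pf_A1_2 _ _ (isAff_const _) isAff_lo]
    congr 1
    funext i; fin_cases i
    · exact Prod.ext rfl lo_zero
    · exact Prod.ext rfl lo_one
  have h2 : ∀ c : I, pf (hi.prodMap lo) (𝒞.cr iota (A1 ![c])) =
      A2 ![(mid, lo c), (1, lo c)] := by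
    intro c
    rw [A1_pt, 𝒞.vertex, ← pf_comp]
    have : (hi.prodMap lo).comp ((ContinuousMap.id I).prodMk (ContinuousMap.const I c)) =
      hi.prodMk (ContinuousMap.const I (lo c)) := rfl
    rw [this]
    unfold iota
    rw [pf_A1_2 _ _ isAff_hi (isAff_const _)]
    congr 1
    funext i; fin_cases i
    · exact Prod.ext hi_zero rfl
    · exact Prod.ext hi_one rfl
  rw [← pf_bd, 𝒞.bd, bd_iota, map_add (𝒞.cr), LinearMap.add_apply, map_add (𝒞.cr iota), map_add,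
    map_add, map_add, h1, h1, h2, h2, hi_one, hi_zero, lo_one, lo_zero]
  abel

theorem bd_S7 : N.bd F2 _ (S7 𝒞) = 0 := by
  unfold S7
  simp only [map_add]
  rw [bd_sq]
  have hT : N.bd F2 _ Tau = A2 ![(1, 0), (1, 1)] + A2 ![(0, 0), (1, 1)] + A2 ![(0, 0), (1, 0)] :=
    bd_A2_3 _ _ _
  have hD : N.bd F2 _ dl = A1 ![mid, 1] + A1 ![0, 1] + A1 ![0, mid] := bd_A1_3 _ _ _
  rw [hT, ← pf_bd, ← pf_bd, ← pf_bd, ← pf_bd, ← pf_bd, hT, hD]
  simp only [map_add]
  have e : ∀ (f g : C(I, I)) (hf : IsAff f) (hg : IsAff g) (a b : I × I),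
      pf (f.prodMap g) (A2 ![a, b]) = A2 ![(f a.1, g a.2), (f b.1, g b.2)] := by
    intro f g hf hg a b
    rw [pf_A2 f g hf hg]
    congr 1
    funext i; fin_cases i <;> rfl
  have e' : ∀ (f g : C(I, I)) (hf : IsAff f) (hg : IsAff g) (a b : I),
      pf (f.prodMk g) (A1 ![a, b]) = A2 ![(f a, g a), (f b, g b)] := by
    intro f g hf hg a b
    rw [pf_A1_2 f g hf hg]
    congr 1
    funext i; fin_cases i <;> rfl
  simp only [e _ _ isAff_lo isAff_lo, e _ _ isAff_hi isAff_hi, e' _ _ isAff_id (isAff_const 0),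
    e' _ _ (isAff_const 1) isAff_id, e' _ _ isAff_id isAff_id, lo_zero, lo_one, hi_zero, hi_one,
    ContinuousMap.id_apply, ContinuousMap.const_apply]
  exact sum_char2 _ _ _ _ _ _ _ _ _ _ _

end square

/-! ## the two main homologies -/

section main

variable (𝒞 : Cross) (S : Setting)

/-- acyclicity of the square in degree two -/
def Acy : Prop := ∀ c ∈ N.gr F2 (Sing (I × I)) 2, N.bd F2 _ c = 0 → ∃ h, N.bd F2 _ h = c

variable {𝒞 S}

theorem iota_gr : iota ∈ N.gr F2 (Sing I) 1 := sx_gr (K := Sing I) (n := 1) _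
theorem dl_gr : dl ∈ N.gr F2 (Sing I) 2 := sx_gr (K := Sing I) (n := 2) _
theorem Tau_gr : Tau ∈ N.gr F2 (Sing (I × I)) 2 := sx_gr (K := Sing (I × I)) (n := 2) _
theorem crii_gr : 𝒞.cr iota iota ∈ N.gr F2 (Sing (I × I)) 2 := by
  have h := 𝒞.gr (p := 1) (q := 1) iota_gr iota_gr
  have e : (1 + 1 : ℕ) = 2 := rfl
  rw [e] at h
  exact h

theorem push_bd {L A W : Type} [TopologicalSpace L] [TopologicalSpace A] [TopologicalSpace W]
    {z : N F2 (Sing L)} (hz : N.bd F2 _ z = 0) (F : C(L × A, W)) (h : N F2 (Sing A)) :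
    N.bd F2 _ (pf F (𝒞.cr z h)) = pf F (𝒞.cr z (N.bd F2 _ h)) := by
  rw [← pf_bd, 𝒞.bd, hz, map_zero, LinearMap.zero_apply, zero_add]

theorem push_nat {L A A' W : Type} [TopologicalSpace L] [TopologicalSpace A] [TopologicalSpace A']
    [TopologicalSpace W] (z : N F2 (Sing L)) (F : C(L × A, W)) (f : C(A', A))
    (a : N F2 (Sing A')) : pf F (𝒞.cr z (pf f a)) =
      pf (F.comp ((ContinuousMap.id L).prodMap f)) (𝒞.cr z a) := by
  rw [pf_comp, 𝒞.nat, pf_id]

theorem push_nat2 {L L' A A' W : Type} [TopologicalSpace L] [TopologicalSpace L']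
    [TopologicalSpace A] [TopologicalSpace A']
    [TopologicalSpace W] (z : N F2 (Sing L')) (F : C(L × A, W)) (g : C(L', L)) (f : C(A', A))
    (a : N F2 (Sing A')) : pf F (𝒞.cr (pf g z) (pf f a)) =
      pf (F.comp (g.prodMap f)) (𝒞.cr z a) := by
  rw [pf_comp, 𝒞.nat]

theorem push_const {L A W : Type} [TopologicalSpace L] [TopologicalSpace A]
    [TopologicalSpace W] {q : ℕ} (z : N F2 (Sing L)) {a : N F2 (Sing A)}
    (ha : a ∈ N.gr F2 (Sing A) (q + 1)) (F : C(L × A, W)) (w : W) (hF : ∀ l a, F (l, a) = w) :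
    pf F (𝒞.cr z a) = 0 :=
  𝒞.pf_fst z ha F (ContinuousMap.const L w) hF

theorem S7_gr : S7 𝒞 ∈ N.gr F2 (Sing (I × I)) 2 := by
  unfold S7
  refine Submodule.add_mem _ (Submodule.add_mem _ (Submodule.add_mem _ (Submodule.add_mem _
    (Submodule.add_mem _ (Submodule.add_mem _ Tau_gr ?_) ?_) ?_) ?_) ?_) ?_
  · exact pf_gr _ Tau_gr
  · exact pf_gr _ Tau_gr
  · exact pf_gr _ crii_gr
  · exact pf_gr _ dl_gr
  · exact pf_gr _ dl_gr
  · exact pf_gr _ dl_gr

/-- the theta class, triangle form -/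
noncomputable def theta (𝒞 : Cross) (S : Setting) (z : N F2 (Sing S.L)) : N F2 (Sing S.W) :=
  pf S.Phi (𝒞.cr z Tau) + pf S.Nc (𝒞.cr z (𝒞.cr iota iota))

theorem claimA (hA : Acy) {p q : ℕ} {z1 z2 : N F2 (Sing S.L)}
    (h1 : z1 ∈ N.gr F2 (Sing S.L) (p + 1)) (h2 : z2 ∈ N.gr F2 (Sing S.L) (q + 1))
    (hz1 : N.bd F2 _ z1 = 0) (hz2 : N.bd F2 _ z2 = 0) :
    Hom2 (theta 𝒞 S (pf S.mu (𝒞.cr z1 z2))) (pf S.P (𝒞.cr (𝒞.cr z1 z2) (𝒞.cr iota iota))) := by
  obtain ⟨h, hh⟩ := hA (S7 𝒞) S7_gr (bd_S7 𝒞)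
  set z := pf S.mu (𝒞.cr z1 z2) with hzdef
  have hcr : N.bd F2 _ (𝒞.cr z1 z2) = 0 := by
    rw [𝒞.bd, hz1, hz2, map_zero, map_zero, LinearMap.zero_apply, add_zero]
  have hz : N.bd F2 _ z = 0 := by rw [hzdef, ← pf_bd, hcr, map_zero]
  -- terms that vanish
  have v1 : pf S.Phi (𝒞.cr z (pf (lo.prodMap lo) Tau)) = 0 := by
    rw [hzdef, push_nat2]
    have : S.Phi.comp (S.mu.prodMap (lo.prodMap lo)) =
        S.Phi.comp (ContinuousMap.fst.prodMap (ContinuousMap.id (I × I))) := by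
      refine ContinuousMap.ext fun ⟨⟨l, l'⟩, ⟨a, b⟩⟩ => ?_
      show S.pr (S.ev (S.mu (l, l'), lo a), S.ev (S.mu (l, l'), lo b)) = S.pr (S.ev (l, a), S.ev (l, b))
      rw [S.ev_lo, S.ev_lo]
    rw [this, pf_comp, 𝒞.nat, 𝒞.fst z1 h2, map_zero, LinearMap.zero_apply, map_zero]
  have v2 : pf S.Phi (𝒞.cr z (pf (hi.prodMap hi) Tau)) = 0 := by
    rw [hzdef, push_nat2]
    have : S.Phi.comp (S.mu.prodMap (hi.prodMap hi)) =
        S.Phi.comp (ContinuousMap.snd.prodMap (ContinuousMap.id (I × I))) := by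
      refine ContinuousMap.ext fun ⟨⟨l, l'⟩, ⟨a, b⟩⟩ => ?_
      show S.pr (S.ev (S.mu (l, l'), hi a), S.ev (S.mu (l, l'), hi b)) = S.pr (S.ev (l', a), S.ev (l', b))
      rw [S.ev_hi, S.ev_hi]
    rw [this, pf_comp, 𝒞.nat, 𝒞.snd h1, map_zero, LinearMap.zero_apply, map_zero]
  have v3 : pf S.Phi (𝒞.cr z (pf (hi.prodMap lo) (𝒞.cr iota iota))) =
      pf S.P (𝒞.cr (𝒞.cr z1 z2) (𝒞.cr iota iota)) := by
    rw [hzdef, push_nat2]
    refine congrArg (fun F => pf F (𝒞.cr (𝒞.cr z1 z2) (𝒞.cr iota iota))) ?_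
    refine ContinuousMap.ext fun ⟨⟨l, l'⟩, ⟨a, b⟩⟩ => ?_
    show S.pr (S.ev (S.mu (l, l'), hi a), S.ev (S.mu (l, l'), lo b)) = S.pr (S.ev (l', a), S.ev (l, b))
    rw [S.ev_hi, S.ev_lo]
  have v4 : pf S.Phi (𝒞.cr z (pf ((ContinuousMap.id I).prodMk (ContinuousMap.const I 0)) dl)) = 0 := by
    rw [push_nat]
    refine push_const (q := 1) z dl_gr _ S.w0 fun l a => ?_
    show S.pr (S.ev (l, a), S.ev (l, 0)) = _
    rw [S.ev0, S.pr_right]
  have v5 : pf S.Phi (𝒞.cr z (pf ((ContinuousMap.const I 1).prodMk (ContinuousMap.id I)) dl)) = 0 := by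
    rw [push_nat]
    refine push_const (q := 1) z dl_gr _ S.w0 fun l a => ?_
    show S.pr (S.ev (l, 1), S.ev (l, a)) = _
    rw [S.ev1, S.pr_left]
  have k1 : pf S.Nc (𝒞.cr z (𝒞.cr (pf lo iota) iota)) = 0 := by
    have : 𝒞.cr (pf lo iota) iota = pf (lo.prodMap (ContinuousMap.id I)) (𝒞.cr iota iota) := by
      rw [𝒞.nat, pf_id]
    rw [this, hzdef, push_nat2]
    have : S.Nc.comp (S.mu.prodMap (lo.prodMap (ContinuousMap.id I))) =
        S.Nc.comp (ContinuousMap.fst.prodMap (ContinuousMap.id (I × I))) := by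
      refine ContinuousMap.ext fun ⟨⟨l, l'⟩, ⟨a, b⟩⟩ => ?_
      show S.nh (S.ev (S.mu (l, l'), lo a), b) = S.nh (S.ev (l, a), b)
      rw [S.ev_lo]
    rw [this, pf_comp, 𝒞.nat, 𝒞.fst z1 h2, map_zero, LinearMap.zero_apply, map_zero]
  have k2 : pf S.Nc (𝒞.cr z (𝒞.cr (pf hi iota) iota)) = 0 := by
    have : 𝒞.cr (pf hi iota) iota = pf (hi.prodMap (ContinuousMap.id I)) (𝒞.cr iota iota) := by
      rw [𝒞.nat, pf_id]
    rw [this, hzdef, push_nat2]
    have : S.Nc.comp (S.mu.prodMap (hi.prodMap (ContinuousMap.id I))) =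
        S.Nc.comp (ContinuousMap.snd.prodMap (ContinuousMap.id (I × I))) := by
      refine ContinuousMap.ext fun ⟨⟨l, l'⟩, ⟨a, b⟩⟩ => ?_
      show S.nh (S.ev (S.mu (l, l'), hi a), b) = S.nh (S.ev (l', a), b)
      rw [S.ev_hi]
    rw [this, pf_comp, 𝒞.nat, 𝒞.snd h1, map_zero, LinearMap.zero_apply, map_zero]
  have k3 : pf S.Nc (𝒞.cr z (𝒞.cr dl (A1 ![1]))) = 0 := by
    rw [A1_pt, 𝒞.vertex, push_nat]
    refine push_const (q := 1) z dl_gr _ S.w0 fun l a => ?_
    show S.nh (S.ev (l, a), 1) = _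
    rw [S.nh1]
  have k4 : pf S.Nc (𝒞.cr z (𝒞.cr dl (A1 ![0]))) =
      pf S.Phi (𝒞.cr z (pf ((ContinuousMap.id I).prodMk (ContinuousMap.id I)) dl)) := by
    rw [A1_pt, 𝒞.vertex, push_nat, push_nat]
    refine congrArg (fun F => pf F (𝒞.cr z dl)) ?_
    refine ContinuousMap.ext fun ⟨l, a⟩ => ?_
    show S.nh (S.ev (l, a), 0) = S.pr (S.ev (l, a), S.ev (l, a))
    rw [S.nh0]
  -- the collar
  have hc : 𝒞.cr iota iota = 𝒞.cr (pf lo iota) iota + 𝒞.cr (pf hi iota) iota +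
      N.bd F2 _ (𝒞.cr dl iota) + 𝒞.cr dl (A1 ![1]) + 𝒞.cr dl (A1 ![0]) := by
    have e1 : N.bd F2 _ (𝒞.cr dl iota) =
        𝒞.cr (N.bd F2 _ dl) iota + (𝒞.cr dl (A1 ![1]) + 𝒞.cr dl (A1 ![0])) := by
      rw [𝒞.bd, bd_iota, map_add (𝒞.cr dl)]
    have e2 : 𝒞.cr iota iota = 𝒞.cr (pf lo iota) iota + 𝒞.cr (pf hi iota) iota +
        𝒞.cr (N.bd F2 _ dl) iota := by
      conv_lhs => rw [iota_eq]
      rw [map_add 𝒞.cr, map_add 𝒞.cr, LinearMap.add_apply, LinearMap.add_apply]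
      rw [← iota_eq]
    rw [e2, e1]
    have := add_self' (𝒞.cr dl (A1 ![1]))
    have := add_self' (𝒞.cr dl (A1 ![0]))
    calc _ = 𝒞.cr (pf lo iota) iota + 𝒞.cr (pf hi iota) iota + 𝒞.cr (N.bd F2 _ dl) iota +
          (𝒞.cr dl (A1 ![1]) + 𝒞.cr dl (A1 ![1])) + (𝒞.cr dl (A1 ![0]) + 𝒞.cr dl (A1 ![0])) := by
            rw [add_self', add_self', add_zero, add_zero]
      _ = _ := by abel
  have hN : pf S.Nc (𝒞.cr z (𝒞.cr iota iota)) =
      N.bd F2 _ (pf S.Nc (𝒞.cr z (𝒞.cr dl iota))) +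
      pf S.Phi (𝒞.cr z (pf ((ContinuousMap.id I).prodMk (ContinuousMap.id I)) dl)) := by
    rw [hc]
    simp only [map_add]
    rw [k1, k2, k3, k4, push_bd hz]
    abel
  have hP : N.bd F2 _ (pf S.Phi (𝒞.cr z h)) = pf S.Phi (𝒞.cr z Tau) +
      pf S.P (𝒞.cr (𝒞.cr z1 z2) (𝒞.cr iota iota)) +
      pf S.Phi (𝒞.cr z (pf ((ContinuousMap.id I).prodMk (ContinuousMap.id I)) dl)) := by
    rw [push_bd hz, hh]
    unfold S7
    simp only [map_add]
    rw [v1, v2, v3, v4, v5]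
    abel
  refine ⟨pf S.Phi (𝒞.cr z h) + pf S.Nc (𝒞.cr z (𝒞.cr dl iota)), ?_⟩
  unfold theta
  rw [map_add, hP, hN]
  abel

/-! ### the parametrised square -/

/-- `(s, t) ↦ min 1 ((1 + t) s)` -/
noncomputable def wl : C(I × I, I) :=
  ⟨fun p => ⟨min 1 ((1 + (p.2 : ℝ)) * p.1), by
      have := p.1.2.1; have := p.2.2.1
      exact le_min zero_le_one (by positivity), min_le_left _ _⟩, by fun_prop⟩

/-- `(s, t) ↦ max 0 ((1 + t) s - t)` -/
noncomputable def wr : C(I × I, I) :=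
  ⟨fun p => ⟨max 0 ((1 + (p.2 : ℝ)) * p.1 - p.2), le_max_left _ _, by
      have h1 := p.1.2.2; have h2 := p.2.2.1
      refine max_le zero_le_one ?_
      nlinarith⟩, by fun_prop⟩

theorem wl_coe (s t : I) : ((wl (s, t) : I) : ℝ) = min 1 ((1 + (t : ℝ)) * s) := rfl
theorem wr_coe (s t : I) : ((wr (s, t) : I) : ℝ) = max 0 ((1 + (t : ℝ)) * s - t) := rfl

theorem wl_left (t : I) : wl (0, t) = 0 := Subtype.ext (by rw [wl_coe]; simp)
theorem wl_right (t : I) : wl (1, t) = 1 := Subtype.ext (by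
  rw [wl_coe]
  have := t.2.1
  simp [this])
theorem wr_left (t : I) : wr (0, t) = 0 := Subtype.ext (by
  rw [wr_coe]
  have := t.2.1
  simp [this])
theorem wr_right (t : I) : wr (1, t) = 1 := Subtype.ext (by rw [wr_coe]; simp)
theorem wl_bot (s : I) : wl (s, 0) = s := Subtype.ext (by
  rw [wl_coe]
  have := s.2.2
  simp [this])
theorem wr_bot (s : I) : wr (s, 0) = s := Subtype.ext (by
  rw [wr_coe]
  have := s.2.1
  simp [this])
theorem wl_top_lo (s : I) : wl (lo s, 1) = s := Subtype.ext (by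
  rw [wl_coe]
  show min 1 ((1 + (1 : ℝ)) * ((s : ℝ) / 2)) = s
  have := s.2.2
  rw [min_eq_right] <;> linarith)
theorem wl_top_hi (s : I) : wl (hi s, 1) = 1 := Subtype.ext (by
  rw [wl_coe]
  show min 1 ((1 + (1 : ℝ)) * ((1 + (s : ℝ)) / 2)) = 1
  have := s.2.1
  rw [min_eq_left]; linarith)
theorem wr_top_lo (s : I) : wr (lo s, 1) = 0 := Subtype.ext (by
  rw [wr_coe]
  show max 0 ((1 + (1 : ℝ)) * ((s : ℝ) / 2) - 1) = 0
  have := s.2.2
  rw [max_eq_left]; linarith)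
theorem wr_top_hi (s : I) : wr (hi s, 1) = s := Subtype.ext (by
  rw [wr_coe]
  show max 0 ((1 + (1 : ℝ)) * ((1 + (s : ℝ)) / 2) - 1) = s
  have := s.2.1
  rw [max_eq_right] <;> linarith)
theorem w_top (s : I) : wl (s, 1) = 1 ∨ wr (s, 1) = 0 := by
  rcases le_total (s : ℝ) (1 / 2) with h | h
  · right
    refine Subtype.ext ?_
    rw [wr_coe]
    show max 0 ((1 + (1 : ℝ)) * (s : ℝ) - 1) = 0
    rw [max_eq_left]; linarith
  · left
    refine Subtype.ext ?_
    rw [wl_coe]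
    show min 1 ((1 + (1 : ℝ)) * (s : ℝ)) = 1
    rw [min_eq_left]; linarith

/-- `λ(s, t) = (wl, wr)` -/
noncomputable def lam : C(I × I, I × I) := wl.prodMk wr

/-- the cycle comparing `λ` with the triangle -/
theorem bd_lam : N.bd F2 _ (pf lam (𝒞.cr iota iota) + Tau +
    pf (lam.comp ((ContinuousMap.id I).prodMk (ContinuousMap.const I 1))) dl) = 0 := by
  have h1 : ∀ c : I, (∀ t, lam (c, t) = (c, c)) → pf lam (𝒞.cr (A1 ![c]) iota) = 0 := by
    intro c hc
    rw [A1_pt, 𝒞.vertex', ← pf_comp]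
    have : lam.comp ((ContinuousMap.const I c).prodMk (ContinuousMap.id I)) =
      ContinuousMap.const I (c, c) := ContinuousMap.ext fun t => hc t
    rw [this]
    exact pf_const (n := 0) _ iota_gr
  have h2 : pf lam (𝒞.cr iota (A1 ![0])) = A2 ![(0, 0), (1, 1)] := by
    rw [A1_pt, 𝒞.vertex, ← pf_comp]
    have : lam.comp ((ContinuousMap.id I).prodMk (ContinuousMap.const I 0)) =
      (ContinuousMap.id I).prodMk (ContinuousMap.id I) := by
      refine ContinuousMap.ext fun t => ?_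
      show (wl (t, 0), wr (t, 0)) = (t, t)
      rw [wl_bot, wr_bot]
    rw [this]
    unfold iota
    rw [pf_A1_2 _ _ isAff_id isAff_id]
    congr 1
    funext i; fin_cases i <;> rfl
  have h3 : pf lam (𝒞.cr iota (A1 ![1])) =
      pf (lam.comp ((ContinuousMap.id I).prodMk (ContinuousMap.const I 1))) iota := by
    rw [A1_pt, 𝒞.vertex, ← pf_comp]
  have h4 : pf (lam.comp ((ContinuousMap.id I).prodMk (ContinuousMap.const I 1))) (pf lo iota) =
      A2 ![(0, 0), (1, 0)] := by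
    rw [← pf_comp]
    have : (lam.comp ((ContinuousMap.id I).prodMk (ContinuousMap.const I 1))).comp lo =
      (ContinuousMap.id I).prodMk (ContinuousMap.const I 0) := by
      refine ContinuousMap.ext fun t => ?_
      show (wl (lo t, 1), wr (lo t, 1)) = (t, 0)
      rw [wl_top_lo, wr_top_lo]
    rw [this]
    unfold iota
    rw [pf_A1_2 _ _ isAff_id (isAff_const _)]
    congr 1
    funext i; fin_cases i <;> rfl
  have h5 : pf (lam.comp ((ContinuousMap.id I).prodMk (ContinuousMap.const I 1))) (pf hi iota) =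
      A2 ![(1, 0), (1, 1)] := by
    rw [← pf_comp]
    have : (lam.comp ((ContinuousMap.id I).prodMk (ContinuousMap.const I 1))).comp hi =
      (ContinuousMap.const I 1).prodMk (ContinuousMap.id I) := by
      refine ContinuousMap.ext fun t => ?_
      show (wl (hi t, 1), wr (hi t, 1)) = (1, t)
      rw [wl_top_hi, wr_top_hi]
    rw [this]
    unfold iota
    rw [pf_A1_2 _ _ (isAff_const _) isAff_id]
    congr 1
    funext i; fin_cases i <;> rfl
  have hT : N.bd F2 _ Tau = A2 ![(1, 0), (1, 1)] + A2 ![(0, 0), (1, 1)] + A2 ![(0, 0), (1, 0)] :=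
    bd_A2_3 _ _ _
  rw [map_add, map_add, hT, ← pf_bd, ← pf_bd, 𝒞.bd, bd_iota, bd_dl]
  simp only [map_add, LinearMap.add_apply]
  rw [h1 1 (fun t => Prod.ext (wl_right t) (wr_right t)),
    h1 0 (fun t => Prod.ext (wl_left t) (wr_left t)), h2, h3, h4, h5]
  set a := pf (lam.comp ((ContinuousMap.id I).prodMk (ContinuousMap.const I 1))) iota
  set b := A2 ![((0 : I), (0 : I)), (1, 1)]
  set c := A2 ![((0 : I), (0 : I)), (1, 0)]
  set d := A2 ![((1 : I), (0 : I)), (1, 1)]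
  calc 0 + 0 + (a + b) + (d + b + c) + (d + a + c) = (a + a) + (b + b) + (c + c) + (d + d) := by abel
    _ = 0 := by simp only [add_self', add_zero]

theorem claimB (hA : Acy) (Th : C(S.L × (I × I), S.W))
    (t0 : ∀ l t, Th (l, (0, t)) = S.w0) (t1 : ∀ l t, Th (l, (1, t)) = S.w0)
    (tlo : ∀ l s t, Th (l, (s, lo t)) = S.Nc (l, (s, rev t)))
    (thi : ∀ l s t, Th (l, (s, hi t)) = S.Phi (l, lam (s, t)))
    {z : N F2 (Sing S.L)} (hz : N.bd F2 _ z = 0) :
    Hom2 (pf Th (𝒞.cr z (𝒞.cr iota iota))) (theta 𝒞 S z) := by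
  -- vanishing of end terms
  have ends : ∀ (F : C(S.L × (I × I), S.W)) (c : I) (y : N F2 (Sing I)) (n : ℕ),
      y ∈ N.gr F2 (Sing I) (n + 1) → (∀ l t, F (l, (c, t)) = S.w0) →
      pf F (𝒞.cr z (𝒞.cr (A1 ![c]) y)) = 0 := by
    intro F c y n hy hF
    rw [A1_pt, 𝒞.vertex', push_nat]
    exact push_const z hy _ S.w0 hF
  -- split the second coordinate
  have hsplit : 𝒞.cr iota iota = 𝒞.cr iota (pf lo iota) + 𝒞.cr iota (pf hi iota) +
      N.bd F2 _ (𝒞.cr iota dl) + 𝒞.cr (A1 ![1]) dl + 𝒞.cr (A1 ![0]) dl := by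
    have e1 : N.bd F2 _ (𝒞.cr iota dl) =
        (𝒞.cr (A1 ![1]) dl + 𝒞.cr (A1 ![0]) dl) + 𝒞.cr iota (N.bd F2 _ dl) := by
      rw [𝒞.bd, bd_iota, map_add 𝒞.cr, LinearMap.add_apply]
    have e2 : 𝒞.cr iota iota = 𝒞.cr iota (pf lo iota) + 𝒞.cr iota (pf hi iota) +
        𝒞.cr iota (N.bd F2 _ dl) := by
      rw [← map_add, ← map_add, ← iota_eq]
    rw [e2, e1]
    calc _ = 𝒞.cr iota (pf lo iota) + 𝒞.cr iota (pf hi iota) + 𝒞.cr iota (N.bd F2 _ dl) +
          (𝒞.cr (A1 ![1]) dl + 𝒞.cr (A1 ![1]) dl) + (𝒞.cr (A1 ![0]) dl + 𝒞.cr (A1 ![0]) dl) := by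
            rw [add_self', add_self', add_zero, add_zero]
      _ = _ := by abel
  have hrev : pf rev iota = iota + N.bd F2 _ (A1 ![0, 1, 0]) := by
    have e1 : pf rev iota = A1 ![1, 0] := by
      unfold iota
      rw [pf_A1 _ isAff_rev]
      congr 1
      funext i; fin_cases i
      · exact rev_zero
      · exact rev_one
    have e2 : A1 ![(0 : I), 0] = 0 := by
      have : (![0, 0] : Fin 2 → I) = fun _ => 0 := by funext i; fin_cases i <;> rfl
      rw [this]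
      have h := aff_act (m := 1) (n := 0) ⟨fun _ => 0, fun _ _ _ => le_rfl⟩ (fun _ => (0 : I))
      unfold A1
      have h' := sx_act_dgn (K := Sing I) (m := 1) (n := 0) ⟨fun _ => 0, fun _ _ _ => le_rfl⟩
        (by omega) (aff fun _ => (0 : I))
      rw [h] at h'
      exact h'
    rw [e1, bd_A1_3, e2, add_zero]
    show A1 ![1, 0] = iota + (A1 ![1, 0] + A1 ![0, 1])
    calc A1 ![1, 0] = A1 ![1, 0] + (iota + iota) := by rw [add_self', add_zero]
      _ = _ := by unfold iota; abel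
  -- the collar half
  have hlo : pf Th (𝒞.cr z (𝒞.cr iota (pf lo iota))) =
      pf S.Nc (𝒞.cr z (𝒞.cr iota iota)) +
        N.bd F2 _ (pf S.Nc (𝒞.cr z (𝒞.cr iota (A1 ![0, 1, 0])))) := by
    have e1 : 𝒞.cr iota (pf lo iota) = pf ((ContinuousMap.id I).prodMap lo) (𝒞.cr iota iota) := by
      rw [𝒞.nat, pf_id]
    have e2 : Th.comp ((ContinuousMap.id S.L).prodMap ((ContinuousMap.id I).prodMap lo)) =
        S.Nc.comp ((ContinuousMap.id S.L).prodMap ((ContinuousMap.id I).prodMap rev)) :=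
      ContinuousMap.ext fun ⟨l, ⟨s, t⟩⟩ => tlo l s t
    rw [e1, push_nat, e2, ← push_nat, 𝒞.nat, pf_id, hrev, map_add, map_add, map_add, push_bd hz,
      𝒞.bd, bd_iota, map_add 𝒞.cr, LinearMap.add_apply]
    simp only [map_add]
    have hg : A1 ![(0 : I), 1, 0] ∈ N.gr F2 (Sing I) (1 + 1) := sx_gr (K := Sing I) (n := 2) _
    rw [ends S.Nc 1 _ 1 hg (fun l t => by
        show S.nh (S.ev (l, 1), t) = _; rw [S.ev1, S.nh_base]),
      ends S.Nc 0 _ 1 hg (fun l t => by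
        show S.nh (S.ev (l, 0), t) = _; rw [S.ev0, S.nh_base])]
    abel
  -- the triangle half
  have hgr : pf lam (𝒞.cr iota iota) + Tau +
      pf (lam.comp ((ContinuousMap.id I).prodMk (ContinuousMap.const I 1))) dl ∈
      N.gr F2 (Sing (I × I)) 2 :=
    Submodule.add_mem _ (Submodule.add_mem _ (pf_gr _ crii_gr) Tau_gr) (pf_gr _ dl_gr)
  obtain ⟨h, hh⟩ := hA _ hgr bd_lam
  have hhi : pf Th (𝒞.cr z (𝒞.cr iota (pf hi iota))) + pf S.Phi (𝒞.cr z Tau) =
      N.bd F2 _ (pf S.Phi (𝒞.cr z h)) := by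
    have e1 : 𝒞.cr iota (pf hi iota) = pf ((ContinuousMap.id I).prodMap hi) (𝒞.cr iota iota) := by
      rw [𝒞.nat, pf_id]
    have e2 : Th.comp ((ContinuousMap.id S.L).prodMap ((ContinuousMap.id I).prodMap hi)) =
        S.Phi.comp ((ContinuousMap.id S.L).prodMap lam) :=
      ContinuousMap.ext fun ⟨l, ⟨s, t⟩⟩ => thi l s t
    have e3 : pf S.Phi (𝒞.cr z (pf (lam.comp ((ContinuousMap.id I).prodMk
        (ContinuousMap.const I 1))) dl)) = 0 := by
      rw [push_nat]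
      refine push_const (q := 1) z dl_gr _ S.w0 fun l a => ?_
      show S.pr (S.ev (l, wl (a, 1)), S.ev (l, wr (a, 1))) = _
      rcases w_top a with h | h
      · rw [h, S.ev1, S.pr_left]
      · rw [h, S.ev0, S.pr_right]
    rw [push_bd hz, hh, e1, push_nat, e2, ← push_nat]
    simp only [map_add]
    rw [e3, add_zero]
  have hm : pf Th (𝒞.cr z (N.bd F2 _ (𝒞.cr iota dl))) =
      N.bd F2 _ (pf Th (𝒞.cr z (𝒞.cr iota dl))) := (push_bd hz _ _).symm
  refine ⟨pf S.Nc (𝒞.cr z (𝒞.cr iota (A1 ![0, 1, 0]))) + pf S.Phi (𝒞.cr z h) +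
    pf Th (𝒞.cr z (𝒞.cr iota dl)), ?_⟩
  have hT : pf Th (𝒞.cr z (𝒞.cr iota iota)) = pf Th (𝒞.cr z (𝒞.cr iota (pf lo iota))) +
      pf Th (𝒞.cr z (𝒞.cr iota (pf hi iota))) + N.bd F2 _ (pf Th (𝒞.cr z (𝒞.cr iota dl))) := by
    conv_lhs => rw [hsplit]
    simp only [map_add]
    rw [ends Th 1 _ 1 dl_gr t1, ends Th 0 _ 1 dl_gr t0, hm]
    abel
  rw [hT, hlo, map_add, map_add, ← hhi]
  unfold theta
  have e := add_self' (pf S.Nc (𝒞.cr z (𝒞.cr iota iota)))
  calc _ = N.bd F2 _ (pf S.Nc (𝒞.cr z (𝒞.cr iota (A1 ![0, 1, 0])))) +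
      (pf Th (𝒞.cr z (𝒞.cr iota (pf hi iota))) + pf S.Phi (𝒞.cr z Tau)) +
      N.bd F2 _ (pf Th (𝒞.cr z (𝒞.cr iota dl))) +
      (pf S.Nc (𝒞.cr z (𝒞.cr iota iota)) + pf S.Nc (𝒞.cr z (𝒞.cr iota iota))) := by
        rw [e, add_zero]
    _ = _ := by abel

/-- **H10, core form** -/
theorem hopf_core (hA : Acy) (Th : C(S.L × (I × I), S.W))
    (t0 : ∀ l t, Th (l, (0, t)) = S.w0) (t1 : ∀ l t, Th (l, (1, t)) = S.w0)
    (tlo : ∀ l s t, Th (l, (s, lo t)) = S.Nc (l, (s, rev t)))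
    (thi : ∀ l s t, Th (l, (s, hi t)) = S.Phi (l, lam (s, t)))
    {p q : ℕ} {z1 z2 : N F2 (Sing S.L)}
    (h1 : z1 ∈ N.gr F2 (Sing S.L) (p + 1)) (h2 : z2 ∈ N.gr F2 (Sing S.L) (q + 1))
    (hz1 : N.bd F2 _ z1 = 0) (hz2 : N.bd F2 _ z2 = 0) :
    Hom2 (pf Th (𝒞.cr (pf S.mu (𝒞.cr z1 z2)) (𝒞.cr iota iota)))
      (pf S.P (𝒞.cr (𝒞.cr z1 z2) (𝒞.cr iota iota))) := by
  have hz : N.bd F2 _ (pf S.mu (𝒞.cr z1 z2)) = 0 := by
    rw [← pf_bd, 𝒞.bd, hz1, hz2, map_zero, map_zero, LinearMap.zero_apply, add_zero, map_zero]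
  exact (claimB hA Th t0 t1 tlo thi hz).trans (claimA hA h1 h2 hz1 hz2)

end main

end Crest.Agent.R204.HopfF2477
end

-- ▼ part R204/Cube_477

/-!
# Row 204, leaf H10 (helper477): fundamental chains `zc n` of the cubes `Fin n → I`

Everything over an abstract cross product `𝒞 : Cross` (instantiated from helper271's `cross`).
-/

set_option autoImplicit false

namespace Crest.Agent.R204.HopfF2477

open SS Finsupp

/-- `(x, t) ↦ Fin.snoc x t` -/
noncomputable def snocM (n : ℕ) : C((Fin n → I) × I, Fin (n + 1) → I) :=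
  ⟨fun p => Fin.snoc (α := fun _ => I) p.1 p.2, by
    refine continuous_pi fun i => ?_
    refine Fin.lastCases ?_ (fun j => ?_) i
    · simp only [Fin.snoc_last]; exact continuous_snd
    · simp only [Fin.snoc_castSucc]; exact (continuous_apply j).comp continuous_fst⟩

theorem snocM_apply {n : ℕ} (x : Fin n → I) (t : I) :
    snocM n (x, t) = Fin.snoc (α := fun _ => I) x t := rfl

/-- `(x, y) ↦ Fin.append x y` -/
noncomputable def appM (p q : ℕ) : C((Fin p → I) × (Fin q → I), Fin (p + q) → I) :=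
  ⟨fun x => Fin.append x.1 x.2, by
    refine continuous_pi fun i => ?_
    refine Fin.addCases (fun j => ?_) (fun j => ?_) i
    · simp only [Fin.append_left]; exact (continuous_apply j).comp continuous_fst
    · simp only [Fin.append_right]; exact (continuous_apply j).comp continuous_snd⟩


theorem append_snoc' {p q : ℕ} (x : Fin p → I) (y : Fin q → I) (t : I) :
    Fin.append x (Fin.snoc (α := fun _ => I) y t) =
      (Fin.snoc (α := fun _ => I) (Fin.append x y) t : Fin (p + q + 1) → I) := by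
  refine funext fun i => ?_
  refine Fin.addCases (m := p) (n := q + 1) (fun j => ?_) (fun j => ?_) i
  · rw [Fin.append_left]
    exact (((Fin.snoc_castSucc (α := fun _ => I) t (Fin.append x y) (Fin.castAdd q j))).trans
      (Fin.append_left x y j)).symm
  · rw [Fin.append_right]
    refine Fin.lastCases ?_ (fun j => ?_) j
    · rw [Fin.snoc_last]
      exact (Fin.snoc_last (α := fun _ => I) t (Fin.append x y)).symm
    · rw [Fin.snoc_castSucc]
      exact ((Fin.snoc_castSucc (α := fun _ => I) t (Fin.append x y) (Fin.natAdd p j)).trans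
        (Fin.append_right x y j)).symm

namespace Cross

variable (𝒞 : Cross)

/-- the fundamental chain of the cube -/
noncomputable def zc : (n : ℕ) → N F2 (Sing (Fin n → I))
  | 0 => N.sx F2 (vx (fun i : Fin 0 => i.elim0))
  | n + 1 => pf (snocM n) (𝒞.cr (zc n) iota)

theorem zc_zero : 𝒞.zc 0 = N.sx F2 (vx (fun i : Fin 0 => i.elim0)) := rfl
theorem zc_succ (n : ℕ) : 𝒞.zc (n + 1) = pf (snocM n) (𝒞.cr (𝒞.zc n) iota) := rfl

theorem zc_gr (n : ℕ) : 𝒞.zc n ∈ N.gr F2 (Sing (Fin n → I)) n := by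
  induction n with
  | zero => exact sx_gr (K := Sing (Fin 0 → I)) (n := 0) _
  | succ n ih => exact pf_gr _ (𝒞.gr ih iota_gr)

variable {X Y Z W A : Type} [TopologicalSpace X] [TopologicalSpace Y] [TopologicalSpace Z]
  [TopologicalSpace W] [TopologicalSpace A]

/-- reassociation as a continuous map -/
def asc (X Y Z : Type) [TopologicalSpace X] [TopologicalSpace Y] [TopologicalSpace Z] :
    C((X × Y) × Z, X × (Y × Z)) := ⟨fun p => (p.1.1, (p.1.2, p.2)), by fun_prop⟩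

/-- inverse reassociation -/
def asc' (X Y Z : Type) [TopologicalSpace X] [TopologicalSpace Y] [TopologicalSpace Z] :
    C(X × (Y × Z), (X × Y) × Z) := ⟨fun p => ((p.1, p.2.1), p.2.2), by fun_prop⟩

theorem asc_cr (x : N F2 (Sing X)) (y : N F2 (Sing Y)) (z : N F2 (Sing Z)) :
    pf (asc X Y Z) (𝒞.cr (𝒞.cr x y) z) = 𝒞.cr x (𝒞.cr y z) := 𝒞.assoc x y z

theorem asc'_cr (x : N F2 (Sing X)) (y : N F2 (Sing Y)) (z : N F2 (Sing Z)) :
    pf (asc' X Y Z) (𝒞.cr x (𝒞.cr y z)) = 𝒞.cr (𝒞.cr x y) z := by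
  rw [← 𝒞.asc_cr x y z, ← pf_comp]
  exact pf_id _

/-- a vertex in the second factor -/
theorem pf_vertex (x : N F2 (Sing X)) (y : Y) (F : C(X × Y, W)) (G : C(X, W))
    (h : ∀ a, F (a, y) = G a) : pf F (𝒞.cr x (N.sx F2 (vx y))) = pf G x := by
  rw [𝒞.vertex, ← pf_comp]
  exact congrArg (fun f => pf f x) (ContinuousMap.ext h)


/-- the boundary of the cube chain is killed by maps which are independent of the cube
coordinate on the boundary -/
theorem bd_zc_push (n : ℕ) : ∀ (A W : Type) [TopologicalSpace A] [TopologicalSpace W]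
    (a : N F2 (Sing A)) (F : C((Fin n → I) × A, W)) (G : C(A, W))
    (_ : ∀ x ∈ Cube.boundary (Fin n), ∀ a, F (x, a) = G a),
    pf F (𝒞.cr (N.bd F2 _ (𝒞.zc n)) a) = 0 := by
  induction n with
  | zero =>
    intro A W _ _ a F G _
    have : N.bd F2 _ (𝒞.zc 0) = 0 := by
      rw [zc_zero]
      unfold N.sx
      rw [N.bd_mk, Ch.bd_single_zero]; rfl
    rw [this, map_zero, LinearMap.zero_apply, map_zero]
  | succ n ih =>
    intro A W _ _ a F G hF
    rw [zc_succ, ← pf_bd, 𝒞.bd, bd_iota]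
    simp only [map_add, LinearMap.add_apply]
    have hbd : ∀ (x : Fin n → I) (t : I), x ∈ Cube.boundary (Fin n) ∨ t = 0 ∨ t = 1 →
        snocM n (x, t) ∈ Cube.boundary (Fin (n + 1)) := by
      rintro x t (⟨j, hj⟩ | h)
      · exact ⟨j.castSucc, by rw [snocM_apply, Fin.snoc_castSucc]; exact hj⟩
      · exact ⟨Fin.last n, by rw [snocM_apply, Fin.snoc_last]; exact h⟩
    -- the boundary part
    have e1 : pf F (𝒞.cr (pf (snocM n) (𝒞.cr (N.bd F2 _ (𝒞.zc n)) iota)) a) = 0 := by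
      have h1 : 𝒞.cr (pf (snocM n) (𝒞.cr (N.bd F2 _ (𝒞.zc n)) iota)) a =
          pf ((snocM n).prodMap (ContinuousMap.id A)) (𝒞.cr (𝒞.cr (N.bd F2 _ (𝒞.zc n)) iota) a) := by
        rw [𝒞.nat, pf_id]
      rw [h1, ← pf_comp, ← 𝒞.asc'_cr, ← pf_comp]
      refine ih (I × A) W _ _ (G.comp ContinuousMap.snd) ?_
      rintro x hx ⟨t, a⟩
      exact hF _ (hbd x t (Or.inl hx)) a
    -- the two ends
    have e2 : ∀ c : I, (c = 0 ∨ c = 1) →
        pf F (𝒞.cr (pf (snocM n) (𝒞.cr (𝒞.zc n) (A1 ![c]))) a) =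
          pf (G.comp ContinuousMap.snd) (𝒞.cr (𝒞.zc n) a) := by
      intro c hc
      rw [A1_pt, 𝒞.vertex, ← pf_comp]
      have h1 : ∀ f : C(Fin n → I, Fin (n + 1) → I), 𝒞.cr (pf f (𝒞.zc n)) a =
          pf (f.prodMap (ContinuousMap.id A)) (𝒞.cr (𝒞.zc n) a) := by
        intro f; rw [𝒞.nat, pf_id]
      rw [h1, ← pf_comp]
      refine congrArg (fun f => pf f (𝒞.cr (𝒞.zc n) a)) (ContinuousMap.ext ?_)
      rintro ⟨x, a⟩
      exact hF _ (hbd x c (Or.inr hc)) a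
    rw [e1, e2 1 (Or.inr rfl), e2 0 (Or.inl rfl), zero_add, add_self']

/-- based maps of cubes give cycles -/
theorem bd_pf_zc (n : ℕ) (f : C(Fin n → I, W)) (w : W)
    (hf : ∀ x ∈ Cube.boundary (Fin n), f x = w) : N.bd F2 _ (pf f (𝒞.zc n)) = 0 := by
  rw [← pf_bd]
  have h := 𝒞.bd_zc_push n Unit W (N.sx F2 (vx ())) (f.comp ContinuousMap.fst)
    (ContinuousMap.const Unit w) (fun x hx _ => hf x hx)
  rwa [𝒞.pf_vertex _ _ _ f (fun _ => rfl)] at h

theorem pf_app (p q : ℕ) : pf (appM p q) (𝒞.cr (𝒞.zc p) (𝒞.zc q)) = 𝒞.zc (p + q) := by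
  induction q with
  | zero =>
    rw [zc_zero, 𝒞.pf_vertex _ _ _ (ContinuousMap.id _)]
    · exact pf_id _
    · intro a
      show Fin.append a _ = a
      exact Fin.append_elim0 a
  | succ q ih =>
    rw [zc_succ]
    have h1 : 𝒞.cr (𝒞.zc p) (pf (snocM q) (𝒞.cr (𝒞.zc q) iota)) =
        pf ((ContinuousMap.id (Fin p → I)).prodMap (snocM q))
          (𝒞.cr (𝒞.zc p) (𝒞.cr (𝒞.zc q) iota)) := by
      rw [𝒞.nat, pf_id]
    show _ = pf (snocM (p + q)) (𝒞.cr (𝒞.zc (p + q)) iota)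
    have h2 : 𝒞.cr (pf (appM p q) (𝒞.cr (𝒞.zc p) (𝒞.zc q))) iota =
        pf ((appM p q).prodMap (ContinuousMap.id I)) (𝒞.cr (𝒞.cr (𝒞.zc p) (𝒞.zc q)) iota) := by
      rw [𝒞.nat, pf_id]
    rw [h1, ← pf_comp, ← ih, h2, ← pf_comp, ← 𝒞.asc_cr, ← pf_comp]
    refine congrArg (fun f => pf f (𝒞.cr (𝒞.cr (𝒞.zc p) (𝒞.zc q)) iota)) (ContinuousMap.ext ?_)
    rintro ⟨⟨x, y⟩, t⟩
    exact append_snoc' x y t

/-- middle four interchange -/
def m4 (X Y Z W : Type) [TopologicalSpace X] [TopologicalSpace Y] [TopologicalSpace Z]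
    [TopologicalSpace W] : C((X × Y) × (Z × W), (X × Z) × (Y × W)) :=
  ⟨fun p => ((p.1.1, p.2.1), (p.1.2, p.2.2)), by fun_prop⟩

theorem m4_cr (x : N F2 (Sing X)) (y : N F2 (Sing Y)) (z : N F2 (Sing Z)) (w : N F2 (Sing W)) :
    pf (m4 X Y Z W) (𝒞.cr (𝒞.cr x y) (𝒞.cr z w)) = 𝒞.cr (𝒞.cr x z) (𝒞.cr y w) := by
  -- both sides are images of `x × ((y × z) × w)`
  have h1 : 𝒞.cr (𝒞.cr x y) (𝒞.cr z w) = pf (asc' X Y (Z × W)) (𝒞.cr x (𝒞.cr y (𝒞.cr z w))) :=
    (𝒞.asc'_cr _ _ _).symm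
  have h2 : 𝒞.cr y (𝒞.cr z w) = pf (asc Y Z W) (𝒞.cr (𝒞.cr y z) w) := (𝒞.asc_cr _ _ _).symm
  have h3 : 𝒞.cr y z = pf ContinuousMap.prodSwap (𝒞.cr z y) := (𝒞.swap z y).symm
  have h4 : 𝒞.cr (pf ContinuousMap.prodSwap (𝒞.cr z y)) w =
      pf (ContinuousMap.prodSwap.prodMap (ContinuousMap.id W)) (𝒞.cr (𝒞.cr z y) w) := by
    rw [𝒞.nat, pf_id]
  have h5 : 𝒞.cr (𝒞.cr z y) w = pf (asc' Z Y W) (𝒞.cr z (𝒞.cr y w)) := (𝒞.asc'_cr _ _ _).symm
  have h6 : ∀ {B C : Type} [TopologicalSpace B] [TopologicalSpace C] (f : C(B, C))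
      (b : N F2 (Sing B)), 𝒞.cr x (pf f b) = pf ((ContinuousMap.id X).prodMap f) (𝒞.cr x b) := by
    intro B C _ _ f b; rw [𝒞.nat, pf_id]
  have h7 : 𝒞.cr x (𝒞.cr z (𝒞.cr y w)) = pf (asc X Z (Y × W)) (𝒞.cr (𝒞.cr x z) (𝒞.cr y w)) :=
    (𝒞.asc_cr _ _ _).symm
  rw [h1, h2, h3, h4, h5, ← pf_comp, ← pf_comp, h6, h6, h7, ← pf_comp, ← pf_comp, ← pf_comp]
  exact pf_id _

end Cross

end Crest.Agent.R204.HopfF2477
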