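import Crest.Agent.R204.C1_735

-- ▼ part R204/Hsp_696
section

/-!
# Row 204, block C (helper696): homotopies between little cube operations

* `Compat c d`, `lerp` : linear interpolation between two configurations with a common separation
  pattern;
* `joined` : if `J` has at least two elements, `BoxConf F J` is path connected;
* `muC_homotopic` : all operations `mu c` (`c : BoxConf F J`, `J` nontrivial) are homotopic,
  relatively to the constant family;
* `halves i`, `mu_halves` : `GenLoop.transAt i` is a little cube operation.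
-/

set_option autoImplicit false

open scoped Topology unitInterval Topology.Homotopy
open Set

noncomputable section

namespace Crest.Agent.R204.Hsp696

open Cubes735 BoxConf

variable {F J Z : Type*} [TopologicalSpace Z] {z₀ : Z}

/-! ## Linear interpolation -/

/-- Two configurations with a common separation pattern. -/
def Compat (c d : BoxConf F J) : Prop :=
  ∀ v w, v ≠ w → ∃ j, (c.a v j + c.r v j ≤ c.a w j ∧ d.a v j + d.r v j ≤ d.a w j) ∨
    (c.a w j + c.r w j ≤ c.a v j ∧ d.a w j + d.r w j ≤ d.a v j)

theorem Compat.symm {c d : BoxConf F J} (h : Compat c d) : Compat d c := by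
  intro v w hvw
  obtain ⟨j, hj⟩ := h v w hvw
  exact ⟨j, by tauto⟩

theorem Compat.refl (c : BoxConf F J) : Compat c c := by
  intro v w hvw
  obtain ⟨j, hj⟩ := c.sep hvw
  exact ⟨j, by tauto⟩

/-- shrinking boxes inside themselves is compatible -/
theorem Compat.of_sub {c d : BoxConf F J}
    (h : ∀ v j, c.a v j ≤ d.a v j ∧ d.a v j + d.r v j ≤ c.a v j + c.r v j) : Compat c d := by
  intro v w hvw
  obtain ⟨j, hj⟩ := c.sep hvw
  refine ⟨j, ?_⟩
  have h1 := h v j
  have h2 := h w j
  rcases hj with hj | hj
  · left; exact ⟨hj, by linarith⟩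
  · right; exact ⟨hj, by linarith⟩

/-- compatibility when all pairs are separated in the same way by one function -/
theorem Compat.of_coord {c d : BoxConf F J} (j : J)
    (h : ∀ v w, v ≠ w → (c.a v j + c.r v j ≤ c.a w j ∧ d.a v j + d.r v j ≤ d.a w j) ∨
    (c.a w j + c.r w j ≤ c.a v j ∧ d.a w j + d.r w j ≤ d.a v j)) : Compat c d :=
  fun v w hvw => ⟨j, h v w hvw⟩

/-- the interpolation -/
def lerp (c d : BoxConf F J) (h : Compat c d) (t : I) : BoxConf F J :=
  BoxConf.mk' (fun v j => (1 - (t : ℝ)) * c.a v j + t * d.a v j)
    (fun v j => (1 - (t : ℝ)) * c.r v j + t * d.r v j)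
    (fun v j => by
      have ht0 := t.2.1
      have ht1 : 0 ≤ 1 - (t : ℝ) := by linarith [t.2.2]
      have h1 := c.a_nonneg v j
      have h2 := c.r_pos v j
      have h3 := c.add_le v j
      have k1 := d.a_nonneg v j
      have k2 := d.r_pos v j
      have k3 := d.add_le v j
      refine ⟨by positivity, ?_, ?_⟩
      · rcases ht0.eq_or_lt with h0 | h0
        · rw [← h0]; linarith
        · have := mul_pos h0 k2
          have := mul_nonneg ht1 h2.le
          linarith
      · have e1 := mul_le_mul_of_nonneg_left h3 ht1
        have e2 := mul_le_mul_of_nonneg_left k3 ht0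
        linarith)
    (fun v w hvw => by
      obtain ⟨j, hj⟩ := h v w hvw
      refine ⟨j, ?_⟩
      have ht0 := t.2.1
      have ht1 : 0 ≤ 1 - (t : ℝ) := by linarith [t.2.2]
      rcases hj with ⟨h1, h2⟩ | ⟨h1, h2⟩
      · left
        have e1 := mul_le_mul_of_nonneg_left h1 ht1
        have e2 := mul_le_mul_of_nonneg_left h2 ht0
        linarith
      · right
        have e1 := mul_le_mul_of_nonneg_left h1 ht1
        have e2 := mul_le_mul_of_nonneg_left h2 ht0
        linarith)

theorem lerp_a (c d : BoxConf F J) (h : Compat c d) (t : I) (v : F) (j : J) :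
    (lerp c d h t).a v j = (1 - (t : ℝ)) * c.a v j + t * d.a v j := rfl

theorem lerp_r (c d : BoxConf F J) (h : Compat c d) (t : I) (v : F) (j : J) :
    (lerp c d h t).r v j = (1 - (t : ℝ)) * c.r v j + t * d.r v j := rfl

@[simp] theorem lerp_zero (c d : BoxConf F J) (h : Compat c d) : lerp c d h 0 = c := by
  apply BoxConf.ext'
  · intro v j; simp [lerp_a]
  · intro v j; simp [lerp_r]

@[simp] theorem lerp_one (c d : BoxConf F J) (h : Compat c d) : lerp c d h 1 = d := by
  apply BoxConf.ext'
  · intro v j; simp [lerp_a]
  · intro v j; simp [lerp_r]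

theorem continuous_lerp {P : Type*} [TopologicalSpace P] {c d : P → BoxConf F J}
    (h : ∀ p, Compat (c p) (d p)) {t : P → I} (hc : Continuous c) (hd : Continuous d)
    (ht : Continuous t) : Continuous fun p => lerp (c p) (d p) (h p) (t p) := by
  have ht' : Continuous fun p => ((t p : I) : ℝ) := continuous_subtype_val.comp ht
  refine BoxConf.continuous_mk (fun v j => ?_) (fun v j => ?_)
  · simp only [lerp_a]
    exact ((continuous_const.sub ht').mul ((continuous_a v j).comp hc)).add
      (ht'.mul ((continuous_a v j).comp hd))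
  · simp only [lerp_r]
    exact ((continuous_const.sub ht').mul ((continuous_r v j).comp hc)).add
      (ht'.mul ((continuous_r v j).comp hd))

theorem Compat.joined {c d : BoxConf F J} (h : Compat c d) : Joined c d :=
  ⟨{ toFun := fun t => lerp c d h t
     continuous_toFun := continuous_lerp (fun _ => h) continuous_const continuous_const
       continuous_id
     source' := lerp_zero c d h
     target' := lerp_one c d h }⟩

/-! ## Path connectedness -/

/-- distinct representatives in finitely many nonempty open intervals -/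
theorem exists_distinct [Finite F] (a b : F → ℝ) (h : ∀ v, a v < b v) :
    ∃ x : F → ℝ, Function.Injective x ∧ ∀ v, a v < x v ∧ x v < b v := by
  classical
  have := Fintype.ofFinite F
  have h1 : ∀ v, ∃ T : Finset ℝ, (T : Set ℝ) ⊆ Ioo (a v) (b v) ∧ T.card = Fintype.card F :=
    fun v => (Set.Ioo_infinite (h v)).exists_subset_card_eq _
  choose T hT hc using h1
  obtain ⟨x, hx, hx'⟩ := (Finset.all_card_le_biUnion_card_iff_exists_injective T).1 (by
    intro s
    rcases s.eq_empty_or_nonempty with rfl | ⟨v, hv⟩
    · simp
    · calc s.card ≤ Fintype.card F := s.card_le_univ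
        _ = (T v).card := (hc v).symm
        _ ≤ _ := Finset.card_le_card (Finset.subset_biUnion_of_mem T hv))
  exact ⟨x, hx, fun v => hT v (hx' v)⟩

theorem exists_eps [Finite F] (a b x : F → ℝ) (hx : Function.Injective x)
    (h : ∀ v, a v < x v ∧ x v < b v) :
    ∃ ε > 0, (∀ v, a v ≤ x v - ε ∧ x v + ε ≤ b v) ∧ ∀ v w, v ≠ w → 2 * ε ≤ |x v - x w| := by
  have h1 : ∀ᶠ ε : ℝ in 𝓝[>] 0, ∀ v, a v ≤ x v - ε ∧ x v + ε ≤ b v := by
    rw [Filter.eventually_all]
    intro v
    have : ∀ᶠ ε : ℝ in 𝓝[>] 0, ε ∈ Ioo (0:ℝ) (min (x v - a v) (b v - x v)) := by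
      apply Ioo_mem_nhdsGT
      exact lt_min (by linarith [(h v).1]) (by linarith [(h v).2])
    filter_upwards [this] with ε hε
    have h2 := hε.2
    rw [lt_min_iff] at h2
    constructor <;> linarith [h2.1, h2.2]
  have h2 : ∀ᶠ ε : ℝ in 𝓝[>] 0, ∀ v w, v ≠ w → 2 * ε ≤ |x v - x w| := by
    rw [Filter.eventually_all]
    intro v
    rw [Filter.eventually_all]
    intro w
    by_cases hvw : v = w
    · filter_upwards with ε h using absurd hvw h
    · have hpos : 0 < |x v - x w| / 2 := by
        have : x v - x w ≠ 0 := sub_ne_zero.2 fun h => hvw (hx h)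
        positivity
      have : ∀ᶠ ε : ℝ in 𝓝[>] 0, ε ∈ Ioo (0:ℝ) (|x v - x w| / 2) := Ioo_mem_nhdsGT hpos
      filter_upwards [this] with ε hε _
      linarith [hε.2]
  have h3 : ∀ᶠ ε : ℝ in 𝓝[>] 0, 0 < ε := self_mem_nhdsWithin
  obtain ⟨ε, e1, e2, e3⟩ := (h3.and (h1.and h2)).exists
  exact ⟨ε, e1, e2, e3⟩

open Classical in
/-- the standard configuration: slots in the coordinate `j₁` -/
def stdConf [Fintype F] (j₁ : J) (k : F ≃ Fin (Fintype.card F)) : BoxConf F J :=
  BoxConf.mk' (fun v j => if j = j₁ then ((k v : ℕ) : ℝ) / Fintype.card F else 0)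
    (fun _ j => if j = j₁ then 1 / (Fintype.card F : ℝ) else 1)
    (fun v j => by
      have hpos : 0 < (Fintype.card F : ℝ) := by
        have : 0 < Fintype.card F := Fintype.card_pos_iff.2 ⟨v⟩
        exact_mod_cast this
      by_cases hj : j = j₁
      · simp only [hj, if_true]
        refine ⟨by positivity, by positivity, ?_⟩
        rw [← add_div, div_le_one hpos]
        have := (k v).2
        exact_mod_cast this
      · simp [hj])
    (fun v w hvw => by
      refine ⟨j₁, ?_⟩
      have hpos : 0 < (Fintype.card F : ℝ) := by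
        have : 0 < Fintype.card F := Fintype.card_pos_iff.2 ⟨v⟩
        exact_mod_cast this
      simp only [if_true]
      have hne : (k v : ℕ) ≠ (k w : ℕ) := fun h => hvw (k.injective (Fin.ext h))
      rcases lt_or_gt_of_ne hne with h | h
      · left
        rw [← add_div]
        apply div_le_div_of_nonneg_right _ hpos.le
        exact_mod_cast h
      · right
        rw [← add_div]
        apply div_le_div_of_nonneg_right _ hpos.le
        exact_mod_cast h)

theorem joined_std [Fintype F] {j₀ j₁ : J} (hj : j₀ ≠ j₁) (k : F ≃ Fin (Fintype.card F))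
    (c : BoxConf F J) : Joined c (stdConf j₁ k) := by
  classical
  obtain ⟨x, hx, hx'⟩ := exists_distinct (fun v => c.a v j₀) (fun v => c.a v j₀ + c.r v j₀)
    (fun v => by have := c.r_pos v j₀; linarith)
  obtain ⟨ε, hε, h1, h2⟩ := exists_eps _ _ x hx hx'
  have hsep : ∀ v w, v ≠ w → x v - ε + 2 * ε ≤ x w - ε ∨ x w - ε + 2 * ε ≤ x v - ε := by
    intro v w hvw
    have := h2 v w hvw
    rcases le_total (x v) (x w) with h | h
    · left
      rw [abs_of_nonpos (by linarith)] at this
      linarith
    · right
      rw [abs_of_nonneg (by linarith)] at this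
      linarith
  -- first: thin the boxes in the coordinate `j₀`
  let c1 : BoxConf F J := BoxConf.mk' (fun v j => if j = j₀ then x v - ε else c.a v j)
    (fun v j => if j = j₀ then 2 * ε else c.r v j)
    (fun v j => by
      by_cases h : j = j₀
      · subst h
        simp only [if_true]
        have := h1 v
        have e1 := c.a_nonneg v j
        have e2 := c.add_le v j
        refine ⟨by linarith, by linarith, by linarith⟩
      · simp only [h, if_false]
        exact ⟨c.a_nonneg v j, c.r_pos v j, c.add_le v j⟩)
    (fun v w hvw => ⟨j₀, by simpa using hsep v w hvw⟩)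
  have hc1 : Compat c c1 := by
    apply Compat.of_sub
    intro v j
    show c.a v j ≤ (if j = j₀ then x v - ε else c.a v j) ∧
      (if j = j₀ then x v - ε else c.a v j) + (if j = j₀ then 2 * ε else c.r v j) ≤ _
    by_cases h : j = j₀
    · subst h
      simp only [if_true]
      have := h1 v
      constructor <;> linarith
    · simp [h]
  let s := stdConf (J := J) j₁ k
  -- second: straighten all other coordinates
  let c2 : BoxConf F J := BoxConf.mk' (fun v j => if j = j₀ then x v - ε else s.a v j)
    (fun v j => if j = j₀ then 2 * ε else s.r v j)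
    (fun v j => by
      by_cases h : j = j₀
      · subst h
        simp only [if_true]
        have := h1 v
        have e1 := c.a_nonneg v j
        have e2 := c.add_le v j
        refine ⟨by linarith, by linarith, by linarith⟩
      · simp only [h, if_false]
        exact ⟨s.a_nonneg v j, s.r_pos v j, s.add_le v j⟩)
    (fun v w hvw => ⟨j₀, by simpa using hsep v w hvw⟩)
  have hc12 : Compat c1 c2 := by
    apply Compat.of_coord j₀
    intro v w hvw
    show ((if j₀ = j₀ then x v - ε else c.a v j₀) + (if j₀ = j₀ then 2 * ε else c.r v j₀) ≤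
        (if j₀ = j₀ then x w - ε else c.a w j₀) ∧
      (if j₀ = j₀ then x v - ε else s.a v j₀) + (if j₀ = j₀ then 2 * ε else s.r v j₀) ≤
        (if j₀ = j₀ then x w - ε else s.a w j₀)) ∨
      ((if j₀ = j₀ then x w - ε else c.a w j₀) + (if j₀ = j₀ then 2 * ε else c.r w j₀) ≤
        (if j₀ = j₀ then x v - ε else c.a v j₀) ∧
      (if j₀ = j₀ then x w - ε else s.a w j₀) + (if j₀ = j₀ then 2 * ε else s.r w j₀) ≤
        (if j₀ = j₀ then x v - ε else s.a v j₀))
    simp only [if_true]
    rcases hsep v w hvw with h | h
    · left; exact ⟨h, h⟩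
    · right; exact ⟨h, h⟩
  -- third: fill the coordinate `j₀`
  have hc2 : Compat s c2 := by
    apply Compat.of_sub
    intro v j
    show s.a v j ≤ (if j = j₀ then x v - ε else s.a v j) ∧
      (if j = j₀ then x v - ε else s.a v j) + (if j = j₀ then 2 * ε else s.r v j) ≤ _
    by_cases h : j = j₀
    · subst h
      simp only [if_true]
      have := h1 v
      have e1 := c.a_nonneg v j
      have e2 := c.add_le v j
      have ea : s.a v j = 0 := by
        show (if j = j₁ then _ else (0:ℝ)) = 0
        rw [if_neg hj]
      have er : s.r v j = 1 := by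
        show (if j = j₁ then _ else (1:ℝ)) = 1
        rw [if_neg hj]
      rw [ea, er]
      constructor <;> linarith
    · simp [h]
  exact (hc1.joined.trans hc12.joined).trans hc2.joined.symm

/-- **`BoxConf F J` is path connected when `J` has two elements.** -/
theorem joined [Finite F] [Nontrivial J] (c d : BoxConf F J) : Joined c d := by
  have := Fintype.ofFinite F
  obtain ⟨j₀, j₁, hj⟩ := exists_pair_ne J
  let k : F ≃ Fin (Fintype.card F) := Fintype.equivFin F
  exact (joined_std hj k c).trans (joined_std hj k d).symm

/-! ## Homotopies between operations -/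

section Ops

variable [Finite F] [Finite J]

/-- `mu c` as a bundled continuous map -/
def muC (c : BoxConf F J) : C(F → Ω^ J Z z₀, Ω^ J Z z₀) :=
  ⟨mu c, continuous_mu continuous_const continuous_id⟩

@[simp] theorem muC_apply (c : BoxConf F J) (x : F → Ω^ J Z z₀) : muC c x = mu c x := rfl

/-- a path of configurations gives a homotopy, relatively to the constant family -/
def homotopyOfPath {c d : BoxConf F J} (γ : Path c d) :
    (muC c : C(F → Ω^ J Z z₀, Ω^ J Z z₀)).HomotopyRel (muC d) {fun _ => GenLoop.const} where
  toFun p := mu (γ p.1) p.2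
  continuous_toFun := continuous_mu (γ.continuous.comp continuous_fst) continuous_snd
  map_zero_left x := by simp
  map_one_left x := by simp
  prop' := by
    intro t x hx
    rw [Set.mem_singleton_iff] at hx
    subst hx
    show mu (γ t) _ = mu c _
    rw [mu_const, mu_const]

theorem muC_homotopicRel {c d : BoxConf F J} (h : Joined c d) :
    (muC c : C(F → Ω^ J Z z₀, Ω^ J Z z₀)).HomotopicRel (muC d) {fun _ => GenLoop.const} :=
  h.elim fun γ => ⟨homotopyOfPath γ⟩



end Ops

/-! ## Loop concatenation -/

section Halves

variable [DecidableEq J]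

/-- the two halves of the cube in the direction `i` -/
def halves (i : J) : BoxConf (Fin 2) J :=
  BoxConf.mk' (fun v j => if j = i ∧ v = 1 then 1 / 2 else 0)
    (fun _ j => if j = i then 1 / 2 else 1)
    (fun v j => by
      by_cases h : j = i
      · by_cases hv : v = 1
        · simp only [h, hv, and_self, if_true]; norm_num
        · simp only [h, hv, and_false, if_true, if_false]; norm_num
      · simp only [h, false_and, if_false]; norm_num)
    (fun v w hvw => by
      refine ⟨i, ?_⟩
      fin_cases v <;> fin_cases w <;> simp at hvw ⊢)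

theorem halves_a (i : J) (v : Fin 2) (j : J) :
    (halves i).a v j = if j = i ∧ v = 1 then 1 / 2 else 0 := rfl

theorem halves_r (i : J) (v : Fin 2) (j : J) :
    (halves i).r v j = if j = i then 1 / 2 else 1 := rfl

omit [DecidableEq J] in
/-- in a closed box the operation is given by the label of that box -/
theorem muFun_of_closed (c : BoxConf F J) (x : F → Ω^ J Z z₀) {t : J → ℝ} {v : F}
    (h : ∀ j, c.a v j ≤ t j ∧ t j ≤ c.a v j + c.r v j) :
    muFun c x t = ext0 (x v) (c.resc v t) := by
  refine muFun_eq (fun w hw => ?_) (fun hn => ?_)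
  · by_cases hvw : w = v
    · rw [hvw]
    · exfalso
      obtain ⟨j, hj⟩ := c.sep hvw
      have h1 := h j
      have h2 := hw j
      rcases hj with hj | hj <;> linarith [h1.1, h1.2, h2.1, h2.2]
  · apply ext0_off
    rw [← BoxConf.inside_iff]
    exact hn v

/-- **Mathlib's concatenation is a little cube operation.** -/
theorem mu_halves [Finite J] (i : J) (x y : Ω^ J Z z₀) :
    mu (halves i) ![x, y] = GenLoop.transAt i x y := by
  ext t
  rw [mu_apply]
  unfold GenLoop.transAt
  rw [GenLoop.coe_copy]
  by_cases h : ((t i : I) : ℝ) ≤ 1 / 2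
  · simp only [h, if_true]
    rw [muFun_of_closed (halves i) _ (v := 0)]
    · show ext0 x _ = _
      unfold ext0
      congr 1
      funext j
      by_cases hj : j = i
      · subst hj
        simp only [Function.update_self]
        show clampI _ = clampI _
        congr 1
        simp only [BoxConf.resc, halves_a, halves_r]
        norm_num
        ring
      · rw [Function.update_of_ne hj]
        have : (halves i).resc 0 (fun j => ((t j : I) : ℝ)) j = (t j : ℝ) := by
          simp [BoxConf.resc, halves_a, halves_r, hj]
        rw [this, clampI_coe]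
    · intro j
      by_cases hj : j = i
      · subst hj
        simp only [halves_a, halves_r]
        have := (t j).2.1
        norm_num
        constructor <;> linarith
      · simp only [halves_a, halves_r, hj, false_and, if_false]
        have h1 := (t j).2.1
        have h2 := (t j).2.2
        constructor <;> linarith
  · simp only [h, if_false]
    push Not at h
    rw [muFun_of_closed (halves i) _ (v := 1)]
    · show ext0 y _ = _
      unfold ext0
      congr 1
      funext j
      by_cases hj : j = i
      · subst hj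
        simp only [Function.update_self]
        show clampI _ = clampI _
        congr 1
        simp only [BoxConf.resc, halves_a, halves_r]
        norm_num
        ring
      · rw [Function.update_of_ne hj]
        have : (halves i).resc 1 (fun j => ((t j : I) : ℝ)) j = (t j : ℝ) := by
          simp [BoxConf.resc, halves_a, halves_r, hj]
        rw [this, clampI_coe]
    · intro j
      by_cases hj : j = i
      · subst hj
        simp only [halves_a, halves_r]
        have := (t j).2.2
        norm_num
        constructor <;> linarith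
      · simp only [halves_a, halves_r, hj, false_and, if_false]
        have h1 := (t j).2.1
        have h2 := (t j).2.2
        constructor <;> linarith

end Halves

end Crest.Agent.R204.Hsp696
end
end

-- ▼ part R204/Hsp2_696

/-!
# Row 204, block C (helper696): the H-space `Ω^J Z`

* `mulH i : C(Ω^J × Ω^J, Ω^J)` : concatenation in the direction `i`
* unit, associativity, commutativity, inverse up to homotopy (relative to the base point)
* `loopLast : Ω^(Fin (J+1)) Z ≃ₜ Path const const` in `Ω^(Fin J) Z`
-/

set_option autoImplicit false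
set_option linter.unusedSectionVars false

open scoped Topology unitInterval Topology.Homotopy
open Set

noncomputable section

namespace Crest.Agent.R204.Hsp696

open Cubes735 BoxConf

variable {J Z : Type*} [TopologicalSpace Z] {z₀ : Z}

/-! ## Binary operations from configurations -/

theorem continuous_pair {P X : Type*} [TopologicalSpace P] [TopologicalSpace X] {f g : P → X}
    (hf : Continuous f) (hg : Continuous g) : Continuous fun p => (![f p, g p] : Fin 2 → X) := by
  refine continuous_pi fun v => ?_
  fin_cases v
  · exact hf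
  · exact hg

theorem continuous_triple {P X : Type*} [TopologicalSpace P] [TopologicalSpace X] {f g h : P → X}
    (hf : Continuous f) (hg : Continuous g) (hh : Continuous h) :
    Continuous fun p => (![f p, g p, h p] : Fin 3 → X) := by
  refine continuous_pi fun v => ?_
  fin_cases v
  · exact hf
  · exact hg
  · exact hh

/-- binary operation of a configuration of two boxes -/
def mu2 [Finite J] (c : BoxConf (Fin 2) J) : C((Ω^ J Z z₀) × (Ω^ J Z z₀), Ω^ J Z z₀) :=
  ⟨fun p => mu c ![p.1, p.2], continuous_mu continuous_const
    (continuous_pair continuous_fst continuous_snd)⟩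

@[simp] theorem mu2_apply [Finite J] (c : BoxConf (Fin 2) J) (x y : Ω^ J Z z₀) :
    mu2 c (x, y) = mu c ![x, y] := rfl

/-- A homotopy of continuous maps `f ≃ g` relatively to a set; uncurried data with `P = I × X`. -/
theorem homotopicRel_of {X Y : Type*} [TopologicalSpace X] [TopologicalSpace Y] {f g : C(X, Y)}
    {S : Set X} (H : I → X → Y) (hH : Continuous fun p : I × X => H p.1 p.2)
    (h0 : ∀ x, H 0 x = f x) (h1 : ∀ x, H 1 x = g x) (hS : ∀ t, ∀ x ∈ S, H t x = f x) :
    f.HomotopicRel g S :=
  ⟨{ toFun := fun p => H p.1 p.2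
     continuous_toFun := hH
     map_zero_left := h0
     map_one_left := h1
     prop' := hS }⟩

/-- base point of `Ω^J × Ω^J` -/
def bp2 : (Ω^ J Z z₀) × (Ω^ J Z z₀) := (GenLoop.const, GenLoop.const)

theorem cons_const : (![GenLoop.const, GenLoop.const] : Fin 2 → Ω^ J Z z₀) =
    fun _ => GenLoop.const := by
  funext v; fin_cases v <;> rfl

theorem cons_const3 : (![GenLoop.const, GenLoop.const, GenLoop.const] : Fin 3 → Ω^ J Z z₀) =
    fun _ => GenLoop.const := by
  funext v; fin_cases v <;> rfl

variable [Finite J]

/-- binary operations of joined configurations are homotopic rel base point -/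
theorem mu2_homotopicRel {c d : BoxConf (Fin 2) J} (h : Joined c d) :
    (mu2 c : C((Ω^ J Z z₀) × (Ω^ J Z z₀), Ω^ J Z z₀)).HomotopicRel (mu2 d) {bp2} := by
  obtain ⟨γ⟩ := h
  refine homotopicRel_of (fun t p => mu (γ t) ![p.1, p.2]) ?_ ?_ ?_ ?_
  · exact continuous_mu (γ.continuous.comp continuous_fst)
      (continuous_pair (continuous_fst.comp continuous_snd) (continuous_snd.comp continuous_snd))
  · intro p; simp [mu2]
  · intro p; simp [mu2]
  · rintro t p hp
    rw [Set.mem_singleton_iff] at hp
    subst hp
    show mu (γ t) ![GenLoop.const, GenLoop.const] = mu c ![GenLoop.const, GenLoop.const]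
    rw [cons_const, mu_const, mu_const]

/-- the swapped configuration -/
theorem mu_swap (c : BoxConf (Fin 2) J) (x y : Ω^ J Z z₀) :
    mu (c.relabel (Equiv.swap 0 1)) ![x, y] = mu c ![y, x] := by
  rw [← mu_relabel c (Equiv.swap 0 1) ![y, x]]
  congr 1
  funext v
  fin_cases v <;> simp

/-- **Homotopy commutativity** (at least two coordinates). -/
theorem mu2_comm [Nontrivial J] (c : BoxConf (Fin 2) J) :
    (mu2 c : C((Ω^ J Z z₀) × (Ω^ J Z z₀), Ω^ J Z z₀)).HomotopicRel
      ((mu2 c).comp ⟨Prod.swap, continuous_swap⟩) {bp2} := by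
  have h := mu2_homotopicRel (Z := Z) (z₀ := z₀) (joined c (c.relabel (Equiv.swap 0 1)))
  have e : (mu2 (c.relabel (Equiv.swap 0 1)) : C((Ω^ J Z z₀) × (Ω^ J Z z₀), Ω^ J Z z₀)) =
      (mu2 c).comp ⟨Prod.swap, continuous_swap⟩ := by
    ext1 p
    exact mu_swap c p.1 p.2
  rwa [e] at h

/-! ### Unit -/

theorem joined_one (c : BoxConf (Fin 1) J) : Joined c (BoxConf.one (Fin 1) J) :=
  Compat.joined fun v w h => absurd (Subsingleton.elim v w) h

/-- **Left unit up to homotopy**: `mu c (const, x) ≃ x`. -/
theorem mu2_const_left (c : BoxConf (Fin 2) J) :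
    ((mu2 c).comp ⟨fun x : Ω^ J Z z₀ => (GenLoop.const, x), by fun_prop⟩).HomotopicRel
      (ContinuousMap.id _) {GenLoop.const} := by
  let e : Fin 1 ↪ Fin 2 := ⟨fun _ => 1, fun a b _ => Subsingleton.elim a b⟩
  have key : ∀ x : Ω^ J Z z₀, mu c ![GenLoop.const, x] = mu (c.restrict e) (fun _ => x) := by
    intro x
    rw [← mu_restrict c e ![GenLoop.const, x]]
    · rfl
    · intro v hv
      fin_cases v
      · rfl
      · exact absurd ⟨0, rfl⟩ hv
  obtain ⟨γ⟩ := joined_one (c.restrict e)
  refine homotopicRel_of (fun t x => mu (γ t) (fun _ => x)) ?_ ?_ ?_ ?_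
  · exact continuous_mu (γ.continuous.comp continuous_fst)
      (continuous_pi fun _ => continuous_snd)
  · intro x
    show mu (γ 0) _ = mu c ![GenLoop.const, x]
    rw [key, γ.source]
  · intro x
    show mu (γ 1) _ = x
    rw [γ.target, mu_one]
  · rintro t x hx
    rw [Set.mem_singleton_iff] at hx
    subst hx
    show mu (γ t) (fun _ => GenLoop.const) = mu c ![GenLoop.const, GenLoop.const]
    rw [cons_const, mu_const, mu_const]

/-- **Right unit up to homotopy**: `mu c (x, const) ≃ x`. -/
theorem mu2_const_right (c : BoxConf (Fin 2) J) :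
    ((mu2 c).comp ⟨fun x : Ω^ J Z z₀ => (x, GenLoop.const), by fun_prop⟩).HomotopicRel
      (ContinuousMap.id _) {GenLoop.const} := by
  have h := mu2_const_left (Z := Z) (z₀ := z₀) (c.relabel (Equiv.swap 0 1))
  have e : ((mu2 (c.relabel (Equiv.swap 0 1))).comp
      ⟨fun x : Ω^ J Z z₀ => (GenLoop.const, x), by fun_prop⟩ : C(Ω^ J Z z₀, Ω^ J Z z₀)) =
      ((mu2 c).comp ⟨fun x : Ω^ J Z z₀ => (x, GenLoop.const), by fun_prop⟩) := by
    ext1 x
    exact mu_swap c GenLoop.const x
  rwa [e] at h

/-! ### Associativity -/

section Assoc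

/-- The configuration of three boxes computing `c (d (x, y), z)`. -/
def assocL (c d : BoxConf (Fin 2) J) : BoxConf (Fin 3) J :=
  BoxConf.mk'
    (fun v j => if v = 0 then c.a 0 j + c.r 0 j * d.a 0 j
      else if v = 1 then c.a 0 j + c.r 0 j * d.a 1 j else c.a 1 j)
    (fun v j => if v = 0 then c.r 0 j * d.r 0 j
      else if v = 1 then c.r 0 j * d.r 1 j else c.r 1 j)
    (fun v j => by
      have h1 := c.a_nonneg 0 j
      have h2 := c.r_pos 0 j
      have h3 := c.add_le 0 j
      have h1' := c.a_nonneg 1 j
      have h2' := c.r_pos 1 j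
      have h3' := c.add_le 1 j
      have k1 := d.a_nonneg 0 j
      have k2 := d.r_pos 0 j
      have k3 := d.add_le 0 j
      have l1 := d.a_nonneg 1 j
      have l2 := d.r_pos 1 j
      have l3 := d.add_le 1 j
      fin_cases v
      · simp only [Fin.zero_eta, if_true]
        refine ⟨by positivity, by positivity, ?_⟩
        nlinarith
      · simp only [Fin.mk_one, Fin.isValue, one_ne_zero, if_false, if_true]
        refine ⟨by positivity, by positivity, ?_⟩
        nlinarith
      · simp only [Fin.reduceFinMk, Fin.isValue, Fin.reduceEq, if_false]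
        exact ⟨h1', h2', h3'⟩)
    (by
      have hc := c.sep (v := 0) (w := 1) (by decide)
      have hd := d.sep (v := 0) (w := 1) (by decide)
      have h01 : ∃ j, (c.a 0 j + c.r 0 j * d.a 0 j) + c.r 0 j * d.r 0 j ≤
            c.a 0 j + c.r 0 j * d.a 1 j ∨
          (c.a 0 j + c.r 0 j * d.a 1 j) + c.r 0 j * d.r 1 j ≤ c.a 0 j + c.r 0 j * d.a 0 j := by
        obtain ⟨j, hj⟩ := hd
        have h2 := c.r_pos 0 j
        refine ⟨j, ?_⟩
        rcases hj with hj | hj
        · left; nlinarith
        · right; nlinarith
      have h02 : ∃ j, (c.a 0 j + c.r 0 j * d.a 0 j) + c.r 0 j * d.r 0 j ≤ c.a 1 j ∨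
          c.a 1 j + c.r 1 j ≤ c.a 0 j + c.r 0 j * d.a 0 j := by
        obtain ⟨j, hj⟩ := hc
        have h2 := c.r_pos 0 j
        have k1 := d.a_nonneg 0 j
        have k3 := d.add_le 0 j
        refine ⟨j, ?_⟩
        rcases hj with hj | hj
        · left; nlinarith
        · right; nlinarith [mul_nonneg h2.le k1]
      have h12 : ∃ j, (c.a 0 j + c.r 0 j * d.a 1 j) + c.r 0 j * d.r 1 j ≤ c.a 1 j ∨
          c.a 1 j + c.r 1 j ≤ c.a 0 j + c.r 0 j * d.a 1 j := by
        obtain ⟨j, hj⟩ := hc
        have h2 := c.r_pos 0 j
        have k1 := d.a_nonneg 1 j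
        have k3 := d.add_le 1 j
        refine ⟨j, ?_⟩
        rcases hj with hj | hj
        · left; nlinarith
        · right; nlinarith [mul_nonneg h2.le k1]
      intro v w hvw
      fin_cases v <;> fin_cases w
      · exact absurd rfl hvw
      · simpa using h01
      · simpa using h02
      · obtain ⟨j, hj⟩ := h01; exact ⟨j, by simpa using hj.symm⟩
      · exact absurd rfl hvw
      · simpa using h12
      · obtain ⟨j, hj⟩ := h02; exact ⟨j, by simpa using hj.symm⟩
      · obtain ⟨j, hj⟩ := h12; exact ⟨j, by simpa using hj.symm⟩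
      · exact absurd rfl hvw)

theorem resc_assocL0 (c d : BoxConf (Fin 2) J) (t : J → ℝ) :
    (assocL c d).resc 0 t = d.resc 0 (c.resc 0 t) := by
  funext j
  have h2 := (c.r_pos 0 j).ne'
  have k2 := (d.r_pos 0 j).ne'
  show (t j - (c.a 0 j + c.r 0 j * d.a 0 j)) / (c.r 0 j * d.r 0 j) =
    ((t j - c.a 0 j) / c.r 0 j - d.a 0 j) / d.r 0 j
  field_simp
  ring

theorem resc_assocL1 (c d : BoxConf (Fin 2) J) (t : J → ℝ) :
    (assocL c d).resc 1 t = d.resc 1 (c.resc 0 t) := by
  funext j
  have h2 := (c.r_pos 0 j).ne'
  have k2 := (d.r_pos 1 j).ne'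
  show (t j - (c.a 0 j + c.r 0 j * d.a 1 j)) / (c.r 0 j * d.r 1 j) =
    ((t j - c.a 0 j) / c.r 0 j - d.a 1 j) / d.r 1 j
  field_simp
  ring


theorem inside_of_resc (c : BoxConf (Fin 2) J) {v : Fin 2} {t : J → ℝ} (d : BoxConf (Fin 2) J)
    {w : Fin 2} (h : d.inside w (c.resc v t)) : c.inside v t := by
  rw [BoxConf.inside_iff]
  intro j
  have h1 := h j
  have h4 := d.a_nonneg w j
  have h6 := d.add_le w j
  constructor <;> linarith [h1.1, h1.2]

/-- `(x y) z` as a ternary operation -/
theorem mu_assocL (c d : BoxConf (Fin 2) J) (x y z : Ω^ J Z z₀) :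
    mu (assocL c d) ![x, y, z] = mu c ![mu d ![x, y], z] := by
  ext t
  rw [mu_apply, mu_apply]
  refine muFun_eq (fun v hv => ?_) (fun h => ?_)
  · fin_cases v
    · have h0 : d.inside 0 (c.resc 0 fun j => ((t j : I) : ℝ)) := by
        rw [BoxConf.inside_iff] at hv ⊢
        intro j; have := hv j; simp only [Fin.zero_eta] at this; rwa [resc_assocL0] at this
      rw [muFun_of_inside c _ (inside_of_resc c d h0)]
      show ext0 (mu d ![x, y]) _ = ext0 x _
      rw [ext0_mu, muFun_of_inside d _ h0]
      simp only [Fin.zero_eta]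
      rw [resc_assocL0]; rfl
    · have h0 : d.inside 1 (c.resc 0 fun j => ((t j : I) : ℝ)) := by
        rw [BoxConf.inside_iff] at hv ⊢
        intro j; have := hv j; simp only [Fin.mk_one] at this; rwa [resc_assocL1] at this
      rw [muFun_of_inside c _ (inside_of_resc c d h0)]
      show ext0 (mu d ![x, y]) _ = ext0 y _
      rw [ext0_mu, muFun_of_inside d _ h0]
      simp only [Fin.mk_one]
      rw [resc_assocL1]; rfl
    · have h0 : c.inside 1 (fun j => ((t j : I) : ℝ)) := hv
      rw [muFun_of_inside c _ h0]
      rfl
  · refine muFun_eq (fun v hv => ?_) (fun _ => rfl)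
    fin_cases v
    · show z₀ = ext0 (mu d ![x, y]) _
      rw [ext0_mu, muFun_of_not]
      intro w hw
      fin_cases w
      · apply h 0
        rw [BoxConf.inside_iff] at hw ⊢
        intro j; rw [resc_assocL0]; exact hw j
      · apply h 1
        rw [BoxConf.inside_iff] at hw ⊢
        intro j; rw [resc_assocL1]; exact hw j
    · exact absurd hv (h 2)

/-- relabelling `0 ↦ 2`, `1 ↦ 1`, `2 ↦ 0` reversed -/
def rev3 : Fin 3 ≃ Fin 3 := Fin.revPerm

/-- The configuration of three boxes computing `c (x, d (y, z))`. -/
def assocR (c d : BoxConf (Fin 2) J) : BoxConf (Fin 3) J :=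
  (assocL (c.relabel (Equiv.swap 0 1)) (d.relabel (Equiv.swap 0 1))).relabel rev3

theorem mu_assocR (c d : BoxConf (Fin 2) J) (x y z : Ω^ J Z z₀) :
    mu (assocR c d) ![x, y, z] = mu c ![x, mu d ![y, z]] := by
  have e : (![x, y, z] : Fin 3 → Ω^ J Z z₀) = fun v => ![z, y, x] (rev3 v) := by
    funext v; fin_cases v <;> rfl
  unfold assocR
  rw [e, mu_relabel, mu_assocL, mu_swap, mu_swap]

/-- **Homotopy associativity** when the two bracketings are joined. -/
theorem mu2_assoc' (c : BoxConf (Fin 2) J) (h : Joined (assocL c c) (assocR c c)) :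
    (⟨fun p => mu c ![mu c ![p.1.1, p.1.2], p.2], by
        refine continuous_mu continuous_const (continuous_pair (continuous_mu continuous_const
          (continuous_pair (by fun_prop) (by fun_prop))) (by fun_prop))⟩ :
      C(((Ω^ J Z z₀) × (Ω^ J Z z₀)) × (Ω^ J Z z₀), Ω^ J Z z₀)).HomotopicRel
    ⟨fun p => mu c ![p.1.1, mu c ![p.1.2, p.2]], by
        refine continuous_mu continuous_const (continuous_pair (by fun_prop)
          (continuous_mu continuous_const (continuous_pair (by fun_prop) (by fun_prop))))⟩
    {((GenLoop.const, GenLoop.const), GenLoop.const)} := by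
  obtain ⟨γ⟩ := h
  refine homotopicRel_of (fun t p => mu (γ t) ![p.1.1, p.1.2, p.2]) ?_ ?_ ?_ ?_
  · exact continuous_mu (γ.continuous.comp continuous_fst)
      (continuous_triple (by fun_prop) (by fun_prop) (by fun_prop))
  · intro p
    show mu (γ 0) _ = mu c ![mu c ![p.1.1, p.1.2], p.2]
    rw [γ.source, mu_assocL]
  · intro p
    show mu (γ 1) _ = mu c ![p.1.1, mu c ![p.1.2, p.2]]
    rw [γ.target, mu_assocR]
  · rintro t p hp
    rw [Set.mem_singleton_iff] at hp
    subst hp
    show mu (γ t) ![GenLoop.const, GenLoop.const, GenLoop.const] =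
      mu c ![mu c ![GenLoop.const, GenLoop.const], GenLoop.const]
    rw [cons_const3, mu_const, cons_const, mu_const, cons_const, mu_const]

/-- `(x y) z` -/
def mulL (c : BoxConf (Fin 2) J) :
    C(((Ω^ J Z z₀) × (Ω^ J Z z₀)) × (Ω^ J Z z₀), Ω^ J Z z₀) :=
  ⟨fun p => mu c ![mu c ![p.1.1, p.1.2], p.2], by
    refine continuous_mu continuous_const (continuous_pair (continuous_mu continuous_const
      (continuous_pair (by fun_prop) (by fun_prop))) (by fun_prop))⟩




end Assoc

/-! ### Inverse -/

section Inverse

variable [DecidableEq J]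

/-- reversal as a continuous map -/
theorem continuous_symmAt (i : J) : Continuous (GenLoop.symmAt (X := Z) (x := z₀) i) := by
  rw [continuous_genLoop_iff]
  have : (fun p : (Ω^ J Z z₀) × (J → I) => GenLoop.symmAt i p.1 p.2) =
      fun p => p.1 (fun j => if j = i then unitInterval.symm (p.2 i) else p.2 j) := by
    funext p
    unfold GenLoop.symmAt
    rw [GenLoop.coe_copy]
  rw [this]
  refine Continuous.eval continuous_fst (continuous_pi fun j => ?_)
  by_cases hj : j = i
  · simp only [hj, if_true]
    exact unitInterval.continuous_symm.comp ((continuous_apply i).comp continuous_snd)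
  · simp only [hj, if_false]
    exact (continuous_apply j).comp continuous_snd

/-- the tent function -/
def tent (s : ℝ) : ℝ := 1 - |2 * s - 1|

theorem continuous_tent : Continuous tent := by unfold tent; fun_prop

/-- the contraction of `x · x⁻¹` -/
def contr (i : J) (τ : I) (x : Ω^ J Z z₀) : Ω^ J Z z₀ :=
  ⟨⟨fun t => x (Function.update t i (clampI ((1 - (τ : ℝ)) * tent (t i)))), by
      refine Continuous.eval continuous_const ?_
      refine Continuous.update continuous_id i ?_
      refine continuous_clampI.comp ?_
      refine continuous_const.mul (continuous_tent.comp ?_)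
      exact continuous_subtype_val.comp (continuous_apply i)⟩, by
    rintro t ⟨j, hj⟩
    show x _ = z₀
    apply GenLoop.boundary
    by_cases h : j = i
    · subst h
      refine ⟨j, Or.inl ?_⟩
      rw [Function.update_self]
      apply clampI_of_le
      have : tent (t j) = 0 := by
        rcases hj with hj | hj <;> rw [hj] <;> norm_num [tent]
      rw [this, mul_zero]
    · exact ⟨j, by rw [Function.update_of_ne h]; exact hj⟩⟩

theorem contr_apply (i : J) (τ : I) (x : Ω^ J Z z₀) (t : J → I) :
    contr i τ x t = x (Function.update t i (clampI ((1 - (τ : ℝ)) * tent (t i)))) := rfl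

theorem continuous_contr (i : J) :
    Continuous fun p : I × (Ω^ J Z z₀) => contr i p.1 p.2 := by
  rw [continuous_genLoop_iff]
  simp only [contr_apply]
  refine Continuous.eval (by fun_prop) ?_
  refine Continuous.update (by fun_prop) i ?_
  refine continuous_clampI.comp ?_
  refine Continuous.mul ?_ (continuous_tent.comp ?_)
  · exact continuous_const.sub (continuous_subtype_val.comp (continuous_fst.comp continuous_fst))
  · exact continuous_subtype_val.comp ((continuous_apply i).comp continuous_snd)

theorem contr_zero (i : J) (x : Ω^ J Z z₀) :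
    contr i 0 x = mu (halves i) ![x, GenLoop.symmAt i x] := by
  rw [mu_halves]
  ext t
  unfold GenLoop.transAt GenLoop.symmAt
  rw [GenLoop.coe_copy, contr_apply]
  by_cases h : ((t i : I) : ℝ) ≤ 1 / 2
  · simp only [h, if_true]
    congr 1
    congr 1
    show clampI _ = clampI _
    congr 1
    unfold tent
    rw [abs_of_nonpos (by linarith)]
    simp
  · simp only [h, if_false]
    push Not at h
    rw [GenLoop.coe_copy]
    congr 1
    funext j
    by_cases hj : j = i
    · subst hj
      simp only [Function.update_self, if_true]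
      apply Subtype.ext
      have h1 := (t j).2.2
      have e1 : (0:ℝ) ≤ (1 - ((0 : I) : ℝ)) * tent (t j) := by
        unfold tent
        rw [abs_of_nonneg (by linarith)]
        simp
        linarith
      have e2 : (1 - ((0 : I) : ℝ)) * tent (t j) ≤ 1 := by
        unfold tent
        rw [abs_of_nonneg (by linarith)]
        simp
        linarith
      rw [coe_clampI e1 e2, unitInterval.coe_symm_eq]
      have : ((Set.projIcc 0 1 zero_le_one (2 * (t j : ℝ) - 1) : I) : ℝ) = 2 * (t j : ℝ) - 1 :=
        coe_clampI (by linarith) (by linarith)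
      rw [this]
      unfold tent
      rw [abs_of_nonneg (by linarith)]
      simp
    · simp only [Function.update_of_ne hj, hj, if_false]

theorem contr_one (i : J) (x : Ω^ J Z z₀) : contr i 1 x = GenLoop.const := by
  ext t
  rw [contr_apply]
  show _ = z₀
  apply GenLoop.boundary
  refine ⟨i, Or.inl ?_⟩
  rw [Function.update_self]
  apply clampI_of_le
  simp

/-- **Right inverse up to homotopy.** -/
theorem mul_inv_homotopic (i : J) :
    ((mu2 (halves i)).comp ⟨fun x : Ω^ J Z z₀ => (x, GenLoop.symmAt i x),
        continuous_id.prodMk (continuous_symmAt i)⟩).HomotopicRel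
      (ContinuousMap.const _ GenLoop.const) {GenLoop.const} := by
  refine homotopicRel_of (fun t x => contr i t x) (continuous_contr i) ?_ ?_ ?_
  · intro x; exact contr_zero i x
  · intro x; exact contr_one i x
  · rintro t x hx
    rw [Set.mem_singleton_iff] at hx
    subst hx
    show contr i t GenLoop.const = mu (halves i) ![GenLoop.const, GenLoop.symmAt i GenLoop.const]
    rw [← contr_zero]
    rfl


@[simp] theorem symmAt_const (i : J) :
    GenLoop.symmAt i (GenLoop.const : Ω^ J Z z₀) = GenLoop.const := by
  ext t
  unfold GenLoop.symmAt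
  rw [GenLoop.coe_copy]
  rfl


end Inverse

end Crest.Agent.R204.Hsp696
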