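import Mathlib
import Crest.Agent.R204.Cube_477
import Crest.Agent.R204.HDegQ_160
import Crest.Agent.R204.HopfMap_484
import Crest.Agent.R204.Hsp2_696
import Crest.Agent.R204.CrossInst_477
import Crest.Agent.R204.HopfLow_478

-- ▼ part R204/HDegF_160
section

/-!
# Row 204, block H, leaf DEG (helper160), part F

F2 side: `g ↦ [g_* z_n] ∈ H F2 (Sing Y)` is homotopy invariant and additive on `Ω^(Fin n) Y y`, over
an abstract cross product `𝒞 : Cross` (helper477).  Final statement: `exists_degree`.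
-/

set_option autoImplicit false

open scoped unitInterval Topology Topology.Homotopy

namespace Crest.Agent.R204.HDeg160

open Crest.Agent.R204.HopfF2477 Crest.Agent.R204.SS
open Crest.Agent.R204.Freud661 Crest.Agent.R204.CubeSph661
open Crest.Agent.R204.K357 Crest.Agent.R204.HInv313 Crest.Agent.R204.H472

variable (𝒞 : Cross) {Y : Type} [TopologicalSpace Y] {y : Y}

/-- the boundary of the cube does not contribute -/
theorem bd_push_zc {A W : Type} [TopologicalSpace A] [TopologicalSpace W] {n : ℕ}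
    (F : C((Fin n → I) × A, W)) (w : W) (hF : ∀ x ∈ Cube.boundary (Fin n), ∀ a, F (x, a) = w)
    (c : N F2 (Sing A)) :
    N.bd F2 _ (pf F (𝒞.cr (𝒞.zc n) c)) = pf F (𝒞.cr (𝒞.zc n) (N.bd F2 _ c)) := by
  rw [← pf_bd, 𝒞.bd, map_add,
    𝒞.bd_zc_push n A W c F (ContinuousMap.const A w) (fun x hx a => hF x hx a), zero_add]

/-- the class of the pushed fundamental chain -/
noncomputable def zcls {n : ℕ} (g : Ω^ (Fin n) Y y) : H F2 (Sing Y) :=
  Hd.mk (N.bd F2 (Sing Y)) (pf g.1 (𝒞.zc n)) (𝒞.bd_pf_zc n g.1 y g.2)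


theorem hom2_homotopic {n : ℕ} {f g : Ω^ (Fin n) Y y} (h : GenLoop.Homotopic f g) :
    Hom2 (pf f.1 (𝒞.zc n)) (pf g.1 (𝒞.zc n)) := by
  obtain ⟨H⟩ := h
  let F : C((Fin n → I) × I, Y) := ⟨fun p => H (p.2, p.1), by fun_prop⟩
  have hF : ∀ x ∈ Cube.boundary (Fin n), ∀ a, F (x, a) = y := fun x hx a =>
    (H.prop' a x hx).trans (GenLoop.boundary f x hx)
  refine ⟨pf F (𝒞.cr (𝒞.zc n) iota), ?_⟩
  rw [bd_push_zc 𝒞 F y hF, bd_iota, map_add, map_add, A1_pt, A1_pt,
    𝒞.pf_vertex (𝒞.zc n) 1 F g.1 (fun a => H.apply_one a),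
    𝒞.pf_vertex (𝒞.zc n) 0 F f.1 (fun a => H.apply_zero a), add_comm]

theorem transAt_lo {n : ℕ} (f g : Ω^ (Fin (n + 1)) Y y) (x : Fin n → I) (s : I) :
    GenLoop.transAt (Fin.last n) f g (Fin.snoc (α := fun _ => I) x (lo s)) =
      f (Fin.snoc (α := fun _ => I) x s) := by
  simp only [GenLoop.transAt, GenLoop.coe_copy]
  rw [Fin.snoc_last, if_pos (by show (s : ℝ) / 2 ≤ 1 / 2; have := s.2.2; linarith)]
  congr 1
  rw [Fin.update_snoc_last]
  congr 1
  rw [show (2 * ((lo s : I) : ℝ)) = (s : ℝ) by show 2 * ((s : ℝ) / 2) = s; ring]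
  exact Set.projIcc_val _ _

theorem transAt_hi {n : ℕ} (f g : Ω^ (Fin (n + 1)) Y y) (x : Fin n → I) (s : I) :
    GenLoop.transAt (Fin.last n) f g (Fin.snoc (α := fun _ => I) x (hi s)) =
      g (Fin.snoc (α := fun _ => I) x s) := by
  simp only [GenLoop.transAt, GenLoop.coe_copy]
  rw [Fin.snoc_last]
  split_ifs with h
  · have h' : (1 + (s : ℝ)) / 2 ≤ 1 / 2 := h
    have h0 := s.2.1
    have hs : s = 0 := Subtype.ext (by show (s : ℝ) = 0; linarith)
    subst hs
    rw [Fin.update_snoc_last]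
    rw [GenLoop.boundary f _ ⟨Fin.last n, Or.inr ?_⟩, GenLoop.boundary g _ ⟨Fin.last n, Or.inl ?_⟩]
    · rw [Fin.snoc_last]
    · rw [Fin.snoc_last]
      apply Set.projIcc_of_right_le
      show (1 : ℝ) ≤ 2 * ((1 + ((0 : I) : ℝ)) / 2)
      norm_num
  · congr 1
    rw [Fin.update_snoc_last]
    congr 1
    rw [show (2 * ((hi s : I) : ℝ) - 1) = (s : ℝ) by
      show 2 * ((1 + (s : ℝ)) / 2) - 1 = s; ring]
    exact Set.projIcc_val _ _

theorem hom2_transAt {n : ℕ} (f g : Ω^ (Fin (n + 1)) Y y) :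
    Hom2 (pf (GenLoop.transAt (Fin.last n) f g).1 (𝒞.zc (n + 1)))
      (pf f.1 (𝒞.zc (n + 1)) + pf g.1 (𝒞.zc (n + 1))) := by
  set T := GenLoop.transAt (Fin.last n) f g with hT
  let F : C((Fin n → I) × I, Y) := T.1.comp (snocM n)
  have hF : ∀ x ∈ Cube.boundary (Fin n), ∀ a, F (x, a) = y := by
    rintro x ⟨j, hj⟩ a
    refine GenLoop.boundary T _ ⟨j.castSucc, ?_⟩
    rw [snocM_apply, Fin.snoc_castSucc]; exact hj
  have e1 : pf T.1 (𝒞.zc (n + 1)) = pf F (𝒞.cr (𝒞.zc n) iota) := by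
    rw [𝒞.zc_succ, ← pf_comp]
  have e2 : pf f.1 (𝒞.zc (n + 1)) = pf F (𝒞.cr (𝒞.zc n) (pf lo iota)) := by
    rw [𝒞.zc_succ, ← pf_comp, push_nat]
    refine congrArg (fun F => pf F (𝒞.cr (𝒞.zc n) iota)) (ContinuousMap.ext ?_)
    rintro ⟨x, s⟩
    exact (transAt_lo f g x s).symm
  have e3 : pf g.1 (𝒞.zc (n + 1)) = pf F (𝒞.cr (𝒞.zc n) (pf hi iota)) := by
    rw [𝒞.zc_succ, ← pf_comp, push_nat]
    refine congrArg (fun F => pf F (𝒞.cr (𝒞.zc n) iota)) (ContinuousMap.ext ?_)
    rintro ⟨x, s⟩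
    exact (transAt_hi f g x s).symm
  refine ⟨pf F (𝒞.cr (𝒞.zc n) dl), ?_⟩
  rw [bd_push_zc 𝒞 F y hF, bd_dl, map_add, map_add, map_add, map_add, e1, e2, e3]
  abel

theorem zcls_eq_of_hom2 {a b : N F2 (Sing Y)} (ha : N.bd F2 _ a = 0)
    (hb : N.bd F2 _ b = 0) (h : Hom2 a b) :
    Hd.mk (N.bd F2 (Sing Y)) a ha = Hd.mk (N.bd F2 (Sing Y)) b hb := by
  obtain ⟨e, he⟩ := h
  rw [Hd.mk_eq_mk]
  refine ⟨e, ?_⟩
  rw [he]
  have : b = -b := by
    rw [eq_neg_iff_add_eq_zero]; exact add_self' b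
  rw [sub_eq_add_neg, ← this]

theorem zcls_homotopic {n : ℕ} (f g : Ω^ (Fin n) Y y) (h : GenLoop.Homotopic f g) :
    zcls 𝒞 f = zcls 𝒞 g :=
  zcls_eq_of_hom2 _ _ (hom2_homotopic 𝒞 h)

theorem zcls_transAt {n : ℕ} (f g : Ω^ (Fin (n + 1)) Y y) :
    zcls 𝒞 (GenLoop.transAt (Fin.last n) f g) = zcls 𝒞 f + zcls 𝒞 g := by
  have hb : N.bd F2 (Sing Y) (pf f.1 (𝒞.zc (n + 1)) + pf g.1 (𝒞.zc (n + 1))) = 0 := by
    rw [map_add, 𝒞.bd_pf_zc _ f.1 y f.2, 𝒞.bd_pf_zc _ g.1 y g.2, add_zero]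
  have h := zcls_eq_of_hom2 (𝒞.bd_pf_zc _ _ y (GenLoop.transAt (Fin.last n) f g).2) hb
    (hom2_transAt 𝒞 f g)
  exact h

/-- **F2-degree** -/
theorem zcls_degree {n : ℕ} (ι g : Ω^ (Fin (n + 1)) Y y) (D : ℤ) (h : cls g = cls ι ^ D) :
    zcls 𝒞 g = D • zcls 𝒞 ι :=
  additive_degree (Fin.last n) (zcls 𝒞) (zcls_homotopic 𝒞) (zcls_transAt 𝒞) ι g D h

/-- **degree theorem (DEG)**: for a loop `g` in a cube sphere there is an integer `D` with
`cls g = cls p ^ D`, `g^* x = D • p^* x` for every reduced `x ∈ K0 C(S)`, `g_* z = D • p_* z`. -/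
theorem exists_degree {n : ℕ} {S : Type} [TopologicalSpace S] [T2Space S]
    (P : CubeSphere (n + 1) S) (g : Ω^ (Fin (n + 1)) S P.pt) :
    ∃ D : ℤ, cls g = cls (pLoop P) ^ D ∧
      (∀ x : K0 C(S, ℂ), resK P.pt x = 0 → pullK g x = D • pullK (pLoop P) x) ∧
      zcls 𝒞 g = D • zcls 𝒞 (pLoop P) := by
  obtain ⟨D, hD⟩ := cube_gen n P g
  exact ⟨D, hD, fun x hx => k_degree x hx (pLoop P) g D hD, zcls_degree 𝒞 _ _ D hD⟩

end Crest.Agent.R204.HDeg160
end

-- ▼ part R204/HopfGlueA_339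
section

/-!
# Row 204, block H, leaf H12 (helper339), part A

F2 side of the Hopf invariant for cube spheres: `L = Ω^(Fin 1) S`, `mu = concatenation`, the co-H
structure of a cube sphere, the Hopf map `gf` of `f : (I^{q+1}, ∂) → (S, pt)` as a loop in a cube
sphere of dimension `q + 2`, and

`hom2_gf` : `[φ] = [E] [E]` on chains implies `(g_f)_* z = p_* z` on chains.
-/

set_option autoImplicit false

open scoped unitInterval Topology Topology.Homotopy

noncomputable section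

namespace Crest.Agent.R204.HopfGlue339

open Crest.Agent.R204.HopfF2477 Crest.Agent.R204.SS
open Crest.Agent.R204.Freud661 Crest.Agent.R204.CubeSph661 Crest.Agent.R204.HDeg160
open Crest.Agent.R204.H472 Crest.Agent.R204.HopfMap484
open Crest.Agent.R204.Cubes735 Crest.Agent.R204.Hsp696

/-! ## the co-H structure of a cube sphere -/

section coh

variable {n : ℕ} {S : Type} [TopologicalSpace S] [T2Space S] (P : CubeSphere (n + 1) S)

theorem exists_descend (w : C(I × (Fin (n + 1) → I), Fin (n + 1) → I))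
    (hw : ∀ t x, x ∈ Cube.boundary (Fin (n + 1)) → w (t, x) ∈ Cube.boundary (Fin (n + 1))) :
    ∃ W : C(I × S, S), ∀ t x, W (t, P.p x) = P.p (w (t, x)) := by
  have hq : Topology.IsQuotientMap (Prod.map (id : I → I) P.p) := by
    have h2 : IsProperMap P.p := P.p.continuous.isProperMap
    have h3 := isProperMap_id.prodMap (X := I) h2
    exact h3.isClosedMap.isQuotientMap h3.continuous (Function.surjective_id.prodMap P.surj)
  choose s hs using P.surj
  let W : I × S → S := fun z => P.p (w (z.1, s z.2))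
  have key : ∀ t x, W (t, P.p x) = P.p (w (t, x)) := by
    intro t x
    show P.p (w (t, s (P.p x))) = _
    rcases P.inj _ _ (hs (P.p x)) with h1 | ⟨h1, h2⟩
    · rw [h1]
    · rw [P.bdry _ (hw t _ h1), P.bdry _ (hw t _ h2)]
  refine ⟨⟨W, ?_⟩, key⟩
  rw [hq.continuous_iff]
  have : W ∘ Prod.map (id : I → I) P.p = fun z => P.p (w z) := by
    funext ⟨t, x⟩; exact key t x
  rw [this]
  exact P.p.continuous.comp w.continuous

omit [T2Space S] in
theorem exists_bdry : ∃ x ∈ Cube.boundary (Fin (n + 1)), P.p x = P.pt :=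
  ⟨fun _ => 0, ⟨0, Or.inl rfl⟩, P.bdry _ ⟨0, Or.inl rfl⟩⟩

/-- the co-H structure of a cube sphere -/
def coH : CoH S P.pt where
  W := (exists_descend P (CoP.cube (Fin.last n)).w (CoP.cube (Fin.last n)).w_mem).choose
  W' := (exists_descend P (CoP.cube (Fin.last n)).w' (CoP.cube (Fin.last n)).w'_mem).choose
  W_zero p := by
    obtain ⟨x, rfl⟩ := P.surj p
    rw [(exists_descend P (CoP.cube (Fin.last n)).w (CoP.cube (Fin.last n)).w_mem).choose_spec,
      (CoP.cube (Fin.last n)).w_zero]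
  W'_zero p := by
    obtain ⟨x, rfl⟩ := P.surj p
    rw [(exists_descend P (CoP.cube (Fin.last n)).w' (CoP.cube (Fin.last n)).w'_mem).choose_spec,
      (CoP.cube (Fin.last n)).w'_zero]
  W_base t := by
    obtain ⟨x, hx, h⟩ := exists_bdry P
    rw [← h, (exists_descend P (CoP.cube (Fin.last n)).w
      (CoP.cube (Fin.last n)).w_mem).choose_spec, h]
    exact P.bdry _ ((CoP.cube (Fin.last n)).w_mem t x hx)
  W'_base t := by
    obtain ⟨x, hx, h⟩ := exists_bdry P
    rw [← h, (exists_descend P (CoP.cube (Fin.last n)).w'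
      (CoP.cube (Fin.last n)).w'_mem).choose_spec, h]
    exact P.bdry _ ((CoP.cube (Fin.last n)).w'_mem t x hx)
  one p := by
    obtain ⟨x, rfl⟩ := P.surj p
    rw [(exists_descend P (CoP.cube (Fin.last n)).w (CoP.cube (Fin.last n)).w_mem).choose_spec,
      (exists_descend P (CoP.cube (Fin.last n)).w' (CoP.cube (Fin.last n)).w'_mem).choose_spec]
    exact ((CoP.cube (Fin.last n)).one x).imp (P.bdry _) (P.bdry _)

end coh

/-! ## loops -/

section loops

variable {S : Type} [TopologicalSpace S] {y : S}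

/-- evaluation of loops -/
def evL (S : Type) [TopologicalSpace S] (y : S) : C((Ω^ (Fin 1) S y) × I, S) :=
  ⟨fun p => p.1 (fun _ => p.2), by fun_prop⟩

theorem evL_apply (l : Ω^ (Fin 1) S y) (s : I) : evL S y (l, s) = l (fun _ => s) := rfl

theorem evL_zero (l : Ω^ (Fin 1) S y) : evL S y (l, 0) = y :=
  GenLoop.boundary l _ ⟨0, Or.inl rfl⟩

theorem evL_one (l : Ω^ (Fin 1) S y) : evL S y (l, 1) = y :=
  GenLoop.boundary l _ ⟨0, Or.inr rfl⟩

/-- concatenation of loops -/
def muL (S : Type) [TopologicalSpace S] (y : S) :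
    C((Ω^ (Fin 1) S y) × (Ω^ (Fin 1) S y), Ω^ (Fin 1) S y) := mu2 (halves (0 : Fin 1))

theorem muL_apply (l l' : Ω^ (Fin 1) S y) : muL S y (l, l') = GenLoop.transAt 0 l l' := by
  show mu2 _ _ = _
  rw [mu2_apply, mu_halves]

theorem fin1_eq {s : I} : (fun _ : Fin 1 => s) =
    (Fin.snoc (α := fun _ => I) (fun i : Fin 0 => i.elim0) s : Fin 1 → I) := by
  funext i
  obtain rfl : i = Fin.last 0 := Subsingleton.elim _ _
  exact (Fin.snoc_last (α := fun _ => I) _ _).symm

theorem evL_lo (l l' : Ω^ (Fin 1) S y) (s : I) : evL S y (muL S y (l, l'), lo s) = evL S y (l, s) := by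
  rw [evL_apply, evL_apply, muL_apply, fin1_eq, fin1_eq]
  exact transAt_lo (n := 0) l l' _ s

theorem evL_hi (l l' : Ω^ (Fin 1) S y) (s : I) :
    evL S y (muL S y (l, l'), hi s) = evL S y (l', s) := by
  rw [evL_apply, evL_apply, muL_apply, fin1_eq, fin1_eq]
  exact transAt_hi (n := 0) l l' _ s

end loops

/-! ## the setting -/

section setting

variable {n : ℕ} {S W : Type} [TopologicalSpace S] [T2Space S] [TopologicalSpace W]
  (P : CubeSphere (n + 1) S) (R : CubeSphere ((n + 1) + (n + 1)) W)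

theorem smash_left (y : S) : smash P P R (P.pt, y) = R.pt :=
  (smash_eq_pt_iff P P R n.succ_pos n.succ_pos _).2 (Or.inl rfl)

theorem smash_right (y : S) : smash P P R (y, P.pt) = R.pt :=
  (smash_eq_pt_iff P P R n.succ_pos n.succ_pos _).2 (Or.inr rfl)

theorem smash_wedge {z : S × S} (h : z ∈ wedge P.pt P.pt) : smash P P R z = R.pt :=
  (smash_eq_pt_iff P P R n.succ_pos n.succ_pos _).2 h

/-- null homotopy of the reduced diagonal -/
def nhS : C(S × I, W) :=
  ⟨fun p => smash P P R ((coH P).W (p.2, p.1), (coH P).W' (p.2, p.1)), by fun_prop⟩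

theorem nhS_apply (x : S) (t : I) :
    nhS P R (x, t) = smash P P R ((coH P).W (t, x), (coH P).W' (t, x)) := rfl

/-- the setting of helper477 -/
def setS : Setting where
  L := Ω^ (Fin 1) S P.pt
  Y := S
  W := W
  y0 := P.pt
  w0 := R.pt
  ev := evL S P.pt
  ev0 := evL_zero
  ev1 := evL_one
  mu := muL S P.pt
  ev_lo := evL_lo
  ev_hi := evL_hi
  pr := smash P P R
  pr_left := smash_left P R
  pr_right := smash_right P R
  nh := nhS P R
  nh0 x := by rw [nhS_apply, (coH P).W_zero, (coH P).W'_zero]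
  nh1 x := by rw [nhS_apply]; exact smash_wedge P R ((coH P).one x)
  nh_base t := by rw [nhS_apply, (coH P).W_base]; exact smash_left P R _

/-- the universal Hopf map on `L × I × I` -/
def Th : C((Ω^ (Fin 1) S P.pt) × (I × I), W) :=
  ⟨fun p => smash P P R (G (CoP.cyl (∅ : Set (Ω^ (Fin 1) S P.pt))) (coH P) (evL S P.pt)
    ((p.1, p.2.1), p.2.2)), by fun_prop⟩

theorem Th_apply (l : Ω^ (Fin 1) S P.pt) (s t : I) : Th P R (l, (s, t)) =
    smash P P R ((coH P).W (dn t, evL S P.pt (l, HopfMap484.wl (up t) s)),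
      (coH P).W' (dn t, evL S P.pt (l, HopfMap484.wr (up t) s))) := rfl

theorem up_lo (t : I) : up (lo t) = 0 := up_of_le (by
  show (t : ℝ) / 2 ≤ 1 / 2; have := t.2.2; linarith)

theorem dn_lo (t : I) : dn (lo t) = rev t := by
  refine Subtype.ext ?_
  rw [coe_dn]
  show max 0 (1 - 2 * ((t : ℝ) / 2)) = 1 - (t : ℝ)
  rw [max_eq_right (by have := t.2.2; linarith)]
  ring

theorem dn_hi (t : I) : dn (hi t) = 0 := dn_of_ge (by
  show 1 / 2 ≤ (1 + (t : ℝ)) / 2; have := t.2.1; linarith)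

theorem up_hi (t : I) : up (hi t) = t := by
  refine Subtype.ext ?_
  rw [coe_up]
  show max 0 (2 * ((1 + (t : ℝ)) / 2) - 1) = (t : ℝ)
  rw [max_eq_right (by have := t.2.1; linarith)]
  ring

theorem wl_eq (s t : I) : HopfMap484.wl t s = HopfF2477.wl (s, t) := by
  refine Subtype.ext ?_
  rw [wl_coe]
  show ((Set.projIcc (0 : ℝ) 1 zero_le_one ((1 + (t : ℝ)) * s) : I) : ℝ) = _
  rw [Set.coe_projIcc, max_eq_right]
  have h0 := t.2.1
  have h1 := s.2.1
  exact le_min zero_le_one (by positivity)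

theorem wr_eq (s t : I) : HopfMap484.wr t s = HopfF2477.wr (s, t) := by
  refine Subtype.ext ?_
  rw [wr_coe]
  show ((Set.projIcc (0 : ℝ) 1 zero_le_one ((1 + (t : ℝ)) * s - t) : I) : ℝ) = _
  rw [Set.coe_projIcc, min_eq_right]
  have h0 := t.2.2
  have h1 := s.2.2
  have h2 := t.2.1
  have h3 := s.2.1
  nlinarith

theorem Th_s0 (l : Ω^ (Fin 1) S P.pt) (t : I) : Th P R (l, (0, t)) = R.pt := by
  rw [Th_apply, HopfMap484.wl_right_zero, evL_zero, (coH P).W_base]
  exact smash_left P R _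

theorem Th_s1 (l : Ω^ (Fin 1) S P.pt) (t : I) : Th P R (l, (1, t)) = R.pt := by
  rw [Th_apply, HopfMap484.wl_right_one, evL_one, (coH P).W_base]
  exact smash_left P R _

theorem Th_lo (l : Ω^ (Fin 1) S P.pt) (s t : I) :
    Th P R (l, (s, lo t)) = (setS P R).Nc (l, (s, rev t)) := by
  rw [Th_apply, up_lo, dn_lo, HopfMap484.wl_zero, HopfMap484.wr_zero]
  rfl

theorem Th_hi (l : Ω^ (Fin 1) S P.pt) (s t : I) :
    Th P R (l, (s, hi t)) = (setS P R).Phi (l, lam (s, t)) := by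
  rw [Th_apply, up_hi, dn_hi, (coH P).W_zero, (coH P).W'_zero, wl_eq, wr_eq]
  rfl

theorem Th_t0 (l : Ω^ (Fin 1) S P.pt) (s : I) : Th P R (l, (s, 0)) = R.pt := by
  have h : (0 : I) = lo 0 := lo_zero.symm
  have e : Th P R (l, (s, 0)) = Th P R (l, (s, lo 0)) := by rw [← h]
  rw [e, Th_lo, rev_zero]
  exact (setS P R).nh1 _

theorem Th_t1 (l : Ω^ (Fin 1) S P.pt) (s : I) : Th P R (l, (s, 1)) = R.pt := by
  have h : (1 : I) = hi 1 := hi_one.symm
  have e : Th P R (l, (s, 1)) = Th P R (l, (s, hi 1)) := by rw [← h]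
  rw [e, Th_hi]
  show smash P P R (evL S P.pt (l, HopfF2477.wl (s, 1)), evL S P.pt (l, HopfF2477.wr (s, 1))) = R.pt
  rcases w_top s with h | h
  · rw [h, evL_one]; exact smash_left P R _
  · rw [h, evL_zero]; exact smash_right P R _

end setting

end Crest.Agent.R204.HopfGlue339
end
end

-- ▼ part R204/HopfGlueB_339
section

/-!
# Row 204, block H, leaf H12 (helper339), part B

Adjoints `adj`/`unadj` between `Ω^(Fin (q+1)) S` and `Ω^(Fin q) (Ω^(Fin 1) S)`, the Hopf map `gf`,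
and the chain level theorem `hom2_gf`.
-/

set_option autoImplicit false

open scoped unitInterval Topology Topology.Homotopy

noncomputable section

namespace Crest.Agent.R204.HopfGlue339

open Crest.Agent.R204.HopfF2477 Crest.Agent.R204.SS
open Crest.Agent.R204.Freud661 Crest.Agent.R204.CubeSph661 Crest.Agent.R204.HDeg160
open Crest.Agent.R204.H472 Crest.Agent.R204.HopfMap484
open Crest.Agent.R204.Cubes735 Crest.Agent.R204.Hsp696

/-! ## adjoints -/

section adj

variable {S : Type} [TopologicalSpace S] {y : S} {q : ℕ}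

theorem snocM_bdry_left {x : Fin q → I} (hx : x ∈ Cube.boundary (Fin q)) (t : I) :
    snocM q (x, t) ∈ Cube.boundary (Fin (q + 1)) := by
  obtain ⟨j, hj⟩ := hx
  exact ⟨j.castSucc, by rw [snocM_apply, Fin.snoc_castSucc]; exact hj⟩

theorem snocM_bdry_right (x : Fin q → I) {t : I} (ht : t = 0 ∨ t = 1) :
    snocM q (x, t) ∈ Cube.boundary (Fin (q + 1)) :=
  ⟨Fin.last q, by rw [snocM_apply, Fin.snoc_last]; exact ht⟩

/-- uncurried adjoint of a family -/
def adjC {A : Type} [TopologicalSpace A] (F : C(A × I, S)) : C(A × (Fin 1 → I), S) :=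
  F.comp ((ContinuousMap.id A).prodMap ⟨fun t : Fin 1 → I => t 0, by fun_prop⟩)

theorem adjC_bdry {A : Type} [TopologicalSpace A] (F : C(A × I, S)) (h0 : ∀ a, F (a, 0) = y)
    (h1 : ∀ a, F (a, 1) = y) (a : A) : ∀ t ∈ Cube.boundary (Fin 1), (adjC F).curry a t = y := by
  rintro t ⟨j, hj⟩
  have hj0 : j = 0 := Subsingleton.elim _ _
  rw [hj0] at hj
  show F (a, t 0) = y
  rcases hj with hj | hj
  · rw [hj, h0]
  · rw [hj, h1]

/-- adjoint of a family of based paths -/
def adjF {A : Type} [TopologicalSpace A] (F : C(A × I, S)) (h0 : ∀ a, F (a, 0) = y)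
    (h1 : ∀ a, F (a, 1) = y) : C(A, Ω^ (Fin 1) S y) :=
  ⟨fun a => ⟨(adjC F).curry a, adjC_bdry F h0 h1 a⟩,
    Continuous.subtype_mk (adjC F).curry.continuous _⟩


/-- adjoint of a loop -/
def adj (f : Ω^ (Fin (q + 1)) S y) : Ω^ (Fin q) (Ω^ (Fin 1) S y) GenLoop.const :=
  ⟨adjF (f.1.comp (snocM q)) (fun x => f.2 _ (snocM_bdry_right x (Or.inl rfl)))
    (fun x => f.2 _ (snocM_bdry_right x (Or.inr rfl))), by
    intro x hx
    ext t
    exact f.2 _ (snocM_bdry_left hx _)⟩

theorem adj_apply (f : Ω^ (Fin (q + 1)) S y) (x : Fin q → I) (t : Fin 1 → I) :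
    adj f x t = f (snocM q (x, t 0)) := rfl

theorem evL_adj (f : Ω^ (Fin (q + 1)) S y) (x : Fin q → I) (s : I) :
    evL S y (adj f x, s) = f (snocM q (x, s)) := rfl

/-- the inverse of `snocM` -/
def unsnoc (q : ℕ) : C(Fin (q + 1) → I, (Fin q → I) × I) :=
  ⟨fun z => (fun i => z i.castSucc, z (Fin.last q)), by fun_prop⟩


theorem unsnoc_snocM (p : (Fin q → I) × I) : unsnoc q (snocM q p) = p := by
  obtain ⟨x, t⟩ := p
  refine Prod.ext ?_ ?_
  · funext i
    show snocM q (x, t) i.castSucc = x i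
    rw [snocM_apply, Fin.snoc_castSucc]
  · show snocM q (x, t) (Fin.last q) = t
    rw [snocM_apply, Fin.snoc_last]

theorem unsnoc_bdry {z : Fin (q + 1) → I} (hz : z ∈ Cube.boundary (Fin (q + 1))) :
    unsnoc q z ∈ bdI (Fin q) := by
  obtain ⟨i, hi⟩ := hz
  revert hi
  refine Fin.lastCases ?_ (fun j => ?_) i
  · rintro (h | h)
    · exact Or.inr (Or.inl h)
    · exact Or.inr (Or.inr h)
  · intro h
    exact Or.inl ⟨j, h⟩

/-- inverse adjoint -/
def unadj (φ : Ω^ (Fin q) (Ω^ (Fin 1) S y) GenLoop.const) : Ω^ (Fin (q + 1)) S y :=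
  ⟨((evL S y).comp (φ.1.prodMap (ContinuousMap.id I))).comp (unsnoc q), by
    intro z hz
    show evL S y (φ (unsnoc q z).1, (unsnoc q z).2) = y
    rcases unsnoc_bdry hz with h | h | h
    · rw [show φ (unsnoc q z).1 = GenLoop.const from φ.2 _ h]; rfl
    · rw [h, evL_zero]
    · rw [h, evL_one]⟩

theorem unadj_snoc (φ : Ω^ (Fin q) (Ω^ (Fin 1) S y) GenLoop.const) (x : Fin q → I) (s : I) :
    unadj φ (snocM q (x, s)) = φ x (fun _ => s) := by
  show evL S y (φ (unsnoc q (snocM q (x, s))).1, (unsnoc q (snocM q (x, s))).2) = _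
  rw [unsnoc_snocM]; rfl

theorem adj_unadj (φ : Ω^ (Fin q) (Ω^ (Fin 1) S y) GenLoop.const) : adj (unadj φ) = φ := by
  ext x t
  rw [adj_apply, unadj_snoc]
  congr 1
  funext j
  obtain rfl : j = 0 := Subsingleton.elim _ _
  rfl

theorem adj_homotopic {f g : Ω^ (Fin (q + 1)) S y} (h : GenLoop.Homotopic f g) :
    GenLoop.Homotopic (adj f) (adj g) := by
  obtain ⟨H⟩ := h
  let F : C((I × (Fin q → I)) × I, S) := ⟨fun p => H (p.1.1, snocM q (p.1.2, p.2)), by fun_prop⟩
  have hH : ∀ t, ∀ x ∈ Cube.boundary (Fin (q + 1)), H (t, x) = y := fun t x hx =>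
    (H.prop' t x hx).trans (GenLoop.boundary f x hx)
  refine ⟨{
    toContinuousMap := adjF F (fun a => hH _ _ (snocM_bdry_right _ (Or.inl rfl)))
      (fun a => hH _ _ (snocM_bdry_right _ (Or.inr rfl)))
    map_zero_left := ?_
    map_one_left := ?_
    prop' := ?_ }⟩
  · intro x
    ext t
    exact H.apply_zero _
  · intro x
    ext t
    exact H.apply_one _
  · intro t x hx
    ext s
    show H (t, snocM q (x, s 0)) = adj f x s
    rw [adj_apply, hH _ _ (snocM_bdry_left hx _)]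
    exact (f.2 _ (snocM_bdry_left hx _)).symm

theorem snocM_update (x : Fin (q + 1) → I) (i : Fin (q + 1)) (a s : I) :
    Function.update (snocM (q + 1) (x, s)) i.castSucc a = snocM (q + 1) (Function.update x i a, s) := by
  rw [snocM_apply, snocM_apply, Fin.snoc_update]

theorem adj_transAt (i : Fin (q + 1)) (f g : Ω^ (Fin (q + 2)) S y) :
    adj (GenLoop.transAt i.castSucc f g) = GenLoop.transAt i (adj f) (adj g) := by
  ext x t
  rw [adj_apply]
  unfold GenLoop.transAt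
  rw [GenLoop.coe_copy, GenLoop.coe_copy]
  have e : (snocM (q + 1) (x, t 0) : Fin (q + 2) → I) i.castSucc = x i := by
    rw [snocM_apply, Fin.snoc_castSucc]
  rw [e]
  split_ifs with h
  · rw [snocM_update, adj_apply]
  · rw [snocM_update, adj_apply]

end adj

/-! ## the degree of adjoints -/

section degree

variable (𝒞 : Cross) {S : Type} [TopologicalSpace S] {y : S} {q : ℕ}

theorem zcls_adj_degree (ι g : Ω^ (Fin (q + 2)) S y) (D : ℤ) (h : cls g = cls ι ^ D) :
    zcls 𝒞 (adj g) = D • zcls 𝒞 (adj ι) :=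
  additive_degree (Fin.last q).castSucc (fun f => zcls 𝒞 (adj f))
    (fun f g h => zcls_homotopic 𝒞 _ _ (adj_homotopic h))
    (fun f g => by rw [adj_transAt, zcls_transAt]) ι g D h

theorem F2_add_self {K : SS} (x : H F2 K) : x + x = 0 := by
  have : (2 : F2) • x = 0 := by rw [show (2 : F2) = 0 from by decide, zero_smul]
  rwa [two_smul] at this

theorem odd_of_smul_ne {K : SS} {x z : H F2 K} {D : ℤ} (h : z = D • x) (hz : z ≠ 0) :
    Odd D ∧ z = x := by
  rcases Int.even_or_odd D with he | ho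
  · obtain ⟨k, rfl⟩ := he
    exact absurd (by rw [h, add_smul, F2_add_self]) hz
  · refine ⟨ho, ?_⟩
    obtain ⟨k, rfl⟩ := ho
    rw [h, add_smul, one_smul, two_mul, add_smul, F2_add_self, zero_add]

end degree

/-! ## the Hopf map -/

section hopf

variable {n q : ℕ} {S W : Type} [TopologicalSpace S] [T2Space S] [TopologicalSpace W]
  (P : CubeSphere (n + 1) S) (R : CubeSphere ((n + 1) + (n + 1)) W)

/-- the Hopf map, as a loop in the cube sphere `W` -/
def gf (f : Ω^ (Fin (q + 1)) S P.pt) : Ω^ (Fin (q + 2)) W R.pt :=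
  ⟨((smash P P R).comp (G (CoP.cube (Fin.last q)) (coH P) f.1)).comp (unsnoc (q + 1)), by
    intro z hz
    exact smash_wedge P R (G_mapsTo (CoP.cube (Fin.last q)) (coH P) f.1 f.2 (unsnoc_bdry hz))⟩

theorem gf_snoc (f : Ω^ (Fin (q + 1)) S P.pt) (x : Fin (q + 1) → I) (t : I) :
    gf P R f (snocM (q + 1) (x, t)) =
      smash P P R (G (CoP.cube (Fin.last q)) (coH P) f.1 (x, t)) := by
  show smash P P R (G (CoP.cube (Fin.last q)) (coH P) f.1 (unsnoc (q + 1) (snocM (q + 1) (x, t)))) = _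
  rw [unsnoc_snocM]

theorem snocM_update_last (x : Fin q → I) (s a : I) :
    Function.update (snocM q (x, s)) (Fin.last q) a = snocM q (x, a) := by
  rw [snocM_apply, snocM_apply, Fin.update_snoc_last]

theorem gf_eq_Th (f : Ω^ (Fin (q + 1)) S P.pt) (x : Fin q → I) (s t : I) :
    gf P R f (snocM (q + 1) (snocM q (x, s), t)) = Th P R (adj f x, (s, t)) := by
  rw [gf_snoc, Th_apply, G_apply, GG_apply, CoP.cube_w, CoP.cube_w', snocM_update_last,
    snocM_update_last, evL_adj, evL_adj]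
  have e : (snocM q (x, s) : Fin (q + 1) → I) (Fin.last q) = s := by
    rw [snocM_apply, Fin.snoc_last]
  rw [e]
  rfl

variable (𝒞 : Cross)

theorem pf_gf (f : Ω^ (Fin (q + 1)) S P.pt) :
    pf (gf P R f).1 (𝒞.zc (q + 2)) =
      pf (Th P R) (𝒞.cr (pf (adj f).1 (𝒞.zc q)) (𝒞.cr iota iota)) := by
  rw [𝒞.zc_succ, 𝒞.zc_succ, ← pf_comp]
  have h1 : 𝒞.cr (pf (snocM q) (𝒞.cr (𝒞.zc q) iota)) iota =
      pf ((snocM q).prodMap (ContinuousMap.id I)) (𝒞.cr (𝒞.cr (𝒞.zc q) iota) iota) := by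
    rw [𝒞.nat, pf_id]
  have h2 : 𝒞.cr (pf (adj f).1 (𝒞.zc q)) (𝒞.cr iota iota) =
      pf ((adj f).1.prodMap (ContinuousMap.id (I × I))) (𝒞.cr (𝒞.zc q) (𝒞.cr iota iota)) := by
    rw [𝒞.nat, pf_id]
  rw [h1, h2, ← pf_comp, ← pf_comp, ← 𝒞.asc'_cr, ← pf_comp]
  refine congrArg (fun F => pf F (𝒞.cr (𝒞.zc q) (𝒞.cr iota iota))) (ContinuousMap.ext ?_)
  rintro ⟨x, s, t⟩
  exact gf_eq_Th P R f x s t

theorem hom2_Th {a b : N F2 (Sing (Ω^ (Fin 1) S P.pt))} (h : Hom2 a b) :
    Hom2 (pf (Th P R) (𝒞.cr a (𝒞.cr iota iota))) (pf (Th P R) (𝒞.cr b (𝒞.cr iota iota))) := by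
  obtain ⟨e, he⟩ := h
  refine ⟨pf (Th P R) (𝒞.cr e (𝒞.cr iota iota)), ?_⟩
  rw [← pf_bd, 𝒞.bd, he, 𝒞.bd, bd_iota]
  simp only [map_add, LinearMap.add_apply]
  have v1 : ∀ c : I, (c = 0 ∨ c = 1) → pf (Th P R) (𝒞.cr e (𝒞.cr (A1 ![c]) iota)) = 0 := by
    intro c hc
    rw [A1_pt, 𝒞.vertex', push_nat]
    refine push_const e iota_gr _ R.pt ?_
    intro l t
    rcases hc with rfl | rfl
    · exact Th_s0 P R l t
    · exact Th_s1 P R l t
  have v2 : ∀ c : I, (c = 0 ∨ c = 1) → pf (Th P R) (𝒞.cr e (𝒞.cr iota (A1 ![c]))) = 0 := by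
    intro c hc
    rw [A1_pt, 𝒞.vertex, push_nat]
    refine push_const e iota_gr _ R.pt ?_
    intro l s
    rcases hc with rfl | rfl
    · exact Th_t0 P R l s
    · exact Th_t1 P R l s
  rw [v1 1 (Or.inr rfl), v1 0 (Or.inl rfl), v2 1 (Or.inr rfl), v2 0 (Or.inl rfl)]
  simp only [add_zero]

/-- `((x, y), (a, b)) ↦ ((y, a), (x, b))` on chains -/
theorem cr_perm {X Y : Type} [TopologicalSpace X] [TopologicalSpace Y] (x : N F2 (Sing X))
    (z : N F2 (Sing Y)) {V : Type} [TopologicalSpace V] (F : C((X × X) × (Y × Y), V))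
    (F' : C((X × Y) × (X × Y), V)) (h : ∀ a b c d, F ((a, b), (c, d)) = F' ((b, c), (a, d))) :
    pf F (𝒞.cr (𝒞.cr x x) (𝒞.cr z z)) = pf F' (𝒞.cr (𝒞.cr x z) (𝒞.cr x z)) := by
  have h1 : 𝒞.cr (𝒞.cr x x) (𝒞.cr z z) = pf ((ContinuousMap.prodSwap : C(X × X, X × X)).prodMap
      (ContinuousMap.id (Y × Y))) (𝒞.cr (𝒞.cr x x) (𝒞.cr z z)) := by
    rw [𝒞.nat, 𝒞.swap, pf_id]
  rw [h1, ← pf_comp, ← 𝒞.m4_cr x x z z, ← pf_comp]
  refine congrArg (fun F => pf F (𝒞.cr (𝒞.cr x x) (𝒞.cr z z))) (ContinuousMap.ext ?_)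
  rintro ⟨⟨a, b⟩, ⟨c, d⟩⟩
  exact h b a c d

theorem pf_P : pf (setS P R).P (𝒞.cr (𝒞.cr (pf (adj (pLoop P)).1 (𝒞.zc n))
      (pf (adj (pLoop P)).1 (𝒞.zc n))) (𝒞.cr iota iota)) =
    pf R.p (𝒞.zc ((n + 1) + (n + 1))) := by
  have h1 : 𝒞.cr (𝒞.cr (pf (adj (pLoop P)).1 (𝒞.zc n))
      (pf (adj (pLoop P)).1 (𝒞.zc n))) (𝒞.cr iota iota) =
      pf (((adj (pLoop P)).1.prodMap (adj (pLoop P)).1).prodMap (ContinuousMap.id (I × I)))
        (𝒞.cr (𝒞.cr (𝒞.zc n) (𝒞.zc n)) (𝒞.cr iota iota)) := by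
    rw [𝒞.nat, 𝒞.nat, pf_id]
  have h2 : ∀ c, pf (setS P R).P (pf (((adj (pLoop P)).1.prodMap (adj (pLoop P)).1).prodMap
      (ContinuousMap.id (I × I))) c) = pf ((setS P R).P.comp (((adj (pLoop P)).1.prodMap
      (adj (pLoop P)).1).prodMap (ContinuousMap.id (I × I)))) c := fun c => (pf_comp _ _ _).symm
  rw [← 𝒞.pf_app, 𝒞.zc_succ, ← 𝒞.nat (snocM n) (snocM n), h1, ← pf_comp, ← pf_comp, h2]
  refine cr_perm 𝒞 _ _ _ _ ?_
  intro a b c d
  show smash P P R (evL S P.pt (adj (pLoop P) b, c), evL S P.pt (adj (pLoop P) a, d)) =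
    R.p (appM (n + 1) (n + 1) (snocM n (b, c), snocM n (a, d)))
  rw [evL_adj, evL_adj]
  exact smash_p P P R _ _

end hopf

/-- **F2 side, chain level** -/
theorem hom2_gf (𝒞 : Cross) (hA : Acy) {n q : ℕ} {S W : Type} [TopologicalSpace S] [T2Space S]
    [TopologicalSpace W] (P : CubeSphere (n + 1 + 1) S)
    (R : CubeSphere ((n + 1 + 1) + (n + 1 + 1)) W) (f : Ω^ (Fin (q + 1)) S P.pt)
    (h : Hom2 (pf (adj f).1 (𝒞.zc q)) (pf (muL S P.pt)
      (𝒞.cr (pf (adj (pLoop P)).1 (𝒞.zc (n + 1))) (pf (adj (pLoop P)).1 (𝒞.zc (n + 1)))))) :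
    Hom2 (pf (gf P R f).1 (𝒞.zc (q + 2))) (pf R.p (𝒞.zc ((n + 1 + 1) + (n + 1 + 1)))) := by
  rw [pf_gf P R 𝒞 f, ← pf_P P R 𝒞]
  have hz := 𝒞.bd_pf_zc (n + 1) (adj (pLoop P)).1 GenLoop.const (adj (pLoop P)).2
  have hg := pf_gr (adj (pLoop P)).1 (𝒞.zc_gr (n + 1))
  refine (hom2_Th P R 𝒞 h).trans ?_
  exact hopf_core (S := setS P R) (𝒞 := 𝒞) hA (Th P R) (Th_s0 P R) (Th_s1 P R) (Th_lo P R)
    (Th_hi P R) hg hg hz hz

end Crest.Agent.R204.HopfGlue339
end
end

-- ▼ part R204/Collapse_477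
section

/-!
# Row 204, leaf H10 (helper477): the cube chain and the simplex collapse

* `E_one` : `E p 1 = main + (simplices avoiding the vertex (p, 0))`
* `zc_main` : `zc n = [main simplex] + (simplices inside some `x i ≤ x (i+1)`)`
* `rho n : C(Fin n → I, Δ^n)`, `pf_rho : pf (a ∘ rho) (zc n) = sx a` for simplices `a` with constant boundary
-/

set_option autoImplicit false

namespace Crest.Agent.R204.HopfF2477

open SS Finsupp EZ271

/-! ## the universal chain `E p 1` -/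

/-- `i ↦ 1` iff `i = p + 1` -/
def blast (p : ℕ) : Op (p + 1) 1 :=
  ⟨fun i => if (i : ℕ) = p + 1 then 1 else 0, by
    intro i j hij
    dsimp only
    have h1 := i.2; have h2 := j.2
    have h3 : (i : ℕ) ≤ j := hij
    split_ifs with h h'
    · exact le_rfl
    · omega
    · exact Fin.zero_le _
    · exact le_rfl⟩

/-- pairs of monotone maps as simplices -/
def mkE {m p q : ℕ} (α : Op m p) (β : Op m q) : ((SS.std p).prod (SS.std q)).S m := (α, β)

/-- the main simplex of `Δ^p × Δ^1` -/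
def mainE (p : ℕ) : ((SS.std p).prod (SS.std 1)).S (p + 1) := mkE (Op.dgn (Fin.last p)) (blast p)

theorem c_map {m p q p' q' : ℕ} (f : Hom (SS.std p) (SS.std p')) (g : Hom (SS.std q) (SS.std q'))
    (x : ((SS.std p).prod (SS.std q)).S m) :
    (Cpq p' q').c F2 (N.map F2 (SS.prodMap f g) (N.sx F2 x)) =
      N.sx F2 ((Cpq p' q').k ((SS.prodMap f g).app m x)) := by
  rw [N.map_sx, Cone.c_sx]

/-- simplices avoiding the vertex `(p, 0)` -/
noncomputable def avoidE (p : ℕ) : Submodule F2 (N F2 ((SS.std p).prod (SS.std 1))) :=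
  Submodule.span F2 {c | ∃ (α : Op (p + 1) p) (β : Op (p + 1) 1),
    (∀ i : Fin (p + 2), ¬ ((α i : ℕ) = p ∧ (β i : ℕ) = 0)) ∧
      c = N.sx F2 (mkE α β)}

theorem E_one (p : ℕ) : ∃ w ∈ avoidE p, E F2 p 1 = N.sx F2 (mainE p) + w ∧ (p = 0 → w = 0) := by
  induction p with
  | zero =>
    refine ⟨0, Submodule.zero_mem _, ?_, fun _ => rfl⟩
    rw [add_zero, HtpInv334.E_zero_left]
    congr 1
    refine Prod.ext (HtpInv334.op_zero_ext _ _) (OrderHom.ext _ _ (funext fun i => ?_))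
    fin_cases i <;> rfl
  | succ p ih =>
    obtain ⟨w, hw, hE, -⟩ := ih
    have h1 : ((-1 : F2)) ^ (p + 1) = 1 := by
      have : (-1 : F2) = 1 := by decide
      rw [this, one_pow]
    refine ⟨(Cpq (p + 1) 1).c F2 (N.map F2 (SS.prodMap (stdMap (Op.face 0)) (SS.Hom.id _)) w) +
      (Cpq (p + 1) 1).c F2 (N.map F2 (SS.prodMap (SS.Hom.id _) (stdMap (Op.face 0)))
        (E F2 (p + 1) 0)), ?_, ?_, fun h => absurd h (by omega)⟩
    · refine Submodule.add_mem _ ?_ ?_
      · refine Submodule.span_induction (p := fun w _ => (Cpq (p + 1) 1).c F2 (N.map F2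
          (SS.prodMap (stdMap (Op.face 0)) (SS.Hom.id _)) w) ∈ avoidE (p + 1)) ?_ ?_ ?_ ?_ hw
        · rintro _ ⟨α, β, hx, rfl⟩
          have e : (Cpq (p + 1) 1).c F2 (N.map F2
              (SS.prodMap (stdMap (Op.face 0)) (SS.Hom.id _)) (N.sx F2 (mkE α β))) =
              N.sx F2 (mkE (Op.star α) (Op.cons β)) := c_map _ _ _
          rw [e]
          refine Submodule.subset_span ⟨_, _, fun i => ?_, rfl⟩
          induction i using Fin.cases with
          | zero =>
            rintro ⟨h, -⟩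
            rw [Op.star_zero] at h
            simp at h
          | succ i =>
            rintro ⟨h, h'⟩
            refine hx i ⟨?_, h'⟩
            rw [Op.star_succ, Fin.val_succ] at h
            omega
        · rw [map_zero, map_zero]; exact Submodule.zero_mem _
        · intro a b _ _ ha hb; rw [map_add, map_add]; exact Submodule.add_mem _ ha hb
        · intro r a _ ha; rw [map_smul, map_smul]; exact Submodule.smul_mem _ _ ha
      · have e : (Cpq (p + 1) 1).c F2 (N.map F2 (SS.prodMap (SS.Hom.id _) (stdMap (Op.face 0)))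
              (E F2 (p + 1) 0)) =
              N.sx F2 (mkE (Op.cons (OrderHom.id : Op (p + 1) (p + 1)))
                  (Op.cons ((Op.face 0).comp (HtpInv334.toZero (p + 1))))) := by
          rw [HtpInv334.E_zero_right]
          exact c_map (m := p + 1) (SS.Hom.id (SS.std (p + 1))) (stdMap (Op.face 0))
            (mkE (OrderHom.id : Op (p + 1) (p + 1)) (HtpInv334.toZero (p + 1)))
        rw [e]
        refine Submodule.subset_span ⟨_, _, fun i => ?_, rfl⟩
        induction i using Fin.cases with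
        | zero =>
          rintro ⟨h, -⟩
          rw [Op.cons_zero] at h
          simp at h
        | succ i =>
          rintro ⟨-, h'⟩
          rw [Op.cons_succ] at h'
          exact absurd h' (by
            show ((Op.face 0 : Op 0 1) (HtpInv334.toZero (p + 1) i) : ℕ) ≠ 0
            rw [face_zero_apply]; simp)
    · have e : (Cpq (p + 1) 1).c F2 (N.map F2
              (SS.prodMap (stdMap (Op.face 0)) (SS.Hom.id _)) (N.sx F2 (mainE p))) =
              N.sx F2 (mkE (Op.star (Op.dgn (Fin.last p))) (Op.cons (blast p))) := c_map _ _ _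
      have e2 : mkE (Op.star (Op.dgn (Fin.last p))) (Op.cons (blast p)) = mainE (p + 1) := by
        refine Prod.ext ?_ ?_
        · have := Op.star_dgn (Fin.last p)
          rw [Fin.succ_last] at this
          exact this
        · show Op.cons (blast p) = blast (p + 1)
          refine OrderHom.ext _ _ (funext fun i => ?_)
          induction i using Fin.cases with
          | zero =>
            rw [Op.cons_zero]
            show (0 : Fin 2) = if ((0 : Fin (p + 3)) : ℕ) = p + 1 + 1 then 1 else 0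
            rw [if_neg (by simp)]
          | succ i =>
            rw [Op.cons_succ]
            show (if (i : ℕ) = p + 1 then (1 : Fin 2) else 0) =
              if ((i.succ : Fin (p + 3)) : ℕ) = p + 1 + 1 then 1 else 0
            rw [Fin.val_succ]
            congr 1
            exact propext ⟨fun h => by omega, fun h => by omega⟩
      rw [E_succ_succ, h1, one_smul, hE, map_add, map_add, map_add, e, e2, add_assoc]

/-! ## affine simplices in cubes -/

/-- affine simplices in the cube -/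
noncomputable def affn {n m : ℕ} (v : Fin (m + 1) → (Fin n → I)) :
    C(stdSimplex ℝ (Fin (m + 1)), Fin n → I) :=
  ContinuousMap.pi fun i => aff fun j => v j i

theorem affn_act {n l m : ℕ} (f : Op l m) (v : Fin (m + 1) → (Fin n → I)) :
    (Sing (Fin n → I)).act f (affn v) = affn (fun j => v (f j)) := by
  refine ContinuousMap.ext fun t => funext fun i => ?_
  exact congrArg (fun g : C(_, I) => g t) (aff_act f fun j => v j i)

/-- vertices of the main simplex -/
def vt (n : ℕ) (j : Fin (n + 1)) : Fin n → I := fun i => if (i : ℕ) < j then 1 else 0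

/-- the main simplex of the cube -/
noncomputable def M (n : ℕ) : C(stdSimplex ℝ (Fin (n + 1)), Fin n → I) := affn (vt n)

/-- `Δ^n × Δ^1 → Sing I^{n+1}` -/
noncomputable def GG {n : ℕ} (σ : C(stdSimplex ℝ (Fin (n + 1)), Fin n → I)) :
    Hom ((SS.std n).prod (SS.std 1)) (Sing (Fin (n + 1) → I)) :=
  (SingMap (snocM n)).comp ((spr _ _).comp (prodMap ((Sing (Fin n → I)).yo (n := n) σ)
    ((Sing I).yo (n := 1) (aff ![0, 1]))))

theorem pf_GG {n : ℕ} (σ : C(stdSimplex ℝ (Fin (n + 1)), Fin n → I)) :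
    pf (snocM n) (theCross.cr (N.sx F2 (K := Sing (Fin n → I)) (n := n) σ) iota) =
      N.map F2 (GG σ) (E F2 n 1) := by
  show pf (snocM n) (crs _ _) = _
  rw [crs_apply]
  unfold HopfF2477.iota A1 pf
  rw [cross_sx F2 (K := Sing (Fin n → I)) (L := Sing I) (p := n) (q := 1) σ (aff ![0, 1]),
    ← Nmap_comp, ← Nmap_comp]; rfl

theorem GG_main (n : ℕ) : (GG (M n)).app (n + 1) (mainE n) = M (n + 1) := by
  have h1 : (GG (M n)).app (n + 1) (mainE n) = (snocM n).comp
      (((Sing (Fin n → I)).act (Op.dgn (Fin.last n)) (M n) : C(_, Fin n → I)).prodMk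
        ((Sing I).act (blast n) (aff ![0, 1]) : C(_, I))) := rfl
  rw [h1, M, affn_act, aff_act]
  refine ContinuousMap.ext fun t => funext fun i => ?_
  refine Fin.lastCases ?_ (fun i => ?_) i
  · show Fin.snoc (α := fun _ => I) _ (aff (fun i => ![0, 1] (blast n i)) t) (Fin.last n) =
      aff (fun j => vt (n + 1) j (Fin.last n)) t
    rw [Fin.snoc_last]
    congr 2
    funext j
    show (![0, 1] : Fin 2 → I) (if (j : ℕ) = n + 1 then 1 else 0) = if ((Fin.last n : Fin (n + 1)) : ℕ) < j then 1 else 0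
    have := j.2
    rw [Fin.val_last]
    by_cases h : (j : ℕ) = n + 1
    · rw [if_pos h, if_pos (by omega)]; rfl
    · rw [if_neg h, if_neg (by omega)]; rfl
  · show Fin.snoc (α := fun _ => I) (affn (fun j => vt n ((Op.dgn (Fin.last n)) j)) t) _ i.castSucc =
      aff (fun j => vt (n + 1) j i.castSucc) t
    rw [Fin.snoc_castSucc]
    show aff (fun j => vt n ((Op.dgn (Fin.last n)) j) i) t = _
    congr 2
    funext j
    show (if (i : ℕ) < ((Op.dgn (Fin.last n) j : Fin (n + 1)) : ℕ) then (1 : I) else 0) =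
      if ((i.castSucc : Fin (n + 1)) : ℕ) < j then 1 else 0
    rw [Ch.dgn_val, Fin.val_castSucc, Fin.val_last]
    have := i.2; have := j.2
    congr 1
    refine propext ?_
    split_ifs <;> omega

/-- simplices lying in some `x i ≤ x (i + 1)` -/
noncomputable def UU (n : ℕ) : Submodule F2 (N F2 (Sing (Fin n → I))) :=
  Submodule.span F2 {c | ∃ (σ : C(stdSimplex ℝ (Fin (n + 1)), Fin n → I)) (i : ℕ) (hi : i + 1 < n),
    (∀ t, σ t ⟨i, by omega⟩ ≤ σ t ⟨i + 1, hi⟩) ∧ c = N.sx F2 (K := Sing (Fin n → I)) (n := n) σ}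

/-- the map of simplices induced by a monotone map -/
noncomputable def amap {m n : ℕ} (α : Op m n) :
    C(stdSimplex ℝ (Fin (m + 1)), stdSimplex ℝ (Fin (n + 1))) :=
  ⟨stdSimplex.map α, stdSimplex.continuous_map α⟩

theorem GG_app {n m : ℕ} (σ : C(stdSimplex ℝ (Fin (n + 1)), Fin n → I)) (α : Op m n) (β : Op m 1) :
    (GG σ).app m (mkE α β) = ((snocM n).comp ((σ.comp (amap α)).prodMk
      (aff fun j => (![0, 1] : Fin 2 → I) (β j))) :
        C(stdSimplex ℝ (Fin (m + 1)), Fin (n + 1) → I)) := by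
  have h1 : (GG σ).app m (mkE α β) = ((snocM n).comp
      ((σ.comp (amap α)).prodMk
        ((Sing I).act β (aff ![0, 1]) : C(_, I))) : C(stdSimplex ℝ (Fin (m + 1)), Fin (n + 1) → I)) := rfl
  rw [h1, aff_act]

theorem GG_UU {n : ℕ} (σ : C(stdSimplex ℝ (Fin (n + 1)), Fin n → I)) (i : ℕ) (hi : i + 1 < n)
    (h : ∀ t, σ t ⟨i, by omega⟩ ≤ σ t ⟨i + 1, hi⟩) {c : N F2 ((SS.std n).prod (SS.std 1))}
    (hc : c ∈ N.gr F2 _ (n + 1)) : N.map F2 (GG σ) c ∈ UU (n + 1) := by
  refine N_gr_ind (p := fun c => N.map F2 (GG σ) c ∈ UU (n + 1)) c hc ?_ ?_ ?_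
  · rw [map_zero]; exact Submodule.zero_mem _
  · intro a b ha hb; rw [map_add]; exact Submodule.add_mem _ ha hb
  · intro x
    rw [N.map_sx]
    have key : ∀ (α : Op (n + 1) n) (β : Op (n + 1) 1) (t : stdSimplex ℝ (Fin (n + 1 + 1))),
        ((snocM n).comp ((σ.comp (amap α)).prodMk (aff fun j => (![0, 1] : Fin 2 → I) (β j)))) t
          ⟨i, by omega⟩ ≤
        ((snocM n).comp ((σ.comp (amap α)).prodMk (aff fun j => (![0, 1] : Fin 2 → I) (β j)))) t
          ⟨i + 1, by omega⟩ := by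
      intro α β t
      have k1 : ∀ j : Fin n, Fin.snoc (α := fun _ => I) (σ (amap α t))
          (aff (fun j => (![0, 1] : Fin 2 → I) (β j)) t) (Fin.castSucc j) = σ (amap α t) j :=
        fun j => Fin.snoc_castSucc (α := fun _ => I) _ _ _
      refine (le_of_eq (k1 ⟨i, by omega⟩)).trans (le_trans ?_ (le_of_eq (k1 ⟨i + 1, hi⟩).symm))
      exact h _
    refine Submodule.subset_span ⟨(GG σ).app (n + 1) x, i, by omega, fun t => ?_, rfl⟩
    have e : (GG σ).app (n + 1) x = _ := GG_app σ x.1 x.2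
    rw [e]
    exact key x.1 x.2 t

theorem M_amap {n m : ℕ} (α : Op m n) : (M n).comp (amap α) = affn (fun j => vt n (α j)) :=
  affn_act α (vt n)

theorem GG_avoid {n : ℕ} (hn : n ≠ 0) {w : N F2 ((SS.std n).prod (SS.std 1))} (hw : w ∈ avoidE n) :
    N.map F2 (GG (M n)) w ∈ UU (n + 1) := by
  refine Submodule.span_induction (p := fun w _ => N.map F2 (GG (M n)) w ∈ UU (n + 1)) ?_ ?_ ?_ ?_ hw
  · rintro _ ⟨α, β, hab, rfl⟩
    rw [N.map_sx]
    refine Submodule.subset_span ⟨(GG (M n)).app (n + 1) (mkE α β), n - 1, by omega, fun t => ?_, rfl⟩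
    rw [GG_app, M_amap]
    have k1 : (snocM n) (affn (fun j => vt n (α j)) t, aff (fun j => (![0, 1] : Fin 2 → I) (β j)) t)
        (⟨n - 1, by omega⟩ : Fin (n + 1)) = aff (fun j => vt n (α j) ⟨n - 1, by omega⟩) t := by
      have : (⟨n - 1, by omega⟩ : Fin (n + 1)) = Fin.castSucc ⟨n - 1, by omega⟩ := rfl
      rw [this]
      exact Fin.snoc_castSucc (α := fun _ => I) _ _ _
    have k2 : (snocM n) (affn (fun j => vt n (α j)) t, aff (fun j => (![0, 1] : Fin 2 → I) (β j)) t)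
        (⟨n - 1 + 1, by omega⟩ : Fin (n + 1)) = aff (fun j => (![0, 1] : Fin 2 → I) (β j)) t := by
      have : (⟨n - 1 + 1, by omega⟩ : Fin (n + 1)) = Fin.last n := Fin.ext (by simp; omega)
      rw [this]
      exact Fin.snoc_last (α := fun _ => I) _ _
    refine (le_of_eq k1).trans (le_trans ?_ (le_of_eq k2.symm))
    show ((aff (fun j => vt n (α j) ⟨n - 1, by omega⟩) t : I) : ℝ) ≤
      ((aff (fun j => (![0, 1] : Fin 2 → I) (β j)) t : I) : ℝ)
    rw [aff_coe, aff_coe]
    refine Finset.sum_le_sum fun j _ => mul_le_mul_of_nonneg_left ?_ (t.2.1 j)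
    show ((vt n (α j) ⟨n - 1, by omega⟩ : I) : ℝ) ≤ (((![0, 1] : Fin 2 → I) (β j) : I) : ℝ)
    unfold vt
    by_cases h : n - 1 < (α j : ℕ)
    · have h1 : (α j : ℕ) = n := by have := (α j).2; omega
      have h2 : (β j : ℕ) ≠ 0 := fun h' => hab j ⟨h1, h'⟩
      have h3 : β j = 1 := by
        have := (β j).2
        exact Fin.ext (by show (β j : ℕ) = 1; omega)
      rw [if_pos h, h3]; exact le_rfl
    · rw [if_neg h]; exact (((![0, 1] : Fin 2 → I) (β j)).2.1)
  · rw [map_zero]; exact Submodule.zero_mem _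
  · intro a b _ _ ha hb; rw [map_add]; exact Submodule.add_mem _ ha hb
  · intro r a _ ha; rw [map_smul]; exact Submodule.smul_mem _ _ ha

/-- the cube chain is the main simplex plus simplices with `x i ≤ x (i + 1)` -/
theorem zc_main (n : ℕ) : ∃ w ∈ UU n,
    theCross.zc n = N.sx F2 (K := Sing (Fin n → I)) (n := n) (M n) + w := by
  induction n with
  | zero =>
    refine ⟨0, Submodule.zero_mem _, ?_⟩
    rw [add_zero, Cross.zc_zero]
    refine congrArg (N.sx F2 (K := Sing (Fin 0 → I)) (n := 0)) ?_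
    exact ContinuousMap.ext fun t => funext fun i => i.elim0
  | succ n ih =>
    obtain ⟨w, hw, hz⟩ := ih
    obtain ⟨w', hw', hE, h0⟩ := E_one n
    refine ⟨N.map F2 (GG (M n)) w' + pf (snocM n) (theCross.cr w iota), ?_, ?_⟩
    · refine Submodule.add_mem _ ?_ ?_
      · by_cases hn : n = 0
        · rw [h0 hn, map_zero]; exact Submodule.zero_mem _
        · exact GG_avoid hn hw'
      · refine Submodule.span_induction (p := fun w _ => pf (snocM n) (theCross.cr w iota) ∈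
          UU (n + 1)) ?_ ?_ ?_ ?_ hw
        · rintro _ ⟨σ, i, hi, hσ, rfl⟩
          rw [pf_GG]
          exact GG_UU σ i hi hσ (C5265.E_mem_gr F2 _ n 1 rfl)
        · rw [map_zero, LinearMap.zero_apply, map_zero]; exact Submodule.zero_mem _
        · intro a b _ _ ha hb
          rw [map_add, LinearMap.add_apply, map_add]; exact Submodule.add_mem _ ha hb
        · intro r a _ ha
          rw [map_smul, LinearMap.smul_apply, map_smul]; exact Submodule.smul_mem _ _ ha
    · rw [Cross.zc_succ, hz, map_add theCross.cr, LinearMap.add_apply, map_add, pf_GG, hE, map_add,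
        N.map_sx, GG_main, add_assoc]

/-- maps which are constant on the complement of the main simplex -/
theorem pf_main {X : Type} [TopologicalSpace X] (n : ℕ) (F : C(Fin (n + 1) → I, X)) (x0 : X)
    (hF : ∀ (x : Fin (n + 1) → I) (i : ℕ) (hi : i + 1 < n + 1),
      x ⟨i, by omega⟩ ≤ x ⟨i + 1, hi⟩ → F x = x0) :
    pf F (theCross.zc (n + 1)) = N.sx F2 (K := Sing X) (n := n + 1) (F.comp (M (n + 1))) := by
  obtain ⟨w, hw, hz⟩ := zc_main (n + 1)
  have h0 : pf F w = 0 := by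
    refine Submodule.span_induction (p := fun w _ => pf F w = 0) ?_ ?_ ?_ ?_ hw
    · rintro _ ⟨σ, i, hi, hσ, rfl⟩
      refine (pf_sx F (n := n + 1) σ).trans ?_
      have : F.comp σ = ContinuousMap.const _ x0 := ContinuousMap.ext fun t => hF _ i hi (hσ t)
      rw [this]
      exact sx_const x0 n
    · rw [map_zero]
    · intro a b _ _ ha hb; rw [map_add, ha, hb, add_zero]
    · intro r a _ ha; rw [map_smul, ha, smul_zero]
  rw [hz, map_add, h0, add_zero]
  exact pf_sx F (n := n + 1) (M (n + 1))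

/-! ## the retraction `rho` of the cube onto the simplex -/

/-- real coordinates -/
noncomputable def rx {n : ℕ} (x : Fin n → I) : Fin n → ℝ := fun i => (x i : ℝ)

/-- the barycentric coordinates (possibly negative) -/
noncomputable def tau {n : ℕ} (x : Fin n → I) (j : Fin (n + 1)) : ℝ :=
  (Fin.cons 1 (rx x) : Fin (n + 1) → ℝ) j - (Fin.snoc (rx x) 0 : Fin (n + 1) → ℝ) j

theorem sum_tau {n : ℕ} (x : Fin n → I) : ∑ j, tau x j = 1 := by
  unfold tau
  rw [Finset.sum_sub_distrib, Fin.sum_cons, Fin.sum_snoc]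
  ring

/-- positive parts -/
noncomputable def tp {n : ℕ} (x : Fin n → I) (j : Fin (n + 1)) : ℝ := max 0 (tau x j)

theorem tp_nonneg {n : ℕ} (x : Fin n → I) (j : Fin (n + 1)) : 0 ≤ tp x j := le_max_left _ _

theorem sum_tp {n : ℕ} (x : Fin n → I) : 1 ≤ ∑ j, tp x j := by
  rw [← sum_tau x]
  exact Finset.sum_le_sum fun j _ => le_max_right _ _

theorem sum_tp_pos {n : ℕ} (x : Fin n → I) : 0 < ∑ j, tp x j := lt_of_lt_of_le one_pos (sum_tp x)

theorem continuous_tau {n : ℕ} (j : Fin (n + 1)) : Continuous fun x : Fin n → I => tau x j := by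
  unfold tau
  refine Continuous.sub ?_ ?_
  · refine Fin.cases ?_ (fun i => ?_) j
    · simp only [Fin.cons_zero]; exact continuous_const
    · simp only [Fin.cons_succ, rx]
      exact continuous_subtype_val.comp (continuous_apply i)
  · refine Fin.lastCases ?_ (fun i => ?_) j
    · simp only [Fin.snoc_last]; exact continuous_const
    · simp only [Fin.snoc_castSucc, rx]
      exact continuous_subtype_val.comp (continuous_apply i)

theorem continuous_tp {n : ℕ} (j : Fin (n + 1)) : Continuous fun x : Fin n → I => tp x j :=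
  continuous_const.max (continuous_tau j)

/-- the retraction of the cube onto the simplex -/
noncomputable def rho (n : ℕ) : C(Fin n → I, stdSimplex ℝ (Fin (n + 1))) where
  toFun x := ⟨fun j => tp x j / ∑ k, tp x k, fun j => div_nonneg (tp_nonneg x j) (sum_tp_pos x).le, by
    rw [← Finset.sum_div, div_self (sum_tp_pos x).ne']⟩
  continuous_toFun := by
    refine Continuous.subtype_mk (continuous_pi fun j => ?_) _
    exact (continuous_tp j).div (continuous_finsetSum _ fun k _ => continuous_tp k)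
      (fun x => (sum_tp_pos x).ne')

theorem rho_apply {n : ℕ} (x : Fin n → I) (j : Fin (n + 1)) : rho n x j = tp x j / ∑ k, tp x k := rfl

theorem rho_eq_zero {n : ℕ} (x : Fin n → I) (j : Fin (n + 1)) (h : tau x j ≤ 0) : rho n x j = 0 := by
  rw [rho_apply, tp, max_eq_left h, zero_div]

theorem cons_le {n : ℕ} (x : Fin n → I) (j : Fin (n + 1)) :
    (Fin.cons 1 (rx x) : Fin (n + 1) → ℝ) j ≤ 1 := by
  refine Fin.cases ?_ (fun i => ?_) j
  · rw [Fin.cons_zero]
  · rw [Fin.cons_succ]; exact (x i).2.2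

theorem snoc_nonneg {n : ℕ} (x : Fin n → I) (j : Fin (n + 1)) :
    0 ≤ (Fin.snoc (rx x) 0 : Fin (n + 1) → ℝ) j := by
  refine Fin.lastCases ?_ (fun i => ?_) j
  · rw [Fin.snoc_last]
  · rw [Fin.snoc_castSucc]; exact (x i).2.1

theorem rho_castSucc {n : ℕ} (x : Fin n → I) (i : Fin n) (h : x i = 1) : rho n x i.castSucc = 0 := by
  refine rho_eq_zero x _ ?_
  unfold tau
  rw [Fin.snoc_castSucc]
  have h1 := cons_le x i.castSucc
  have h2 : rx x i = 1 := by unfold rx; rw [h]; rfl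
  linarith

theorem rho_succ {n : ℕ} (x : Fin n → I) (i : Fin n) (h : x i = 0) : rho n x i.succ = 0 := by
  refine rho_eq_zero x _ ?_
  unfold tau
  rw [Fin.cons_succ]
  have h1 := snoc_nonneg x i.succ
  have h2 : rx x i = 0 := by unfold rx; rw [h]; rfl
  linarith

/-- the boundary of the cube goes to the boundary of the simplex -/
theorem rho_boundary {n : ℕ} (x : Fin n → I) (h : x ∈ Cube.boundary (Fin n)) :
    ∃ k, rho n x k = 0 := by
  obtain ⟨i, h | h⟩ := h
  · exact ⟨_, rho_succ x i h⟩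
  · exact ⟨_, rho_castSucc x i h⟩

theorem rho_le {n : ℕ} (x : Fin n → I) (i : ℕ) (hi : i + 1 < n)
    (h : x ⟨i, by omega⟩ ≤ x ⟨i + 1, hi⟩) : rho n x ⟨i + 1, by omega⟩ = 0 := by
  refine rho_eq_zero x _ ?_
  unfold tau
  have e1 : (⟨i + 1, by omega⟩ : Fin (n + 1)) = Fin.succ ⟨i, by omega⟩ := rfl
  have e2 : (⟨i + 1, by omega⟩ : Fin (n + 1)) = Fin.castSucc ⟨i + 1, hi⟩ := rfl
  have k1 : (Fin.cons 1 (rx x) : Fin (n + 1) → ℝ) ⟨i + 1, by omega⟩ = rx x ⟨i, by omega⟩ := by
    rw [e1, Fin.cons_succ]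
  have k2 : (Fin.snoc (rx x) 0 : Fin (n + 1) → ℝ) ⟨i + 1, by omega⟩ = rx x ⟨i + 1, hi⟩ := by
    rw [e2, Fin.snoc_castSucc]
  rw [k1, k2]
  have : rx x ⟨i, by omega⟩ ≤ rx x ⟨i + 1, hi⟩ := h
  linarith

theorem M_coe {n : ℕ} (t : stdSimplex ℝ (Fin (n + 1))) (i : Fin n) :
    rx (M n t) i = ∑ j, t j * (if (i : ℕ) < j then 1 else 0) := by
  show ((aff (fun j => vt n j i) t : I) : ℝ) = _
  rw [aff_coe]
  refine Finset.sum_congr rfl fun j _ => ?_
  unfold vt
  by_cases h : (i : ℕ) < j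
  · rw [if_pos h, if_pos h]; rfl
  · rw [if_neg h, if_neg h]; rfl

theorem tau_M {n : ℕ} (t : stdSimplex ℝ (Fin (n + 1))) (j : Fin (n + 1)) : tau (M n t) j = t j := by
  have k1 : (Fin.cons 1 (rx (M n t)) : Fin (n + 1) → ℝ) j =
      ∑ k, t k * (if (j : ℕ) ≤ k then 1 else 0) := by
    refine Fin.cases ?_ (fun i => ?_) j
    · rw [Fin.cons_zero]
      simp
    · rw [Fin.cons_succ, M_coe]
      refine Finset.sum_congr rfl fun k _ => ?_
      rw [Fin.val_succ]; rfl
  have k2 : (Fin.snoc (rx (M n t)) 0 : Fin (n + 1) → ℝ) j =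
      ∑ k, t k * (if (j : ℕ) < k then 1 else 0) := by
    refine Fin.lastCases ?_ (fun i => ?_) j
    · rw [Fin.snoc_last]
      symm
      refine Finset.sum_eq_zero fun k _ => ?_
      rw [if_neg (by have := k.2; rw [Fin.val_last]; omega), mul_zero]
    · rw [Fin.snoc_castSucc, M_coe, Fin.val_castSucc]
  unfold tau
  rw [k1, k2, ← Finset.sum_sub_distrib]
  have : ∀ k : Fin (n + 1), t k * (if (j : ℕ) ≤ k then 1 else 0) -
      t k * (if (j : ℕ) < k then 1 else 0) = if k = j then t k else 0 := by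
    intro k
    by_cases h : k = j
    · subst h; simp
    · rw [if_neg h]
      have h' : (k : ℕ) ≠ j := fun h' => h (Fin.ext h')
      by_cases h2 : (j : ℕ) < k
      · rw [if_pos h2, if_pos (by omega), sub_self]
      · rw [if_neg h2, if_neg (by omega), sub_self]
  simp only [this]
  rw [Finset.sum_ite_eq' Finset.univ j (fun k => t k)]
  simp

theorem rho_M {n : ℕ} (t : stdSimplex ℝ (Fin (n + 1))) : rho n (M n t) = t := by
  have h1 : ∀ j, tp (M n t) j = t j := by
    intro j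
    unfold tp
    rw [tau_M]
    exact max_eq_right (t.2.1 j)
  refine stdSimplex.ext (funext fun j => ?_)
  show tp (M n t) j / ∑ k, tp (M n t) k = t j
  simp only [h1]
  rw [stdSimplex.sum_eq_one t, div_one]

/-- **simplex classes are cube classes** -/
theorem pf_rho {X : Type} [TopologicalSpace X] (n : ℕ)
    (a : C(stdSimplex ℝ (Fin (n + 1 + 1)), X)) (x0 : X) (ha : ∀ s, (∃ k, s k = 0) → a s = x0) :
    pf (a.comp (rho (n + 1))) (theCross.zc (n + 1)) = N.sx F2 (K := Sing X) (n := n + 1) a := by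
  rw [pf_main n (a.comp (rho (n + 1))) x0 (fun x i hi h => ha _ ⟨_, rho_le x i hi h⟩)]
  refine congrArg (N.sx F2 (K := Sing X) (n := n + 1)) (ContinuousMap.ext fun t => ?_)
  show a (rho (n + 1) (M (n + 1) t)) = a t
  rw [rho_M]

/-- faces constant ⟹ constant on the boundary of the simplex -/
theorem boundary_of_faces {X : Type} [TopologicalSpace X] {n : ℕ}
    (a : C(stdSimplex ℝ (Fin (n + 1 + 1)), X)) (x0 : X)
    (ha : ∀ i : Fin (n + 2), (Sing X).act (Op.face i) a = SpecA.cst x0 n)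
    (s : stdSimplex ℝ (Fin (n + 1 + 1))) (hs : ∃ k, s k = 0) : a s = x0 := by
  obtain ⟨k, hk⟩ := hs
  have hsum : ∑ j : Fin (n + 1), s (k.succAbove j) = 1 := by
    have h := stdSimplex.sum_eq_one s
    rw [Fin.sum_univ_succAbove _ k, hk, zero_add] at h
    exact h
  let s' : stdSimplex ℝ (Fin (n + 1)) := ⟨fun j => s (k.succAbove j), fun j => s.2.1 _, hsum⟩
  have h1 : stdSimplex.map (Op.face k) s' = s := by
    refine stdSimplex.ext (funext fun j => ?_)
    rw [stdSimplex.map_coe, FunOnFinite.linearMap_apply_apply]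
    by_cases hj : j = k
    · subst hj
      rw [hk]
      refine Finset.sum_eq_zero fun i hi => ?_
      exact absurd (Finset.mem_filter.1 hi).2 (Fin.succAbove_ne _ _)
    · obtain ⟨i, rfl⟩ := Fin.exists_succAbove_eq hj
      rw [Finset.sum_eq_single i]
      · rfl
      · intro b hb hne
        exact absurd ((Fin.succAbove_right_injective (p := k)) (Finset.mem_filter.1 hb).2) hne
      · intro hi
        refine absurd ?_ hi
        rw [Finset.mem_filter]
        exact ⟨Finset.mem_univ i, rfl⟩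
  have h2 := congrArg (fun g : C(stdSimplex ℝ (Fin (n + 1)), X) => g s') (ha k)
  have h3 : a (stdSimplex.map (Op.face k) s') = x0 := h2
  rwa [h1] at h3

end Crest.Agent.R204.HopfF2477
end

-- ▼ part R204/HopfGlueC_339

/-!
# Row 204, block H, leaf H12 (helper339), part C

* `cub` : the cube form of a spherical simplex, `zcls_cub`;
* `pm_zcls` : the Pontryagin product of cube classes in `Ω S`;
* `exists_odd` : the Hopf map of the adjoint of `φ` has odd degree;
* `hopfLow` : `HopfLow` from `fund` (the cell of a sphere is non-zero in homology) and `KSide`.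
-/

set_option autoImplicit false

open scoped unitInterval Topology Topology.Homotopy TensorProduct

noncomputable section

namespace Crest.Agent.R204.HopfGlue339

open Crest.Agent.R204.HopfF2477 Crest.Agent.R204.SS
open Crest.Agent.R204.Freud661 Crest.Agent.R204.CubeSph661 Crest.Agent.R204.HDeg160
open Crest.Agent.R204.H472 Crest.Agent.R204.HopfMap484
open Crest.Agent.R204.Cubes735 Crest.Agent.R204.Hsp696 Crest.Agent.R204.HspSS696
open Crest.Agent.R204.Cone330 Crest.Agent.R204.SphSS478 Crest.Agent.R204.HopfLow478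
open Crest.Agent.R204.Freu297

/-! ## cube form of spherical simplices -/

section cub

variable {Y : Type} [TopologicalSpace Y] {y : Y} {n : ℕ}

/-- a simplex as a continuous map -/
abbrev cm (a : (Sing Y).S (n + 1)) : C(stdSimplex ℝ (Fin (n + 1 + 1)), Y) := a

theorem sph_bdry (a : (Sing Y).S (n + 1)) (ha : IsSph (SpecA.cst y 0) a)
    (s : stdSimplex ℝ (Fin (n + 1 + 1))) (hs : ∃ k, s k = 0) : cm a s = y :=
  boundary_of_faces (cm a) y (fun i => FactSph478.isSph_iff.2 ha i) s hs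

/-- cube form of a spherical simplex -/
def cub (a : (Sing Y).S (n + 1)) (ha : IsSph (SpecA.cst y 0) a) : Ω^ (Fin (n + 1)) Y y :=
  ⟨(cm a).comp (rho (n + 1)),
    fun x hx => sph_bdry a ha _ (rho_boundary x hx)⟩

theorem zcls_cub (a : (Sing Y).S (n + 1)) (ha : IsSph (SpecA.cst y 0) a) :
    zcls theCross (cub a ha) = scl a ha := by
  have h := pf_rho n (cm a) y (sph_bdry a ha)
  unfold zcls scl
  congr 1

end cub

/-! ## products -/

section prod

variable {S : Type} [TopologicalSpace S] {y : S}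

theorem map_mulS (u v : N F2 (Sing (Ω^ (Fin 1) S y))) :
    N.map F2 (mulS (Z := S) (z₀ := y) (halves (0 : Fin 1))) (EZ271.cross F2 u v) =
      pf (muL S y) (theCross.cr u v) := by
  show _ = N.map F2 _ (N.map F2 _ _)
  rw [← Nmap_comp]
  rfl

theorem bd_mu_cr {p q : ℕ} (u : Ω^ (Fin p) (Ω^ (Fin 1) S y) GenLoop.const)
    (v : Ω^ (Fin q) (Ω^ (Fin 1) S y) GenLoop.const) :
    N.bd F2 _ (pf (muL S y) (theCross.cr (pf u.1 (theCross.zc p)) (pf v.1 (theCross.zc q)))) = 0 := by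
  rw [← pf_bd, theCross.bd, theCross.bd_pf_zc p u.1 _ u.2, theCross.bd_pf_zc q v.1 _ v.2]
  simp

theorem pm_zcls {p q : ℕ} (u : Ω^ (Fin p) (Ω^ (Fin 1) S y) GenLoop.const)
    (v : Ω^ (Fin q) (Ω^ (Fin 1) S y) GenLoop.const) :
    HopfLow478.pm (mulS (Z := S) (z₀ := y) (halves (0 : Fin 1))) (zcls theCross u) (zcls theCross v) =
      Hd.mk (N.bd F2 _) (pf (muL S y) (theCross.cr (pf u.1 (theCross.zc p))
        (pf v.1 (theCross.zc q)))) (bd_mu_cr u v) := by
  unfold HopfLow478.pm zcls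
  have e := EZ847.crH_mk (K := Sing (Ω^ (Fin 1) S y)) (L := Sing (Ω^ (Fin 1) S y))
    (pf u.1 (theCross.zc p)) (theCross.bd_pf_zc p u.1 _ u.2)
    (pf v.1 (theCross.zc q)) (theCross.bd_pf_zc q v.1 _ v.2)
  unfold EZ847.crH at e
  refine (congrArg (H.map F2 (mulS (Z := S) (z₀ := y) (halves (0 : Fin 1)))) e).trans ?_
  unfold H.map
  rw [Hd.map_mk]
  congr 1
  exact map_mulS _ _

end prod

/-! ## casts of cube spheres -/

/-- cast of a cube sphere -/
def castCS {a b : ℕ} (h : a = b) {W : Type} [TopologicalSpace W] (R : CubeSphere a W) :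
    CubeSphere b W where
  p := R.p.comp ⟨fun x i => x (Fin.cast h i), by fun_prop⟩
  pt := R.pt
  surj := by subst h; exact R.surj
  bdry := by subst h; exact R.bdry
  inj := by subst h; exact R.inj


theorem pf_castCS (𝒞 : Cross) {a b : ℕ} (h : a = b) {W : Type} [TopologicalSpace W]
    (R : CubeSphere a W) : pf (castCS h R).p (𝒞.zc b) = pf R.p (𝒞.zc a) := by
  subst h; rfl

/-! ## odd degree -/

/-- the Hopf map of `f`, as a loop in the metric sphere -/
def gS {e q : ℕ} (hq : q + 1 + 1 = (e + 1 + 1) + (e + 1 + 1))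
    (f : Ω^ (Fin (q + 1)) (Sph (e + 1 + 1)) (pt (e + 1 + 1))) :
    Ω^ (Fin (q + 1 + 1)) (Sph (q + 1 + 1)) (pt (q + 1 + 1)) :=
  gf (sphCube (e + 1)) (castCS hq (sphCube (q + 1))) f

/-- the cell of a sphere is non-zero in homology -/
def Fund : Prop := ∀ n : ℕ, zcls theCross (pLoop (sphCube n)) ≠ 0

/-- the K-theoretic side -/
def KSide : Prop := ∀ (e q : ℕ) (_ : Even e) (hq : q + 1 + 1 = (e + 1 + 1) + (e + 1 + 1))
  (f : Ω^ (Fin (q + 1)) (Sph (e + 1 + 1)) (pt (e + 1 + 1))) (D : ℤ), Odd D →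
  cls (gS hq f) = cls (cell (q + 1 + 1)) ^ D → e = 0 ∨ e = 2 ∨ e = 6

theorem exists_odd (hfund : Fund) (hA : Acy) {e q : ℕ}
    (hq : q + 1 + 1 = (e + 1 + 1) + (e + 1 + 1))
    (f : Ω^ (Fin (q + 1)) (Sph (e + 1 + 1)) (pt (e + 1 + 1)))
    (h : Hom2 (pf (adj f).1 (theCross.zc q)) (pf (muL (Sph (e + 1 + 1)) (pt (e + 1 + 1)))
      (theCross.cr (pf (adj (pLoop (sphCube (e + 1)))).1 (theCross.zc (e + 1)))
        (pf (adj (pLoop (sphCube (e + 1)))).1 (theCross.zc (e + 1)))))) :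
    ∃ D : ℤ, Odd D ∧ cls (gS hq f) = cls (cell (q + 1 + 1)) ^ D := by
  have h1 := hom2_gf theCross hA (sphCube (e + 1)) (castCS hq (sphCube (q + 1))) f h
  rw [pf_castCS] at h1
  have h2 : zcls theCross (gS hq f) = zcls theCross (pLoop (sphCube (q + 1))) :=
    zcls_eq_of_hom2 _ _ h1
  obtain ⟨D, hD, -, hD2⟩ := exists_degree theCross (sphCube (q + 1)) (gS hq f)
  exact ⟨D, (odd_of_smul_ne hD2 (fun hh => hfund _ (h2.symm.trans hh))).1, hD⟩

theorem hom2_of_mk {K : SS} {a b : N F2 K} {ha : N.bd F2 K a = 0} {hb : N.bd F2 K b = 0}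
    (h : Hd.mk (N.bd F2 K) a ha = Hd.mk (N.bd F2 K) b hb) : Hom2 a b := by
  rw [Hd.mk_eq_mk] at h
  obtain ⟨w, hw⟩ := h
  refine ⟨w, ?_⟩
  rw [hw]
  have : b = -b := by
    rw [eq_neg_iff_add_eq_zero]; exact add_self' b
  rw [sub_eq_add_neg, ← this]

/-- **HopfLow** from the fundamental class and the K-theoretic side -/
theorem hopfLow (hfund : Fund) (hA : Acy) (hK : KSide) : HopfLow := by
  intro e he a ha hne φ hφ h
  have ha' : IsSph (SpecA.cst (GenLoop.const : Ω^ (Fin 1) (Sph (e + 1 + 1)) (pt (e + 1 + 1))) 0) a :=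
    ha
  have hφ' : IsSph (SpecA.cst (GenLoop.const : Ω^ (Fin 1) (Sph (e + 1 + 1)) (pt (e + 1 + 1))) 0) φ :=
    hφ
  -- degree of `a`
  obtain ⟨D0, hD0⟩ := cube_gen (e + 1) (sphCube (e + 1)) (unadj (cub a ha'))
  have h1 := zcls_adj_degree theCross (pLoop (sphCube (e + 1))) (unadj (cub a ha')) D0 hD0
  rw [adj_unadj, zcls_cub] at h1
  have h2 : scl a ha = zcls theCross (adj (pLoop (sphCube (e + 1)))) := (odd_of_smul_ne h1 hne).2
  -- the adjoint of `φ`
  have hq : 2 * e + 1 + 1 + 1 + 1 = (e + 1 + 1) + (e + 1 + 1) := by omega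
  let f := unadj (cub φ hφ')
  have h3 : Hom2 (pf (adj f).1 (theCross.zc (2 * e + 1 + 1)))
      (pf (muL (Sph (e + 1 + 1)) (pt (e + 1 + 1)))
      (theCross.cr (pf (adj (pLoop (sphCube (e + 1)))).1 (theCross.zc (e + 1)))
        (pf (adj (pLoop (sphCube (e + 1)))).1 (theCross.zc (e + 1))))) := by
    refine hom2_of_mk (ha := theCross.bd_pf_zc _ (adj f).1 GenLoop.const (adj f).2)
      (hb := bd_mu_cr _ _) ?_
    refine Eq.trans ?_ (pm_zcls _ _)
    show zcls theCross (adj (unadj (cub φ hφ'))) = _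
    rw [adj_unadj, zcls_cub]
    refine h.trans ?_
    rw [h2]
    rfl
  obtain ⟨D, hD, hD2⟩ := exists_odd hfund hA hq f h3
  exact hK e _ he hq f D hD hD2

end Crest.Agent.R204.HopfGlue339
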