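import Mathlib
import Crest.Agent.R204.HMainC_515
import Crest.Agent.R204.HDegQ_160

/-!
# Row 204, block H: co-H structure, smash and cell for cube spheres; final K-side theorem (helper515)
-/

set_option autoImplicit false

open scoped unitInterval Topology Topology.Homotopy

noncomputable section

namespace Crest.Agent.R204.HMain515

open H472 Ex837 ExM515 Diag484 HopfMap484 HDeg160 Freud661 CubeSph661
open K357 (K0 psi psi_map psi_comm psi_two)

/-! ## co-H structure of a collapsed cube -/

section CoH

variable {N : Type} {Y : Type} [TopologicalSpace Y] [T2Space Y] {y : Y}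





end CoH

/-! ## cube spheres -/

section CubeSphere

variable {S W : Type} [TopologicalSpace S] [T2Space S] [TopologicalSpace W]




end CubeSphere


/-- `K̃(S^N) = 0` -/
def KZero (N : Type) : Prop := ∀ x : KC (SA N), kN (fun _ => (0 : I)) x = 0 → x = 0


end Crest.Agent.R204.HMain515
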