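import Crest.Agent.R204.Tr_348

/-!
# Row 204, block G: change of coefficients (helper947)

`coC g K`, `coN g K`, `coH g K` (chains, normalised chains, homology) for every additive map
`g : R →+ S` between coefficient rings: functoriality, compatibility with induced maps and transfers,
exactness for short exact sequences of coefficients.
-/

set_option autoImplicit false

namespace Crest.Agent.R204.Coef947

open Finsupp Crest.Agent.R204

/-! ## additive maps of complexes -/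

section Hd

variable {R S Q M M' M'' : Type*} [CommRing R] [CommRing S] [CommRing Q]
  [AddCommGroup M] [Module R M] [AddCommGroup M'] [Module S M'] [AddCommGroup M''] [Module Q M'']

/-- map induced by an additive map commuting with the differentials -/
def amap {d : M →ₗ[R] M} {d' : M' →ₗ[S] M'} (f : M →+ M') (h : ∀ x, f (d x) = d' (f x)) :
    Hd d →+ Hd d' :=
  QuotientAddGroup.lift ((LinearMap.range d).comap (LinearMap.ker d).subtype).toAddSubgroup
    (AddMonoidHom.mk' (fun z : LinearMap.ker d => Hd.mk d' (f z.1) (by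
        rw [← h]; have := z.2; rw [LinearMap.mem_ker] at this; rw [this, map_zero]))
      (by
        intro a b
        show Submodule.Quotient.mk _ = Submodule.Quotient.mk _ + Submodule.Quotient.mk _
        rw [← Submodule.Quotient.mk_add]
        congr 1
        exact Subtype.ext (map_add f _ _)))
    (by
      intro z hz
      obtain ⟨w, hw⟩ := hz
      show Hd.mk d' _ _ = 0
      rw [Hd.mk_eq_zero]
      refine ⟨f w, ?_⟩
      rw [← h, hw]; rfl)

theorem amap_mk {d : M →ₗ[R] M} {d' : M' →ₗ[S] M'} (f : M →+ M') (h : ∀ x, f (d x) = d' (f x))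
    (z : M) (hz : d z = 0) :
    amap f h (Hd.mk d z hz) = Hd.mk d' (f z) (by rw [← h, hz, map_zero]) := rfl

theorem mk_congr {d : M →ₗ[R] M} {z z' : M} (hz : d z = 0) (hz' : d z' = 0) (e : z = z') :
    Hd.mk d z hz = Hd.mk d z' hz' := by subst e; rfl

theorem amap_comp {d : M →ₗ[R] M} {d' : M' →ₗ[S] M'} {d'' : M'' →ₗ[Q] M''} (f : M →+ M')
    (h : ∀ x, f (d x) = d' (f x)) (g : M' →+ M'') (h' : ∀ x, g (d' x) = d'' (g x))
    (k : M →+ M'') (h'' : ∀ x, k (d x) = d'' (k x)) (e : ∀ x, k x = g (f x)) (x : Hd d) :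
    amap g h' (amap f h x) = amap k h'' x := by
  obtain ⟨z, hz, rfl⟩ := Hd.mk_surj d x
  rw [amap_mk, amap_mk, amap_mk]
  exact mk_congr _ _ (e z).symm

/-- exactness in the middle -/
theorem amap_exact {d : M →ₗ[R] M} {d' : M' →ₗ[S] M'} {d'' : M'' →ₗ[Q] M''} (f : M →+ M')
    (h : ∀ x, f (d x) = d' (f x)) (g : M' →+ M'') (h' : ∀ x, g (d' x) = d'' (g x))
    (hi : Function.Injective f) (hex : ∀ y, g y = 0 ↔ ∃ x, f x = y)
    (hs : Function.Surjective g) (hdd : ∀ y, d' (d' y) = 0) (y : Hd d') :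
    amap g h' y = 0 ↔ ∃ x, amap f h x = y := by
  constructor
  · obtain ⟨z, hz, rfl⟩ := Hd.mk_surj d' y
    rw [amap_mk, Hd.mk_eq_zero]
    rintro ⟨w, hw⟩
    obtain ⟨w', rfl⟩ := hs w
    have h1 : g (z - d' w') = 0 := by rw [map_sub, h', hw, sub_self]
    obtain ⟨x, hx⟩ := (hex _).1 h1
    have hdx : d x = 0 := by
      apply hi
      rw [h, hx, map_sub, hz, hdd, sub_zero, map_zero]
    refine ⟨Hd.mk d x hdx, ?_⟩
    rw [amap_mk, Hd.mk_eq_mk]
    exact ⟨-w', by rw [map_neg, hx]; abel⟩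
  · rintro ⟨x, rfl⟩
    obtain ⟨z, hz, rfl⟩ := Hd.mk_surj d x
    rw [amap_mk, amap_mk, Hd.mk_eq_zero]
    exact ⟨0, by rw [map_zero, (hex _).2 ⟨z, rfl⟩]⟩

end Hd

/-! ## chains -/

section Ch

variable {R S Q : Type} [CommRing R] [CommRing S] [CommRing Q] {K L : SS}

theorem mem_Dg {c : Ch R K} : c ∈ Ch.Dg R K ↔ ∀ t, ¬ Ch.IsDgn K t → c t = 0 := by
  have : Ch.Dg R K = Finsupp.supported R R {t : K.T | Ch.IsDgn K t} := by
    rw [Finsupp.supported_eq_span_single]
    unfold Ch.Dg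
    congr 1
    ext c
    constructor
    · rintro ⟨t, ht, rfl⟩; exact ⟨t, ht, rfl⟩
    · rintro ⟨t, ht, rfl⟩; exact ⟨t, ht, rfl⟩
  rw [this, Finsupp.mem_supported']
  rfl

theorem mem_gr {n : ℕ} {c : Ch R K} : c ∈ Ch.gr R K n ↔ ∀ t : K.T, t.1 ≠ n → c t = 0 := by
  have : Ch.gr R K n = Finsupp.supported R R {t : K.T | t.1 = n} := by
    rw [Finsupp.supported_eq_span_single]
    unfold Ch.gr
    congr 1
    ext c
    constructor
    · rintro ⟨x, rfl⟩; exact ⟨⟨n, x⟩, rfl, rfl⟩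
    · rintro ⟨⟨m, x⟩, rfl, rfl⟩; exact ⟨x, rfl⟩
  rw [this, Finsupp.mem_supported']
  rfl

/-- change of coefficients on chains -/
noncomputable def coC (g : R →+ S) (K : SS) : Ch R K →+ Ch S K := Finsupp.mapRange.addMonoidHom g

@[simp] theorem coC_apply (g : R →+ S) (c : Ch R K) (t : K.T) : coC g K c t = g (c t) := rfl

@[simp] theorem coC_single (g : R →+ S) (t : K.T) (r : R) : coC g K (single t r) = single t (g r) := by
  simp [coC]

theorem map_neg_one_pow (g : R →+ S) (r : R) (i : ℕ) : g (r * (-1) ^ i) = g r * (-1) ^ i := by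
  rcases Nat.even_or_odd i with h | h
  · rw [h.neg_one_pow, h.neg_one_pow, mul_one, mul_one]
  · rw [h.neg_one_pow, h.neg_one_pow]; simp

theorem coC_bd (g : R →+ S) (c : Ch R K) : coC g K (Ch.bd R K c) = Ch.bd S K (coC g K c) := by
  induction c using Finsupp.induction_linear with
  | zero => simp
  | add f g hf hg => simp only [map_add, hf, hg]
  | single t r =>
    obtain ⟨n, x⟩ := t
    rcases n with _ | n
    · simp
    · rw [Ch.bd_single_succ, map_sum, coC_single, Ch.bd_single_succ]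
      refine Finset.sum_congr rfl fun i _ => ?_
      rw [coC_single, map_neg_one_pow]

theorem coC_map (g : R →+ S) (f : SS.Hom K L) (c : Ch R K) :
    coC g L (Ch.map R f c) = Ch.map S f (coC g K c) := by
  induction c using Finsupp.induction_linear with
  | zero => simp
  | add f g hf hg => simp only [map_add, hf, hg]
  | single t r => obtain ⟨n, x⟩ := t; simp

theorem coC_mem_Dg (g : R →+ S) {c : Ch R K} (hc : c ∈ Ch.Dg R K) : coC g K c ∈ Ch.Dg S K := by
  rw [mem_Dg] at hc ⊢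
  intro t ht
  rw [coC_apply, hc t ht, map_zero]


theorem coC_mem_gr (g : R →+ S) {n : ℕ} {c : Ch R K} (hc : c ∈ Ch.gr R K n) :
    coC g K c ∈ Ch.gr S K n := by
  rw [mem_gr] at hc ⊢
  intro t ht
  rw [coC_apply, hc t ht, map_zero]

end Ch

/-! ## normalised chains -/

section N

variable {R S Q : Type} [CommRing R] [CommRing S] [CommRing Q] {K L : SS}

/-- change of coefficients -/
noncomputable def coN (g : R →+ S) (K : SS) : N R K →+ N S K :=
  QuotientAddGroup.lift (Ch.Dg R K).toAddSubgroup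
    (((Submodule.mkQ (Ch.Dg S K)).toAddMonoidHom).comp (coC g K))
    (by
      intro c hc
      show Submodule.Quotient.mk _ = _
      rw [Submodule.Quotient.mk_eq_zero]
      exact coC_mem_Dg g hc)

theorem coN_mk (g : R →+ S) (c : Ch R K) :
    coN g K (Submodule.Quotient.mk c) = Submodule.Quotient.mk (coC g K c) := rfl

theorem coN_sx (g : R →+ S) {n : ℕ} (x : K.S n) (h : g 1 = 1) : coN g K (N.sx R x) = N.sx S x := by
  rw [N.sx, coN_mk, coC_single, h]; rfl

theorem coN_bd (g : R →+ S) (c : N R K) : coN g K (N.bd R K c) = N.bd S K (coN g K c) := by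
  obtain ⟨c, rfl⟩ := Submodule.Quotient.mk_surjective _ c
  rw [N.bd_mk, coN_mk, coN_mk, N.bd_mk, coC_bd]

theorem coN_map (g : R →+ S) (f : SS.Hom K L) (c : N R K) :
    coN g L (N.map R f c) = N.map S f (coN g K c) := by
  obtain ⟨c, rfl⟩ := Submodule.Quotient.mk_surjective _ c
  rw [N.map_mk, coN_mk, coN_mk, N.map_mk, coC_map]


theorem coN_mem_gr (g : R →+ S) {n : ℕ} {c : N R K} (hc : c ∈ N.gr R K n) :
    coN g K c ∈ N.gr S K n := by
  obtain ⟨c', hc', rfl⟩ := hc
  exact ⟨coC g K c', coC_mem_gr g hc', rfl⟩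

theorem coN_comp (g : R →+ S) (h : S →+ Q) (k : R →+ Q) (e : ∀ r, k r = h (g r)) (c : N R K) :
    coN h K (coN g K c) = coN k K c := by
  obtain ⟨c, rfl⟩ := Submodule.Quotient.mk_surjective _ c
  rw [coN_mk, coN_mk, coN_mk]
  congr 1
  ext t
  exact (e (c t)).symm


/-- scalar multiplication on the coefficients -/
theorem coN_smul (g : R →+ S) (r : R) (s : S) (h : ∀ x, g (r * x) = s * g x) (c : N R K) :
    coN g K (r • c) = s • coN g K c := by
  obtain ⟨c, rfl⟩ := Submodule.Quotient.mk_surjective _ c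
  rw [← Submodule.Quotient.mk_smul, coN_mk, coN_mk, ← Submodule.Quotient.mk_smul]
  congr 1
  ext t
  simp [h]

theorem coN_injective (g : R →+ S) (hg : Function.Injective g) : Function.Injective (coN g K) := by
  rw [injective_iff_map_eq_zero]
  intro c hc
  obtain ⟨c, rfl⟩ := Submodule.Quotient.mk_surjective _ c
  rw [coN_mk, Submodule.Quotient.mk_eq_zero, mem_Dg] at hc
  rw [Submodule.Quotient.mk_eq_zero, mem_Dg]
  intro t ht
  have := hc t ht
  rw [coC_apply] at this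
  exact hg (by rw [this, map_zero])

theorem coN_lift (g : R →+ S) (hg : Function.Surjective g) (c : Ch S K) :
    ∃ c' : Ch R K, coC g K c' = c ∧ ∀ t, c t = 0 → c' t = 0 := by
  classical
  obtain ⟨s, hs⟩ : ∃ s : S → R, ∀ r, g (s r) = r :=
    ⟨fun r => (hg r).choose, fun r => (hg r).choose_spec⟩
  let c' : Ch R K := Finsupp.onFinset c.support (fun t => if c t = 0 then 0 else s (c t)) (by
    intro t ht
    rw [Finsupp.mem_support_iff]
    intro h
    simp [h] at ht)
  refine ⟨c', ?_, ?_⟩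
  · ext t
    rw [coC_apply]
    simp only [c', Finsupp.onFinset_apply]
    split_ifs with h
    · rw [h, map_zero]
    · exact hs _
  · intro t h
    simp [c', h]

theorem coN_surjective_gr (g : R →+ S) (hg : Function.Surjective g) {n : ℕ} {c : N S K}
    (hc : c ∈ N.gr S K n) : ∃ c' ∈ N.gr R K n, coN g K c' = c := by
  obtain ⟨c, hc', rfl⟩ := hc
  obtain ⟨c', h1, h2⟩ := coN_lift g hg c
  rw [SetLike.mem_coe, mem_gr] at hc'
  refine ⟨Submodule.Quotient.mk c', ⟨c', ?_, rfl⟩, ?_⟩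
  · rw [SetLike.mem_coe, mem_gr]
    exact fun t ht => h2 t (hc' t ht)
  · rw [coN_mk, h1]; rfl

theorem coN_surjective (g : R →+ S) (hg : Function.Surjective g) : Function.Surjective (coN g K) := by
  intro c
  obtain ⟨c, rfl⟩ := Submodule.Quotient.mk_surjective _ c
  obtain ⟨c', h1, -⟩ := coN_lift g hg c
  exact ⟨Submodule.Quotient.mk c', by rw [coN_mk, h1]⟩

theorem coN_exact_gr (g : R →+ S) (h : S →+ Q) (hex : ∀ y, h y = 0 → ∃ x, g x = y) {n : ℕ}
    {c : N S K} (hn : c ∈ N.gr S K n) (hc : coN h K c = 0) : ∃ b ∈ N.gr R K n, coN g K b = c := by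
  obtain ⟨c, hc', rfl⟩ := hn
  rw [SetLike.mem_coe, mem_gr] at hc'
  rw [Submodule.mkQ_apply] at hc ⊢
  rw [coN_mk, Submodule.Quotient.mk_eq_zero, mem_Dg] at hc
  classical
  have hx : ∀ t : K.T, ∃ x, (¬ Ch.IsDgn K t → g x = c t) ∧ (c t = 0 → x = 0) := by
    intro t
    by_cases ht : Ch.IsDgn K t
    · exact ⟨0, fun h => absurd ht h, fun _ => rfl⟩
    · by_cases h0 : c t = 0
      · exact ⟨0, fun _ => by rw [h0, map_zero], fun _ => rfl⟩
      · obtain ⟨x, hx⟩ := hex (c t) (hc t ht)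
        exact ⟨x, fun _ => hx, fun h => absurd h h0⟩
  choose x hx1 hx2 using hx
  let b : Ch R K := Finsupp.onFinset c.support x (by
    intro t ht
    rw [Finsupp.mem_support_iff]
    intro h
    exact ht (hx2 t h))
  refine ⟨Submodule.Quotient.mk b, ⟨b, ?_, rfl⟩, ?_⟩
  · rw [SetLike.mem_coe, mem_gr]
    intro t ht
    exact hx2 t (hc' t ht)
  · rw [coN_mk, Submodule.Quotient.eq, mem_Dg]
    intro t ht
    rw [Finsupp.sub_apply, coC_apply]
    simp only [b, Finsupp.onFinset_apply]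
    rw [hx1 t ht, sub_self]

theorem coN_exact (g : R →+ S) (h : S →+ Q) (hex : ∀ y, h y = 0 ↔ ∃ x, g x = y) (c : N S K) :
    coN h K c = 0 ↔ ∃ b, coN g K b = c := by
  constructor
  · intro hc
    obtain ⟨c, rfl⟩ := Submodule.Quotient.mk_surjective _ c
    rw [coN_mk, Submodule.Quotient.mk_eq_zero, mem_Dg] at hc
    classical
    have hx : ∀ t : K.T, ∃ x, (¬ Ch.IsDgn K t → g x = c t) ∧ (c t = 0 → x = 0) := by
      intro t
      by_cases ht : Ch.IsDgn K t
      · exact ⟨0, fun h => absurd ht h, fun _ => rfl⟩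
      · by_cases h0 : c t = 0
        · exact ⟨0, fun _ => by rw [h0, map_zero], fun _ => rfl⟩
        · obtain ⟨x, hx⟩ := (hex (c t)).1 (hc t ht)
          exact ⟨x, fun _ => hx, fun h => absurd h h0⟩
    choose x hx1 hx2 using hx
    let b : Ch R K := Finsupp.onFinset c.support x (by
      intro t ht
      rw [Finsupp.mem_support_iff]
      intro h
      exact ht (hx2 t h))
    refine ⟨Submodule.Quotient.mk b, ?_⟩
    rw [coN_mk, Submodule.Quotient.eq, mem_Dg]
    intro t ht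
    rw [Finsupp.sub_apply, coC_apply]
    simp only [b, Finsupp.onFinset_apply]
    rw [hx1 t ht, sub_self]
  · rintro ⟨b, rfl⟩
    obtain ⟨b, rfl⟩ := Submodule.Quotient.mk_surjective _ b
    rw [coN_mk, coN_mk, Submodule.Quotient.mk_eq_zero, mem_Dg]
    intro t _
    rw [coC_apply, coC_apply]
    exact (hex _).2 ⟨_, rfl⟩

end N

/-! ## graded projections -/

section Gr

variable {R S : Type} [CommRing R] [CommRing S] {K L : SS}

/-- the `n`-dimensional part of a chain -/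
noncomputable def prC (R : Type) [CommRing R] (K : SS) (n : ℕ) : Ch R K →ₗ[R] Ch R K :=
  Finsupp.linearCombination R (fun t : K.T => if t.1 = n then single t 1 else 0)

theorem prC_single (n : ℕ) (t : K.T) (r : R) :
    prC R K n (single t r) = if t.1 = n then single t r else 0 := by
  rw [prC, Finsupp.linearCombination_single]
  split_ifs <;> simp

theorem prC_apply (n : ℕ) (c : Ch R K) (t : K.T) : prC R K n c t = if t.1 = n then c t else 0 := by
  induction c using Finsupp.induction_linear with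
  | zero => simp
  | add f g hf hg =>
    rw [map_add, Finsupp.add_apply, hf, hg, Finsupp.add_apply]
    split_ifs <;> simp
  | single s r =>
    rw [prC_single]
    by_cases hst : s = t
    · subst hst
      split_ifs <;> simp
    · by_cases h1 : s.1 = n
      · simp [h1, Finsupp.single_apply, hst]
      · simp [h1, Finsupp.single_apply, hst]

theorem prC_mem (n : ℕ) (c : Ch R K) : prC R K n c ∈ Ch.gr R K n := by
  rw [mem_gr]
  intro t ht
  rw [prC_apply, if_neg ht]

theorem prC_of_mem {n : ℕ} {c : Ch R K} (hc : c ∈ Ch.gr R K n) : prC R K n c = c := by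
  rw [mem_gr] at hc
  ext t
  rw [prC_apply]
  split_ifs with h
  · rfl
  · exact (hc t h).symm

theorem prC_bd (n : ℕ) (c : Ch R K) : prC R K n (Ch.bd R K c) = Ch.bd R K (prC R K (n + 1) c) := by
  induction c using Finsupp.induction_linear with
  | zero => simp
  | add f g hf hg => simp only [map_add, hf, hg]
  | single t r =>
    obtain ⟨m, x⟩ := t
    rcases m with _ | m
    · rw [Ch.bd_single_zero, map_zero, prC_single, if_neg (Nat.succ_ne_zero n).symm, map_zero]
    · rw [Ch.bd_single_succ, map_sum, prC_single]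
      by_cases h : m = n
      · subst h
        rw [if_pos rfl, Ch.bd_single_succ]
        refine Finset.sum_congr rfl fun i _ => ?_
        rw [prC_single, if_pos rfl]
      · rw [if_neg (fun e => h (Nat.succ_injective e)), map_zero]
        refine Finset.sum_eq_zero fun i _ => ?_
        rw [prC_single, if_neg h]

theorem prC_mem_Dg (n : ℕ) {c : Ch R K} (hc : c ∈ Ch.Dg R K) : prC R K n c ∈ Ch.Dg R K := by
  rw [mem_Dg] at hc ⊢
  intro t ht
  rw [prC_apply, hc t ht, ite_self]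

/-- the `n`-dimensional part of a normalised chain -/
noncomputable def prN (R : Type) [CommRing R] (K : SS) (n : ℕ) : N R K →ₗ[R] N R K :=
  Submodule.mapQ _ _ (prC R K n) (fun _ hc => prC_mem_Dg n hc)

theorem prN_mk (n : ℕ) (c : Ch R K) :
    prN R K n (Submodule.Quotient.mk c) = Submodule.Quotient.mk (prC R K n c) := rfl

theorem prN_mem (n : ℕ) (c : N R K) : prN R K n c ∈ N.gr R K n := by
  obtain ⟨c, rfl⟩ := Submodule.Quotient.mk_surjective _ c
  exact ⟨_, prC_mem n c, rfl⟩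

theorem prN_of_mem {n : ℕ} {c : N R K} (hc : c ∈ N.gr R K n) : prN R K n c = c := by
  obtain ⟨c, hc', rfl⟩ := hc
  show Submodule.Quotient.mk _ = Submodule.Quotient.mk _
  rw [prC_of_mem hc']

theorem prN_bd (n : ℕ) (c : N R K) : prN R K n (N.bd R K c) = N.bd R K (prN R K (n + 1) c) := by
  obtain ⟨c, rfl⟩ := Submodule.Quotient.mk_surjective _ c
  rw [N.bd_mk, prN_mk, prN_mk, N.bd_mk, prC_bd]

theorem bd_mem_gr {n : ℕ} {c : N R K} (hc : c ∈ N.gr R K (n + 1)) : N.bd R K c ∈ N.gr R K n := by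
  rw [← prN_of_mem hc, ← prN_bd]
  exact prN_mem _ _

theorem bd_gr_zero {c : N R K} (hc : c ∈ N.gr R K 0) : N.bd R K c = 0 := by
  obtain ⟨c, hc', rfl⟩ := hc
  show Submodule.Quotient.mk _ = _
  have : Ch.bd R K c = 0 := by
    refine Submodule.span_induction (p := fun c _ => Ch.bd R K c = 0) ?_ ?_ ?_ ?_ hc'
    · rintro _ ⟨x, rfl⟩; exact Ch.bd_single_zero _ _
    · simp
    · intro a b _ _ ha hb; rw [map_add, ha, hb, add_zero]
    · intro r a _ ha; rw [map_smul, ha, smul_zero]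
  rw [this]; rfl

/-- a homogeneous boundary is the boundary of a homogeneous chain -/
theorem exists_bd_gr {n : ℕ} {z w : N R K} (hz : z ∈ N.gr R K n) (hw : N.bd R K w = z) :
    ∃ w' ∈ N.gr R K (n + 1), N.bd R K w' = z :=
  ⟨prN R K (n + 1) w, prN_mem _ _, by rw [← prN_bd, hw, prN_of_mem hz]⟩

theorem map_mem_gr (f : SS.Hom K L) {n : ℕ} {c : N R K} (hc : c ∈ N.gr R K n) :
    N.map R f c ∈ N.gr R L n := by
  obtain ⟨c, hc', rfl⟩ := hc
  refine ⟨Ch.map R f c, ?_, rfl⟩
  refine Submodule.span_induction (p := fun c _ => Ch.map R f c ∈ Ch.gr R L n) ?_ ?_ ?_ ?_ hc'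
  · rintro _ ⟨x, rfl⟩
    rw [Ch.map_single]
    exact Submodule.subset_span ⟨_, rfl⟩
  · simp
  · intro a b _ _ ha hb; rw [map_add]; exact Submodule.add_mem _ ha hb
  · intro r a _ ha; rw [map_smul]; exact Submodule.smul_mem _ _ ha

end Gr

/-! ## homology -/

section H

variable {R S Q : Type} [CommRing R] [CommRing S] [CommRing Q] {K L : SS}

/-- change of coefficients in homology -/
noncomputable def coH (g : R →+ S) (K : SS) : H R K →+ H S K := amap (coN g K) (coN_bd g)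

theorem coH_mk (g : R →+ S) (z : N R K) (hz : N.bd R K z = 0) :
    coH g K (Hd.mk _ z hz) = Hd.mk _ (coN g K z) (by rw [← coN_bd, hz, map_zero]) := rfl

theorem coH_map (g : R →+ S) (f : SS.Hom K L) (x : H R K) :
    coH g L (H.map R f x) = H.map S f (coH g K x) := by
  obtain ⟨z, hz, rfl⟩ := Hd.mk_surj _ x
  rw [H.map, Hd.map_mk, coH_mk, coH_mk, H.map, Hd.map_mk]
  exact mk_congr _ _ (coN_map g f z)


theorem coH_comp (g : R →+ S) (h : S →+ Q) (k : R →+ Q) (e : ∀ r, k r = h (g r)) (x : H R K) :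
    coH h K (coH g K x) = coH k K x :=
  amap_comp _ _ _ _ _ _ (fun c => (coN_comp g h k e c).symm) x



theorem coH_mem_gr (g : R →+ S) {n : ℕ} {x : H R K} (hx : x ∈ H.gr R K n) :
    coH g K x ∈ H.gr S K n := by
  obtain ⟨⟨z, hz⟩, hz', rfl⟩ := hx
  refine ⟨⟨coN g K z, ?_⟩, coN_mem_gr g hz', rfl⟩
  rw [LinearMap.mem_ker] at hz ⊢
  rw [← coN_bd, hz, map_zero]

theorem coH_exact (g : R →+ S) (h : S →+ Q) (hg : Function.Injective g)
    (hex : ∀ y, h y = 0 ↔ ∃ x, g x = y) (hh : Function.Surjective h) (y : H S K) :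
    coH h K y = 0 ↔ ∃ x, coH g K x = y :=
  amap_exact _ _ _ _ (coN_injective g hg) (coN_exact g h hex) (coN_surjective h hh) N.bd_bd y

/-- representatives -/
theorem exists_rep {n : ℕ} {x : H R K} (hx : x ∈ H.gr R K n) :
    ∃ (z : N R K) (hz : N.bd R K z = 0), z ∈ N.gr R K n ∧ x = Hd.mk _ z hz := by
  obtain ⟨⟨z, hz⟩, hz', rfl⟩ := hx
  exact ⟨z, hz, hz', rfl⟩

theorem mk_mem_gr {n : ℕ} {z : N R K} (hz : N.bd R K z = 0) (h : z ∈ N.gr R K n) :
    Hd.mk _ z hz ∈ H.gr R K n := ⟨⟨z, hz⟩, h, rfl⟩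

end H

/-! ## the rings `ZMod n` -/

section ZMod

/-- reduction `Z/b → Z/c` for `c ∣ b` -/
noncomputable def rho (b c : ℕ) (h : c ∣ b) : ZMod b →+ ZMod c :=
  (ZMod.castHom h (ZMod c)).toAddMonoidHom


theorem rho_intCast (b c : ℕ) (h : c ∣ b) (k : ℤ) : rho b c h (k : ZMod b) = k :=
  map_intCast (ZMod.castHom h (ZMod c)) k


theorem rho_mul (b c : ℕ) (h : c ∣ b) (x y : ZMod b) : rho b c h (x * y) = rho b c h x * rho b c h y :=
  map_mul (ZMod.castHom h (ZMod c)) x y

theorem rho_surjective (b c : ℕ) (h : c ∣ b) : Function.Surjective (rho b c h) :=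
  ZMod.ringHom_surjective (ZMod.castHom h (ZMod c))

theorem rho_rho (a b c : ℕ) (h : b ∣ a) (h' : c ∣ b) (x : ZMod a) :
    rho b c h' (rho a b h x) = rho a c (h'.trans h) x := by
  obtain ⟨k, rfl⟩ := ZMod.intCast_surjective x
  simp only [rho_intCast]

/-- `i : Z/a → Z/b`, `b = a c`, multiplication by `c` -/
noncomputable def inj (a b c : ℕ) (h : b = a * c) : ZMod a →+ ZMod b :=
  ZMod.lift a ⟨((Int.castAddHom (ZMod b)).comp (AddMonoidHom.mulLeft (c : ℤ))), by
      show (((c : ℤ) * ((a : ℕ) : ℤ) : ℤ) : ZMod b) = 0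
      have : ((c : ℤ) * ((a : ℕ) : ℤ) : ℤ) = ((b : ℕ) : ℤ) := by
        rw [h]; push_cast; ring
      rw [this, Int.cast_natCast, ZMod.natCast_self]⟩

theorem inj_intCast (a b c : ℕ) (h : b = a * c) (k : ℤ) :
    inj a b c h (k : ZMod a) = ((c * k : ℤ) : ZMod b) := by
  unfold inj
  rw [ZMod.lift_coe]
  rfl

theorem inj_injective (a b c : ℕ) (h : b = a * c) (hc : c ≠ 0) : Function.Injective (inj a b c h) := by
  rw [injective_iff_map_eq_zero]
  intro x hx
  obtain ⟨k, rfl⟩ := ZMod.intCast_surjective x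
  rw [inj_intCast, ZMod.intCast_zmod_eq_zero_iff_dvd] at hx
  rw [ZMod.intCast_zmod_eq_zero_iff_dvd]
  obtain ⟨q, hq⟩ := hx
  refine ⟨q, ?_⟩
  have h2 : (c : ℤ) ≠ 0 := by exact_mod_cast hc
  apply mul_left_cancel₀ h2
  rw [hq, h]
  push_cast
  ring

theorem inj_exact (a b c : ℕ) (h : b = a * c) (h' : c ∣ b) (y : ZMod b) :
    rho b c h' y = 0 ↔ ∃ x, inj a b c h x = y := by
  obtain ⟨k, rfl⟩ := ZMod.intCast_surjective y
  rw [rho_intCast, ZMod.intCast_zmod_eq_zero_iff_dvd]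
  constructor
  · rintro ⟨q, rfl⟩
    exact ⟨(q : ZMod a), by rw [inj_intCast]⟩
  · rintro ⟨x, hx⟩
    obtain ⟨q, rfl⟩ := ZMod.intCast_surjective x
    rw [inj_intCast, ZMod.intCast_eq_intCast_iff_dvd_sub] at hx
    obtain ⟨s, hs⟩ := hx
    refine ⟨q + a * s, ?_⟩
    rw [h] at hs
    push_cast at hs ⊢
    have : k = c * q + a * c * s := by linarith
    rw [this]; ring


/-- `i (x) * y = i (x * ρ y)` -/
theorem inj_mul_right (a b c : ℕ) (h : b = a * c) (h' : a ∣ b) (x : ZMod a) (y : ZMod b) :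
    inj a b c h x * y = inj a b c h (x * rho b a h' y) := by
  obtain ⟨q, rfl⟩ := ZMod.intCast_surjective x
  obtain ⟨k, rfl⟩ := ZMod.intCast_surjective y
  rw [rho_intCast, ← Int.cast_mul, inj_intCast, inj_intCast, ← Int.cast_mul]
  congr 1
  ring


/-- `ρ (i x) = i (ρ x)`: `Z/a → Z/b → Z/b'` equals `Z/a → Z/a' → Z/b'` -/
theorem rho_inj_comm (a b c a' b' : ℕ) (h : b = a * c) (h' : b' = a' * c) (ha : a' ∣ a) (hb : b' ∣ b)
    (x : ZMod a) : rho b b' hb (inj a b c h x) = inj a' b' c h' (rho a a' ha x) := by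
  obtain ⟨q, rfl⟩ := ZMod.intCast_surjective x
  rw [inj_intCast, rho_intCast, rho_intCast, inj_intCast]

variable {K : SS}

/-- exactness of `H(K; Z/a) → H(K; Z/b) → H(K; Z/c)`, `b = a c` -/
theorem coH_inj_exact (a b c : ℕ) (h : b = a * c) (h' : c ∣ b) (hc : c ≠ 0) (y : H (ZMod b) K) :
    coH (rho b c h') K y = 0 ↔ ∃ x, coH (inj a b c h) K x = y :=
  coH_exact _ _ (inj_injective a b c h hc) (inj_exact a b c h h') (rho_surjective _ _ _) y

/-- graded exactness -/
theorem coH_inj_exact_gr (a b c : ℕ) (h : b = a * c) (h' : c ∣ b) (hc : c ≠ 0) {n : ℕ}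
    {y : H (ZMod b) K} (hy : y ∈ H.gr (ZMod b) K n) (h0 : coH (rho b c h') K y = 0) :
    ∃ x ∈ H.gr (ZMod a) K n, coH (inj a b c h) K x = y := by
  obtain ⟨z, hz, hz', rfl⟩ := exists_rep hy
  rw [coH_mk, Hd.mk_eq_zero] at h0
  obtain ⟨w, hw⟩ := h0
  obtain ⟨w', hw', hw''⟩ := exists_bd_gr (coN_mem_gr _ hz') hw
  obtain ⟨v, hv, rfl⟩ := coN_surjective_gr (rho b c h') (rho_surjective _ _ _) hw'
  have h1 : coN (rho b c h') K (z - N.bd _ K v) = 0 := by
    rw [map_sub, coN_bd, hw'', sub_self]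
  obtain ⟨x, hx, hx'⟩ := coN_exact_gr (inj a b c h) (rho b c h')
    (fun y hy => (inj_exact a b c h h' y).1 hy) (Submodule.sub_mem _ hz' (bd_mem_gr hv)) h1
  have hdx : N.bd (ZMod a) K x = 0 := by
    apply coN_injective (inj a b c h) (inj_injective a b c h hc)
    rw [coN_bd, hx', map_sub, hz, N.bd_bd, sub_zero, map_zero]
  refine ⟨Hd.mk _ x hdx, mk_mem_gr hdx hx, ?_⟩
  rw [coH_mk, Hd.mk_eq_mk]
  exact ⟨-v, by rw [map_neg, hx']; abel⟩

end ZMod

/-! ## relative acyclicity in one degree: from `F2` to `Z/2^N` -/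

section Rel

variable {R : Type} [CommRing R] {K L : SS}

/-- `H_{j-1}(f)` injective and `H_j(f)` surjective (on chain level); `G` = chains of `K` of dimension `j-1` -/
def RelAcy (R : Type) [CommRing R] (f : SS.Hom K L) (G : Submodule R (N R K)) (j : ℕ) : Prop :=
  ∀ x ∈ G, ∀ y ∈ N.gr R L j, N.bd R K x = 0 → N.map R f x = N.bd R L y →
    ∃ w ∈ N.gr R K j, ∃ u ∈ N.gr R L (j + 1), N.bd R K w = x ∧ y = N.map R f w + N.bd R L u

theorem map_bd' (f : SS.Hom K L) (c : N R K) : N.map R f (N.bd R K c) = N.bd R L (N.map R f c) :=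
  LinearMap.congr_fun (N.map_bd (R := R) f) c

/-- injective in degree `j`, surjective in degree `j+1` -/
theorem relAcy_succ_iff (f : SS.Hom K L) (j : ℕ) :
    RelAcy R f (N.gr R K j) (j + 1) ↔
      (∀ x ∈ H.gr R K j, H.map R f x = 0 → x = 0) ∧
      (∀ y ∈ H.gr R L (j + 1), ∃ x ∈ H.gr R K (j + 1), H.map R f x = y) := by
  constructor
  · intro h
    constructor
    · intro x hx h0
      obtain ⟨z, hz, hz', rfl⟩ := exists_rep hx
      rw [H.map, Hd.map_mk, Hd.mk_eq_zero] at h0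
      obtain ⟨y, hy⟩ := h0
      obtain ⟨y', hy', hy''⟩ := exists_bd_gr (map_mem_gr f hz') hy
      obtain ⟨w, -, u, -, hw, -⟩ := h z hz' y' hy' hz hy''.symm
      rw [Hd.mk_eq_zero]
      exact ⟨w, hw⟩
    · intro y hy
      obtain ⟨z, hz, hz', rfl⟩ := exists_rep hy
      obtain ⟨w, hw, u, -, hw0, hu⟩ := h 0 (Submodule.zero_mem _) z hz' (map_zero _)
        (by rw [map_zero, hz])
      refine ⟨Hd.mk _ w hw0, mk_mem_gr hw0 hw, ?_⟩
      rw [H.map, Hd.map_mk, Hd.mk_eq_mk]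
      exact ⟨-u, by rw [map_neg, hu]; abel⟩
  · rintro ⟨h1, h2⟩ x hx y hy hx0 hxy
    have := h1 (Hd.mk _ x hx0) (mk_mem_gr hx0 hx) (by
      rw [H.map, Hd.map_mk, Hd.mk_eq_zero]; exact ⟨y, hxy.symm⟩)
    rw [Hd.mk_eq_zero] at this
    obtain ⟨w, hw⟩ := this
    obtain ⟨w, hw', rfl⟩ := exists_bd_gr hx hw
    have hc : N.bd R L (y - N.map R f w) = 0 := by
      rw [map_sub, ← map_bd', hxy, sub_self]
    obtain ⟨x', hx', hxx⟩ := h2 (Hd.mk _ (y - N.map R f w) hc)
      (mk_mem_gr hc (Submodule.sub_mem _ hy (map_mem_gr f hw')))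
    obtain ⟨z, hz, hz', rfl⟩ := exists_rep hx'
    rw [H.map, Hd.map_mk, Hd.mk_eq_mk] at hxx
    obtain ⟨u, hu⟩ := hxx
    obtain ⟨u', hu', hu''⟩ := exists_bd_gr (z := N.map R f z - (y - N.map R f w))
      (Submodule.sub_mem _ (map_mem_gr f hz') (Submodule.sub_mem _ hy (map_mem_gr f hw'))) hu
    refine ⟨w + z, Submodule.add_mem _ hw' hz', -u', Submodule.neg_mem _ hu', ?_, ?_⟩
    · rw [map_add, hz, add_zero]
    · rw [map_neg, hu'', map_add]; abel


/-- inductive step: extension of coefficients `0 → Z/a → Z/b → Z/c → 0` -/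
theorem relAcy_ext (a b c : ℕ) (h : b = a * c) (h' : c ∣ b) (hc : c ≠ 0) (f : SS.Hom K L)
    (G : ∀ (R : Type) [CommRing R], Submodule R (N R K)) (j : ℕ)
    (hG1 : ∀ (g : ZMod b →+ ZMod c) (x), x ∈ G (ZMod b) → coN g K x ∈ G (ZMod c))
    (hG2 : ∀ x ∈ N.gr (ZMod b) K j, N.bd (ZMod b) K x ∈ G (ZMod b))
    (hG3 : ∀ x ∈ G (ZMod b), coN (rho b c h') K x = 0 → ∃ y ∈ G (ZMod a), coN (inj a b c h) K y = x)
    (ha : RelAcy (ZMod a) f (G (ZMod a)) j) (hcc : RelAcy (ZMod c) f (G (ZMod c)) j) :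
    RelAcy (ZMod b) f (G (ZMod b)) j := by
  intro x hx y hy hx0 hxy
  obtain ⟨w, hw, u, hu, hwx, hyu⟩ := hcc (coN (rho b c h') K x) (hG1 _ x hx)
    (coN (rho b c h') L y) (coN_mem_gr _ hy) (by rw [← coN_bd, hx0, map_zero])
    (by rw [← coN_map, hxy, coN_bd])
  obtain ⟨w, hw', rfl⟩ := coN_surjective_gr (rho b c h') (rho_surjective _ _ _) hw
  obtain ⟨u, hu', rfl⟩ := coN_surjective_gr (rho b c h') (rho_surjective _ _ _) hu
  -- corrected pair
  have h1 : coN (rho b c h') K (x - N.bd _ K w) = 0 := by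
    rw [map_sub, coN_bd, hwx, sub_self]
  have h2 : coN (rho b c h') L (y - N.map _ f w - N.bd _ L u) = 0 := by
    rw [map_sub, map_sub, coN_bd, coN_map, hyu]; abel
  obtain ⟨x1, hx1, hx1'⟩ := hG3 _ (Submodule.sub_mem _ hx (hG2 w hw')) h1
  obtain ⟨y1, hy1, hy1'⟩ := coN_exact_gr (inj a b c h) (rho b c h')
    (fun y hy => (inj_exact a b c h h' y).1 hy)
    (Submodule.sub_mem _ (Submodule.sub_mem _ hy (map_mem_gr f hw')) (bd_mem_gr hu')) h2
  have inj1 := coN_injective (K := K) (inj a b c h) (inj_injective a b c h hc)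
  have inj2 := coN_injective (K := L) (inj a b c h) (inj_injective a b c h hc)
  obtain ⟨w1, hw1, u1, hu1, hwx1, hyu1⟩ := ha x1 hx1 y1 hy1
    (by apply inj1; rw [coN_bd, hx1', map_sub, hx0, N.bd_bd, sub_zero, map_zero])
    (by
      apply inj2
      rw [coN_map, hx1', coN_bd, hy1', map_sub, hxy, map_bd', map_sub, map_sub, N.bd_bd, sub_zero])
  refine ⟨w + coN (inj a b c h) K w1, Submodule.add_mem _ hw' (coN_mem_gr _ hw1),
    u + coN (inj a b c h) L u1, Submodule.add_mem _ hu' (coN_mem_gr _ hu1), ?_, ?_⟩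
  · rw [map_add, ← coN_bd, hwx1, hx1']; abel
  · have e : y - N.map _ f w - N.bd _ L u =
        N.map _ f (coN (inj a b c h) K w1) + N.bd _ L (coN (inj a b c h) L u1) := by
      rw [← hy1', hyu1, map_add, coN_map, coN_bd]
    rw [map_add, map_add, sub_eq_iff_eq_add, sub_eq_iff_eq_add] at *
    rw [e]; abel

theorem relAcy_pow_succ (f : SS.Hom K L) (j : ℕ)
    (h2 : RelAcy F2 f (N.gr F2 K j) (j + 1)) (k : ℕ) :
    RelAcy (ZMod (2 ^ (k + 1))) f (N.gr (ZMod (2 ^ (k + 1))) K j) (j + 1) := by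
  induction k with
  | zero => exact h2
  | succ k ih =>
    refine relAcy_ext (2 ^ (k + 1)) (2 ^ (k + 1 + 1)) 2 (pow_succ _ _) (dvd_pow_self 2 (Nat.succ_ne_zero _))
      two_ne_zero f (fun R _ => N.gr R K j) (j + 1) (fun g x hx => coN_mem_gr g hx)
      (fun x hx => bd_mem_gr hx) ?_ ih h2
    intro x hx h0
    exact coN_exact_gr _ _ (fun y hy => (inj_exact _ _ _ _ _ y).1 hy) hx h0


/-- MAIN: mod 2 injective in degree `j` and surjective in degree `j+1` gives the same mod `2^(k+1)` -/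
theorem inj_surj_pow (f : SS.Hom K L) (j : ℕ)
    (h1 : ∀ x ∈ H.gr F2 K j, H.map F2 f x = 0 → x = 0)
    (h2 : ∀ y ∈ H.gr F2 L (j + 1), ∃ x ∈ H.gr F2 K (j + 1), H.map F2 f x = y) (k : ℕ) :
    (∀ x ∈ H.gr (ZMod (2 ^ (k + 1))) K j, H.map (ZMod (2 ^ (k + 1))) f x = 0 → x = 0) ∧
    (∀ y ∈ H.gr (ZMod (2 ^ (k + 1))) L (j + 1), ∃ x ∈ H.gr (ZMod (2 ^ (k + 1))) K (j + 1),
      H.map (ZMod (2 ^ (k + 1))) f x = y) :=
  (relAcy_succ_iff f j).1 (relAcy_pow_succ f j ((relAcy_succ_iff f j).2 ⟨h1, h2⟩) k)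

end Rel

end Crest.Agent.R204.Coef947
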