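import Crest.Agent.R204.DK_742

/-!
# Row 204, block A2: `H((A × L)/Z2) = H(Q (N L))` for `A = E Z/2` or `A = sk_M E Z/2`,
from Eilenberg-Zilber data.   owner helper742
-/

set_option autoImplicit false

namespace Crest.Agent.R204.DK742

open Finsupp SS TensorProduct

/-- Eilenberg-Zilber data for a pair of simplicial sets with involutions: what is needed from the
natural Eilenberg-Zilber theorem. -/
structure EZData (K L : SS) (g : Invo K) (τ : Invo L) where
  nab : N F2 K →ₗ[F2] N F2 L →ₗ[F2] N F2 (K.prod L)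
  nab_g : ∀ a b, N.map F2 (g.prod τ).g (nab a b) = nab (N.map F2 g.g a) (N.map F2 τ.g b)
  nab_bd : ∀ a b, N.bd F2 _ (nab a b) = nab (N.bd F2 _ a) b + nab a (N.bd F2 _ b)
  aw : N F2 (K.prod L) →ₗ[F2] N F2 K ⊗[F2] N F2 L
  aw_g : ∀ z, aw (N.map F2 (g.prod τ).g z) = TensorProduct.map (N.map F2 g.g) (N.map F2 τ.g) (aw z)
  aw_nab : ∀ a b, aw (nab a b) = a ⊗ₜ b
  hom : N F2 (K.prod L) →ₗ[F2] N F2 (K.prod L)
  hom_g : ∀ z, hom (N.map F2 (g.prod τ).g z) = N.map F2 (g.prod τ).g (hom z)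
  homotopy : ∀ z, TensorProduct.lift nab (aw z) = z + N.bd F2 _ (hom z) + hom (N.bd F2 _ z)

theorem N_map_invol {K : SS} (g : Invo K) (c : N F2 K) : N.map F2 g.g (N.map F2 g.g c) = c := by
  have : N.map F2 g.g ∘ₗ N.map F2 g.g = LinearMap.id := by
    refine N_ext F2 fun n x => ?_
    rw [LinearMap.comp_apply, N.map_sx, N.map_sx, g.invol]; rfl
  exact LinearMap.congr_fun this c

section

variable (X : AltSS) {L : SS} (τ : Invo L)

/-- `τ` or the identity -/
noncomputable def tw (b : ZMod 2) : N F2 L →ₗ[F2] N F2 L :=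
  if b = 0 then LinearMap.id else N.map F2 τ.g

theorem tw_zero : tw τ 0 = LinearMap.id := by simp [tw]
theorem tw_one : tw τ 1 = N.map F2 τ.g := by
  simp [tw]

theorem tw_add_one (b : ZMod 2) (c : N F2 L) : tw τ (b + 1) (N.map F2 τ.g c) = tw τ b c := by
  rcases zmod2_cases b with rfl | rfl
  · rw [zero_add, tw_one, N_map_invol, tw_zero]; rfl
  · have : (1 + 1 : ZMod 2) = 0 := by decide
    rw [this, tw_zero, tw_one]; rfl

open Classical in
/-- `κ` on simplices -/
noncomputable def kapS (n : ℕ) (x : X.A.S n) : N F2 L →ₗ[F2] Q X.M (N F2 L) :=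
  if h : X.j.app n x = alt n (X.j.app n x 0) then
    Finsupp.lsingle (⟨n, X.alt_le n x _ h⟩ : Idx X.M) ∘ₗ tw τ (X.j.app n x 0)
  else 0

/-- `κ : N(A) ⊗ N(L) → Q(N L)`, `e_i ⊗ c ↦ e_i ⊗ c`, `g e_i ⊗ c ↦ e_i ⊗ τ c` -/
noncomputable def kap : N F2 X.A →ₗ[F2] N F2 L →ₗ[F2] Q X.M (N F2 L) :=
  nLift F2 (kapS X τ) (by
    intro n k y
    rw [kapS, dif_neg]
    rw [X.j.nat]
    exact dgn_ne_alt k _ _)

theorem kap_e (n : ℕ) (h : (n : ℕ∞) ≤ X.M) (b : ZMod 2) (c : N F2 L) :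
    kap X τ (N.sx F2 (X.e n h b)) c = single ⟨n, h⟩ (tw τ b c) := by
  have h1 : X.j.app n (X.e n h b) = alt n (X.j.app n (X.e n h b) 0) := by
    rw [X.j_e, alt_zero]
  rw [kap, nLift_sx, kapS, dif_pos h1, LinearMap.comp_apply, Finsupp.lsingle_apply]
  rw [X.j_e, alt_zero]

theorem kap_g (a : N F2 X.A) (c : N F2 L) :
    kap X τ (N.map F2 X.g.g a) (N.map F2 τ.g c) = kap X τ a c := by
  have : (LinearMap.lcomp F2 _ (N.map F2 τ.g)) ∘ₗ (kap X τ ∘ₗ N.map F2 X.g.g) = kap X τ := by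
    refine N_ext F2 fun n x => ?_
    refine LinearMap.ext fun c => ?_
    rw [LinearMap.comp_apply, LinearMap.comp_apply, LinearMap.lcomp_apply, N.map_sx]
    by_cases h : X.j.app n x = alt n (X.j.app n x 0)
    · have h' := X.alt_le n x _ h
      rw [X.eq_e x _ h h', X.g_e, kap_e, kap_e, tw_add_one]
    · rw [X.sx_eq_zero' x h, map_zero, LinearMap.zero_apply]
      have : N.sx F2 (X.g.g.app n x) = N.map F2 X.g.g (N.sx F2 x) := (N.map_sx _ _).symm
      rw [this, X.sx_eq_zero' x h, map_zero, map_zero, LinearMap.zero_apply]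
  have := LinearMap.congr_fun (LinearMap.congr_fun this a) c
  simpa using this

variable {X τ}

/-- `Φ(e_i ⊗ c) = [e_i ∇ c]` -/
noncomputable def Phi (nab : N F2 X.A →ₗ[F2] N F2 L →ₗ[F2] N F2 (X.A.prod L)) :
    Q X.M (N F2 L) →ₗ[F2] N F2 (orb (X.A.prod L) (X.g.prod τ)) :=
  Finsupp.lsum F2 fun i : Idx X.M =>
    N.map F2 (proj (X.g.prod τ)) ∘ₗ nab (N.sx F2 (X.e i.1 i.2 0))

theorem Phi_single (nab : N F2 X.A →ₗ[F2] N F2 L →ₗ[F2] N F2 (X.A.prod L)) (i : Idx X.M)
    (c : N F2 L) : Phi (τ := τ) nab (single i c) =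
      N.map F2 (proj (X.g.prod τ)) (nab (N.sx F2 (X.e i.1 i.2 0)) c) := by
  rw [Phi, Finsupp.lsum_single]; rfl

variable (D : EZData X.A L X.g τ)

theorem proj_nab_g (a : N F2 X.A) (c : N F2 L) :
    N.map F2 (proj (X.g.prod τ)) (D.nab (N.map F2 X.g.g a) (N.map F2 τ.g c)) =
      N.map F2 (proj (X.g.prod τ)) (D.nab a c) := by
  rw [← D.nab_g, N_map_g_proj]

theorem proj_nab_g' (a : N F2 X.A) (c : N F2 L) :
    N.map F2 (proj (X.g.prod τ)) (D.nab (N.map F2 X.g.g a) c) =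
      N.map F2 (proj (X.g.prod τ)) (D.nab a (N.map F2 τ.g c)) := by
  rw [← proj_nab_g D a, N_map_invol]

theorem map_bd' {K L : SS} (f : Hom K L) (c : N F2 K) :
    N.map F2 f (N.bd F2 K c) = N.bd F2 L (N.map F2 f c) := LinearMap.congr_fun (N.map_bd f) c

/-- `Φ` is a chain map -/
theorem Phi_D : Phi (τ := τ) D.nab ∘ₗ Q.D X.M (N.bd F2 L) (N.map F2 τ.g) =
    N.bd F2 _ ∘ₗ Phi (τ := τ) D.nab := by
  refine Finsupp.lhom_ext' fun i => LinearMap.ext fun c => ?_
  obtain ⟨i, hi⟩ := i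
  simp only [LinearMap.comp_apply, Finsupp.lsingle_apply]
  rw [Phi_single, ← map_bd', D.nab_bd]
  rcases i with _ | i
  · rw [Q.D_single_zero, Phi_single, X.bd_e_zero, map_zero, LinearMap.zero_apply, zero_add]
  · have e1 : N.sx F2 (X.e i (X.le_pred hi) 1) = N.map F2 X.g.g (N.sx F2 (X.e i (X.le_pred hi) 0)) := by
      rw [N.map_sx, X.g_e, zero_add]
    rw [Q.D_single_succ _ _ i hi (X.le_pred hi), map_add, Phi_single, Phi_single, X.bd_e_succ,
      zero_add, e1]
    simp only [map_add, LinearMap.add_apply, proj_nab_g' D]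
    abel

/-- `Φ κ(a ⊗ c) = [a ∇ c]` -/
theorem Phi_kap (a : N F2 X.A) (c : N F2 L) :
    Phi (τ := τ) D.nab (kap X τ a c) = N.map F2 (proj (X.g.prod τ)) (D.nab a c) := by
  have : (LinearMap.llcomp F2 _ _ _ (Phi (τ := τ) D.nab)) ∘ₗ kap X τ =
      (LinearMap.llcomp F2 _ _ _ (N.map F2 (proj (X.g.prod τ)))) ∘ₗ D.nab := by
    refine N_ext F2 fun n x => ?_
    refine LinearMap.ext fun c => ?_
    simp only [LinearMap.comp_apply, LinearMap.llcomp_apply]
    by_cases h : X.j.app n x = alt n (X.j.app n x 0)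
    · have h' := X.alt_le n x _ h
      obtain ⟨b, hb⟩ : ∃ b, x = X.e n h' b := ⟨_, X.eq_e x _ h h'⟩
      subst hb
      rw [kap_e, Phi_single]
      rcases zmod2_cases b with rfl | rfl
      · rw [tw_zero]; rfl
      · rw [tw_one]
        dsimp only
        rw [← proj_nab_g' D, N.map_sx, X.g_e, zero_add]
    · rw [X.sx_eq_zero' x h, map_zero, map_zero, LinearMap.zero_apply, LinearMap.zero_apply,
        map_zero, map_zero]
  have := LinearMap.congr_fun (LinearMap.congr_fun this a) c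
  simpa using this

/-- `Ψ : N((A × L)/Z2) → Q(N L)` -/
noncomputable def Psi : N F2 (orb (X.A.prod L) (X.g.prod τ)) →ₗ[F2] Q X.M (N F2 L) :=
  orbDesc F2 (X.g.prod τ) (TensorProduct.lift (kap X τ) ∘ₗ D.aw) (by
    intro z
    rw [LinearMap.comp_apply, LinearMap.comp_apply, D.aw_g]
    generalize D.aw z = t
    induction t using TensorProduct.induction_on with
    | zero => simp
    | tmul a c => simp [kap_g]
    | add x y hx hy => simp only [map_add, hx, hy])

theorem Psi_proj (z : N F2 (X.A.prod L)) :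
    Psi D (N.map F2 (proj (X.g.prod τ)) z) = TensorProduct.lift (kap X τ) (D.aw z) := by
  rw [Psi, orbDesc_proj]; rfl

theorem Psi_Phi (q : Q X.M (N F2 L)) : Psi D (Phi (τ := τ) D.nab q) = q := by
  have : Psi D ∘ₗ Phi (τ := τ) D.nab = LinearMap.id := by
    refine Finsupp.lhom_ext' fun i => LinearMap.ext fun c => ?_
    simp only [LinearMap.comp_apply, Finsupp.lsingle_apply, LinearMap.id_apply]
    rw [Phi_single, Psi_proj, D.aw_nab, TensorProduct.lift.tmul, kap_e, tw_zero]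
    rfl
  exact LinearMap.congr_fun this q

/-- the homotopy on the orbit complex -/
noncomputable def orbHom : N F2 (orb (X.A.prod L) (X.g.prod τ)) →ₗ[F2]
    N F2 (orb (X.A.prod L) (X.g.prod τ)) :=
  orbDesc F2 (X.g.prod τ) (N.map F2 (proj (X.g.prod τ)) ∘ₗ D.hom) (by
    intro z
    rw [LinearMap.comp_apply, LinearMap.comp_apply, D.hom_g, N_map_g_proj])

theorem Phi_Psi (y : N F2 (orb (X.A.prod L) (X.g.prod τ))) :
    Phi (τ := τ) D.nab (Psi D y) = y + N.bd F2 _ (orbHom D y) + orbHom D (N.bd F2 _ y) := by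
  obtain ⟨z, rfl⟩ := N_map_proj_surj F2 (X.g.prod τ) y
  rw [Psi_proj, orbHom, orbDesc_proj, ← map_bd', orbDesc_proj, LinearMap.comp_apply,
    LinearMap.comp_apply, ← map_bd', ← map_add, ← map_add, ← D.homotopy]
  generalize D.aw z = t
  induction t using TensorProduct.induction_on with
  | zero => simp
  | tmul a c => rw [TensorProduct.lift.tmul, TensorProduct.lift.tmul, Phi_kap]
  | add x y hx hy => simp only [map_add, hx, hy]

theorem Phi_injective : Function.Injective (Phi (τ := τ) D.nab) :=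
  Function.LeftInverse.injective (Psi_Phi D)

theorem Psi_bd (y : N F2 (orb (X.A.prod L) (X.g.prod τ))) :
    Psi D (N.bd F2 _ y) = Q.D X.M (N.bd F2 L) (N.map F2 τ.g) (Psi D y) := by
  apply Phi_injective D
  have h1 := LinearMap.congr_fun (Phi_D D) (Psi D y)
  simp only [LinearMap.comp_apply] at h1
  rw [h1, Phi_Psi, Phi_Psi, N.bd_bd, map_zero, map_add, map_add, N.bd_bd, add_zero, add_zero]


end

end Crest.Agent.R204.DK742
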