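import Crest.Agent.R204.EZHtp_271
import Crest.Agent.R204.QCb_134
import Crest.Agent.R204.DK2_742

/-!
# Row 204, block A-EZ (helper271): Eilenberg-Zilber over `F2`: quasi-isomorphism (form of 134),
Künneth basis, `EZData` of 742.
-/

set_option autoImplicit false

namespace Crest.Agent.R204.EZ271

open TensorProduct

variable {K L : SS}

@[simp] theorem sg_F2 (z : N F2 K) : sg F2 z = z := by
  have : sg F2 (K := K) = LinearMap.id := by
    refine hom_ext fun n x => ?_
    have h : (-1 : F2) = 1 := by decide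
    simp [h]
  rw [this, LinearMap.id_apply]

theorem sg_F2' : sg F2 (K := K) = LinearMap.id := LinearMap.ext sg_F2

theorem tbd_F2 : tbd F2 K L = QC134.dT (N.bd F2 K) (N.bd F2 L) := by
  rw [tbd, sg_F2', QC134.dT]

theorem bd_cross_F2 (a : N F2 K) (b : N F2 L) :
    N.bd F2 _ (cross F2 a b) = cross F2 (N.bd F2 K a) b + cross F2 a (N.bd F2 L b) := by
  rw [bd_cross, sg_F2]

theorem hEZ_homotopy_F2 (z : N F2 (K.prod L)) :
    N.bd F2 _ (hEZ F2 z) + crossT F2 (aw F2 z) + hEZ F2 (N.bd F2 _ z) = z := by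
  have h := hEZ_homotopy F2 z
  rw [QC134.sub_eq'] at h
  rw [add_right_comm, h, add_right_comm, QC134.add_self', zero_add]

/-- Eilenberg-Zilber theorem over `F2`, in the quasi-isomorphism language of `QC134` -/
theorem qi_crossT : QC134.QI (QC134.dT (N.bd F2 K) (N.bd F2 L)) (N.bd F2 (K.prod L)) (crossT F2) := by
  refine QC134.QI.of_homotopyEquiv (g := aw F2) (s := 0) (s' := hEZ F2) ?_ ?_ ?_ ?_
  · intro x; rw [bd_crossT, tbd_F2]
  · intro x; rw [← bd_aw, tbd_F2]
  · intro x; rw [aw_crossT]; simp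
  · exact hEZ_homotopy_F2

theorem qi_cross : QC134.QI (QC134.dT (N.bd F2 K) (N.bd F2 L)) (N.bd F2 (K.prod L))
    (TensorProduct.lift (cross F2)) := qi_crossT


/-- Künneth theorem in basis form -/
theorem hbasis_cross {J J' : Type*} {b : J → N F2 K} {b' : J' → N F2 L}
    (h : QC134.HBasis (N.bd F2 K) b) (h' : QC134.HBasis (N.bd F2 L) b') :
    QC134.HBasis (N.bd F2 (K.prod L)) (fun p : J × J' => cross F2 (b p.1) (b' p.2)) := by
  have h1 := (h.tensor N.bd_bd N.bd_bd h').map (qi_crossT (K := K) (L := L))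
  simpa using h1

/-- the Eilenberg-Zilber package needed by `DK742` -/
noncomputable def ezData (g : DK742.Invo K) (τ : DK742.Invo L) : DK742.EZData K L g τ where
  nab := cross F2
  nab_g a b := map_cross F2 g.g τ.g a b
  nab_bd := bd_cross_F2
  aw := aw F2
  aw_g z := aw_map F2 g.g τ.g z
  aw_nab := aw_cross F2
  hom := hEZ F2
  hom_g z := hEZ_map F2 g.g τ.g z
  homotopy z := by
    have h := hEZ_homotopy F2 z
    rw [QC134.sub_eq'] at h
    change crossT F2 (aw F2 z) = _
    rw [add_assoc, h, add_comm z, QC134.add_add_self]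

end Crest.Agent.R204.EZ271
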