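import Crest.Agent.R204.Deg_718
import Crest.Agent.R204.Coef_947
import Crest.Agent.R204.Gr_334
import Crest.Agent.R204.EZF2_271
import Crest.Agent.R204.EZSym_847
import Crest.Agent.R204.Coalg_847
import Crest.Agent.R204.Prd_328
import Crest.Agent.R204.Sq2_252

-- ▼ part R204/Pont_718
section

/-!
# Row 204, leaf G4 (helper718): the Pontryagin square on cochains, `P(ũ) = ũ ∪ ũ + 2 (u ∪₁ v)`,
`δũ = 2v`.
-/

set_option autoImplicit false

namespace Crest.Agent.R204.Pont718

open EZ271 Finsupp Coef947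

abbrev Z4 := ZMod 4

/-- reduction mod 2 -/
def c42 : Z4 →+* F2 := ZMod.castHom (by norm_num) (ZMod 2)

/-- multiplication by two `F2 → Z4` -/
def dblf : F2 →+ Z4 where
  toFun a := if a = 0 then 0 else 2
  map_zero' := by simp
  map_add' := by decide


/-- set-theoretic lift -/
def lift4 (a : F2) : Z4 := if a = 0 then 0 else 1

theorem lift4_zero : lift4 0 = 0 := rfl

theorem c42_lift4 (a : F2) : c42 (lift4 a) = a := by
  revert a; decide

theorem dblf_mul (a : F2) (b : Z4) : dblf a * b = dblf (a * c42 b) := by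
  revert a b; decide

theorem mul_dblf (a : F2) (b : Z4) : b * dblf a = dblf (c42 b * a) := by
  rw [mul_comm, dblf_mul, mul_comm]

theorem two_mul_c42 (b : Z4) : 2 * b = dblf (c42 b) := by
  revert b; decide

theorem c42_dblf (a : F2) : c42 (dblf a) = 0 := by
  revert a; decide

theorem dblf_injective : Function.Injective dblf := by
  intro a b; revert a b; decide


/-- half of an even element -/
def half4 (b : Z4) : F2 := if b = 2 then 1 else 0

theorem half4_zero : half4 0 = 0 := rfl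

theorem dblf_half4 {b : Z4} (h : c42 b = 0) : dblf (half4 b) = b := by
  revert b; decide

theorem even_mul_even {a b : Z4} (ha : c42 a = 0) (hb : c42 b = 0) : a * b = 0 := by
  revert a b; decide


theorem two_sq (a : Z4) : a * a + a * a = dblf (c42 a) := by
  revert a; decide

variable {K L : SS}

/-- reduction of chains mod 2 -/
noncomputable abbrev rho (K : SS) : N Z4 K →+ N F2 K := coN c42.toAddMonoidHom K

/-- twice a mod 2 chain -/
noncomputable abbrev inc (K : SS) : N F2 K →+ N Z4 K := coN dblf K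

theorem rho_sx {n : ℕ} (x : K.S n) : rho K (N.sx Z4 x) = N.sx F2 x :=
  coN_sx _ _ (map_one c42)

theorem rho_smul (r : Z4) (c : N Z4 K) : rho K (r • c) = c42 r • rho K c :=
  coN_smul _ _ _ (fun x => map_mul c42 r x) c

theorem rho_bd (c : N Z4 K) : rho K (N.bd Z4 K c) = N.bd F2 K (rho K c) := coN_bd _ c

theorem rho_map (f : SS.Hom K L) (c : N Z4 K) : rho L (N.map Z4 f c) = N.map F2 f (rho K c) :=
  coN_map _ f c

theorem rho_sg (c : N Z4 K) : rho K (sg Z4 c) = rho K c := by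
  refine N_induction (R := Z4) (K := K) (p := fun c => rho K (sg Z4 c) = rho K c) c ?_ ?_ ?_ ?_
  · simp
  · intro a b ha hb; rw [map_add, map_add, map_add, ha, hb]
  · intro r a ha; rw [map_smul, rho_smul, rho_smul, ha]
  · intro n x
    rw [sg_sx, rho_smul, rho_sx]
    have : c42 ((-1) ^ n) = 1 := by
      rw [map_pow]
      have : c42 (-1) = 1 := by decide
      rw [this, one_pow]
    rw [this, one_smul]

theorem rho_c (A : Cone K) (c : N Z4 K) : rho K (A.c Z4 c) = A.c F2 (rho K c) := by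
  refine N_induction (R := Z4) (K := K) (p := fun c => rho K (A.c Z4 c) = A.c F2 (rho K c)) c ?_ ?_ ?_ ?_
  · simp
  · intro a b ha hb; rw [map_add, map_add, map_add, map_add, ha, hb]
  · intro r a ha; rw [map_smul, rho_smul, rho_smul, ha, map_smul]
  · intro n x
    rw [Cone.c_sx, rho_sx, rho_sx, Cone.c_sx]


theorem rho_E : ∀ (n p q : ℕ) (_ : p + q = n), rho _ (E Z4 p q) = E F2 p q := by
  intro n
  induction n with
  | zero =>
    intro p q h
    obtain rfl : p = 0 := by omega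
    obtain rfl : q = 0 := by omega
    rw [E_zero_zero, E_zero_zero, rho_sx]
  | succ n ih =>
    intro p q h
    rcases p with _ | p <;> rcases q with _ | q
    · omega
    · rw [E_zero_succ, E_zero_succ, rho_c, rho_map, ih 0 q (by omega)]
    · rw [E_succ_zero, E_succ_zero, rho_c, rho_map, ih p 0 (by omega)]
    · rw [E_succ_succ, E_succ_succ, rho_c, map_add, rho_smul, rho_map, rho_map,
        ih p (q + 1) (by omega), ih (p + 1) q (by omega)]
      congr 3
      rw [map_pow, map_neg, map_one]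

theorem rho_cross (X : N Z4 K) (Y : N Z4 L) :
    rho (K.prod L) (cross Z4 X Y) = cross F2 (rho K X) (rho L Y) := by
  refine N_induction (R := Z4) (K := K)
    (p := fun X => rho (K.prod L) (cross Z4 X Y) = cross F2 (rho K X) (rho L Y)) X ?_ ?_ ?_ ?_
  · simp
  · intro a b ha hb
    rw [map_add, LinearMap.add_apply, map_add, map_add, map_add, LinearMap.add_apply, ha, hb]
  · intro r a ha
    rw [map_smul, LinearMap.smul_apply, rho_smul, rho_smul, ha, map_smul, LinearMap.smul_apply]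
  · intro p x
    refine N_induction (R := Z4) (K := L)
      (p := fun Y => rho (K.prod L) (cross Z4 (N.sx Z4 x) Y) =
        cross F2 (rho K (N.sx Z4 x)) (rho L Y)) Y ?_ ?_ ?_ ?_
    · simp
    · intro a b ha hb; rw [map_add, map_add, map_add, map_add, ha, hb]
    · intro r a ha; rw [map_smul, rho_smul, rho_smul, ha, map_smul]
    · intro q y
      rw [cross_sx, rho_map, rho_E _ p q rfl, rho_sx, rho_sx, cross_sx]

/-! ## reduction, doubling and lifting of cochains -/

/-- reduction of a `Z4`-cochain -/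
noncomputable def red (a : Co Z4 K) : Co F2 K :=
  liftN (fun _ x => c42 (a (N.sx Z4 x))) (fun n j y => by rw [N.sx_dgn, map_zero, map_zero])

/-- twice an `F2`-cochain -/
noncomputable def dbl (u : Co F2 K) : Co Z4 K :=
  liftN (fun _ x => dblf (u (N.sx F2 x))) (fun n j y => by rw [N.sx_dgn, map_zero, map_zero])

/-- lift of an `F2`-cochain -/
noncomputable def lf (u : Co F2 K) : Co Z4 K :=
  liftN (fun _ x => lift4 (u (N.sx F2 x))) (fun n j y => by rw [N.sx_dgn, map_zero, lift4_zero])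

/-- half of a cochain -/
noncomputable def hlf (a : Co Z4 K) : Co F2 K :=
  liftN (fun _ x => half4 (a (N.sx Z4 x))) (fun n j y => by rw [N.sx_dgn, map_zero, half4_zero])

@[simp] theorem red_sx (a : Co Z4 K) {n : ℕ} (x : K.S n) : red a (N.sx F2 x) = c42 (a (N.sx Z4 x)) := by
  simp [red]
@[simp] theorem dbl_sx (u : Co F2 K) {n : ℕ} (x : K.S n) : dbl u (N.sx Z4 x) = dblf (u (N.sx F2 x)) := by
  simp [dbl]
@[simp] theorem lf_sx (u : Co F2 K) {n : ℕ} (x : K.S n) : lf u (N.sx Z4 x) = lift4 (u (N.sx F2 x)) := by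
  simp [lf]
@[simp] theorem hlf_sx (a : Co Z4 K) {n : ℕ} (x : K.S n) : hlf a (N.sx F2 x) = half4 (a (N.sx Z4 x)) := by
  simp [hlf]

theorem red_eval (a : Co Z4 K) (c : N Z4 K) : red a (rho K c) = c42 (a c) := by
  refine N_induction (R := Z4) (K := K) (p := fun c => red a (rho K c) = c42 (a c)) c ?_ ?_ ?_ ?_
  · simp
  · intro x y hx hy; rw [map_add, map_add, map_add, map_add, hx, hy]
  · intro r x hx
    rw [rho_smul, map_smul, map_smul, hx, smul_eq_mul, smul_eq_mul, map_mul]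
  · intro n x
    rw [rho_sx, red_sx]

theorem dbl_eval (u : Co F2 K) (c : N Z4 K) : dbl u c = dblf (u (rho K c)) := by
  refine N_induction (R := Z4) (K := K) (p := fun c => dbl u c = dblf (u (rho K c))) c ?_ ?_ ?_ ?_
  · simp
  · intro x y hx hy; rw [map_add, map_add, map_add, map_add, hx, hy]
  · intro r x hx
    rw [rho_smul, map_smul, map_smul, hx, smul_eq_mul, smul_eq_mul, mul_dblf]
  · intro n x
    rw [rho_sx, dbl_sx]

theorem inc_smul (r : F2) (c : N F2 K) : inc K (r • c) = lift4 r • inc K c :=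
  coN_smul _ _ _ (fun x => by revert r x; decide) c

theorem inc_eval (a : Co Z4 K) (c : N F2 K) : a (inc K c) = dblf (red a c) := by
  refine N_induction (R := F2) (K := K) (p := fun c => a (inc K c) = dblf (red a c)) c ?_ ?_ ?_ ?_
  · simp
  · intro x y hx hy; rw [map_add, map_add, map_add, map_add, hx, hy]
  · intro r x hx
    rw [inc_smul, map_smul, map_smul, hx, smul_eq_mul, smul_eq_mul]
    generalize red a x = t
    revert r t; decide
  · intro n x
    have : inc K (N.sx F2 x) = (2 : Z4) • N.sx Z4 x := by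
      rw [N.sx, coN_mk, coC_single, N.sx, ← Submodule.Quotient.mk_smul]
      congr 1
      rw [Finsupp.smul_single]
      congr 1
    rw [this, map_smul, red_sx, smul_eq_mul, two_mul_c42]

theorem red_lf (u : Co F2 K) : red (lf u) = u := by
  refine hom_ext fun n x => ?_
  rw [red_sx, lf_sx, c42_lift4]

theorem red_add (a b : Co Z4 K) : red (a + b) = red a + red b := by
  refine hom_ext fun n x => ?_
  simp

theorem red_neg (a : Co Z4 K) : red (-a) = red a := by
  refine hom_ext fun n x => ?_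
  rw [red_sx, LinearMap.neg_apply, map_neg, red_sx]
  exact f2_neg _

theorem red_sub (a b : Co Z4 K) : red (a - b) = red a + red b := by
  rw [sub_eq_add_neg, red_add, red_neg]

theorem red_zero : red (0 : Co Z4 K) = 0 := by
  refine hom_ext fun n x => ?_
  simp

theorem red_sum {ι : Type*} (s : Finset ι) (a : ι → Co Z4 K) :
    red (∑ i ∈ s, a i) = ∑ i ∈ s, red (a i) := by
  classical
  induction s using Finset.induction_on with
  | empty => simp [red_zero]
  | insert i s hi ih => rw [Finset.sum_insert hi, Finset.sum_insert hi, red_add, ih]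

theorem dbl_add (u v : Co F2 K) : dbl (u + v) = dbl u + dbl v := by
  refine hom_ext fun n x => ?_
  simp

theorem dbl_zero : dbl (0 : Co F2 K) = 0 := by
  refine hom_ext fun n x => ?_
  simp

theorem dbl_sum {ι : Type*} (s : Finset ι) (a : ι → Co F2 K) :
    dbl (∑ i ∈ s, a i) = ∑ i ∈ s, dbl (a i) := by
  classical
  induction s using Finset.induction_on with
  | empty => simp [dbl_zero]
  | insert i s hi ih => rw [Finset.sum_insert hi, Finset.sum_insert hi, dbl_add, ih]

theorem dbl_injective : Function.Injective (dbl (K := K)) := by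
  intro u v h
  refine hom_ext fun n x => ?_
  have := LinearMap.congr_fun h (N.sx Z4 x)
  rw [dbl_sx, dbl_sx] at this
  exact dblf_injective this

theorem dbl_add_self (u : Co F2 K) : dbl u + dbl u = 0 := by
  rw [← dbl_add, f2_add_self, dbl_zero]

theorem dbl_neg (u : Co F2 K) : - dbl u = dbl u :=
  neg_eq_of_add_eq_zero_left (dbl_add_self u)

theorem red_dbl (u : Co F2 K) : red (dbl u) = 0 := by
  refine hom_ext fun n x => ?_
  rw [red_sx, dbl_sx, c42_dblf]; rfl

theorem dbl_hlf {a : Co Z4 K} (h : red a = 0) : dbl (hlf a) = a := by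
  refine hom_ext fun n x => ?_
  rw [dbl_sx, hlf_sx]
  refine dblf_half4 ?_
  rw [← red_sx, h]; rfl

theorem red_map (f : SS.Hom K L) (a : Co Z4 L) : red (a ∘ₗ N.map Z4 f) = red a ∘ₗ N.map F2 f := by
  refine hom_ext fun n x => ?_
  simp

theorem dbl_map (f : SS.Hom K L) (a : Co F2 L) : dbl (a ∘ₗ N.map F2 f) = dbl a ∘ₗ N.map Z4 f := by
  refine hom_ext fun n x => ?_
  simp

theorem red_bd (a : Co Z4 K) : red (a ∘ₗ N.bd Z4 K) = red a ∘ₗ N.bd F2 K := by
  refine hom_ext fun n x => ?_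
  rw [← rho_sx, red_eval, LinearMap.comp_apply, LinearMap.comp_apply, ← rho_bd, red_eval]

theorem dbl_bd (a : Co F2 K) : dbl (a ∘ₗ N.bd F2 K) = dbl a ∘ₗ N.bd Z4 K := by
  refine LinearMap.ext fun c => ?_
  rw [dbl_eval, LinearMap.comp_apply, LinearMap.comp_apply, dbl_eval, rho_bd]

theorem red_aug : red (aug Z4 (K := K)) = aug F2 := by
  refine hom_ext fun n x => ?_
  rcases n with _ | n <;> simp

theorem red_cup (a b : Co Z4 K) : red (cup a b) = cup (red a) (red b) := by
  refine hom_ext fun n x => ?_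
  rw [red_sx, cup_sx, cup_sx, map_sum]
  refine Finset.sum_congr rfl fun p _ => ?_
  rw [map_mul, red_sx, red_sx]

theorem cup_dbl_left (u : Co F2 K) (b : Co Z4 K) : cup (dbl u) b = dbl (cup u (red b)) := by
  refine hom_ext fun n x => ?_
  rw [dbl_sx, cup_sx, cup_sx, map_sum]
  refine Finset.sum_congr rfl fun p _ => ?_
  rw [dbl_sx, dblf_mul, red_sx]

theorem cup_dbl_right (u : Co F2 K) (b : Co Z4 K) : cup b (dbl u) = dbl (cup (red b) u) := by
  refine hom_ext fun n x => ?_
  rw [dbl_sx, cup_sx, cup_sx, map_sum]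
  refine Finset.sum_congr rfl fun p _ => ?_
  rw [dbl_sx, mul_dblf, red_sx]

theorem red_crs (a : Co Z4 K) (b : Co Z4 L) : red (crs a b) = crs (red a) (red b) := by
  unfold crs
  rw [red_cup, red_map, red_map]

theorem crs_dbl_left (u : Co F2 K) (b : Co Z4 L) : crs (dbl u) b = dbl (crs u (red b)) := by
  unfold crs
  rw [← dbl_map, cup_dbl_left, red_map]

theorem crs_dbl_right (a : Co Z4 K) (u : Co F2 L) : crs a (dbl u) = dbl (crs (red a) u) := by
  unfold crs
  rw [← dbl_map, cup_dbl_right, red_map]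

theorem IsDeg.red {m : ℕ} {a : Co Z4 K} (ha : IsDeg m a) : IsDeg m (Pont718.red a) :=
  fun n x h => by rw [red_sx, ha n x h, map_zero]

theorem IsDeg.lf {m : ℕ} {a : Co F2 K} (ha : IsDeg m a) : IsDeg m (Pont718.lf a) :=
  fun n x h => by rw [lf_sx, ha n x h, lift4_zero]

theorem IsDeg.dbl {m : ℕ} {a : Co F2 K} (ha : IsDeg m a) : IsDeg m (Pont718.dbl a) :=
  fun n x h => by rw [dbl_sx, ha n x h, map_zero]

theorem IsDeg.hlf {m : ℕ} {a : Co Z4 K} (ha : IsDeg m a) : IsDeg m (Pont718.hlf a) :=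
  fun n x h => by rw [hlf_sx, ha n x h, half4_zero]

/-! ## Pontryagin square -/

/-- a `Z4`-cochain of even degree whose coboundary is `2v` -/
structure PC (K : SS) (m : ℕ) where
  a : Co Z4 K
  v : Co F2 K
  deg : IsDeg m a
  bd : a ∘ₗ N.bd Z4 K = dbl v

namespace PC

variable {m : ℕ}

theorem red_bd (u : PC K m) : red u.a ∘ₗ N.bd F2 K = 0 := by
  rw [← Pont718.red_bd, u.bd, red_dbl]

theorem v_bd (u : PC K m) : u.v ∘ₗ N.bd F2 K = 0 := by
  refine dbl_injective ?_
  rw [dbl_bd, ← u.bd, dbl_zero]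
  refine LinearMap.ext fun c => ?_
  simp only [LinearMap.comp_apply, N.bd_bd, map_zero, LinearMap.zero_apply]

theorem v_deg (u : PC K m) : IsDeg (m + 1) u.v := fun n x h => by
  have h1 := u.deg.bd n x h
  rw [u.bd, dbl_sx] at h1
  exact dblf_injective (by rw [h1, map_zero])

/-- the bilinear form `a ∪ b + 2 (red a ∪₁ v_b)` -/
noncomputable def B (u w : PC K m) : Co Z4 K := cup u.a w.a + dbl (cup1 (red u.a) w.v)

/-- the Pontryagin square -/
noncomputable def P (u : PC K m) : Co Z4 K := B u u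

/-- sum -/
noncomputable def add (u w : PC K m) : PC K m where
  a := u.a + w.a
  v := u.v + w.v
  deg := u.deg.add w.deg
  bd := by rw [LinearMap.add_comp, u.bd, w.bd, dbl_add]

/-- pull back -/
noncomputable def map (f : SS.Hom K L) (u : PC L m) : PC K m where
  a := u.a ∘ₗ N.map Z4 f
  v := u.v ∘ₗ N.map F2 f
  deg := u.deg.map f
  bd := by rw [comp_map_bd, u.bd, dbl_map]

theorem P_map (f : SS.Hom K L) (u : PC L m) : (u.map f).P = u.P ∘ₗ N.map Z4 f := by
  unfold P B map
  simp only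
  rw [LinearMap.add_comp, cup_map, ← dbl_map, cup1_map, red_map]

theorem P_bd (hm : Even m) (u : PC K m) : u.P ∘ₗ N.bd Z4 K = 0 := by
  unfold P B
  rw [LinearMap.add_comp, cup_bd, u.deg.sg_even hm, u.bd, cup_dbl_left, cup_dbl_right, ← dbl_bd,
    cup1_bd, u.red_bd, u.v_bd, cup1_zero_left, cup1_zero_right]
  rw [← dbl_add, ← dbl_add, add_zero, add_zero,
    show cup u.v (red u.a) + cup (red u.a) u.v + (cup (red u.a) u.v + cup u.v (red u.a)) =
      (cup u.v (red u.a) + cup (red u.a) u.v) + (cup u.v (red u.a) + cup (red u.a) u.v) by abel,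
    f2_add_self, dbl_zero]

/-- `P` only depends on the cochain mod 2 (evaluated on cycles) -/
theorem P_add_dbl (u w : PC K m) (c : Co F2 K) (h : w.a = u.a + dbl c) (z : N Z4 K)
    (hz : N.bd Z4 K z = 0) : w.P z = u.P z := by
  have hv : w.v = u.v + c ∘ₗ N.bd F2 K := by
    refine dbl_injective ?_
    rw [← w.bd, h, LinearMap.add_comp, u.bd, ← dbl_bd, dbl_add]
  have hr : red w.a = red u.a := by rw [h, red_add, red_dbl, add_zero]
  have key : w.P = u.P + dbl (cup1 (red u.a) c) ∘ₗ N.bd Z4 K := by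
    unfold P B
    rw [hv, hr, h, cup_add_left, cup_add_right, cup_add_right, cup_dbl_left, cup_dbl_left,
      cup_dbl_right, red_dbl, cup_zero_right, dbl_zero, cup1_add_right, dbl_add, ← dbl_bd,
      cup1_bd, u.red_bd, cup1_zero_left, dbl_add, dbl_add, dbl_add, dbl_zero]
    abel
  rw [key, LinearMap.add_apply, LinearMap.comp_apply, hz, map_zero, add_zero]

/-- adding a coboundary does not change `P` on cycles -/
theorem P_add_bd (hm : Even m) (hm0 : 0 < m) (u w : PC K m) (b : Co Z4 K) (hb : IsDeg (m - 1) b)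
    (h : w.a = u.a + b ∘ₗ N.bd Z4 K) (z : N Z4 K) (hz : N.bd Z4 K z = 0) : w.P z = u.P z := by
  have hbb : (b ∘ₗ N.bd Z4 K) ∘ₗ N.bd Z4 K = 0 := by
    refine LinearMap.ext fun c => ?_
    simp only [LinearMap.comp_apply, N.bd_bd, map_zero, LinearMap.zero_apply]
  have hv : w.v = u.v := by
    refine dbl_injective ?_
    rw [← w.bd, h, LinearMap.add_comp, hbb, add_zero, u.bd]
  have hr : red w.a = red u.a + red b ∘ₗ N.bd F2 K := by rw [h, red_add, Pont718.red_bd]
  have hbs : b ∘ₗ sg Z4 = -b := by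
    have hodd : Odd (m - 1) := Nat.Even.sub_odd hm0 hm odd_one
    rw [hb.sg, hodd.neg_one_pow]
    exact LinearMap.ext fun c => by
      rw [LinearMap.smul_apply, LinearMap.neg_apply, smul_eq_mul, neg_mul, one_mul]
  have e1 := cup_bd u.a b
  rw [u.deg.sg_even hm, u.bd, cup_dbl_left] at e1
  have e2 := cup_bd b u.a
  rw [hbs, u.bd, cup_neg_left, cup_dbl_right, dbl_neg] at e2
  have e3 := cup_bd b (b ∘ₗ N.bd Z4 K)
  rw [hbb, cup_zero_right, add_zero] at e3
  have e4 : dbl (cup1 (red b) u.v) ∘ₗ N.bd Z4 K = dbl (cup (red b) u.v) + dbl (cup u.v (red b)) +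
      dbl (cup1 (red b ∘ₗ N.bd F2 K) u.v) := by
    rw [← dbl_bd, cup1_bd, u.v_bd, cup1_zero_right, dbl_add, dbl_add, dbl_add, dbl_zero, add_zero]
  have key : w.P = u.P + (cup u.a b ∘ₗ N.bd Z4 K + cup b u.a ∘ₗ N.bd Z4 K +
      cup b (b ∘ₗ N.bd Z4 K) ∘ₗ N.bd Z4 K + dbl (cup1 (red b) u.v) ∘ₗ N.bd Z4 K) := by
    rw [e1, e2, e3, e4]
    unfold P B
    rw [hv, hr, h, cup_add_left, cup_add_right, cup_add_right, cup1_add_left, dbl_add]
    have t1 := dbl_add_self (cup (red b) u.v)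
    have t2 := dbl_add_self (cup u.v (red b))
    rw [← sub_eq_zero]
    have : ∀ (x1 x2 x3 x4 x5 x6 y1 y2 : Co Z4 K), y1 + y1 = 0 → y2 + y2 = 0 →
        x1 + x2 + (x3 + x4) + (x5 + x6) -
        (x1 + x5 + (y2 + x2 + (x3 + y1) + x4 + (y1 + y2 + x6))) = 0 := by
      intro x1 x2 x3 x4 x5 x6 y1 y2 h1 h2
      have : x1 + x2 + (x3 + x4) + (x5 + x6) -
        (x1 + x5 + (y2 + x2 + (x3 + y1) + x4 + (y1 + y2 + x6))) = -(y1 + y1) - (y2 + y2) := by abel
      rw [this, h1, h2]; simp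
    exact this _ _ _ _ _ _ _ _ t1 t2
  rw [key]
  simp only [LinearMap.add_apply, LinearMap.comp_apply, hz, map_zero, add_zero]

end PC

end Crest.Agent.R204.Pont718
end

-- ▼ part R204/PontMain_718
section

/-!
# Row 204, leaf G4 (helper718): evaluation of the Pontryagin square on `z × z` and on spherical
simplices; main theorem of 8.6 in chain form.
-/

set_option autoImplicit false

namespace Crest.Agent.R204.Pont718

open EZ271 Coef947

variable {K L X : SS}

theorem red_comp_sg (a : Co Z4 K) : red (a ∘ₗ sg Z4) = red a := by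
  refine hom_ext fun n x => ?_
  rw [← rho_sx, red_eval, LinearMap.comp_apply, ← red_eval, rho_sg]

/-! ## spherical simplices -/

theorem op_factor {l k : ℕ} (α : Op l (k + 1)) (h : l < k + 1) :
    ∃ (i : Fin (k + 2)) (β : Op l k), α = (Op.face i).comp β := by
  have hns : ¬ Function.Surjective α := by
    intro hs
    have := Fintype.card_le_of_surjective _ hs
    simp only [Fintype.card_fin] at this
    omega
  obtain ⟨i, hi⟩ := not_forall.1 hns
  have hi' : ∀ a, (α a : ℕ) ≠ i := fun a h => hi ⟨a, Fin.ext h⟩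
  refine ⟨i, ⟨fun a => ⟨if (α a : ℕ) < i then (α a : ℕ) else α a - 1, ?_⟩, ?_⟩, ?_⟩
  · have h1 := (α a).2
    have h2 := hi' a
    have h3 := i.2
    split_ifs <;> omega
  · intro a b hab
    have h1 : (α a : ℕ) ≤ α b := α.monotone hab
    have h2 := hi' a
    have h3 := hi' b
    simp only [Fin.mk_le_mk]
    split_ifs <;> omega
  · refine OrderHom.ext _ _ (funext fun a => Fin.ext ?_)
    simp only [OrderHom.comp_coe, Function.comp_apply]
    rw [Ch.face_val]
    simp only [OrderHom.coe_mk]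
    have h2 := hi' a
    split_ifs <;> omega

/-- proper faces (of positive dimension) of a simplex all of whose faces are constant vanish -/
theorem sph_act {R : Type} [CommRing R] {k : ℕ} (A : X.S (k + 1)) (e : X.S 0)
    (hA : ∀ i : Fin (k + 2), X.act (Op.face i) A = X.act (⟨fun _ => 0, fun _ _ _ => le_rfl⟩ : Op k 0) e)
    {l : ℕ} (α : Op l (k + 1)) (hl : 1 ≤ l) (h : l < k + 1) : N.sx R (X.act α A) = 0 := by
  obtain ⟨i, β, rfl⟩ := op_factor α h
  rw [X.act_comp, hA, ← X.act_comp]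
  exact sx_act_eq_zero _ _ 0 (by omega) rfl

theorem PC.P_sph {m k : ℕ} (u : PC X m) (hm : 0 < m) (hk : k + 1 = 2 * m) (A : X.S (k + 1)) (e : X.S 0)
    (hA : ∀ i : Fin (k + 2), X.act (Op.face i) A = X.act (⟨fun _ => 0, fun _ _ _ => le_rfl⟩ : Op k 0) e) :
    u.P (N.sx Z4 A) = 0 := by
  unfold PC.P PC.B
  rw [LinearMap.add_apply, dbl_sx, cup_sx, cup1_sx]
  have h1 : ∑ p ∈ Finset.HasAntidiagonal.antidiagonal (k + 1),
      u.a (N.sx Z4 (X.act (seg (k + 1) 0 p.1) A)) * u.a (N.sx Z4 (X.act (seg (k + 1) p.1 p.2) A)) = 0 := by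
    refine Finset.sum_eq_zero fun p hp => ?_
    by_cases hpm : p.1 = m
    · rw [sph_act A e hA _ (by omega) (by omega), map_zero, zero_mul]
    · rw [u.deg _ _ hpm, zero_mul]
  have h2 : ∑ p ∈ Finset.HasAntidiagonal.antidiagonal (k + 1),
      ∑ q ∈ Finset.HasAntidiagonal.antidiagonal p.2,
      red u.a (N.sx F2 (X.act (gap (k + 1) p.1 q.1 q.2) A)) *
        u.v (N.sx F2 (X.act (seg (k + 1) p.1 q.1) A)) = 0 := by
    refine Finset.sum_eq_zero fun p hp => Finset.sum_eq_zero fun q hq => ?_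
    by_cases hpm : q.2 + p.1 + 1 = m
    · rw [sph_act A e hA _ (by omega) (by omega), map_zero, zero_mul]
    · rw [u.deg.red _ _ hpm, zero_mul]
  rw [h1, h2, map_zero, add_zero]

/-! ## cross products of `PC`s -/

/-- the unit -/
noncomputable def onePC (K : SS) : PC K 0 where
  a := aug Z4
  v := 0
  deg := IsDeg.aug
  bd := by
    rw [dbl_zero]
    exact LinearMap.ext fun c => by rw [LinearMap.comp_apply, aug_bd]; rfl

/-- lift of a mod 2 cocycle -/
noncomputable def lfPC {p : ℕ} (x : Co F2 K) (hx : IsDeg p x) (hd : x ∘ₗ N.bd F2 K = 0) : PC K p where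
  a := lf x
  v := hlf (lf x ∘ₗ N.bd Z4 K)
  deg := hx.lf
  bd := by rw [dbl_hlf]; rw [red_bd, red_lf, hd]

/-- cross product -/
noncomputable def crsPC {p q m : ℕ} (h : p + q = m) (α : PC K p) (β : PC L q) : PC (K.prod L) m where
  a := crs α.a β.a
  v := crs α.v (red β.a) + crs (red α.a) β.v
  deg := by rw [← h]; exact α.deg.crs β.deg
  bd := by
    rw [crs_bd, α.bd, β.bd, crs_dbl_left, crs_dbl_right, red_comp_sg, dbl_add]

theorem B_cross {p q p' q' m : ℕ} (h : p + q = m) (h' : p' + q' = m) (α : PC K p) (α' : PC L q)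
    (β : PC K p') (β' : PC L q') (Z : N Z4 K) (Y : N Z4 L) :
    (crsPC h α α').B (crsPC h' β β') (cross Z4 Z Y) =
      (-1 : Z4) ^ (q * p') * (cup α.a β.a Z * cup α'.a β'.a Y) +
      dblf (cup (red α.a) β.v (rho K Z) * cup1 (red α'.a) (red β'.a) (rho L Y) +
        cup1 (red α.a) β.v (rho K Z) * cup (red β'.a) (red α'.a) (rho L Y) +
        (cup (red α.a) (red β.a) (rho K Z) * cup1 (red α'.a) β'.v (rho L Y) +
        cup1 (red α.a) (red β.a) (rho K Z) * cup β'.v (red α'.a) (rho L Y))) := by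
  unfold PC.B crsPC
  simp only
  rw [LinearMap.add_apply, cup_cross Z Y α.a β.a α'.a β'.a q p' α'.deg.sg β.deg.sg, dbl_eval,
    rho_cross, red_crs, cup1_add_right, LinearMap.add_apply, cup1_cross, cup1_cross]

section sum

variable {m : ℕ} {ι : Type}

/-- sum of a finite family -/
noncomputable def sumPC (s : Finset ι) (W : ι → PC K m) : PC K m where
  a := ∑ i ∈ s, (W i).a
  v := ∑ i ∈ s, (W i).v
  deg := IsDeg.sum s fun i _ => (W i).deg
  bd := by
    rw [dbl_sum]
    refine LinearMap.ext fun c => ?_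
    rw [LinearMap.comp_apply, LinearMap.sum_apply, LinearMap.sum_apply]
    exact Finset.sum_congr rfl fun i _ => LinearMap.congr_fun (W i).bd c

theorem P_sumPC (s : Finset ι) (W : ι → PC K m) :
    (sumPC s W).P = ∑ i ∈ s, ∑ j ∈ s, (W i).B (W j) := by
  unfold PC.P PC.B sumPC
  simp only
  rw [cup_sum_left, red_sum, cup1_sum_left, dbl_sum, ← Finset.sum_add_distrib]
  refine Finset.sum_congr rfl fun i _ => ?_
  rw [cup_sum_right, cup1_sum_right, dbl_sum, ← Finset.sum_add_distrib]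

end sum

/-- the hypothesis on `z`: a `Z4`-cycle of degree `m` whose reduction is primitive -/
structure PrimCycle (X : SS) (m : ℕ) (z : N Z4 X) : Prop where
  gr : z ∈ N.gr Z4 X m
  bd : N.bd Z4 X z = 0
  prim : ∀ (p q : ℕ) (a b : Co F2 X), 0 < p → 0 < q → p + q = m → IsDeg p a → IsDeg q b →
    a ∘ₗ N.bd F2 X = 0 → b ∘ₗ N.bd F2 X = 0 → cup a b (rho X z) = 0

namespace PrimCycle

variable {m : ℕ} {z : N Z4 X} (h : PrimCycle X m z)
include h

theorem rgr : rho X z ∈ N.gr F2 X m := coN_mem_gr _ h.gr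

theorem prim' {p q : ℕ} {a b : Co F2 X} (hp : 0 < p) (hq : 0 < q) (ha : IsDeg p a) (hb : IsDeg q b)
    (ha' : a ∘ₗ N.bd F2 X = 0) (hb' : b ∘ₗ N.bd F2 X = 0) : cup a b (rho X z) = 0 := by
  by_cases hpq : p + q = m
  · exact h.prim p q a b hp hq hpq ha hb ha' hb'
  · exact (ha.cup hb).eval h.rgr (Ne.symm hpq)

theorem v_eval {p : ℕ} (u : PC X p) : u.v (rho X z) = 0 := by
  refine dblf_injective ?_
  rw [← dbl_eval, ← u.bd, LinearMap.comp_apply, h.bd, map_zero, map_zero]

theorem cup_even {p q : ℕ} (hp : 0 < p) (hq : 0 < q) (α : PC X p) (β : PC X q) :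
    c42 (cup α.a β.a z) = 0 := by
  rw [← red_eval, red_cup]
  exact h.prim' hp hq α.deg.red β.deg.red α.red_bd β.red_bd

end PrimCycle

section eval

variable {m : ℕ} {z : N Z4 X} (h : PrimCycle X m z) (hm : 0 < m)
include h

/-- both interior -/
theorem B_int_int {p q p' q' : ℕ} (e : p + q = m) (e' : p' + q' = m) (hp : 0 < p) (hq : 0 < q)
    (hp' : 0 < p') (hq' : 0 < q') (α : PC X p) (α' : PC X q) (β : PC X p') (β' : PC X q') :
    (crsPC e α α').B (crsPC e' β β') (cross Z4 z z) = 0 := by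
  rw [B_cross, even_mul_even (h.cup_even hp hp' α β) (h.cup_even hq hq' α' β'),
    h.prim' hp (Nat.succ_pos p') α.deg.red β.v_deg α.red_bd β.v_bd,
    h.prim' hq' hq β'.deg.red α'.deg.red β'.red_bd α'.red_bd,
    h.prim' hp hp' α.deg.red β.deg.red α.red_bd β.red_bd,
    h.prim' (Nat.succ_pos q') hq β'.v_deg α'.deg.red β'.v_bd α'.red_bd]
  simp

/-- `(u × 1, interior)` -/
theorem B_u1_int {p' q' : ℕ} (e : m + 0 = m) (e' : p' + q' = m) (hp' : 0 < p') (u : PC X m)
    (β : PC X p') (β' : PC X q') :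
    (crsPC e u (onePC X)).B (crsPC e' β β') (cross Z4 z z) = 0 := by
  have t1 : cup u.a β.a z = 0 := (u.deg.cup β.deg).eval h.gr (by omega)
  have t2 : cup (red u.a) β.v (rho X z) = 0 := (u.deg.red.cup β.v_deg).eval h.rgr (by omega)
  have t3 : cup (red β'.a) (red (onePC X).a) (rho X z) = 0 := by
    unfold onePC
    rw [red_aug, cup_aug_right]
    exact β'.deg.red.eval h.rgr (by omega)
  have t4 : cup (red u.a) (red β.a) (rho X z) = 0 := (u.deg.red.cup β.deg.red).eval h.rgr (by omega)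
  have t5 : cup β'.v (red (onePC X).a) (rho X z) = 0 := by
    unfold onePC
    rw [red_aug, cup_aug_right]
    exact h.v_eval β'
  rw [B_cross, t1, t2, t3, t4, t5]
  simp

/-- `(1 × u, interior)` -/
theorem B_1u_int {p' q' : ℕ} (e : 0 + m = m) (e' : p' + q' = m) (hq' : 0 < q') (u : PC X m)
    (β : PC X p') (β' : PC X q') :
    (crsPC e (onePC X) u).B (crsPC e' β β') (cross Z4 z z) = 0 := by
  have t1 : cup (onePC X).a β.a z = 0 := by
    unfold onePC
    rw [cup_aug_left]
    exact β.deg.eval h.gr (by omega)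
  have t2 : cup (red (onePC X).a) β.v (rho X z) = 0 := by
    unfold onePC
    rw [red_aug, cup_aug_left]
    exact h.v_eval β
  have t3 : cup1 (red (onePC X).a) β.v = 0 := by
    unfold onePC
    rw [red_aug, cup1_aug_left]
  have t4 : cup (red (onePC X).a) (red β.a) (rho X z) = 0 := by
    unfold onePC
    rw [red_aug, cup_aug_left]
    exact β.deg.red.eval h.rgr (by omega)
  have t5 : cup1 (red (onePC X).a) (red β.a) = 0 := by
    unfold onePC
    rw [red_aug, cup1_aug_left]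
  rw [B_cross, t1, t2, t3, t4, t5]
  simp

/-- `(interior, u × 1)` -/
theorem B_int_u1 {p q : ℕ} (e : p + q = m) (e' : m + 0 = m) (hp : 0 < p) (u : PC X m)
    (α : PC X p) (α' : PC X q) :
    (crsPC e α α').B (crsPC e' u (onePC X)) (cross Z4 z z) = 0 := by
  have t1 : cup α.a u.a z = 0 := (α.deg.cup u.deg).eval h.gr (by omega)
  have t2 : cup (red α.a) u.v (rho X z) = 0 := (α.deg.red.cup u.v_deg).eval h.rgr (by omega)
  have t3 : cup (red (onePC X).a) (red α'.a) (rho X z) = 0 := by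
    unfold onePC
    rw [red_aug, cup_aug_left]
    exact α'.deg.red.eval h.rgr (by omega)
  have t4 : cup (red α.a) (red u.a) (rho X z) = 0 := (α.deg.red.cup u.deg.red).eval h.rgr (by omega)
  have t5 : cup (onePC X).v (red α'.a) = 0 := by
    unfold onePC
    rw [cup_zero_left]
  rw [B_cross, t1, t2, t3, t4, t5]
  simp

/-- `(interior, 1 × u)` -/
theorem B_int_1u {p q : ℕ} (e : p + q = m) (e' : 0 + m = m) (hq : 0 < q) (u : PC X m)
    (α : PC X p) (α' : PC X q) :
    (crsPC e α α').B (crsPC e' (onePC X) u) (cross Z4 z z) = 0 := by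
  have t1 : cup α.a (onePC X).a z = 0 := by
    unfold onePC
    rw [cup_aug_right]
    exact α.deg.eval h.gr (by omega)
  have t2 : cup (red α.a) (onePC X).v = 0 := by
    unfold onePC
    rw [cup_zero_right]
  have t3 : cup1 (red α.a) (onePC X).v = 0 := by
    unfold onePC
    rw [cup1_zero_right]
  have t4 : cup (red α.a) (red (onePC X).a) (rho X z) = 0 := by
    unfold onePC
    rw [red_aug, cup_aug_right]
    exact α.deg.red.eval h.rgr (by omega)
  have t5 : cup1 (red α.a) (red (onePC X).a) = 0 := by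
    unfold onePC
    rw [red_aug, cup1_aug_right]
  rw [B_cross, t1, t2, t3, t4, t5]
  simp

include hm in
theorem B_u1_u1 (e : m + 0 = m) (u : PC X m) :
    (crsPC e u (onePC X)).B (crsPC e u (onePC X)) (cross Z4 z z) = 0 := by
  have t1 : cup u.a u.a z = 0 := (u.deg.cup u.deg).eval h.gr (by omega)
  have t2 : cup (red u.a) u.v (rho X z) = 0 := (u.deg.red.cup u.v_deg).eval h.rgr (by omega)
  have t3 : cup (red (onePC X).a) (red (onePC X).a) (rho X z) = 0 := by
    unfold onePC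
    rw [red_aug, cup_aug_left]
    exact (IsDeg.aug (R := F2)).eval h.rgr (by omega)
  have t4 : cup (red u.a) (red u.a) (rho X z) = 0 := (u.deg.red.cup u.deg.red).eval h.rgr (by omega)
  have t5 : cup (onePC X).v (red (onePC X).a) = 0 := by
    unfold onePC
    rw [cup_zero_left]
  rw [B_cross, t1, t2, t3, t4, t5]
  simp

include hm in
theorem B_1u_1u (e : 0 + m = m) (u : PC X m) :
    (crsPC e (onePC X) u).B (crsPC e (onePC X) u) (cross Z4 z z) = 0 := by
  have t1 : cup (onePC X).a (onePC X).a z = 0 := by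
    unfold onePC
    rw [cup_aug_left]
    exact (IsDeg.aug (R := Z4)).eval h.gr (by omega)
  have t2 : cup (red (onePC X).a) (onePC X).v = 0 := by
    unfold onePC
    rw [cup_zero_right]
  have t3 : cup1 (red (onePC X).a) (onePC X).v = 0 := by
    unfold onePC
    rw [cup1_zero_right]
  have t4 : cup (red (onePC X).a) (red (onePC X).a) (rho X z) = 0 := by
    unfold onePC
    rw [red_aug, cup_aug_left]
    exact (IsDeg.aug (R := F2)).eval h.rgr (by omega)
  have t5 : cup1 (red (onePC X).a) (red (onePC X).a) = 0 := by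
    unfold onePC
    rw [red_aug, cup1_aug_left]
  rw [B_cross, t1, t2, t3, t4, t5]
  simp

omit h in
theorem B_u1_1u (e : m + 0 = m) (e' : 0 + m = m) (u : PC X m) :
    (crsPC e u (onePC X)).B (crsPC e' (onePC X) u) (cross Z4 z z) = u.a z * u.a z := by
  have t1 : cup u.a (onePC X).a = u.a := by
    unfold onePC
    rw [cup_aug_right]
  have t1' : cup (onePC X).a u.a = u.a := by
    unfold onePC
    rw [cup_aug_left]
  have t2 : cup (red u.a) (onePC X).v = 0 := by
    unfold onePC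
    rw [cup_zero_right]
  have t3 : cup1 (red u.a) (onePC X).v = 0 := by
    unfold onePC
    rw [cup1_zero_right]
  have t4 : cup1 (red (onePC X).a) u.v = 0 := by
    unfold onePC
    rw [red_aug, cup1_aug_left]
  have t5 : cup1 (red u.a) (red (onePC X).a) = 0 := by
    unfold onePC
    rw [red_aug, cup1_aug_right]
  rw [B_cross, t1, t1', t2, t3, t4, t5]
  simp

theorem B_1u_u1 (hm2 : Even m) (e : 0 + m = m) (e' : m + 0 = m) (u : PC X m) :
    (crsPC e (onePC X) u).B (crsPC e' u (onePC X)) (cross Z4 z z) = u.a z * u.a z := by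
  have t1 : cup u.a (onePC X).a = u.a := by
    unfold onePC
    rw [cup_aug_right]
  have t1' : cup (onePC X).a u.a = u.a := by
    unfold onePC
    rw [cup_aug_left]
  have t2 : cup (red (onePC X).a) u.v (rho X z) = 0 := by
    unfold onePC
    rw [red_aug, cup_aug_left]
    exact h.v_eval u
  have t3 : cup1 (red (onePC X).a) u.v = 0 := by
    unfold onePC
    rw [red_aug, cup1_aug_left]
  have t4 : cup1 (red u.a) (onePC X).v = 0 := by
    unfold onePC
    rw [cup1_zero_right]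
  have t5 : cup1 (red (onePC X).a) (red u.a) = 0 := by
    unfold onePC
    rw [red_aug, cup1_aug_left]
  rw [B_cross, t1, t1', t2, t3, t4, t5, (hm2.mul_left m).neg_one_pow]
  simp

end eval

/-- value of the Pontryagin square of `ũ × 1 + 1 × ũ + ∑ x̃ᵢ × ỹᵢ` on `z × z` -/
theorem P_sum_eval {m : ℕ} (hm : 0 < m) (hm2 : Even m) {z : N Z4 X} (h : PrimCycle X m z)
    (u : PC X m) (s : ℕ) (p q : Fin s → ℕ) (hp : ∀ i, 0 < p i) (hq : ∀ i, 0 < q i)
    (hpq : ∀ i, p i + q i = m) (x : ∀ i, PC X (p i)) (y : ∀ i, PC X (q i)) :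
    (sumPC (Finset.univ : Finset (Option (Option (Fin s)))) (fun j =>
      match j with
      | none => crsPC (Nat.add_zero m) u (onePC X)
      | some none => crsPC (Nat.zero_add m) (onePC X) u
      | some (some i) => crsPC (hpq i) (x i) (y i))).P (cross Z4 z z) = dblf (red u.a (rho X z)) := by
  rw [P_sumPC, LinearMap.sum_apply]
  simp only [LinearMap.sum_apply, Fintype.sum_option, LinearMap.add_apply]
  rw [B_u1_u1 h hm, B_u1_1u, B_1u_u1 h hm2, B_1u_1u h hm]
  rw [Finset.sum_eq_zero fun i _ => B_u1_int h _ (hpq i) (hp i) u (x i) (y i),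
    Finset.sum_eq_zero fun i _ => B_1u_int h _ (hpq i) (hq i) u (x i) (y i),
    Finset.sum_eq_zero fun i _ => by
      rw [B_int_u1 h (hpq i) _ (hp i) u (x i) (y i), B_int_1u h (hpq i) _ (hq i) u (x i) (y i),
        Finset.sum_eq_zero fun j _ => B_int_int h (hpq i) (hpq j) (hp i) (hq i) (hp j) (hq j)
          (x i) (y i) (x j) (y j)]
      rfl]
  rw [red_eval, ← two_sq]
  ring

/-- **Main theorem of 8.6, chain form** (decomposition of `μ^*U` as a hypothesis). -/
theorem pont_of_dec {m k : ℕ} (hm : 0 < m) (hm2 : Even m) (hk : k + 1 = 2 * m)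
    (μ : SS.Hom (X.prod X) X) (e : X.S 0) {z : N Z4 X} (h : PrimCycle X m z)
    (A : X.S (k + 1))
    (hA : ∀ i : Fin (k + 2), X.act (Op.face i) A = X.act (⟨fun _ => 0, fun _ _ _ => le_rfl⟩ : Op k 0) e)
    (c : N F2 X) (w : N Z4 X)
    (hrel : N.sx Z4 A = N.map Z4 μ (cross Z4 z z) + inc X c + N.bd Z4 X w)
    (U : Co F2 X) (hU : IsDeg m U) (hU' : U ∘ₗ N.bd F2 X = 0)
    (hdec : ∃ (s : ℕ) (x y : Fin s → Co F2 X) (p q : Fin s → ℕ) (b : Co F2 (X.prod X)),
      (∀ i, 0 < p i ∧ 0 < q i ∧ p i + q i = m ∧ IsDeg (p i) (x i) ∧ IsDeg (q i) (y i) ∧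
        x i ∘ₗ N.bd F2 X = 0 ∧ y i ∘ₗ N.bd F2 X = 0) ∧ IsDeg (m - 1) b ∧
      U ∘ₗ N.map F2 μ = crs U (aug F2) + crs (aug F2) U + ∑ i, crs (x i) (y i) +
        b ∘ₗ N.bd F2 (X.prod X)) :
    cup U U c = U (rho X z) := by
  obtain ⟨s, x, y, p, q, b, hxy, hb, hV⟩ := hdec
  have hp := fun i => (hxy i).1
  have hq := fun i => (hxy i).2.1
  have hpq := fun i => (hxy i).2.2.1
  have hx := fun i => (hxy i).2.2.2.1
  have hy := fun i => (hxy i).2.2.2.2.1
  have hx' := fun i => (hxy i).2.2.2.2.2.1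
  have hy' := fun i => (hxy i).2.2.2.2.2.2
  set u : PC X m := lfPC U hU hU' with hu
  have hur : red u.a = U := by rw [hu]; exact red_lf U
  have hcyc : N.bd Z4 _ (cross Z4 z z) = 0 := by
    rw [bd_cross, h.bd]; simp
  have E1 := P_sum_eval hm hm2 h u s p q hp hq hpq (fun i => lfPC (x i) (hx i) (hx' i))
    (fun i => lfPC (y i) (hy i) (hy' i))
  set W : Option (Option (Fin s)) → PC (X.prod X) m := (fun j =>
      match j with
      | none => crsPC (Nat.add_zero m) u (onePC X)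
      | some none => crsPC (Nat.zero_add m) (onePC X) u
      | some (some i) => crsPC (hpq i) (lfPC (x i) (hx i) (hx' i)) (lfPC (y i) (hy i) (hy' i)))
    with hW
  set T : PC (X.prod X) m := sumPC Finset.univ W with hT
  have hTa : red T.a = crs U (aug F2) + crs (aug F2) U + ∑ i, crs (x i) (y i) := by
    rw [hT]
    unfold sumPC
    simp only
    rw [red_sum]
    simp only [Fintype.sum_option]
    rw [hW]
    unfold crsPC onePC lfPC
    simp only [red_crs, red_lf, red_aug, hur]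
    rw [add_assoc]
  -- add the coboundary
  let T' : PC (X.prod X) m :=
    { a := T.a + lf b ∘ₗ N.bd Z4 _
      v := T.v
      deg := T.deg.add (by
        have := hb.lf.bd
        rwa [Nat.sub_add_cancel hm] at this)
      bd := by
        rw [LinearMap.add_comp, T.bd]
        have : (lf b ∘ₗ N.bd Z4 (X.prod X)) ∘ₗ N.bd Z4 (X.prod X) = 0 := by
          refine LinearMap.ext fun c => ?_
          simp only [LinearMap.comp_apply, N.bd_bd, map_zero, LinearMap.zero_apply]
        rw [this, add_zero] }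
  have E2 : T'.P (cross Z4 z z) = T.P (cross Z4 z z) :=
    PC.P_add_bd hm2 hm T T' (lf b) hb.lf rfl _ hcyc
  have hT'a : red T'.a = U ∘ₗ N.map F2 μ := by
    change red (T.a + lf b ∘ₗ N.bd Z4 _) = _
    rw [red_add, hTa, red_bd, red_lf, hV]
  have E3 : (u.map μ).P (cross Z4 z z) = T'.P (cross Z4 z z) := by
    refine PC.P_add_dbl T' (u.map μ) (hlf ((u.map μ).a - T'.a)) ?_ _ hcyc
    rw [dbl_hlf]
    · abel
    · rw [red_sub, hT'a]
      have : red (u.map μ).a = U ∘ₗ N.map F2 μ := by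
        change red (u.a ∘ₗ N.map Z4 μ) = _
        rw [red_map, hur]
      rw [this, f2_add_self]
  have E4 := u.P_sph hm hk A e hA
  rw [hrel, map_add, map_add, ← LinearMap.comp_apply, ← PC.P_map, E3, E2, E1, inc_eval] at E4
  have E5 : u.P (N.bd Z4 X w) = 0 := by
    have := LinearMap.congr_fun (u.P_bd hm2) w
    exact this
  have E6 : red u.P = cup U U := by
    unfold PC.P PC.B
    rw [red_add, red_cup, red_dbl, add_zero, hur]
  rw [E5, E6, hur, add_zero, ← map_add] at E4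
  have E7 : U (rho X z) + cup U U c = 0 := dblf_injective (by rw [E4, map_zero])
  have := eq_neg_of_add_eq_zero_right E7
  rw [this]
  exact f2_neg _

end Crest.Agent.R204.Pont718
end

-- ▼ part R204/KDec_810
section

/-!
# Row 204, leaf G4 (helper810): Kuenneth decomposition of a cocycle on `X × X`

Over `F2`: a cocycle `V` of degree `m` on `X × X` which restricts to `U` on both axes is
`U × 1 + 1 × U + ∑ x_i × y_i + δ b` with `x_i`, `y_i` cocycles of positive degrees.
-/

set_option autoImplicit false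

namespace Crest.Agent.R204.KDec810

open EZ271 Pont718 Gr334

variable {K L X : SS}

/-- a dual system: lifts `g` of a basis of the homology in degree `i`, and dual cocycles `x` -/
theorem dual_system (i : ℕ)
    (hfin : ∃ (s : ℕ) (g : Fin s → N F2 X), (∀ j, g j ∈ N.gr F2 X i ∧ N.bd F2 X (g j) = 0) ∧
      ∀ z ∈ N.gr F2 X i, N.bd F2 X z = 0 → ∃ r : Fin s → F2,
        z + ∑ j, r j • g j ∈ LinearMap.range (N.bd F2 X)) :
    ∃ (s : ℕ) (g : Fin s → N F2 X) (x : Fin s → Co F2 X),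
      (∀ j, g j ∈ N.gr F2 X i) ∧ (∀ j, N.bd F2 X (g j) = 0) ∧ (∀ j, IsDeg i (x j)) ∧
      (∀ j, x j ∘ₗ N.bd F2 X = 0) ∧ (∀ j k, x j (g k) = if j = k then 1 else 0) ∧
      ∀ z ∈ N.gr F2 X i, N.bd F2 X z = 0 → z + ∑ j, x j z • g j ∈ LinearMap.range (N.bd F2 X) := by
  classical
  let B : Submodule F2 (N F2 X) := LinearMap.range (N.bd F2 X)
  let C : Submodule F2 (N F2 X) := N.gr F2 X i ⊓ LinearMap.ker (N.bd F2 X)
  let C' : Submodule F2 (N F2 X ⧸ B) := C.map B.mkQ
  have hfinite : Module.Finite F2 C' := by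
    obtain ⟨s, g, hg, hspan⟩ := hfin
    have hle : C' ≤ Submodule.span F2 (Set.range fun j => B.mkQ (g j)) := by
      rintro _ ⟨z, ⟨hz1, hz2⟩, rfl⟩
      obtain ⟨r, hr⟩ := hspan z hz1 hz2
      have h1 : B.mkQ (z + ∑ j, r j • g j) = 0 := by
        rw [Submodule.mkQ_apply, Submodule.Quotient.mk_eq_zero]; exact hr
      rw [map_add, map_sum] at h1
      have h2 : B.mkQ z = ∑ j, B.mkQ (r j • g j) := by
        rw [← f2_neg (∑ j, B.mkQ (r j • g j))]
        exact eq_neg_of_add_eq_zero_left h1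
      rw [h2]
      refine Submodule.sum_mem _ fun j _ => ?_
      rw [map_smul]
      exact Submodule.smul_mem _ _ (Submodule.subset_span ⟨j, rfl⟩)
    have hfs : Module.Finite F2 (Submodule.span F2 (Set.range fun j => B.mkQ (g j))) :=
      Module.Finite.span_of_finite F2 (Set.finite_range _)
    exact Submodule.finiteDimensional_of_le hle
  let b := Module.finBasis F2 C'
  have hb : ∀ j, ∃ z, z ∈ C ∧ B.mkQ z = (b j : N F2 X ⧸ B) := fun j => (b j).2
  choose g hgC hgb using hb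
  have hφ : ∀ j, ∃ φ : (N F2 X ⧸ B) →ₗ[F2] F2, φ ∘ₗ C'.subtype = b.coord j := fun j =>
    LinearMap.exists_extend (b.coord j)
  choose φ hφ using hφ
  have hφ' : ∀ j (c : C'), φ j (c : N F2 X ⧸ B) = b.repr c j := fun j c =>
    LinearMap.congr_fun (hφ j) c
  refine ⟨Module.finrank F2 C', g, fun j => φ j ∘ₗ B.mkQ ∘ₗ prN F2 X i, fun j => (hgC j).1,
    fun j => (hgC j).2, ?_, ?_, ?_, ?_⟩
  · intro j n x hn
    simp only [LinearMap.comp_apply]
    rw [prN_sx_ne hn, map_zero, map_zero]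
  · intro j
    refine LinearMap.ext fun w => ?_
    simp only [LinearMap.comp_apply, LinearMap.zero_apply]
    rw [prN_bd]
    have : B.mkQ (N.bd F2 X (prN F2 X (i + 1) w)) = 0 := by
      rw [Submodule.mkQ_apply, Submodule.Quotient.mk_eq_zero]; exact ⟨_, rfl⟩
    rw [this, map_zero]
  · intro j k
    simp only [LinearMap.comp_apply]
    rw [prN_of_mem (hgC k).1, hgb, hφ', b.repr_self, Finsupp.single_apply]
    simp only [eq_comm]
  · intro z hz1 hz2
    have hz : B.mkQ z ∈ C' := ⟨z, ⟨hz1, hz2⟩, rfl⟩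
    change _ ∈ B
    rw [← Submodule.Quotient.mk_eq_zero, ← Submodule.mkQ_apply, map_add, map_sum]
    have h1 : ∀ j, B.mkQ ((φ j ∘ₗ B.mkQ ∘ₗ prN F2 X i) z • g j) =
        ((b.repr ⟨B.mkQ z, hz⟩ j • b j : C') : N F2 X ⧸ B) := by
      intro j
      simp only [LinearMap.comp_apply]
      rw [prN_of_mem hz1, map_smul, hgb, hφ' j ⟨B.mkQ z, hz⟩]
      rfl
    rw [Finset.sum_congr rfl fun j _ => h1 j, ← AddSubmonoidClass.coe_finsetSum, b.sum_repr]
    exact f2_add_self _

/-- a homogeneous cocycle of degree `m` which vanishes on the cycles of degree `m` is a coboundary -/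
theorem exists_cobound {m : ℕ} (hm : 0 < m) {D : Co F2 K} (hD : IsDeg m D)
    (h : ∀ w ∈ N.gr F2 K m, N.bd F2 K w = 0 → D w = 0) :
    ∃ b : Co F2 K, IsDeg (m - 1) b ∧ D = b ∘ₗ N.bd F2 K := by
  have hpr : ∀ w, D w = D (prN F2 K m w) := by
    intro w
    have : D = D ∘ₗ prN F2 K m := by
      refine hom_ext fun n x => ?_
      rw [LinearMap.comp_apply]
      by_cases hn : n = m
      · subst hn; rw [prN_sx_self]
      · rw [prN_sx_ne hn, map_zero, hD n x hn]
    exact LinearMap.congr_fun this w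
  have h1 : D ∈ (LinearMap.ker (N.bd F2 K)).dualAnnihilator := by
    rw [Submodule.mem_dualAnnihilator]
    intro w hw
    rw [hpr]
    exact h _ (prN_mem m w) (bd_prN_eq_zero hw m)
  rw [← LinearMap.range_dualMap_eq_dualAnnihilator_ker] at h1
  obtain ⟨b, hb⟩ := h1
  have hb' : ∀ w, D w = b (N.bd F2 K w) := fun w => by rw [← hb]; rfl
  refine ⟨b ∘ₗ prN F2 K (m - 1), fun n x hn => ?_, LinearMap.ext fun w => ?_⟩
  · rw [LinearMap.comp_apply, prN_sx_ne hn, map_zero]
  · rw [LinearMap.comp_apply, LinearMap.comp_apply, prN_bd, Nat.sub_add_cancel hm, ← hb', ← hpr]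

theorem aug_comp_bd : (aug F2 : Co F2 K) ∘ₗ N.bd F2 K = 0 := LinearMap.ext fun w => aug_bd F2 w

theorem crs_bd2 (a : Co F2 K) (b : Co F2 L) : crs a b ∘ₗ N.bd F2 (K.prod L) =
    crs (a ∘ₗ N.bd F2 K) b + crs a (b ∘ₗ N.bd F2 L) := by
  rw [crs_bd, f2_comp_sg]

theorem crs_cocycle {a : Co F2 K} {b : Co F2 L} (ha : a ∘ₗ N.bd F2 K = 0) (hb : b ∘ₗ N.bd F2 L = 0) :
    crs a b ∘ₗ N.bd F2 (K.prod L) = 0 := by
  rw [crs_bd2, ha, hb, crs_zero_left, crs_zero_right, add_zero]

/-- **Kuenneth decomposition** -/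
theorem decomp (e : X.S 0) {m : ℕ} (hm : 0 < m) (V : Co F2 (X.prod X)) (hVd : IsDeg m V)
    (hVc : V ∘ₗ N.bd F2 (X.prod X) = 0) (U : Co F2 X) (hUd : IsDeg m U) (hUc : U ∘ₗ N.bd F2 X = 0)
    (hV1 : ∀ y ∈ N.gr F2 X m, N.bd F2 X y = 0 → V (cross F2 y (N.sx F2 e)) = U y)
    (hV2 : ∀ y ∈ N.gr F2 X m, N.bd F2 X y = 0 → V (cross F2 (N.sx F2 e) y) = U y)
    (hK : ∀ w ∈ N.gr F2 (X.prod X) m, N.bd F2 (X.prod X) w = 0 →
      ∃ (s : ℕ) (Y Z : Fin s → N F2 X) (p q : Fin s → ℕ), (∀ i, p i + q i = m ∧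
        Y i ∈ N.gr F2 X (p i) ∧ Z i ∈ N.gr F2 X (q i) ∧ N.bd F2 X (Y i) = 0 ∧ N.bd F2 X (Z i) = 0) ∧
        w + ∑ i, cross F2 (Y i) (Z i) ∈ LinearMap.range (N.bd F2 (X.prod X)))
    (h0 : ∀ z ∈ N.gr F2 X 0, ∃ r : F2, z + r • N.sx F2 e ∈ LinearMap.range (N.bd F2 X))
    (hfin : ∀ i, 0 < i → i < m → ∃ (s : ℕ) (g : Fin s → N F2 X),
      (∀ j, g j ∈ N.gr F2 X i ∧ N.bd F2 X (g j) = 0) ∧
      ∀ z ∈ N.gr F2 X i, N.bd F2 X z = 0 → ∃ r : Fin s → F2,
        z + ∑ j, r j • g j ∈ LinearMap.range (N.bd F2 X)) :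
    ∃ (s : ℕ) (x y : Fin s → Co F2 X) (p q : Fin s → ℕ) (b : Co F2 (X.prod X)),
      (∀ i, 0 < p i ∧ 0 < q i ∧ p i + q i = m ∧ IsDeg (p i) (x i) ∧ IsDeg (q i) (y i) ∧
        x i ∘ₗ N.bd F2 X = 0 ∧ y i ∘ₗ N.bd F2 X = 0) ∧ IsDeg (m - 1) b ∧
      V = crs U (aug F2) + crs (aug F2) U + ∑ i, crs (x i) (y i) + b ∘ₗ N.bd F2 (X.prod X) := by
  classical
  -- dual systems in all degrees `0 < i < m`
  have hsys : ∀ i : Fin (m - 1), ∃ (s : ℕ) (g : Fin s → N F2 X) (x : Fin s → Co F2 X),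
      (∀ j, g j ∈ N.gr F2 X (i + 1)) ∧ (∀ j, N.bd F2 X (g j) = 0) ∧ (∀ j, IsDeg (i + 1) (x j)) ∧
      (∀ j, x j ∘ₗ N.bd F2 X = 0) ∧ (∀ j k, x j (g k) = if j = k then 1 else 0) ∧
      ∀ z ∈ N.gr F2 X (i + 1), N.bd F2 X z = 0 →
        z + ∑ j, x j z • g j ∈ LinearMap.range (N.bd F2 X) := fun i =>
    dual_system _ (hfin (i + 1) (Nat.succ_pos _) (by have := i.2; omega))
  choose s g x hgd hgc hxd hxc hxg hxs using hsys
  let ι := Σ i : Fin (m - 1), Fin (s i)
  let xx : ι → Co F2 X := fun t => x t.1 t.2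
  let yy : ι → Co F2 X := fun t => V ∘ₗ cross F2 (g t.1 t.2)
  have hyy : ∀ (t : ι) (z : N F2 X), yy t z = V (cross F2 (g t.1 t.2) z) := fun _ _ => rfl
  have hVbd : ∀ w, V (N.bd F2 (X.prod X) w) = 0 := fun w => LinearMap.congr_fun hVc w
  have hyd : ∀ t : ι, IsDeg (m - (t.1 + 1)) (yy t) := by
    intro t n z hn
    rw [hyy]
    refine hVd.eval (cross_mem_gr (hgd t.1 t.2) (Pont718.sx_mem_gr z)) ?_
    have := t.1.2
    omega
  have hyc : ∀ t : ι, yy t ∘ₗ N.bd F2 X = 0 := by
    intro t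
    refine LinearMap.ext fun z => ?_
    rw [LinearMap.comp_apply, hyy, LinearMap.zero_apply]
    have h := bd_cross F2 (g t.1 t.2) z
    rw [hgc, map_zero, LinearMap.zero_apply, zero_add, f2_sg] at h
    rw [← h, hVbd]
  -- the difference
  let W : Co F2 (X.prod X) := crs U (aug F2) + crs (aug F2) U + ∑ t : ι, crs (xx t) (yy t)
  have hWc : W ∘ₗ N.bd F2 (X.prod X) = 0 := by
    refine LinearMap.ext fun w => ?_
    have e1 := LinearMap.congr_fun (crs_cocycle hUc (aug_comp_bd (K := X))) w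
    have e2 := LinearMap.congr_fun (crs_cocycle (aug_comp_bd (K := X)) hUc) w
    have e3 : ∀ t : ι, crs (xx t) (yy t) (N.bd F2 _ w) = 0 := fun t =>
      LinearMap.congr_fun (crs_cocycle (hxc t.1 t.2) (hyc t)) w
    simp only [LinearMap.comp_apply, LinearMap.zero_apply] at e1 e2
    simp only [W, LinearMap.comp_apply, LinearMap.add_apply, LinearMap.sum_apply,
      LinearMap.zero_apply, e1, e2, e3, Finset.sum_const_zero, add_zero]
  have hWd : IsDeg m W := by
    refine IsDeg.add (IsDeg.add ?_ ?_) (IsDeg.sum _ fun t _ => ?_)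
    · simpa using hUd.crs (IsDeg.aug (R := F2) (K := X))
    · simpa using (IsDeg.aug (R := F2) (K := X)).crs hUd
    · have h := (hxd t.1 t.2).crs (hyd t)
      have e1 : (t.1 : ℕ) + 1 + (m - (t.1 + 1)) = m := by have := t.1.2; omega
      rwa [e1] at h
  have hDc : ∀ w, V (N.bd F2 _ w) + W (N.bd F2 _ w) = 0 := fun w => by
    rw [hVbd, zero_add]; exact LinearMap.congr_fun hWc w
  have hWapp : ∀ Y Z : N F2 X, W (cross F2 Y Z) =
      U Y * aug F2 Z + aug F2 Y * U Z + ∑ t : ι, xx t Y * V (cross F2 (g t.1 t.2) Z) := by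
    intro Y Z
    simp only [W, LinearMap.add_apply, LinearMap.sum_apply, crs_cross, hyy]
  have hUe : U (N.sx F2 e) = 0 := hUd 0 e hm.ne
  have haug : ∀ {n : ℕ} {z : N F2 X}, z ∈ N.gr F2 X n → n ≠ 0 → aug F2 z = 0 := fun hz hn =>
    (IsDeg.aug (R := F2) (K := X)).eval hz hn
  -- value on products of cycles
  have key : ∀ (p q : ℕ) (Y Z : N F2 X), p + q = m → Y ∈ N.gr F2 X p → Z ∈ N.gr F2 X q →
      N.bd F2 X Y = 0 → N.bd F2 X Z = 0 → V (cross F2 Y Z) = W (cross F2 Y Z) := by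
    intro p q Y Z hpq hY hZ hYc hZc
    -- changing `Y` by a boundary
    have hchg : ∀ Y' : N F2 X, Y + Y' ∈ LinearMap.range (N.bd F2 X) →
        V (cross F2 Y' Z) = W (cross F2 Y' Z) → V (cross F2 Y Z) = W (cross F2 Y Z) := by
      rintro Y' ⟨u, hu⟩ hY'
      have h2 : cross F2 (Y + Y') Z = N.bd F2 _ (cross F2 u Z) := by
        rw [bd_cross, hZc, map_zero, add_zero, hu]
      have h3 := hDc (cross F2 u Z)
      rw [← h2] at h3
      simp only [map_add, LinearMap.add_apply] at h3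
      rw [hY'] at h3
      have h4 : ∀ a b c : F2, a + b + (c + b) = 0 → a = c := by decide
      exact h4 _ _ _ h3
    rcases Nat.eq_zero_or_pos p with hp | hp
    · -- `p = 0`
      subst hp
      have hq : q = m := by omega
      subst hq
      obtain ⟨r, hr⟩ := h0 Y hY
      refine hchg _ hr ?_
      rw [map_smul, LinearMap.smul_apply, map_smul, map_smul, hV2 Z hZ hZc, hWapp, hUe, aug_sx_zero,
        Finset.sum_eq_zero, zero_mul, one_mul, zero_add, add_zero]
      intro t _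
      rw [hxd t.1 t.2 0 e (by omega), zero_mul]
    · rcases Nat.eq_zero_or_pos q with hq | hq
      · -- `q = 0`
        subst hq
        have hp' : p = m := by omega
        subst hp'
        obtain ⟨r, u, hu⟩ := h0 Z hZ
        have h2 : cross F2 Y (Z + r • N.sx F2 e) = N.bd F2 _ (cross F2 Y u) := by
          rw [bd_cross, hYc, map_zero, LinearMap.zero_apply, zero_add, f2_sg, hu]
        have h3 := hDc (cross F2 Y u)
        rw [← h2] at h3
        simp only [map_add] at h3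
        have h5 : V (cross F2 Y (r • N.sx F2 e)) = W (cross F2 Y (r • N.sx F2 e)) := by
          rw [map_smul, map_smul, map_smul, hV1 Y hY hYc, hWapp, aug_sx_zero, hUe,
            Finset.sum_eq_zero, mul_one, mul_zero, add_zero, add_zero]
          intro t _
          have : V (cross F2 (g t.1 t.2) (N.sx F2 e)) = 0 := by
            refine hVd.eval (cross_mem_gr (hgd t.1 t.2) (Pont718.sx_mem_gr e)) ?_
            have := t.1.2
            omega
          rw [this, mul_zero]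
        rw [h5] at h3
        have h4 : ∀ a b c : F2, a + b + (c + b) = 0 → a = c := by decide
        exact h4 _ _ _ h3
      · -- both positive
        have hi : p - 1 < m - 1 := by omega
        have hp1 : ((⟨p - 1, hi⟩ : Fin (m - 1)) : ℕ) + 1 = p := by simp only []; omega
        have hYs := hxs ⟨p - 1, hi⟩ Y (by rw [hp1]; exact hY) hYc
        refine hchg _ hYs ?_
        rw [map_sum, LinearMap.sum_apply, map_sum, map_sum]
        refine Finset.sum_congr rfl fun j _ => ?_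
        rw [map_smul, LinearMap.smul_apply, map_smul, map_smul, hWapp]
        congr 1
        have hg1 := hgd ⟨p - 1, hi⟩ j
        rw [hp1] at hg1
        rw [hUd.eval hg1 (by omega), haug hg1 hp.ne', zero_mul, zero_mul, zero_add, zero_add]
        rw [Finset.sum_eq_single (⟨⟨p - 1, hi⟩, j⟩ : ι)]
        · simp only [xx]
          rw [hxg, if_pos rfl, one_mul]
        · rintro ⟨i, k⟩ - hne
          simp only [xx]
          by_cases hik : i = ⟨p - 1, hi⟩
          · subst hik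
            have : k ≠ j := fun h => hne (by rw [h])
            rw [hxg, if_neg this, zero_mul]
          · have h6 : x i k (g ⟨p - 1, hi⟩ j) = 0 := by
              refine (hxd i k).eval hg1 ?_
              intro h7
              apply hik
              apply Fin.ext
              simp only []
              omega
            rw [h6, zero_mul]
        · intro h; exact absurd (Finset.mem_univ _) h
  obtain ⟨b, hbd, hb⟩ := exists_cobound hm (D := V + W) (hVd.add hWd) (by
    intro w hw hwc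
    obtain ⟨s', Y, Z, p, q, hpq, u, hu⟩ := hK w hw hwc
    have h1 : (V + W) (w + ∑ i, cross F2 (Y i) (Z i)) = 0 := by
      rw [← hu]; exact hDc u
    have h2 : (V + W) (∑ i, cross F2 (Y i) (Z i)) = 0 := by
      rw [map_sum]
      refine Finset.sum_eq_zero fun i _ => ?_
      obtain ⟨e1, e2, e3, e4, e5⟩ := hpq i
      rw [LinearMap.add_apply, key _ _ _ _ e1 e2 e3 e4 e5, two_f2]
    rw [map_add, h2, add_zero] at h1
    exact h1)
  let ε := Fintype.equivFin ι
  refine ⟨Fintype.card ι, fun i => xx (ε.symm i), fun i => yy (ε.symm i),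
    fun i => (ε.symm i).1 + 1, fun i => m - ((ε.symm i).1 + 1), b, ?_, hbd, ?_⟩
  · intro i
    have hlt := (ε.symm i).1.2
    refine ⟨Nat.succ_pos _, ?_, ?_, hxd _ _, hyd _, hxc _ _, hyc _⟩
    · show 0 < m - ((ε.symm i).1 + 1)
      omega
    · show ((ε.symm i).1 : ℕ) + 1 + (m - ((ε.symm i).1 + 1)) = m
      omega
  · have h1 : ∑ i, crs (xx (ε.symm i)) (yy (ε.symm i)) = ∑ t : ι, crs (xx t) (yy t) :=
      Equiv.sum_comp ε.symm fun t => crs (xx t) (yy t)
    rw [h1, ← hb]
    change V = W + (V + W)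
    rw [add_comm V W, ← add_assoc, f2_add_self, zero_add]

end Crest.Agent.R204.KDec810
end

-- ▼ part R204/KSurj_271
section

/-!
# Row 204, block A-EZ (helper271): Künneth surjectivity on cycles, over `F2`, with degrees.
-/

set_option autoImplicit false

namespace Crest.Agent.R204.EZ271

open TensorProduct

variable {K L : SS}

theorem tD_eq_dT : Coalg847.tD (N.bd F2 K) (N.bd F2 L) = QC134.dT (N.bd F2 K) (N.bd F2 L) := by
  refine TensorProduct.ext' fun x y => ?_
  simp [QC134.dT]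

/-- every cycle of the tensor product is a sum of products of cycles, up to a boundary -/
theorem tensor_cycle (z : N F2 K ⊗[F2] N F2 L) (hz : QC134.dT (N.bd F2 K) (N.bd F2 L) z = 0) :
    ∃ u, z + QC134.dT (N.bd F2 K) (N.bd F2 L) u ∈
      Submodule.span F2 {t | ∃ (a : N F2 K) (b : N F2 L), N.bd F2 K a = 0 ∧ N.bd F2 L b = 0 ∧
        t = a ⊗ₜ[F2] b} := by
  rw [← tD_eq_dT] at hz ⊢
  obtain ⟨t, ht⟩ := (Coalg847.kun (N.bd F2 K) (N.bd F2 L) N.bd_bd N.bd_bd).surjective
    (Hd.mk _ z hz)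
  have key : ∀ t : H F2 K ⊗[F2] H F2 L, ∃ (v : N F2 K ⊗[F2] N F2 L)
      (hv : Coalg847.tD (N.bd F2 K) (N.bd F2 L) v = 0),
      v ∈ Submodule.span F2 {t | ∃ (a : N F2 K) (b : N F2 L), N.bd F2 K a = 0 ∧ N.bd F2 L b = 0 ∧
        t = a ⊗ₜ[F2] b} ∧
      Coalg847.kun (N.bd F2 K) (N.bd F2 L) N.bd_bd N.bd_bd t = Hd.mk _ v hv := by
    intro t
    induction t with
    | zero => exact ⟨0, map_zero _, Submodule.zero_mem _, by rw [map_zero]; rfl⟩
    | add x y hx hy =>
      obtain ⟨v, hv, h1, h2⟩ := hx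
      obtain ⟨v', hv', h1', h2'⟩ := hy
      refine ⟨v + v', by rw [map_add, hv, hv', add_zero], Submodule.add_mem _ h1 h1', ?_⟩
      rw [map_add, h2, h2']; rfl
    | tmul x y =>
      obtain ⟨a, ha, rfl⟩ := Hd.mk_surj _ x
      obtain ⟨b, hb, rfl⟩ := Hd.mk_surj _ y
      exact ⟨a ⊗ₜ b, Coalg847.tD_mk ha hb, Submodule.subset_span ⟨a, b, ha, hb, rfl⟩,
        Coalg847.kun_mk _ _ _ _ a ha b hb⟩
  obtain ⟨v, hv, h1, h2⟩ := key t
  rw [ht, Hd.mk_eq_mk] at h2
  obtain ⟨u, hu⟩ := h2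
  refine ⟨u, ?_⟩
  rw [hu, QC134.sub_eq', ← add_assoc, QC134.add_self', zero_add]
  exact h1

open Gr334 in
theorem prN_cross (m : ℕ) (a : N F2 K) (b : N F2 L) :
    prN F2 (K.prod L) m (cross F2 a b) =
      ∑ p ∈ Finset.HasAntidiagonal.antidiagonal m, cross F2 (prN F2 K p.1 a) (prN F2 L p.2 b) := by
  have h : (cross F2 (K := K) (L := L)).compr₂ (prN F2 (K.prod L) m) =
      ∑ p ∈ Finset.HasAntidiagonal.antidiagonal m,
        (cross F2 (K := K) (L := L)).compl₁₂ (prN F2 K p.1) (prN F2 L p.2) := by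
    refine bilin_ext F2 fun p x q y => ?_
    simp only [LinearMap.compr₂_apply, LinearMap.sum_apply, LinearMap.compl₁₂_apply]
    have h1 : cross F2 (N.sx F2 x) (N.sx F2 y) ∈ N.gr F2 (K.prod L) (p + q) :=
      EZ847.cross_mem_gr F2 (sx_mem_gr x) (sx_mem_gr y)
    by_cases e : p + q = m
    · subst e
      rw [prN_of_mem h1, Finset.sum_eq_single (p, q)]
      · rw [prN_sx_self, prN_sx_self]
      · rintro ⟨i, j⟩ hij hne
        by_cases hi : p = i
        · subst hi
          have : q ≠ j := fun h => hne (by rw [h])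
          rw [prN_sx_ne this, map_zero]
        · rw [prN_sx_ne hi, map_zero, LinearMap.zero_apply]
      · intro hn
        exact absurd (Finset.HasAntidiagonal.mem_antidiagonal.2 (rfl : (p, q).1 + (p, q).2 = p + q)) hn
    · rw [prN_of_mem_ne e h1]
      symm
      refine Finset.sum_eq_zero fun r hr => ?_
      rw [Finset.HasAntidiagonal.mem_antidiagonal] at hr
      by_cases hi : p = r.1
      · have : q ≠ r.2 := fun h => e (by omega)
        rw [prN_sx_ne this, map_zero]
      · rw [prN_sx_ne hi, map_zero, LinearMap.zero_apply]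
  have := LinearMap.congr_fun (LinearMap.congr_fun h a) b
  simpa [LinearMap.sum_apply] using this

/-- products of homogeneous cycles -/
def CrSet (K L : SS) (m : ℕ) : Set (N F2 (K.prod L)) :=
  {t | ∃ (p q : ℕ) (a : N F2 K) (b : N F2 L), p + q = m ∧ a ∈ N.gr F2 K p ∧ b ∈ N.gr F2 L q ∧
    N.bd F2 K a = 0 ∧ N.bd F2 L b = 0 ∧ t = cross F2 a b}

open Gr334 in
/-- **Künneth surjectivity**, span form -/
theorem cross_surj_span (m : ℕ) (w : N F2 (K.prod L)) (hw : w ∈ N.gr F2 (K.prod L) m)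
    (h0 : N.bd F2 (K.prod L) w = 0) :
    ∃ b ∈ N.gr F2 (K.prod L) (m + 1), w + N.bd F2 _ b ∈ Submodule.span F2 (CrSet K L m) := by
  obtain ⟨z, w', hz, hzw⟩ := (qi_crossT (K := K) (L := L)).surj w h0
  obtain ⟨u, hu⟩ := tensor_cycle z hz
  have hS : ∀ t ∈ Submodule.span F2 {t | ∃ (a : N F2 K) (b : N F2 L), N.bd F2 K a = 0 ∧
      N.bd F2 L b = 0 ∧ t = a ⊗ₜ[F2] b},
      prN F2 (K.prod L) m (crossT F2 t) ∈ Submodule.span F2 (CrSet K L m) := by
    intro t ht
    refine Submodule.span_induction (p := fun t _ => prN F2 (K.prod L) m (crossT F2 t) ∈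
      Submodule.span F2 (CrSet K L m)) ?_ ?_ ?_ ?_ ht
    · rintro _ ⟨a, b, ha, hb, rfl⟩
      rw [crossT_tmul, prN_cross]
      refine Submodule.sum_mem _ fun r hr => Submodule.subset_span ?_
      rw [Finset.HasAntidiagonal.mem_antidiagonal] at hr
      exact ⟨r.1, r.2, _, _, hr, prN_mem _ _, prN_mem _ _, bd_prN_eq_zero ha _, bd_prN_eq_zero hb _, rfl⟩
    · simp only [map_zero]; exact Submodule.zero_mem _
    · intro x y _ _ hx hy; simp only [map_add]; exact Submodule.add_mem _ hx hy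
    · intro r x _ hx; simp only [map_smul]; exact Submodule.smul_mem _ _ hx
  have h1 := hS _ hu
  rw [map_add, (qi_crossT (K := K) (L := L)).comm, map_add, prN_bd] at h1
  have h2 : w = prN F2 _ m (crossT F2 z) + N.bd F2 _ (prN F2 _ (m + 1) w') := by
    have := congrArg (prN F2 (K.prod L) m) hzw
    rwa [prN_of_mem hw, map_add, prN_bd] at this
  refine ⟨prN F2 _ (m + 1) (crossT F2 u) + prN F2 _ (m + 1) w',
    Submodule.add_mem _ (prN_mem _ _) (prN_mem _ _), ?_⟩
  have h3 : w + N.bd F2 _ (prN F2 _ (m + 1) (crossT F2 u) + prN F2 _ (m + 1) w') =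
      prN F2 _ m (crossT F2 z) + N.bd F2 _ (prN F2 _ (m + 1) (crossT F2 u)) := by
    conv_lhs => rw [h2]
    rw [map_add]
    have := QC134.add_self' (N.bd F2 (K.prod L) (prN F2 _ (m + 1) w'))
    calc _ = prN F2 _ m (crossT F2 z) + N.bd F2 _ (prN F2 _ (m + 1) (crossT F2 u)) +
        (N.bd F2 (K.prod L) (prN F2 _ (m + 1) w') + N.bd F2 (K.prod L) (prN F2 _ (m + 1) w')) := by abel
      _ = _ := by rw [this, add_zero]
  rw [h3]; exact h1

/-- **Künneth surjectivity**: a homogeneous cycle of a product is homologous to a sum of products of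
homogeneous cycles. -/
theorem cross_surj (K L : SS) (m : ℕ) (w : N F2 (K.prod L)) (hw : w ∈ N.gr F2 (K.prod L) m)
    (h0 : N.bd F2 (K.prod L) w = 0) :
    ∃ (s : ℕ) (Y : Fin s → N F2 K) (Z : Fin s → N F2 L) (p q : Fin s → ℕ),
      (∀ i, p i + q i = m ∧ Y i ∈ N.gr F2 K (p i) ∧ Z i ∈ N.gr F2 L (q i) ∧
        N.bd F2 K (Y i) = 0 ∧ N.bd F2 L (Z i) = 0) ∧
      ∃ b ∈ N.gr F2 (K.prod L) (m + 1), w + ∑ i, cross F2 (Y i) (Z i) = N.bd F2 _ b := by
  obtain ⟨b, hb, h⟩ := cross_surj_span m w hw h0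
  obtain ⟨s, f, g, hs⟩ := Submodule.mem_span_set'.1 h
  choose p q Y Z h1 h2 h3 h4 h5 h6 using fun i => (g i).2
  refine ⟨s, fun i => f i • Y i, Z, p, q, fun i => ⟨h1 i, Submodule.smul_mem _ _ (h2 i), h3 i, ?_, h5 i⟩,
    b, hb, ?_⟩
  · rw [map_smul, h4 i, smul_zero]
  · have : ∑ i, cross F2 (f i • Y i) (Z i) = w + N.bd F2 _ b := by
      rw [← hs]
      refine Finset.sum_congr rfl fun i _ => ?_
      rw [h6 i, map_smul, LinearMap.smul_apply]
    rw [this, ← add_assoc, QC134.add_self', zero_add]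

end Crest.Agent.R204.EZ271
end

-- ▼ part R204/PontH_718
section

/-!
# Row 204, leaf G4 (helper718): `cup` is the equivariant diagonal `Phi 0` (so `Sq^m_*` on `H_{2m}` is
dual to `u ↦ u ∪ u`), and the main theorem of 8.6 in homology: `A₂ = z·z + i c` spherical, `ρ z = ξ`
primitive, `m` even  ⟹  `Sq^m_* c = ξ`.
-/

set_option autoImplicit false

namespace Crest.Agent.R204.Pont718

open EZ271 Coef947 Phi252 Sq252 DK742 TensorProduct

variable {K L X : SS}

/-! ## `cup = Phi 0` -/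

theorem h_eq (n : ℕ) : Phi252.h n = (Cone.std n).c F2 := by
  refine hom_ext fun m α => ?_
  rw [h_sx, Cone.c_sx]
  rfl

theorem aug_eq : Phi252.aug K = EZ271.aug F2 (K := K) := by
  refine hom_ext fun m x => ?_
  rcases m with _ | m
  · rw [Phi252.aug_zero, aug_sx_zero]
  · rw [Phi252.aug_succ, aug_sx_succ]

theorem pf_nm (f : SS.Hom K L) (a b : Co F2 L) (z : NN K) :
    pf a b (nm f z) = pf (a ∘ₗ N.map F2 f) (b ∘ₗ N.map F2 f) z := by
  induction z using TensorProduct.induction_on with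
  | zero => simp
  | tmul x y => simp
  | add a b ha hb => simp only [map_add, ha, hb]

theorem pf_hh {n : ℕ} (a b : Co F2 (SS.std n)) (z : NN (SS.std n)) :
    pf a b (hh n z) = pf (hk (Cone.std n) a) b z +
      pf (a (N.sx F2 (Cone.std n).bot) • EZ271.aug F2) (hk (Cone.std n) b) z := by
  induction z using TensorProduct.induction_on with
  | zero => simp
  | tmul x y =>
    rw [hh_tmul, map_add, pf_tmul, pf_tmul, pf_tmul, pf_tmul, ptm_apply, map_smul, h_eq, aug_eq]
    simp only [hk, LinearMap.comp_apply, LinearMap.smul_apply, smul_eq_mul]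
    congr 1
    rw [mul_comm (a (N.sx F2 (Cone.std n).bot))]
    rfl
  | add x y hx hy => simp only [map_add, hx, hy]; ring

/-- `a ∪ b = (a ⊗ b) ∘ Phi 0` -/
theorem cup_eq_pf (a b : Co F2 K) (c : N F2 K) : cup a b c = pf a b (Phi K 0 c) := by
  have key : ∀ (n : ℕ) (a b : Co F2 (SS.std n)),
      cup a b (N.sx F2 (K := SS.std n) (OrderHom.id : Op n n)) = pf a b (phi n 0) := by
    intro n
    induction n with
    | zero =>
      intro a b
      rw [iota_zero, cup_bot, phi_zero_zero, pf_tmul]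
      rfl
    | succ n ih =>
      intro a b
      have ih' : ∀ (K : SS) (a b : Co F2 K) (x : K.S n), cup a b (N.sx F2 x) = pf a b (Phi K 0 (N.sx F2 x)) := by
        intro K a b x
        rw [Phi_sx, pf_nm, ← ih, ← cup_map, LinearMap.comp_apply, N.map_sx]
        congr 2
        exact (K.act_id x).symm
      have hb : ∀ (a b : Co F2 (SS.std (n + 1))), pf a b (fsum n (phi n 0)) =
          cup a b (N.bd F2 _ (N.sx F2 (K := SS.std (n + 1)) (OrderHom.id : Op (n + 1) (n + 1)))) := by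
        intro a b
        have h1 := Phi_bd_sx (K := SS.std (n + 1)) (n := n) (OrderHom.id : Op (n + 1) (n + 1)) 0
        have h2 : nm ((SS.std (n + 1)).yo (n := n + 1) (OrderHom.id : Op (n + 1) (n + 1))) (fsum n (phi n 0)) =
            fsum n (phi n 0) := by
          have : (SS.std (n + 1)).yo (n := n + 1) (OrderHom.id : Op (n + 1) (n + 1)) = SS.Hom.id _ := by
            ext m g
            rfl
          rw [this, nm_id]
        rw [h2] at h1
        rw [← h1, bd_sx, map_sum, map_sum, map_sum]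
        exact Finset.sum_congr rfl fun k _ => (ih' _ a b _).symm
      rw [phi_succ_zero, pf_hh, hb, hb, iota_succ]
      set w := N.sx F2 (K := SS.std (n + 1)) (Op.face 0 : Op n (n + 1)) with hw
      set A := Cone.std (n + 1) with hA
      have hbd : N.bd F2 (SS.std (n + 1)) (A.c F2 w) =
          w + A.c F2 (N.bd F2 _ w) + EZ271.aug F2 w • N.sx F2 A.bot := by
        rw [Cone.bd_c, f2_sub, f2_sub]
      rw [hbd]
      have e1 : ∀ (a b : Co F2 (SS.std (n + 1))) (v : N F2 (SS.std (n + 1))), a (N.sx F2 A.bot) = 0 →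
          cup (hk A a) b (A.c F2 v) = 0 := by
        intro a b v ha
        rw [cup_cone, hk_bot, zero_mul, hk_hk, cup_zero_left, LinearMap.zero_apply, add_zero]
      have e2 : ∀ (a b : Co F2 (SS.std (n + 1))) (v : N F2 (SS.std (n + 1))),
          cup (hk A a) b (A.c F2 v) = 0 := by
        intro a b v
        rw [cup_cone, hk_bot, zero_mul, hk_hk, cup_zero_left, LinearMap.zero_apply, add_zero]
      rw [cup_cone, map_add, map_add, e2, map_smul, cup_bot, hk_bot, zero_mul, smul_zero,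
        cup_smul_left, cup_aug_left, LinearMap.smul_apply, map_add, map_add, map_smul, hk_bot,
        smul_zero, add_zero, add_zero, add_zero]
      have e3 : hk A b (A.c F2 (N.bd F2 _ w)) = 0 := by
        simp only [hk, LinearMap.comp_apply, Cone.c_c, map_zero]
      rw [e3, add_zero, smul_eq_mul, add_comm]
      rfl
  refine LinearMap.congr_fun (f := cup a b) (g := pf a b ∘ₗ Phi K 0) (hom_ext fun n x => ?_) c
  rw [LinearMap.comp_apply, Phi_sx, pf_nm, ← key, ← cup_map, LinearMap.comp_apply, N.map_sx]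
  congr 2
  exact (K.act_id x).symm

theorem uu_eq_pf (u : Co F2 K) (z : NN K) : uu u z = pf u u z := rfl


end Crest.Agent.R204.Pont718
end

-- ▼ part R204/KDec2_810
section

/-!
# Row 204, leaf G4 (helper810): Kuenneth decomposition, unconditional form

`decomp'` = `KDec810.decomp` with 271's `cross_surj`, hypotheses `h0`, `hfin` at the level of homology.
-/

set_option autoImplicit false

namespace Crest.Agent.R204.KDec810

open EZ271 Pont718 Gr334

variable {K L X : SS}

theorem add_mem_range_iff {z w : N F2 X} (hz : N.bd F2 X z = 0) (hw : N.bd F2 X w = 0) :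
    z + w ∈ LinearMap.range (N.bd F2 X) ↔ Hd.mk (N.bd F2 X) z hz = Hd.mk (N.bd F2 X) w hw := by
  rw [Hd.mk_eq_mk, f2_sub]; rfl

/-- a finite generating family of `H_i` at chain level -/
theorem hfin_of_H (i : ℕ) (h : Module.Finite F2 (H.gr F2 X i)) :
    ∃ (s : ℕ) (g : Fin s → N F2 X), (∀ j, g j ∈ N.gr F2 X i ∧ N.bd F2 X (g j) = 0) ∧
      ∀ z ∈ N.gr F2 X i, N.bd F2 X z = 0 → ∃ r : Fin s → F2,
        z + ∑ j, r j • g j ∈ LinearMap.range (N.bd F2 X) := by
  classical
  let b := Module.finBasis F2 (H.gr F2 X i)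
  have hb : ∀ j, ∃ z ∈ N.gr F2 X i, ∃ hz, (b j : H F2 X) = Hd.mk (N.bd F2 X) z hz :=
    fun j => mem_H_gr.1 (b j).2
  choose g hg1 hg2 hg3 using hb
  refine ⟨_, g, fun j => ⟨hg1 j, hg2 j⟩, fun z hz hz' => ?_⟩
  let c : H.gr F2 X i := ⟨Hd.mk (N.bd F2 X) z hz', mk_mem_gr hz hz'⟩
  refine ⟨fun j => b.repr c j, ?_⟩
  have hs : N.bd F2 X (∑ j, b.repr c j • g j) = 0 := by
    rw [map_sum]
    exact Finset.sum_eq_zero fun j _ => by rw [map_smul, hg2, smul_zero]
  rw [add_mem_range_iff hz' hs]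
  have h1 := congrArg Subtype.val (b.sum_repr c)
  rw [AddSubmonoidClass.coe_finsetSum] at h1
  refine h1.symm.trans ?_
  have h2 : ∀ j, ((b.repr c j • b j : H.gr F2 X i) : H F2 X) =
      b.repr c j • Hd.mk (N.bd F2 X) (g j) (hg2 j) := fun j => by
    rw [← hg3]; rfl
  rw [Finset.sum_congr rfl fun j _ => h2 j]
  have h3 : ∀ j, b.repr c j • Hd.mk (N.bd F2 X) (g j) (hg2 j) =
      Hd.mk (N.bd F2 X) (b.repr c j • g j) (by rw [map_smul, hg2, smul_zero]) := fun j => rfl
  rw [Finset.sum_congr rfl fun j _ => h3 j]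
  exact (mk_sum (R := F2) Finset.univ (fun j => b.repr c j • g j)
    (fun j => by rw [map_smul, hg2, smul_zero]) hs).symm

/-- `H_0` generated by the class of a vertex, at chain level -/
theorem h0_of_H (e : X.S 0)
    (h : ∀ x ∈ H.gr F2 X 0, ∃ r : F2, x = r • Hd.mk (N.bd F2 X) (N.sx F2 e) (Gr334.bd_sx_zero e)) :
    ∀ z ∈ N.gr F2 X 0, ∃ r : F2, z + r • N.sx F2 e ∈ LinearMap.range (N.bd F2 X) := by
  intro z hz
  have hz' : N.bd F2 X z = 0 := bd_gr_zero hz
  obtain ⟨r, hr⟩ := h _ (mk_mem_gr hz hz')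
  have he : N.bd F2 X (r • N.sx F2 e) = 0 := by rw [map_smul, Gr334.bd_sx_zero, smul_zero]
  exact ⟨r, (add_mem_range_iff hz' he).2 hr⟩

/-- **Kuenneth decomposition**, unconditional form -/
theorem decomp' (e : X.S 0) {m : ℕ} (hm : 0 < m) (V : Co F2 (X.prod X)) (hVd : IsDeg m V)
    (hVc : V ∘ₗ N.bd F2 (X.prod X) = 0) (U : Co F2 X) (hUd : IsDeg m U) (hUc : U ∘ₗ N.bd F2 X = 0)
    (hV1 : ∀ y ∈ N.gr F2 X m, N.bd F2 X y = 0 → V (cross F2 y (N.sx F2 e)) = U y)
    (hV2 : ∀ y ∈ N.gr F2 X m, N.bd F2 X y = 0 → V (cross F2 (N.sx F2 e) y) = U y)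
    (h0 : ∀ x ∈ H.gr F2 X 0, ∃ r : F2,
      x = r • Hd.mk (N.bd F2 X) (N.sx F2 e) (Gr334.bd_sx_zero e))
    (hfin : ∀ i, 0 < i → i < m → Module.Finite F2 (H.gr F2 X i)) :
    ∃ (s : ℕ) (x y : Fin s → Co F2 X) (p q : Fin s → ℕ) (b : Co F2 (X.prod X)),
      (∀ i, 0 < p i ∧ 0 < q i ∧ p i + q i = m ∧ IsDeg (p i) (x i) ∧ IsDeg (q i) (y i) ∧
        x i ∘ₗ N.bd F2 X = 0 ∧ y i ∘ₗ N.bd F2 X = 0) ∧ IsDeg (m - 1) b ∧
      V = crs U (aug F2) + crs (aug F2) U + ∑ i, crs (x i) (y i) + b ∘ₗ N.bd F2 (X.prod X) := by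
  refine decomp e hm V hVd hVc U hUd hUc hV1 hV2 ?_ (h0_of_H e h0) fun i hi hi' =>
    hfin_of_H i (hfin i hi hi')
  intro w hw hw'
  obtain ⟨s, Y, Z, p, q, h1, b, -, hb⟩ := cross_surj X X m w hw hw'
  exact ⟨s, Y, Z, p, q, h1, b, hb.symm⟩

end Crest.Agent.R204.KDec810
end

-- ▼ part R204/Bock_947
section

/-!
# Row 204, block G: squares vanish on classes killed by `H(K; F_2) → H(K; Z/4)` (even degree)
(helper947)
-/

set_option autoImplicit false

namespace Crest.Agent.R204.Bock947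

open Crest.Agent.R204 SS Coef947 Pont718

variable {K : SS}

theorem inj_eq_dblf : inj 2 4 2 rfl = dblf := by
  refine AddMonoidHom.ext fun r => ?_
  obtain ⟨k, rfl⟩ := ZMod.intCast_surjective r
  rw [inj_intCast]
  have h1 : ((k : ℤ) : ZMod 2) = k • (1 : ZMod 2) := by rw [zsmul_eq_mul, mul_one]
  have h2 : dblf (((k : ℤ) : ZMod 2)) = k • dblf (1 : ZMod 2) := by rw [h1, map_zsmul]
  have h3 : dblf (1 : ZMod 2) = 2 := by decide
  rw [h2, h3, zsmul_eq_mul]
  push_cast
  ring

theorem rho_eq_c42 : Coef947.rho 4 2 (by norm_num) = c42.toAddMonoidHom := rfl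

/-- `⟨U ∪ U, c⟩ = 0` if `i(c)` is a boundary over `Z/4`, `U` a cocycle of even degree -/
theorem cup_bock {m : ℕ} (hm : Even m) (U : Co F2 K) (hU : IsDeg m U) (hU' : U ∘ₗ N.bd F2 K = 0)
    (c : N F2 K) (w : N Z4 K) (h : N.bd Z4 K w = inc K c) : cup U U c = 0 := by
  set u : PC K m := lfPC U hU hU' with hu
  have hur : red u.a = U := by rw [hu]; exact red_lf U
  have E6 : red u.P = cup U U := by
    unfold PC.P PC.B
    rw [red_add, red_cup, red_dbl, add_zero, hur]
  have E5 : u.P (N.bd Z4 K w) = 0 := LinearMap.congr_fun (u.P_bd hm) w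
  rw [h, inc_eval, E6] at E5
  exact dblf_injective (by rw [E5, map_zero])

end Crest.Agent.R204.Bock947
end

-- ▼ part R204/PontF_718

/-!
# Row 204, leaf G4 (helper718): main theorem of 8.6 in homology.

`A₂ = z·z + i c` spherical (simplex with constant faces), `ρ z` primitive, `m` even ⟹
`Sq^m_* c = Rk X 0 c = ρ z`.
-/

set_option autoImplicit false

namespace Crest.Agent.R204.Pont718

open EZ271 Coef947 Sq252 Phi252 DK742 TensorProduct Prd328

variable {K L X : SS}

/-- functionals of degree `m` separate classes of degree `m` -/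
theorem H_ext_gr {m : ℕ} {x y : H F2 K} (hx : x ∈ H.gr F2 K m) (hy : y ∈ H.gr F2 K m)
    (h : ∀ (u : Co F2 K) (hu : ∀ x, u (N.bd F2 K x) = 0), IsDeg m u →
      uH _ u hu x = uH _ u hu y) : x = y := by
  obtain ⟨a, ha, ha', rfl⟩ := Gr334.mem_H_gr.1 hx
  obtain ⟨b, hb, hb', rfl⟩ := Gr334.mem_H_gr.1 hy
  refine Hd_ext (bdd K) fun u hu => ?_
  have hu' : ∀ x, (u ∘ₗ Gr334.prN F2 K m) (N.bd F2 K x) = 0 := fun x => by
    rw [LinearMap.comp_apply, Gr334.prN_bd, hu]
  have hd : IsDeg m (u ∘ₗ Gr334.prN F2 K m) := fun n x hn => by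
    rw [LinearMap.comp_apply, Gr334.prN_sx_ne hn, map_zero]
  have := h _ hu' hd
  rw [uH_mk, uH_mk, LinearMap.comp_apply, LinearMap.comp_apply, Gr334.prN_of_mem ha,
    Gr334.prN_of_mem hb] at this
  exact this

/-- **VPair**, (b1) -/
theorem Rk_eq_of_cup {m : ℕ} {c z : N F2 K} (hc : c ∈ N.gr F2 K (2 * m)) (hc' : N.bd F2 K c = 0)
    (hz : z ∈ N.gr F2 K m) (hz' : N.bd F2 K z = 0)
    (h : ∀ u : Co F2 K, IsDeg m u → u ∘ₗ N.bd F2 K = 0 → cup u u c = u z) :
    Rk K 0 (Hd.mk _ c hc') = Hd.mk _ z hz' := by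
  have hcg := Gr334.mk_mem_gr hc hc'
  refine H_ext_gr (Rk_mem_gr (by omega) hcg) (Gr334.mk_mem_gr hz hz') fun u hu hd => ?_
  rw [uH_Rk, uH_mk, uu_eq_pf, ← cup_eq_pf]
  exact h u hd (LinearMap.ext hu)

/-- **VPair**, (b2) -/
theorem Rk_eq_zero_of_cup {m : ℕ} {c : N F2 K} (hc : c ∈ N.gr F2 K (2 * m)) (hc' : N.bd F2 K c = 0)
    (h : ∀ u : Co F2 K, IsDeg m u → u ∘ₗ N.bd F2 K = 0 → cup u u c = 0) :
    Rk K 0 (Hd.mk _ c hc') = 0 := by
  have := Rk_eq_of_cup hc hc' (Submodule.zero_mem (N.gr F2 K m)) (map_zero _)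
    (fun u hd hu => by rw [h u hd hu, map_zero])
  rw [this]
  exact Hd.mk_eq_zero.2 ⟨0, map_zero _⟩

/-- `Rk 0 = Sq^m_*` in degree `2m` -/
theorem Rk_zero_eq_Sq {m : ℕ} {x : H F2 K} (hx : x ∈ H.gr F2 K (2 * m)) : Rk K 0 x = Sq K m x :=
  Rk_eq_Sq hx rfl

/-- boundary of a simplex with constant faces -/
theorem sph_bd {R : Type} [CommRing R] {k : ℕ} (hk : 1 ≤ k) (A : X.S (k + 1)) (e : X.S 0)
    (hA : ∀ i : Fin (k + 2), X.act (Op.face i) A = X.act (⟨fun _ => 0, fun _ _ _ => le_rfl⟩ : Op k 0) e) :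
    N.bd R X (N.sx R A) = 0 := by
  rw [EZ271.bd_sx_succ]
  refine Finset.sum_eq_zero fun i _ => ?_
  rw [hA, sx_act_eq_zero _ _ 0 hk rfl, smul_zero]

/-- `a ∪ b` is the pull-back of `a × b` along the diagonal -/
theorem cup_eq_crs (a b : Co F2 K) : cup a b = crs a b ∘ₗ N.map F2 (SS.diag K) := by
  unfold crs
  rw [cup_map]
  have h1 : (a ∘ₗ N.map F2 (SS.fst K K)) ∘ₗ N.map F2 (SS.diag K) = a := by
    refine LinearMap.ext fun w => ?_
    rw [LinearMap.comp_apply, LinearMap.comp_apply, EZ271.map_map]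
    exact congrArg a (Phi252.map_id w)
  have h2 : (b ∘ₗ N.map F2 (SS.snd K K)) ∘ₗ N.map F2 (SS.diag K) = b := by
    refine LinearMap.ext fun w => ?_
    rw [LinearMap.comp_apply, LinearMap.comp_apply, EZ271.map_map]
    exact congrArg b (Phi252.map_id w)
  rw [h1, h2]

theorem cocycle_eq {u : Co F2 K} (hu : u ∘ₗ N.bd F2 K = 0) {z z' : N F2 K} (hz : N.bd F2 K z = 0)
    (hz' : N.bd F2 K z' = 0) (h : Hd.mk (N.bd F2 K) z hz = Hd.mk (N.bd F2 K) z' hz') : u z = u z' := by
  rw [Hd.mk_eq_mk] at h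
  obtain ⟨w, hw⟩ := h
  have := LinearMap.congr_fun hu w
  rw [LinearMap.comp_apply, hw, map_sub, LinearMap.zero_apply] at this
  exact sub_eq_zero.1 this

/-- **8.6, homology form** -/
theorem pont {m k : ℕ} (hm : 0 < m) (hm2 : Even m) (hk : k + 1 = 2 * m)
    (μ : SS.Hom (X.prod X) X) (e : X.S 0)
    (hμ1 : ∀ x ∈ H.gr F2 X m, H.map F2 μ (crossH F2 x (vt F2 e)) = x)
    (hμ2 : ∀ x ∈ H.gr F2 X m, H.map F2 μ (crossH F2 (vt F2 e) x) = x)
    (h0 : ∀ x ∈ H.gr F2 X 0, ∃ r : F2, x = r • vt F2 e)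
    (hfin : ∀ i, 0 < i → i < m → Module.Finite F2 (H.gr F2 X i))
    (z : H (ZMod 4) X) (hz : z ∈ H.gr (ZMod 4) X m)
    (hprim : H.map F2 (SS.diag X) (coH (Coef947.rho 4 2 (by norm_num)) X z) =
      crossH F2 (coH (Coef947.rho 4 2 (by norm_num)) X z) (vt F2 e) +
      crossH F2 (vt F2 e) (coH (Coef947.rho 4 2 (by norm_num)) X z))
    (A : X.S (k + 1))
    (hA : ∀ i : Fin (k + 2), X.act (Op.face i) A = X.act (⟨fun _ => 0, fun _ _ _ => le_rfl⟩ : Op k 0) e)
    (hA' : N.bd (ZMod 4) X (N.sx (ZMod 4) A) = 0)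
    (c : H F2 X) (hc : c ∈ H.gr F2 X (2 * m))
    (hrel : Hd.mk (N.bd (ZMod 4) X) (N.sx (ZMod 4) A) hA' =
      H.map (ZMod 4) μ (crossH (ZMod 4) z z) + coH (inj 2 4 2 rfl) X c) :
    Rk X 0 c = coH (Coef947.rho 4 2 (by norm_num)) X z := by
  rw [Bock947.rho_eq_c42] at *
  rw [Bock947.inj_eq_dblf] at hrel
  obtain ⟨z, hzg, hz', rfl⟩ := Gr334.mem_H_gr.1 hz
  obtain ⟨c, hcg, hc', rfl⟩ := Gr334.mem_H_gr.1 hc
  have hrz : N.bd F2 X (rho X z) = 0 := by rw [← rho_bd, hz', map_zero]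
  have hez : N.bd F2 X (N.sx F2 e) = 0 := EZ271.bd_sx_zero F2 e
  have hrgr : rho X z ∈ N.gr F2 X m := coN_mem_gr _ hzg
  rw [coH_mk] at hprim ⊢
  -- primitivity at chain level
  have hP : PrimCycle X m z := by
    refine ⟨hzg, hz', fun p q a b hp hq hpq ha hb ha' hb' => ?_⟩
    rw [cup_eq_crs, LinearMap.comp_apply]
    have h1 := KDec810.crs_cocycle ha' hb'
    have hd1 : N.bd F2 _ (cross F2 (rho X z) (N.sx F2 e)) = 0 := by
      rw [bd_cross, hrz, hez, map_zero, map_zero, LinearMap.zero_apply, add_zero]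
    have hd2 : N.bd F2 _ (cross F2 (N.sx F2 e) (rho X z)) = 0 := by
      rw [bd_cross, hrz, hez, map_zero, map_zero, LinearMap.zero_apply, add_zero]
    have h2 := cocycle_eq h1 (z := N.map F2 (SS.diag X) (rho X z))
      (z' := cross F2 (rho X z) (N.sx F2 e) + cross F2 (N.sx F2 e) (rho X z))
      (by rw [← EZ271.map_bd', hrz, map_zero]) (by rw [map_add, hd1, hd2, add_zero]) hprim
    rw [h2, map_add, crs_cross, crs_cross, ha _ _ (by omega : 0 ≠ p), hb _ _ (by omega : 0 ≠ q)]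
    simp
  -- relation at chain level
  obtain ⟨w, hw⟩ : ∃ w, N.bd Z4 X w = N.sx Z4 A - (N.map Z4 μ (cross Z4 z z) + inc X c) := by
    have hd : N.bd Z4 X (N.map Z4 μ (cross Z4 z z) + inc X c) = 0 := by
      rw [map_add, ← EZ271.map_bd', bd_cross, hz', ← coN_bd, hc']
      simp
    exact (Hd.mk_eq_mk (hz := hA') (hz' := hd)).1 hrel
  have hrel' : N.sx Z4 A = N.map Z4 μ (cross Z4 z z) + inc X c + N.bd Z4 X w := by
    rw [hw]; abel
  refine Rk_eq_of_cup hcg hc' hrgr hrz fun U hU hU' => ?_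
  refine pont_of_dec hm hm2 hk μ e hP A hA c w hrel' U hU hU' ?_
  refine KDec810.decomp' e hm (U ∘ₗ N.map F2 μ) (hU.map μ) ?_ U hU hU' ?_ ?_ ?_ hfin
  · refine LinearMap.ext fun w => ?_
    rw [LinearMap.comp_apply, LinearMap.comp_apply, EZ271.map_bd']
    exact LinearMap.congr_fun hU' _
  · intro y hy hy'
    have hd1 : N.bd F2 _ (cross F2 y (N.sx F2 e)) = 0 := by
      rw [bd_cross, hy', hez, map_zero, map_zero, LinearMap.zero_apply, add_zero]
    exact cocycle_eq hU' (by rw [← EZ271.map_bd', hd1, map_zero]) hy'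
      (hμ1 _ (Gr334.mk_mem_gr hy hy'))
  · intro y hy hy'
    have hd1 : N.bd F2 _ (cross F2 (N.sx F2 e) y) = 0 := by
      rw [bd_cross, hy', hez, map_zero, map_zero, LinearMap.zero_apply, add_zero]
    exact cocycle_eq hU' (by rw [← EZ271.map_bd', hd1, map_zero]) hy'
      (hμ2 _ (Gr334.mk_mem_gr hy hy'))
  · intro x hx
    exact h0 x hx

end Crest.Agent.R204.Pont718
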