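import Crest.Agent.R204.RkCartan_888
import Crest.Agent.R204.Prd_328
import Crest.Agent.R204.Sq2_252
import Crest.Agent.R204.PontF_718
import Crest.Agent.R204.X0_947

-- ▼ part R204/Bock_888
section

/-!
# Row 204, block A5 (P8): the Bockstein and `Sq_1` (helper888)
-/

set_option autoImplicit false

noncomputable section

namespace Crest.Agent.R204.Bock888

open Finsupp TensorProduct Q888 Coef947

abbrev R4 : Type := ZMod 4

/-- reduction `N(K; Z/4) → N(K; Z/2)` -/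
def rh (K : SS) : N R4 K →+ N F2 K := coN (rho 4 2 (by norm_num)) K

/-- injection `N(K; Z/2) → N(K; Z/4)` -/
def io (K : SS) : N F2 K →+ N R4 K := coN (inj 2 4 2 rfl) K

theorem io_inj (K : SS) : Function.Injective (io K) :=
  coN_injective _ (inj_injective _ _ _ _ (by norm_num))

theorem rh_surj (K : SS) : Function.Surjective (rh K) := coN_surjective _ (rho_surjective _ _ _)

theorem rh_surj_gr (K : SS) {n : ℕ} {c : N F2 K} (hc : c ∈ N.gr F2 K n) :
    ∃ c' ∈ N.gr R4 K n, rh K c' = c := coN_surjective_gr _ (rho_surjective _ _ _) hc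

theorem rh_exact (K : SS) (c : N R4 K) : rh K c = 0 ↔ ∃ b, io K b = c :=
  coN_exact _ _ (inj_exact _ _ _ _ _) c

theorem inj_rho (r : R4) : inj 2 4 2 rfl (rho 4 2 (by norm_num) r) = r + r := by
  obtain ⟨k, rfl⟩ := ZMod.intCast_surjective r
  rw [rho_intCast, inj_intCast]
  push_cast
  ring

theorem io_rh (K : SS) (c : N R4 K) : io K (rh K c) = c + c := by
  obtain ⟨c, rfl⟩ := Submodule.Quotient.mk_surjective _ c
  unfold io rh
  rw [coN_mk, coN_mk, ← Submodule.Quotient.mk_add]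
  congr 1
  ext t
  rw [coC_apply, coC_apply, inj_rho]
  rfl

theorem neg_io (K : SS) (b : N F2 K) : - io K b = io K b := by rw [← map_neg, neg_eq2]


theorem smul_io (K : SS) (k : ℕ) (b : N F2 K) : ((-1 : R4) ^ k) • io K b = io K b := by
  rcases neg_one_pow_eq_or R4 k with h | h
  · rw [h, one_smul]
  · rw [h, neg_one_smul, neg_io]

theorem io_bd (K : SS) (b : N F2 K) : io K (N.bd F2 K b) = N.bd R4 K (io K b) := coN_bd _ b
theorem rh_bd (K : SS) (b : N R4 K) : rh K (N.bd R4 K b) = N.bd F2 K (rh K b) := coN_bd _ b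
theorem io_map {K L : SS} (f : SS.Hom K L) (b : N F2 K) :
    io L (N.map F2 f b) = N.map R4 f (io K b) := coN_map _ f b
theorem rh_map {K L : SS} (f : SS.Hom K L) (b : N R4 K) :
    rh L (N.map R4 f b) = N.map F2 f (rh K b) := coN_map _ f b

theorem rh_smul (K : SS) (k : ℕ) (z : N R4 K) : rh K (((-1 : R4) ^ k) • z) = rh K z := by
  unfold rh
  rw [Prd328.coN_neg_pow]
  have : (-1 : F2) = 1 := by decide
  rw [this, one_pow, one_smul]

theorem io_cross_left {K L : SS} (a : N F2 K) (b : N R4 L) :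
    EZ271.cross R4 (io K a) b = io (K.prod L) (EZ271.cross F2 a (rh L b)) := by
  unfold io rh
  rw [Prd328.coN_cross]
  intro r s
  rw [inj_mul_right]

theorem io_cross_right {K L : SS} (a : N R4 K) (b : N F2 L) :
    EZ271.cross R4 a (io L b) = io (K.prod L) (EZ271.cross F2 (rh K a) b) := by
  unfold io rh
  rw [Prd328.coN_cross']
  intro r s
  rw [mul_comm, ← inj_mul_right, mul_comm]

theorem rh_cross {K L : SS} (a : N R4 K) (b : N R4 L) :
    rh (K.prod L) (EZ271.cross R4 a b) = EZ271.cross F2 (rh K a) (rh L b) := by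
  -- `2 (ρ (a × b)) = 2 (ρ a × ρ b)`
  apply io_inj
  rw [io_rh, ← io_cross_left, io_rh, map_add, LinearMap.add_apply]

/-- graded symmetry of the cross product -/
theorem swap_cross_gr (R : Type) [CommRing R] {K L : SS} {p q : ℕ} {a : N R K} {b : N R L}
    (ha : a ∈ N.gr R K p) (hb : b ∈ N.gr R L q) :
    N.map R (SS.swap K L) (EZ271.cross R a b) = ((-1 : R) ^ (p * q)) • EZ271.cross R b a := by
  refine Gr334.gr_induction (p := fun a => N.map R (SS.swap K L) (EZ271.cross R a b) =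
    ((-1 : R) ^ (p * q)) • EZ271.cross R b a) ha ?_ ?_ ?_ ?_
  · simp
  · intro a a' h h'
    rw [map_add, LinearMap.add_apply, map_add, h, h', map_add, smul_add]
  · intro r a h
    rw [map_smul, LinearMap.smul_apply, map_smul, h, map_smul, smul_comm]
  · intro x
    refine Gr334.gr_induction (p := fun b => N.map R (SS.swap K L) (EZ271.cross R (N.sx R x) b) =
      ((-1 : R) ^ (p * q)) • EZ271.cross R b (N.sx R x)) hb ?_ ?_ ?_ ?_
    · simp
    · intro a a' h h'
      rw [map_add, map_add, h, h', map_add, LinearMap.add_apply, smul_add]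
    · intro r a h
      rw [map_smul, map_smul, h, map_smul, LinearMap.smul_apply, smul_comm]
    · intro y
      exact EZ271.swap_cross_sx R x y

/-! ## the signed quadratic construction over `Z/4` -/

section D4

variable {Y : Type} [AddCommGroup Y] [Module R4 Y]

/-- `D (e_i ⊗ y) = (-1)^i e_i ⊗ d y + e_{i-1} ⊗ (y + (-1)^i τ y)` -/
def D4 (d τ : Y →ₗ[R4] Y) : (ℕ →₀ Y) →ₗ[R4] (ℕ →₀ Y) :=
  Finsupp.lsum R4 (fun i => match i with
    | 0 => lsingle 0 ∘ₗ d
    | i + 1 => ((-1 : R4) ^ (i + 1)) • (lsingle (i + 1) ∘ₗ d) +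
        lsingle i ∘ₗ (LinearMap.id + ((-1 : R4) ^ (i + 1)) • τ))

@[simp] theorem D4_zero (d τ : Y →ₗ[R4] Y) (c : Y) : D4 d τ (single 0 c) = single 0 (d c) := by
  simp [D4]

@[simp] theorem D4_succ (d τ : Y →ₗ[R4] Y) (i : ℕ) (c : Y) :
    D4 d τ (single (i + 1) c) = single (i + 1) (((-1 : R4) ^ (i + 1)) • d c) +
      single i (c + ((-1 : R4) ^ (i + 1)) • τ c) := by
  simp [D4, Finsupp.smul_single]

theorem D4_D4 (d τ : Y →ₗ[R4] Y) (hd : ∀ c, d (d c) = 0) (hdτ : ∀ c, d (τ c) = τ (d c))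
    (hτ : ∀ c, τ (τ c) = c) (z : ℕ →₀ Y) : D4 d τ (D4 d τ z) = 0 := by
  induction z using Finsupp.induction_linear with
  | zero => simp
  | add f g hf hg => rw [map_add, map_add, hf, hg, add_zero]
  | single i c =>
    rcases i with _ | _ | i
    · simp [hd]
    · simp only [zero_add, D4_succ, map_add, D4_zero, map_smul, hd, hdτ, smul_zero, single_zero,
        ← single_add, pow_one]
      rw [← single_zero 0]
      congr 1
      module
    · simp only [D4_succ, map_add, map_smul, hd, hdτ, smul_zero, single_zero, hτ, smul_add, smul_smul]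
      rw [zero_add, ← add_assoc, ← single_add]
      have hs : ((-1 : R4) ^ (i + 1 + 1)) = -((-1) ^ (i + 1)) := by ring
      have h1 : ((-1 : R4) ^ (i + 1)) * (-1) ^ (i + 1) = 1 := by rw [← mul_pow]; simp
      rw [hs]
      generalize ((-1 : R4) ^ (i + 1)) = e at h1
      have h2 : -e * -e = 1 := by rw [neg_mul_neg, h1]
      have h3 : e * -e = -1 := by rw [mul_neg, h1]
      rw [h2, h3]
      have e1 : -e • d c + (1 : R4) • τ (d c) + (e • d c + (-1 : R4) • τ (d c)) = 0 := by module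
      have e2 : c + -e • τ c + (e • τ c + (-1 : R4) • c) = 0 := by module
      rw [e1, e2]
      simp

end D4

/-! ## the two complexes -/

/-- signed quadratic construction of `K` over `Z/4` -/
def DK (K : SS) : (ℕ →₀ N R4 (K.prod K)) →ₗ[R4] (ℕ →₀ N R4 (K.prod K)) :=
  D4 (N.bd R4 (K.prod K)) (N.map R4 (SS.swap K K))

/-- quadratic construction of `K` over `Z/2` -/
def D2 (K : SS) : (ℕ →₀ N F2 (K.prod K)) →ₗ[F2] (ℕ →₀ N F2 (K.prod K)) :=
  QD (N.bd F2 (K.prod K)) (N.map F2 (SS.swap K K))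

theorem DK_DK (K : SS) (z : ℕ →₀ N R4 (K.prod K)) : DK K (DK K z) = 0 := by
  refine D4_D4 _ _ N.bd_bd ?_ ?_ z
  · intro c
    exact (EZ271.map_bd' R4 (SS.swap K K) c).symm
  · intro c
    rw [EZ271.map_map]
    exact EZ271.map_idHom R4 (K := K.prod K) c

/-- injection -/
def ioQ (K : SS) : (ℕ →₀ N F2 (K.prod K)) →+ (ℕ →₀ N R4 (K.prod K)) :=
  Finsupp.mapRange.addMonoidHom (io (K.prod K))

/-- reduction -/
def rhQ (K : SS) : (ℕ →₀ N R4 (K.prod K)) →+ (ℕ →₀ N F2 (K.prod K)) :=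
  Finsupp.mapRange.addMonoidHom (rh (K.prod K))

@[simp] theorem ioQ_single (K : SS) (i : ℕ) (y : N F2 (K.prod K)) :
    ioQ K (single i y) = single i (io _ y) := by simp [ioQ]

@[simp] theorem rhQ_single (K : SS) (i : ℕ) (y : N R4 (K.prod K)) :
    rhQ K (single i y) = single i (rh _ y) := by simp [rhQ]

@[simp] theorem ioQ_apply (K : SS) (z : ℕ →₀ N F2 (K.prod K)) (i : ℕ) :
    ioQ K z i = io _ (z i) := by simp [ioQ]

@[simp] theorem rhQ_apply (K : SS) (z : ℕ →₀ N R4 (K.prod K)) (i : ℕ) :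
    rhQ K z i = rh _ (z i) := by simp [rhQ]

theorem ioQ_inj (K : SS) : Function.Injective (ioQ K) := by
  intro a b h
  ext i
  have := DFunLike.congr_fun h i
  rw [ioQ_apply, ioQ_apply] at this
  exact io_inj _ this

theorem rhQ_surj (K : SS) : Function.Surjective (rhQ K) := by
  intro z
  induction z using Finsupp.induction_linear with
  | zero => exact ⟨0, map_zero _⟩
  | add f g hf hg =>
    obtain ⟨a, rfl⟩ := hf
    obtain ⟨b, rfl⟩ := hg
    exact ⟨a + b, map_add _ _ _⟩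
  | single i c =>
    obtain ⟨a, rfl⟩ := rh_surj _ c
    exact ⟨single i a, rhQ_single _ _ _⟩

theorem rhQ_exact (K : SS) (z : ℕ →₀ N R4 (K.prod K)) (h : rhQ K z = 0) : ∃ v, ioQ K v = z := by
  have h1 : ∀ i, ∃ b, io (K.prod K) b = z i := by
    intro i
    rw [← rh_exact, ← rhQ_apply, h]; rfl
  choose b hb using h1
  refine ⟨Finsupp.onFinset z.support b ?_, ?_⟩
  · intro i hi
    rw [Finsupp.mem_support_iff]
    intro h0
    apply hi
    apply io_inj
    rw [hb, h0, map_zero]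
  · ext i
    rw [ioQ_apply, Finsupp.onFinset_apply, hb]

theorem DK_ioQ (K : SS) (z : ℕ →₀ N F2 (K.prod K)) : DK K (ioQ K z) = ioQ K (D2 K z) := by
  induction z using Finsupp.induction_linear with
  | zero => simp
  | add f g hf hg => simp only [map_add, hf, hg]
  | single i c =>
    unfold DK D2
    rcases i with _ | i
    · rw [ioQ_single, D4_zero, QD_zero, ioQ_single, io_bd]
    · rw [ioQ_single, D4_succ, QD_succ, map_add, ioQ_single, ioQ_single, ← io_bd, ← io_map, smul_io,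
        smul_io, map_add]

theorem rhQ_DK (K : SS) (z : ℕ →₀ N R4 (K.prod K)) : rhQ K (DK K z) = D2 K (rhQ K z) := by
  induction z using Finsupp.induction_linear with
  | zero => simp
  | add f g hf hg => simp only [map_add, hf, hg]
  | single i c =>
    unfold DK D2
    rcases i with _ | i
    · rw [rhQ_single, D4_zero, QD_zero, rhQ_single, rh_bd]
    · rw [rhQ_single, D4_succ, QD_succ, map_add, rhQ_single, rhQ_single, map_add, rh_smul, rh_smul,
        rh_bd, rh_map]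

theorem one_add_even {Y : Type} [AddCommGroup Y] [Module R4 Y] (k : ℕ) (y : Y) :
    y + ((-1 : R4) ^ k) • y = if Even k then y + y else 0 := by
  split_ifs with h
  · rw [h.neg_one_pow, one_smul]
  · rw [(Nat.not_even_iff_odd.1 h).neg_one_pow, neg_one_smul, add_neg_cancel]

/-- boundary of `e_{i+1} ⊗ Δ x'` -/
theorem DK_diag (K : SS) (i : ℕ) (x' : N R4 K) (b : N F2 K) (hb : N.bd R4 K x' = io K b) :
    DK K (single (i + 1) (N.map R4 (SS.diag K) x')) =
      ioQ K (single (i + 1) (N.map F2 (SS.diag K) b) +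
        if Even (i + 1) then single i (N.map F2 (SS.diag K) (rh K x')) else 0) := by
  unfold DK
  rw [D4_succ, ← EZ271.map_bd', hb, ← io_map, smul_io, EZ271.map_map,
    show (SS.swap K K).comp (SS.diag K) = SS.diag K from rfl, one_add_even, map_add, ioQ_single]
  congr 1
  split_ifs
  · rw [ioQ_single, ← rh_map, io_rh]
  · simp

/-- boundary of `e_J ⊗ r' × r'` -/
theorem DK_sq (K : SS) (J m : ℕ) (r' : N R4 K) (hm : r' ∈ N.gr R4 K m) (c : N F2 K)
    (hc : N.bd R4 K r' = io K c) :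
    DK K (single (J + 1) (EZ271.cross R4 r' r')) =
      ioQ K (single (J + 1) (EZ271.cross F2 c (rh K r') + EZ271.cross F2 (rh K r') c) +
        if Even (J + 1 + m) then single J (EZ271.cross F2 (rh K r') (rh K r')) else 0) := by
  unfold DK
  have hsg : EZ271.sg R4 r' = ((-1 : R4) ^ m) • r' := by
    refine Gr334.gr_induction (p := fun r' => EZ271.sg R4 r' = ((-1 : R4) ^ m) • r') hm ?_ ?_ ?_ ?_
    · simp
    · intro a a' h h'
      rw [map_add, h, h', smul_add]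
    · intro r a h
      rw [map_smul, h, smul_comm]
    · intro x
      exact EZ271.sg_sx R4 x
  have hbd : N.bd R4 _ (EZ271.cross R4 r' r') =
      io _ (EZ271.cross F2 c (rh K r') + EZ271.cross F2 (rh K r') c) := by
    rw [EZ271.bd_cross, hc, hsg, io_cross_left, map_smul, LinearMap.smul_apply, io_cross_right,
      smul_io, map_add]
  rw [D4_succ, hbd, smul_io, swap_cross_gr R4 hm hm, smul_smul, ← pow_add, one_add_even,
    map_add (ioQ K), ioQ_single]
  congr 1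
  have hpar : Even (J + 1 + m * m) ↔ Even (J + 1 + m) := by
    rw [Nat.even_add, Nat.even_add (n := m), Nat.even_mul]; simp
  rw [if_congr hpar rfl rfl]
  split_ifs
  · rw [ioQ_single, ← rh_cross, io_rh]
  · simp

theorem DK_sq_zero (K : SS) (m : ℕ) (r' : N R4 K) (hm : r' ∈ N.gr R4 K m) (c : N F2 K)
    (hc : N.bd R4 K r' = io K c) :
    DK K (single 0 (EZ271.cross R4 r' r')) =
      ioQ K (single 0 (EZ271.cross F2 c (rh K r') + EZ271.cross F2 (rh K r') c)) := by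
  unfold DK
  have hsg : EZ271.sg R4 r' = ((-1 : R4) ^ m) • r' := by
    refine Gr334.gr_induction (p := fun r' => EZ271.sg R4 r' = ((-1 : R4) ^ m) • r') hm ?_ ?_ ?_ ?_
    · simp
    · intro a a' h h'
      rw [map_add, h, h', smul_add]
    · intro r a h
      rw [map_smul, h, smul_comm]
    · intro x
      exact EZ271.sg_sx R4 x
  rw [D4_zero, EZ271.bd_cross, hc, hsg, io_cross_left, map_smul, LinearMap.smul_apply,
    io_cross_right, smul_io, ← map_add, ioQ_single]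

/-! ## the main identity -/

theorem dd2 (K : SS) (z : ℕ →₀ N F2 (K.prod K)) : D2 K (D2 K z) = 0 :=
  QD_QD _ _ (isSq K).ddY (isSq K).dt (isSq K).tt z

/-- the class of `e_J ⊗ (c × r + r × c)` vanishes -/
theorem cr_bdry (K : SS) (J : ℕ) (c r : N F2 K) (hc : N.bd F2 K c = 0) (hr : N.bd F2 K r = 0) :
    D2 K (single (J + 1) (EZ271.cross F2 c r)) =
      single J (EZ271.cross F2 c r + EZ271.cross F2 r c) := by
  unfold D2
  rw [QD_succ, EZ271.bd_cross2, hc, hr, EZ271.swap_cross]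
  simp

/-- key chain level identity: if `e_{i+1} ⊗ Δ x ~ ∑ e_J ⊗ r_J × r_J` then
`e_{i+1} ⊗ Δ b + [i+1 even] e_i ⊗ Δ x ~ ∑ [J+1+m_{J+1} even] e_J ⊗ r_{J+1} × r_{J+1}` -/
theorem key (K : SS) (i B : ℕ) (x' : N R4 K) (b : N F2 K) (hb : N.bd R4 K x' = io K b)
    (r : ℕ → N F2 K) (hr : ∀ J, N.bd F2 K (r J) = 0) (m : ℕ → ℕ) (hm : ∀ J, r J ∈ N.gr F2 K (m J))
    (w : ℕ →₀ N F2 (K.prod K))
    (hw : D2 K w = single (i + 1) (N.map F2 (SS.diag K) (rh K x')) +
      ∑ J ∈ Finset.range (B + 1), single J (EZ271.cross F2 (r J) (r J))) :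
    ∃ v, D2 K v = single (i + 1) (N.map F2 (SS.diag K) b) +
      (if Even (i + 1) then single i (N.map F2 (SS.diag K) (rh K x')) else 0) +
      ∑ J ∈ Finset.range B, if Even (J + 1 + m (J + 1)) then
        single J (EZ271.cross F2 (r (J + 1)) (r (J + 1))) else 0 := by
  choose r' hr' hrr using fun J => rh_surj_gr K (hm J)
  have hc : ∀ J, ∃ c, N.bd R4 K (r' J) = io K c := by
    intro J
    have : rh K (N.bd R4 K (r' J)) = 0 := by rw [rh_bd, hrr, hr]
    obtain ⟨c, hc⟩ := (rh_exact K _).1 this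
    exact ⟨c, hc.symm⟩
  choose c hc using hc
  have hcc : ∀ J, N.bd F2 K (c J) = 0 := by
    intro J
    apply io_inj
    rw [io_bd, ← hc, N.bd_bd, map_zero]
  obtain ⟨w', rfl⟩ := rhQ_surj K w
  obtain ⟨v, hv⟩ := rhQ_exact K (single (i + 1) (N.map R4 (SS.diag K) x') +
    ∑ J ∈ Finset.range (B + 1), single J (EZ271.cross R4 (r' J) (r' J)) - DK K w') (by
      rw [map_sub, rhQ_DK, hw, map_add, map_sum, rhQ_single, rh_map]
      simp only [rhQ_single, rh_cross, hrr]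
      exact sub_self _)
  have h1 := congrArg (DK K) hv
  rw [DK_ioQ, map_sub, DK_DK, sub_zero, map_add, DK_diag K i x' b hb, map_sum,
    Finset.sum_range_succ'] at h1
  have h2 : ∀ J, DK K (single (J + 1) (EZ271.cross R4 (r' (J + 1)) (r' (J + 1)))) =
      ioQ K (single (J + 1) (EZ271.cross F2 (c (J + 1)) (r (J + 1)) +
        EZ271.cross F2 (r (J + 1)) (c (J + 1))) +
        if Even (J + 1 + m (J + 1)) then single J (EZ271.cross F2 (r (J + 1)) (r (J + 1))) else 0) := by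
    intro J
    rw [DK_sq K J (m (J + 1)) (r' (J + 1)) (hr' (J + 1)) (c (J + 1)) (hc (J + 1)), hrr]
  rw [Finset.sum_congr rfl fun J _ => h2 J, DK_sq_zero K (m 0) (r' 0) (hr' 0) (c 0) (hc 0), hrr,
    ← map_sum, ← map_add (ioQ K), ← map_add (ioQ K)] at h1
  have h3 := ioQ_inj K h1
  refine ⟨v + ∑ J ∈ Finset.range (B + 1), single (J + 1) (EZ271.cross F2 (c J) (r J)), ?_⟩
  rw [map_add, h3, map_sum, Finset.sum_congr rfl fun J _ => cr_bdry K J (c J) (r J) (hcc J) (hr J),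
    Finset.sum_range_succ' (fun J => (single J (EZ271.cross F2 (c J) (r J) +
      EZ271.cross F2 (r J) (c J)) : ℕ →₀ N F2 (K.prod K))), Finset.sum_add_distrib]
  generalize (single 0 (EZ271.cross F2 (c 0) (r 0) + EZ271.cross F2 (r 0) (c 0)) :
    ℕ →₀ N F2 (K.prod K)) = A
  generalize (∑ J ∈ Finset.range B, (single (J + 1) (EZ271.cross F2 (c (J + 1)) (r (J + 1)) +
    EZ271.cross F2 (r (J + 1)) (c (J + 1))) : ℕ →₀ N F2 (K.prod K))) = A'
  generalize (∑ J ∈ Finset.range B, if Even (J + 1 + m (J + 1)) then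
        single J (EZ271.cross F2 (r (J + 1)) (r (J + 1))) else 0 : ℕ →₀ N F2 (K.prod K)) = A''
  have e : ∀ X : ℕ →₀ N F2 (K.prod K), X + (A' + A'' + A) + (A' + A) =
      X + A'' + ((A + A) + (A' + A')) := by
    intro X; abel
  rw [e, add_self2, add_self2, add_zero, add_zero]

theorem mk_sum {R M : Type*} [CommRing R] [AddCommGroup M] [Module R M] {d : M →ₗ[R] M}
    (s : Finset ℕ) (z : ℕ → M) (hz : ∀ i, d (z i) = 0) :
    ∑ i ∈ s, Hd.mk d (z i) (hz i) = Hd.mk d (∑ i ∈ s, z i) (by rw [map_sum]; simp [hz]) := by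
  classical
  induction s using Finset.induction_on with
  | empty => exact (Hd.mk_eq_zero.2 ⟨0, by simp⟩).symm
  | insert a s ha ih =>
    rw [Finset.sum_insert ha, ih]
    show Hd.mk d (z a + _) _ = _
    congr 1
    rw [Finset.sum_insert ha]

/-- main computation: Bockstein versus `R_k` -/
theorem bock_Rk (K : SS) (n : ℕ) (x' : N R4 K) (b : N F2 K)
    (hb : N.bd R4 K x' = io K b) (hx : N.bd F2 K (rh K x') = 0) (hbb : N.bd F2 K b = 0)
    (r : ℕ → N F2 K) (hr : ∀ J, N.bd F2 K (r J) = 0) (m : ℕ → ℕ) (hm : ∀ J, r J ∈ N.gr F2 K (m J))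
    (hR : ∀ J, J ≤ n + 1 → Sq252.Rk K (n + 1 - J) (Hd.mk _ (rh K x') hx) = Hd.mk _ (r J) (hr J)) :
    Sq252.Rk K n (Hd.mk _ b hbb) + (if Even (n + 1) ∧ 1 ≤ n then Hd.mk _ (r 2) (hr 2) else 0) =
      if Even (2 + m 2) ∧ 1 ≤ n then Hd.mk _ (r 2) (hr 2) else 0 := by
  have h0 := s_expand K (n + 1) (Hd.mk _ (rh K x') hx)
  have h1 : ∑ J ∈ Finset.range (n + 1 + 1), (isSq K).G J (Sq252.Rk K (n + 1 - J)
      (Hd.mk _ (rh K x') hx)) = ∑ J ∈ Finset.range (n + 1 + 1),
        Hd.mk (QD (N.bd F2 (K.prod K)) (N.map F2 (SS.swap K K)))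
          (single J (EZ271.cross F2 (r J) (r J))) ((isSq K).cyc_nab J (r J) (hr J)) := by
    refine Finset.sum_congr rfl fun J hJ => ?_
    rw [hR J (by have := Finset.mem_range.1 hJ; omega), IsSq.G_mk]
  rw [h1, mk_sum, IsSq.s_mk, Hd.mk_eq_mk] at h0
  obtain ⟨w, hw⟩ := h0
  rw [QC134.sub_eq'] at hw
  obtain ⟨v, hv⟩ := key K n (n + 1) x' b hb r hr m hm w hw
  obtain ⟨l, hl0, hl⟩ := (isCoef K).exists_lift 1
  have h2 := congrArg l hv
  have e1 : l (single (n + 1) (N.map F2 (SS.diag K) b)) = Sq252.Rk K n (Hd.mk _ b hbb) := by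
    rw [hl _ ((isSq K).cyc_dg (n + 1) b hbb), ← (isSq K).s_mk (n + 1) b hbb, cf_s_Rk K 1 le_rfl,
      if_pos (by omega)]
    rfl
  have e2 : l (single n (N.map F2 (SS.diag K) (rh K x'))) =
      if 1 ≤ n then Hd.mk _ (r 2) (hr 2) else 0 := by
    rw [hl _ ((isSq K).cyc_dg n (rh K x') hx), ← (isSq K).s_mk n (rh K x') hx,
      cf_s_Rk K 1 le_rfl]
    split_ifs with h
    · rw [← hR 2 (by omega)]
      congr 2
    · rfl
  have e3 : ∀ J, l (single J (EZ271.cross F2 (r (J + 1)) (r (J + 1)))) =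
      if J = 1 then Hd.mk _ (r 2) (hr 2) else 0 := by
    intro J
    rw [hl _ ((isSq K).cyc_nab J (r (J + 1)) (hr (J + 1))), ← (isSq K).G_mk J _ (hr (J + 1)),
      (isCoef K).c_G 1 le_rfl]
    split_ifs with h
    · subst h; rfl
    · rfl
  unfold D2 at h2
  rw [hl0, map_add, map_add, e1, map_sum] at h2
  have e4 : l (if Even (n + 1) then single n (N.map F2 (SS.diag K) (rh K x')) else 0) =
      if Even (n + 1) ∧ 1 ≤ n then Hd.mk _ (r 2) (hr 2) else 0 := by
    by_cases h : Even (n + 1)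
    · rw [if_pos h, e2]
      simp [h]
    · rw [if_neg h, if_neg (fun h' => h h'.1), map_zero]
  have e5 : ∑ J ∈ Finset.range (n + 1), l (if Even (J + 1 + m (J + 1)) then
      single J (EZ271.cross F2 (r (J + 1)) (r (J + 1))) else 0) =
      if Even (2 + m 2) ∧ 1 ≤ n then Hd.mk _ (r 2) (hr 2) else 0 := by
    have e6 : ∀ J, l (if Even (J + 1 + m (J + 1)) then
        single J (EZ271.cross F2 (r (J + 1)) (r (J + 1))) else 0) =
        if J = 1 then (if Even (2 + m 2) then Hd.mk _ (r 2) (hr 2) else 0) else 0 := by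
      intro J
      by_cases h : J = 1
      · subst h
        rw [if_pos rfl]
        by_cases h' : Even (2 + m 2)
        · rw [if_pos h', if_pos h', e3, if_pos rfl]
        · rw [if_neg h', if_neg h', map_zero]
      · rw [if_neg h]
        split_ifs
        · rw [e3, if_neg h]
        · exact map_zero _
    rw [Finset.sum_congr rfl fun J _ => e6 J, Finset.sum_ite_eq']
    by_cases h : 1 ≤ n
    · rw [if_pos (Finset.mem_range.2 (by omega))]
      simp [h]
    · rw [if_neg (fun h' => h (by have := Finset.mem_range.1 h'; omega)), if_neg (fun h' => h h'.2)]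
  rw [e4, e5] at h2
  exact QC134.eq_of_add_eq_zero h2.symm

/-! ## `Sq_1` is the Bockstein, lifts to `Z/4` -/

theorem mem_gr_of_io (K : SS) {n : ℕ} {b : N F2 K} (h : io K b ∈ N.gr R4 K n) : b ∈ N.gr F2 K n := by
  have h0 : rh K (io K b) = 0 := (rh_exact K _).2 ⟨b, rfl⟩
  obtain ⟨b', hb', e⟩ := coN_exact_gr (inj 2 4 2 rfl) (rho 4 2 (by norm_num))
    (fun y => (inj_exact 2 4 2 rfl (by norm_num) y).1) h h0
  have : b' = b := io_inj K e
  rwa [← this]

theorem cyc_of_lift (K : SS) {x' : N R4 K} {b : N F2 K} (hb : N.bd R4 K x' = io K b) :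
    N.bd F2 K b = 0 := by
  apply io_inj
  rw [io_bd, ← hb, N.bd_bd, map_zero]

/-- choose representatives of all `R_k x` -/
theorem exists_reps (K : SS) {n : ℕ} {x : H F2 K} (hx : x ∈ H.gr F2 K n) :
    ∃ (r : ℕ → N F2 K) (hr : ∀ k, N.bd F2 K (r k) = 0), (∀ k, r k ∈ N.gr F2 K ((n + k) / 2)) ∧
      ∀ k, Sq252.Rk K k x = Hd.mk _ (r k) (hr k) := by
  have h : ∀ k, ∃ r : N F2 K, ∃ hr : N.bd F2 K r = 0, r ∈ N.gr F2 K ((n + k) / 2) ∧
      Sq252.Rk K k x = Hd.mk _ r hr := by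
    intro k
    by_cases hk : (n + k) % 2 = 1
    · refine ⟨0, map_zero _, Submodule.zero_mem _, ?_⟩
      rw [Sq252.Rk_eq_zero_of_odd hk hx]
      exact (Hd.mk_eq_zero.2 ⟨0, map_zero _⟩).symm
    · have h2 : Sq252.Rk K k x ∈ H.gr F2 K ((n + k) / 2) :=
        Sq252.Rk_mem_gr (by omega : n + k = 2 * ((n + k) / 2)) hx
      obtain ⟨z, hz, hz', e⟩ := Gr334.mem_H_gr.1 h2
      exact ⟨z, hz', hz, e⟩
  choose r hr hr1 hr2 using h
  exact ⟨r, hr, hr1, hr2⟩

/-- `Sq_1` is the Bockstein -/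
theorem Sq_one_eq (K : SS) {n : ℕ} {x' : N R4 K} (hx' : x' ∈ N.gr R4 K (n + 2)) (b : N F2 K)
    (hb : N.bd R4 K x' = io K b) (hx : N.bd F2 K (rh K x') = 0) :
    Sq252.Sq K 1 (Hd.mk _ (rh K x') hx) = Hd.mk _ b (cyc_of_lift K hb) := by
  have hxg : rh K x' ∈ N.gr F2 K (n + 2) := coN_mem_gr _ hx'
  have hbg : b ∈ N.gr F2 K (n + 1) := mem_gr_of_io K (by rw [← hb]; exact bd_mem_gr hx')
  have hX : Hd.mk _ (rh K x') hx ∈ H.gr F2 K (n + 2) := Gr334.mk_mem_gr hxg hx
  have hB : Hd.mk _ b (cyc_of_lift K hb) ∈ H.gr F2 K (n + 1) := Gr334.mk_mem_gr hbg _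
  obtain ⟨r, hr, hr1, hr2⟩ := exists_reps K hX
  have h := bock_Rk K (n + 1) x' b hb hx (cyc_of_lift K hb) (fun J => r (n + 2 - J))
    (fun J => hr _) (fun J => (n + 2 + (n + 2 - J)) / 2) (fun J => hr1 _) (fun J _ => hr2 _)
  have e1 : (n + 2 + (n + 2 - 2)) / 2 = n + 1 := by omega
  rw [Sq252.Rk_self hB] at h
  simp only [e1] at h
  rw [← Sq252.Rk_eq_Sq (k := n) hX (by omega), hr2 n]
  have e2 : n + 2 - 2 = n := by omega
  by_cases hn : Even (n + 1 + 1)
  · rw [if_pos ⟨hn, by omega⟩, if_neg (fun h' => by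
      have := h'.1
      rw [show 2 + (n + 1) = n + 1 + 1 + 1 from by omega, Nat.even_add_one] at this
      exact this hn)] at h
    have := QC134.eq_of_add_eq_zero h
    rw [this]
    congr 1
  · rw [if_neg (fun h' => hn h'.1), if_pos ⟨by
      rw [show 2 + (n + 1) = n + 1 + 1 + 1 from by omega, Nat.even_add_one]
      exact hn, by omega⟩, add_zero] at h
    rw [h]
    congr 1

/-- the Bockstein of a class of degree one vanishes -/
theorem bock_one (K : SS) {x' : N R4 K} (hx' : x' ∈ N.gr R4 K 1) (b : N F2 K)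
    (hb : N.bd R4 K x' = io K b) (hx : N.bd F2 K (rh K x') = 0) :
    Hd.mk _ b (cyc_of_lift K hb) = 0 := by
  have hxg : rh K x' ∈ N.gr F2 K 1 := coN_mem_gr _ hx'
  have hbg : b ∈ N.gr F2 K 0 := mem_gr_of_io K (by rw [← hb]; exact bd_mem_gr hx')
  have hX : Hd.mk _ (rh K x') hx ∈ H.gr F2 K 1 := Gr334.mk_mem_gr hxg hx
  have hB : Hd.mk _ b (cyc_of_lift K hb) ∈ H.gr F2 K 0 := Gr334.mk_mem_gr hbg _
  obtain ⟨r, hr, hr1, hr2⟩ := exists_reps K hX
  have h := bock_Rk K 0 x' b hb hx (cyc_of_lift K hb) (fun J => r (1 - J))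
    (fun J => hr _) (fun J => (1 + (1 - J)) / 2) (fun J => hr1 _) (fun J _ => hr2 _)
  rw [Sq252.Rk_self hB, if_neg (fun h' => by omega), if_neg (fun h' => by omega), add_zero] at h
  exact h

/-- **lifting to `Z/4`**: a class killed by `Sq_1` is the reduction of a `Z/4`-class -/
theorem exists_lift4 (K : SS) {n : ℕ} {ξ : H F2 K} (hξ : ξ ∈ H.gr F2 K n)
    (h1 : Sq252.Sq K 1 ξ = 0) :
    ∃ z ∈ H.gr R4 K n, coH (rho 4 2 (by norm_num)) K z = ξ := by
  obtain ⟨x, hxg, hx, rfl⟩ := Gr334.mem_H_gr.1 hξ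
  obtain ⟨x', hx', rfl⟩ := rh_surj_gr K hxg
  obtain ⟨b, hb⟩ : ∃ b, io K b = N.bd R4 K x' := by
    rw [← rh_exact, rh_bd, hx]
  have hb0 : Hd.mk _ b (cyc_of_lift K hb.symm) = 0 := by
    rcases n with _ | _ | n
    · refine Hd.mk_eq_zero.2 ⟨0, ?_⟩
      rw [map_zero]
      apply io_inj
      rw [hb, map_zero, bd_gr_zero hx']
    · exact bock_one K hx' b hb.symm hx
    · rw [← Sq_one_eq K hx' b hb.symm hx, h1]
  obtain ⟨c, hc⟩ := Hd.mk_eq_zero.1 hb0
  have hbn : n = 0 ∨ ∃ c ∈ N.gr F2 K n, N.bd F2 K c = b := by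
    rcases n with _ | n
    · exact Or.inl rfl
    · refine Or.inr (exists_bd_gr (n := n) ?_ hc)
      exact mem_gr_of_io K (by rw [hb]; exact bd_mem_gr hx')
  obtain ⟨c, hcg, hc⟩ : ∃ c ∈ N.gr F2 K n, N.bd F2 K c = b := by
    rcases hbn with rfl | h
    · refine ⟨0, Submodule.zero_mem _, ?_⟩
      rw [map_zero]
      apply io_inj
      rw [hb, map_zero, bd_gr_zero hx']
    · exact h
  have hz : N.bd R4 K (x' - io K c) = 0 := by
    rw [map_sub, ← io_bd, hc, hb, sub_self]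
  refine ⟨Hd.mk _ (x' - io K c) hz, Gr334.mk_mem_gr (Submodule.sub_mem _ hx' (coN_mem_gr _ hcg)) hz, ?_⟩
  rw [coH_mk]
  refine mk_congr _ _ ?_
  show rh K (x' - io K c) = rh K x'
  rw [map_sub, (rh_exact K _).2 ⟨c, rfl⟩, sub_zero]

end Crest.Agent.R204.Bock888
end
end

-- ▼ part R204/FourA_947

/-!
# Row 204, block G, FactFour part 1 (helper947): from a spherical class `ξ · ξ` to the data
`z, c, A_N` of the transport theorem.
-/

set_option autoImplicit false

noncomputable section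

namespace Crest.Agent.R204.Four947

open Crest.Agent.R204 SS Coef947 Prd328 Pont718

theorem four_core {X : SS} (μ : SS.Hom (X.prod X) X) (e₀ : X.S 0)
    (hμ1 : ∀ x : H F2 X, H.map F2 μ (crossH F2 x (vt F2 e₀)) = x)
    (hμ2 : ∀ x : H F2 X, H.map F2 μ (crossH F2 (vt F2 e₀) x) = x)
    (h0 : ∀ x ∈ H.gr F2 X 0, ∃ r : F2, x = r • vt F2 e₀)
    {e m : ℕ} (hm : 0 < m) (hm2 : Even m) (he : e + 1 = 2 * m)
    (ξ : H F2 X) (hξ : ξ ∈ H.gr F2 X m) (hSq : Sq252.Sq X 1 ξ = 0)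
    (hprim : H.map F2 (SS.diag X) ξ = crossH F2 ξ (vt F2 e₀) + crossH F2 (vt F2 e₀) ξ)
    (hfin : ∀ i, 0 < i → i < m → Module.Finite F2 (H.gr F2 X i))
    (w : X.S (e + 1))
    (hw : ∀ i : Fin (e + 2), X.act (Op.face i) w =
      X.act (⟨fun _ => 0, fun _ _ _ => le_rfl⟩ : Op e 0) e₀)
    (hw2 : N.bd F2 X (N.sx F2 w) = 0)
    (hrel : Hd.mk (N.bd F2 X) (N.sx F2 w) hw2 = H.map F2 μ (crossH F2 ξ ξ)) :
    ∃ (z : H (ZMod 4) X) (c : H F2 X) (A : ∀ N : ℕ, H (ZMod (2 ^ N)) X),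
      z ∈ H.gr (ZMod 4) X m ∧ coH (rho 4 2 (by norm_num)) X z = ξ ∧ c ∈ H.gr F2 X (2 * m) ∧
      (∀ N, A N ∈ H.gr (ZMod (2 ^ N)) X (2 * m)) ∧
      (∀ (N : ℕ) (h : 4 ∣ 2 ^ N), coH (rho (2 ^ N) 4 h) _ (A N) =
        H.map (ZMod 4) μ (crossH (ZMod 4) z z) + coH (inj 2 4 2 rfl) _ c) ∧
      Sq252.Sq X m c = ξ := by
  have he1 : 1 ≤ e := by omega
  obtain ⟨z, hz, hzξ⟩ := Bock888.exists_lift4 X hξ hSq
  have hbd : ∀ (R : Type) [CommRing R], N.bd R X (N.sx R w) = 0 := fun R _ => sph_bd he1 w e₀ hw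
  have hgr : ∀ (R : Type) [CommRing R], Hd.mk (N.bd R X) (N.sx R w) (hbd R) ∈ H.gr R X (2 * m) := by
    intro R _
    rw [← he]
    exact Gr334.mk_mem_gr (Gr334.sx_mem_gr w) (hbd R)
  have hzz : H.map (ZMod 4) μ (crossH (ZMod 4) z z) ∈ H.gr (ZMod 4) X (2 * m) := by
    have := crossH_mem_gr (ZMod 4) hz hz
    rw [← two_mul] at this
    exact Gr334.H_map_mem_gr _ this
  have hd0 : coH (rho 4 2 (by norm_num)) X
      (Hd.mk (N.bd (ZMod 4) X) (N.sx (ZMod 4) w) (hbd (ZMod 4)) -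
        H.map (ZMod 4) μ (crossH (ZMod 4) z z)) = 0 := by
    rw [map_sub, coH_map, coH_crossH_mul _ (rho_mul 4 2 (by norm_num)), hzξ, ← hrel, coH_mk,
      sub_eq_zero]
    exact mk_congr _ _ (coN_sx _ w (map_one (ZMod.castHom (by norm_num : 2 ∣ 4) (ZMod 2))))
  obtain ⟨c, hc, hcc⟩ := coH_inj_exact_gr 2 4 2 rfl (by norm_num) (by norm_num)
    (Submodule.sub_mem _ (hgr (ZMod 4)) hzz) hd0
  have hrel4 : Hd.mk (N.bd (ZMod 4) X) (N.sx (ZMod 4) w) (hbd (ZMod 4)) =
      H.map (ZMod 4) μ (crossH (ZMod 4) z z) + coH (inj 2 4 2 rfl) X c := by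
    rw [hcc]; abel
  refine ⟨z, c, fun k => Hd.mk _ (N.sx (ZMod (2 ^ k)) w) (hbd _), hz, hzξ, hc, fun k => hgr _,
    fun k h => ?_, ?_⟩
  · rw [← hrel4, coH_mk]
    exact mk_congr _ _ (coN_sx _ w (map_one (ZMod.castHom h (ZMod 4))))
  · rw [← Rk_zero_eq_Sq hc]
    have := pont hm hm2 he μ e₀ (fun x _ => hμ1 x) (fun x _ => hμ2 x) h0 hfin z hz
      (by rw [hzξ]; exact hprim) w hw (hbd (ZMod 4)) c hc hrel4
    rw [this, hzξ]

end Crest.Agent.R204.Four947
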