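import Crest.Agent.R204.Defs

-- ▼ part R204/Q_888
section

/-!
# Row 204, block A5: the algebraic quadratic construction `Q(C) = ⊕ e_i ⊗ C` (helper888)

`C` an `F₂`-module with differential `d` and involution `τ`; `Q(C) = ℕ →₀ C` with
`D (e_i ⊗ c) = e_i ⊗ d c + e_{i-1} ⊗ (c + τ c)`.
Here: functoriality, the shift (cap product), the coproduct `ψ : Q(A ⊗ B) → Q(A) ⊗ Q(B)`,
-/

set_option autoImplicit false

noncomputable section

namespace Crest.Agent.R204.Q888

open Finsupp TensorProduct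

variable {A B C : Type} [AddCommGroup A] [Module F2 A] [AddCommGroup B] [Module F2 B]
  [AddCommGroup C] [Module F2 C]

theorem add_self2 {M : Type} [AddCommGroup M] [Module F2 M] (x : M) : x + x = 0 := by
  have h : (1 + 1 : F2) • x = x + x := by rw [add_smul, one_smul]
  rw [← h]
  have : (1 + 1 : F2) = 0 := by decide
  rw [this, zero_smul]

theorem neg_eq2 {M : Type} [AddCommGroup M] [Module F2 M] (x : M) : -x = x :=
  neg_eq_of_add_eq_zero_left (add_self2 x)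

/-- differential of `Q(C)` -/
def QD (d τ : C →ₗ[F2] C) : (ℕ →₀ C) →ₗ[F2] (ℕ →₀ C) :=
  Finsupp.lsum F2 (fun i => match i with
    | 0 => lsingle 0 ∘ₗ d
    | i + 1 => lsingle (i + 1) ∘ₗ d + lsingle i ∘ₗ (LinearMap.id + τ))

@[simp] theorem QD_zero (d τ : C →ₗ[F2] C) (c : C) : QD d τ (single 0 c) = single 0 (d c) := by
  simp [QD]

@[simp] theorem QD_succ (d τ : C →ₗ[F2] C) (i : ℕ) (c : C) :
    QD d τ (single (i + 1) c) = single (i + 1) (d c) + single i (c + τ c) := by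
  simp [QD]

theorem QD_QD (d τ : C →ₗ[F2] C) (hd : ∀ c, d (d c) = 0) (hdτ : ∀ c, d (τ c) = τ (d c))
    (hτ : ∀ c, τ (τ c) = c) (z : ℕ →₀ C) : QD d τ (QD d τ z) = 0 := by
  induction z using Finsupp.induction_linear with
  | zero => simp
  | add f g hf hg => rw [map_add, map_add, hf, hg, add_zero]
  | single i c =>
    rcases i with _ | _ | i
    · simp [hd]
    · simp only [zero_add, QD_succ, map_add, QD_zero, hd, hdτ, single_zero]
      rw [← single_add]
      have : (d c + τ (d c) + (d c + τ (d c)) : C) = 0 := add_self2 _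
      simp [this]
    · simp only [QD_succ, map_add, hd, hdτ, single_zero, hτ]
      rw [zero_add, ← add_assoc, ← single_add, add_self2, single_zero, zero_add, ← single_zero i]
      congr 1
      rw [add_comm (τ c) c, add_self2]

/-- functoriality of `Q` -/
def Qmap (f : A →ₗ[F2] B) : (ℕ →₀ A) →ₗ[F2] (ℕ →₀ B) := Finsupp.mapRange.linearMap f

@[simp] theorem Qmap_single (f : A →ₗ[F2] B) (i : ℕ) (a : A) :
    Qmap f (single i a) = single i (f a) := by
  simp [Qmap]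

theorem Qmap_QD (f : A →ₗ[F2] B) (dA τA : A →ₗ[F2] A) (dB τB : B →ₗ[F2] B)
    (hd : ∀ a, f (dA a) = dB (f a)) (hτ : ∀ a, f (τA a) = τB (f a)) :
    Qmap f ∘ₗ QD dA τA = QD dB τB ∘ₗ Qmap f := by
  ext i a : 2
  rcases i with _ | i
  · simp [hd]
  · simp [hd, hτ]

/-- the shift `e_{i+1} ⊗ c ↦ e_i ⊗ c`, `e_0 ⊗ c ↦ 0` -/
def sh : (ℕ →₀ C) →ₗ[F2] (ℕ →₀ C) :=
  Finsupp.lsum F2 (fun i => match i with
    | 0 => 0
    | i + 1 => lsingle i)

@[simp] theorem sh_zero (c : C) : sh (single 0 c) = (0 : ℕ →₀ C) := by simp [sh]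
@[simp] theorem sh_succ (i : ℕ) (c : C) : sh (single (i + 1) c) = (single i c : ℕ →₀ C) := by simp [sh]

theorem sh_QD (d τ : C →ₗ[F2] C) : sh ∘ₗ QD d τ = QD d τ ∘ₗ sh := by
  ext i c : 2
  rcases i with _ | _ | i
  · simp
  · simp
  · simp

/-- tensor product differential -/
def dT (dA : A →ₗ[F2] A) (dB : B →ₗ[F2] B) : A ⊗[F2] B →ₗ[F2] A ⊗[F2] B :=
  TensorProduct.map dA LinearMap.id + TensorProduct.map LinearMap.id dB

@[simp] theorem dT_tmul (dA : A →ₗ[F2] A) (dB : B →ₗ[F2] B) (a : A) (b : B) :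
    dT dA dB (a ⊗ₜ b) = dA a ⊗ₜ b + a ⊗ₜ dB b := by
  simp [dT]

theorem dT_dT (dA : A →ₗ[F2] A) (dB : B →ₗ[F2] B) (hA : ∀ a, dA (dA a) = 0) (hB : ∀ b, dB (dB b) = 0)
    (z : A ⊗[F2] B) : dT dA dB (dT dA dB z) = 0 := by
  induction z using TensorProduct.induction_on with
  | zero => simp
  | add x y hx hy => rw [map_add, map_add, hx, hy, add_zero]
  | tmul a b =>
    simp only [dT_tmul, map_add, hA, hB, TensorProduct.zero_tmul, TensorProduct.tmul_zero, zero_add,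
      add_zero]
    exact add_self2 _

/-- the coproduct `ψ : Q(A ⊗ B) → Q(A) ⊗ Q(B)`,
`e_m ⊗ a ⊗ b ↦ ∑_{j ≤ m} (e_j ⊗ a) ⊗ (e_{m-j} ⊗ τ^j b)` -/
def psi (τB : B →ₗ[F2] B) : (ℕ →₀ (A ⊗[F2] B)) →ₗ[F2] ((ℕ →₀ A) ⊗[F2] (ℕ →₀ B)) :=
  Finsupp.lsum F2 (fun m => ∑ j ∈ Finset.range (m + 1),
    TensorProduct.map (lsingle j) (lsingle (m - j) ∘ₗ (τB ^ j)))

theorem psi_single (τB : B →ₗ[F2] B) (m : ℕ) (a : A) (b : B) :
    psi τB (single m (a ⊗ₜ[F2] b)) = ∑ j ∈ Finset.range (m + 1),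
      (single j a) ⊗ₜ[F2] (single (m - j) ((τB ^ j) b)) := by
  simp [psi]

theorem tau_pow_comm (dB τB : B →ₗ[F2] B) (h : ∀ b, dB (τB b) = τB (dB b)) (j : ℕ) (b : B) :
    dB ((τB ^ j) b) = (τB ^ j) (dB b) := by
  induction j generalizing b with
  | zero => simp
  | succ j ih => rw [pow_succ, Module.End.mul_apply, ih, h, ← Module.End.mul_apply, ← pow_succ]

theorem tau_pow_succ' (τB : B →ₗ[F2] B) (j : ℕ) (b : B) : τB ((τB ^ j) b) = (τB ^ (j + 1)) b := by
  rw [pow_succ', Module.End.mul_apply]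

theorem psi_chain (dA τA : A →ₗ[F2] A) (dB τB : B →ₗ[F2] B) (hdτ : ∀ b, dB (τB b) = τB (dB b)) :
    psi τB ∘ₗ QD (dT dA dB) (TensorProduct.map τA τB) =
      dT (QD dA τA) (QD dB τB) ∘ₗ psi τB := by
  refine Finsupp.lhom_ext' fun m => ?_
  refine TensorProduct.ext' fun a b => ?_
  simp only [LinearMap.comp_apply, lsingle_apply]
  rcases m with _ | m
  · simp [psi_single, single_add]
  · rw [QD_succ, dT_tmul, TensorProduct.map_tmul, single_add, single_add, map_add, map_add, map_add,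
      psi_single, psi_single, psi_single, psi_single, psi_single, map_sum]
    simp only [dT_tmul]
    rw [Finset.sum_add_distrib]
    -- expand the `A` part
    have hA : ∑ j ∈ Finset.range (m + 1 + 1), (QD dA τA (single j a)) ⊗ₜ[F2] (single (m + 1 - j) ((τB ^ j) b))
        = ∑ j ∈ Finset.range (m + 1 + 1), (single j (dA a)) ⊗ₜ[F2] (single (m + 1 - j) ((τB ^ j) b))
        + ∑ j ∈ Finset.range (m + 1), (single j (a + τA a)) ⊗ₜ[F2] (single (m - j) ((τB ^ (j + 1)) b)) := by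
      rw [Finset.sum_range_succ' (fun j => (QD dA τA (single j a)) ⊗ₜ[F2] (single (m + 1 - j) ((τB ^ j) b))),
        Finset.sum_range_succ' (fun j => (single j (dA a)) ⊗ₜ[F2] (single (m + 1 - j) ((τB ^ j) b)))]
      simp only [QD_zero, QD_succ, TensorProduct.add_tmul, Finset.sum_add_distrib,
        Nat.add_sub_add_right]
      abel
    have hB : ∑ j ∈ Finset.range (m + 1 + 1), (single j a) ⊗ₜ[F2] (QD dB τB (single (m + 1 - j) ((τB ^ j) b)))
        = ∑ j ∈ Finset.range (m + 1 + 1), (single j a) ⊗ₜ[F2] (single (m + 1 - j) ((τB ^ j) (dB b)))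
        + ∑ j ∈ Finset.range (m + 1), (single j a) ⊗ₜ[F2]
          (single (m - j) ((τB ^ j) b + (τB ^ (j + 1)) b)) := by
      rw [Finset.sum_range_succ (fun j => (single j a) ⊗ₜ[F2] (QD dB τB (single (m + 1 - j) ((τB ^ j) b)))),
        Finset.sum_range_succ (fun j => (single j a) ⊗ₜ[F2] (single (m + 1 - j) ((τB ^ j) (dB b))))]
      have : ∀ j ∈ Finset.range (m + 1),
          (single j a : ℕ →₀ A) ⊗ₜ[F2] (QD dB τB (single (m + 1 - j) ((τB ^ j) b))) =
          (single j a) ⊗ₜ[F2] (single (m + 1 - j) ((τB ^ j) (dB b))) + (single j a) ⊗ₜ[F2]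
          (single (m - j) ((τB ^ j) b + (τB ^ (j + 1)) b)) := by
        intro j hj
        have hj' : m + 1 - j = (m - j) + 1 := by
          have := Finset.mem_range.1 hj
          omega
        rw [hj', QD_succ, tau_pow_comm dB τB hdτ, tau_pow_succ', TensorProduct.tmul_add]
      rw [Finset.sum_congr rfl this, Finset.sum_add_distrib]
      simp only [Nat.sub_self, QD_zero, tau_pow_comm dB τB hdτ]
      abel
    rw [hA, hB]
    have hC : ∑ j ∈ Finset.range (m + 1), (single j (a + τA a)) ⊗ₜ[F2] (single (m - j) ((τB ^ (j + 1)) b))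
        + ∑ j ∈ Finset.range (m + 1), (single j a) ⊗ₜ[F2]
          (single (m - j) ((τB ^ j) b + (τB ^ (j + 1)) b))
        = ∑ j ∈ Finset.range (m + 1), (single j a) ⊗ₜ[F2] (single (m - j) ((τB ^ j) b))
        + ∑ j ∈ Finset.range (m + 1), (single j (τA a)) ⊗ₜ[F2] (single (m - j) ((τB ^ j) (τB b))) := by
      rw [← Finset.sum_add_distrib, ← Finset.sum_add_distrib]
      apply Finset.sum_congr rfl
      intro j _
      have e : (τB ^ j) (τB b) = (τB ^ (j + 1)) b := by rw [pow_succ, Module.End.mul_apply]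
      rw [e, single_add, single_add, TensorProduct.add_tmul, TensorProduct.tmul_add]
      have := add_self2 ((single j a : ℕ →₀ A) ⊗ₜ[F2] (single (m - j) ((τB ^ (j + 1)) b) : ℕ →₀ B))
      calc _ = (single j a : ℕ →₀ A) ⊗ₜ[F2] (single (m - j) ((τB ^ j) b) : ℕ →₀ B)
            + (single j (τA a) : ℕ →₀ A) ⊗ₜ[F2] (single (m - j) ((τB ^ (j + 1)) b) : ℕ →₀ B)
            + ((single j a : ℕ →₀ A) ⊗ₜ[F2] (single (m - j) ((τB ^ (j + 1)) b) : ℕ →₀ B)
            + (single j a : ℕ →₀ A) ⊗ₜ[F2] (single (m - j) ((τB ^ (j + 1)) b) : ℕ →₀ B)) := by abel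
        _ = _ := by rw [this, add_zero]
    calc _ = (∑ j ∈ Finset.range (m + 1 + 1), (single j (dA a)) ⊗ₜ[F2] (single (m + 1 - j) ((τB ^ j) b))
          + ∑ j ∈ Finset.range (m + 1 + 1), (single j a) ⊗ₜ[F2] (single (m + 1 - j) ((τB ^ j) (dB b))))
          + (∑ j ∈ Finset.range (m + 1), (single j a) ⊗ₜ[F2] (single (m - j) ((τB ^ j) b))
        + ∑ j ∈ Finset.range (m + 1), (single j (τA a)) ⊗ₜ[F2] (single (m - j) ((τB ^ j) (τB b)))) := by
          abel
      _ = _ := by rw [← hC]; abel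

end Crest.Agent.R204.Q888
end
end

-- ▼ part R204/Sq_888

/-!
# Row 204, block A5: quadratic data and the linear maps `[z] ↦ [e_m ⊗ z ∇ z]` (helper888)
-/

set_option autoImplicit false

noncomputable section

namespace Crest.Agent.R204.Q888

open Finsupp TensorProduct

variable {X Y : Type} [AddCommGroup X] [Module F2 X] [AddCommGroup Y] [Module F2 Y]

/-- quadratic data: chains `X` of a space, chains `Y` of its square with the swap `τ`,
the cross product `nab`, the chains of the diagonal `dg`. -/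
structure IsSq (dX : X →ₗ[F2] X) (dY τ : Y →ₗ[F2] Y) (nab : X →ₗ[F2] X →ₗ[F2] Y)
    (dg : X →ₗ[F2] Y) : Prop where
  dd : ∀ x, dX (dX x) = 0
  ddY : ∀ y, dY (dY y) = 0
  tt : ∀ y, τ (τ y) = y
  dt : ∀ y, dY (τ y) = τ (dY y)
  leib : ∀ x y, dY (nab x y) = nab (dX x) y + nab x (dX y)
  symm : ∀ x y, τ (nab x y) = nab y x
  dg_d : ∀ x, dY (dg x) = dg (dX x)
  dg_t : ∀ x, τ (dg x) = dg x

namespace IsSq

variable {dX : X →ₗ[F2] X} {dY τ : Y →ₗ[F2] Y} {nab : X →ₗ[F2] X →ₗ[F2] Y} {dg : X →ₗ[F2] Y}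

theorem cyc_inv (_h : IsSq dX dY τ nab dg) (m : ℕ) (y : Y) (hy : dY y = 0) (ht : τ y = y) :
    QD dY τ (single m y) = 0 := by
  rcases m with _ | m
  · simp [hy]
  · rw [QD_succ, hy, ht, add_self2]; simp

theorem cyc_nab (h : IsSq dX dY τ nab dg) (m : ℕ) (z : X) (hz : dX z = 0) :
    QD dY τ (single m (nab z z)) = 0 :=
  h.cyc_inv m _ (by rw [h.leib, hz]; simp) (h.symm z z)

theorem cyc_dg (h : IsSq dX dY τ nab dg) (m : ℕ) (z : X) (hz : dX z = 0) :
    QD dY τ (single m (dg z)) = 0 :=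
  h.cyc_inv m _ (by rw [h.dg_d, hz, map_zero]) (h.dg_t z)

theorem cyc_zero (h : IsSq dX dY τ nab dg) (z w : X) (hz : dX z = 0) (hw : dX w = 0) :
    QD dY τ (single 0 (nab z w)) = 0 := by
  rw [QD_zero, h.leib, hz, hw]; simp

/-- `(1 + τ) c` is a boundary -/
theorem bdry_symm (m : ℕ) (c : Y) (hc : dY c = 0) :
    QD dY τ (single (m + 1) c) = single m (c + τ c) := by
  rw [QD_succ, hc]; simp

theorem bdry_sq (h : IsSq dX dY τ nab dg) (m : ℕ) (v : X) :
    ∃ w, QD dY τ w = single m (nab (dX v) (dX v)) := by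
  rcases m with _ | m
  · refine ⟨single 0 (nab v (dX v)), ?_⟩
    rw [QD_zero, h.leib, h.dd]; simp
  · refine ⟨single (m + 1) (nab v (dX v)) + single m (nab v v), ?_⟩
    rw [map_add, QD_succ, h.leib, h.dd, h.symm, map_zero, add_zero]
    have key : QD dY τ (single m (nab v v)) = single m (nab v (dX v) + nab (dX v) v) := by
      rcases m with _ | m
      · rw [QD_zero, h.leib, add_comm (nab (dX v) v)]
      · rw [QD_succ, h.leib, h.symm, add_self2, single_zero, add_zero, add_comm (nab (dX v) v)]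
    rw [key, add_assoc, add_self2, add_zero]

/-- additive map on cycles -/
def G0 (h : IsSq dX dY τ nab dg) (m : ℕ) : LinearMap.ker dX →+ Hd (QD dY τ) where
  toFun z := Hd.mk _ (single m (nab z.1 z.1)) (h.cyc_nab m z.1 z.2)
  map_zero' := by
    rw [Hd.mk_eq_zero]
    exact ⟨0, by simp⟩
  map_add' := by
    rintro ⟨z, hz⟩ ⟨w, hw⟩
    have hz' : dX z = 0 := hz
    have hw' : dX w = 0 := hw
    have e : Hd.mk (QD dY τ) (single m (nab z z)) (h.cyc_nab m z hz) +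
        Hd.mk (QD dY τ) (single m (nab w w)) (h.cyc_nab m w hw) =
        Hd.mk (QD dY τ) (single m (nab z z) + single m (nab w w))
          (by rw [map_add, h.cyc_nab m z hz, h.cyc_nab m w hw, add_zero]) := rfl
    rw [e, Hd.mk_eq_mk]
    refine ⟨single (m + 1) (nab z w), ?_⟩
    rw [bdry_symm m _ (by rw [h.leib, hz', hw']; simp), h.symm]
    have h1 := add_self2 (single m (nab z z) : ℕ →₀ Y)
    have h2 := add_self2 (single m (nab w w) : ℕ →₀ Y)
    rw [sub_eq_add_neg, neg_eq2]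
    show single m (nab z w + nab w z) = (single m (nab (z + w) (z + w)) : ℕ →₀ Y) + _
    simp only [map_add, LinearMap.add_apply, single_add]
    calc _ = (single m (nab z w) + single m (nab w z) : ℕ →₀ Y)
          + (single m (nab z z) + single m (nab z z)) + (single m (nab w w) + single m (nab w w)) := by
          rw [h1, h2, add_zero, add_zero]
      _ = _ := by abel

/-- `G m [z] = [e_m ⊗ z ∇ z]`, linear -/
def G (h : IsSq dX dY τ nab dg) (m : ℕ) : Hd dX →ₗ[F2] Hd (QD dY τ) :=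
  Submodule.liftQ _ ((h.G0 m).toZModLinearMap 2) (by
    rintro ⟨z, hz⟩ hz'
    simp only [Submodule.mem_comap, Submodule.subtype_apply, LinearMap.mem_range] at hz'
    obtain ⟨v, rfl⟩ := hz'
    rw [LinearMap.mem_ker, AddMonoidHom.coe_toZModLinearMap]
    show Hd.mk _ _ _ = 0
    rw [Hd.mk_eq_zero]
    exact h.bdry_sq m v)

theorem G_mk (h : IsSq dX dY τ nab dg) (m : ℕ) (z : X) (hz : dX z = 0) :
    h.G m (Hd.mk dX z hz) = Hd.mk _ (single m (nab z z)) (h.cyc_nab m z hz) := rfl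

/-- `s i [x] = [e_i ⊗ Δ x]`, linear -/
def s (h : IsSq dX dY τ nab dg) (i : ℕ) : Hd dX →ₗ[F2] Hd (QD dY τ) :=
  Hd.map (lsingle i ∘ₗ dg) (by
    ext x : 1
    simp only [LinearMap.comp_apply, lsingle_apply]
    rcases i with _ | i
    · simp [h.dg_d]
    · rw [QD_succ, h.dg_d, h.dg_t, add_self2]; simp)

theorem s_mk (h : IsSq dX dY τ nab dg) (i : ℕ) (z : X) (hz : dX z = 0) :
    h.s i (Hd.mk dX z hz) = Hd.mk _ (single i (dg z)) (h.cyc_dg i z hz) := rfl

/-- `T0 [y] [z] = [e_0 ⊗ y ∇ z]`, bilinear -/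
def T0 (h : IsSq dX dY τ nab dg) : Hd dX →ₗ[F2] Hd dX →ₗ[F2] Hd (QD dY τ) :=
  Submodule.liftQ _
    ({ toFun := fun y => Hd.map (lsingle 0 ∘ₗ nab y.1) (by
        have hy : dX y.1 = 0 := y.2
        ext x : 1
        simp only [LinearMap.comp_apply, lsingle_apply]
        rw [QD_zero, h.leib, hy]; simp)
       map_add' := by
        rintro ⟨y, hy⟩ ⟨y', hy'⟩
        refine LinearMap.ext fun x => ?_
        obtain ⟨z, hz, rfl⟩ := Hd.mk_surj dX x
        simp only [LinearMap.add_apply, Hd.map_mk, LinearMap.comp_apply, lsingle_apply]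
        show Hd.mk _ _ _ = Hd.mk _ (_ + _) _
        congr 1
        simp [single_add]
       map_smul' := by
        rintro r ⟨y, hy⟩
        refine LinearMap.ext fun x => ?_
        obtain ⟨z, hz, rfl⟩ := Hd.mk_surj dX x
        simp only [LinearMap.smul_apply, Hd.map_mk, LinearMap.comp_apply, lsingle_apply,
          RingHom.id_apply]
        show Hd.mk _ _ _ = Hd.mk _ (_ • _) _
        congr 1
        simp } : LinearMap.ker dX →ₗ[F2] (Hd dX →ₗ[F2] Hd (QD dY τ)))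
    (by
      rintro ⟨z, hz⟩ hz'
      simp only [Submodule.mem_comap, Submodule.subtype_apply, LinearMap.mem_range] at hz'
      obtain ⟨v, rfl⟩ := hz'
      rw [LinearMap.mem_ker]
      refine LinearMap.ext fun x => ?_
      obtain ⟨w, hw, rfl⟩ := Hd.mk_surj dX x
      refine Hd.mk_eq_zero.2 ⟨single 0 (nab v w), ?_⟩
      rw [QD_zero, h.leib, hw]; simp)

theorem T0_mk (h : IsSq dX dY τ nab dg) (z w : X) (hz : dX z = 0) (hw : dX w = 0) :
    h.T0 (Hd.mk dX z hz) (Hd.mk dX w hw) = Hd.mk _ (single 0 (nab z w)) (h.cyc_zero z w hz hw) := rfl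

/-- the shift on homology -/
def shH (_h : IsSq dX dY τ nab dg) : Hd (QD dY τ) →ₗ[F2] Hd (QD dY τ) := Hd.map sh (sh_QD dY τ)

theorem sh_s (h : IsSq dX dY τ nab dg) (i : ℕ) (x : Hd dX) : h.shH (h.s (i + 1) x) = h.s i x := by
  obtain ⟨z, hz, rfl⟩ := Hd.mk_surj dX x
  rw [s_mk, s_mk]
  show Hd.mk _ (sh (single (i + 1) (dg z))) _ = _
  congr 1
  simp

theorem sh_G (h : IsSq dX dY τ nab dg) (m : ℕ) (x : Hd dX) : h.shH (h.G (m + 1) x) = h.G m x := by
  obtain ⟨z, hz, rfl⟩ := Hd.mk_surj dX x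
  rw [G_mk, G_mk]
  show Hd.mk _ (sh (single (m + 1) (nab z z))) _ = _
  congr 1
  simp

theorem sh_G0 (h : IsSq dX dY τ nab dg) (x : Hd dX) : h.shH (h.G 0 x) = 0 := by
  obtain ⟨z, hz, rfl⟩ := Hd.mk_surj dX x
  rw [G_mk]
  exact Hd.mk_eq_zero.2 ⟨0, by simp⟩

theorem sh_T0 (h : IsSq dX dY τ nab dg) (x y : Hd dX) : h.shH (h.T0 x y) = 0 := by
  obtain ⟨z, hz, rfl⟩ := Hd.mk_surj dX x
  obtain ⟨w, hw, rfl⟩ := Hd.mk_surj dX y
  rw [T0_mk]
  exact Hd.mk_eq_zero.2 ⟨0, by simp⟩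

end IsSq

/-- coefficient functionals `c J` (`J ≥ 1`): `∑ [e_m ⊗ z_m ∇ z_m] + … ↦ [z_J]` -/
structure IsCoef {dX : X →ₗ[F2] X} {dY τ : Y →ₗ[F2] Y} {nab : X →ₗ[F2] X →ₗ[F2] Y}
    {dg : X →ₗ[F2] Y} (h : IsSq dX dY τ nab dg) (c : ℕ → Hd (QD dY τ) →ₗ[F2] Hd dX) : Prop where
  c_G : ∀ J, 1 ≤ J → ∀ m x, c J (h.G m x) = if m = J then x else 0
  c_T0 : ∀ J, 1 ≤ J → ∀ x y, c J (h.T0 x y) = 0
  exp : ∀ ζ : Hd (QD dY τ), ζ ∈ (⨆ m, LinearMap.range (h.G m)) ⊔
    Submodule.span F2 (Set.range fun p : Hd dX × Hd dX => h.T0 p.1 p.2)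

namespace IsCoef

variable {dX : X →ₗ[F2] X} {dY τ : Y →ₗ[F2] Y} {nab : X →ₗ[F2] X →ₗ[F2] Y} {dg : X →ₗ[F2] Y}
  {h : IsSq dX dY τ nab dg} {c : ℕ → Hd (QD dY τ) →ₗ[F2] Hd dX}

/-- induction principle from the expansion -/
theorem ind (hc : IsCoef h c) {P : Hd (QD dY τ) → Prop} (h0 : P 0) (hadd : ∀ x y, P x → P y → P (x + y))
    (hG : ∀ m x, P (h.G m x)) (hT : ∀ x y, P (h.T0 x y)) (ζ : Hd (QD dY τ)) : P ζ := by
  have hsm : ∀ (r : F2) x, P x → P (r • x) := by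
    intro r x hx
    have : r = 0 ∨ r = 1 := by
      revert r; decide
    rcases this with rfl | rfl
    · rwa [zero_smul]
    · rwa [one_smul]
  let S : Submodule F2 (Hd (QD dY τ)) :=
    { carrier := {x | P x}
      add_mem' := fun {a b} ha hb => hadd a b ha hb
      zero_mem' := h0
      smul_mem' := fun r x hx => hsm r x hx }
  have hle : (⨆ m, LinearMap.range (h.G m)) ⊔
      Submodule.span F2 (Set.range fun p : Hd dX × Hd dX => h.T0 p.1 p.2) ≤ S := by
    refine sup_le (iSup_le fun m => ?_) (Submodule.span_le.2 ?_)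
    · rintro _ ⟨x, rfl⟩
      exact hG m x
    · rintro _ ⟨p, rfl⟩
      exact hT p.1 p.2
  exact hle (hc.exp ζ)





/-- a chain level lift of `c J` -/
theorem exists_lift (_hc : IsCoef h c) (J : ℕ) : ∃ l : (ℕ →₀ Y) →ₗ[F2] Hd dX,
    (∀ w, l (QD dY τ w) = 0) ∧ ∀ z hz, l z = c J (Hd.mk _ z hz) := by
  obtain ⟨l, hl⟩ := LinearMap.exists_extend
    ((c J) ∘ₗ (Submodule.mkQ ((LinearMap.range (QD dY τ)).comap (LinearMap.ker (QD dY τ)).subtype)))
  have h1 : ∀ z hz, l z = c J (Hd.mk _ z hz) := by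
    intro z hz
    exact LinearMap.congr_fun hl ⟨z, hz⟩
  refine ⟨l, ?_, h1⟩
  intro w
  rw [h1 _ (QD_QD dY τ h.ddY h.dt h.tt w)]
  have : Hd.mk (QD dY τ) (QD dY τ w) (QD_QD dY τ h.ddY h.dt h.tt w) = 0 := by
    rw [Hd.mk_eq_zero]
    exact ⟨w, rfl⟩
  rw [this, map_zero]

end IsCoef

end Crest.Agent.R204.Q888
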