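import Crest.Agent.R204.EZCross_271
import Crest.Agent.R204.DK_742

/-!
# Row 204, block C, leaf C8 (helper735): chain level facts on `E Z/2` and `B Z/2 = orb (E Z/2)`

* `egCone v0 : Cone (EG V)`;
* `addE : E × E → E` (addition), `addE_cross : addE_*(e_i × e_j) = C(i+j, i) e_{i+j}`;
* `BZ := orb (EG (ZMod 2)) gE`, `aB i`, `addB`, `addB_cross`;
* `diag_aB : diag_* a_i ~ ∑_{p+q=i} a_p × a_q`;
* `bdry_lift` : transfer of bounding chains to skeleta.
-/

set_option autoImplicit false

namespace Crest.Agent.R204.GL2735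

open SS EZ271 DK742
open Finset.HasAntidiagonal (antidiagonal mem_antidiagonal)

/-! ### the cone on `EG V` -/

/-- extra degeneracy of `EG V` -/
def egCone {V : Type} (v0 : V) : Cone (EG V) where
  bot := fun _ => v0
  k := fun {n} (x : Fin (n + 1) → V) => (Fin.cons v0 x : Fin (n + 1 + 1) → V)
  h_cons {m n} α x := by
    funext a
    induction a using Fin.cases with
    | zero => rfl
    | succ a => rfl
  h_star {m n} α x := by
    funext a
    induction a using Fin.cases with
    | zero => rfl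
    | succ a => rfl
  h_face x := by
    funext a
    rfl
  h_vert α x h := by
    funext a
    have : a = 0 := Fin.ext (by omega)
    subst this
    show (Fin.cons v0 x : Fin _ → V) (α 0) = v0
    rw [h]; rfl
  h_bot := by
    funext a
    induction a using Fin.cases with
    | zero => rfl
    | succ a => rfl

theorem egCone_k {V : Type} (v0 : V) {n : ℕ} (x : (EG V).S n) :
    (egCone v0).k x = (Fin.cons v0 x : Fin (n + 1 + 1) → V) := rfl

/-- the alternating simplices are iterated cones -/
theorem cone_alt (n : ℕ) : (egCone (0 : ZMod 2)).k (alt n 1) = alt (n + 1) 0 := by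
  funext a
  rw [egCone_k]
  induction a using Fin.cases with
  | zero => exact (alt_zero (n + 1) 0).symm
  | succ a =>
    show alt n 1 a = alt (n + 1) 0 a.succ
    show (1 : ZMod 2) + ((a : ℕ) : ZMod 2) = 0 + ((a.succ : ℕ) : ZMod 2)
    rw [Fin.val_succ]; push_cast; ring

abbrev EZ : SS := EG (ZMod 2)

/-- the cone of `E Z/2` -/
abbrev CE : Cone EZ := egCone (0 : ZMod 2)

/-- `e_n` -/
noncomputable abbrev eN (n : ℕ) (b : ZMod 2) : N F2 EZ := N.sx F2 (alt n b)

theorem c_eN (n : ℕ) : CE.c F2 (eN n 1) = eN (n + 1) 0 := by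
  rw [Cone.c_sx, cone_alt]

theorem eN_zero : eN 0 0 = N.sx F2 CE.bot := by
  unfold eN
  congr 1
  funext a
  have : a = 0 := Fin.ext (by omega)
  subst this
  exact alt_zero 0 0

theorem tau_eN (n : ℕ) (b : ZMod 2) : N.map F2 gE.g (eN n b) = eN n (b + 1) := by
  rw [N.map_sx, alt_g]

theorem sg_F2 {K : SS} (c : N F2 K) : sg F2 c = c := by
  have : (sg F2 (K := K)) = LinearMap.id := by
    refine hom_ext fun n x => ?_
    have h : (-1 : F2) = 1 := by decide
    simp [h]
  rw [this]; rfl

theorem add_self_F2 {M : Type*} [AddCommGroup M] [Module F2 M] (x : M) : x + x = 0 := by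
  have h : (2 : F2) = 0 := by decide
  calc x + x = (2 : F2) • x := by rw [two_smul]
    _ = 0 := by rw [h, zero_smul]

theorem neg_F2 {M : Type*} [AddCommGroup M] [Module F2 M] (x : M) : -x = x := by
  rw [neg_eq_iff_add_eq_zero]; exact add_self_F2 x

theorem bd_eN_succ (n : ℕ) (b : ZMod 2) :
    N.bd F2 EZ (eN (n + 1) b) = eN n (b + 1) + eN n b := by
  have := AltSS.full.bd_e_succ n le_top b
  have h1 : ∀ (m : ℕ) (b : ZMod 2), AltSS.full.e m le_top b = alt m b := fun m b =>
    AltSS.full.j_e m le_top b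
  rw [h1, h1, h1] at this
  exact this

theorem bd_eN_zero (b : ZMod 2) : N.bd F2 EZ (eN 0 b) = 0 := EZ271.bd_sx_zero F2 _

/-! ### addition on `E Z/2` -/

/-- addition -/
def addE : Hom (EZ.prod EZ) EZ := ⟨fun _ x => fun i => x.1 i + x.2 i, fun _ _ => rfl⟩

theorem addE_cone : IsConeMap (CE.prod CE) CE addE where
  k {n} x := by
    funext a
    induction a using Fin.cases with
    | zero => exact add_zero 0
    | succ a => rfl

theorem addE_left : addE.comp (SS.prodMap gE.g (Hom.id EZ)) = gE.g.comp addE := by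
  refine Hom.ext (funext fun n => funext fun x => funext fun i => ?_)
  show x.1 i + 1 + x.2 i = x.1 i + x.2 i + 1
  ring

theorem addE_right : addE.comp (SS.prodMap (Hom.id EZ) gE.g) = gE.g.comp addE := by
  refine Hom.ext (funext fun n => funext fun x => funext fun i => ?_)
  show x.1 i + (x.2 i + 1) = x.1 i + x.2 i + 1
  ring

theorem addE_tau_left (a b : N F2 EZ) : N.map F2 addE (cross F2 (N.map F2 gE.g a) b) =
    N.map F2 gE.g (N.map F2 addE (cross F2 a b)) := by
  have h : cross F2 (N.map F2 gE.g a) b =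
      N.map F2 (SS.prodMap gE.g (Hom.id EZ)) (cross F2 a b) := by
    rw [map_cross, map_idHom]
  rw [h, map_map, map_map, addE_left]

theorem addE_tau_right (a b : N F2 EZ) : N.map F2 addE (cross F2 a (N.map F2 gE.g b)) =
    N.map F2 gE.g (N.map F2 addE (cross F2 a b)) := by
  have h : cross F2 a (N.map F2 gE.g b) =
      N.map F2 (SS.prodMap (Hom.id EZ) gE.g) (cross F2 a b) := by
    rw [map_cross, map_idHom]
  rw [h, map_map, map_map, addE_right]

/-- `e_{n+1} = c (τ e_n)` -/
theorem eN_succ (n : ℕ) : eN (n + 1) 0 = CE.c F2 (N.map F2 gE.g (eN n 0)) := by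
  rw [tau_eN, zero_add, c_eN]

/-- `addE_* (e_i × e_j) = C(i+j, i) e_{i+j}` -/
theorem addE_cross (i j : ℕ) : N.map F2 addE (cross F2 (eN i 0) (eN j 0)) =
    (Nat.choose (i + j) i : F2) • eN (i + j) 0 := by
  have key : ∀ n i j : ℕ, i + j = n → N.map F2 addE (cross F2 (eN i 0) (eN j 0)) =
      (Nat.choose (i + j) i : F2) • eN (i + j) 0 := by
    intro n
    induction n with
    | zero =>
      intro i j h
      obtain rfl : i = 0 := by omega
      obtain rfl : j = 0 := by omega
      rw [eN_zero, cross_bot, N.map_sx]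
      have h1 : addE.app 0 (CE.prod CE).bot = CE.bot := by
        funext a; exact add_zero 0
      rw [h1]
      simp only [Nat.choose_self, Nat.cast_one, one_smul, add_zero]
    | succ n ih =>
      intro i j h
      rcases i with _ | i <;> rcases j with _ | j
      · omega
      · rw [eN_zero, eN_succ, cross_bot_c, addE_cone.c, addE_tau_right, ← eN_zero,
          ih 0 j (by omega), map_smul, map_smul]
        simp only [Nat.choose_zero_right, Nat.cast_one, one_smul, zero_add]
        rw [← eN_succ]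
      · rw [eN_zero, eN_succ, cross_c_bot, addE_cone.c, addE_tau_left, ← eN_zero,
          ih i 0 (by omega), map_smul, map_smul]
        simp only [add_zero, Nat.choose_self, Nat.cast_one, one_smul]
      · rw [eN_succ i, eN_succ j, cross_c_c, addE_cone.c, sg_F2, map_add, ← eN_succ, ← eN_succ,
          addE_tau_left, addE_tau_right, ih i (j + 1) (by omega), ih (i + 1) j (by omega)]
        have e1 : i + (j + 1) = i + j + 1 := by omega
        have e2 : i + 1 + j = i + j + 1 := by omega
        have e3 : i + 1 + (j + 1) = i + j + 1 + 1 := by omega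
        have e4 : Nat.choose (i + j + 1 + 1) (i + 1) = Nat.choose (i + j + 1) i +
            Nat.choose (i + j + 1) (i + 1) := Nat.choose_succ_succ _ _
        rw [e1, e2, e3, map_smul, map_smul, ← add_smul, map_smul, ← eN_succ, e4]
        push_cast
        rfl
  exact key (i + j) i j rfl

/-! ### the classifying space -/

/-- `B Z/2` -/
abbrev BZ : SS := orb EZ gE

/-- the projection -/
abbrev pZ : Hom EZ BZ := proj gE

/-- the generator in degree `n` -/
noncomputable def aB (n : ℕ) : N F2 BZ := N.sx F2 (pZ.app n (alt n 0))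

theorem map_pZ_eN (n : ℕ) (b : ZMod 2) : N.map F2 pZ (eN n b) = aB n := by
  rw [N.map_sx]
  rcases zmod2_cases b with rfl | rfl
  · rfl
  · unfold aB
    congr 1
    have := proj_g gE n (alt n 0)
    rw [alt_g, zero_add] at this
    exact this

theorem bd_aB (n : ℕ) : N.bd F2 BZ (aB n) = 0 := by
  rw [← map_pZ_eN n 0, ← map_bd']
  rcases n with _ | n
  · rw [bd_eN_zero, map_zero]
  · rw [bd_eN_succ, map_add, map_pZ_eN, map_pZ_eN, add_self_F2]

/-- addition on `B Z/2` -/
def addB : Hom (BZ.prod BZ) BZ where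
  app n x := Quotient.liftOn₂ (s₁ := gE.rel n) (s₂ := gE.rel n) x.1 x.2
    (fun g h => pZ.app n (addE.app n (g, h))) (by
      intro a b a' b' ha hb
      have h1 : ∀ g h : EZ.S n, pZ.app n (addE.app n (gE.g.app n g, h)) =
          pZ.app n (addE.app n (g, h)) := by
        intro g h
        have e : addE.app n (gE.g.app n g, h) = gE.g.app n (addE.app n (g, h)) :=
          congrFun (congrFun (congrArg Hom.app addE_left) n) (g, h)
        rw [e, proj_g]
      have h2 : ∀ g h : EZ.S n, pZ.app n (addE.app n (g, gE.g.app n h)) =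
          pZ.app n (addE.app n (g, h)) := by
        intro g h
        have e : addE.app n (g, gE.g.app n h) = gE.g.app n (addE.app n (g, h)) :=
          congrFun (congrFun (congrArg Hom.app addE_right) n) (g, h)
        rw [e, proj_g]
      rcases ha with rfl | rfl <;> rcases hb with rfl | rfl
      · rfl
      · rw [h2]
      · rw [h1]
      · rw [h1, h2])
  nat f x := by
    obtain ⟨x, y⟩ := x
    obtain ⟨g, rfl⟩ := proj_surj gE _ x
    obtain ⟨h, rfl⟩ := proj_surj gE _ y
    rfl



/-! ### the diagonal -/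

section diag

/-- the involution on `E × E` -/
abbrev tt : Hom (EZ.prod EZ) (EZ.prod EZ) := SS.prodMap gE.g gE.g

theorem tt_tt (z : N F2 (EZ.prod EZ)) : N.map F2 tt (N.map F2 tt z) = z := by
  rw [map_map]
  have : Hom.comp tt tt = Hom.id (EZ.prod EZ) := by
    refine Hom.ext (funext fun n => funext fun x => ?_)
    exact Prod.ext (gE.invol n x.1) (gE.invol n x.2)
  rw [this, map_idHom]

/-- difference of the two chain maps `W → N (E × E)` -/
noncomputable def gD (i : ℕ) : N F2 (EZ.prod EZ) :=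
  N.map F2 (SS.diag EZ) (eN i 0) +
    ∑ p ∈ antidiagonal i, cross F2 (eN p.1 0) (eN p.2 (p.1 : ZMod 2))

theorem tt_diag (i : ℕ) : N.map F2 tt (N.map F2 (SS.diag EZ) (eN i 0)) =
    N.map F2 (SS.diag EZ) (eN i 1) := by
  have h : eN i 1 = N.map F2 gE.g (eN i 0) := by rw [tau_eN, zero_add]
  rw [h, map_map, map_map]
  rfl


theorem gD_zero : gD 0 = 0 := by
  unfold gD
  rw [Finset.Nat.antidiagonal_zero, Finset.sum_singleton, Nat.cast_zero]
  rw [eN_zero, cross_bot, N.map_sx]
  exact add_self_F2 _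

theorem bd_gD_succ (i : ℕ) : N.bd F2 _ (gD (i + 1)) = gD i + N.map F2 tt (gD i) := by
  have h1 : N.bd F2 _ (N.map F2 (SS.diag EZ) (eN (i + 1) 0)) =
      N.map F2 (SS.diag EZ) (eN i 0) + N.map F2 tt (N.map F2 (SS.diag EZ) (eN i 0)) := by
    rw [← map_bd', bd_eN_succ, zero_add, map_add, tt_diag, add_comm]
  have h2 : ∀ p q : ℕ, N.bd F2 _ (cross F2 (eN (p + 1) 0) (eN q ((p + 1 : ℕ) : ZMod 2))) =
      cross F2 (eN p 1) (eN q ((p : ZMod 2) + 1)) + cross F2 (eN p 0) (eN q ((p : ZMod 2) + 1)) +
      cross F2 (eN (p + 1) 0) (N.bd F2 _ (eN q ((p + 1 : ℕ) : ZMod 2))) := by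
    intro p q
    rw [bd_cross, sg_F2, bd_eN_succ, zero_add, map_add, LinearMap.add_apply]
    push_cast
    rfl
  have h3 : N.bd F2 _ (∑ p ∈ antidiagonal (i + 1), cross F2 (eN p.1 0) (eN p.2 (p.1 : ZMod 2))) =
      ∑ p ∈ antidiagonal i, cross F2 (eN p.1 0) (eN p.2 (p.1 : ZMod 2)) +
      N.map F2 tt (∑ p ∈ antidiagonal i, cross F2 (eN p.1 0) (eN p.2 (p.1 : ZMod 2))) := by
    rw [map_sum, map_sum]
    have e1 : ∀ p q : ℕ, N.bd F2 _ (cross F2 (eN p 0) (eN q (p : ZMod 2))) =
        cross F2 (N.bd F2 _ (eN p 0)) (eN q (p : ZMod 2)) +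
        cross F2 (eN p 0) (N.bd F2 _ (eN q (p : ZMod 2))) := by
      intro p q
      rw [bd_cross, sg_F2]
    simp only [e1]
    rw [Finset.sum_add_distrib]
    rw [Finset.Nat.sum_antidiagonal_succ, Finset.Nat.sum_antidiagonal_succ']
    simp only [bd_eN_zero, map_zero, LinearMap.zero_apply, zero_add]
    rw [← Finset.sum_add_distrib, ← Finset.sum_add_distrib]
    refine Finset.sum_congr rfl fun p _ => ?_
    have e2 : N.map F2 tt (cross F2 (eN p.1 0) (eN p.2 (p.1 : ZMod 2))) =
        cross F2 (eN p.1 1) (eN p.2 ((p.1 : ZMod 2) + 1)) := by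
      rw [map_cross, tau_eN, tau_eN, zero_add]
    rw [e2, bd_eN_succ, bd_eN_succ, zero_add, map_add, map_add, LinearMap.add_apply]
    push_cast
    set a := cross F2 (eN p.1 1) (eN p.2 ((p.1 : ZMod 2) + 1))
    set b := cross F2 (eN p.1 0) (eN p.2 ((p.1 : ZMod 2) + 1))
    set c := cross F2 (eN p.1 0) (eN p.2 (p.1 : ZMod 2))
    calc a + b + (b + c) = c + a + (b + b) := by abel
      _ = c + a := by rw [add_self_F2, add_zero]
  unfold gD
  rw [map_add, h1, h3, map_add]
  abel

theorem aug_gD_succ (i : ℕ) : aug F2 (gD (i + 1)) = 0 := by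
  unfold gD
  rw [map_add, aug_map, aug_sx_succ, zero_add, map_sum]
  refine Finset.sum_eq_zero fun p hp => ?_
  rw [aug_cross]
  rw [mem_antidiagonal] at hp
  rcases p with ⟨p, q⟩
  rcases p with _ | p
  · rcases q with _ | q
    · simp at hp
    · rw [aug_sx_succ (R := F2), mul_zero]
  · rw [aug_sx_succ (R := F2), zero_mul]

/-- equivariant homotopy -/
theorem exists_h (i : ℕ) : ∃ h h' : N F2 (EZ.prod EZ), aug F2 h = 0 ∧
    N.bd F2 _ h = gD i + h' + N.map F2 tt h' := by
  have key : ∀ i : ℕ, ∃ h h' : N F2 (EZ.prod EZ), aug F2 h = 0 ∧ aug F2 h' = 0 ∧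
      N.bd F2 _ h = gD i + h' + N.map F2 tt h' := by
    intro i
    induction i with
    | zero => exact ⟨0, 0, by simp, by simp, by rw [gD_zero]; simp⟩
    | succ i ih =>
      obtain ⟨h, h', ha, ha', hb⟩ := ih
      refine ⟨(CE.prod CE).c F2 (gD (i + 1) + h + N.map F2 tt h), h, Cone.aug_c _ _ _, ha, ?_⟩
      have hcyc : N.bd F2 _ (gD (i + 1) + h + N.map F2 tt h) = 0 := by
        rw [map_add, map_add, bd_gD_succ, ← map_bd', hb, map_add, map_add, tt_tt]
        set u := gD i
        set v := N.map F2 tt u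
        set w := N.map F2 tt h'
        calc u + v + (u + h' + w) + (v + w + h') = (u + u) + (v + v) + (h' + h') + (w + w) := by
              abel
          _ = 0 := by simp only [add_self_F2]
      rw [Cone.bd_c, hcyc, map_zero, sub_zero, map_add, map_add, aug_map, ha, aug_gD_succ]
      simp
  obtain ⟨h, h', h1, _, h3⟩ := key i
  exact ⟨h, h', h1, h3⟩

/-- **the coproduct of `a_i`**: `diag_* a_i` is homologous to `∑_{p+q=i} a_p × a_q` -/
theorem diag_aB (i : ℕ) : ∃ w : N F2 (BZ.prod BZ), N.bd F2 _ w =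
    N.map F2 (SS.diag BZ) (aB i) + ∑ p ∈ antidiagonal i, cross F2 (aB p.1) (aB p.2) := by
  obtain ⟨h, h', -, hb⟩ := exists_h i
  refine ⟨N.map F2 (SS.prodMap pZ pZ) h, ?_⟩
  rw [← map_bd', hb, map_add, map_add]
  have h1 : N.map F2 (SS.prodMap pZ pZ) (N.map F2 tt h') = N.map F2 (SS.prodMap pZ pZ) h' := by
    rw [map_map]
    congr 1
    congr 1
    refine Hom.ext (funext fun n => funext fun x => ?_)
    exact Prod.ext (proj_g gE n x.1) (proj_g gE n x.2)
  rw [h1, add_assoc, add_self_F2, add_zero]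
  unfold gD
  rw [map_add, map_sum, map_map]
  congr 1
  · rw [← map_pZ_eN i 0, map_map]
    rfl
  · refine Finset.sum_congr rfl fun p _ => ?_
    rw [map_cross, map_pZ_eN, map_pZ_eN]

end diag

end Crest.Agent.R204.GL2735
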