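import Crest.Agent.R204.Corr_328
import Crest.Agent.R204.Sq_888
import Crest.Agent.R204.RkCartan_888
import Crest.Agent.R204.Sq2_252
import Crest.Agent.R204.Prd_328
import Crest.Agent.R204.Tors_947

-- ▼ part R204/TrV_947
section

/-!
# Row 204, block G: correspondences (in particular transfers) commute with the homology Steenrod
operations (helper947)

`c : Corr L K`.  The correspondence `c × c : L × L → K × K` commutes with the swap and the cross
product, and on the diagonal it is the diagonal of `c` plus the sum over pairs of *different*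
values.  The latter comes from a simplicial set with a free involution, so it does not contribute to
the homology of `W ⊗_{Z/2} N(K × K)` (`free_bdry`).
-/

set_option autoImplicit false

namespace Crest.Agent.R204.TrV947

open Finsupp Crest.Agent.R204 SS Corr328 Q888

/-! ## free involutions -/

section free

variable {M : Type} [AddCommGroup M] [Module F2 M]

theorem free_bdry (d s p : M →ₗ[F2] M) (gr : ℕ → Submodule F2 M)
    (hdd : ∀ x, d (d x) = 0) (hds : ∀ x, d (s x) = s (d x)) (hp : ∀ x, p x + s (p (s x)) = x)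
    (hdgr : ∀ n x, x ∈ gr (n + 1) → d x ∈ gr n) (hd0 : ∀ x ∈ gr 0, d x = 0)
    (hpgr : ∀ n x, x ∈ gr n → p x ∈ gr n) (n : ℕ) :
    ∀ (i : ℕ) (w : M), w ∈ gr n → d w = 0 → s w = w → ∃ z, QD d s z = single i w := by
  have key : ∀ (i : ℕ) (w : M), s w = w →
      QD d s (single (i + 1) (p w)) = single (i + 1) (d (p w)) + single i w := by
    intro i w hw
    rw [QD_succ]
    have := hp w
    rw [hw] at this
    rw [this]
  induction n with
  | zero =>
    intro i w hw _ hs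
    refine ⟨single (i + 1) (p w), ?_⟩
    rw [key i w hs, hd0 _ (hpgr 0 w hw)]
    simp
  | succ n ih =>
    intro i w hw hd hs
    have h1 : s (d (p w)) = d (p w) := by
      have h2 := congrArg d (hp w)
      rw [hs, map_add, hds, hd] at h2
      rw [eq_neg_of_add_eq_zero_right h2, neg_eq2]
    obtain ⟨z, hz⟩ := ih (i + 1) (d (p w)) (hdgr n _ (hpgr _ w hw)) (hdd _) h1
    refine ⟨single (i + 1) (p w) + z, ?_⟩
    rw [map_add, key i w hs, hz]
    have := add_self2 (single (i + 1) (d (p w)) : ℕ →₀ M)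
    calc _ = (single (i + 1) (d (p w)) + single (i + 1) (d (p w)) : ℕ →₀ M) + single i w := by abel
      _ = _ := by rw [this, zero_add]

/-- one half of a set with a free involution -/
theorem exists_half {α : Type} (s : α → α) (hs : ∀ x, s (s x) = x) (hf : ∀ x, s x ≠ x) :
    ∃ G : α → Prop, ∀ x, G (s x) ↔ ¬ G x := by
  classical
  let _ : LinearOrder α := linearOrderOfSTO (WellOrderingRel (α := α))
  refine ⟨fun x => x < s x, fun x => ?_⟩
  simp only [hs]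
  constructor
  · intro h; exact not_lt.2 h.le
  · intro h; exact lt_of_le_of_ne (not_lt.1 h) (hf x)

variable {E : SS}

/-- the bd preserves dimension -/
theorem bd_gr' {K : SS} {n : ℕ} {x : N F2 K} (hx : x ∈ N.gr F2 K (n + 1)) :
    N.bd F2 K x ∈ N.gr F2 K n := by
  obtain ⟨x, hx, rfl⟩ := hx
  refine Submodule.span_induction
    (p := fun z _ => N.bd F2 K (Submodule.mkQ (Ch.Dg F2 K) z) ∈ N.gr F2 K n) ?_ ?_ ?_ ?_ hx
  · rintro _ ⟨y, rfl⟩
    have : N.bd F2 K (N.sx F2 y) ∈ N.gr F2 K n := by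
      rw [EZ271.bd_sx_succ]
      exact Submodule.sum_mem _ fun i _ => Submodule.smul_mem _ _
        ⟨_, Submodule.subset_span ⟨_, rfl⟩, rfl⟩
    exact this
  · simp
  · intro a b _ _ ha hb; rw [map_add, map_add]; exact Submodule.add_mem _ ha hb
  · intro r a _ ha; rw [map_smul, map_smul]; exact Submodule.smul_mem _ _ ha

theorem bd_gr0' {K : SS} {x : N F2 K} (hx : x ∈ N.gr F2 K 0) : N.bd F2 K x = 0 := by
  obtain ⟨x, hx, rfl⟩ := hx
  refine Submodule.span_induction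
    (p := fun z _ => N.bd F2 K (Submodule.mkQ (Ch.Dg F2 K) z) = 0) ?_ ?_ ?_ ?_ hx
  · rintro _ ⟨y, rfl⟩
    exact EZ271.bd_sx_zero (R := F2) y
  · simp
  · intro a b _ _ ha hb; rw [map_add, map_add, ha, hb, add_zero]
  · intro r a _ ha; rw [map_smul, map_smul, ha, smul_zero]

/-- chains of a simplicial set with a free involution: `e_i ⊗ w` is a boundary for every invariant
cycle `w`. -/
theorem free_bdry_SS (s : DK742.Invo E) (hf : ∀ (n : ℕ) (x : E.S n), s.g.app n x ≠ x) (n i : ℕ)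
    (w : N F2 E) (hw : w ∈ N.gr F2 E n) (hd : N.bd F2 E w = 0) (hs : N.map F2 s.g w = w) :
    ∃ z, QD (N.bd F2 E) (N.map F2 s.g) z = single i w := by
  classical
  have hG : ∀ n : ℕ, ∃ G : E.S n → Prop, ∀ x, G (s.g.app n x) ↔ ¬ G x := fun n =>
    exists_half (s.g.app n) (fun x => s.invol n x) (hf n)
  choose G hG using hG
  let p : N F2 E →ₗ[F2] N F2 E := EZ271.liftN (fun n x => if G n x then N.sx F2 x else 0)
    (fun n j y => by
      split_ifs
      · exact N.sx_dgn j y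
      · rfl)
  have hp_sx : ∀ (n : ℕ) (x : E.S n), p (N.sx F2 x) = if G n x then N.sx F2 x else 0 := by
    intro n x
    exact EZ271.liftN_sx _ _ x
  refine free_bdry (N.bd F2 E) (N.map F2 s.g) p (N.gr F2 E) (fun x => N.bd_bd x) ?_ ?_ ?_ ?_ ?_ n i w
    hw hd hs
  · intro x
    exact (LinearMap.congr_fun (N.map_bd s.g) x).symm
  · intro x
    have : p + N.map F2 s.g ∘ₗ p ∘ₗ N.map F2 s.g = LinearMap.id := by
      refine EZ271.hom_ext fun n x => ?_
      simp only [LinearMap.add_apply, LinearMap.comp_apply, N.map_sx, hp_sx, LinearMap.id_apply]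
      by_cases h : G n x
      · have h' : ¬ G n (s.g.app n x) := by rw [hG]; exact not_not.2 h
        rw [if_pos h, if_neg h', map_zero, add_zero]
      · have h' : G n (s.g.app n x) := by rw [hG]; exact h
        rw [if_neg h, if_pos h', zero_add, N.map_sx, s.invol]
    exact LinearMap.congr_fun this x
  · intro n x hx; exact bd_gr' hx
  · intro x hx; exact bd_gr0' hx
  · intro n x hx
    obtain ⟨x, hx, rfl⟩ := hx
    refine Submodule.span_induction
      (p := fun z _ => p (Submodule.mkQ (Ch.Dg F2 E) z) ∈ N.gr F2 E n) ?_ ?_ ?_ ?_ hx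
    · rintro _ ⟨y, rfl⟩
      have : p (N.sx F2 y) ∈ N.gr F2 E n := by
        rw [hp_sx]
        split_ifs
        · exact ⟨_, Submodule.subset_span ⟨_, rfl⟩, rfl⟩
        · exact Submodule.zero_mem _
      exact this
    · simp
    · intro a b _ _ ha hb; rw [map_add, map_add]; exact Submodule.add_mem _ ha hb
    · intro r a _ ha; rw [map_smul, map_smul]; exact Submodule.smul_mem _ _ ha

end free

/-! ## pairs of different values of a correspondence -/

section pairs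

variable {L K : SS} (c : Corr L K)

/-- triples `(y, a, b)`, `a ≠ b` values of `c` at `y` -/
def E2 : SS where
  S n := {t : L.S n × (K.S n × K.S n) // t.2.1 ∈ c.F t.1 ∧ t.2.2 ∈ c.F t.1 ∧ t.2.1 ≠ t.2.2}
  act f t := ⟨(L.act f t.1.1, (K.act f t.1.2.1, K.act f t.1.2.2)),
    (c.bij f t.1.1).1 t.2.1, (c.bij f t.1.1).1 t.2.2.1,
    fun e => t.2.2.2 ((c.bij f t.1.1).2.1 t.2.1 t.2.2.1 e)⟩
  act_id _ := Subtype.ext (Prod.ext (L.act_id _) (Prod.ext (K.act_id _) (K.act_id _)))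
  act_comp _ _ _ := Subtype.ext (Prod.ext (L.act_comp _ _ _)
    (Prod.ext (K.act_comp _ _ _) (K.act_comp _ _ _)))

/-- the involution `(y, a, b) ↦ (y, b, a)` -/
def inv2 : DK742.Invo (E2 c) where
  g := ⟨fun _ t => ⟨(t.1.1, (t.1.2.2, t.1.2.1)), t.2.2.1, t.2.1, fun e => t.2.2.2 e.symm⟩,
    fun _ _ => rfl⟩
  invol _ _ := rfl

theorem inv2_free (n : ℕ) (x : (E2 c).S n) : (inv2 c).g.app n x ≠ x := by
  intro e
  exact x.2.2.2 (congrArg (fun t : (E2 c).S n => t.1.2.2) e)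

/-- `(y, a, b) ↦ (a, b)` -/
def q2 : Hom (E2 c) (K.prod K) := ⟨fun _ t => t.1.2, fun _ _ => rfl⟩

theorem q2_inv : (q2 c).comp (inv2 c).g = (SS.swap K K).comp (q2 c) := rfl

/-- all the triples over `y`, as a finset -/
noncomputable def fib2 {n : ℕ} (y : L.S n) : Finset ((E2 c).S n) :=
  letI := Classical.decEq (K.S n)
  letI := Classical.decEq ((E2 c).S n)
  (c.F y).offDiag.attach.image (fun t => (id
    ⟨(y, t.1), (Finset.mem_offDiag.1 t.2).1, (Finset.mem_offDiag.1 t.2).2.1,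
      (Finset.mem_offDiag.1 t.2).2.2⟩ : (E2 c).S n))

theorem mem_fib2 {n : ℕ} (y : L.S n) (t : (E2 c).S n) : t ∈ fib2 c y ↔ t.1.1 = y := by
  classical
  rw [fib2, Finset.mem_image]
  constructor
  · rintro ⟨a, -, rfl⟩; rfl
  · rintro rfl
    exact ⟨⟨t.1.2, Finset.mem_offDiag.2 t.2⟩, Finset.mem_attach _ _, rfl⟩

/-- all the triples over `y` -/
noncomputable def c2 : Corr L (E2 c) where
  F {n} y := fib2 c y
  bij {m n} f y := by
    refine ⟨?_, ?_, ?_⟩
    · intro t ht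
      rw [Finset.mem_coe, mem_fib2] at ht ⊢
      exact congrArg (L.act f) ht
    · intro t ht t' ht' e
      rw [Finset.mem_coe, mem_fib2] at ht ht'
      obtain ⟨⟨y1, a, b⟩, h1, h2, h3⟩ := t
      obtain ⟨⟨y2, a', b'⟩, h1', h2', h3'⟩ := t'
      simp only at ht ht' h1 h2 h1' h2'
      subst ht
      subst ht'
      have ea : K.act f a = K.act f a' := congrArg (fun t : (E2 c).S m => t.1.2.1) e
      have eb : K.act f b = K.act f b' := congrArg (fun t : (E2 c).S m => t.1.2.2) e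
      have ea := (c.bij f _).2.1 h1 h1' ea
      have eb := (c.bij f _).2.1 h2 h2' eb
      subst ea
      subst eb
      rfl
    · intro t ht
      rw [Finset.mem_coe, mem_fib2] at ht
      obtain ⟨⟨y1, a, b⟩, h1, h2, h3⟩ := t
      simp only at ht h1 h2 h3
      subst ht
      obtain ⟨a, ha, rfl⟩ := (c.bij f _).2.2 h1
      obtain ⟨b, hb, rfl⟩ := (c.bij f _).2.2 h2
      refine ⟨⟨(y, (a, b)), ha, hb, fun e => h3 (congrArg (K.act f) e)⟩, ?_, rfl⟩
      exact Finset.mem_coe.2 ((mem_fib2 c y _).2 rfl)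

theorem mem_c2 {n : ℕ} (y : L.S n) (t : (E2 c).S n) : t ∈ (c2 c).F y ↔ t.1.1 = y :=
  mem_fib2 c y t

theorem c2_inv (x : N F2 L) : N.map F2 (inv2 c).g ((c2 c).nm F2 x) = (c2 c).nm F2 x := by
  have : N.map F2 (inv2 c).g ∘ₗ (c2 c).nm F2 = (c2 c).nm F2 := by
    refine EZ271.hom_ext fun n y => ?_
    rw [LinearMap.comp_apply, Corr.nm_sx, map_sum]
    simp only [N.map_sx]
    refine Finset.sum_bij (fun t _ => (inv2 c).g.app n t) ?_ ?_ ?_ ?_
    · intro t ht; rw [mem_c2] at ht ⊢; exact ht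
    · intro t _ t' _ e
      have := congrArg ((inv2 c).g.app n) e
      exact this
    · intro t ht
      rw [mem_c2] at ht
      exact ⟨(inv2 c).g.app n t, (mem_c2 c y _).2 ht, rfl⟩
    · intro t _; rfl
  exact LinearMap.congr_fun this x

/-- `c × c` on the diagonal -/
theorem prod_diag (x : N F2 L) : (c.prod c).nm F2 (N.map F2 (SS.diag L) x) =
    N.map F2 (SS.diag K) (c.nm F2 x) + N.map F2 (q2 c) ((c2 c).nm F2 x) := by
  classical
  have : (c.prod c).nm F2 ∘ₗ N.map F2 (SS.diag L) =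
      N.map F2 (SS.diag K) ∘ₗ c.nm F2 + N.map F2 (q2 c) ∘ₗ (c2 c).nm F2 := by
    refine EZ271.hom_ext fun n y => ?_
    simp only [LinearMap.add_apply, LinearMap.comp_apply, N.map_sx, Corr.nm_sx, map_sum]
    let g : K.S n × K.S n → N F2 (K.prod K) := fun t => N.sx F2 (K := K.prod K) t
    have e1 : ∑ t ∈ (c.prod c).F ((SS.diag L).app n y), N.sx F2 (K := K.prod K) t =
        ∑ t ∈ (c.F y).diag, g t + ∑ t ∈ (c.F y).offDiag, g t := by
      rw [← Finset.sum_union (Finset.disjoint_diag_offDiag _), Finset.diag_union_offDiag]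
      rfl
    refine e1.trans ?_
    congr 1
    · rw [Finset.sum_diag]; rfl
    · symm
      refine Finset.sum_bij (fun (t : (E2 c).S n) _ => t.1.2) ?_ ?_ ?_ ?_
      · intro t ht
        rw [mem_c2] at ht
        rw [Finset.mem_offDiag, ← ht]
        exact t.2
      · intro t ht t' ht' e
        rw [mem_c2] at ht ht'
        exact Subtype.ext (Prod.ext (ht.trans ht'.symm) e)
      · intro t ht
        exact ⟨⟨(y, t), Finset.mem_offDiag.1 ht⟩, (mem_c2 c y _).2 rfl, rfl⟩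
      · intro t _; rfl
  exact LinearMap.congr_fun this x

/-- `c × c` commutes with the swap -/
theorem prod_swap (x : N F2 (L.prod L)) : (c.prod c).nm F2 (N.map F2 (SS.swap L L) x) =
    N.map F2 (SS.swap K K) ((c.prod c).nm F2 x) := by
  have : (c.prod c).nm F2 ∘ₗ N.map F2 (SS.swap L L) = N.map F2 (SS.swap K K) ∘ₗ (c.prod c).nm F2 := by
    refine EZ271.hom_ext fun n y => ?_
    simp only [LinearMap.comp_apply, N.map_sx, Corr.nm_sx, map_sum]
    refine Finset.sum_bij (fun (t : K.S n × K.S n) _ => (t.2, t.1)) ?_ ?_ ?_ ?_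
    · intro t ht
      have ht := Finset.mem_product.1 ht
      exact Finset.mem_product.2 ⟨ht.2, ht.1⟩
    · intro t _ t' _ e
      exact Prod.ext (congrArg Prod.snd e) (congrArg Prod.fst e)
    · intro t ht
      have ht := Finset.mem_product.1 ht
      exact ⟨(t.2, t.1), Finset.mem_product.2 ⟨ht.2, ht.1⟩, rfl⟩
    · intro t _; rfl
  exact LinearMap.congr_fun this x

end pairs

/-! ## the theorem -/

section main

variable {L K : SS} (c : Corr L K)

/-- quadratic data of a simplicial set -/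
abbrev SqD (K : SS) : Prop := IsSq (N.bd F2 K) (N.bd F2 (K.prod K)) (N.map F2 (SS.swap K K))
  (EZ271.cross F2) (N.map F2 (SS.diag K))

/-- the map of `c × c` on the quadratic construction -/
noncomputable def hQ : Hd (QD (N.bd F2 (L.prod L)) (N.map F2 (SS.swap L L))) →ₗ[F2]
    Hd (QD (N.bd F2 (K.prod K)) (N.map F2 (SS.swap K K))) :=
  Hd.map (Qmap ((c.prod c).nm F2)) (Qmap_QD _ _ _ _ _ (fun a => (c.prod c).nm_bd' F2 a)
    (fun a => prod_swap c a))

theorem hQ_G (hL : SqD L) (hK : SqD K) (m : ℕ) (x : H F2 L) :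
    hQ c (hL.G m x) = hK.G m (c.h F2 x) := by
  obtain ⟨z, hz, rfl⟩ := Hd.mk_surj _ x
  rw [IsSq.G_mk, Corr.h_mk, IsSq.G_mk, hQ, Hd.map_mk, Hd.mk_eq_mk]
  refine ⟨0, ?_⟩
  rw [Qmap_single, Corr.nm_cross, map_zero, sub_self]

theorem hQ_T0 (hL : SqD L) (hK : SqD K) (x y : H F2 L) :
    hQ c (hL.T0 x y) = hK.T0 (c.h F2 x) (c.h F2 y) := by
  obtain ⟨z, hz, rfl⟩ := Hd.mk_surj _ x
  obtain ⟨w, hw, rfl⟩ := Hd.mk_surj _ y
  rw [IsSq.T0_mk, Corr.h_mk, Corr.h_mk, IsSq.T0_mk, hQ, Hd.map_mk, Hd.mk_eq_mk]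
  refine ⟨0, ?_⟩
  rw [Qmap_single, Corr.nm_cross, map_zero, sub_self]

theorem hQ_s (hL : SqD L) (hK : SqD K) (i : ℕ) {n : ℕ} {x : H F2 L} (hx : x ∈ H.gr F2 L n) :
    hQ c (hL.s i x) = hK.s i (c.h F2 x) := by
  obtain ⟨⟨z, hz⟩, hzg, rfl⟩ := hx
  have hz' : N.bd F2 L z = 0 := hz
  have hzg : z ∈ N.gr F2 L n := hzg
  have e1 : hL.s i (Hd.mk _ z hz') = _ := IsSq.s_mk hL i z hz'
  obtain ⟨w, hw⟩ := free_bdry_SS (inv2 c) (inv2_free c) n i ((c2 c).nm F2 z)
    ((c2 c).nm_mem_gr F2 hzg) (by rw [← Corr.nm_bd', hz', map_zero]) (c2_inv c z)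
  show hQ c (hL.s i (Hd.mk _ z hz')) = hK.s i (c.h F2 (Hd.mk _ z hz'))
  rw [IsSq.s_mk, Corr.h_mk, IsSq.s_mk, hQ, Hd.map_mk, Hd.mk_eq_mk]
  refine ⟨Qmap (N.map F2 (q2 c)) w, ?_⟩
  have hq := LinearMap.congr_fun (Qmap_QD (N.map F2 (q2 c)) (N.bd F2 (E2 c)) (N.map F2 (inv2 c).g)
    (N.bd F2 (K.prod K)) (N.map F2 (SS.swap K K))
    (fun a => LinearMap.congr_fun (N.map_bd (q2 c)) a) (fun a => by
      rw [EZ271.map_map, EZ271.map_map, q2_inv])) w
  simp only [LinearMap.comp_apply] at hq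
  rw [← hq, hw, Qmap_single, Qmap_single, prod_diag, single_add, add_sub_cancel_left]

/-- correspondences commute with the coefficients -/
theorem coef_hQ {hL : SqD L} {hK : SqD K}
    {cL : ℕ → Hd (QD (N.bd F2 (L.prod L)) (N.map F2 (SS.swap L L))) →ₗ[F2] H F2 L}
    {cK : ℕ → Hd (QD (N.bd F2 (K.prod K)) (N.map F2 (SS.swap K K))) →ₗ[F2] H F2 K}
    (hcL : IsCoef hL cL) (hcK : IsCoef hK cK) (J : ℕ) (hJ : 1 ≤ J)
    (ζ : Hd (QD (N.bd F2 (L.prod L)) (N.map F2 (SS.swap L L)))) :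
    cK J (hQ c ζ) = c.h F2 (cL J ζ) := by
  refine hcL.ind (P := fun ζ => cK J (hQ c ζ) = c.h F2 (cL J ζ)) (by simp) ?_ ?_ ?_ ζ
  · intro x y hx hy
    simp only [map_add, hx, hy]
  · intro m x
    rw [hQ_G c hL hK, hcL.c_G J hJ, hcK.c_G J hJ]
    split_ifs
    · rfl
    · rw [map_zero]
  · intro x y
    rw [hQ_T0 c hL hK, hcL.c_T0 J hJ, hcK.c_T0 J hJ, map_zero]

/-- **correspondences (transfers) commute with the homology Steenrod operations** -/
theorem coef_corr {hL : SqD L} {hK : SqD K}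
    {cL : ℕ → Hd (QD (N.bd F2 (L.prod L)) (N.map F2 (SS.swap L L))) →ₗ[F2] H F2 L}
    {cK : ℕ → Hd (QD (N.bd F2 (K.prod K)) (N.map F2 (SS.swap K K))) →ₗ[F2] H F2 K}
    (hcL : IsCoef hL cL) (hcK : IsCoef hK cK) (J : ℕ) (hJ : 1 ≤ J) (i : ℕ) {n : ℕ} {x : H F2 L}
    (hx : x ∈ H.gr F2 L n) : cK J (hK.s i (c.h F2 x)) = c.h F2 (cL J (hL.s i x)) := by
  rw [← hQ_s c hL hK i hx, coef_hQ c hcL hcK J hJ]

end main

end Crest.Agent.R204.TrV947
end

-- ▼ part R204/TrV2_947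
section

/-!
# Row 204, block G: `Rk` and `Sq` commute with correspondences (transfers) (helper947)
-/

set_option autoImplicit false

namespace Crest.Agent.R204.TrV947

open Finsupp Crest.Agent.R204 SS Corr328 Q888

variable {L K : SS} (c : Corr L K)

/-- correspondences commute with `R_k` -/
theorem Rk_corr (k : ℕ) {n : ℕ} {x : H F2 L} (hx : x ∈ H.gr F2 L n) :
    Sq252.Rk K k (c.h F2 x) = c.h F2 (Sq252.Rk L k x) := by
  have h := coef_corr c (isCoef L) (isCoef K) 1 le_rfl (k + 1) hx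
  rwa [cf_s_Rk K 1 le_rfl, cf_s_Rk L 1 le_rfl, if_pos (by omega), if_pos (by omega),
    Nat.add_sub_cancel] at h

/-- correspondences commute with `Sq^l_*` -/
theorem Sq_corr (l : ℕ) {n : ℕ} {x : H F2 L} (hx : x ∈ H.gr F2 L n) :
    Sq252.Sq K l (c.h F2 x) = c.h F2 (Sq252.Sq L l x) := by
  by_cases h : 2 * l ≤ n
  · rw [Sq252.Sq_apply hx h, Sq252.Sq_apply (c.h_mem_gr F2 hx) h, Rk_corr c _ hx]
  · rw [Sq252.Sq_unst hx (by omega), Sq252.Sq_unst (c.h_mem_gr F2 hx) (by omega), map_zero]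

end Crest.Agent.R204.TrV947
end

-- ▼ part R204/GAsm_947

/-!
# Row 204, block G: the final argument in the thread model (helper947)

`V = Sq^m_*` on degree `2 m`.  Input: `ẑ ∈ H_m(Fs U v; Z/4)`, `ĉ ∈ H_{2m}(Fs U 2v; F_2)`,
`Â_N ∈ H_{2m}(Fs U 2v; Z/2^N)` with `ρ Â_N = ẑ·ẑ + i ĉ` and `V ĉ = ρ ẑ · [v]`.
Output: `ρ ẑ = 0`.
-/

set_option autoImplicit false

namespace Crest.Agent.R204.GAsm947

open Crest.Agent.R204 SS Coef947 Corr328 Fs348 Prd328

/-- what is used about `V = Sq^m_*` on degree `2 m` -/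
structure VOp (m : ℕ) (V : ∀ K : SS, H F2 K →ₗ[F2] H F2 K) : Prop where
  nat : ∀ {K L : SS} (f : SS.Hom K L) (x : H F2 K), x ∈ H.gr F2 K (2 * m) →
    V L (H.map F2 f x) = H.map F2 f (V K x)
  corr : ∀ {L K : SS} (c : Corr L K) (x : H F2 L), x ∈ H.gr F2 L (2 * m) →
    V K (c.h F2 x) = c.h F2 (V L x)
  bock : ∀ (K : SS) (x : H F2 K), x ∈ H.gr F2 K (2 * m) → coH (inj 2 4 2 rfl) K x = 0 → V K x = 0
  sq : ∀ (U : Type) (w N : ℕ) (h : 2 ∣ 2 ^ N), w.factorial < 2 ^ N →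
    ∀ x ∈ H.gr (ZMod (2 ^ N)) (Fs U w) (2 * m), V _ (coH (rho (2 ^ N) 2 h) _ x) = 0

section

variable {U : Type} (e : U ⊕ U ↪ U) {m v : ℕ}

/-- step (3): the transfer of `ẑ·ẑ` -/
theorem tau_sq (hm : 0 < m) (z : H (ZMod 4) (Fs U v)) (hz : z ∈ H.gr (ZMod 4) (Fs U v) m) (w : ℕ)
    (hw : ∀ a < w, tau F2 U v a (coH (rho 4 2 (by norm_num)) _ z) = 0) :
    tau (ZMod 4) U (v + v) w (prd (ZMod 4) e rfl z z) = 0 := by
  rw [tau_prd]
  refine Finset.sum_eq_zero ?_
  rintro ⟨⟨a, b⟩, hab⟩ -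
  have hab' : a + b = w := Finset.HasAntidiagonal.mem_antidiagonal.1 hab
  show prd (ZMod 4) e _ (tau (ZMod 4) U v a z) (tau (ZMod 4) U v b z) = 0
  rcases Nat.eq_zero_or_pos a with rfl | ha
  · rw [tau_zero (ZMod 4) hm.ne' hz, map_zero, LinearMap.zero_apply]
  rcases Nat.eq_zero_or_pos b with rfl | hb
  · rw [tau_zero (ZMod 4) hm.ne' hz, map_zero]
  have key : ∀ a, a < w → ∃ x, coH (inj 2 4 2 rfl) _ x = tau (ZMod 4) U v a z := by
    intro a ha
    refine (coH_inj_exact 2 4 2 rfl (by norm_num) (by norm_num) _).1 ?_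
    rw [coH_tau]
    exact hw a ha
  obtain ⟨x, hx⟩ := key a (by omega)
  obtain ⟨y, hy⟩ := key b (by omega)
  rw [← hx, ← hy, inj_prd e 2 4 2 rfl (by norm_num)]
  have h0 : coH (rho 4 2 (by norm_num)) (Fs U b) (coH (inj 2 4 2 rfl) _ y) = 0 :=
    (coH_inj_exact 2 4 2 rfl (by norm_num) (by norm_num) _).2 ⟨y, rfl⟩
  rw [h0, map_zero, map_zero]

/-- **the final argument** -/
theorem core {V : ∀ K : SS, H F2 K →ₗ[F2] H F2 K} (hV : VOp m V) (hm : 0 < m)
    (B : (Fs U v).S 0) (z : H (ZMod 4) (Fs U v)) (hz : z ∈ H.gr (ZMod 4) (Fs U v) m)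
    (c : H F2 (Fs U (v + v))) (hc : c ∈ H.gr F2 (Fs U (v + v)) (2 * m))
    (A : ∀ N : ℕ, H (ZMod (2 ^ N)) (Fs U (v + v)))
    (hA : ∀ N, A N ∈ H.gr (ZMod (2 ^ N)) (Fs U (v + v)) (2 * m))
    (h4 : ∀ (N : ℕ) (h : 4 ∣ 2 ^ N), coH (rho (2 ^ N) 4 h) _ (A N) =
      prd (ZMod 4) e rfl z z + coH (inj 2 4 2 rfl) _ c)
    (hVc : V _ c = prd F2 e rfl (coH (rho 4 2 (by norm_num)) _ z) (vt F2 B)) :
    coH (rho 4 2 (by norm_num)) _ z = 0 := by
  by_contra hne
  set ξ := coH (rho 4 2 (by norm_num)) _ z with hξ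
  have hex : ∃ w, tau F2 U v w ξ ≠ 0 := ⟨v, by rw [tau_self]; exact hne⟩
  classical
  set w := Nat.find hex with hw
  have hw0 : tau F2 U v w ξ ≠ 0 := Nat.find_spec hex
  have hlt : ∀ a < w, tau F2 U v a ξ = 0 := fun a ha => not_not.1 (Nat.find_min hex ha)
  -- large exponent
  obtain ⟨N, hN⟩ : ∃ N : ℕ, w.factorial < 2 ^ N := ⟨_, Nat.lt_two_pow_self⟩
  have hN1 : 1 ≤ N := by
    rcases Nat.eq_zero_or_pos N with rfl | h
    · have := Nat.factorial_pos w
      simp at hN; omega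
    · exact h
  have hd2 : (2 : ℕ) ∣ 2 ^ N := dvd_pow_self 2 (by omega)
  have hd4 : (4 : ℕ) ∣ 2 ^ (N + 1) := by
    rw [pow_succ, show (4 : ℕ) = 2 * 2 from rfl]
    exact Nat.mul_dvd_mul hd2 (dvd_refl 2)
  have hd2' : (2 : ℕ) ∣ 2 ^ (N + 1) := dvd_pow_self 2 (by omega)
  set a := tau (ZMod (2 ^ (N + 1))) U (v + v) w (A (N + 1)) with ha
  have ha4 : coH (rho (2 ^ (N + 1)) 4 hd4) _ a = coH (inj 2 4 2 rfl) _ (tau F2 U (v + v) w c) := by
    rw [ha, coH_tau, h4, map_add, tau_sq e hm z hz w hlt, zero_add, coH_tau]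
  have ha2 : coH (rho (2 ^ (N + 1)) 2 hd2') _ a = 0 := by
    have h1 := coH_comp (rho (2 ^ (N + 1)) 4 hd4) (rho 4 2 (by norm_num)) (rho (2 ^ (N + 1)) 2 hd2')
      (fun r => (rho_rho _ _ _ hd4 (by norm_num) r).symm) a
    rw [← h1, ha4]
    exact (coH_inj_exact 2 4 2 rfl (by norm_num) (by norm_num) _).2 ⟨_, rfl⟩
  have hagr : a ∈ H.gr (ZMod (2 ^ (N + 1))) (Fs U w) (2 * m) :=
    (sbV U (v + v) w).h_mem_gr _ (hA _)
  obtain ⟨A', hA', hA''⟩ := coH_inj_exact_gr (2 ^ N) (2 ^ (N + 1)) 2 (pow_succ 2 N) hd2' (by norm_num)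
    hagr ha2
  -- `i (ρ A') = i (τ_w c)`
  have h5 : coH (inj 2 4 2 rfl) _ (coH (rho (2 ^ N) 2 hd2) _ A') =
      coH (inj 2 4 2 rfl) _ (tau F2 U (v + v) w c) := by
    rw [← ha4, ← hA'']
    have e1 := coH_comp (inj (2 ^ N) (2 ^ (N + 1)) 2 (pow_succ 2 N)) (rho (2 ^ (N + 1)) 4 hd4)
      ((inj 2 4 2 rfl).comp (rho (2 ^ N) 2 hd2))
      (fun r => (rho_inj_comm (2 ^ N) (2 ^ (N + 1)) 2 2 4 (pow_succ 2 N) rfl hd2 hd4 r).symm) A'
    have e2 := coH_comp (rho (2 ^ N) 2 hd2) (inj 2 4 2 rfl)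
      ((inj 2 4 2 rfl).comp (rho (2 ^ N) 2 hd2)) (fun r => rfl) A'
    rw [e1, e2]
  have h6 : V _ (coH (rho (2 ^ N) 2 hd2) _ A' - tau F2 U (v + v) w c) = 0 := by
    refine hV.bock _ _ (Submodule.sub_mem _ (coH_mem_gr _ hA') ((sbV U (v + v) w).h_mem_gr _ hc)) ?_
    rw [map_sub, h5, sub_self]
  rw [map_sub, hV.sq U w N hd2 hN A' hA', zero_sub, neg_eq_zero] at h6
  apply hw0
  have h7 : V _ (tau F2 U (v + v) w c) = tau F2 U (v + v) w (V _ c) := hV.corr (sbV U (v + v) w) c hc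
  rw [h7, hVc, tau_prd_vt F2 e rfl w ξ B hlt] at h6
  exact h6

end

end Crest.Agent.R204.GAsm947
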