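import Crest.Agent.R204.Orb_742

/-!
# Row 204, block C, leaf C9 part 1 (helper696): component grading of the homology

A component map of `K` is `c : Cm K π` (`c.app n x` invariant under the action).
`fib c g` = the part of `K` over `g`; `Hc R c g : Submodule R (H R K)` = image of `H R (fib c g)`
(injective, `hret` = retraction); `H R K` is the internal direct sum of the `Hc R c g`, compatibly with
degrees.  Everything natural: `map_mem_Hc` (image of a map with values in one component), `map_mem`,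
`cross_mem`, `nat_mem`.
-/

set_option autoImplicit false

noncomputable section

namespace Crest.Agent.R204.Comp696

open SS DK742

variable (R : Type) [CommRing R]

/-! ## generalities -/

theorem N_map_comp {K L M : SS} (g : Hom L M) (f : Hom K L) :
    N.map R (g.comp f) = N.map R g ∘ₗ N.map R f := by
  refine N_ext R fun n x => ?_
  rw [LinearMap.comp_apply, N.map_sx, N.map_sx, N.map_sx]; rfl


theorem H_map_comp {K L M : SS} (g : Hom L M) (f : Hom K L) (x : H R K) :
    H.map R (g.comp f) x = H.map R g (H.map R f x) := by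
  obtain ⟨z, hz, rfl⟩ := Hd.mk_surj _ x
  rw [H.map, H.map, H.map, Hd.map_mk, Hd.map_mk, Hd.map_mk, Hd.mk_eq_mk]
  refine ⟨0, ?_⟩
  rw [map_zero, eq_comm, sub_eq_zero, N_map_comp]; rfl


theorem Ngr_eq (K : SS) (n : ℕ) :
    N.gr R K n = Submodule.span R (Set.range fun x : K.S n => N.sx R x) := by
  unfold N.gr Ch.gr
  rw [Submodule.map_span]
  congr 1
  ext c
  simp only [Set.mem_image, Set.mem_ofPred_eq, Set.mem_range]
  constructor
  · rintro ⟨_, ⟨x, rfl⟩, rfl⟩; exact ⟨x, rfl⟩
  · rintro ⟨x, rfl⟩; exact ⟨_, ⟨x, rfl⟩, rfl⟩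

theorem sx_mem_gr {K : SS} {n : ℕ} (x : K.S n) : N.sx R x ∈ N.gr R K n := by
  rw [Ngr_eq]; exact Submodule.subset_span ⟨x, rfl⟩

theorem mem_Hgr_iff {K : SS} {n : ℕ} (x : H R K) :
    x ∈ H.gr R K n ↔ ∃ z, ∃ hz : N.bd R K z = 0, z ∈ N.gr R K n ∧ x = Hd.mk _ z hz := by
  unfold H.gr
  rw [Submodule.mem_map]
  constructor
  · rintro ⟨⟨z, hz⟩, h, rfl⟩
    exact ⟨z, hz, h, rfl⟩
  · rintro ⟨z, hz, h, rfl⟩
    exact ⟨⟨z, hz⟩, h, rfl⟩

/-! ## discrete simplicial sets, component maps -/

/-- a component map: a locally constant function on the simplices -/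
structure Cm (K : SS) (π : Type) where
  app : ∀ n : ℕ, K.S n → π
  nat : ∀ {m n : ℕ} (f : Op m n) (x : K.S n), app m (K.act f x) = app n x

/-- change of the index type -/
def Cm.post {K : SS} {π π' : Type} (c : Cm K π) (φ : π → π') : Cm K π' :=
  ⟨fun n x => φ (c.app n x), fun f x => congrArg φ (c.nat f x)⟩

/-- pull back along a map -/
def Cm.pre {K L : SS} {π : Type} (c : Cm L π) (f : Hom K L) : Cm K π :=
  ⟨fun n x => c.app n (f.app n x), fun a x => by rw [f.nat, c.nat]⟩

variable {K L M : SS} {π π' π'' : Type}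

/-- the part of `K` over the component `g` -/
def fib (c : Cm K π) (g : π) : SS where
  S n := {x : K.S n // c.app n x = g}
  act f x := ⟨K.act f x.1, (c.nat f x.1).trans x.2⟩
  act_id x := Subtype.ext (K.act_id x.1)
  act_comp f g x := Subtype.ext (K.act_comp f g x.1)

/-- a simplex of the component -/
def fmk (c : Cm K π) (g : π) {n : ℕ} (x : K.S n) (h : c.app n x = g) : (fib c g).S n := ⟨x, h⟩

theorem act_fmk (c : Cm K π) (g : π) {m n : ℕ} (f : Op m n) (x : K.S n) (h : c.app n x = g) :
    (fib c g).act f (fmk c g x h) = fmk c g (K.act f x) ((c.nat f x).trans h) := rfl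

/-- inclusion -/
def fibIncl (c : Cm K π) (g : π) : Hom (fib c g) K := ⟨fun _ x => x.1, fun _ _ => rfl⟩


theorem fib_prop (c : Cm K π) (g : π) {n : ℕ} (x : (fib c g).S n) :
    c.app n ((fibIncl c g).app n x) = g := x.2

theorem fmk_incl (c : Cm K π) (g : π) {n : ℕ} (x : (fib c g).S n) :
    fmk c g ((fibIncl c g).app n x) (fib_prop c g x) = x := rfl

/-- a map with values in one component factors -/
def fibLift (c : Cm K π) (g : π) (u : Hom L K) (hu : ∀ n x, c.app n (u.app n x) = g) :
    Hom L (fib c g) :=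
  ⟨fun n x => ⟨u.app n x, hu n x⟩, fun f x => Subtype.ext (u.nat f x)⟩

theorem incl_comp_lift (c : Cm K π) (g : π) (u : Hom L K)
    (hu : ∀ n x, c.app n (u.app n x) = g) : (fibIncl c g).comp (fibLift c g u hu) = u := rfl


open Classical in
/-- chain level retraction onto the component `g` -/
def nret (c : Cm K π) (g : π) : N R K →ₗ[R] N R (fib c g) :=
  nLift R (fun n x => if h : c.app n x = g then N.sx R (fmk c g x h) else 0)
    (by
      intro n j y
      by_cases h : c.app n y = g
      · have h' : c.app (n + 1) (K.act (Op.dgn j) y) = g := (c.nat _ y).trans h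
        rw [dif_pos h']
        exact N.sx_dgn (K := fib c g) j (fmk c g y h)
      · have h' : ¬ c.app (n + 1) (K.act (Op.dgn j) y) = g := fun e => h ((c.nat _ y).symm.trans e)
        rw [dif_neg h'])

theorem nret_sx_pos (c : Cm K π) (g : π) {n : ℕ} (x : K.S n) (h : c.app n x = g) :
    nret R c g (N.sx R x) = N.sx R (fmk c g x h) := by
  rw [nret, nLift_sx, dif_pos h]

theorem nret_sx_neg (c : Cm K π) (g : π) {n : ℕ} (x : K.S n) (h : c.app n x ≠ g) :
    nret R c g (N.sx R x) = 0 := by
  rw [nret, nLift_sx, dif_neg h]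

theorem nret_bd (c : Cm K π) (g : π) :
    nret R c g ∘ₗ N.bd R K = N.bd R (fib c g) ∘ₗ nret R c g := by
  refine N_ext R fun n x => ?_
  simp only [LinearMap.comp_apply]
  rcases n with _ | n
  · rw [bd_sx_zero]
    by_cases h : c.app 0 x = g
    · rw [nret_sx_pos R c g x h, bd_sx_zero, map_zero]
    · rw [nret_sx_neg R c g x h, map_zero, map_zero]
  · rw [bd_sx_succ, map_sum]
    by_cases h : c.app (n + 1) x = g
    · rw [nret_sx_pos R c g x h, bd_sx_succ]
      refine Finset.sum_congr rfl fun i _ => ?_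
      rw [map_smul, nret_sx_pos R c g _ ((c.nat _ x).trans h), act_fmk]
    · rw [nret_sx_neg R c g x h, map_zero]
      refine Finset.sum_eq_zero fun i _ => ?_
      rw [map_smul, nret_sx_neg R c g _ (fun e => h ((c.nat _ x).symm.trans e)), smul_zero]

theorem nret_incl (c : Cm K π) (g : π) (y : N R (fib c g)) :
    nret R c g (N.map R (fibIncl c g) y) = y := by
  have : nret R c g ∘ₗ N.map R (fibIncl c g) = LinearMap.id := by
    refine N_ext R fun n x => ?_
    rw [LinearMap.comp_apply, N.map_sx, nret_sx_pos R c g _ (fib_prop c g x), fmk_incl]; rfl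
  exact LinearMap.congr_fun this y

theorem nret_incl_ne (c : Cm K π) {g g' : π} (h : g ≠ g') (y : N R (fib c g)) :
    nret R c g' (N.map R (fibIncl c g) y) = 0 := by
  have : nret R c g' ∘ₗ N.map R (fibIncl c g) = 0 := by
    refine N_ext R fun n x => ?_
    rw [LinearMap.comp_apply, N.map_sx, nret_sx_neg R c g']
    · rfl
    · exact fun e => h (x.2.symm.trans e)
  exact LinearMap.congr_fun this y

theorem nret_mem_gr (c : Cm K π) (g : π) {n : ℕ} {y : N R K} (hy : y ∈ N.gr R K n) :
    nret R c g y ∈ N.gr R (fib c g) n := by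
  rw [Ngr_eq] at hy
  refine Submodule.span_induction (p := fun y _ => nret R c g y ∈ N.gr R (fib c g) n)
    ?_ ?_ ?_ ?_ hy
  · rintro _ ⟨x, rfl⟩
    dsimp only
    by_cases h : c.app n x = g
    · rw [nret_sx_pos R c g x h]; exact sx_mem_gr R (K := fib c g) _
    · rw [nret_sx_neg R c g x h]; exact Submodule.zero_mem _
  · rw [map_zero]; exact Submodule.zero_mem _
  · intro a b _ _ ha hb; rw [map_add]; exact Submodule.add_mem _ ha hb
  · intro r a _ ha; rw [map_smul]; exact Submodule.smul_mem _ _ ha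

theorem nmap_mem_gr (f : Hom K L) {n : ℕ} {y : N R K} (hy : y ∈ N.gr R K n) :
    N.map R f y ∈ N.gr R L n := by
  rw [Ngr_eq] at hy
  refine Submodule.span_induction (p := fun y _ => N.map R f y ∈ N.gr R L n)
    ?_ ?_ ?_ ?_ hy
  · rintro _ ⟨x, rfl⟩
    dsimp only
    rw [N.map_sx]; exact sx_mem_gr R _
  · rw [map_zero]; exact Submodule.zero_mem _
  · intro a b _ _ ha hb; rw [map_add]; exact Submodule.add_mem _ ha hb
  · intro r a _ ha; rw [map_smul]; exact Submodule.smul_mem _ _ ha

theorem hmap_mem_gr (f : Hom K L) {n : ℕ} {y : H R K} (hy : y ∈ H.gr R K n) :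
    H.map R f y ∈ H.gr R L n := by
  obtain ⟨z, hz, h, rfl⟩ := (mem_Hgr_iff R y).1 hy
  exact (mem_Hgr_iff R _).2 ⟨_, _, nmap_mem_gr R f h, rfl⟩


/-! ## homology of the components -/

/-- homology classes carried by the component `g` -/
def Hc (c : Cm K π) (g : π) : Submodule R (H R K) := LinearMap.range (H.map R (fibIncl c g))

/-- retraction on homology -/
def hret (c : Cm K π) (g : π) : H R K →ₗ[R] H R (fib c g) :=
  Hd.map (nret R c g) (nret_bd R c g)

theorem hret_incl (c : Cm K π) (g : π) (y : H R (fib c g)) :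
    hret R c g (H.map R (fibIncl c g) y) = y := by
  obtain ⟨z, hz, rfl⟩ := Hd.mk_surj _ y
  rw [H.map, Hd.map_mk, hret, Hd.map_mk, Hd.mk_eq_mk]
  exact ⟨0, by rw [map_zero, eq_comm, sub_eq_zero, nret_incl]⟩

theorem hret_incl_ne (c : Cm K π) {g g' : π} (h : g ≠ g') (y : H R (fib c g)) :
    hret R c g' (H.map R (fibIncl c g) y) = 0 := by
  obtain ⟨z, hz, rfl⟩ := Hd.mk_surj _ y
  rw [H.map, Hd.map_mk, hret, Hd.map_mk, Hd.mk_eq_zero]
  exact ⟨0, by rw [map_zero, nret_incl_ne R c h]⟩

theorem incl_injective (c : Cm K π) (g : π) :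
    Function.Injective (H.map R (fibIncl c g)) :=
  Function.LeftInverse.injective (hret_incl R c g)

theorem hret_mem_gr (c : Cm K π) (g : π) {n : ℕ} {y : H R K} (hy : y ∈ H.gr R K n) :
    hret R c g y ∈ H.gr R (fib c g) n := by
  obtain ⟨z, hz, h, rfl⟩ := (mem_Hgr_iff R y).1 hy
  exact (mem_Hgr_iff R _).2 ⟨_, _, nret_mem_gr R c g h, rfl⟩














/-! ## functoriality -/

/-- **main principle**: the image of a map with values in the component `g` -/
theorem map_mem_Hc (c : Cm K π) (g : π) (u : Hom L K)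
    (hu : ∀ n x, c.app n (u.app n x) = g) (y : H R L) : H.map R u y ∈ Hc R c g := by
  rw [← incl_comp_lift c g u hu, H_map_comp]
  exact ⟨_, rfl⟩


/-- a class of a cycle all of whose simplices lie in the component `g` -/
theorem mk_sx_mem (c : Cm K π) (g : π) {n : ℕ} (x : K.S n) (h : c.app n x = g)
    (hz : N.bd R K (N.sx R x) = 0) : Hd.mk _ (N.sx R x) hz ∈ Hc R c g := by
  have h1 : N.map R (fibIncl c g) (N.sx R (fmk c g x h)) = N.sx R x :=
    N.map_sx (fibIncl c g) (fmk c g x h)
  have hz' : N.bd R (fib c g) (N.sx R (fmk c g x h)) = 0 := by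
    have h2 := LinearMap.congr_fun (nret_bd R c g) (N.sx R x)
    simp only [LinearMap.comp_apply] at h2
    rw [hz, map_zero, nret_sx_pos R c g x h] at h2
    exact h2.symm
  refine ⟨Hd.mk _ _ hz', ?_⟩
  rw [H.map, Hd.map_mk, Hd.mk_eq_mk]
  exact ⟨0, by rw [map_zero, h1, sub_self]⟩

/-- natural operations preserve components (`F` any functor on simplicial sets with a component map,
e.g. `F K = K`, `BM × K`, `DM K`) -/
theorem nat_mem (F : SS → SS) (Fm : ∀ {A B : SS}, Hom A B → Hom (F A) (F B))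
    (Φ : ∀ A : SS, H R A → H R (F A))
    (nat : ∀ (A B : SS) (f : Hom A B) (x : H R A), Φ B (H.map R f x) = H.map R (Fm f) (Φ A x))
    (c : Cm K π) (g : π) (c' : Cm L π') (g' : π') (u : Hom (F K) L)
    (hu : ∀ n x, c'.app n (u.app n ((Fm (fibIncl c g)).app n x)) = g') {x : H R K}
    (hx : x ∈ Hc R c g) : H.map R u (Φ K x) ∈ Hc R c' g' := by
  obtain ⟨y, rfl⟩ := hx
  rw [nat, ← H_map_comp]
  exact map_mem_Hc R c' g' _ hu _

/-- natural endo-operations (Steenrod squares, …) preserve components -/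
theorem nat_mem_id (Φ : ∀ A : SS, H R A → H R A)
    (nat : ∀ (A B : SS) (f : Hom A B) (x : H R A), Φ B (H.map R f x) = H.map R f (Φ A x))
    (c : Cm K π) (g : π) {x : H R K} (hx : x ∈ Hc R c g) : Φ K x ∈ Hc R c g := by
  obtain ⟨y, rfl⟩ := hx
  rw [nat]
  exact ⟨_, rfl⟩

/-- natural external products followed by a map -/
theorem cross_mem (cr : ∀ A B : SS, H R A → H R B → H R (A.prod B))
    (nat : ∀ (A B A' B' : SS) (f : Hom A A') (f' : Hom B B') (x : H R A) (y : H R B),
      cr A' B' (H.map R f x) (H.map R f' y) = H.map R (prodMap f f') (cr A B x y))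
    (c : Cm K π) (g : π) (c' : Cm L π') (g' : π') (c'' : Cm M π'') (g'' : π'')
    (u : Hom (K.prod L) M)
    (hu : ∀ n (x : K.S n) (y : L.S n), c.app n x = g → c'.app n y = g' →
      c''.app n (u.app n (x, y)) = g'')
    {x : H R K} (hx : x ∈ Hc R c g) {y : H R L} (hy : y ∈ Hc R c' g') :
    H.map R u (cr K L x y) ∈ Hc R c'' g'' := by
  obtain ⟨x, rfl⟩ := hx
  obtain ⟨y, rfl⟩ := hy
  rw [nat, ← H_map_comp]
  exact map_mem_Hc R c'' g'' (u.comp (prodMap (fibIncl c g) (fibIncl c' g')))
    (fun n p => hu n _ _ (fib_prop c g p.1) (fib_prop c' g' p.2)) _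


end Crest.Agent.R204.Comp696
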