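import Crest.Agent.R204.EG_265
import Crest.Agent.R204.Gr_334

/-!
# Row 204 (helper761): the skeleton carries the homology below its dimension

`rho M K : N R K → N R (sk M K)` (linear, not a chain map), `skH M K : H R K → H R (sk M K)`, the
inverse of `H.map R (skIncl M K)` in degrees `< M` and zero in the other degrees.
-/

set_option autoImplicit false

noncomputable section

namespace Crest.Agent.R204.Sk761

open Crest.Agent.R204 SS Gr334 Finsupp

variable (R : Type) [CommRing R] (M : ℕ) (K : SS)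

open Classical in
/-- value of `rho` on a simplex -/
def rhoT (t : K.T) : N R (sk M K) :=
  if h : IsSk M K t.2 then N.sx (K := sk M K) (n := t.1) R ⟨t.2, h⟩ else 0

theorem rhoT_pos {n : ℕ} {x : K.S n} (h : IsSk M K x) :
    rhoT R M K ⟨n, x⟩ = N.sx (K := sk M K) (n := n) R ⟨x, h⟩ := by
  unfold rhoT
  rw [dif_pos h]

theorem rhoT_dgn {t : K.T} (ht : Ch.IsDgn K t) : rhoT R M K t = 0 := by
  obtain ⟨n, x⟩ := t
  rcases n with _ | n
  · exact ht.elim
  · obtain ⟨j, y, h⟩ := ht
    by_cases hx : IsSk M K x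
    · rw [rhoT_pos R M K hx]
      have e : (Op.dgn j).comp (Op.face j.castSucc) = (OrderHom.id : Op n n) :=
        Ch.face_dgn_eq _ _ (Or.inl rfl)
      have hy : y = K.act (Op.face j.castSucc) x := by
        rw [h, ← K.act_comp, e, K.act_id]
      have hsk : IsSk M K y := by rw [hy]; exact hx.act _
      have : (⟨x, hx⟩ : (sk M K).S (n + 1)) = (sk M K).act (Op.dgn j) ⟨y, hsk⟩ :=
        Subtype.ext h
      rw [this]
      exact N.sx_dgn j _
    · unfold rhoT
      rw [dif_neg hx]

/-- the retraction on chains (not a chain map in general) -/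
def rho : N R K →ₗ[R] N R (sk M K) :=
  Submodule.liftQ _ (Finsupp.linearCombination R (rhoT R M K)) (by
    unfold Ch.Dg
    rw [Submodule.span_le]
    rintro _ ⟨t, ht, rfl⟩
    show Finsupp.linearCombination R (rhoT R M K) (single t 1) = 0
    rw [Finsupp.linearCombination_single, rhoT_dgn R M K ht, smul_zero])

theorem rho_sx {n : ℕ} (x : K.S n) : rho R M K (N.sx R x) = rhoT R M K ⟨n, x⟩ := by
  show Finsupp.linearCombination R (rhoT R M K) (single ⟨n, x⟩ 1) = _
  rw [Finsupp.linearCombination_single, one_smul]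

/-- `rho` is a retraction -/
theorem rho_incl (c : N R (sk M K)) : rho R M K (N.map R (skIncl M K) c) = c := by
  have h : rho R M K ∘ₗ N.map R (skIncl M K) = LinearMap.id := by
    apply N_ext
    intro n x
    rw [LinearMap.comp_apply, N.map_sx, rho_sx, LinearMap.id_apply]
    exact rhoT_pos R M K (x := x.1) x.2
  exact LinearMap.congr_fun h c

theorem incl_inj {c c' : N R (sk M K)} (h : N.map R (skIncl M K) c = N.map R (skIncl M K) c') :
    c = c' := by
  rw [← rho_incl R M K c, h, rho_incl]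

variable {R M K}

/-- in dimensions `≤ M` the inclusion is surjective -/
theorem incl_rho {n : ℕ} (hn : n ≤ M) {c : N R K} (hc : c ∈ N.gr R K n) :
    N.map R (skIncl M K) (rho R M K c) = c := by
  refine gr_induction (p := fun c => N.map R (skIncl M K) (rho R M K c) = c) hc ?_ ?_ ?_ ?_
  · rw [map_zero, map_zero]
  · intro a b ha hb; rw [map_add, map_add, ha, hb]
  · intro r a ha; rw [map_smul, map_smul, ha]
  · intro x
    rw [rho_sx, rhoT_pos R M K (isSk_of_le hn x)]
    exact N.map_sx (skIncl M K) _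

theorem rho_mem_gr {n : ℕ} {c : N R K} (hc : c ∈ N.gr R K n) :
    rho R M K c ∈ N.gr R (sk M K) n := by
  refine gr_induction (p := fun c => rho R M K c ∈ N.gr R (sk M K) n) hc ?_ ?_ ?_ ?_
  · rw [map_zero]; exact zero_mem _
  · intro a b ha hb; rw [map_add]; exact add_mem ha hb
  · intro r a ha; rw [map_smul]; exact Submodule.smul_mem _ _ ha
  · intro x
    rw [rho_sx]
    unfold rhoT
    split_ifs with h
    · exact sx_mem_gr _
    · exact zero_mem _

/-- `rho` commutes with the boundary in dimensions `≤ M` -/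
theorem rho_bd {n : ℕ} (hn : n ≤ M) {c : N R K} (hc : c ∈ N.gr R K n) :
    rho R M K (N.bd R K c) = N.bd R _ (rho R M K c) := by
  apply incl_inj R M K
  have h1 := LinearMap.congr_fun (N.map_bd (R := R) (skIncl M K)) (rho R M K c)
  rw [LinearMap.comp_apply, LinearMap.comp_apply, incl_rho hn hc] at h1
  rw [h1]
  rcases n with _ | n
  · rw [bd_gr_zero hc, map_zero, map_zero]
  · exact incl_rho (by omega) (bd_mem_gr hc)

variable (R M K)

/-- truncation followed by `rho` -/
def sg : N R K →ₗ[R] N R (sk M K) := ∑ j ∈ Finset.range M, rho R M K ∘ₗ prN R K j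

variable {R M K}

theorem sg_apply (c : N R K) : sg R M K c = ∑ j ∈ Finset.range M, rho R M K (prN R K j c) := by
  unfold sg
  rw [LinearMap.sum_apply]
  rfl

theorem sg_of_mem {j : ℕ} (hj : j < M) {c : N R K} (hc : c ∈ N.gr R K j) :
    sg R M K c = rho R M K c := by
  rw [sg_apply, Finset.sum_eq_single j]
  · rw [prN_of_mem hc]
  · intro i _ hi; rw [prN_of_mem_ne hi.symm hc, map_zero]
  · intro h; exact absurd (Finset.mem_range.2 hj) h

theorem sg_of_ge {j : ℕ} (hj : M ≤ j) {c : N R K} (hc : c ∈ N.gr R K j) : sg R M K c = 0 := by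
  rw [sg_apply]
  refine Finset.sum_eq_zero fun i hi => ?_
  rw [prN_of_mem_ne (by have := Finset.mem_range.1 hi; omega) hc, map_zero]

/-- `sg` maps cycles to cycles -/
theorem sg_cyc {z : N R K} (hz : N.bd R K z = 0) : N.bd R _ (sg R M K z) = 0 := by
  rw [sg_apply, map_sum]
  refine Finset.sum_eq_zero fun j hj => ?_
  rw [← rho_bd (by have := Finset.mem_range.1 hj; omega) (prN_mem j z), bd_prN_eq_zero hz, map_zero]

/-- `sg` maps boundaries to boundaries -/
theorem sg_bd (w : N R K) : ∃ w', N.bd R _ w' = sg R M K (N.bd R K w) := by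
  refine ⟨∑ j ∈ Finset.range M, rho R M K (prN R K (j + 1) w), ?_⟩
  rw [map_sum, sg_apply]
  refine Finset.sum_congr rfl fun j hj => ?_
  have := Finset.mem_range.1 hj
  rw [← rho_bd (by omega) (prN_mem (j + 1) w), prN_bd]

variable (R M K)

/-- the homology of the skeleton below its dimension -/
def skH : H R K →ₗ[R] H R (sk M K) :=
  Submodule.mapQ _ _
    ((sg R M K).restrict (p := LinearMap.ker (N.bd R K)) (q := LinearMap.ker (N.bd R (sk M K)))
      (fun x hx => by
        rw [LinearMap.mem_ker] at hx ⊢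
        exact sg_cyc hx))
    (by
      rintro ⟨x, hx⟩ hx'
      simp only [Submodule.mem_comap, Submodule.subtype_apply, LinearMap.mem_range] at hx' ⊢
      obtain ⟨y, rfl⟩ := hx'
      obtain ⟨w', hw'⟩ := sg_bd (M := M) y
      exact ⟨w', hw'⟩)

variable {R M K}

theorem skH_mk (z : N R K) (hz : N.bd R K z = 0) :
    skH R M K (Hd.mk (N.bd R K) z hz) = Hd.mk (N.bd R _) (sg R M K z) (sg_cyc hz) := rfl

/-- degrees -/
theorem skH_mem {j : ℕ} {x : H R K} (hx : x ∈ H.gr R K j) : skH R M K x ∈ H.gr R (sk M K) j := by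
  obtain ⟨z, hz, hz', rfl⟩ := mem_H_gr.1 hx
  rw [skH_mk]
  refine mk_mem_gr ?_ _
  rcases lt_or_ge j M with h | h
  · rw [sg_of_mem h hz]; exact rho_mem_gr hz
  · rw [sg_of_ge h hz]; exact zero_mem _

/-- `skH` is a section of the inclusion in degrees `< M` -/
theorem incl_skH {j : ℕ} (hj : j < M) {x : H R K} (hx : x ∈ H.gr R K j) :
    H.map R (skIncl M K) (skH R M K x) = x := by
  obtain ⟨z, hz, hz', rfl⟩ := mem_H_gr.1 hx
  rw [skH_mk]
  have h1 : N.map R (skIncl M K) (sg R M K z) = z := by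
    rw [sg_of_mem hj hz, incl_rho hj.le hz]
  show Hd.mk (N.bd R K) (N.map R (skIncl M K) (sg R M K z)) _ = _
  exact Hd.mk_eq_mk.2 ⟨0, by rw [map_zero, h1, sub_self]⟩

/-- `skH` is a retraction of the inclusion in degrees `< M` -/
theorem skH_incl {j : ℕ} (hj : j < M) {x : H R (sk M K)} (hx : x ∈ H.gr R (sk M K) j) :
    skH R M K (H.map R (skIncl M K) x) = x := by
  obtain ⟨z, hz, hz', rfl⟩ := mem_H_gr.1 hx
  have h2 : N.map R (skIncl M K) z ∈ N.gr R K j := map_mem_gr _ hz
  show Hd.mk (N.bd R _) (sg R M K (N.map R (skIncl M K) z)) _ = _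
  refine Hd.mk_eq_mk.2 ⟨0, ?_⟩
  rw [map_zero, sg_of_mem hj h2, rho_incl, sub_self]


/-- uniqueness -/
theorem incl_injH {j : ℕ} (hj : j < M) {x y : H R (sk M K)} (hx : x ∈ H.gr R (sk M K) j)
    (hy : y ∈ H.gr R (sk M K) j)
    (h : H.map R (skIncl M K) x = H.map R (skIncl M K) y) : x = y := by
  rw [← skH_incl hj hx, h, skH_incl hj hy]

theorem Hmap_comp {L L' : SS} (g : Hom L L') (f : Hom K L) (x : H R K) :
    H.map R (g.comp f) x = H.map R g (H.map R f x) := by
  obtain ⟨z, hz, rfl⟩ := Hd.mk_surj _ x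
  have h : N.map R (g.comp f) = N.map R g ∘ₗ N.map R f := by
    apply N_ext
    intro n x
    simp only [LinearMap.comp_apply, N.map_sx]
    rfl
  refine Hd.mk_eq_mk.2 ⟨0, ?_⟩
  have h3 : N.map R (g.comp f) z = N.map R g (N.map R f z) := LinearMap.congr_fun h z
  show N.bd R L' 0 = N.map R (g.comp f) z - N.map R g (N.map R f z)
  rw [map_zero, h3, sub_self]

/-- naturality -/
theorem skH_map {L : SS} (f : Hom K L) {j : ℕ} (hj : j < M) {x : H R K} (hx : x ∈ H.gr R K j) :
    skH R M L (H.map R f x) = H.map R (skMap M f) (skH R M K x) := by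
  have h1 := skH_mem (M := M) hx
  have h2 : H.map R (skMap M f) (skH R M K x) ∈ H.gr R (sk M L) j := H_map_mem_gr _ h1
  rw [← skH_incl hj h2]
  congr 1
  conv_lhs => rw [← incl_skH hj hx]
  rw [← Hmap_comp, ← Hmap_comp]
  rfl

end Crest.Agent.R204.Sk761
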