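import Crest.Agent.R204.GAsm_947
import Crest.Agent.R204.Sk_761
import Crest.Agent.R204.Comp_696
import Crest.Agent.R204.ThAlg_265
import Crest.Agent.R204.HtpInv_334
import Crest.Agent.R204.C5_265

/-!
# Row 204, block G (helper103): transport from `Y = Sing X_0` to the thread model

`KD` = the comparison maps `f v : sk_M (Fs U v) → Y` with their properties (multiplicative in
homology over any ring, lands in the component `g^v`, bijective mod 2 in a range).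
`KD.final`: block G for `Y`: `A_N`, `z`, `c` in the homology of `Y` with `A_2 = z z + i c`,
`V c = ρ z` imply `ρ z = 0`.
-/

set_option autoImplicit false

noncomputable section

namespace Crest.Agent.R204.KTr103

open Crest.Agent.R204 SS Coef947 Fs348 Prd328 Comp696 ThAlg265 Gr334
open Crest.Agent.R204.Sk761 (skH skH_mem incl_skH skH_incl incl_injH)

/-! ## products of maps -/

section star

variable {X Y W : SS} (μ : Hom (Y.prod Y) Y)

/-- pointwise product -/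
def st (f g : Hom X Y) : Hom X Y := μ.comp (pair f g)


theorem pair_eq (f g : Hom X Y) : pair f g = (prodMap f g).comp (diag X) := rfl

theorem SH_pair {f f' g g' : Hom X Y} (hf : SH f f') (hg : SH g g') : SH (pair f g) (pair f' g') := by
  rw [pair_eq, pair_eq]
  exact (SH.prodMap hf hg).pre _

theorem st_congr {f f' g g' : Hom X Y} (hf : SH f f') (hg : SH g g') :
    SH (st μ f g) (st μ f' g') := (SH_pair hf hg).post μ

variable {μ}

theorem st_assoc (hA : SH (μ.comp (prodMap μ (Hom.id Y)))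
      (μ.comp (pair ((fst Y Y).comp (fst _ _)) (μ.comp (pair ((snd Y Y).comp (fst _ _)) (snd _ _))))))
    (f g h : Hom X Y) : SH (st μ (st μ f g) h) (st μ f (st μ g h)) :=
  hA.pre (pair (pair f g) h)

theorem st_comm (hC : SH μ (μ.comp (SS.swap Y Y))) (f g : Hom X Y) : SH (st μ f g) (st μ g f) :=
  hC.pre (pair f g)

/-- middle interchange -/
theorem st_mid (hA : SH (μ.comp (prodMap μ (Hom.id Y)))
      (μ.comp (pair ((fst Y Y).comp (fst _ _)) (μ.comp (pair ((snd Y Y).comp (fst _ _)) (snd _ _))))))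
    (hC : SH μ (μ.comp (SS.swap Y Y))) (f g h k : Hom X Y) :
    SH (st μ (st μ f g) (st μ h k)) (st μ (st μ f h) (st μ g k)) := by
  have h1 := st_assoc hA f g (st μ h k)
  have h2 := st_congr μ (SH.refl f) (st_assoc hA g h k).symm
  have h3 := st_congr μ (SH.refl f) (st_congr μ (st_comm hC g h) (SH.refl k))
  have h4 := st_congr μ (SH.refl f) (st_assoc hA h g k)
  have h5 := (st_assoc hA f h (st μ g k)).symm
  exact (((h1.trans h2).trans h3).trans h4).trans h5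

/-- right translation by a vertex -/
def tr (μ : Hom (Y.prod Y) Y) (p : Y.S 0) : Hom Y Y := st μ (Hom.id Y) (constHom Y Y p)

theorem constHom_st (p q : Y.S 0) : st μ (constHom X Y p) (constHom X Y q) =
    constHom X Y (μ.app 0 (p, q)) := by
  refine Hom.ext (funext fun n => funext fun x => ?_)
  show μ.app n (Y.act _ p, Y.act _ q) = Y.act _ (μ.app 0 (p, q))
  rw [← μ.nat]; rfl


theorem tr_tr (hA : SH (μ.comp (prodMap μ (Hom.id Y)))
      (μ.comp (pair ((fst Y Y).comp (fst _ _)) (μ.comp (pair ((snd Y Y).comp (fst _ _)) (snd _ _))))))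
    (p q : Y.S 0) : SH ((tr μ q).comp (tr μ p)) (tr μ (μ.app 0 (p, q))) := by
  have h1 : (tr μ q).comp (tr μ p) = st μ (st μ (Hom.id Y) (constHom Y Y p)) (constHom Y Y q) := rfl
  rw [h1, tr, ← constHom_st]
  exact st_assoc hA _ _ _

theorem mu_tr (hA : SH (μ.comp (prodMap μ (Hom.id Y)))
      (μ.comp (pair ((fst Y Y).comp (fst _ _)) (μ.comp (pair ((snd Y Y).comp (fst _ _)) (snd _ _))))))
    (hC : SH μ (μ.comp (SS.swap Y Y))) (p : Y.S 0) :
    SH (μ.comp (prodMap (tr μ p) (tr μ p))) ((tr μ (μ.app 0 (p, p))).comp μ) := by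
  have h1 : μ.comp (prodMap (tr μ p) (tr μ p)) =
      st μ (st μ (fst Y Y) (constHom _ Y p)) (st μ (snd Y Y) (constHom _ Y p)) := rfl
  have h2 : (tr μ (μ.app 0 (p, p))).comp μ =
      st μ (st μ (fst Y Y) (snd Y Y)) (st μ (constHom _ Y p) (constHom _ Y p)) := by
    rw [constHom_st]; rfl
  rw [h1, h2]
  exact st_mid hA hC _ _ _ _

end star

/-! ## the comparison data -/

/-- comparison data -/
structure KD (U : Type) (e : U ⊕ U ↪ U) (M D : ℕ) (Y : SS) (π : Type) [Monoid π]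
    (μ : Hom (Y.prod Y) Y) (c : Cm Y π) (g : π) where
  f : ∀ v : ℕ, Hom (sk M (Fs U v)) Y
  comp : ∀ (v n : ℕ) (b : (sk M (Fs U v)).S n), c.app n ((f v).app n b) = g ^ v
  lt : D < M
  assoc : SH (μ.comp (prodMap μ (Hom.id Y)))
      (μ.comp (pair ((fst Y Y).comp (fst _ _)) (μ.comp (pair ((snd Y Y).comp (fst _ _)) (snd _ _)))))
  comm : SH μ (μ.comp (SS.swap Y Y))
  mul : ∀ (R : Type) [CommRing R] (a b s t : ℕ) (x : H R (Fs U a)) (y : H R (Fs U b)), s + t < M →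
    x ∈ H.gr R (Fs U a) s → y ∈ H.gr R (Fs U b) t →
    H.map R (f (a + b)) (skH R M _ (prd R e rfl x y)) =
      H.map R μ (crossH R (H.map R (f a) (skH R M _ x)) (H.map R (f b) (skH R M _ y)))
  inj : ∀ (v j : ℕ), j ≤ D → ∀ x ∈ H.gr F2 (Fs U v) j, H.map F2 (f v) (skH F2 M _ x) = 0 → x = 0
  surj : ∀ (v j : ℕ), j ≤ D → 2 * j ≤ v → ∀ y ∈ H.gr F2 Y j, y ∈ Hc F2 c (g ^ v) →
    ∃ x ∈ H.gr F2 (Fs U v) j, H.map F2 (f v) (skH F2 M _ x) = y

namespace KD

variable {U : Type} {e : U ⊕ U ↪ U} {M D : ℕ} {Y : SS} {π : Type} [Monoid π]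
  {μ : Hom (Y.prod Y) Y} {c : Cm Y π} {g : π} (K : KD U e M D Y π μ c g)

/-- the comparison map in homology -/
def F (R : Type) [CommRing R] (v : ℕ) : H R (Fs U v) →ₗ[R] H R Y :=
  H.map R (K.f v) ∘ₗ skH R M (Fs U v)

theorem F_apply (R : Type) [CommRing R] (v : ℕ) (x : H R (Fs U v)) :
    K.F R v x = H.map R (K.f v) (skH R M (Fs U v) x) := rfl


theorem F_mul (R : Type) [CommRing R] {a b s t : ℕ} {x : H R (Fs U a)} {y : H R (Fs U b)}
    (h : s + t < M) (hx : x ∈ H.gr R (Fs U a) s) (hy : y ∈ H.gr R (Fs U b) t) :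
    K.F R (a + b) (prd R e rfl x y) = H.map R μ (crossH R (K.F R a x) (K.F R b y)) :=
  K.mul R a b s t x y h hx hy

/-- the lift to the component -/
def f' (v : ℕ) : Hom (sk M (Fs U v)) (fib c (g ^ v)) := fibLift c (g ^ v) (K.f v) (K.comp v)

theorem map_f' (R : Type) [CommRing R] (v : ℕ) (x : H R (sk M (Fs U v))) :
    H.map R (fibIncl c (g ^ v)) (H.map R (K.f' v) x) = H.map R (K.f v) x := by
  rw [Prd328.map_comp]; rfl

theorem pow_aux (v j k : ℕ) (hj : j + 1 ≤ D) (hv : 2 * (j + 1) ≤ v) :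
    (∀ x ∈ H.gr (ZMod (2 ^ (k + 1))) (sk M (Fs U v)) j,
      H.map (ZMod (2 ^ (k + 1))) (K.f' v) x = 0 → x = 0) ∧
    (∀ y ∈ H.gr (ZMod (2 ^ (k + 1))) (fib c (g ^ v)) (j + 1),
      ∃ x ∈ H.gr (ZMod (2 ^ (k + 1))) (sk M (Fs U v)) (j + 1),
        H.map (ZMod (2 ^ (k + 1))) (K.f' v) x = y) := by
  have hlt := K.lt
  refine inj_surj_pow (K.f' v) j ?_ ?_ k
  · intro x hx h0
    have h1 : H.map F2 (K.f v) x = 0 := by rw [← K.map_f', h0, map_zero]
    have h2 : skH F2 M (Fs U v) (H.map F2 (skIncl M _) x) = x := skH_incl (by omega) hx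
    have h3 : H.map F2 (skIncl M (Fs U v)) x ∈ H.gr F2 (Fs U v) j := H_map_mem_gr _ hx
    have h4 := K.inj v j (by omega) _ h3 (by rw [h2]; exact h1)
    have h5 : H.map F2 (skIncl M (Fs U v)) x = H.map F2 (skIncl M (Fs U v)) 0 := by
      rw [h4, map_zero]
    exact incl_injH (by omega) hx (Submodule.zero_mem _) h5
  · intro y hy
    have h1 : H.map F2 (fibIncl c (g ^ v)) y ∈ H.gr F2 Y (j + 1) := H_map_mem_gr _ hy
    obtain ⟨x, hx, hxy⟩ := K.surj v (j + 1) hj hv _ h1 ⟨y, rfl⟩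
    refine ⟨skH F2 M _ x, skH_mem hx, ?_⟩
    apply Comp696.incl_injective F2 c (g ^ v)
    rw [K.map_f', hxy]

theorem inj_pow {n k : ℕ} (hn : n = 2 ^ (k + 1)) (v j : ℕ) (hj : j + 1 ≤ D) (hv : 2 * (j + 1) ≤ v) :
    ∀ x ∈ H.gr (ZMod n) (Fs U v) j, K.F (ZMod n) v x = 0 → x = 0 := by
  subst hn
  intro x hx h0
  have hlt := K.lt
  have h1 : H.map (ZMod (2 ^ (k + 1))) (K.f' v) (skH _ M _ x) = 0 := by
    apply Comp696.incl_injective _ c (g ^ v)
    rw [K.map_f', map_zero]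
    exact h0
  have h2 := (K.pow_aux v j k hj hv).1 _ (skH_mem hx) h1
  rw [← incl_skH (show j < M by omega) hx, h2, map_zero]

theorem surj_pow {n k : ℕ} (hn : n = 2 ^ (k + 1)) (v j : ℕ) (hj : j + 1 ≤ D) (hv : 2 * (j + 1) ≤ v) :
    ∀ y ∈ H.gr (ZMod n) Y (j + 1), y ∈ Hc (ZMod n) c (g ^ v) →
      ∃ x ∈ H.gr (ZMod n) (Fs U v) (j + 1), K.F (ZMod n) v x = y := by
  subst hn
  intro y hy hy'
  have hlt := K.lt
  obtain ⟨y', rfl⟩ := hy'
  have h1 : y' ∈ H.gr (ZMod (2 ^ (k + 1))) (fib c (g ^ v)) (j + 1) := by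
    have := hret_mem_gr (ZMod (2 ^ (k + 1))) c (g ^ v) hy
    rwa [hret_incl] at this
  obtain ⟨x, hx, rfl⟩ := (K.pow_aux v j k hj hv).2 _ h1
  refine ⟨H.map _ (skIncl M _) x, H_map_mem_gr _ hx, ?_⟩
  rw [F_apply, skH_incl (by omega) hx, K.map_f']

/-- the class of a vertex -/
theorem F_vt (R : Type) [CommRing R] (v : ℕ) (B : (Fs U v).S 0) (hB : IsSk M (Fs U v) B) :
    K.F R v (vt R B) = vt R ((K.f v).app 0 ⟨B, hB⟩) := by
  have hM : 0 < M := lt_of_le_of_lt (Nat.zero_le _) K.lt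
  have h1 : H.map R (skIncl M (Fs U v)) (vt R (⟨B, hB⟩ : (sk M (Fs U v)).S 0)) = vt R B :=
    map_vt R _ _
  rw [F_apply, ← h1, skH_incl hM (vt_mem_gr R _), map_vt]

theorem F_co {R S : Type} [CommRing R] [CommRing S] (h : R →+ S) (v : ℕ) {j : ℕ} (hj : j < M)
    {x : H R (Fs U v)} (hx : x ∈ H.gr R _ j) :
    coH h Y (K.F R v x) = K.F S v (coH h (Fs U v) x) := by
  rw [F_apply, F_apply, coH_map]
  congr 1
  apply incl_injH hj (coH_mem_gr h (skH_mem hx)) (skH_mem (coH_mem_gr h hx))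
  rw [← coH_map, incl_skH hj hx, incl_skH hj (coH_mem_gr h hx)]

/-- right translation on homology -/
theorem map_tr (R : Type) [CommRing R] (p : Y.S 0) (x : H R Y) :
    H.map R (tr μ p) x = H.map R μ (crossH R x (vt R p)) := by
  rw [crossH_vt, Prd328.map_comp]; rfl

theorem tr_comp (hmu : ∀ (n : ℕ) (x y : Y.S n), c.app n (μ.app n (x, y)) = c.app n x * c.app n y)
    (R : Type) [CommRing R] {a b : π} (p : Y.S 0) (hp : c.app 0 p = b) {x : H R Y}
    (hx : x ∈ Hc R c a) : H.map R (tr μ p) x ∈ Hc R c (a * b) := by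
  obtain ⟨x, rfl⟩ := hx
  rw [Prd328.map_comp]
  refine map_mem_Hc R c (a * b) _ (fun n y => ?_) _
  show c.app n (μ.app n (y.1, Y.act _ p)) = a * b
  rw [hmu, c.nat, y.2, hp]

include K in
/-- **block G for `Y`** -/
theorem final {V : ∀ K : SS, H F2 K →ₗ[F2] H F2 K} {m : ℕ} (hV : GAsm947.VOp m V)
    (hVgr : ∀ (L : SS) (x : H F2 L), x ∈ H.gr F2 L (2 * m) → V L x ∈ H.gr F2 L m)
    (hm : 0 < m) (hD : 2 * m + 1 ≤ D) {v : ℕ} (hv : 2 * (2 * m + 1) ≤ v) (B : (Fs U v).S 0)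
    (hmu : ∀ (n : ℕ) (x y : Y.S n), c.app n (μ.app n (x, y)) = c.app n x * c.app n y)
    (hinj : ∀ (p : Y.S 0) (x : H F2 Y), c.app 0 p = g ^ v → H.map F2 (tr μ p) x = 0 → x = 0)
    (z0 : H (ZMod 4) Y) (hz0 : z0 ∈ H.gr (ZMod 4) Y m) (hz0' : z0 ∈ Hc (ZMod 4) c 1)
    (c0 : H F2 Y) (hc0 : c0 ∈ H.gr F2 Y (2 * m)) (hc0' : c0 ∈ Hc F2 c 1)
    (A0 : ∀ N : ℕ, H (ZMod (2 ^ N)) Y) (hA0 : ∀ N, A0 N ∈ H.gr (ZMod (2 ^ N)) Y (2 * m))
    (hA0' : ∀ N, A0 N ∈ Hc (ZMod (2 ^ N)) c 1)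
    (h4 : ∀ (N : ℕ) (h : 4 ∣ 2 ^ N), coH (rho (2 ^ N) 4 h) _ (A0 N) =
      H.map (ZMod 4) μ (crossH (ZMod 4) z0 z0) + coH (Coef947.inj 2 4 2 rfl) _ c0)
    (hVc : V _ c0 = coH (rho 4 2 (by norm_num)) _ z0) :
    coH (rho 4 2 (by norm_num)) _ z0 = 0 := by
  have hlt := K.lt
  have hB : IsSk M (Fs U v) B := SS.isSk_of_le (Nat.zero_le M) B
  set p : Y.S 0 := (K.f v).app 0 ⟨B, hB⟩ with hp
  have hpc : c.app 0 p = g ^ v := K.comp v 0 _
  set q : Y.S 0 := μ.app 0 (p, p) with hq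
  have hqc : c.app 0 q = g ^ (v + v) := by rw [hq, hmu, hpc, pow_add]
  -- the translated classes
  have hz1 : H.map (ZMod 4) (tr μ p) z0 ∈ Hc (ZMod 4) c (g ^ v) := by
    have := tr_comp hmu (ZMod 4) p hpc hz0'
    rwa [one_mul] at this
  obtain ⟨m', rfl⟩ : ∃ m', m = m' + 1 := ⟨m - 1, by omega⟩
  obtain ⟨z, hz, hFz⟩ := K.surj_pow (show 4 = 2 ^ (1 + 1) from rfl) v m' (by omega) (by omega) _
    (H_map_mem_gr _ hz0) hz1
  have hc1 : H.map F2 (tr μ q) c0 ∈ Hc F2 c (g ^ (v + v)) := by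
    have := tr_comp hmu F2 q hqc hc0'
    rwa [one_mul] at this
  obtain ⟨c2, hc2, hFc⟩ := K.surj (v + v) (2 * (m' + 1)) (by omega) (by omega) _
    (H_map_mem_gr _ hc0) hc1
  have hA1 : ∀ N, H.map (ZMod (2 ^ N)) (tr μ q) (A0 N) ∈ Hc (ZMod (2 ^ N)) c (g ^ (v + v)) := by
    intro N
    have := tr_comp hmu (ZMod (2 ^ N)) q hqc (hA0' N)
    rwa [one_mul] at this
  have hAex : ∀ N : ℕ, ∃ A ∈ H.gr (ZMod (2 ^ N)) (Fs U (v + v)) (2 * (m' + 1)),
      (N ≠ 0 → K.F (ZMod (2 ^ N)) (v + v) A = H.map (ZMod (2 ^ N)) (tr μ q) (A0 N)) := by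
    intro N
    rcases N with _ | N
    · exact ⟨0, Submodule.zero_mem _, fun h => (h rfl).elim⟩
    · have hA2 := hA0 (N + 1)
      rw [show 2 * (m' + 1) = (2 * m' + 1) + 1 by ring] at hA2 ⊢
      obtain ⟨A, hA, hFA⟩ := K.surj_pow (n := 2 ^ (N + 1)) rfl (v + v) (2 * m' + 1) (by omega)
        (by omega) _ (H_map_mem_gr _ hA2) (hA1 (N + 1))
      exact ⟨A, hA, fun _ => hFA⟩
  choose A hA hFA using hAex
  -- products of translated classes
  have hmul : ∀ (R : Type) [CommRing R] (a b : H R Y),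
      H.map R μ (crossH R (H.map R (tr μ p) a) (H.map R (tr μ p) b)) =
        H.map R (tr μ q) (H.map R μ (crossH R a b)) := by
    intro R _ a b
    have h1 := LinearMap.congr_fun ((mu_tr K.assoc K.comm p).map_eq HtpInv334.homotopyInv R)
      (crossH R a b)
    rw [← map_crossH, Prd328.map_comp, Prd328.map_comp]
    exact h1
  have htr2 : ∀ (R : Type) [CommRing R] (a : H R Y),
      H.map R (tr μ p) (H.map R (tr μ p) a) = H.map R (tr μ q) a := by
    intro R _ a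
    have h1 := LinearMap.congr_fun ((tr_tr K.assoc p p).map_eq HtpInv334.homotopyInv R) a
    rw [Prd328.map_comp]
    exact h1
  have hmain := GAsm947.core e hV hm B z hz c2 hc2 A hA ?_ ?_
  · -- conclusion
    have h1 : K.F F2 v (coH (rho 4 2 (by norm_num)) _ z) =
        H.map F2 (tr μ p) (coH (rho 4 2 (by norm_num)) _ z0) := by
      rw [← K.F_co _ v (by omega) hz, hFz, coH_map]
    rw [hmain, map_zero] at h1
    exact hinj p _ hpc h1.symm
  · -- the relation over `Z/4`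
    intro N h
    have hN : N ≠ 0 := by
      rintro rfl
      have := Nat.le_of_dvd one_pos h
      omega
    have hgr : coH (rho (2 ^ N) 4 h) _ (A N) -
        (prd (ZMod 4) e rfl z z + coH (Coef947.inj 2 4 2 rfl) _ c2) ∈
        H.gr (ZMod 4) (Fs U (v + v)) (2 * (m' + 1)) := by
      refine Submodule.sub_mem _ (coH_mem_gr _ (hA N)) (Submodule.add_mem _ ?_ (coH_mem_gr _ hc2))
      have := prd_mem_gr (ZMod 4) e (rfl : v + v = v + v) hz hz
      rwa [show m' + 1 + (m' + 1) = 2 * (m' + 1) by ring] at this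
    rw [← sub_eq_zero]
    refine K.inj_pow (show 4 = 2 ^ (1 + 1) from rfl) (v + v) (2 * (m' + 1)) (by omega) (by omega) _
      hgr ?_
    rw [map_sub, map_add, ← K.F_co _ (v + v) (by omega) (hA N), hFA N hN,
      K.F_mul (ZMod 4) (by omega) hz hz, ← K.F_co _ (v + v) (by omega) hc2]
    have e1 : K.F F2 (v + v) c2 = H.map F2 (tr μ q) c0 := hFc
    rw [e1, hFz, hmul, coH_map, coH_map, h4 N h, map_add, sub_self]
  · -- the operation `V`
    have hgr2 : V _ c2 - prd F2 e rfl (coH (rho 4 2 (by norm_num)) _ z) (vt F2 B) ∈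
        H.gr F2 (Fs U (v + v)) (m' + 1) := by
      refine Submodule.sub_mem _ (hVgr _ _ hc2) ?_
      have := prd_mem_gr F2 e (rfl : v + v = v + v) (coH_mem_gr (rho 4 2 (by norm_num)) hz)
        (vt_mem_gr F2 B)
      rwa [add_zero] at this
    rw [← sub_eq_zero]
    refine K.inj (v + v) (m' + 1) (by omega) _ hgr2 ?_
    have e0 : ∀ y, H.map F2 (K.f (v + v)) (skH F2 M _ y) = K.F F2 (v + v) y := fun _ => rfl
    rw [e0, map_sub, K.F_mul F2 (s := m' + 1) (t := 0) (by omega) (coH_mem_gr _ hz) (vt_mem_gr F2 B),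
      K.F_vt F2 v B hB, ← map_tr, ← K.F_co _ v (by omega) hz, hFz, ← coH_map, htr2]
    -- `F (V c) = V (F c)`
    have e2 : K.F F2 (v + v) (V _ c2) = V _ (K.F F2 (v + v) c2) := by
      have h5 : V _ (skH F2 M (Fs U (v + v)) c2) = skH F2 M _ (V _ c2) := by
        apply incl_injH (show m' + 1 < M by omega) (hVgr _ _ (skH_mem hc2)) (skH_mem (hVgr _ _ hc2))
        rw [← hV.nat _ _ (skH_mem hc2), incl_skH (by omega) hc2, incl_skH (by omega) (hVgr _ _ hc2)]
      rw [F_apply, F_apply, ← h5, hV.nat _ _ (skH_mem hc2)]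
    have e1 : K.F F2 (v + v) c2 = H.map F2 (tr μ q) c0 := hFc
    rw [e2, e1, hV.nat _ _ hc0, hVc, coH_map, sub_self]

end KD

/-! ## lifting squares to `Z/4` -/




end Crest.Agent.R204.KTr103
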