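import Crest.Agent.R204.EZCross_271

-- ▼ part R204/Cup_718
section

/-!
# Row 204, leaf G4 (helper718): cup and cup-1 products on normalised cochains

`Co R K := N R K →ₗ[R] R`; coboundary = precomposition with `N.bd` (no sign).
* `cup` : any ring, Leibniz rule `cup_bd`;
* `cup1` : Steenrod's `∪₁` with the mod 2 sign-free formula; coboundary formula `cup1_bd`.
-/

set_option autoImplicit false

namespace Crest.Agent.R204.Pont718

open EZ271 Finsupp Finset

theorem mem_ad {n : ℕ} {p : ℕ × ℕ} : p ∈ Finset.HasAntidiagonal.antidiagonal n ↔ p.1 + p.2 = n :=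
  Finset.HasAntidiagonal.mem_antidiagonal

/-- segment `[s, s+l]` of `[n]` (only used when `s + l ≤ n`) -/
def seg (n s l : ℕ) : Op l n :=
  ⟨fun a => ⟨min (s + a) n, by omega⟩, fun a b h => by
    have : (a : ℕ) ≤ b := h
    simp only [Fin.mk_le_mk]
    omega⟩

@[simp] theorem seg_val (n s l : ℕ) (a : Fin (l + 1)) : ((seg n s l a : Fin (n + 1)) : ℕ) = min (s + a) n := rfl

/-- the face `[0..i] ∪ [i+l..i+l+r]` of `[n]`, `n = i + l + r` -/
def gap (n i l r : ℕ) : Op (r + i + 1) n :=
  ⟨fun a => ⟨min (if (a : ℕ) ≤ i then (a : ℕ) else a - 1 + l) n, by omega⟩, fun a b h => by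
    have : (a : ℕ) ≤ b := h
    simp only [Fin.mk_le_mk]
    split_ifs <;> omega⟩

@[simp] theorem gap_val (n i l r : ℕ) (a : Fin (r + i + 1 + 1)) :
    ((gap n i l r a : Fin (n + 1)) : ℕ) = min (if (a : ℕ) ≤ i then (a : ℕ) else a - 1 + l) n := rfl

theorem seg_zero_self (n : ℕ) : seg n 0 n = OrderHom.id := by
  refine OrderHom.ext _ _ (funext fun a => Fin.ext ?_)
  simp only [seg_val, OrderHom.id_coe, id]
  omega

theorem seg_succ_front (n i : ℕ) : seg (n + 1) 0 (i + 1) = Op.star (seg n 0 i) := by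
  refine OrderHom.ext _ _ (funext fun a => ?_)
  induction a using Fin.cases with
  | zero => exact Fin.ext (by simp)
  | succ a =>
    refine Fin.ext ?_
    rw [Op.star_succ]
    simp only [seg_val, Fin.val_succ]
    omega

theorem seg_succ_back (n i l : ℕ) : seg (n + 1) (i + 1) l = (Op.face 0).comp (seg n i l) := by
  refine OrderHom.ext _ _ (funext fun a => ?_)
  refine Fin.ext ?_
  simp only [OrderHom.comp_coe, Function.comp_apply, face_zero_apply, Fin.val_succ, seg_val]
  omega

theorem seg_zero_zero (n : ℕ) : seg n 0 0 = ⟨fun _ => 0, fun _ _ _ => le_rfl⟩ := by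
  refine OrderHom.ext _ _ (funext fun a => ?_)
  refine Fin.ext ?_
  simp

theorem gap_succ_zero (n l r : ℕ) :
    gap (n + 1) 0 (l + 1) r = Op.cons ((Op.face 0).comp (seg n l r)) := by
  refine OrderHom.ext _ _ (funext fun a => ?_)
  induction a using Fin.cases with
  | zero => exact Fin.ext (by simp)
  | succ a =>
    refine Fin.ext ?_
    rw [Op.cons_succ]
    simp only [OrderHom.comp_coe, Function.comp_apply, face_zero_apply, gap_val, Fin.val_succ, seg_val]
    rw [if_neg (by omega)]
    omega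

theorem gap_succ_succ (n i l r : ℕ) : gap (n + 1) (i + 1) l r = Op.star (gap n i l r) := by
  refine OrderHom.ext _ _ (funext fun a => ?_)
  induction a using Fin.cases with
  | zero => exact Fin.ext (by simp)
  | succ a =>
    refine Fin.ext ?_
    rw [Op.star_succ]
    simp only [gap_val, Fin.val_succ]
    split_ifs <;> omega

variable {R : Type} [CommRing R] {K L : SS}

/-- simplices `γ^* y` with `γ` constant on a step vanish in normalised chains -/
theorem sx_act_eq_zero {m n : ℕ} (γ : Op m n) (y : K.S n) (a : ℕ) (ha : a + 1 ≤ m)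
    (h : (γ ⟨a, by omega⟩ : ℕ) = γ ⟨a + 1, by omega⟩) : N.sx R (K.act γ y) = 0 := by
  rcases m with _ | m
  · omega
  have e : γ = (γ.comp (Op.face ⟨a + 1, by omega⟩)).comp (Op.dgn ⟨a, by omega⟩) := by
    refine OrderHom.ext _ _ (funext fun b => ?_)
    simp only [OrderHom.comp_coe, Function.comp_apply]
    by_cases hb : (b : ℕ) = a + 1
    · have h1 : (Op.face (⟨a + 1, by omega⟩ : Fin (m + 2)) (Op.dgn (⟨a, by omega⟩ : Fin (m + 1)) b)) =
          (⟨a, by omega⟩ : Fin (m + 2)) := by
        refine Fin.ext ?_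
        rw [Ch.face_val, Ch.dgn_val]
        simp only
        split_ifs <;> omega
      rw [h1]
      have h2 : b = ⟨a + 1, by omega⟩ := Fin.ext hb
      exact (congrArg γ h2).trans (Fin.ext h).symm
    · have h1 : (Op.face (⟨a + 1, by omega⟩ : Fin (m + 2)) (Op.dgn (⟨a, by omega⟩ : Fin (m + 1)) b)) = b := by
        refine Fin.ext ?_
        rw [Ch.face_val, Ch.dgn_val]
        simp only
        split_ifs <;> omega
      rw [h1]
  rw [e, K.act_comp, N.sx_dgn]

/-- normalised cochains (all degrees together) -/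
abbrev Co (R : Type) [CommRing R] (K : SS) : Type := N R K →ₗ[R] R

theorem act_dgn_seg {n s l : ℕ} (j : Fin (n + 1)) (y : K.S n) (h1 : s ≤ j) (h2 : (j : ℕ) + 1 ≤ s + l) :
    N.sx R (K.act (seg (n + 1) s l) (K.act (Op.dgn j) y)) = 0 := by
  rw [← K.act_comp]
  refine sx_act_eq_zero _ _ (j - s) (by omega) ?_
  simp only [OrderHom.comp_coe, Function.comp_apply, Ch.dgn_val, seg_val]
  split_ifs <;> omega

theorem act_dgn_gap_left {n i l r : ℕ} (j : Fin (n + 1)) (y : K.S n) (hn : i + l + r = n + 1)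
    (h1 : (j : ℕ) + 1 ≤ i) :
    N.sx R (K.act (gap (n + 1) i l r) (K.act (Op.dgn j) y)) = 0 := by
  rw [← K.act_comp]
  refine sx_act_eq_zero _ _ j (by omega) ?_
  simp only [OrderHom.comp_coe, Function.comp_apply, Ch.dgn_val, gap_val]
  split_ifs <;> omega

theorem act_dgn_gap_right {n i l r : ℕ} (j : Fin (n + 1)) (y : K.S n) (hn : i + l + r = n + 1)
    (h1 : i + l ≤ (j : ℕ)) :
    N.sx R (K.act (gap (n + 1) i l r) (K.act (Op.dgn j) y)) = 0 := by
  rw [← K.act_comp]
  refine sx_act_eq_zero _ _ (j - l + 1) (by omega) ?_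
  simp only [OrderHom.comp_coe, Function.comp_apply, Ch.dgn_val, gap_val]
  split_ifs <;> omega

/-- cup product: front face ⊗ back face -/
noncomputable def cup (a b : Co R K) : Co R K :=
  liftN (fun n x => ∑ p ∈ antidiagonal n,
      a (N.sx R (K.act (seg n 0 p.1) x)) * b (N.sx R (K.act (seg n p.1 p.2) x)))
    (fun n j y => by
      refine Finset.sum_eq_zero fun p hp => ?_
      rw [mem_ad] at hp
      by_cases h : (j : ℕ) + 1 ≤ p.1
      · rw [act_dgn_seg j y (by omega) (by omega), map_zero, zero_mul]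
      · rw [act_dgn_seg (s := p.1) (l := p.2) j y (by omega) (by omega), map_zero, mul_zero])

theorem cup_sx (a b : Co R K) {n : ℕ} (x : K.S n) : cup a b (N.sx R x) = ∑ p ∈ antidiagonal n,
      a (N.sx R (K.act (seg n 0 p.1) x)) * b (N.sx R (K.act (seg n p.1 p.2) x)) := by
  simp [cup]

/-- cup-one product (sign-free formula) -/
noncomputable def cup1 (a b : Co R K) : Co R K :=
  liftN (fun n x => ∑ p ∈ antidiagonal n, ∑ q ∈ antidiagonal p.2,
      a (N.sx R (K.act (gap n p.1 q.1 q.2) x)) * b (N.sx R (K.act (seg n p.1 q.1) x)))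
    (fun n j y => by
      refine Finset.sum_eq_zero fun p hp => Finset.sum_eq_zero fun q hq => ?_
      rw [mem_ad] at hp hq
      by_cases h : (j : ℕ) + 1 ≤ p.1
      · rw [act_dgn_gap_left j y (by omega) h, map_zero, zero_mul]
      · by_cases h' : p.1 + q.1 ≤ (j : ℕ)
        · rw [act_dgn_gap_right j y (by omega) h', map_zero, zero_mul]
        · rw [act_dgn_seg (s := p.1) (l := q.1) j y (by omega) (by omega), map_zero, mul_zero])

theorem cup1_sx (a b : Co R K) {n : ℕ} (x : K.S n) : cup1 a b (N.sx R x) =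
    ∑ p ∈ antidiagonal n, ∑ q ∈ antidiagonal p.2,
      a (N.sx R (K.act (gap n p.1 q.1 q.2) x)) * b (N.sx R (K.act (seg n p.1 q.1) x)) := by
  simp [cup1]

/-! ## bilinearity, naturality -/

theorem cup_add_left (a a' b : Co R K) : cup (a + a') b = cup a b + cup a' b := by
  refine hom_ext fun n x => ?_
  simp only [cup_sx, LinearMap.add_apply, add_mul, Finset.sum_add_distrib]

theorem cup_add_right (a b b' : Co R K) : cup a (b + b') = cup a b + cup a b' := by
  refine hom_ext fun n x => ?_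
  simp only [cup_sx, LinearMap.add_apply, mul_add, Finset.sum_add_distrib]

theorem cup_smul_left (r : R) (a b : Co R K) : cup (r • a) b = r • cup a b := by
  refine hom_ext fun n x => ?_
  simp only [cup_sx, LinearMap.smul_apply, smul_eq_mul, Finset.mul_sum]
  exact Finset.sum_congr rfl fun _ _ => by ring

theorem cup_smul_right (r : R) (a b : Co R K) : cup a (r • b) = r • cup a b := by
  refine hom_ext fun n x => ?_
  simp only [cup_sx, LinearMap.smul_apply, smul_eq_mul, Finset.mul_sum]
  exact Finset.sum_congr rfl fun _ _ => by ring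

theorem cup_zero_left (b : Co R K) : cup 0 b = 0 := by
  have := cup_smul_left (0 : R) 0 b; simpa using this

theorem cup_zero_right (a : Co R K) : cup a 0 = 0 := by
  have := cup_smul_right (0 : R) a 0; simpa using this

theorem cup1_add_left (a a' b : Co R K) : cup1 (a + a') b = cup1 a b + cup1 a' b := by
  refine hom_ext fun n x => ?_
  simp only [cup1_sx, LinearMap.add_apply, add_mul, Finset.sum_add_distrib]

theorem cup1_add_right (a b b' : Co R K) : cup1 a (b + b') = cup1 a b + cup1 a b' := by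
  refine hom_ext fun n x => ?_
  simp only [cup1_sx, LinearMap.add_apply, mul_add, Finset.sum_add_distrib]

theorem cup1_smul_left (r : R) (a b : Co R K) : cup1 (r • a) b = r • cup1 a b := by
  refine hom_ext fun n x => ?_
  simp only [cup1_sx, LinearMap.smul_apply, smul_eq_mul, Finset.mul_sum]
  exact Finset.sum_congr rfl fun _ _ => Finset.sum_congr rfl fun _ _ => by ring

theorem cup1_smul_right (r : R) (a b : Co R K) : cup1 a (r • b) = r • cup1 a b := by
  refine hom_ext fun n x => ?_
  simp only [cup1_sx, LinearMap.smul_apply, smul_eq_mul, Finset.mul_sum]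
  exact Finset.sum_congr rfl fun _ _ => Finset.sum_congr rfl fun _ _ => by ring

theorem cup1_zero_left (b : Co R K) : cup1 0 b = 0 := by
  have := cup1_smul_left (0 : R) 0 b; simpa using this

theorem cup1_zero_right (a : Co R K) : cup1 a 0 = 0 := by
  have := cup1_smul_right (0 : R) a 0; simpa using this

/-- `cup` as a bilinear map -/
noncomputable def cupL : Co R K →ₗ[R] Co R K →ₗ[R] Co R K :=
  LinearMap.mk₂ R cup cup_add_left cup_smul_left cup_add_right cup_smul_right

/-- `cup1` as a bilinear map -/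
noncomputable def cup1L : Co R K →ₗ[R] Co R K →ₗ[R] Co R K :=
  LinearMap.mk₂ R cup1 cup1_add_left cup1_smul_left cup1_add_right cup1_smul_right

theorem cupL_apply (a b : Co R K) : cupL a b = cup a b := rfl
theorem cup1L_apply (a b : Co R K) : cup1L a b = cup1 a b := rfl

theorem cup_sum_left {ι : Type*} (s : Finset ι) (f : ι → Co R K) (b : Co R K) :
    cup (∑ i ∈ s, f i) b = ∑ i ∈ s, cup (f i) b := by
  rw [← cupL_apply, map_sum, LinearMap.sum_apply]; rfl

theorem cup_sum_right {ι : Type*} (s : Finset ι) (f : ι → Co R K) (a : Co R K) :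
    cup a (∑ i ∈ s, f i) = ∑ i ∈ s, cup a (f i) := by
  rw [← cupL_apply, map_sum]; rfl

theorem cup1_sum_left {ι : Type*} (s : Finset ι) (f : ι → Co R K) (b : Co R K) :
    cup1 (∑ i ∈ s, f i) b = ∑ i ∈ s, cup1 (f i) b := by
  rw [← cup1L_apply, map_sum, LinearMap.sum_apply]; rfl

theorem cup1_sum_right {ι : Type*} (s : Finset ι) (f : ι → Co R K) (a : Co R K) :
    cup1 a (∑ i ∈ s, f i) = ∑ i ∈ s, cup1 a (f i) := by
  rw [← cup1L_apply, map_sum]; rfl

theorem cup_map (f : SS.Hom K L) (a b : Co R L) :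
    cup a b ∘ₗ N.map R f = cup (a ∘ₗ N.map R f) (b ∘ₗ N.map R f) := by
  refine hom_ext fun n x => ?_
  simp only [LinearMap.comp_apply, N.map_sx, cup_sx, f.nat]

theorem cup1_map (f : SS.Hom K L) (a b : Co R L) :
    cup1 a b ∘ₗ N.map R f = cup1 (a ∘ₗ N.map R f) (b ∘ₗ N.map R f) := by
  refine hom_ext fun n x => ?_
  simp only [LinearMap.comp_apply, N.map_sx, cup1_sx, f.nat]

/-! ## sign operator and units -/


theorem cup_neg_left (a b : Co R K) : cup (-a) b = - cup a b := by
  rw [← cupL_apply, map_neg]; rfl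


theorem cup_aug_right (a : Co R K) : cup a (aug R) = a := by
  refine hom_ext fun n x => ?_
  rw [cup_sx, Finset.sum_eq_single (n, 0)]
  · rw [show ((n, 0) : ℕ × ℕ).1 = n from rfl, seg_zero_self, K.act_id, aug_sx_zero, mul_one]
  · rintro ⟨i, l⟩ hp hne
    rw [mem_ad] at hp
    rcases l with _ | l
    · exact absurd (by simp only at hp; simp [← hp]) hne
    · simp
  · intro h; exact absurd (by simp) h

theorem cup_aug_left (a : Co R K) : cup (aug R) a = a := by
  refine hom_ext fun n x => ?_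
  rw [cup_sx, Finset.sum_eq_single (0, n)]
  · rw [show ((0, n) : ℕ × ℕ).2 = n from rfl, show ((0, n) : ℕ × ℕ).1 = 0 from rfl, seg_zero_self,
      K.act_id, aug_sx_zero, one_mul]
  · rintro ⟨i, l⟩ hp hne
    rw [mem_ad] at hp
    rcases i with _ | i
    · exact absurd (by simp only at hp; simp [← hp]) hne
    · simp
  · intro h; exact absurd (by simp) h

theorem cup1_aug_left (b : Co R K) : cup1 (aug R) b = 0 := by
  refine hom_ext fun n x => ?_
  rw [cup1_sx, LinearMap.zero_apply]
  refine Finset.sum_eq_zero fun p _ => Finset.sum_eq_zero fun q _ => ?_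
  rw [aug_sx_succ, zero_mul]

theorem sx_gap_zero {n i r : ℕ} (x : K.S n) (h : i + r ≤ n) : N.sx R (K.act (gap n i 0 r) x) = 0 := by
  refine sx_act_eq_zero _ _ i (by omega) ?_
  simp only [gap_val]
  split_ifs <;> omega

theorem cup1_aug_right (a : Co R K) : cup1 a (aug R) = 0 := by
  refine hom_ext fun n x => ?_
  rw [cup1_sx, LinearMap.zero_apply]
  refine Finset.sum_eq_zero fun p hp => Finset.sum_eq_zero fun q hq => ?_
  rw [mem_ad] at hp hq
  obtain ⟨l, r⟩ := q
  rcases l with _ | l
  · simp only at hq ⊢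
    rw [sx_gap_zero x (by omega), map_zero, zero_mul]
  · rw [aug_sx_succ, mul_zero]

/-! ## cone recursion -/

section cone

variable (A : Cone K) (B : Cone L)

/-- value at the cone point and the cochain `x ↦ a (cone x)` -/
noncomputable abbrev hk (a : Co R K) : Co R K := a ∘ₗ A.c R

theorem act_seg_zero_zero {n : ℕ} (x : K.S n) : K.act (seg (n + 1) 0 0) (A.k x) = A.bot :=
  A.h_vert _ _ (by refine Fin.ext ?_; simp)

theorem act_seg_front {n : ℕ} (i : ℕ) (x : K.S n) :
    K.act (seg (n + 1) 0 (i + 1)) (A.k x) = A.k (K.act (seg n 0 i) x) := by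
  rw [seg_succ_front, A.h_star]

theorem act_seg_back {n : ℕ} (i l : ℕ) (x : K.S n) :
    K.act (seg (n + 1) (i + 1) l) (A.k x) = K.act (seg n i l) x := by
  rw [seg_succ_back, K.act_comp, A.h_face]

theorem act_gap_zero {n : ℕ} (l r : ℕ) (x : K.S n) :
    K.act (gap (n + 1) 0 (l + 1) r) (A.k x) = A.k (K.act (seg n l r) x) := by
  rw [gap_succ_zero, A.h_cons, K.act_comp, A.h_face]

theorem act_gap_succ {n : ℕ} (i l r : ℕ) (x : K.S n) :
    K.act (gap (n + 1) (i + 1) l r) (A.k x) = A.k (K.act (gap n i l r) x) := by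
  rw [gap_succ_succ, A.h_star]

theorem cup_cone (a b : Co R K) (w : N R K) :
    cup a b (A.c R w) = a (N.sx R A.bot) * b (A.c R w) + cup (hk A a) b w := by
  have : cup a b ∘ₗ A.c R = (a (N.sx R A.bot)) • (b ∘ₗ A.c R) + cup (hk A a) b := by
    refine hom_ext fun n x => ?_
    simp only [LinearMap.comp_apply, LinearMap.add_apply, LinearMap.smul_apply, smul_eq_mul,
      Cone.c_sx]
    rw [cup_sx, cup_sx, Finset.Nat.sum_antidiagonal_succ, act_seg_zero_zero]
    simp only [act_seg_front, act_seg_back]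
    rw [seg_zero_self, K.act_id]
    simp only [hk, LinearMap.comp_apply, Cone.c_sx]
  exact LinearMap.congr_fun this w

theorem cup_bot (a b : Co R K) (v : K.S 0) :
    cup a b (N.sx R v) = a (N.sx R v) * b (N.sx R v) := by
  rw [cup_sx]
  simp [seg_zero_self, K.act_id]

theorem cup1_bot (a b : Co R K) (v : K.S 0) : cup1 a b (N.sx R v) = 0 := by
  rw [cup1_sx]
  refine Finset.sum_eq_zero fun p hp => Finset.sum_eq_zero fun q hq => ?_
  rw [mem_ad] at hp hq
  obtain ⟨i, p2⟩ := p
  obtain ⟨l, r⟩ := q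
  obtain rfl : l = 0 := by simp only at hp hq; omega
  rw [sx_gap_zero v (by simp only at hp hq ⊢; omega), map_zero, zero_mul]

theorem cup1_cone (a b : Co R K) (w : N R K) :
    cup1 a b (A.c R w) = cup1 (hk A a) b w + cup (hk A b) (hk A a) w := by
  have : cup1 a b ∘ₗ A.c R = cup1 (hk A a) b + cup (hk A b) (hk A a) := by
    refine hom_ext fun n x => ?_
    simp only [LinearMap.comp_apply, LinearMap.add_apply, Cone.c_sx]
    rw [cup1_sx, cup1_sx, cup_sx, Finset.Nat.sum_antidiagonal_succ]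
    simp only
    rw [Finset.Nat.sum_antidiagonal_succ]
    simp only
    rw [sx_gap_zero (A.k x) (by omega), map_zero, zero_mul, zero_add, add_comm]
    congr 1
    · refine Finset.sum_congr rfl fun p _ => Finset.sum_congr rfl fun q _ => ?_
      rw [act_gap_succ, act_seg_back]
      simp only [hk, LinearMap.comp_apply, Cone.c_sx]
    · refine Finset.sum_congr rfl fun p _ => ?_
      rw [act_gap_zero, act_seg_front]
      simp only [hk, LinearMap.comp_apply, Cone.c_sx]
      ring
  exact LinearMap.congr_fun this w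

theorem hk_hk (a : Co R K) : hk A (hk A a) = 0 := by
  refine LinearMap.ext fun w => ?_
  simp only [hk, LinearMap.comp_apply, Cone.c_c, map_zero, LinearMap.zero_apply]

theorem hk_bot (a : Co R K) : hk A a (N.sx R A.bot) = 0 := by
  simp only [hk, LinearMap.comp_apply, Cone.c_bot, map_zero]

theorem hk_bd (a : Co R K) :
    hk A (a ∘ₗ N.bd R K) = a - hk A a ∘ₗ N.bd R K - a (N.sx R A.bot) • aug R := by
  refine LinearMap.ext fun w => ?_
  simp only [hk, LinearMap.comp_apply, Cone.bd_c, map_sub, map_smul, LinearMap.sub_apply,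
    LinearMap.smul_apply, smul_eq_mul]
  ring

theorem hk_sg (a : Co R K) : hk A (a ∘ₗ sg R) = - (hk A a ∘ₗ sg R) := by
  refine LinearMap.ext fun w => ?_
  simp only [hk, LinearMap.comp_apply, LinearMap.neg_apply, Cone.sg_c, map_neg]

end cone

/-- every natural identity may be checked on cones: reduction to `ι_{n+1} = cone (face 0)` -/
theorem iota_succ (n : ℕ) : N.sx R (K := SS.std (n + 1)) (OrderHom.id : Op (n + 1) (n + 1)) =
    (Cone.std (n + 1)).c R (N.sx R (K := SS.std (n + 1)) (Op.face 0 : Op n (n + 1))) := by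
  rw [Cone.c_sx]
  congr 1
  refine OrderHom.ext _ _ (funext fun a => ?_)
  induction a using Fin.cases with
  | zero => rfl
  | succ a => rfl

theorem iota_zero : N.sx R (K := SS.std 0) (OrderHom.id : Op 0 0) = N.sx R (Cone.std 0).bot := by
  congr 1
  refine OrderHom.ext _ _ (funext fun a => Fin.ext (by omega))

/-- Leibniz rule (over any ring) -/
theorem cup_bd (a b : Co R K) : cup a b ∘ₗ N.bd R K =
    cup (a ∘ₗ N.bd R K) b + cup (a ∘ₗ sg R) (b ∘ₗ N.bd R K) := by
  refine hom_ext fun n => ?_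
  have key : ∀ (n : ℕ) (K : SS) (a b : Co R K) (x : K.S n),
      cup a b (N.bd R K (N.sx R x)) =
        cup (a ∘ₗ N.bd R K) b (N.sx R x) + cup (a ∘ₗ sg R) (b ∘ₗ N.bd R K) (N.sx R x) := by
    intro n
    induction n with
    | zero =>
      intro K a b x
      rw [bd_sx_zero, map_zero, cup_bot, cup_bot]
      simp [bd_sx_zero]
    | succ n ih =>
      intro K a b x
      suffices H : ∀ (A : Cone (SS.std (n + 1))) (x : (SS.std (n + 1)).S n)
          (a b : Co R (SS.std (n + 1))),
          cup a b (N.bd R _ (A.c R (N.sx R x))) =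
            cup (a ∘ₗ N.bd R _) b (A.c R (N.sx R x)) +
              cup (a ∘ₗ sg R) (b ∘ₗ N.bd R _) (A.c R (N.sx R x)) by
        have h := H (Cone.std (n + 1)) (Op.face 0 : Op n (n + 1)) (a ∘ₗ N.map R (K.yo x))
          (b ∘ₗ N.map R (K.yo x))
        rw [← iota_succ] at h
        have e1 : (a ∘ₗ N.map R (K.yo x)) ∘ₗ N.bd R _ = (a ∘ₗ N.bd R K) ∘ₗ N.map R (K.yo x) :=
          LinearMap.ext fun w => by simp [map_bd']
        have e2 : (b ∘ₗ N.map R (K.yo x)) ∘ₗ N.bd R _ = (b ∘ₗ N.bd R K) ∘ₗ N.map R (K.yo x) :=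
          LinearMap.ext fun w => by simp [map_bd']
        have e3 : (a ∘ₗ N.map R (K.yo x)) ∘ₗ sg R = (a ∘ₗ sg R) ∘ₗ N.map R (K.yo x) :=
          LinearMap.ext fun w => by simp [map_sg]
        rw [e1, e2, e3, ← cup_map, ← cup_map, ← cup_map] at h
        simp only [LinearMap.comp_apply, map_bd', N.map_sx, yo_iota] at h
        exact h
      intro A x a b
      have IH := ih _ (hk A a) b x
      rw [Cone.bd_c, map_sub, map_sub, cup_cone, IH, cup_cone, cup_cone, hk_bd, hk_sg, map_smul,
        cup_bot]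
      simp only [sub_eq_add_neg, cup_add_left, LinearMap.add_apply, LinearMap.comp_apply,
        bd_sx_zero, sg_sx, pow_zero, one_smul, map_zero, zero_mul, zero_add, Cone.bd_c]
      rw [cup_neg_left, cup_neg_left, cup_neg_left, cup_smul_left, cup_aug_left]
      simp only [LinearMap.neg_apply, LinearMap.smul_apply, smul_eq_mul, map_add, map_neg, map_smul]
      ring
  exact fun x => key n K a b x

end Crest.Agent.R204.Pont718
end

-- ▼ part R204/CupX_718
section

/-!
# Row 204, leaf G4 (helper718): coboundary of `∪₁` (mod 2), cross products of cochains and the strict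
Cartan formulas for `∪` (any ring) and `∪₁` (mod 2) on Eilenberg-Zilber cross products.
-/

set_option autoImplicit false

namespace Crest.Agent.R204.Pont718

open EZ271 Finsupp Finset

/-! ## transport of cochains along the Yoneda map -/

section yo

variable {R : Type} [CommRing R] {K L : SS}

theorem comp_map_bd (f : SS.Hom K L) (a : Co R L) :
    (a ∘ₗ N.map R f) ∘ₗ N.bd R _ = (a ∘ₗ N.bd R L) ∘ₗ N.map R f :=
  LinearMap.ext fun w => by simp [map_bd']

theorem comp_map_sg (f : SS.Hom K L) (a : Co R L) :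
    (a ∘ₗ N.map R f) ∘ₗ sg R = (a ∘ₗ sg R) ∘ₗ N.map R f :=
  LinearMap.ext fun w => by simp [map_sg]

end yo

section mod2

variable {K L : SS}

theorem two_f2 (a : F2) : a + a = 0 := CharTwo.add_self_eq_zero a

theorem f2_add_self {M : Type*} [AddCommGroup M] [Module F2 M] (a : M) : a + a = 0 := by
  have : (2 : F2) • a = 0 := by
    have : (2 : F2) = 0 := rfl
    rw [this, zero_smul]
  rwa [two_smul] at this

theorem f2_neg {M : Type*} [AddCommGroup M] [Module F2 M] (a : M) : -a = a :=
  neg_eq_of_add_eq_zero_left (f2_add_self a)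

theorem f2_sub {M : Type*} [AddCommGroup M] [Module F2 M] (a b : M) : a - b = a + b := by
  rw [sub_eq_add_neg, f2_neg]

theorem f2_sg (z : N F2 K) : sg F2 z = z := by
  have : sg F2 (K := K) = LinearMap.id := by
    refine hom_ext fun n x => ?_
    rw [sg_sx]
    have : (-1 : F2) = 1 := rfl
    rw [this, one_pow, one_smul]; rfl
  rw [this]; rfl

theorem f2_comp_sg (a : Co F2 K) : a ∘ₗ sg F2 = a :=
  LinearMap.ext fun w => by simp [f2_sg]

/-- Leibniz rule mod 2 -/
theorem cup_bd2 (a b : Co F2 K) : cup a b ∘ₗ N.bd F2 K =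
    cup (a ∘ₗ N.bd F2 K) b + cup a (b ∘ₗ N.bd F2 K) := by
  rw [cup_bd, f2_comp_sg]

theorem hk_bd2 (A : Cone K) (a : Co F2 K) :
    hk A (a ∘ₗ N.bd F2 K) = a + hk A a ∘ₗ N.bd F2 K + a (N.sx F2 A.bot) • aug F2 := by
  rw [hk_bd, f2_sub, f2_sub]

/-- coboundary formula for `∪₁` mod 2 -/
theorem cup1_bd (a b : Co F2 K) : cup1 a b ∘ₗ N.bd F2 K =
    cup a b + cup b a + cup1 (a ∘ₗ N.bd F2 K) b + cup1 a (b ∘ₗ N.bd F2 K) := by
  have key : ∀ (n : ℕ) (K : SS) (a b : Co F2 K) (x : K.S n),
      cup1 a b (N.bd F2 K (N.sx F2 x)) =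
        cup a b (N.sx F2 x) + cup b a (N.sx F2 x) + cup1 (a ∘ₗ N.bd F2 K) b (N.sx F2 x) +
          cup1 a (b ∘ₗ N.bd F2 K) (N.sx F2 x) := by
    intro n
    induction n with
    | zero =>
      intro K a b x
      rw [bd_sx_zero, map_zero, cup_bot, cup_bot, cup1_bot, cup1_bot, mul_comm, two_f2]
      simp
    | succ n ih =>
      intro K a b x
      suffices H : ∀ (A : Cone (SS.std (n + 1))) (x : (SS.std (n + 1)).S n)
          (a b : Co F2 (SS.std (n + 1))),
          cup1 a b (N.bd F2 _ (A.c F2 (N.sx F2 x))) =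
            cup a b (A.c F2 (N.sx F2 x)) + cup b a (A.c F2 (N.sx F2 x)) +
              cup1 (a ∘ₗ N.bd F2 _) b (A.c F2 (N.sx F2 x)) +
              cup1 a (b ∘ₗ N.bd F2 _) (A.c F2 (N.sx F2 x)) by
        have h := H (Cone.std (n + 1)) (Op.face 0 : Op n (n + 1)) (a ∘ₗ N.map F2 (K.yo x))
          (b ∘ₗ N.map F2 (K.yo x))
        rw [← iota_succ] at h
        rw [comp_map_bd, comp_map_bd, ← cup_map, ← cup_map, ← cup1_map, ← cup1_map, ← cup1_map] at h
        simp only [LinearMap.comp_apply, map_bd', N.map_sx, yo_iota] at h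
        exact h
      intro A x a b
      have IH := ih _ (hk A a) b x
      have L1 := LinearMap.congr_fun (cup_bd2 (hk A b) (hk A a)) (N.sx F2 x)
      rw [Cone.bd_c, map_sub, map_sub, map_smul, cup1_bot, smul_zero, sub_zero, f2_sub, cup1_cone,
        IH]
      rw [LinearMap.comp_apply] at L1
      rw [L1, cup_cone, cup_cone, cup1_cone, cup1_cone, hk_bd2, hk_bd2]
      simp only [cup_add_left, cup_add_right, cup1_add_left, LinearMap.add_apply, cup_smul_left,
        cup_smul_right, cup1_smul_left, cup1_aug_left, cup_aug_left, cup_aug_right,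
        LinearMap.smul_apply, smul_eq_mul, smul_zero, LinearMap.zero_apply]
      simp only [hk, LinearMap.comp_apply]
      generalize cup1 a b (N.sx F2 x) = t1
      generalize cup (a ∘ₗ A.c F2) b (N.sx F2 x) = t2
      generalize cup b (a ∘ₗ A.c F2) (N.sx F2 x) = t3
      generalize cup1 ((a ∘ₗ A.c F2) ∘ₗ N.bd F2 (SS.std (n + 1))) b (N.sx F2 x) = t4
      generalize cup1 (a ∘ₗ A.c F2) (b ∘ₗ N.bd F2 (SS.std (n + 1))) (N.sx F2 x) = t5
      generalize cup ((b ∘ₗ A.c F2) ∘ₗ N.bd F2 (SS.std (n + 1))) (a ∘ₗ A.c F2) (N.sx F2 x) = t6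
      generalize cup (b ∘ₗ A.c F2) ((a ∘ₗ A.c F2) ∘ₗ N.bd F2 (SS.std (n + 1))) (N.sx F2 x) = t7
      generalize a (N.sx F2 A.bot) * b (A.c F2 (N.sx F2 x)) = t8
      generalize b (N.sx F2 A.bot) * a (A.c F2 (N.sx F2 x)) = t9
      generalize cup (b ∘ₗ A.c F2) a (N.sx F2 x) = t10
      revert t1 t2 t3 t4 t5 t6 t7 t8 t9 t10
      intro t1 t2 t3 t4 t5 t6 t7 t8 t9 t10
      have e1 := two_f2 t1
      have e2 := two_f2 t2
      have e3 := two_f2 t3
      have e4 := two_f2 t4
      have e8 := two_f2 t8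
      have e9 := two_f2 t9
      have e10 := two_f2 t10
      have e6 := two_f2 t6
      have e7 := two_f2 t7
      linear_combination (-1) * e8 + (-1) * e9 + (-1) * e10
  refine hom_ext fun n x => ?_
  exact key n K a b x

end mod2

end Crest.Agent.R204.Pont718
end

-- ▼ part R204/CrsX_718
section

/-!
# Row 204, leaf G4 (helper718): cross products of cochains and the strict
Cartan formulas for `∪` (any ring) and `∪₁` (mod 2) on Eilenberg-Zilber cross products.
-/

set_option autoImplicit false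

namespace Crest.Agent.R204.Pont718

open EZ271 Finsupp

/-- induction principle for natural bilinear identities on cross products -/
theorem cross_induct (P : ∀ (K L : SS) (p q : ℕ), K.S p → L.S q → Prop)
    (nat : ∀ (K L : SS) (p q : ℕ) (x : K.S p) (y : L.S q),
      P (SS.std p) (SS.std q) p q (OrderHom.id : Op p p) (OrderHom.id : Op q q) → P K L p q x y)
    (h00 : ∀ (K L : SS) (A : Cone K) (B : Cone L), P K L 0 0 A.bot B.bot)
    (h10 : ∀ (K L : SS) (A : Cone K) (B : Cone L) (p : ℕ) (x : K.S p),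
      P K L p 0 x B.bot → P K L (p + 1) 0 (A.k x) B.bot)
    (h01 : ∀ (K L : SS) (A : Cone K) (B : Cone L) (q : ℕ) (y : L.S q),
      P K L 0 q A.bot y → P K L 0 (q + 1) A.bot (B.k y))
    (h11 : ∀ (K L : SS) (A : Cone K) (B : Cone L) (p q : ℕ) (x : K.S p) (y : L.S q),
      P K L p (q + 1) x (B.k y) → P K L (p + 1) q (A.k x) y →
        P K L (p + 1) (q + 1) (A.k x) (B.k y)) :
    ∀ (n : ℕ) (p q : ℕ) (_ : p + q = n) (K L : SS) (x : K.S p) (y : L.S q), P K L p q x y := by
  have e0 : (OrderHom.id : Op 0 0) = (Cone.std 0).bot :=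
    OrderHom.ext _ _ (funext fun a => Fin.ext (by omega))
  have e1 : ∀ p : ℕ, (OrderHom.id : Op (p + 1) (p + 1)) = (Cone.std (p + 1)).k (Op.face 0 : Op p (p + 1)) := by
    intro p
    refine OrderHom.ext _ _ (funext fun a => ?_)
    induction a using Fin.cases with
    | zero => rfl
    | succ a => rfl
  intro n
  induction n with
  | zero =>
    intro p q h K L x y
    obtain rfl : p = 0 := by omega
    obtain rfl : q = 0 := by omega
    refine nat _ _ _ _ _ _ ?_
    rw [e0]
    exact h00 _ _ (Cone.std 0) (Cone.std 0)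
  | succ n ih =>
    intro p q h K L x y
    refine nat _ _ _ _ _ _ ?_
    rcases p with _ | p <;> rcases q with _ | q
    · omega
    · rw [e0, e1]
      exact h01 _ _ (Cone.std 0) (Cone.std (q + 1)) q _ (ih 0 q (by omega) _ _ _ _)
    · rw [e0, e1]
      exact h10 _ _ (Cone.std (p + 1)) (Cone.std 0) p _ (ih p 0 (by omega) _ _ _ _)
    · rw [e1, e1]
      exact h11 _ _ (Cone.std (p + 1)) (Cone.std (q + 1)) p q _ _
        (ih p (q + 1) (by omega) _ _ _ _) (ih (p + 1) q (by omega) _ _ _ _)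

section

variable {R : Type} [CommRing R] {K L : SS}


theorem isConeMap_fst (A : Cone K) (B : Cone L) : IsConeMap (A.prod B) A (SS.fst K L) where
  k _ := rfl

theorem isConeMap_snd (A : Cone K) (B : Cone L) : IsConeMap (A.prod B) B (SS.snd K L) where
  k _ := rfl





/-! ## cross products of cochains -/

/-- cross product of cochains -/
noncomputable def crs (a : Co R K) (b : Co R L) : Co R (K.prod L) :=
  cup (a ∘ₗ N.map R (SS.fst K L)) (b ∘ₗ N.map R (SS.snd K L))

theorem crs_map {K' L' : SS} (f : SS.Hom K' K) (g : SS.Hom L' L) (a : Co R K) (b : Co R L) :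
    crs a b ∘ₗ N.map R (SS.prodMap f g) = crs (a ∘ₗ N.map R f) (b ∘ₗ N.map R g) := by
  unfold crs
  rw [cup_map]
  congr 1
  · refine LinearMap.ext fun w => ?_
    simp only [LinearMap.comp_apply, map_map]; rfl
  · refine LinearMap.ext fun w => ?_
    simp only [LinearMap.comp_apply, map_map]; rfl

theorem aug_comp_map (f : SS.Hom K L) : (aug R (K := L)) ∘ₗ N.map R f = aug R :=
  LinearMap.ext fun w => by rw [LinearMap.comp_apply, aug_map]

theorem crs_aug_left (b : Co R L) : crs (aug R (K := K)) b = b ∘ₗ N.map R (SS.snd K L) := by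
  unfold crs
  rw [aug_comp_map, cup_aug_left]


theorem crs_bd (a : Co R K) (b : Co R L) : crs a b ∘ₗ N.bd R (K.prod L) =
    crs (a ∘ₗ N.bd R K) b + crs (a ∘ₗ sg R) (b ∘ₗ N.bd R L) := by
  unfold crs
  rw [cup_bd, comp_map_bd, comp_map_bd, comp_map_sg]




theorem crs_zero_left (b : Co R L) : crs (0 : Co R K) b = 0 := by
  unfold crs
  rw [LinearMap.zero_comp, cup_zero_left]

theorem crs_zero_right (a : Co R K) : crs a (0 : Co R L) = 0 := by
  unfold crs
  rw [LinearMap.zero_comp, cup_zero_right]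


theorem hk_fst (A : Cone K) (B : Cone L) (a : Co R K) :
    hk (A.prod B) (a ∘ₗ N.map R (SS.fst K L)) = (hk A a) ∘ₗ N.map R (SS.fst K L) :=
  LinearMap.ext fun w => by
    simp only [hk, LinearMap.comp_apply]
    rw [(isConeMap_fst A B).c]


theorem crs_bot (A : Cone K) (B : Cone L) (a : Co R K) (b : Co R L) :
    crs a b (N.sx R (A.prod B).bot) = a (N.sx R A.bot) * b (N.sx R B.bot) := by
  unfold crs
  rw [cup_bot, LinearMap.comp_apply, LinearMap.comp_apply, N.map_sx, N.map_sx]
  rfl

theorem hk_crs (A : Cone K) (B : Cone L) (a : Co R K) (b : Co R L) :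
    hk (A.prod B) (crs a b) = a (N.sx R A.bot) • crs (aug R) (hk B b) + crs (hk A a) b := by
  refine LinearMap.ext fun w => ?_
  change crs a b ((A.prod B).c R w) = _
  rw [crs_aug_left]
  unfold crs
  rw [cup_cone, hk_fst]
  simp only [LinearMap.add_apply, LinearMap.smul_apply, smul_eq_mul, LinearMap.comp_apply,
    N.map_sx]
  congr 2
  rw [(isConeMap_snd A B).c]

/-- `AW ∘ EZ = id` -/
theorem crs_cross_sx {p q : ℕ} (x : K.S p) (y : L.S q) (a : Co R K) (b : Co R L) :
    crs a b (cross R (N.sx R x) (N.sx R y)) = a (N.sx R x) * b (N.sx R y) := by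
  refine cross_induct (fun K L p q x y => ∀ (a : Co R K) (b : Co R L),
    crs a b (cross R (N.sx R x) (N.sx R y)) = a (N.sx R x) * b (N.sx R y))
    ?_ ?_ ?_ ?_ ?_ (p + q) p q rfl K L x y a b
  · intro K L p q x y h a b
    have h2 := h (a ∘ₗ N.map R (K.yo x)) (b ∘ₗ N.map R (L.yo y))
    rw [← crs_map] at h2
    simp only [LinearMap.comp_apply, map_cross, N.map_sx, yo_iota] at h2
    exact h2
  · intro K L A B a b
    rw [cross_bot, crs_bot]
  · intro K L A B p x h a b
    have h2 := h (hk A a) b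
    have h3 := h (aug R) (hk B b)
    rw [hk_bot, mul_zero] at h3
    rw [← Cone.c_sx, cross_c_bot]
    change hk (A.prod B) (crs a b) _ = _
    rw [hk_crs, LinearMap.add_apply, LinearMap.smul_apply, h3, h2, smul_zero, zero_add]; rfl
  · intro K L A B q y h a b
    have h2 := h (hk A a) b
    have h3 := h (aug R) (hk B b)
    rw [hk_bot, zero_mul] at h2
    rw [← Cone.c_sx, cross_bot_c]
    change hk (A.prod B) (crs a b) _ = _
    rw [hk_crs, LinearMap.add_apply, LinearMap.smul_apply, h3, h2, add_zero, aug_sx_zero, one_mul]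
    rfl
  · intro K L A B p q x y h1 h2 a b
    rw [← Cone.c_sx, ← Cone.c_sx] at *
    have e : ∀ f : Co R (K.prod L), f (cross R (sg R (A.c R (N.sx R x))) (N.sx R y)) =
        (-1 : R) ^ (p + 1) * f (cross R (A.c R (N.sx R x)) (N.sx R y)) := by
      intro f
      rw [Cone.c_sx, sg_sx, map_smul, LinearMap.smul_apply, map_smul, smul_eq_mul]
    rw [cross_c_c]
    change hk (A.prod B) (crs a b) _ = _
    rw [hk_crs, LinearMap.add_apply, LinearMap.smul_apply, map_add, map_add, e, e, h1, h1, h2, h2,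
      Cone.aug_c]
    simp only [hk, LinearMap.comp_apply, Cone.c_c, map_zero, smul_eq_mul]
    ring

theorem crs_cross (a : Co R K) (b : Co R L) (X : N R K) (Y : N R L) :
    crs a b (cross R X Y) = a X * b Y := by
  have : (cross R (K := K) (L := L)).compr₂ (crs a b) =
      ((LinearMap.mul R R).comp a).compl₂ b := by
    refine bilin_ext R fun p x q y => ?_
    simp only [LinearMap.compr₂_apply, LinearMap.comp_apply, LinearMap.compl₂_apply,
      LinearMap.mul_apply']
    exact crs_cross_sx x y a b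
  exact LinearMap.congr_fun₂ this X Y

theorem hk_parity (B : Cone L) {b : Co R L} {β : ℕ} (hb : b ∘ₗ sg R = (-1 : R) ^ β • b) :
    hk B b ∘ₗ sg R = (-1 : R) ^ (β + 1) • hk B b := by
  have h := hk_sg B b
  rw [hb] at h
  refine LinearMap.ext fun w => ?_
  have h2 := LinearMap.congr_fun h w
  simp only [hk, LinearMap.comp_apply, LinearMap.smul_apply, LinearMap.neg_apply, smul_eq_mul] at h2 ⊢
  rw [pow_succ]
  linear_combination h2

theorem bot_parity {b : Co R L} {β : ℕ} (hb : b ∘ₗ sg R = (-1 : R) ^ β • b) (v : L.S 0) :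
    (-1 : R) ^ β * b (N.sx R v) = b (N.sx R v) := by
  have h2 := LinearMap.congr_fun hb (N.sx R v)
  simp only [LinearMap.comp_apply, LinearMap.smul_apply, smul_eq_mul, sg_sx, pow_zero, one_smul] at h2
  exact h2.symm

theorem bot_parity' {b : Co R L} {β : ℕ} (hb : b ∘ₗ sg R = (-1 : R) ^ β • b) (v : L.S 0) (γ : ℕ) :
    (-1 : R) ^ (β * γ) * b (N.sx R v) = b (N.sx R v) := by
  induction γ with
  | zero => simp
  | succ γ ih =>
    rw [mul_add, mul_one, pow_add, mul_assoc, bot_parity hb, ih]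

/-- strict Cartan formula for `∪` -/
theorem cup_cross_sx {p q : ℕ} (x : K.S p) (y : L.S q) (a c : Co R K) (b d : Co R L) (β γ : ℕ)
    (hb : b ∘ₗ sg R = (-1 : R) ^ β • b) (hc : c ∘ₗ sg R = (-1 : R) ^ γ • c) :
    cup (crs a b) (crs c d) (cross R (N.sx R x) (N.sx R y)) =
      (-1 : R) ^ (β * γ) * (cup a c (N.sx R x) * cup b d (N.sx R y)) := by
  refine cross_induct (fun K L p q x y => ∀ (a c : Co R K) (b d : Co R L) (β γ : ℕ)
    (_ : b ∘ₗ sg R = (-1 : R) ^ β • b) (_ : c ∘ₗ sg R = (-1 : R) ^ γ • c),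
    cup (crs a b) (crs c d) (cross R (N.sx R x) (N.sx R y)) =
      (-1 : R) ^ (β * γ) * (cup a c (N.sx R x) * cup b d (N.sx R y)))
    ?_ ?_ ?_ ?_ ?_ (p + q) p q rfl K L x y a c b d β γ hb hc
  · intro K L p q x y h a c b d β γ hb hc
    have h2 := h (a ∘ₗ N.map R (K.yo x)) (c ∘ₗ N.map R (K.yo x)) (b ∘ₗ N.map R (L.yo y))
      (d ∘ₗ N.map R (L.yo y)) β γ (by rw [comp_map_sg, hb]; rfl) (by rw [comp_map_sg, hc]; rfl)
    rw [← crs_map, ← crs_map, ← cup_map, ← cup_map, ← cup_map] at h2
    simp only [LinearMap.comp_apply, map_cross, N.map_sx, yo_iota] at h2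
    exact h2
  · intro K L A B a c b d β γ hb hc
    rw [cross_bot, cup_bot, cup_bot, cup_bot, crs_bot, crs_bot]
    have := bot_parity' hb B.bot γ
    linear_combination (-(a (N.sx R A.bot) * c (N.sx R A.bot) * d (N.sx R B.bot))) * this
  · intro K L A B p x h a c b d β γ hb hc
    have h2 := h (hk A a) c b d β γ hb hc
    have h3 := h (aug R) c (hk B b) d (β + 1) γ (hk_parity B hb) hc
    rw [cup_bot] at h2 h3 ⊢
    rw [hk_bot] at h3
    have h4 := crs_cross c d (A.c R (N.sx R x)) (N.sx R B.bot)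
    rw [cross_c_bot] at h4
    rw [← Cone.c_sx, cross_c_bot, cup_cone, cup_cone, crs_bot, h4, hk_crs, cup_add_left, cup_smul_left,
      LinearMap.add_apply, LinearMap.smul_apply, h2, h3]
    have := bot_parity' hb B.bot γ
    simp only [smul_eq_mul]
    linear_combination (-(a (N.sx R A.bot) * c (A.c R (N.sx R x)) * d (N.sx R B.bot))) * this
  · intro K L A B q y h a c b d β γ hb hc
    have h2 := h (hk A a) c b d β γ hb hc
    have h3 := h (aug R) c (hk B b) d (β + 1) γ (hk_parity B hb) hc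
    rw [cup_bot] at h2 h3 ⊢
    rw [hk_bot] at h2
    rw [aug_sx_zero] at h3
    have h4 := crs_cross c d (N.sx R A.bot) (B.c R (N.sx R y))
    rw [cross_bot_c] at h4
    rw [← Cone.c_sx, cross_bot_c, cup_cone, cup_cone, crs_bot, h4, hk_crs, cup_add_left, cup_smul_left,
      LinearMap.add_apply, LinearMap.smul_apply, h2, h3]
    have t1 := bot_parity' hb B.bot γ
    have t2 := bot_parity hc A.bot
    simp only [smul_eq_mul]
    have t3 : (-1 : R) ^ ((β + 1) * γ) = (-1 : R) ^ (β * γ) * (-1) ^ γ := by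
      rw [← pow_add]; ring_nf
    rw [t3]
    linear_combination (-(a (N.sx R A.bot) * c (N.sx R A.bot) * d (B.c R (N.sx R y)))) * t1 +
      (a (N.sx R A.bot) * (-1 : R) ^ (β * γ) * cup (hk B b) d (N.sx R y)) * t2
  · intro K L A B p q x y h1 h2 a c b d β γ hb hc
    have hb' := hk_parity B hb
    have h1a := h1 (hk A a) c b d β γ hb hc
    have h1b := h1 (aug R) c (hk B b) d (β + 1) γ hb' hc
    have h2a := h2 (hk A a) c b d β γ hb hc
    have h2b := h2 (aug R) c (hk B b) d (β + 1) γ hb' hc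
    rw [← Cone.c_sx] at h1a h1b h2a h2b
    rw [← Cone.c_sx, ← Cone.c_sx]
    have e : ∀ f : Co R (K.prod L), f (cross R (sg R (A.c R (N.sx R x))) (N.sx R y)) =
        (-1 : R) ^ (p + 1) * f (cross R (A.c R (N.sx R x)) (N.sx R y)) := by
      intro f
      rw [Cone.c_sx, sg_sx, map_smul, LinearMap.smul_apply, map_smul, smul_eq_mul]
    have e2 : (-1 : R) ^ (p + 1) * c (A.c R (N.sx R x)) = (-1 : R) ^ γ * c (A.c R (N.sx R x)) := by
      have h := LinearMap.congr_fun hc (A.c R (N.sx R x))
      simp only [LinearMap.comp_apply, LinearMap.smul_apply, smul_eq_mul] at h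
      rw [← h, Cone.c_sx, sg_sx, map_smul, smul_eq_mul]
    have h4 := crs_cross c d (A.c R (N.sx R x)) (B.c R (N.sx R y))
    rw [cross_c_c] at h4 ⊢
    rw [cup_cone, crs_bot, h4, hk_crs, cup_add_left, cup_smul_left, LinearMap.add_apply,
      LinearMap.smul_apply, map_add, map_add, e, e, h1a, h1b, h2a, h2b]
    simp only [cup_cone, cup_aug_left, hk_hk, hk_bot, cup_zero_left, LinearMap.zero_apply, zero_mul,
      zero_add, add_zero, mul_zero, smul_eq_mul]
    have t1 := bot_parity' hb B.bot γ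
    have t3 : (-1 : R) ^ ((β + 1) * γ) = (-1 : R) ^ (β * γ) * (-1) ^ γ := by
      rw [← pow_add]; ring_nf
    have t4 : (-1 : R) ^ γ * (-1 : R) ^ γ = 1 := by
      rw [← mul_pow]; simp
    rw [t3]
    linear_combination (-(a (N.sx R A.bot) * c (A.c R (N.sx R x)) * d (B.c R (N.sx R y)))) * t1 +
      (a (N.sx R A.bot) * (-1 : R) ^ (β * γ) * (-1) ^ γ * cup (hk B b) d (N.sx R y)) * e2 +
      (a (N.sx R A.bot) * (-1 : R) ^ (β * γ) * c (A.c R (N.sx R x)) * cup (hk B b) d (N.sx R y)) * t4

/-- strict Cartan formula for `∪` on arbitrary chains -/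
theorem cup_cross (X : N R K) (Y : N R L) (a c : Co R K) (b d : Co R L) (β γ : ℕ)
    (hb : b ∘ₗ sg R = (-1 : R) ^ β • b) (hc : c ∘ₗ sg R = (-1 : R) ^ γ • c) :
    cup (crs a b) (crs c d) (cross R X Y) = (-1 : R) ^ (β * γ) * (cup a c X * cup b d Y) := by
  have : (cross R (K := K) (L := L)).compr₂ (cup (crs a b) (crs c d)) =
      (-1 : R) ^ (β * γ) • (((LinearMap.mul R R).comp (cup a c)).compl₂ (cup b d)) := by
    refine bilin_ext R fun p x q y => ?_
    simp only [LinearMap.compr₂_apply, LinearMap.comp_apply, LinearMap.compl₂_apply,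
      LinearMap.mul_apply', LinearMap.smul_apply, smul_eq_mul]
    exact cup_cross_sx x y a c b d β γ hb hc
  exact LinearMap.congr_fun₂ this X Y

end

section mod2

variable {K L : SS}

theorem cup_cross2 (X : N F2 K) (Y : N F2 L) (a c : Co F2 K) (b d : Co F2 L) :
    cup (crs a b) (crs c d) (cross F2 X Y) = cup a c X * cup b d Y := by
  have := cup_cross X Y a c b d 0 0 (by rw [f2_comp_sg]; simp) (by rw [f2_comp_sg]; simp)
  simpa using this

/-- strict Cartan formula for `∪₁` -/
theorem cup1_cross_sx {p q : ℕ} (x : K.S p) (y : L.S q) (a c : Co F2 K) (b d : Co F2 L) :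
    cup1 (crs a b) (crs c d) (cross F2 (N.sx F2 x) (N.sx F2 y)) =
      cup a c (N.sx F2 x) * cup1 b d (N.sx F2 y) + cup1 a c (N.sx F2 x) * cup d b (N.sx F2 y) := by
  refine cross_induct (fun K L p q x y => ∀ (a c : Co F2 K) (b d : Co F2 L),
    cup1 (crs a b) (crs c d) (cross F2 (N.sx F2 x) (N.sx F2 y)) =
      cup a c (N.sx F2 x) * cup1 b d (N.sx F2 y) + cup1 a c (N.sx F2 x) * cup d b (N.sx F2 y))
    ?_ ?_ ?_ ?_ ?_ (p + q) p q rfl K L x y a c b d
  · intro K L p q x y h a c b d
    have h2 := h (a ∘ₗ N.map F2 (K.yo x)) (c ∘ₗ N.map F2 (K.yo x)) (b ∘ₗ N.map F2 (L.yo y))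
      (d ∘ₗ N.map F2 (L.yo y))
    rw [← crs_map, ← crs_map, ← cup_map, ← cup_map, ← cup1_map, ← cup1_map, ← cup1_map] at h2
    simp only [LinearMap.comp_apply, map_cross, N.map_sx, yo_iota] at h2
    exact h2
  · intro K L A B a c b d
    rw [cross_bot, cup1_bot, cup1_bot, cup1_bot]; ring
  · intro K L A B p x h a c b d
    have h2 := h (hk A a) c b d
    have h3 := h (aug F2) c (hk B b) d
    rw [← Cone.c_sx, cross_c_bot, cup1_cone, hk_crs, hk_crs, cup1_add_left, cup1_smul_left]
    simp only [cup_add_left, cup_add_right, cup_smul_left, cup_smul_right, LinearMap.add_apply,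
      LinearMap.smul_apply, smul_eq_mul, h2, h3, cup_cross2, cup1_bot, cup_bot, hk_bot, cup1_cone,
      cup_cone, cup_aug_left, cup1_aug_left, LinearMap.zero_apply]
    ring
  · intro K L A B q y h a c b d
    have h2 := h (hk A a) c b d
    have h3 := h (aug F2) c (hk B b) d
    rw [← Cone.c_sx, cross_bot_c, cup1_cone, hk_crs, hk_crs, cup1_add_left, cup1_smul_left]
    simp only [cup_add_left, cup_add_right, cup_smul_left, cup_smul_right, LinearMap.add_apply,
      LinearMap.smul_apply, smul_eq_mul, h2, h3, cup_cross2, cup1_bot, cup_bot, hk_bot, cup1_cone,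
      cup_cone, cup_aug_left, cup_aug_right, cup1_aug_left, LinearMap.zero_apply, aug_sx_zero]
    ring
  · intro K L A B p q x y h1 h2 a c b d
    have h1a := h1 (hk A a) c b d
    have h1b := h1 (aug F2) c (hk B b) d
    have h2a := h2 (hk A a) c b d
    have h2b := h2 (aug F2) c (hk B b) d
    rw [← Cone.c_sx] at h1a h1b h2a h2b
    rw [← Cone.c_sx, ← Cone.c_sx]
    rw [cross_c_c, f2_sg, cup1_cone, hk_crs, hk_crs, cup1_add_left, cup1_smul_left]
    simp only [cup_add_left, cup_add_right, cup_smul_left, cup_smul_right, LinearMap.add_apply,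
      LinearMap.smul_apply, smul_eq_mul, map_add, h1a, h1b, h2a, h2b, cup_cross2, hk_bot, hk_hk,
      cup1_cone, cup_cone, cup_aug_left, cup_aug_right, cup1_aug_left, LinearMap.zero_apply,
      cup_zero_left, cup1_zero_left, cup_zero_right]
    have z1 : hk B b (B.c F2 (N.sx F2 y)) = 0 := by
      simp only [hk, LinearMap.comp_apply, Cone.c_c, map_zero]
    have z2 : hk A c (A.c F2 (N.sx F2 x)) = 0 := by
      simp only [hk, LinearMap.comp_apply, Cone.c_c, map_zero]
    have z3 : hk A a (A.c F2 (N.sx F2 x)) = 0 := by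
      simp only [hk, LinearMap.comp_apply, Cone.c_c, map_zero]
    have z4 : hk A c (N.sx F2 x) = c (A.c F2 (N.sx F2 x)) := rfl
    rw [z1, z2, z3, z4, Cone.aug_c]
    ring

theorem cup1_cross (X : N F2 K) (Y : N F2 L) (a c : Co F2 K) (b d : Co F2 L) :
    cup1 (crs a b) (crs c d) (cross F2 X Y) =
      cup a c X * cup1 b d Y + cup1 a c X * cup d b Y := by
  have : (cross F2 (K := K) (L := L)).compr₂ (cup1 (crs a b) (crs c d)) =
      (((LinearMap.mul F2 F2).comp (cup a c)).compl₂ (cup1 b d)) +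
      (((LinearMap.mul F2 F2).comp (cup1 a c)).compl₂ (cup d b)) := by
    refine bilin_ext F2 fun p x q y => ?_
    simp only [LinearMap.compr₂_apply, LinearMap.comp_apply, LinearMap.compl₂_apply,
      LinearMap.mul_apply', LinearMap.add_apply]
    exact cup1_cross_sx x y a c b d
  exact LinearMap.congr_fun₂ this X Y

end mod2

end Crest.Agent.R204.Pont718
end

-- ▼ part R204/Deg_718

/-!
# Row 204, leaf G4 (helper718): homogeneous cochains
-/

set_option autoImplicit false

namespace Crest.Agent.R204.Pont718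

open EZ271 Finsupp

variable {R : Type} [CommRing R] {K L : SS}

/-- the cochain `a` is homogeneous of degree `m` -/
def IsDeg (m : ℕ) (a : Co R K) : Prop := ∀ (n : ℕ) (x : K.S n), n ≠ m → a (N.sx R x) = 0

theorem IsDeg.zero (m : ℕ) : IsDeg m (0 : Co R K) := fun _ _ _ => rfl

theorem IsDeg.add {m : ℕ} {a b : Co R K} (ha : IsDeg m a) (hb : IsDeg m b) : IsDeg m (a + b) :=
  fun n x h => by rw [LinearMap.add_apply, ha n x h, hb n x h, add_zero]

theorem IsDeg.smul {m : ℕ} {a : Co R K} (r : R) (ha : IsDeg m a) : IsDeg m (r • a) :=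
  fun n x h => by rw [LinearMap.smul_apply, ha n x h, smul_zero]

theorem IsDeg.sum {m : ℕ} {ι : Type*} (s : Finset ι) {a : ι → Co R K}
    (ha : ∀ i ∈ s, IsDeg m (a i)) : IsDeg m (∑ i ∈ s, a i) :=
  fun n x h => by
    rw [LinearMap.sum_apply]
    exact Finset.sum_eq_zero fun i hi => ha i hi n x h

theorem IsDeg.aug : IsDeg 0 (aug R (K := K)) := fun n x h => by
  rcases n with _ | n
  · exact absurd rfl h
  · simp

theorem IsDeg.map {m : ℕ} {a : Co R L} (ha : IsDeg m a) (f : SS.Hom K L) :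
    IsDeg m (a ∘ₗ N.map R f) := fun n x h => by
  rw [LinearMap.comp_apply, N.map_sx, ha n _ h]

theorem IsDeg.cup {p q : ℕ} {a b : Co R K} (ha : IsDeg p a) (hb : IsDeg q b) :
    IsDeg (p + q) (cup a b) := fun n x h => by
  rw [cup_sx]
  refine Finset.sum_eq_zero fun t ht => ?_
  rw [mem_ad] at ht
  by_cases h1 : t.1 = p
  · rw [hb _ _ (by omega), mul_zero]
  · rw [ha _ _ h1, zero_mul]

theorem IsDeg.cup1_apply {p q : ℕ} {a b : Co R K} (ha : IsDeg p a) (hb : IsDeg q b) (n : ℕ) (x : K.S n)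
    (h : n + 1 ≠ p + q) : cup1 a b (N.sx R x) = 0 := by
  rw [cup1_sx]
  refine Finset.sum_eq_zero fun t ht => Finset.sum_eq_zero fun s hs => ?_
  rw [mem_ad] at ht hs
  by_cases h1 : s.1 = q
  · rw [ha _ _ (by omega), zero_mul]
  · rw [hb _ _ h1, mul_zero]

theorem IsDeg.cup1 {p q m : ℕ} {a b : Co R K} (ha : IsDeg p a) (hb : IsDeg q b) (hm : m + 1 = p + q) :
    IsDeg m (cup1 a b) := fun n x h => ha.cup1_apply hb n x (by omega)

theorem IsDeg.bd {m : ℕ} {a : Co R K} (ha : IsDeg m a) : IsDeg (m + 1) (a ∘ₗ N.bd R K) :=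
  fun n x h => by
    rw [LinearMap.comp_apply]
    rcases n with _ | n
    · rw [bd_sx_zero, map_zero]
    · rw [bd_sx_succ, map_sum]
      refine Finset.sum_eq_zero fun i _ => ?_
      rw [map_smul, ha _ _ (by omega), smul_zero]

theorem IsDeg.sg {m : ℕ} {a : Co R K} (ha : IsDeg m a) : a ∘ₗ sg R = (-1 : R) ^ m • a := by
  refine hom_ext fun n x => ?_
  rw [LinearMap.comp_apply, sg_sx, map_smul, LinearMap.smul_apply]
  by_cases h : n = m
  · subst h; rfl
  · rw [ha n x h, smul_zero, smul_zero]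

theorem IsDeg.sg_even {m : ℕ} {a : Co R K} (ha : IsDeg m a) (hm : Even m) : a ∘ₗ EZ271.sg R = a := by
  rw [ha.sg, hm.neg_one_pow, one_smul]

theorem IsDeg.crs {p q : ℕ} {a : Co R K} {b : Co R L} (ha : IsDeg p a) (hb : IsDeg q b) :
    IsDeg (p + q) (crs a b) :=
  (ha.map _).cup (hb.map _)

/-- homogeneous chains are spanned by simplices -/
theorem gr_eq_span (n : ℕ) : N.gr R K n = Submodule.span R (Set.range fun x : K.S n => N.sx R x) := by
  unfold N.gr Ch.gr
  rw [Submodule.map_span]
  congr 1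
  ext c
  simp only [Set.mem_image, Set.mem_ofPred_eq, Set.mem_range, N.sx]
  constructor
  · rintro ⟨_, ⟨x, rfl⟩, rfl⟩
    exact ⟨x, rfl⟩
  · rintro ⟨x, rfl⟩
    exact ⟨_, ⟨x, rfl⟩, rfl⟩

theorem gr_induction {n : ℕ} {p : N R K → Prop} {c : N R K} (hc : c ∈ N.gr R K n) (h0 : p 0)
    (hadd : ∀ a b, p a → p b → p (a + b)) (hsmul : ∀ (r : R) a, p a → p (r • a))
    (hsx : ∀ x : K.S n, p (N.sx R x)) : p c := by
  rw [gr_eq_span] at hc
  refine Submodule.span_induction (p := fun c _ => p c) ?_ h0 (fun a b _ _ => hadd a b)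
    (fun r a _ => hsmul r a) hc
  rintro _ ⟨x, rfl⟩
  exact hsx x

theorem sx_mem_gr {n : ℕ} (x : K.S n) : N.sx R x ∈ N.gr R K n := by
  rw [gr_eq_span]
  exact Submodule.subset_span ⟨x, rfl⟩

theorem IsDeg.eval {m n : ℕ} {a : Co R K} (ha : IsDeg m a) {z : N R K} (hz : z ∈ N.gr R K n)
    (h : n ≠ m) : a z = 0 := by
  refine gr_induction (p := fun c => a c = 0) hz (map_zero _) ?_ ?_ ?_
  · intro c d hc hd; rw [map_add, hc, hd, add_zero]
  · intro r c hc; rw [map_smul, hc, smul_zero]
  · intro x; exact ha n x h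



theorem map_mem_gr (f : SS.Hom K L) {n : ℕ} {z : N R K} (hz : z ∈ N.gr R K n) :
    N.map R f z ∈ N.gr R L n := by
  refine gr_induction (p := fun c => N.map R f c ∈ N.gr R L n) hz ?_ ?_ ?_ ?_
  · rw [map_zero]; exact Submodule.zero_mem _
  · intro c d hc hd; rw [map_add]; exact Submodule.add_mem _ hc hd
  · intro r c hc; rw [map_smul]; exact Submodule.smul_mem _ _ hc
  · intro x
    rw [N.map_sx]; exact sx_mem_gr _

/-- degree of a cross product -/
theorem E_mem_gr : ∀ (n p q : ℕ) (_ : p + q = n), E R p q ∈ N.gr R ((SS.std p).prod (SS.std q)) n := by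
  have hc : ∀ {K : SS} (A : Cone K) {n : ℕ} {z : N R K}, z ∈ N.gr R K n → A.c R z ∈ N.gr R K (n + 1) := by
    intro K A n z hz
    refine gr_induction (p := fun c => A.c R c ∈ N.gr R K (n + 1)) hz ?_ ?_ ?_ ?_
    · rw [map_zero]; exact Submodule.zero_mem _
    · intro c d hc hd; rw [map_add]; exact Submodule.add_mem _ hc hd
    · intro r c hc; rw [map_smul]; exact Submodule.smul_mem _ _ hc
    · intro x; rw [Cone.c_sx]; exact sx_mem_gr _
  intro n
  induction n with
  | zero =>
    intro p q h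
    obtain rfl : p = 0 := by omega
    obtain rfl : q = 0 := by omega
    rw [E_zero_zero]; exact sx_mem_gr _
  | succ n ih =>
    intro p q h
    rcases p with _ | p <;> rcases q with _ | q
    · omega
    · rw [E_zero_succ]; exact hc _ (map_mem_gr _ (ih 0 q (by omega)))
    · rw [E_succ_zero]; exact hc _ (map_mem_gr _ (ih p 0 (by omega)))
    · rw [E_succ_succ]
      exact hc _ (Submodule.add_mem _ (map_mem_gr _ (ih p (q + 1) (by omega)))
        (Submodule.smul_mem _ _ (map_mem_gr _ (ih (p + 1) q (by omega)))))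

theorem cross_mem_gr {p q : ℕ} {X : N R K} {Y : N R L} (hX : X ∈ N.gr R K p) (hY : Y ∈ N.gr R L q) :
    cross R X Y ∈ N.gr R (K.prod L) (p + q) := by
  refine gr_induction (p := fun c => cross R c Y ∈ N.gr R (K.prod L) (p + q)) hX ?_ ?_ ?_ ?_
  · rw [map_zero]; exact Submodule.zero_mem _
  · intro c d hc hd; rw [map_add, LinearMap.add_apply]; exact Submodule.add_mem _ hc hd
  · intro r c hc; rw [map_smul, LinearMap.smul_apply]; exact Submodule.smul_mem _ _ hc
  · intro x
    refine gr_induction (p := fun c => cross R (N.sx R x) c ∈ N.gr R (K.prod L) (p + q)) hY ?_ ?_ ?_ ?_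
    · rw [map_zero]; exact Submodule.zero_mem _
    · intro c d hc hd; rw [map_add]; exact Submodule.add_mem _ hc hd
    · intro r c hc; rw [map_smul]; exact Submodule.smul_mem _ _ hc
    · intro y
      rw [cross_sx]
      exact map_mem_gr _ (E_mem_gr _ p q rfl)

end Crest.Agent.R204.Pont718
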