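import Mathlib
import Crest.Agent.R204.Tors_947
import Crest.Agent.R204.Deg_718
import Crest.Agent.R204.Norm_76
import Crest.Agent.R204.SQdef_803

-- ▼ part R204/SQG_334
section

/-!
# Row 204, block G, lemma SQ: group theory half (helper334)

`perm_of_closure`: a property of finite groups that is closed under isomorphism, products, wreath product with
`Z/2` and passes from subgroups of odd index to the group holds for every symmetric group.
-/

set_option autoImplicit false

namespace Crest.Agent.R204.SQG334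

open scoped RegularWreathProduct

theorem odd_choose_two_pow (r : ℕ) : ∀ s : ℕ, s < 2 ^ r → Odd ((2 ^ r + s).choose (2 ^ r)) := by
  induction r with
  | zero =>
    intro s hs
    have : s = 0 := by simpa using hs
    subst this
    simp
  | succ r ih =>
    intro s hs
    haveI : Fact (Nat.Prime 2) := ⟨Nat.prime_two⟩
    have key := Choose.choose_modEq_choose_mod_mul_choose_div_nat (n := 2 ^ (r + 1) + s)
      (k := 2 ^ (r + 1)) (p := 2)
    have e1 : 2 ^ (r + 1) % 2 = 0 := by rw [pow_succ]; omega
    have e2 : 2 ^ (r + 1) / 2 = 2 ^ r := by rw [pow_succ]; omega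
    have e3 : (2 ^ (r + 1) + s) / 2 = 2 ^ r + s / 2 := by rw [pow_succ]; omega
    rw [e1, e2, e3, Nat.choose_zero_right, one_mul] at key
    have h := ih (s / 2) (by rw [pow_succ] at hs; omega)
    rw [Nat.odd_iff] at h ⊢
    unfold Nat.ModEq at key
    rw [key, h]

theorem card_range_sumCongr (a b : ℕ) :
    Nat.card (Equiv.Perm.sumCongrHom (Fin a) (Fin b)).range = a.factorial * b.factorial := by
  have e := MonoidHom.ofInjective (Equiv.Perm.sumCongrHom_injective (α := Fin a) (β := Fin b))
  rw [← Nat.card_congr e.toEquiv, Nat.card_prod, Nat.card_perm, Nat.card_perm, Nat.card_fin, Nat.card_fin]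

theorem index_range_sumCongr (a b : ℕ) :
    (Equiv.Perm.sumCongrHom (Fin a) (Fin b)).range.index = (a + b).choose a := by
  have h := Subgroup.card_mul_index (Equiv.Perm.sumCongrHom (Fin a) (Fin b)).range
  rw [card_range_sumCongr, Nat.card_perm, Nat.card_sum, Nat.card_fin, Nat.card_fin] at h
  have h2 := Nat.choose_mul_factorial_mul_factorial (Nat.le_add_right a b)
  rw [Nat.add_sub_cancel_left] at h2
  have hpos : 0 < a.factorial * b.factorial := by positivity
  apply Nat.eq_of_mul_eq_mul_left hpos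
  rw [h, ← h2]
  ring

theorem perm_of_closure (P : ∀ (G : Type) [Group G], Prop)
    (hiso : ∀ (G H : Type) [Group G] [Group H], (G ≃* H) → P G → P H)
    (h1 : P PUnit)
    (hprod : ∀ (G H : Type) [Group G] [Group H] [Finite G] [Finite H], P G → P H → P (G × H))
    (hwr : ∀ (G : Type) [Group G] [Finite G], P G → P (G ≀ᵣ (Multiplicative (ZMod 2))))
    (hodd : ∀ (G : Type) [Group G] [Finite G] (H : Subgroup G), Odd H.index → P H → P G) :
    ∀ w : ℕ, P (Equiv.Perm (Fin w)) := by
  haveI : Fact (Nat.Prime 2) := ⟨Nat.prime_two⟩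
  have hit : ∀ n : ℕ, P (IteratedWreathProduct (Multiplicative (ZMod 2)) n) := by
    intro n
    induction n with
    | zero => exact h1
    | succ n ih => exact hwr _ ih
  have hpow : ∀ r : ℕ, P (Equiv.Perm (Fin (2 ^ r))) := by
    intro r
    let S : Sylow 2 (Equiv.Perm (Fin (2 ^ r))) := default
    refine hodd _ (S : Subgroup _) ?_ ?_
    · have := Sylow.not_dvd_index S
      rw [← Nat.not_even_iff_odd, even_iff_two_dvd]
      exact this
    · refine hiso _ _ (Sylow.mulEquivIteratedWreathProduct 2 r (Fin (2 ^ r)) (by simp)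
        (Multiplicative (ZMod 2)) (by simp) S).symm ?_
      exact hit r
  intro w
  induction w using Nat.strong_induction_on with
  | _ w ih =>
    rcases Nat.eq_zero_or_pos w with rfl | hw
    · refine hiso PUnit _ ?_ h1
      exact MulEquiv.ofUnique
    · have hle : 2 ^ Nat.log 2 w ≤ w := Nat.pow_log_le_self 2 hw.ne'
      have hlt : w < 2 ^ (Nat.log 2 w + 1) := Nat.lt_pow_succ_log_self (by norm_num) w
      obtain ⟨s, hs⟩ := Nat.exists_eq_add_of_le hle
      have hs2 : s < 2 ^ Nat.log 2 w := by rw [pow_succ] at hlt; omega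
      have hsw : s < w := by
        have : 0 < 2 ^ Nat.log 2 w := by positivity
        omega
      generalize Nat.log 2 w = r at *
      subst hs
      have hpr : P (Equiv.Perm (Fin (2 ^ r)) × Equiv.Perm (Fin s)) := hprod _ _ (hpow r) (ih s hsw)
      have hrg : P (Equiv.Perm.sumCongrHom (Fin (2 ^ r)) (Fin s)).range :=
        hiso _ _ (MonoidHom.ofInjective
          (Equiv.Perm.sumCongrHom_injective (α := Fin (2 ^ r)) (β := Fin s))) hpr
      have hsum : P (Equiv.Perm (Fin (2 ^ r) ⊕ Fin s)) := by
        refine hodd _ _ ?_ hrg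
        rw [index_range_sumCongr]
        exact odd_choose_two_pow r s hs2
      exact hiso _ _ (finSumFinEquiv.permCongrHom) hsum

end Crest.Agent.R204.SQG334
end

-- ▼ part R204/SQL_334
section

/-!
# Row 204, block G, lemma SQ: cochains on lists (helper334)

Cochains on the simplex `E J` as functions `List J → A` (augmented, not normalised), with coboundary `dL` and
cup product `cupL` given by recursion; the action of a group; transfer; comparison with `Fs U w`.
-/

set_option autoImplicit false
set_option linter.unusedSectionVars false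

namespace Crest.Agent.R204.SQG334

open Finsupp Pont718

variable {J A : Type}

/-- coboundary on functions of lists -/
def dL [AddCommGroup A] : (List J → A) → List J → A
  | _, [] => 0
  | f, x :: l => f l - dL (fun l' => f (x :: l')) l

/-- cup product on functions of lists -/
def cupL [CommRing A] : (List J → A) → (List J → A) → List J → A
  | _, _, [] => 0
  | f, g, x :: l => f [x] * g (x :: l) + cupL (fun l' => f (x :: l')) g l

section basic
variable [AddCommGroup A]

@[simp] theorem dL_nil (f : List J → A) : dL f [] = 0 := rfl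

@[simp] theorem dL_cons (f : List J → A) (x : J) (l : List J) :
    dL f (x :: l) = f l - dL (fun l' => f (x :: l')) l := rfl

theorem dL_add (f g : List J → A) (l : List J) : dL (f + g) l = dL f l + dL g l := by
  induction l generalizing f g with
  | nil => simp
  | cons x l ih =>
    rw [dL_cons, dL_cons, dL_cons, show (fun l' => (f + g) (x :: l')) =
      (fun l' => f (x :: l')) + (fun l' => g (x :: l')) from rfl, ih, Pi.add_apply]
    abel

theorem dL_zero (l : List J) : dL (0 : List J → A) l = 0 := by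
  induction l with
  | nil => rfl
  | cons x l ih => rw [dL_cons, show (fun l' => (0 : List J → A) (x :: l')) = 0 from rfl, ih]; simp





theorem dL_sum {ι : Type*} (s : Finset ι) (f : ι → List J → A) (l : List J) :
    dL (fun l => ∑ i ∈ s, f i l) l = ∑ i ∈ s, dL (f i) l := by
  classical
  induction s using Finset.induction_on with
  | empty => simp only [Finset.sum_empty]; exact dL_zero l
  | insert a s ha ih =>
    rw [Finset.sum_insert ha, ← ih, ← dL_add]
    congr 1
    funext l'
    rw [Finset.sum_insert ha]; rfl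

theorem dL_map {J' : Type} (φ : J → J') (f : List J' → A) (l : List J) :
    dL (fun l => f (l.map φ)) l = dL f (l.map φ) := by
  induction l generalizing f with
  | nil => rfl
  | cons x l ih => rw [dL_cons, List.map_cons, dL_cons, ← ih (fun l' => f (φ x :: l'))]; rfl


end basic

section cup
variable [CommRing A]

@[simp] theorem cupL_nil (f g : List J → A) : cupL f g [] = 0 := rfl

@[simp] theorem cupL_cons (f g : List J → A) (x : J) (l : List J) :
    cupL f g (x :: l) = f [x] * g (x :: l) + cupL (fun l' => f (x :: l')) g l := rfl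

theorem cupL_map {J' : Type} (φ : J → J') (f g : List J' → A) (l : List J) :
    cupL (fun l => f (l.map φ)) (fun l => g (l.map φ)) l = cupL f g (l.map φ) := by
  induction l generalizing f with
  | nil => rfl
  | cons x l ih =>
    change f [φ x] * g (φ x :: l.map φ) + cupL (fun l' => f (φ x :: l'.map φ)) (fun l => g (l.map φ)) l =
      f [φ x] * g (φ x :: l.map φ) + cupL (fun l' => f (φ x :: l')) g (l.map φ)
    rw [ih (fun l' => f (φ x :: l'))]

end cup

/-! ## degrees -/

/-- `f` lives on lists of length `n` -/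
def DgL [Zero A] (n : ℕ) (f : List J → A) : Prop := ∀ l : List J, l.length ≠ n → f l = 0

/-! ## group actions -/

section action
variable (G : Type) [Group G] [MulAction G J]

/-- `f` is invariant -/
def InvL (f : List J → A) : Prop := ∀ (g : G) (l : List J), f (l.map (g • ·)) = f l

end action

/-- **SQ(G)** for the coefficient homomorphism `ρ : R → F2`: the square of every invariant cocycle lifts. -/
def SQ {R : Type} [CommRing R] (ρ : R →+* F2) (G : Type) [Group G] : Prop :=
  ∀ (J : Type) [MulAction G J], (∀ (g : G) (j : J), g • j = j → g = 1) → ∀ (m : ℕ) (u : List J → F2),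
    InvL G u → DgL (m + 1) u → (∀ l, dL u l = 0) →
    ∃ (Y : List J → R) (v : List J → F2), InvL G Y ∧ InvL G v ∧ DgL (2 * m + 1) Y ∧ DgL (2 * m) v ∧
      (∀ l, dL Y l = 0) ∧ ∀ l, cupL u u l = ρ (Y l) + dL v l

/-! ## transfer -/

section transfer
variable {G : Type} [Group G] [MulAction G J] [AddCommGroup A]

/-- translate -/
def tL (g : G) (f : List J → A) : List J → A := fun l => f (l.map (g⁻¹ • ·))

theorem tL_mul_mem {H : Subgroup G} {f : List J → A} (hf : InvL H f) (g : G) (h : H) (l : List J) :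
    tL (g * (h : G)) f l = tL g f l := by
  unfold tL
  have := hf h⁻¹ (l.map (g⁻¹ • ·))
  rw [← this, List.map_map]
  congr 1
  refine List.map_congr_left fun x _ => ?_
  simp [mul_smul, Subgroup.smul_def]

theorem tL_out {H : Subgroup G} {f : List J → A} (hf : InvL H f) (g : G) (l : List J) :
    tL ((QuotientGroup.mk g : G ⧸ H).out) f l = tL g f l := by
  obtain ⟨h, hh⟩ := QuotientGroup.mk_out_eq_mul H g
  rw [hh]; exact tL_mul_mem hf g h l

theorem tL_smul {f : List J → A} (s g : G) (l : List J) : tL g f (l.map (s • ·)) = tL (s⁻¹ * g) f l := by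
  unfold tL
  rw [List.map_map]
  congr 1
  refine List.map_congr_left fun x _ => ?_
  simp [mul_smul]

variable (H : Subgroup G) [Fintype (G ⧸ H)]

/-- transfer -/
noncomputable def trL (f : List J → A) : List J → A := fun l => ∑ q : G ⧸ H, tL q.out f l

theorem trL_inv {f : List J → A} (hf : InvL H f) : InvL G (trL H f) := by
  intro s l
  unfold trL
  have h1 : ∀ q : G ⧸ H, tL q.out f (l.map (s • ·)) = tL ((s⁻¹ • q).out) f l := by
    intro q
    rw [tL_smul]
    conv_rhs => rw [← QuotientGroup.out_eq' q]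
    exact (tL_out hf (s⁻¹ * q.out) l).symm
  rw [Finset.sum_congr rfl fun q _ => h1 q]
  exact Fintype.sum_equiv (MulAction.toPerm s⁻¹) _ _ fun q => rfl

theorem trL_dL (f : List J → A) (l : List J) : dL (trL H f) l = trL H (dL f) l := by
  unfold trL
  rw [dL_sum]
  refine Finset.sum_congr rfl fun q _ => ?_
  exact dL_map _ f l

theorem trL_of_inv {f : List J → A} (hf : InvL G f) (l : List J) : trL H f l = H.index • f l := by
  unfold trL
  have h1 : ∀ q : G ⧸ H, tL q.out f l = f l := fun q => hf _ l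
  rw [Finset.sum_congr rfl fun q _ => h1 q, Finset.sum_const, Finset.card_univ, Subgroup.index,
    Nat.card_eq_fintype_card]

theorem trL_dg {n : ℕ} {f : List J → A} (hf : DgL n f) : DgL n (trL H f) := by
  intro l hl
  unfold trL tL
  refine Finset.sum_eq_zero fun q _ => ?_
  exact hf _ (by rw [List.length_map]; exact hl)

end transfer



end Crest.Agent.R204.SQG334
end

-- ▼ part R204/SQF_334
section

/-!
# Row 204, block G, lemma SQ: from lists to `Fs U w` (helper334)
-/

set_option autoImplicit false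
set_option linter.unusedSectionVars false

namespace Crest.Agent.R204.SQG334

open Finsupp Pont718 Fs348 Tors947 Coef947

variable {J A : Type}

/-! ## explicit formulas -/

theorem dL_ofFn [AddCommGroup A] {n : ℕ} (f : List J → A) (x : Fin (n + 2) → J) :
    dL f (List.ofFn x) = ∑ i : Fin (n + 2), ((-1 : ℤ) ^ (i : ℕ)) • f (List.ofFn (fun j => x (i.succAbove j))) := by
  induction n generalizing f with
  | zero =>
    rw [Fin.sum_univ_two]
    simp [List.ofFn_succ]
    abel
  | succ n ih =>
    rw [List.ofFn_succ, dL_cons, ih]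
    conv_rhs => rw [Fin.sum_univ_succ]
    have h0 : (fun j => x ((0 : Fin (n + 3)).succAbove j)) = fun j => x j.succ := by
      funext j; rw [Fin.succAbove_zero]
    have h1 : ∀ i : Fin (n + 2), List.ofFn (fun j => x (i.succ.succAbove j)) =
        x 0 :: List.ofFn (fun j => x (i.succAbove j).succ) := by
      intro i
      rw [List.ofFn_succ]
      simp
    rw [h0]
    simp only [h1, Fin.val_zero, pow_zero, one_smul, Fin.val_succ, pow_succ, mul_neg, mul_one, neg_smul,
      Finset.sum_neg_distrib]
    abel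

theorem cupL_ofFn [CommRing A] {n : ℕ} (f g : List J → A) (x : Fin (n + 1) → J) :
    cupL f g (List.ofFn x) = ∑ p ∈ Finset.HasAntidiagonal.antidiagonal n,
      f (List.ofFn (x ∘ seg n 0 p.1)) * g (List.ofFn (x ∘ seg n p.1 p.2)) := by
  induction n generalizing f with
  | zero =>
    rw [Finset.Nat.antidiagonal_zero, Finset.sum_singleton, List.ofFn_succ]
    simp [seg_zero_zero]
  | succ n ih =>
    have hA : List.ofFn (x ∘ seg (n + 1) 0 0) = [x 0] := by
      rw [seg_zero_zero]; simp
    have hB : List.ofFn (x ∘ seg (n + 1) 0 (n + 1)) = List.ofFn x := by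
      rw [seg_zero_self]; rfl
    have hC : ∀ i, List.ofFn (x ∘ seg (n + 1) 0 (i + 1)) =
        x 0 :: List.ofFn ((fun j => x j.succ) ∘ seg n 0 i) := by
      intro i
      rw [seg_succ_front, List.ofFn_succ]
      congr 1
    have hD : ∀ i l, List.ofFn (x ∘ seg (n + 1) (i + 1) l) =
        List.ofFn ((fun j => x j.succ) ∘ seg n i l) := by
      intro i l
      rw [seg_succ_back]
      congr 1
    rw [Finset.Nat.antidiagonal_succ, Finset.sum_cons, Finset.sum_map]
    change _ = f (List.ofFn (x ∘ seg (n + 1) 0 0)) * g (List.ofFn (x ∘ seg (n + 1) 0 (n + 1))) +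
      ∑ p ∈ Finset.HasAntidiagonal.antidiagonal n, f (List.ofFn (x ∘ seg (n + 1) 0 (p.1 + 1))) *
        g (List.ofFn (x ∘ seg (n + 1) (p.1 + 1) p.2))
    rw [hA, hB, Finset.sum_congr rfl fun p _ => by rw [hC, hD], List.ofFn_succ, cupL_cons, ih]

/-! ## the free `Perm (Fin w)`-set of injections -/

/-- the action of permutations on injections -/
instance actInj (U : Type) (w : ℕ) : MulAction (Equiv.Perm (Fin w)) (Fin w ↪ U) where
  smul σ j := σ.symm.toEmbedding.trans j
  one_smul j := by ext; rfl
  mul_smul σ τ j := by ext; rfl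

theorem smul_inj_apply {U : Type} {w : ℕ} (σ : Equiv.Perm (Fin w)) (j : Fin w ↪ U) (i : Fin w) :
    (σ • j) i = j (σ.symm i) := rfl

theorem free_inj {U : Type} {w : ℕ} (σ : Equiv.Perm (Fin w)) (j : Fin w ↪ U) (h : σ • j = j) : σ = 1 := by
  ext i
  have h1 : (σ • j) (σ i) = j (σ i) := by rw [h]
  rw [smul_inj_apply, Equiv.symm_apply_apply] at h1
  have := j.injective h1
  rw [← this]; rfl

variable {U : Type} {w : ℕ}

theorem ordp_smul {n : ℕ} (σ : Equiv.Perm (Fin w)) (x : Fin (n + 1) → (Fin w ↪ U)) :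
    (ordp U w).app n (fun i => σ • x i) = (ordp U w).app n x := by
  rw [ordp_eq_iff]
  intro j
  exact mem_thrs.2 ⟨σ.symm j, rfl⟩

theorem exists_smul_of_ordp_eq {n : ℕ} {x y : Fin (n + 1) → (Fin w ↪ U)}
    (h : (ordp U w).app n x = (ordp U w).app n y) : ∃ σ : Equiv.Perm (Fin w), y = fun i => σ • x i := by
  have h1 : ∀ j, ∃ k, thr y k = thr x j := fun j => mem_thrs.1 ((ordp_eq_iff.1 h) j)
  choose k hk using h1
  have hinj : Function.Injective k := by
    intro a b hab
    apply thr_inj x
    rw [← hk, ← hk, hab]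
  have hbij : Function.Bijective k := Finite.injective_iff_bijective.1 hinj
  refine ⟨Equiv.ofBijective k hbij, ?_⟩
  funext i
  ext j
  rw [smul_inj_apply]
  obtain ⟨j', rfl⟩ := hbij.2 j
  have h2 : (Equiv.ofBijective k hbij).symm (k j') = j' := by
    rw [Equiv.symm_apply_eq]; rfl
  rw [h2]
  exact congrFun (hk j') i

theorem ordp_surj {n : ℕ} (B : (Fs U w).S n) : ∃ x : Fin (n + 1) → (Fin w ↪ U), (ordp U w).app n x = B := by
  have h := ordp_card U w B
  have h2 : 0 < ((ordp_cov U w).fib B).card := by rw [h]; exact Nat.factorial_pos w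
  obtain ⟨x, hx⟩ := Finset.card_pos.1 h2
  exact ⟨x, (ordp_cov U w).mem_fib.1 hx⟩

/-- the function on simplices of `Fs U w` given by an invariant function of lists -/
noncomputable def bar (f : List (Fin w ↪ U) → A) : (Fs U w).T → A :=
  fun t => f (List.ofFn (ordp_surj t.2).choose)

theorem bar_ordp {f : List (Fin w ↪ U) → A} (hf : InvL (Equiv.Perm (Fin w)) f) {n : ℕ}
    (x : Fin (n + 1) → (Fin w ↪ U)) : bar f ⟨n, (ordp U w).app n x⟩ = f (List.ofFn x) := by
  unfold bar
  obtain ⟨σ, hσ⟩ := exists_smul_of_ordp_eq (ordp_surj ((ordp U w).app n x)).choose_spec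
  conv_rhs => rw [hσ]
  have := hf σ (List.ofFn (ordp_surj ((ordp U w).app n x)).choose)
  rw [List.map_ofFn] at this
  exact this.symm

section lin
variable (R : Type) [CommRing R]

/-- the linear functional on unnormalised chains -/
noncomputable def lin (f : List (Fin w ↪ U) → R) : Ch R (Fs U w) →ₗ[R] R :=
  Finsupp.linearCombination R (bar f)

variable {R}

theorem lin_single (f : List (Fin w ↪ U) → R) (t : (Fs U w).T) (r : R) : lin R f (single t r) = r * bar f t := by
  simp [lin]

theorem lin_bd {f : List (Fin w ↪ U) → R} (hf : InvL (Equiv.Perm (Fin w)) f)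
    (hf0 : InvL (Equiv.Perm (Fin w)) (dL f)) (h1 : ∀ x, dL f [x] = 0) (c : Ch R (Fs U w)) :
    lin R f (Ch.bd R _ c) = lin R (dL f) c := by
  suffices h : lin R f ∘ₗ Ch.bd R _ = lin R (dL f) from LinearMap.congr_fun h c
  refine Finsupp.lhom_ext fun t r => ?_
  obtain ⟨n, B⟩ := t
  obtain ⟨x, rfl⟩ := ordp_surj B
  rw [LinearMap.comp_apply, lin_single, bar_ordp hf0]
  rcases n with _ | n
  · have : Ch.bd R (Fs U w) (single ⟨0, (ordp U w).app 0 x⟩ r) = 0 := by
      simp [Ch.bd, Ch.bdT]
    rw [this, map_zero, List.ofFn_succ]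
    simp only [List.ofFn_zero]
    rw [h1, mul_zero]
  · have : Ch.bd R (Fs U w) (single ⟨n + 1, (ordp U w).app (n + 1) x⟩ r) =
        ∑ i : Fin (n + 2), single ⟨n, (Fs U w).act (Op.face i) ((ordp U w).app (n + 1) x)⟩
          (r * (-1 : R) ^ (i : ℕ)) := by
      simp [Ch.bd, Ch.bdT, Finset.smul_sum]
    rw [this, map_sum, dL_ofFn, Finset.mul_sum]
    refine Finset.sum_congr rfl fun i _ => ?_
    rw [lin_single, ← (ordp U w).nat, bar_ordp hf]
    rw [mul_assoc]
    congr 1
    rw [zsmul_eq_mul]
    push_cast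
    rfl


/-- torsion -/
theorem fact_lin {m : ℕ} (hm : 0 < m) {Y : List (Fin w ↪ U) → R} (hY : InvL (Equiv.Perm (Fin w)) Y)
    (hYm : DgL (2 * m + 1) Y) (hdY : ∀ l, dL Y l = 0) {c : Ch R (Fs U w)} (hc : Ch.bd R _ c = 0) :
    (w.factorial : R) * lin R Y c = 0 := by
  classical
  by_cases hU : Nonempty (Fin w ↪ U)
  · obtain ⟨j0⟩ := hU
    let S : List (Fin w ↪ U) → R := fun l => Y (j0 :: l)
    have hS : dL S = Y := by
      funext l
      have := hdY (j0 :: l)
      rw [dL_cons] at this
      exact (sub_eq_zero.1 this).symm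
    let S' : List (Fin w ↪ U) → R := fun l => ∑ σ : Equiv.Perm (Fin w), S (l.map (σ • ·))
    have hS' : InvL (Equiv.Perm (Fin w)) S' := by
      intro τ l
      refine Fintype.sum_equiv (Equiv.mulRight τ) _ _ fun σ => ?_
      rw [List.map_map]
      congr 1
    have hdS' : dL S' = fun l => (w.factorial : R) * Y l := by
      funext l
      have e : dL S' l = ∑ σ : Equiv.Perm (Fin w), dL (fun l => S (l.map (σ • ·))) l :=
        dL_sum Finset.univ (fun (σ : Equiv.Perm (Fin w)) (l : List (Fin w ↪ U)) => S (l.map (σ • ·))) l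
      rw [e]
      have e2 : ∀ σ : Equiv.Perm (Fin w), dL (fun l => S (l.map (σ • ·))) l = Y l := by
        intro σ
        rw [dL_map, hS]
        exact hY σ l
      rw [Finset.sum_congr rfl fun σ _ => e2 σ, Finset.sum_const, Finset.card_univ, Fintype.card_perm,
        Fintype.card_fin, nsmul_eq_mul]
    have h0 : ∀ x, dL S' [x] = 0 := by
      intro x
      rw [hdS']
      simp only
      rw [hYm [x] (by simp; omega), mul_zero]
    have hinv : InvL (Equiv.Perm (Fin w)) (dL S') := by
      intro τ l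
      rw [hdS']
      simp only
      rw [hY τ l]
    have h1 := lin_bd hS' hinv h0 c
    rw [hc, map_zero] at h1
    have h2 : lin R (dL S') = (w.factorial : R) • lin R Y := by
      refine Finsupp.lhom_ext fun t r => ?_
      rw [lin_single, LinearMap.smul_apply, lin_single, hdS']
      unfold bar
      simp only [smul_eq_mul]
      ring
    rw [h2, LinearMap.smul_apply, smul_eq_mul] at h1
    exact h1.symm
  · have : IsEmpty (Fs U w).T := ⟨fun t => hU ⟨(ordp_surj t.2).choose 0⟩⟩
    rw [Subsingleton.elim c 0, map_zero, mul_zero]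

end lin

/-! ## cochains of `Fs U w` as functions of lists -/

/-- the function of lists given by a cochain -/
noncomputable def uL [CommRing A] (u : Co A (Fs U w)) : List (Fin w ↪ U) → A
  | [] => 0
  | x :: l => u (N.sx A ((ordp U w).app l.length (fun i => (x :: l).get i)))

section uL
variable [CommRing A] (u : Co A (Fs U w))

theorem uL_eq {n : ℕ} (l : List (Fin w ↪ U)) (hl : l.length = n + 1) :
    uL u l = u (N.sx A ((ordp U w).app n (fun i => l.get (i.cast hl.symm)))) := by
  cases l with
  | nil => simp at hl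
  | cons x l =>
    simp only [List.length_cons, Nat.add_right_cancel_iff] at hl
    subst hl
    rfl

theorem uL_ofFn {n : ℕ} (x : Fin (n + 1) → (Fin w ↪ U)) :
    uL u (List.ofFn x) = u (N.sx A ((ordp U w).app n x)) := by
  rw [uL_eq u (List.ofFn x) (List.length_ofFn)]
  congr 3
  funext i
  rw [List.get_ofFn]
  rfl

theorem exists_ofFn (l : List J) (h : l ≠ []) : ∃ (n : ℕ) (x : Fin (n + 1) → J), l = List.ofFn x := by
  cases l with
  | nil => exact absurd rfl h
  | cons a l =>
    exact ⟨l.length, fun i => (a :: l).get i, (List.ofFn_get (a :: l)).symm⟩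

theorem uL_inv : InvL (Equiv.Perm (Fin w)) (uL u) := by
  intro σ l
  by_cases h : l = []
  · subst h; rfl
  · obtain ⟨n, x, rfl⟩ := exists_ofFn l h
    rw [List.map_ofFn, uL_ofFn, uL_ofFn]
    congr 2
    exact ordp_smul σ x

theorem uL_dg {m : ℕ} (hu : IsDeg m u) : DgL (m + 1) (uL u) := by
  intro l hl
  by_cases h : l = []
  · subst h; rfl
  · obtain ⟨n, x, rfl⟩ := exists_ofFn l h
    rw [uL_ofFn]
    refine hu n _ ?_
    rw [List.length_ofFn] at hl
    omega

theorem uL_dL (hu : u ∘ₗ N.bd A _ = 0) (l : List (Fin w ↪ U)) : dL (uL u) l = 0 := by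
  by_cases h : l = []
  · subst h; rfl
  · obtain ⟨n, x, rfl⟩ := exists_ofFn l h
    rcases n with _ | n
    · rw [List.ofFn_succ]
      simp [uL]
    · rw [dL_ofFn]
      have h1 := LinearMap.congr_fun hu (N.sx A ((ordp U w).app (n + 1) x))
      rw [LinearMap.comp_apply, EZ271.bd_sx_succ, map_sum, LinearMap.zero_apply] at h1
      rw [← h1]
      refine Finset.sum_congr rfl fun i _ => ?_
      rw [uL_ofFn, map_smul, ← (ordp U w).nat, zsmul_eq_mul, smul_eq_mul]
      push_cast
      rfl

theorem cupL_inv {G : Type} [Group G] [MulAction G J] {f g : List J → A} (hf : InvL G f) (hg : InvL G g) :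
    InvL G (cupL f g) := by
  intro s l
  rw [← cupL_map]
  have h1 : (fun l : List J => f (l.map (s • ·))) = f := funext fun l => hf s l
  have h2 : (fun l : List J => g (l.map (s • ·))) = g := funext fun l => hg s l
  rw [h1, h2]

theorem lin_cup (v : Co A (Fs U w)) (c : Ch A (Fs U w)) :
    lin A (cupL (uL u) (uL v)) c = cup u v (Submodule.Quotient.mk c) := by
  suffices h : lin A (cupL (uL u) (uL v)) = cup u v ∘ₗ (Ch.Dg A (Fs U w)).mkQ from LinearMap.congr_fun h c
  refine Finsupp.lhom_ext fun t r => ?_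
  obtain ⟨n, B⟩ := t
  obtain ⟨x, rfl⟩ := ordp_surj B
  rw [lin_single, bar_ordp (cupL_inv (uL_inv u) (uL_inv v)), cupL_ofFn]
  have e : (single (⟨n, (ordp U w).app n x⟩ : (Fs U w).T) r : Ch A (Fs U w)) =
      r • single ⟨n, (ordp U w).app n x⟩ 1 := by simp
  rw [e, map_smul, smul_eq_mul]
  congr 1
  change _ = cup u v (N.sx A ((ordp U w).app n x))
  rw [cup_sx]
  refine Finset.sum_congr rfl fun p _ => ?_
  rw [uL_ofFn, uL_ofFn, ← (ordp U w).nat, ← (ordp U w).nat]
  rfl

end uL

/-! ## the theorem -/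

theorem lin_co {R : Type} [CommRing R] (ρ : R →+* F2) (Y : List (Fin w ↪ U) → R) (c : Ch R (Fs U w)) :
    lin F2 (fun l => ρ (Y l)) (coC (ρ : R →+ F2) _ c) = ρ (lin R Y c) := by
  induction c using Finsupp.induction_linear with
  | zero => simp
  | add a b ha hb => rw [map_add, map_add, ha, hb, map_add, map_add]
  | single t r =>
    rw [coC_single, lin_single, lin_single, map_mul]
    rfl

/-- **SQ on `Fs U w`** from SQ of the symmetric group. -/
theorem sqFs_of {R : Type} [CommRing R] (ρ : R →+* F2) (w : ℕ) (hSQ : SQ ρ (Equiv.Perm (Fin w)))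
    (hw : ∀ y : R, (w.factorial : R) * y = 0 → ρ y = 0) (U : Type) {m : ℕ} (hm : 0 < m)
    (u : Co F2 (Fs U w)) (hu : u ∘ₗ N.bd F2 _ = 0) (hum : IsDeg m u) (z : N R (Fs U w))
    (hz : N.bd R _ z = 0) : cup u u (coN (ρ : R →+ F2) _ z) = 0 := by
  obtain ⟨c, rfl⟩ := Submodule.Quotient.mk_surjective _ z
  have hb : Ch.bd R _ c ∈ Ch.Dg R (Fs U w) := by
    have : (Submodule.Quotient.mk (Ch.bd R _ c) : N R (Fs U w)) = 0 := hz
    exact (Submodule.Quotient.mk_eq_zero _).1 this
  obtain ⟨e, he, he'⟩ := dgAcyclic R (Fs U w) _ hb (Ch.bd_bd c)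
  have hc : Ch.bd R _ (c - e) = 0 := by rw [map_sub, he', sub_self]
  have hce : (Submodule.Quotient.mk c : N R (Fs U w)) = Submodule.Quotient.mk (c - e) := by
    rw [Submodule.Quotient.mk_sub, (Submodule.Quotient.mk_eq_zero _).2 he, sub_zero]
  rw [hce]
  generalize c - e = b at hc
  obtain ⟨Y, v, hY, hv, hYm, hvm, hdY, huu⟩ := hSQ (Fin w ↪ U) free_inj m (uL u) (uL_inv u) (uL_dg u hum)
    (uL_dL u hu)
  rw [coN_mk, ← lin_cup]
  have h1 : cupL (uL u) (uL u) = fun l => ρ (Y l) + dL v l := funext huu
  have h2 : lin F2 (cupL (uL u) (uL u)) (coC (ρ : R →+ F2) _ b) =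
      lin F2 (fun l => ρ (Y l)) (coC (ρ : R →+ F2) _ b) + lin F2 (dL v) (coC (ρ : R →+ F2) _ b) := by
    rw [h1]
    generalize coC (ρ : R →+ F2) (Fs U w) b = b'
    rw [← LinearMap.add_apply]
    congr 1
    refine Finsupp.lhom_ext fun t r => ?_
    rw [LinearMap.add_apply, lin_single, lin_single, lin_single, ← mul_add]
    rfl
  have hdv : InvL (Equiv.Perm (Fin w)) (dL v) := by
    intro σ l
    rw [← dL_map]
    have : (fun l : List (Fin w ↪ U) => v (l.map (σ • ·))) = v := funext fun l => hv σ l
    rw [this]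
  have hdv0 : ∀ x, dL v [x] = 0 := by
    intro x
    rw [dL_cons, dL_nil, sub_zero]
    exact hvm [] (by simp; omega)
  rw [h2, lin_co, ← lin_bd hv hdv hdv0, ← coC_bd, hc, map_zero, map_zero, add_zero]
  exact hw _ (fact_lin hm hY hYm hdY hc)

end Crest.Agent.R204.SQG334
private theorem rz_69bf7a9d21 : type_of% @_root_.Crest.Agent.R204.SQG334.uL.eq_1 := @_root_.Crest.Agent.R204.SQG334.uL.eq_1 -- L232
end

-- ▼ part R204/SQT_334

/-!
# Row 204, block G, lemma SQ: odd index transfer and `Fs U w` for 803's frozen `SQ` (helper334)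
-/

set_option autoImplicit false
set_option linter.unusedSectionVars false

namespace Crest.Agent.R204.SQG334

open Finsupp Pont718 Fs348 Tors947 Coef947

theorem dl_eq {J A : Type} [AddCommGroup A] (f : List J → A) (l : List J) : SQ803.dl l f = dL f l := by
  induction l generalizing f with
  | nil => rfl
  | cons x l ih => rw [SQ803.dl_cons, dL_cons, ih]

theorem cupl_eq {J : Type} (f g : List J → ZMod 2) (l : List J) : SQ803.cupl l f g = cupL f g l := by
  induction l generalizing f with
  | nil => rfl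
  | cons x l ih =>
    have := ih (fun l' => f (x :: l'))
    rw [cupL_cons, ← this]; rfl

theorem dgL_iff {J A : Type} [Zero A] (n : ℕ) (f : List J → A) :
    DgL n f ↔ ∀ l, f l ≠ 0 → l.length = n := by
  constructor
  · intro h l hl
    by_contra hn
    exact hl (h l hn)
  · intro h l hl
    by_contra hn
    exact hl (h l hn)

/-- the reduction mod 2 -/
noncomputable def r2 (N : ℕ) (hN : 0 < N) : ZMod (2 ^ N) →+* F2 :=
  ZMod.castHom (dvd_pow_self 2 hN.ne') (ZMod 2)


theorem sq_of_803 {G : Type} [Group G] (h : SQ803.SQ G) (N : ℕ) (hN : 0 < N) : SQ (r2 N hN) G := by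
  intro J _ hfree m u hu hum hdu
  obtain ⟨Y, v, hYm, hY, hdY, hvm, -, hv, huu⟩ := h J hfree N hN m u ((dgL_iff _ _).1 hum) hu
    (fun l => by rw [dl_eq]; exact hdu l)
  refine ⟨Y, v, hY, hv, (dgL_iff _ _).2 hYm, (dgL_iff _ _).2 hvm, fun l => by rw [← dl_eq]; exact hdY l,
    fun l => ?_⟩
  rw [← cupl_eq, huu l, dl_eq]; rfl

/-- odd index transfer for 803's `SQ` -/
theorem SQ_odd (G : Type) [Group G] (H : Subgroup G) (hH : Odd H.index) (h : SQ803.SQ H) : SQ803.SQ G := by
  classical
  intro J _ hfree N hN m u hum hu hdu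
  have : Finite (G ⧸ H) := by
    refine Nat.finite_of_card_ne_zero ?_
    have := hH.pos.ne'
    exact this
  let _ : Fintype (G ⧸ H) := Fintype.ofFinite _
  obtain ⟨Y, v, hYm, hY, hdY, hvm, hv0, hv, huu⟩ := h J (fun g j hg => by
    have := hfree (g : G) j hg
    exact Subtype.ext this) N hN m u hum (fun g l => hu (g : G) l) hdu
  refine ⟨trL H Y, trL H v, (dgL_iff _ _).1 (trL_dg H ((dgL_iff _ _).2 hYm)), trL_inv H hY, fun l => ?_,
    (dgL_iff _ _).1 (trL_dg H ((dgL_iff _ _).2 hvm)), ?_, trL_inv H hv, fun l => ?_⟩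
  · rw [dl_eq, trL_dL, show dL Y = 0 from funext fun l => by rw [← dl_eq]; exact hdY l]
    unfold trL tL
    exact Finset.sum_eq_zero fun q _ => rfl
  · unfold trL tL
    exact Finset.sum_eq_zero fun q _ => hv0
  · rw [dl_eq, trL_dL, cupl_eq]
    have h1 : trL H (cupL u u) l = cupL u u l := by
      rw [trL_of_inv H (fun g l => ?_) l]
      · obtain ⟨k, hk⟩ := hH
        rw [hk, add_smul, one_smul, mul_smul, two_nsmul, CharTwo.add_self_eq_zero, zero_add]
      · rw [← cupL_map]
        have : (fun l : List J => u (l.map (g • ·))) = u := funext fun l => hu g l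
        rw [this]
    rw [← h1]
    change trL H (cupL u u) l = r2 N hN (trL H Y l) + trL H (dL v) l
    unfold trL tL
    rw [map_sum, ← Finset.sum_add_distrib]
    refine Finset.sum_congr rfl fun q _ => ?_
    rw [← cupl_eq, huu, dl_eq]; rfl

/-- SQ for all symmetric groups from 803's closure properties -/
theorem SQ_perm (hiso : ∀ (G H : Type) [Group G] [Group H], (G ≃* H) → SQ803.SQ G → SQ803.SQ H)
    (h1 : SQ803.SQ PUnit)
    (hprod : ∀ (G H : Type) [Group G] [Group H] [Finite G] [Finite H], SQ803.SQ G → SQ803.SQ H →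
      SQ803.SQ (G × H))
    (hwr : ∀ (G : Type) [Group G] [Finite G], SQ803.SQ G →
      SQ803.SQ (RegularWreathProduct G (Multiplicative (ZMod 2)))) :
    ∀ w : ℕ, SQ803.SQ (Equiv.Perm (Fin w)) :=
  perm_of_closure (fun G _ => SQ803.SQ G) hiso h1 hprod hwr (fun G _ _ H hH h => SQ_odd G H hH h)

theorem rho_zero_of_smul {N : ℕ} (hN : 0 < N) {f : ℕ} (hf : ¬ 2 ^ N ∣ f) (y : ZMod (2 ^ N))
    (h : (f : ZMod (2 ^ N)) * y = 0) : r2 N hN y = 0 := by
  by_contra hne
  apply hf
  have : NeZero (2 ^ N) := ⟨by positivity⟩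
  obtain ⟨k, rfl⟩ : ∃ k : ℕ, y = (k : ZMod (2 ^ N)) := ⟨y.val, by simp⟩
  have h2 : r2 N hN (k : ZMod (2 ^ N)) = (k : ZMod 2) := map_natCast _ _
  rw [h2] at hne
  have hk : ¬ 2 ∣ k := fun hd => hne ((ZMod.natCast_eq_zero_iff k 2).2 hd)
  have hcop : Nat.Coprime (2 ^ N) k := by
    apply Nat.Coprime.pow_left
    exact (Nat.Prime.coprime_iff_not_dvd Nat.prime_two).2 hk
  have h3 : ((f * k : ℕ) : ZMod (2 ^ N)) = 0 := by push_cast; exact h
  have h4 := (ZMod.natCast_eq_zero_iff _ _).1 h3
  exact hcop.dvd_of_dvd_mul_right h4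

/-- **LEMMA SQ on `Fs U w`** (cochain form): the cup square of a mod 2 cocycle of positive degree vanishes on
reductions of cycles mod `2 ^ N`, if `2 ^ N` does not divide `w!`. -/
theorem sqFs (hperm : ∀ w : ℕ, SQ803.SQ (Equiv.Perm (Fin w))) {w k : ℕ} (hN : 0 < k)
    (hw : ¬ 2 ^ k ∣ w.factorial) (U : Type) {m : ℕ} (hm : 0 < m) (u : Co F2 (Fs U w))
    (hu : u ∘ₗ N.bd F2 _ = 0) (hum : IsDeg m u) (z : N (ZMod (2 ^ k)) (Fs U w)) (hz : N.bd _ _ z = 0) :
    cup u u (coN (rho (2 ^ k) 2 (dvd_pow_self 2 hN.ne')) _ z) = 0 :=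
  sqFs_of (r2 k hN) w (sq_of_803 (hperm w) k hN) (fun y hy => rho_zero_of_smul hN hw y hy) U hm u hu hum z hz

end Crest.Agent.R204.SQG334
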