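import Crest.Agent.R204.Hopf4_450
import Crest.Agent.R204.CoalgGr_847
import Crest.Agent.R204.Gr_334
import Crest.Agent.R204.HtpInv_334
import Crest.Agent.R204.ThAlg_265

/-!
# Row 204, A4p (helper450): constructors, H-maps, products, primitives
-/

set_option autoImplicit false
set_option linter.style.haveILetI false

namespace Crest.Agent.R204.Hopf450

open TensorProduct Coalg847

/-! ## constructors -/

/-- from homotopies (relation `SH` of `ThAlg_265`) -/
def HMon.ofSH {K : SS} (mu : SS.Hom (K.prod K) K) (e : K.S 0)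
    (hl : ThAlg265.SH (mu.comp (SS.pair (SS.constHom K K e) (SS.Hom.id K))) (SS.Hom.id K))
    (hr : ThAlg265.SH (mu.comp (SS.pair (SS.Hom.id K) (SS.constHom K K e))) (SS.Hom.id K))
    (ha : ThAlg265.SH (mu.comp (SS.prodMap mu (SS.Hom.id K)))
      (mu.comp (SS.pair ((SS.fst K K).comp (SS.fst _ _))
        (mu.comp (SS.pair ((SS.snd K K).comp (SS.fst _ _)) (SS.snd _ _))))))
    (hc : ThAlg265.SH mu (mu.comp (SS.swap K K))) : HMon K where
  mu := mu
  e := e
  unit_left := by
    rw [hl.map_eq HtpInv334.homotopyInv F2]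
    exact LinearMap.ext fun x => hMap_id x
  unit_right := by
    rw [hr.map_eq HtpInv334.homotopyInv F2]
    exact LinearMap.ext fun x => hMap_id x
  assoc := ha.map_eq HtpInv334.homotopyInv F2
  comm := (hc.map_eq HtpInv334.homotopyInv F2).symm

/-- from an abstract `Θ`-algebra -/
def HMon.ofThAlg {m : ℕ} {K : SS} (A : ThAlg265.ThAlg m K) (hl : A.UnitL) (hr : A.UnitR)
    (ha : A.Assoc) (hc : A.Comm) : HMon K :=
  HMon.ofSH A.mu A.one hl hr ha hc

@[simp] theorem HMon.ofThAlg_mu {m : ℕ} {K : SS} (A : ThAlg265.ThAlg m K) (hl : A.UnitL)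
    (hr : A.UnitR) (ha : A.Assoc) (hc : A.Comm) : (HMon.ofThAlg A hl hr ha hc).mu = A.mu := rfl

@[simp] theorem HMon.ofThAlg_e {m : ℕ} {K : SS} (A : ThAlg265.ThAlg m K) (hl : A.UnitL)
    (hr : A.UnitR) (ha : A.Assoc) (hc : A.Comm) : (HMon.ofThAlg A hl hr ha hc).e = A.one := rfl

/-! ## primitives -/

/-- primitive classes with respect to the vertex `v` (group-like `[v]`) -/
def IsPrim (E : EZData) {K : SS} (v : K.S 0) (y : H F2 K) : Prop :=
  E.cop K y = y ⊗ₜ[F2] vtx v + vtx v ⊗ₜ[F2] y

/-- submodule of primitives -/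
def prim (E : EZData) {K : SS} (v : K.S 0) : Submodule F2 (H F2 K) where
  carrier := {y | IsPrim E v y}
  add_mem' {a b} ha hb := by
    simp only [IsPrim, Set.mem_ofPred_eq] at ha hb ⊢
    rw [map_add, ha, hb, TensorProduct.add_tmul, TensorProduct.tmul_add]; abel
  zero_mem' := by simp [IsPrim]
  smul_mem' c a ha := by
    simp only [IsPrim, Set.mem_ofPred_eq] at ha ⊢
    rw [map_smul, ha, smul_add, TensorProduct.smul_tmul', TensorProduct.tmul_smul]


/-- functoriality of primitives -/
theorem IsPrim.map {E : EZData} {K L : SS} {v : K.S 0} {w : L.S 0} (f : SS.Hom K L)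
    (hf : vtx (f.app 0 v) = vtx w) {y : H F2 K} (hy : IsPrim E v y) :
    IsPrim E w (H.map F2 f y) := by
  unfold IsPrim at hy ⊢
  rw [E.cop_nat, hy, map_add, TensorProduct.map_tmul, TensorProduct.map_tmul, hMap_vtx, hf]

/-- the augmentation of a primitive class vanishes -/
theorem IsPrim.eps {E : EZData} {K : SS} {v : K.S 0} {y : H F2 K} (hy : IsPrim E v y) :
    Coalg847.eps K y = 0 := by
  have h1 := E.eps_cop y
  rw [hy, map_add, TensorProduct.map_tmul, TensorProduct.map_tmul, map_add,
    TensorProduct.lid_tmul, TensorProduct.lid_tmul, eps_vtx, one_smul, LinearMap.id_apply,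
    LinearMap.id_apply] at h1
  have h2 : Coalg847.eps K y • vtx v = (0 : H F2 K) := by simpa using h1
  have h3 := congrArg (Coalg847.eps K) h2
  rw [map_smul, eps_vtx, map_zero, smul_eq_mul, mul_one] at h3
  exact h3


/-! ## comparison with a given chain-level cross product -/


/-! ## maps of H-monoids -/

/-- H-map, up to homology -/
structure HMor {K L : SS} (M : HMon K) (M' : HMon L) (f : SS.Hom K L) : Prop where
  mu : H.map F2 (f.comp M.mu) = H.map F2 (M'.mu.comp (SS.prodMap f f))
  one : vtx (f.app 0 M.e) = vtx M'.e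

namespace HMor

variable {K L J : SS} {M : HMon K} {M' : HMon L} {M'' : HMon J} {f : SS.Hom K L}

theorem id (M : HMon K) : HMor M M (SS.Hom.id K) := ⟨rfl, rfl⟩

theorem comp {g : SS.Hom L J} (hg : HMor M' M'' g) (hf : HMor M M' f) : HMor M M'' (g.comp f) where
  mu := by
    refine LinearMap.ext fun x => ?_
    have h1 := LinearMap.congr_fun hf.mu x
    have h2 := LinearMap.congr_fun hg.mu (H.map F2 (SS.prodMap f f) x)
    have e1 : (g.comp f).comp M.mu = g.comp (f.comp M.mu) := rfl
    have e2 : M''.mu.comp (SS.prodMap (g.comp f) (g.comp f)) =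
      (M''.mu.comp (SS.prodMap g g)).comp (SS.prodMap f f) := rfl
    rw [e1, e2, hMap_comp, h1, hMap_comp (M''.mu.comp (SS.prodMap g g)), ← h2, ← hMap_comp,
      ← hMap_comp]
    rfl
  one := by
    show vtx (g.app 0 (f.app 0 M.e)) = _
    rw [← hMap_vtx, hf.one, hMap_vtx, hg.one]







end HMor

/-! ## products of H-monoids -/

section prod

variable {K L : SS}

theorem map_comp_congr {A B C : SS} {f g : SS.Hom B C} (h : H.map F2 f = H.map F2 g)
    (s : SS.Hom A B) : H.map F2 (f.comp s) = H.map F2 (g.comp s) :=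
  LinearMap.ext fun x => by rw [hMap_comp, hMap_comp, h]

/-- linear maps out of `H (K × L)` are determined on cross products -/
theorem cr_ext (E : EZData) {P : Type*} [AddCommGroup P] [Module F2 P]
    {f g : H F2 (K.prod L) →ₗ[F2] P}
    (h : ∀ x y, f (E.cr K L (x ⊗ₜ y)) = g (E.cr K L (x ⊗ₜ y))) : f = g := by
  have : f ∘ₗ (E.cr K L).toLinearMap = g ∘ₗ (E.cr K L).toLinearMap :=
    TensorProduct.ext' fun x y => h x y
  refine LinearMap.ext fun z => ?_
  obtain ⟨t, rfl⟩ := (E.cr K L).surjective z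
  exact LinearMap.congr_fun this t


/-- the product of two H-monoids -/
noncomputable def HMon.prod (M : HMon K) (M' : HMon L) (E : EZData) : HMon (K.prod L) where
  mu := (SS.prodMap M.mu M'.mu).comp (mid K L K L)
  e := (M.e, M'.e)
  unit_left := by
    refine cr_ext E fun x y => ?_
    have h1 : ((SS.prodMap M.mu M'.mu).comp (mid K L K L)).comp
        (SS.pair (SS.constHom (K.prod L) (K.prod L) (M.e, M'.e)) (SS.Hom.id (K.prod L))) =
      SS.prodMap (M.mu.comp (SS.pair (SS.constHom K K M.e) (SS.Hom.id K)))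
        (M'.mu.comp (SS.pair (SS.constHom L L M'.e) (SS.Hom.id L))) := rfl
    rw [h1, E.cr_nat, M.unit_left, M'.unit_left]
    rfl
  unit_right := by
    refine cr_ext E fun x y => ?_
    have h1 : ((SS.prodMap M.mu M'.mu).comp (mid K L K L)).comp
        (SS.pair (SS.Hom.id (K.prod L)) (SS.constHom (K.prod L) (K.prod L) (M.e, M'.e))) =
      SS.prodMap (M.mu.comp (SS.pair (SS.Hom.id K) (SS.constHom K K M.e)))
        (M'.mu.comp (SS.pair (SS.Hom.id L) (SS.constHom L L M'.e))) := rfl
    rw [h1, E.cr_nat, M.unit_right, M'.unit_right]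
    rfl
  assoc := by
    -- both sides factor through the shuffle ((K L)(K L))(K L) → ((K K) K) × ((L L) L)
    let sh : SS.Hom (((K.prod L).prod (K.prod L)).prod (K.prod L))
        (((K.prod K).prod K).prod ((L.prod L).prod L)) :=
      (mid (K.prod K) (L.prod L) K L).comp (SS.prodMap (mid K L K L) (SS.Hom.id (K.prod L)))
    have h1 : ((SS.prodMap M.mu M'.mu).comp (mid K L K L)).comp
        (SS.prodMap ((SS.prodMap M.mu M'.mu).comp (mid K L K L)) (SS.Hom.id (K.prod L))) =
      (SS.prodMap (M.mu.comp (SS.prodMap M.mu (SS.Hom.id K)))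
        (M'.mu.comp (SS.prodMap M'.mu (SS.Hom.id L)))).comp sh := rfl
    have h2 : (((SS.prodMap M.mu M'.mu).comp (mid K L K L)).comp
        (SS.prodMap (SS.Hom.id (K.prod L)) ((SS.prodMap M.mu M'.mu).comp (mid K L K L)))).comp
          (asc (K.prod L) (K.prod L) (K.prod L)) =
      (SS.prodMap ((M.mu.comp (SS.prodMap (SS.Hom.id K) M.mu)).comp (asc K K K))
        ((M'.mu.comp (SS.prodMap (SS.Hom.id L) M'.mu)).comp (asc L L L))).comp sh := rfl
    have h3 : H.map F2 (SS.prodMap (M.mu.comp (SS.prodMap M.mu (SS.Hom.id K)))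
        (M'.mu.comp (SS.prodMap M'.mu (SS.Hom.id L)))) =
      H.map F2 (SS.prodMap ((M.mu.comp (SS.prodMap (SS.Hom.id K) M.mu)).comp (asc K K K))
        ((M'.mu.comp (SS.prodMap (SS.Hom.id L) M'.mu)).comp (asc L L L))) := by
      refine cr_ext E fun x y => ?_
      rw [E.cr_nat, E.cr_nat, M.assoc, M'.assoc]
    rw [h1, h2]
    exact map_comp_congr h3 sh
  comm := by
    have h1 : ((SS.prodMap M.mu M'.mu).comp (mid K L K L)).comp (SS.swap (K.prod L) (K.prod L)) =
      (SS.prodMap (M.mu.comp (SS.swap K K)) (M'.mu.comp (SS.swap L L))).comp (mid K L K L) := rfl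
    have h2 : H.map F2 (SS.prodMap (M.mu.comp (SS.swap K K)) (M'.mu.comp (SS.swap L L))) =
        H.map F2 (SS.prodMap M.mu M'.mu) := by
      refine cr_ext E fun x y => ?_
      rw [E.cr_nat, E.cr_nat, M.comm, M'.comm]
    rw [h1]
    exact map_comp_congr h2 _


end prod

/-! ## grading facts in one place -/

theorem isInternal (K : SS) : DirectSum.IsInternal (H.gr F2 K) := Gr334.isInternal_H F2 K

end Crest.Agent.R204.Hopf450
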