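import Crest.Agent.R204.Thr_328
import Crest.Agent.R204.ThAlg_265

/-!
# Row 204, block G (G12, helper328): the thread model is a `Θ`-algebra

`totAlg e M : ThAlg M (Tot U)` for an embedding `e : U ⊕ U ↪ U`, with all laws.  Every law is an
equality of maps into `Tot W` up to the choice of an embedding `W ↪ U`, and any two embeddings are
joined by the homotopy `hmt`.
-/

set_option autoImplicit false

noncomputable section

namespace Crest.Agent.R204.TotAlg328

open Crest.Agent.R204 SS Fs348 Thr328 ThAlg265 ThetaSS265 SingAct265 DK742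

/-- change of embedding -/
theorem relab {U W : Type} (f g : U ↪ W) : SH (mapU f) (mapU g) :=
  SH.of ⟨hmt f g, fun _ x => hmt_zero f g x _ fun _ => rfl, fun _ x => hmt_one f g x _ fun _ => rfl⟩

/-- change of embedding after a fixed map -/
theorem relab_comp {K : SS} {U W : Type} (f g : U ↪ W) (Φ : Hom K (Tot U)) :
    SH ((mapU f).comp Φ) ((mapU g).comp Φ) := (relab f g).pre Φ

section general

variable (M : ℕ) (U : Type)

/-- `θ` on the skeleton -/
def thS : Hom ((EM M).prod ((Tot U).prod (Tot U))) (Tot (U ⊕ U)) :=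
  (tht U).comp (prodMap (skIncl M EZ2) (Hom.id _))


theorem thS_inv (n : ℕ) (p : ((EM M).prod ((Tot U).prod (Tot U))).S n) :
    (thS M U).app n (((invEM M).prod (Invo.swap (Tot U))).g.app n p) = (thS M U).app n p := by
  obtain ⟨g, A, B⟩ := p
  exact Subtype.ext (th_swap g.1 A.1 B.1)

/-- `Θ` with values in the doubled universe -/
def thD : Hom (DM M (Tot U)) (Tot (U ⊕ U)) := orbLift _ (thS M U) (thS_inv M U)


/-- `Ψ` with values in the doubled universe -/
def psD : Hom ((BM M).prod (Tot U)) (Tot (U ⊕ U)) := (thD M U).comp (diagD M (Tot U))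


variable {U}


theorem psD_map {W : Type} (f : U ↪ W) :
    (mapU (f.sumMap f)).comp (psD M U) = (psD M W).comp (prodMap (Hom.id _) (mapU f)) := by
  refine SS.Hom.ext (funext fun n => funext fun p => ?_)
  obtain ⟨b, A⟩ := p
  obtain ⟨g, rfl⟩ := proj_surj _ n b
  exact Subtype.ext (pu_th f g.1 A.1 A.1)

end general

/-! ## the middle interchange and the shear of the universe -/

section perm

variable (U : Type)

/-- middle interchange -/
def mid : (U ⊕ U) ⊕ (U ⊕ U) ↪ (U ⊕ U) ⊕ (U ⊕ U) where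
  toFun
    | Sum.inl (Sum.inl a) => Sum.inl (Sum.inl a)
    | Sum.inl (Sum.inr a) => Sum.inr (Sum.inl a)
    | Sum.inr (Sum.inl a) => Sum.inl (Sum.inr a)
    | Sum.inr (Sum.inr a) => Sum.inr (Sum.inr a)
  inj' := by
    rintro ((a | a) | (a | a)) ((b | b) | (b | b)) h <;> simp_all

/-- shear -/
def shr : (U ⊕ U) ⊕ (U ⊕ U) ↪ (U ⊕ U) ⊕ (U ⊕ U) where
  toFun
    | Sum.inl (Sum.inl a) => Sum.inl (Sum.inl a)
    | Sum.inl (Sum.inr a) => Sum.inl (Sum.inr a)
    | Sum.inr (Sum.inl a) => Sum.inr (Sum.inr a)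
    | Sum.inr (Sum.inr a) => Sum.inr (Sum.inl a)
  inj' := by
    rintro ((a | a) | (a | a)) ((b | b) | (b | b)) h <;> simp_all

variable {U}

theorem mid_side {n : ℕ} (g h : Fin (n + 1) → ZMod 2) (c d : ZMod 2) (a : Fin (n + 1) → U) :
    mid U ∘ side g c (side h d a) = side h d (side g c a) := by
  funext i
  simp only [Function.comp_apply, side]
  split_ifs <;> rfl

theorem mid_side_inl {n : ℕ} (g : Fin (n + 1) → ZMod 2) (c : ZMod 2) (a : Fin (n + 1) → U) :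
    mid U ∘ side g c (Sum.inl ∘ a) = Sum.inl ∘ side g c a := by
  funext i
  simp only [Function.comp_apply, side]
  split_ifs <;> rfl

theorem mid_side_inr {n : ℕ} (g : Fin (n + 1) → ZMod 2) (c : ZMod 2) (a : Fin (n + 1) → U) :
    mid U ∘ side g c (Sum.inr ∘ a) = Sum.inr ∘ side g c a := by
  funext i
  simp only [Function.comp_apply, side]
  split_ifs <;> rfl

theorem shr_side {n : ℕ} (g h : Fin (n + 1) → ZMod 2) (c d : ZMod 2) (a : Fin (n + 1) → U) :
    shr U ∘ side g c (side (fun i => g i + h i) d a) = side g c (side h (d + c) a) := by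
  funext i
  simp only [Function.comp_apply, side]
  have key : ∀ x y c d : ZMod 2,
      (x + c = 0 → (x + y + d = 0 ↔ y + (d + c) = 0)) ∧
      (x + c ≠ 0 → (x + y + d = 0 ↔ y + (d + c) ≠ 0)) := by decide
  obtain ⟨k1, k2⟩ := key (g i) (h i) c d
  by_cases h1 : g i + c = 0
  · have k := k1 h1
    by_cases h2 : g i + h i + d = 0
    · rw [if_pos h1, if_pos h2, if_pos h1, if_pos (k.1 h2)]; rfl
    · rw [if_pos h1, if_neg h2, if_pos h1, if_neg (fun e => h2 (k.2 e))]; rfl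
  · have k := k2 h1
    by_cases h2 : g i + h i + d = 0
    · rw [if_neg h1, if_pos h2, if_neg h1, if_neg (k.1 h2)]; rfl
    · have h3 : h i + (d + c) = 0 := by
        by_contra h3; exact h2 (k.2 h3)
      rw [if_neg h1, if_neg h2, if_neg h1, if_pos h3]; rfl

/-- the threads of a double `θ` -/
theorem mem_th_th {n : ℕ} {g h : Fin (n + 1) → ZMod 2} {A : Finset (Fin (n + 1) → U)}
    {c : Fin (n + 1) → (U ⊕ U) ⊕ (U ⊕ U)} :
    c ∈ th g (th h A A) (th h A A) ↔ ∃ (x y : ZMod 2), ∃ a ∈ A, side g x (side h y a) = c := by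
  have hz : ∀ z : ZMod 2, z = 0 ∨ z = 1 := by decide
  simp only [mem_th]
  constructor
  · rintro (⟨_, (⟨a, ha, rfl⟩ | ⟨a, ha, rfl⟩), rfl⟩ | ⟨_, (⟨a, ha, rfl⟩ | ⟨a, ha, rfl⟩), rfl⟩)
    · exact ⟨0, 0, a, ha, rfl⟩
    · exact ⟨0, 1, a, ha, rfl⟩
    · exact ⟨1, 0, a, ha, rfl⟩
    · exact ⟨1, 1, a, ha, rfl⟩
  · rintro ⟨x, y, a, ha, rfl⟩
    rcases hz x with rfl | rfl <;> rcases hz y with rfl | rfl
    · exact Or.inl ⟨_, Or.inl ⟨a, ha, rfl⟩, rfl⟩
    · exact Or.inl ⟨_, Or.inr ⟨a, ha, rfl⟩, rfl⟩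
    · exact Or.inr ⟨_, Or.inl ⟨a, ha, rfl⟩, rfl⟩
    · exact Or.inr ⟨_, Or.inr ⟨a, ha, rfl⟩, rfl⟩

theorem pu_mid_th {n : ℕ} (g h : Fin (n + 1) → ZMod 2) (A : Finset (Fin (n + 1) → U)) :
    pu (mid U) (th g (th h A A) (th h A A)) = th h (th g A A) (th g A A) := by
  ext c
  rw [mem_pu, mem_th_th]
  constructor
  · rintro ⟨b, hb, rfl⟩
    obtain ⟨x, y, a, ha, rfl⟩ := mem_th_th.1 hb
    exact ⟨y, x, a, ha, (mid_side g h x y a).symm⟩
  · rintro ⟨x, y, a, ha, rfl⟩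
    exact ⟨_, mem_th_th.2 ⟨y, x, a, ha, rfl⟩, mid_side g h y x a⟩

theorem pu_shr_th {n : ℕ} (g h : Fin (n + 1) → ZMod 2) (A : Finset (Fin (n + 1) → U)) :
    pu (shr U) (th g (th (fun i => g i + h i) A A) (th (fun i => g i + h i) A A)) =
      th g (th h A A) (th h A A) := by
  have hxx : ∀ x y : ZMod 2, y + x + x = y := by decide
  ext c
  rw [mem_pu, mem_th_th]
  constructor
  · rintro ⟨b, hb, rfl⟩
    obtain ⟨x, y, a, ha, rfl⟩ := mem_th_th.1 hb
    exact ⟨x, y + x, a, ha, (shr_side g h x y a).symm⟩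
  · rintro ⟨x, y, a, ha, rfl⟩
    refine ⟨_, mem_th_th.2 ⟨x, y + x, a, ha, rfl⟩, ?_⟩
    rw [shr_side, hxx]

theorem pu_mid_du {n : ℕ} (g : Fin (n + 1) → ZMod 2) (A B A' B' : Finset (Fin (n + 1) → U)) :
    pu (mid U) (th g (du A B) (du A' B')) = du (th g A A') (th g B B') := by
  ext c
  simp only [mem_pu, mem_th, mem_du]
  constructor
  · rintro ⟨_, (⟨_, (⟨a, ha, rfl⟩ | ⟨a, ha, rfl⟩), rfl⟩ | ⟨_, (⟨a, ha, rfl⟩ | ⟨a, ha, rfl⟩), rfl⟩),
      rfl⟩
    · exact Or.inl ⟨_, Or.inl ⟨a, ha, rfl⟩, (mid_side_inl g 0 a).symm⟩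
    · exact Or.inr ⟨_, Or.inl ⟨a, ha, rfl⟩, (mid_side_inr g 0 a).symm⟩
    · exact Or.inl ⟨_, Or.inr ⟨a, ha, rfl⟩, (mid_side_inl g 1 a).symm⟩
    · exact Or.inr ⟨_, Or.inr ⟨a, ha, rfl⟩, (mid_side_inr g 1 a).symm⟩
  · rintro (⟨_, (⟨a, ha, rfl⟩ | ⟨a, ha, rfl⟩), rfl⟩ | ⟨_, (⟨a, ha, rfl⟩ | ⟨a, ha, rfl⟩), rfl⟩)
    · exact ⟨_, Or.inl ⟨_, Or.inl ⟨a, ha, rfl⟩, rfl⟩, mid_side_inl g 0 a⟩
    · exact ⟨_, Or.inr ⟨_, Or.inl ⟨a, ha, rfl⟩, rfl⟩, mid_side_inl g 1 a⟩
    · exact ⟨_, Or.inl ⟨_, Or.inr ⟨a, ha, rfl⟩, rfl⟩, mid_side_inr g 0 a⟩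
    · exact ⟨_, Or.inr ⟨_, Or.inr ⟨a, ha, rfl⟩, rfl⟩, mid_side_inr g 1 a⟩

end perm

/-! ## the algebra -/

section alg

variable {U : Type} (e : U ⊕ U ↪ U) (M : ℕ)

/-- disjoint union inside the universe -/
def muT : Hom ((Tot U).prod (Tot U)) (Tot U) := (mapU e).comp (dj U U)

/-- `Θ` inside the universe -/
def ThT : Hom (DM M (Tot U)) (Tot U) := (mapU e).comp (thD M U)

/-- the empty set -/
def oneT (U : Type) : (Tot U).S 0 := ⟨∅, fun _ _ h => by simp at h⟩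

/-- the `Θ`-algebra of threads -/
def totAlg : ThAlg M (Tot U) := ⟨ThT e M, muT e, oneT U⟩

@[simp] theorem totAlg_Th : (totAlg e M).Th = ThT e M := rfl
@[simp] theorem totAlg_mu : (totAlg e M).mu = muT e := rfl
@[simp] theorem totAlg_one : (totAlg e M).one = oneT U := rfl

@[simp] theorem muT_val {n : ℕ} (A B : (Tot U).S n) : ((muT e).app n (A, B)).1 = pu e (du A.1 B.1) :=
  rfl


theorem re_empty {m n : ℕ} (f : Fin (m + 1) → Fin (n + 1)) :
    re f (∅ : Finset (Fin (n + 1) → U)) = ∅ := by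
  ext g; simp [mem_re]

theorem constHom_val {K : SS} {n : ℕ} (x : K.S n) :
    ((constHom K (Tot U) (oneT U)).app n x).1 = ∅ := re_empty _

theorem unitL : (totAlg e M).UnitL := by
  have h1 : (muT e).comp (pair (constHom (Tot U) (Tot U) (oneT U)) (Hom.id (Tot U))) =
      mapU (Function.Embedding.inr.trans e) := by
    refine SS.Hom.ext (funext fun n => funext fun A => Subtype.ext ?_)
    change pu e (du ((constHom (Tot U) (Tot U) (oneT U)).app n A).1 A.1) = pu (e ∘ Sum.inr) A.1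
    rw [constHom_val, empty_du, pu_pu]
  refine (SH.of_eq h1).trans ((relab _ (Function.Embedding.refl U)).trans (SH.of_eq mapU_id))

theorem unitR : (totAlg e M).UnitR := by
  have h1 : (muT e).comp (pair (Hom.id (Tot U)) (constHom (Tot U) (Tot U) (oneT U))) =
      mapU (Function.Embedding.inl.trans e) := by
    refine SS.Hom.ext (funext fun n => funext fun A => Subtype.ext ?_)
    change pu e (du A.1 ((constHom (Tot U) (Tot U) (oneT U)).app n A).1) = pu (e ∘ Sum.inl) A.1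
    rw [constHom_val, du_empty, pu_pu]
  refine (SH.of_eq h1).trans ((relab _ (Function.Embedding.refl U)).trans (SH.of_eq mapU_id))

theorem assoc : (totAlg e M).Assoc := by
  let D : Hom (((Tot U).prod (Tot U)).prod (Tot U)) (Tot ((U ⊕ U) ⊕ U)) :=
    (dj (U ⊕ U) U).comp (prodMap (dj U U) (Hom.id _))
  have h1 : (muT e).comp (prodMap (muT e) (Hom.id (Tot U))) =
      (mapU ((e.sumMap (Function.Embedding.refl U)).trans e)).comp D := by
    refine SS.Hom.ext (funext fun n => funext fun x => Subtype.ext ?_)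
    obtain ⟨⟨A, B⟩, C⟩ := x
    change pu e (du (pu e (du A.1 B.1)) C.1) = pu (e ∘ Sum.map e id) (du (du A.1 B.1) C.1)
    rw [← pu_pu, pu_map_du, pu_id]
  have h2 : (muT e).comp (pair ((fst (Tot U) (Tot U)).comp (fst _ _))
      ((muT e).comp (pair ((snd (Tot U) (Tot U)).comp (fst _ _)) (snd _ _)))) =
      (mapU (((Equiv.sumAssoc U U U).toEmbedding.trans
        ((Function.Embedding.refl U).sumMap e)).trans e)).comp D := by
    refine SS.Hom.ext (funext fun n => funext fun x => Subtype.ext ?_)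
    obtain ⟨⟨A, B⟩, C⟩ := x
    change pu e (du A.1 (pu e (du B.1 C.1))) =
      pu ((e ∘ Sum.map id e) ∘ Equiv.sumAssoc U U U) (du (du A.1 B.1) C.1)
    rw [← pu_pu, pu_assoc_du, ← pu_pu, pu_map_du, pu_id]
  exact (SH.of_eq h1).trans ((relab_comp _ _ D).trans (SH.of_eq h2).symm)

theorem comm : (totAlg e M).Comm := by
  have h2 : (muT e).comp (swap (Tot U) (Tot U)) =
      (mapU ((Equiv.sumComm U U).toEmbedding.trans e)).comp (dj U U) := by
    refine SS.Hom.ext (funext fun n => funext fun x => Subtype.ext ?_)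
    obtain ⟨A, B⟩ := x
    change pu e (du B.1 A.1) = pu (e ∘ Sum.swap) (du A.1 B.1)
    rw [← pu_pu, pu_swap_du]
  exact (relab_comp _ _ _).trans (SH.of_eq h2).symm

theorem vertex : (totAlg e M).Vertex := by
  refine SH.of_eq ?_
  refine SS.Hom.ext (funext fun n => funext fun x => Subtype.ext ?_)
  obtain ⟨A, B⟩ := x
  change pu e (th (fun _ => 0) A.1 B.1) = pu e (du A.1 B.1)
  rw [th_zero]

theorem oneS_val (n : ℕ) : ((totAlg e M).oneS n).1 = ∅ := re_empty _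

theorem oneLaw : (totAlg e M).OneLaw := by
  intro n g
  refine Subtype.ext ?_
  change pu e (th g.1 ((totAlg e M).oneS n).1 ((totAlg e M).oneS n).1) = ((totAlg e M).oneS n).1
  rw [oneS_val]
  ext c
  simp

/-- double `Ψ` with values in the fourfold universe -/
def ps2 (m m' : ℕ) (U : Type) : Hom ((BM m).prod ((BM m').prod (Tot U)))
    (Tot ((U ⊕ U) ⊕ (U ⊕ U))) := (psD m (U ⊕ U)).comp (prodMap (Hom.id _) (psD m' U))


/-- the embedding of the fourfold universe -/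
def e4 : (U ⊕ U) ⊕ (U ⊕ U) ↪ U := (e.sumMap e).trans e

theorem Psim_eq {m : ℕ} (h : m ≤ M) : (totAlg e M).Psim h = (mapU e).comp (psD m U) := by
  refine SS.Hom.ext (funext fun n => funext fun x => Subtype.ext ?_)
  obtain ⟨b, A⟩ := x
  obtain ⟨g, rfl⟩ := proj_surj _ n b
  rfl

theorem Psi2_eq {m m' : ℕ} (h : m ≤ M) (h' : m' ≤ M) :
    (totAlg e M).Psi2 h h' = (mapU (e4 e)).comp (ps2 m m' U) := by
  unfold ThAlg.Psi2
  rw [Psim_eq, Psim_eq]
  have h1 := psD_map m e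
  refine SS.Hom.ext (funext fun n => funext fun x => ?_)
  have h2 := congrArg (fun F => F.app n (x.1, (psD m' U).app n x.2)) h1
  change (mapU e).app n ((psD m U).app n (x.1, (mapU e).app n ((psD m' U).app n x.2))) = _
  have h3 : (psD m U).app n (x.1, (mapU e).app n ((psD m' U).app n x.2)) =
    (mapU (e.sumMap e)).app n ((psD m (U ⊕ U)).app n (x.1, (psD m' U).app n x.2)) := h2.symm
  rw [h3]
  exact Subtype.ext (pu_pu _ _ _)

theorem glswap (m m' : ℕ) : (totAlg e M).GLswap m m' := by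
  intro h h'
  rw [Psi2_eq, Psi2_eq]
  have h2 : ((mapU (e4 e)).comp (ps2 m' m U)).comp (ThAlg.swap12 (BM m) (BM m') (Tot U)) =
      (mapU ((mid U).trans (e4 e))).comp (ps2 m m' U) := by
    refine SS.Hom.ext (funext fun n => funext fun x => Subtype.ext ?_)
    obtain ⟨b, b', A⟩ := x
    obtain ⟨g, rfl⟩ := proj_surj _ n b
    obtain ⟨g', rfl⟩ := proj_surj _ n b'
    change pu (e4 e) (th g'.1 (th g.1 A.1 A.1) (th g.1 A.1 A.1)) =
      pu (e4 e ∘ mid U) (th g.1 (th g'.1 A.1 A.1) (th g'.1 A.1 A.1))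
    rw [← pu_pu, pu_mid_th]
  exact (SH.of_eq h2).trans (relab_comp _ _ _)

theorem glshear (m m' : ℕ) : (totAlg e M).GLshear m m' := by
  intro h h' h''
  rw [Psi2_eq, Psi2_eq]
  have h2 : ((mapU (e4 e)).comp (ps2 m m' U)) =
      (mapU ((shr U).trans (e4 e))).comp ((ps2 m (m + m') U).comp (ThAlg.shear m m' (Tot U))) := by
    refine SS.Hom.ext (funext fun n => funext fun x => Subtype.ext ?_)
    obtain ⟨b, b', A⟩ := x
    obtain ⟨g, rfl⟩ := proj_surj _ n b
    obtain ⟨g', rfl⟩ := proj_surj _ n b'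
    change pu (e4 e) (th g.1 (th g'.1 A.1 A.1) (th g'.1 A.1 A.1)) =
      pu (e4 e ∘ shr U) (th g.1 (th (fun i => g.1 i + g'.1 i) A.1 A.1)
        (th (fun i => g.1 i + g'.1 i) A.1 A.1))
    rw [← pu_pu, pu_shr_th]
  rw [h2]
  exact relab_comp (e4 e) ((shr U).trans (e4 e))
    ((ps2 m (m + m') U).comp (ThAlg.shear m m' (Tot U)))


theorem cartan : (totAlg e M).Cartan := by
  let Φ : Hom (DM M ((Tot U).prod (Tot U))) (Tot ((U ⊕ U) ⊕ (U ⊕ U))) :=
    (thD M (U ⊕ U)).comp (DMmap M (dj U U))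
  have h1 : (ThT e M).comp (DMmap M (muT e)) = (mapU (e4 e)).comp Φ := by
    refine SS.Hom.ext (funext fun n => funext fun p => Subtype.ext ?_)
    obtain ⟨⟨g, ⟨A, B⟩, ⟨A', B'⟩⟩, rfl⟩ := proj_surj _ n p
    change pu e (th g.1 (pu e (du A.1 B.1)) (pu e (du A'.1 B'.1))) =
      pu (e ∘ Sum.map e e) (th g.1 (du A.1 B.1) (du A'.1 B'.1))
    rw [← pu_pu, pu_th]
  have h2 : (muT e).comp ((prodMap (ThT e M) (ThT e M)).comp
      (ThAlg.Dprod M (Tot U) (Tot U))) = (mapU ((mid U).trans (e4 e))).comp Φ := by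
    refine SS.Hom.ext (funext fun n => funext fun p => Subtype.ext ?_)
    obtain ⟨⟨g, ⟨A, B⟩, ⟨A', B'⟩⟩, rfl⟩ := proj_surj _ n p
    change pu e (du (pu e (th g.1 A.1 A'.1)) (pu e (th g.1 B.1 B'.1))) =
      pu ((e ∘ Sum.map e e) ∘ mid U) (th g.1 (du A.1 B.1) (du A'.1 B'.1))
    rw [← pu_pu, pu_mid_du, ← pu_pu, pu_map_du]
  exact (SH.of_eq h1).trans ((relab_comp _ _ Φ).trans (SH.of_eq h2).symm)

end alg

end Crest.Agent.R204.TotAlg328
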