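import Crest.Agent.R204.CartanQ_103_Mg
import Crest.Agent.R204.TotAlg_328
import Crest.Agent.R204.Span6_348
import Crest.Agent.R204.Hopf4b_450

/-!
# Row 204, leaf G11 (helper85): `srcTot : Squ103.Src (H F2 (Tot ℕ)) D`

for the thread algebra `totAlg e M` (328), `e : ℕ ⊕ ℕ ↪ ℕ`, `D + 2 ≤ M`.  Inputs: the Steenrod
operations on `H F2 (Tot ℕ)` (`ThFacts`), and a comparison map `κ` to a tower with `FactPoly0`.
-/

set_option autoImplicit false
set_option linter.style.haveILetI false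

noncomputable section

namespace Crest.Agent.R204.SrcTot85

open SS Fs348 Thr328 ThAlg265 Ops265 Span348 ThetaSS265 Gr334 TotAlg328 Spec114 Hopf450 EZ847
open DK742 (AltSS proj_surj)

variable (e : ℕ ⊕ ℕ ↪ ℕ) (M : ℕ)

/-- `totAlg` restricts to the fixed weights -/
theorem compat : Compat e (totAlg e M) where
  mu _ _ := rfl
  Th a := by
    refine SS.Hom.ext (funext fun n => funext fun p => ?_)
    obtain ⟨⟨g, A, B⟩, rfl⟩ := proj_surj _ n p
    rfl
  one := ⟨(emp ℕ).app 0 (), Subtype.ext rfl⟩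

/-- the H-monoid of threads -/
def monT : HMon (Tot ℕ) :=
  HMon.ofThAlg (totAlg e M) (unitL e M) (unitR e M) (assoc e M) (comm e M)

theorem mul_eq (x y : H F2 (Tot ℕ)) : (monT e M).mulL ezd x y = mulH (totAlg e M).mu x y :=
  OpsHopf557.mulL_eq (monT e M) ezd rfl x y

/-- one thread -/
def thr1 : (Fs ℕ 1).S 0 := ⟨{fun _ => 0}, by
  intro i a ha b hb _
  rw [Finset.mem_coe, Finset.mem_singleton] at ha hb
  rw [ha, hb], Finset.card_singleton _⟩

/-- the class of one thread -/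
def x1 : H F2 (Tot ℕ) := C5T557.vtx F2 ((inc ℕ 1).app 0 thr1)

theorem x1_eq : x1 = io 1 (C5T557.vtx F2 thr1) := (C5T557.map_vtx F2 (inc ℕ 1) thr1).symm

theorem x1_mem : x1 ∈ W 1 0 := ⟨_, Coalg847.vtx_mem_gr thr1, x1_eq.symm⟩

theorem one_mem : C5T557.vtx F2 (oneT ℕ) ∈ W 0 0 :=
  ⟨_, Coalg847.vtx_mem_gr ((emp ℕ).app 0 ()), (C5T557.map_vtx F2 (inc ℕ 0) _).trans rfl⟩

theorem W_zero_one : W 0 0 ≤ Submodule.span F2 {C5T557.vtx F2 (oneT ℕ)} :=
  W_zero ((emp ℕ).app 0 ())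

variable {e M} {D : ℕ}

/-- **the source algebra** -/
def srcTot (hD : D + 2 ≤ M) {Sq : ℕ → (H F2 (Tot ℕ) →ₗ[F2] H F2 (Tot ℕ))}
    (hA : ThFacts (totAlg e M) D Sq) {X : Tower} (hQ : X.FactQ D) (hP : X.FactPoly0 D)
    (κ : H F2 (Tot ℕ) →ₗ[F2] X.H 0) (hκ1 : κ x1 = X.x 0)
    (hκQ : ∀ (i t : ℕ) (y : H F2 (Tot ℕ)), 2 * t + i ≤ D → y ∈ H.gr F2 (Tot ℕ) t →
      κ (Q (totAlg e M) i y) = X.Q 0 i (κ y)) :
    letI := (monT e M).ring ezd
    letI := (monT e M).alg ezd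
    Squ103.Src (H F2 (Tot ℕ)) D :=
  letI := (monT e M).ring ezd
  letI := (monT e M).alg ezd
  { W := W
    Q := Q (totAlg e M)
    x1 := x1
    one_mem := one_mem
    x1_mem := x1_mem
    mul_mem := fun {a s b t y z} _ hy hz => by
      have h := mul_mem (compat e M) hy hz
      rw [← mul_eq] at h
      exact h
    Q_mem := fun {i v t y} h hy => Q_mem (compat e M) (by omega) hy
    Q_add := fun {i v t y z} h _ _ => Q_add (totAlg e M) (by omega) y z
    Q_sq := fun {v t y} _ _ => by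
      rw [Q_zero (totAlg e M) (vertex e M), ← mul_eq]
      rfl
    Q_one := fun i h1 hi => Q_one (totAlg e M) (oneLaw e M) h1 (by omega)
    cartan := fun {i a s b t y z} h _ _ => by
      have h1 := CartanQ103.cartan (totAlg e M) (cartan e M) (i := i) (by omega) y z
      simp only [← mul_eq] at h1
      exact h1
    adm := fun I hI => by
      refine adm_field (totAlg e M) hD hA (vertex e M) ((inc ℕ 1).app 0 thr1) hQ hP κ ?_ I hI
      have key : ∀ I : List ℕ, Tower.wdeg 0 I ≤ D →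
          κ (Squ103.wdA (Q (totAlg e M)) x1 I) = X.word 0 I ∧
          Squ103.wdA (Q (totAlg e M)) x1 I ∈ H.gr F2 (Tot ℕ) (Tower.wdeg 0 I) := by
        intro I
        induction I with
        | nil => intro _; exact ⟨hκ1, Coalg847.vtx_mem_gr _⟩
        | cons i I ih =>
          intro hI
          rw [Squ103.wdeg_cons] at hI
          obtain ⟨h1, h2⟩ := ih (by omega)
          rw [Squ103.wdA_cons, Squ103.wdeg_cons]
          refine ⟨?_, Q_gr (totAlg e M) (by omega) h2⟩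
          rw [hκQ i _ _ hI h2, h1]
          rfl
      exact fun I hI => (key I hI).1
    W0 := W_zero_one
    W0' := fun t ht _ => W_zero' ht
    W1 := W_one _
    W1' := fun t ht _ => W_one' thr1 ht
    span := fun S hS h0 h1 hmul hQ v t ht => by
      refine span_field S (compat e M) hD kunSpan dSpan ((emp ℕ).app 0 ()) thr1 h0 h1 ?_ ?_ v t ht
      · intro a s b t y z h hy hz
        have h3 := hmul a s b t y z h hy hz
        have e2 : y * z = mulH (totAlg e M).mu y z := mul_eq e M y z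
        rw [e2] at h3
        exact h3
      · exact hQ }

theorem W_le_gr {v t : ℕ} {y : H F2 (Tot ℕ)} (hy : y ∈ W v t) : y ∈ H.gr F2 (Tot ℕ) t := by
  obtain ⟨z, hz, rfl⟩ := hy
  exact H_map_mem_gr _ hz

section cmp

variable (hD : D + 2 ≤ M) {Sq : ℕ → (H F2 (Tot ℕ) →ₗ[F2] H F2 (Tot ℕ))}
    (hA : ThFacts (totAlg e M) D Sq) {X : Tower} (hQ : X.FactQ D) (hP : X.FactPoly0 D)
    (κ : H F2 (Tot ℕ) →ₗ[F2] X.H 0) (hκ1 : κ x1 = X.x 0)
    (hκQ : ∀ (i t : ℕ) (y : H F2 (Tot ℕ)), 2 * t + i ≤ D → y ∈ H.gr F2 (Tot ℕ) t →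
      κ (Q (totAlg e M) i y) = X.Q 0 i (κ y))

include hD hA hQ hP hκ1 hκQ

/-- the comparison map -/
theorem srcTot_cmp (hκ0 : κ (C5T557.vtx F2 (oneT ℕ)) = 1)
    (hκm : ∀ (s t : ℕ) (y z : H F2 (Tot ℕ)), s + t ≤ D → y ∈ H.gr F2 (Tot ℕ) s →
      z ∈ H.gr F2 (Tot ℕ) t → κ (mulH (totAlg e M).mu y z) = κ y * κ z) :
    letI := (monT e M).ring ezd
    letI := (monT e M).alg ezd
    Squ103.Cmp (srcTot hD hA hQ hP κ hκ1 hκQ) X κ :=
  letI := (monT e M).ring ezd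
  letI := (monT e M).alg ezd
  { one := hκ0
    x1 := hκ1
    mul := fun a s b t y z h hy hz => by
      have e2 : y * z = mulH (totAlg e M).mu y z := mul_eq e M y z
      rw [e2]
      exact hκm s t y z h (W_le_gr hy) (W_le_gr hz)
    Q := fun i v t y h hy => hκQ i t y h (W_le_gr hy) }

/-- **SQUEEZE, injectivity** (instance free form) -/
theorem kappa_injective (hX : X.FactX D) (hκ0 : κ (C5T557.vtx F2 (oneT ℕ)) = 1)
    (hκm : ∀ (s t : ℕ) (y z : H F2 (Tot ℕ)), s + t ≤ D → y ∈ H.gr F2 (Tot ℕ) s →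
      z ∈ H.gr F2 (Tot ℕ) t → κ (mulH (totAlg e M).mu y z) = κ y * κ z)
    {v t : ℕ} (ht : t ≤ D) {y : H F2 (Tot ℕ)} (hy : y ∈ W v t) (h0 : κ y = 0) : y = 0 :=
  letI := (monT e M).ring ezd
  letI := (monT e M).alg ezd
  (srcTot_cmp hD hA hQ hP κ hκ1 hκQ hκ0 hκm).injective hX.2.2.2.2.2 hP ht hy h0

/-- **SQUEEZE, surjectivity onto the base component** (instance free form) -/
theorem kappa_surjective (hX : X.FactX D) (hκ0 : κ (C5T557.vtx F2 (oneT ℕ)) = 1)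
    (hκm : ∀ (s t : ℕ) (y z : H F2 (Tot ℕ)), s + t ≤ D → y ∈ H.gr F2 (Tot ℕ) s →
      z ∈ H.gr F2 (Tot ℕ) t → κ (mulH (totAlg e M).mu y z) = κ y * κ z)
    {v t : ℕ} (ht : t ≤ D) (hv : 2 * t ≤ v) {b : X.H 0} (hb : b ∈ X.gr 0 t) (hb' : b ∈ X.base) :
    ∃ y ∈ W v t, κ y * X.xinv ^ v = b :=
  letI := (monT e M).ring ezd
  letI := (monT e M).alg ezd
  (srcTot_cmp hD hA hQ hP κ hκ1 hκQ hκ0 hκm).surjective hX.2.2.2.2.2 hP ht hv hb hb'


end cmp

end Crest.Agent.R204.SrcTot85
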