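import Crest.Agent.R204.GlueB_114
import Mathlib.RingTheory.MvPolynomial.WeightedHomogeneous
import Mathlib.Data.Set.Finite.List
import Crest.Agent.R204.X0_947
import Crest.Agent.R204.KTr_103
import Crest.Agent.R204.EZInst_847
import Crest.Agent.R204.CompOps_696
import Crest.Agent.R204.Cone_330
import Crest.Agent.R204.GAsm_947
import Crest.Agent.R204.PontF_718
import Crest.Agent.R204.SQT_334
import Crest.Agent.R204.FourA_947
import Crest.Agent.R204.InstSph_478
import Crest.Agent.R204.InstF_114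
import Crest.Agent.R204.GlueA_114
import Crest.Agent.R204.Htpy_761
import Crest.Agent.R204.C2_735
import Crest.Agent.R204.SpecA_334
import Crest.Agent.R204.Fam_265
import Crest.Agent.R204.SingAct_265
import Crest.Agent.R204.Orb_742
import Crest.Agent.R204.Thr_328
import Crest.Agent.R204.HspSS_696
import Crest.Agent.R204.ThetaSS_265
import Crest.Agent.R204.Sk_761
import Crest.Agent.R204.Ops_265
import Crest.Agent.R204.TotAlg_328
import Crest.Agent.R204.Prd_328
import Crest.Agent.R204.Coef_947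
import Crest.Agent.R204.SrcTot_85
import Crest.Agent.R204.Inst_194
import Crest.Agent.R204.Span6_348
import Crest.Agent.R204.Tors_947

-- ▼ part R204/FourB_947
section

/-!
# Row 204, block G, FactFour part 2 (helper947): consequences of `FactPoly0`:
finiteness of the homology of the base component and injectivity of squaring on it.
-/

set_option autoImplicit false

noncomputable section

namespace Crest.Agent.R204.Four947

open Crest.Agent.R204 Spec114 Glue114 MvPolynomial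

theorem length_le_wdeg {I : List ℕ} (h : ∀ i ∈ I, 1 ≤ i) : I.length ≤ Tower.wdeg 0 I := by
  induction I with
  | nil => simp
  | cons i I ih =>
    rw [wdeg_cons, List.length_cons]
    have h1 := ih (fun j hj => h j (List.mem_cons_of_mem _ hj))
    have h2 := h i (List.mem_cons_self ..)
    omega

/-- finitely many words of bounded degree -/
theorem finite_wd0 (t : ℕ) : {I : Tower.Wd0 | Tower.wdeg 0 I.1.1 ≤ t}.Finite := by
  have h1 : ({L : List (Fin (t + 1)) | L.length ≤ t}).Finite := List.finite_length_le _ _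
  have h2 := h1.image (List.map (fun i : Fin (t + 1) => (i : ℕ)))
  have hinj : Function.Injective (fun I : Tower.Wd0 => I.1.1) := fun I J h =>
    Subtype.ext (Subtype.ext h)
  refine Set.Finite.of_finite_image (h2.subset ?_) hinj.injOn
  rintro _ ⟨I, hI, rfl⟩
  have hI' : Tower.wdeg 0 I.1.1 ≤ t := hI
  refine ⟨I.1.1.pmap (fun i (h : i < t + 1) => (⟨i, h⟩ : Fin (t + 1))) (fun i hi => ?_), ?_, ?_⟩
  · have := mem_le_wdeg (k := 0) hi
    omega
  · show (List.pmap _ _ _).length ≤ t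
    rw [List.length_pmap]
    exact (length_le_wdeg I.1.2.2).trans hI'
  · rw [List.map_pmap]
    simp

theorem one_le_wdeg (I : Tower.Wd0) : 1 ≤ Tower.wdeg 0 I.1.1 := by
  obtain ⟨⟨I, h1, h2⟩, h3⟩ := I
  have h4 := length_le_wdeg h2
  have h5 : I.length ≠ 0 := fun h => h3 (List.length_eq_zero_iff.1 h)
  show 1 ≤ Tower.wdeg 0 I
  omega

/-- finitely many exponents of a given weight -/
theorem finite_expo (t : ℕ) :
    {s : Tower.Wd0 →₀ ℕ | Finsupp.weight (fun I : Tower.Wd0 => Tower.wdeg 0 I.1.1) s = t}.Finite := by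
  classical
  set F := (finite_wd0 t).toFinset with hF
  refine (Set.finite_Iic (Finsupp.indicator F (fun _ _ => t))).subset ?_
  intro s hs I
  have hs' : Finsupp.weight (fun I : Tower.Wd0 => Tower.wdeg 0 I.1.1) s = t := hs
  rw [Finsupp.weight_apply, Finsupp.sum] at hs'
  by_cases h0 : s I = 0
  · rw [h0]; exact Nat.zero_le _
  have h1 : s I • Tower.wdeg 0 I.1.1 ≤ t := by
    rw [← hs']
    exact Finset.single_le_sum (f := fun I => s I • Tower.wdeg 0 I.1.1) (fun _ _ => Nat.zero_le _)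
      (Finsupp.mem_support_iff.2 h0)
  rw [smul_eq_mul] at h1
  have h2 := one_le_wdeg I
  have h3 : I ∈ F := by
    rw [hF, Set.Finite.mem_toFinset]
    show Tower.wdeg 0 I.1.1 ≤ t
    exact (Nat.le_mul_of_pos_left _ (Nat.pos_of_ne_zero h0)).trans h1
  rw [Finsupp.indicator_of_mem h3]
  exact (Nat.le_mul_of_pos_right _ h2).trans h1

theorem finite_wh (t : ℕ) : Module.Finite F2
    (weightedHomogeneousSubmodule F2 (fun I : Tower.Wd0 => Tower.wdeg 0 I.1.1) t) := by
  rw [weightedHomogeneousSubmodule_eq_finsupp_supported]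
  have := (finite_expo t).to_subtype
  exact Module.Finite.of_basis (basisRestrictSupport F2
    {d | Finsupp.weight (fun I : Tower.Wd0 => Tower.wdeg 0 I.1.1) d = t})

variable {X : Tower} {D : ℕ}

/-- the base component is of finite type -/
theorem finite_base (h : X.FactPoly0 D) {t : ℕ} (ht : t ≤ D) :
    Module.Finite F2 ↥(X.gr 0 t ⊓ Subalgebra.toSubmodule X.base) := by
  have := finite_wh t
  have h1 : Module.Finite F2 ((weightedHomogeneousSubmodule F2
      (fun I : Tower.Wd0 => Tower.wdeg 0 I.1.1) t).map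
        (MvPolynomial.aeval (fun I : Tower.Wd0 => X.word0 I.1.1) :
          MvPolynomial Tower.Wd0 F2 →ₐ[F2] X.H 0).toLinearMap) := Module.Finite.map _ _
  exact Submodule.finiteDimensional_of_le (h.2 t ht)

/-- squaring is injective on the base component -/
theorem sq_eq_zero (h : X.FactPoly0 D) {t : ℕ} (ht : 2 * t ≤ D) {ζ : X.H 0} (hζ : ζ ∈ X.gr 0 t)
    (hb : ζ ∈ X.base) (h0 : ζ * ζ = 0) : ζ = 0 := by
  obtain ⟨p, hp, hpζ⟩ := h.2 t (by omega) ⟨hζ, hb⟩
  have hpζ' : MvPolynomial.aeval (fun I : Tower.Wd0 => X.word0 I.1.1) p = ζ := hpζ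
  have h1 : p * p ∈ weightedHomogeneousSubmodule F2
      (fun I : Tower.Wd0 => Tower.wdeg 0 I.1.1) (t + t) := IsWeightedHomogeneous.mul hp hp
  have h2 := h.1 (t + t) (by omega) (p * p) h1 (by rw [map_mul, hpζ', h0])
  have h3 : p = 0 := by
    rcases mul_eq_zero.1 h2 with h | h <;> exact h
  rw [← hpζ', h3, map_zero]

end Crest.Agent.R204.Four947
end
end

-- ▼ part R204/FourC_947
section

/-!
# Row 204, block G, FactFour part 3 (helper947): cross products vs the Kuenneth isomorphism,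
primitivity on the base component, injectivity of translations.
-/

set_option autoImplicit false
set_option linter.unusedSectionVars false

open scoped Topology unitInterval Topology.Homotopy TensorProduct

noncomputable section

namespace Crest.Agent.R204.Four947

open Crest.Agent.R204 SS Comp696 SingAct265 Cubes735 Prd328 X0947 KTr103
open Crest.Agent.R204.ThAlg265 (SH)
open Crest.Agent.R204.HspSS696 hiding Om
open Crest.Agent.R204.HspSS696 (Om)

theorem cr_eq {K L : SS} (x : H F2 K) (y : H F2 L) : EZ847.ezd.cr K L (x ⊗ₜ y) = crossH F2 x y := by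
  obtain ⟨a, ha, rfl⟩ := Hd.mk_surj _ x
  obtain ⟨b, hb, rfl⟩ := Hd.mk_surj _ y
  rw [Coalg847.EZData.cr_mk, crossH_mk]
  rfl


/-- primitivity in terms of the diagonal -/
theorem diag_of_cop {K : SS} {e : K.S 0} {x : H F2 K}
    (h : EZ847.ezd.cop K x = x ⊗ₜ[F2] Coalg847.vtx e + Coalg847.vtx e ⊗ₜ[F2] x) :
    H.map F2 (SS.diag K) x = crossH F2 x (vt F2 e) + crossH F2 (vt F2 e) x := by
  rw [← EZ847.ezd.cr_cop, h, map_add, cr_eq, cr_eq]
  rfl

variable {J : Type} [Finite J] [DecidableEq J] [Nontrivial J] {Z : Type} [TopologicalSpace Z] {z₀ : Z}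

/-- primitivity descends to the base component -/
theorem cop_of_in (x : H F2 (X0 J Z z₀))
    (h : EZ847.ezd.cop _ (H.map F2 inX0 x) = H.map F2 inX0 x ⊗ₜ[F2] Coalg847.vtx eS +
      Coalg847.vtx eS ⊗ₜ[F2] H.map F2 inX0 x) :
    EZ847.ezd.cop _ x = x ⊗ₜ[F2] Coalg847.vtx e0 + Coalg847.vtx e0 ⊗ₜ[F2] x := by
  have hin := in_injective (J := J) (Z := Z) (z₀ := z₀) F2
  have hi2 : Function.Injective (TensorProduct.map (H.map F2 (inX0 (J := J) (Z := Z) (z₀ := z₀)))
      (H.map F2 (inX0 (J := J) (Z := Z) (z₀ := z₀)))) :=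
    TensorProduct.map_injective_of_flat_flat _ _ hin hin
  apply hi2
  rw [← EZ847.ezd.cop_nat, h, map_add, TensorProduct.map_tmul, TensorProduct.map_tmul,
    Coalg847.hMap_vtx]
  rfl

theorem diag_of_in (x : H F2 (X0 J Z z₀))
    (h : EZ847.ezd.cop _ (H.map F2 inX0 x) = H.map F2 inX0 x ⊗ₜ[F2] Coalg847.vtx eS +
      Coalg847.vtx eS ⊗ₜ[F2] H.map F2 inX0 x) :
    H.map F2 (SS.diag _) x = crossH F2 x (vt F2 e0) + crossH F2 (vt F2 e0) x :=
  diag_of_cop (cop_of_in x h)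



end Crest.Agent.R204.Four947
end
end

-- ▼ part R204/VInst_947
section

/-!
# Row 204, block G: `V = Sq^m_*` satisfies the hypotheses `VOp m` (helper947)
-/

set_option autoImplicit false

namespace Crest.Agent.R204.VInst947

open Crest.Agent.R204 SS Coef947 Corr328 Fs348 Prd328 GAsm947 Pont718

theorem bock {K : SS} {m : ℕ} (hm2 : Even m) (x : H F2 K) (hx : x ∈ H.gr F2 K (2 * m))
    (h : coH (inj 2 4 2 rfl) K x = 0) : Sq252.Sq K m x = 0 := by
  rw [← Rk_zero_eq_Sq hx]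
  obtain ⟨c, hc, hc', rfl⟩ := Gr334.mem_H_gr.1 hx
  rw [coH_mk, Hd.mk_eq_zero] at h
  obtain ⟨w, hw⟩ := h
  refine Rk_eq_zero_of_cup hc hc' fun u hu hu' => ?_
  refine Bock947.cup_bock hm2 u hu hu' c w ?_
  rw [hw, Bock947.inj_eq_dblf]

theorem sq (hperm : ∀ w, SQ803.SQ (Equiv.Perm (Fin w))) {m : ℕ} (hm : 0 < m) (U : Type) (w k : ℕ)
    (h : 2 ∣ 2 ^ k) (hw : w.factorial < 2 ^ k) (x : H (ZMod (2 ^ k)) (Fs U w))
    (hx : x ∈ H.gr (ZMod (2 ^ k)) (Fs U w) (2 * m)) :
    Sq252.Sq _ m (coH (rho (2 ^ k) 2 h) _ x) = 0 := by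
  have hk : 0 < k := by
    rcases Nat.eq_zero_or_pos k with rfl | h0
    · norm_num at h
    · exact h0
  obtain ⟨c, hc, hc', rfl⟩ := Gr334.mem_H_gr.1 hx
  rw [← Rk_zero_eq_Sq (coH_mem_gr _ hx), coH_mk]
  refine Rk_eq_zero_of_cup (coN_mem_gr _ hc) _ fun u hu hu' => ?_
  exact SQG334.sqFs hperm hk (fun hd => absurd (Nat.le_of_dvd (Nat.factorial_pos w) hd) (by omega))
    U hm u hu' hu c hc'

/-- the instance -/
theorem vop (hperm : ∀ w, SQ803.SQ (Equiv.Perm (Fin w))) {m : ℕ} (hm : 0 < m) (hm2 : Even m) :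
    VOp m (fun K => Sq252.Sq K m) where
  nat f x _ := (Sq252.Sq_map f m x).symm
  corr c x hx := by exact TrV947.Sq_corr c m hx
  bock K x hx h := bock hm2 x hx h
  sq U w k h hw x hx := sq hperm hm U w k h hw x hx

theorem vgr {m : ℕ} (K : SS) (x : H F2 K) (hx : x ∈ H.gr F2 K (2 * m)) :
    Sq252.Sq K m x ∈ H.gr F2 K m := by
  have := Sq252.Sq_mem_gr (l := m) hx
  have e : 2 * m - m = m := by omega
  rwa [e] at this

end Crest.Agent.R204.VInst947
end

-- ▼ part R204/FourI_947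
section

/-!
# Row 204, block G (helper947): **`FactFour`** for the concrete tower
-/

set_option autoImplicit false
set_option linter.unusedSectionVars false
set_option linter.style.haveILetI false

open scoped Topology unitInterval Topology.Homotopy TensorProduct

noncomputable section

namespace Crest.Agent.R204.Four947

open Crest.Agent.R204 SS Coef947 Comp696 Prd328 X0947 KTr103 Spec114 Cone330 SphSS478 FactSph478
  Inst194 Freu297 Sus330 InstSph478 Cubes735
open Crest.Agent.R204.HspSS696 (mulS eS ptS)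
open Crest.Agent.R204.Hsp696 (halves)

section gen

variable {J : Type} [Finite J] [DecidableEq J] [Nontrivial J] {Z : Type} [TopologicalSpace Z] {z₀ : Z}


end gen

/-! ## the concrete tower -/

variable (p : Par)

theorem mulL_cr {K : SS} (M : Hopf450.HMon K) (x y : H F2 K) : M.mulL EE x y =
    H.map F2 M.mu (crossH F2 x y) := by
  rw [Hopf450.HMon.mulL_apply, cr_eq]

theorem mulL_eq (x y : H F2 (p.S 0)) : (p.N 0).mulL EE x y =
    H.map F2 (mulS (halves (i0 (p.hc 0)))) (crossH F2 x y) := mulL_cr (p.N 0) x y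

theorem mul_eq (x y : p.tower.H 0) : (x * y : p.tower.H 0) = H.map F2 (mulS (halves (i0 (p.hc 0))))
    (crossH F2 (K := p.S 0) (L := p.S 0) x y) := mulL_eq p x y


end Crest.Agent.R204.Four947
end
end

-- ▼ part R204/KTr_947
section

/-!
# Row 204, block G: transport from the base component `X₀` of `Ω^n S^n` to the thread model
(helper947)

`Kap` : zigzags `Fs U v ← K1 → X₀`, `Fs U (v+v) ← K2 → X₀` which are isomorphisms in
`H_j(;F2)`, `j ≤ 2m+1`, compatible with products (any coefficients).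
`final` : `ρ z = 0` for the data `z, c, A_N` on `X₀`.
-/

set_option autoImplicit false

namespace Crest.Agent.R204.KTr947

open Crest.Agent.R204 SS Coef947 Corr328 Fs348 Prd328 GAsm947

/-- bijective on `H_j(;F2)` -/
def Bij (K L : SS) (f : SS.Hom K L) (j : ℕ) : Prop :=
  (∀ x ∈ H.gr F2 K j, H.map F2 f x = 0 → x = 0) ∧
  (∀ y ∈ H.gr F2 L j, ∃ x ∈ H.gr F2 K j, H.map F2 f x = y)

theorem Bij.pow_inj {K L : SS} {f : SS.Hom K L} {j : ℕ} (h : Bij K L f j) (h' : Bij K L f (j + 1))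
    (k : ℕ) : ∀ x ∈ H.gr (ZMod (2 ^ (k + 1))) K j, H.map (ZMod (2 ^ (k + 1))) f x = 0 → x = 0 :=
  (inj_surj_pow f j h.1 h'.2 k).1

theorem Bij.pow_surj {K L : SS} {f : SS.Hom K L} {j : ℕ} (h : Bij K L f j) (h' : Bij K L f (j + 1))
    (k : ℕ) : ∀ y ∈ H.gr (ZMod (2 ^ (k + 1))) L (j + 1), ∃ x ∈ H.gr (ZMod (2 ^ (k + 1))) K (j + 1),
      H.map (ZMod (2 ^ (k + 1))) f x = y :=
  (inj_surj_pow f j h.1 h'.2 k).2

/-- comparison data -/
structure Kap (U : Type) (e : U ⊕ U ↪ U) (X : SS) (mu : SS.Hom (X.prod X) X) (e₀ : X.S 0)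
    (v m : ℕ) where
  K1 : SS
  K2 : SS
  i1 : SS.Hom K1 (Fs U v)
  i2 : SS.Hom K2 (Fs U (v + v))
  k1 : SS.Hom K1 X
  k2 : SS.Hom K2 X
  B : K1.S 0
  hi1 : ∀ j ≤ 2 * m + 1, Bij _ _ i1 j
  hi2 : ∀ j ≤ 2 * m + 1, Bij _ _ i2 j
  hk1 : ∀ j ≤ 2 * m + 1, Bij _ _ k1 j
  hk2 : ∀ j ≤ 2 * m + 1, Bij _ _ k2 j
  mul : ∀ (R : Type) [CommRing R] (p q : ℕ), p + q ≤ 2 * m → ∀ x ∈ H.gr R K1 p,
    ∀ y ∈ H.gr R K1 q, ∀ w ∈ H.gr R K2 (p + q),
    H.map R i2 w = prd R e rfl (H.map R i1 x) (H.map R i1 y) →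
    H.map R k2 w = H.map R mu (crossH R (H.map R k1 x) (H.map R k1 y))
  vB : vt F2 (k1.app 0 B) = vt F2 e₀
  unit : ∀ x : H F2 X, H.map F2 mu (crossH F2 x (vt F2 e₀)) = x

variable {U : Type} {e : U ⊕ U ↪ U} {X : SS} {mu : SS.Hom (X.prod X) X} {e₀ : X.S 0} {v m : ℕ}

/-- **transport of the final argument** -/
theorem final {V : ∀ K : SS, H F2 K →ₗ[F2] H F2 K} (hV : VOp m V)
    (hVgr : ∀ (K : SS) (x : H F2 K), x ∈ H.gr F2 K (2 * m) → V K x ∈ H.gr F2 K m) (hm : 0 < m)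
    (κ : Kap U e X mu e₀ v m)
    (z : H (ZMod 4) X) (hz : z ∈ H.gr (ZMod 4) X m)
    (c : H F2 X) (hc : c ∈ H.gr F2 X (2 * m))
    (A : ∀ N : ℕ, H (ZMod (2 ^ N)) X) (hA : ∀ N, A N ∈ H.gr (ZMod (2 ^ N)) X (2 * m))
    (h4 : ∀ (N : ℕ) (h : 4 ∣ 2 ^ N), coH (rho (2 ^ N) 4 h) _ (A N) =
      H.map (ZMod 4) mu (crossH (ZMod 4) z z) + coH (inj 2 4 2 rfl) _ c)
    (hVc : V X c = coH (rho 4 2 (by norm_num)) _ z) :
    coH (rho 4 2 (by norm_num)) _ z = 0 := by
  obtain ⟨m', rfl⟩ : ∃ m', m = m' + 1 := ⟨m - 1, by omega⟩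
  -- lift `z`
  obtain ⟨x1, hx1, hx1'⟩ : ∃ x ∈ H.gr (ZMod 4) κ.K1 (m' + 1), H.map (ZMod 4) κ.k1 x = z :=
    (κ.hk1 m' (by omega)).pow_surj (κ.hk1 (m' + 1) (by omega)) 1 z hz
  -- lift `c`
  obtain ⟨c2, hc2, hc2'⟩ := (κ.hk2 (2 * (m' + 1)) (by omega)).2 c hc
  -- lift `A`
  have hA' : ∀ N, ∃ a ∈ H.gr (ZMod (2 ^ N)) κ.K2 (2 * (m' + 1)),
      1 ≤ N → H.map (ZMod (2 ^ N)) κ.k2 a = A N := by
    intro N
    rcases N with _ | N
    · exact ⟨0, Submodule.zero_mem _, fun h => by omega⟩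
    · obtain ⟨a, ha, ha'⟩ := (κ.hk2 (2 * m' + 1) (by omega)).pow_surj
        (κ.hk2 (2 * m' + 1 + 1) (by omega)) N (A (N + 1)) (hA (N + 1))
      exact ⟨a, ha, fun _ => ha'⟩
  choose A2 hA2 hA2' using hA'
  have hz1 : H.map (ZMod 4) κ.i1 x1 ∈ H.gr (ZMod 4) (Fs U v) (m' + 1) := Gr334.H_map_mem_gr _ hx1
  -- the product
  obtain ⟨w, hw, hw'⟩ : ∃ x ∈ H.gr (ZMod 4) κ.K2 (2 * (m' + 1)), H.map (ZMod 4) κ.i2 x =
      prd (ZMod 4) e rfl (H.map (ZMod 4) κ.i1 x1) (H.map (ZMod 4) κ.i1 x1) :=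
    (κ.hi2 (2 * m' + 1) (by omega)).pow_surj (κ.hi2 (2 * m' + 1 + 1) (by omega)) 1 _
      (by
        have := prd_mem_gr (ZMod 4) e (rfl : v + v = v + v) hz1 hz1
        have e1 : m' + 1 + (m' + 1) = 2 * m' + 1 + 1 := by omega
        rwa [e1] at this)
  have hkw : H.map (ZMod 4) κ.k2 w = H.map (ZMod 4) mu (crossH (ZMod 4) z z) := by
    have e1 : m' + 1 + (m' + 1) = 2 * (m' + 1) := by omega
    rw [κ.mul (ZMod 4) (m' + 1) (m' + 1) (by omega) x1 hx1 x1 hx1 w (by rwa [e1]) hw', hx1']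
  have h4' : ∀ (N : ℕ) (h : 4 ∣ 2 ^ N), coH (rho (2 ^ N) 4 h) _ (A2 N) =
      w + coH (inj 2 4 2 rfl) _ c2 := by
    intro N h
    have hN : 1 ≤ N := by
      rcases N with _ | N
      · norm_num at h
      · omega
    have h0 : H.map (ZMod 4) κ.k2 (coH (rho (2 ^ N) 4 h) _ (A2 N) -
        (w + coH (inj 2 4 2 rfl) _ c2)) = 0 := by
      rw [map_sub, map_add, ← coH_map, ← coH_map, hA2' N hN, hkw, hc2', h4 N h, sub_self]
    have h1 := (κ.hk2 (2 * (m' + 1)) (by omega)).pow_inj (κ.hk2 (2 * (m' + 1) + 1) (by omega)) 1 _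
      (Submodule.sub_mem _ (coH_mem_gr _ (hA2 N)) (Submodule.add_mem _ hw (coH_mem_gr _ hc2))) h0
    exact sub_eq_zero.1 h1
  -- the value of `V`
  have hr1 : coH (rho 4 2 (by norm_num)) _ x1 ∈ H.gr F2 κ.K1 (m' + 1) := coH_mem_gr _ hx1
  obtain ⟨u, hu, hu'⟩ : ∃ x ∈ H.gr F2 κ.K2 (m' + 1 + 0), H.map F2 κ.i2 x =
      prd F2 e rfl (H.map F2 κ.i1 (coH (rho 4 2 (by norm_num)) _ x1))
        (H.map F2 κ.i1 (vt F2 κ.B)) :=
    (κ.hi2 (m' + 1 + 0) (by omega)).2 _ (prd_mem_gr F2 e rfl (Gr334.H_map_mem_gr _ hr1)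
      (Gr334.H_map_mem_gr _ (vt_mem_gr F2 _)))
  have hku : H.map F2 κ.k2 u = coH (rho 4 2 (by norm_num)) _ z := by
    rw [κ.mul F2 (m' + 1) 0 (by omega) _ hr1 _ (vt_mem_gr F2 _) u hu hu', map_vt, κ.vB, κ.unit,
      ← coH_map, hx1']
  have hVu : V κ.K2 c2 = u := by
    have h0 : H.map F2 κ.k2 (V κ.K2 c2 - u) = 0 := by
      rw [map_sub, ← hV.nat κ.k2 c2 hc2, hc2', hVc, hku, sub_self]
    exact sub_eq_zero.1 ((κ.hk2 (m' + 1) (by omega)).1 _ (Submodule.sub_mem _ (hVgr _ _ hc2) hu) h0)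
  -- conclusion
  have key := core e hV hm (κ.i1.app 0 κ.B) (H.map (ZMod 4) κ.i1 x1) hz1
    (H.map F2 κ.i2 c2) (Gr334.H_map_mem_gr _ hc2)
    (fun N => H.map (ZMod (2 ^ N)) κ.i2 (A2 N)) (fun N => Gr334.H_map_mem_gr _ (hA2 N))
    (fun N h => by
      rw [coH_map, h4' N h, map_add, hw', coH_map])
    (by
      rw [hV.nat κ.i2 c2 hc2, hVu, hu', map_vt, coH_map])
  have h2 : coH (rho 4 2 (by norm_num)) _ x1 = 0 := by
    refine (κ.hi1 (m' + 1) (by omega)).1 _ hr1 ?_
    rw [← coH_map]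
    exact key
  rw [← hx1', coH_map, h2, map_zero]

end Crest.Agent.R204.KTr947
end

-- ▼ part R204/FourK_947
section

/-!
# Row 204, block G (helper947): `FactFour` for the concrete tower, from the comparison data
`KTr947.Kap` for the base component `X0`
-/

set_option autoImplicit false
set_option linter.unusedSectionVars false
set_option linter.style.haveILetI false

open scoped Topology unitInterval Topology.Homotopy TensorProduct

noncomputable section

namespace Crest.Agent.R204.Four947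

open Crest.Agent.R204 SS Coef947 Comp696 Prd328 X0947 KTr103 Spec114 Cone330 SphSS478 FactSph478
  Inst194 Freu297 Sus330 InstSph478 Cubes735
open Crest.Agent.R204.HspSS696 (mulS eS ptS)
open Crest.Agent.R204.Hsp696 (halves)

section gen

variable {J : Type} [Finite J] [DecidableEq J] [Nontrivial J] {Z : Type} [TopologicalSpace Z] {z₀ : Z}

/-- **block G on `Ω^J Z`**: the class `ξ` of the base component with `ξ · ξ` spherical is zero -/
theorem four_kap (c : BoxConf (Fin 2) J) {U : Type} {eU : U ⊕ U ↪ U}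
    {v m e : ℕ} (K : KTr947.Kap U eU (X0 J Z z₀) (X0947.mu0 c) e0 v m)
    (hm : 0 < m) (hm2 : Even m) (he : e + 1 = 2 * m)
    (hperm : ∀ w, SQ803.SQ (Equiv.Perm (Fin w)))
    (hfin : ∀ i, 0 < i → i < m → Module.Finite F2 (H.gr F2 (X0 J Z z₀) i))
    (w : (Sing (HspSS696.Om J Z z₀)).S (e + 1)) (hw : IsSph eS w)
    (ξ : H F2 (Sing (HspSS696.Om J Z z₀))) (hξ : ξ ∈ H.gr F2 _ m) (hξ' : ξ ∈ Hc F2 (cOm J Z z₀) 1)
    (hSq : Sq252.Sq _ 1 ξ = 0)
    (hprim : EZ847.ezd.cop _ ξ = ξ ⊗ₜ[F2] Coalg847.vtx eS + Coalg847.vtx eS ⊗ₜ[F2] ξ)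
    (hrel : scl w hw = H.map F2 (mulS c) (crossH F2 ξ ξ)) : ξ = 0 := by
  obtain ⟨x, rfl⟩ := hξ'
  have hx : x ∈ H.gr F2 (X0 J Z z₀) m := (mem_gr_iff F2 x).1 hξ
  have hwc : (cOm J Z z₀).app (e + 1) w = 1 := by
    refine act_const_mem (cOm J Z z₀) (Op.face 0) w 1 ?_
    rw [hw.face 0]
    have : base (Sing (HspSS696.Om J Z z₀)) eS e = (Sing (HspSS696.Om J Z z₀)).act
        (⟨fun _ => 0, fun _ _ _ => le_rfl⟩ : Op e 0) eS := rfl
    rw [this, (cOm J Z z₀).nat]
    rfl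
  set w0 : (X0 J Z z₀).S (e + 1) := fmk (cOm J Z z₀) 1 w hwc with hw0
  have hw0f : ∀ i : Fin (e + 2), (X0 J Z z₀).act (Op.face i) w0 =
      (X0 J Z z₀).act (⟨fun _ => 0, fun _ _ _ => le_rfl⟩ : Op e 0) e0 := fun i =>
    Subtype.ext (hw.face i)
  have hbd : N.bd F2 (X0 J Z z₀) (N.sx F2 w0) = 0 := Pont718.sph_bd (by omega) w0 e0 hw0f
  have hin := in_injective (J := J) (Z := Z) (z₀ := z₀) F2
  have hSq0 : Sq252.Sq (X0 J Z z₀) 1 x = 0 := by
    apply hin
    rw [map_zero, Sq252.Sq_map]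
    exact hSq
  have hrel0 : Hd.mk (N.bd F2 (X0 J Z z₀)) (N.sx F2 w0) hbd =
      H.map F2 (X0947.mu0 c) (crossH F2 x x) := by
    apply hin
    rw [map_mu0, ← hrel, H_map_mk]
    exact mk_congr _ _ (N.map_sx _ _)
  obtain ⟨z, c', A, hz, hzx, hc', hA, h4, hV⟩ := four_core (X0947.mu0 c) e0 (mu0_unitR F2 c)
    (mu0_unitL F2 c) (gr_zero F2) hm hm2 he x hx hSq0 (diag_of_in x hprim) hfin w0 hw0f hbd hrel0
  have key := KTr947.final (V := fun K => Sq252.Sq K m) (VInst947.vop hperm hm hm2) VInst947.vgr hm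
    K z hz c' hc' A hA h4 (hV.trans hzx.symm)
  rw [hzx] at key
  rw [key, map_zero]

end gen

/-! ## the concrete tower -/

variable (p : Par)

theorem factFour_kap {D : ℕ} (hpoly : p.tower.FactPoly0 D) {e : ℕ} (hD : e + 1 ≤ D)
    (hperm : ∀ w, SQ803.SQ (Equiv.Perm (Fin w))) [Nontrivial (Fin (cd p.J0 p.K 0))]
    (kap : ∀ m, 0 < m → e + 1 = 2 * m → ∃ (U : Type) (eU : U ⊕ U ↪ U) (v : ℕ),
      Nonempty (KTr947.Kap U eU (X0 (Fin (cd p.J0 p.K 0)) (Sph (p.J0 + p.K)) (pt (p.J0 + p.K)))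
        (X0947.mu0 (halves (i0 (p.hc 0)))) e0 v m)) :
    (pSph p e).FactFour (e + 1) := by
  intro α l ζ hl hle hζ hb hprim hsq hα
  have hsqF := p.factSq D 0 (Nat.zero_le _)
  have hξgr : ζ * ζ ∈ p.tower.gr 0 (2 * l) := by
    have := (p.factGr D 0 (Nat.zero_le _)).2.2 l l ζ ζ hζ hζ
    rwa [← two_mul] at this
  have hξb : ζ * ζ ∈ p.tower.base := mul_mem hb hb
  have hξp : ζ * ζ ∈ p.tower.prim 0 := Glue114.sq_mem_prim hprim
  have hξs : p.tower.Sq 0 1 (ζ * ζ) = 0 := by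
    rw [hsqF.2.2.2.1 1 ζ ζ, Finset.Nat.sum_antidiagonal_succ, Finset.Nat.antidiagonal_zero,
      Finset.sum_singleton]
    show p.tower.Sq 0 0 ζ * p.tower.Sq 0 1 ζ + p.tower.Sq 0 1 ζ * p.tower.Sq 0 0 ζ = 0
    rw [hsq 1 le_rfl, mul_zero, zero_mul, add_zero]
  have hα' : scl α.1 α.2 = H.map F2 (mulS (halves (i0 (p.hc 0))))
      (crossH F2 (K := p.S 0) (L := p.S 0) (ζ * ζ) (ζ * ζ)) := by
    have h1 : (pSph p e).h 0 α = (ζ * ζ) * (ζ * ζ) := by rw [hα]; ring
    exact h1.trans (mul_eq p (ζ * ζ) (ζ * ζ))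
  have hfin : ∀ i, 0 < i → i < 2 * l → Module.Finite F2 (H.gr F2
      (X0 (Fin (cd p.J0 p.K 0)) (Sph (p.J0 + p.K)) (pt (p.J0 + p.K))) i) := by
    intro i _ hi
    have h1 := finite_base hpoly (t := i) (by omega)
    have hm : ∀ x ∈ H.gr F2 (X0 (Fin (cd p.J0 p.K 0)) (Sph (p.J0 + p.K)) (pt (p.J0 + p.K))) i,
        H.map F2 inX0 x ∈ (p.tower.gr 0 i ⊓ Subalgebra.toSubmodule p.tower.base :
          Submodule F2 (p.tower.H 0)) := fun x hx => ⟨(mem_gr_iff F2 x).2 hx, x, rfl⟩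
    let f : H.gr F2 (X0 (Fin (cd p.J0 p.K 0)) (Sph (p.J0 + p.K)) (pt (p.J0 + p.K))) i →ₗ[F2]
        ↥(p.tower.gr 0 i ⊓ Subalgebra.toSubmodule p.tower.base : Submodule F2 (p.tower.H 0)) :=
      (H.map F2 inX0).restrict hm
    refine Module.Finite.of_injective f ?_
    intro x y hxy
    exact Subtype.ext (in_injective F2 (congrArg Subtype.val hxy))
  obtain ⟨U, eU, v, ⟨K⟩⟩ := kap (2 * l) (by omega) (by omega)
  have hξ0 : ζ * ζ = 0 := four_kap (halves (i0 (p.hc 0))) K (e := e)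
    (by omega) (even_two_mul l) (by omega) hperm hfin α.1 α.2
    (ζ * ζ) hξgr hξb hξs hξp hα'
  exact sq_eq_zero hpoly (by omega) hζ hb hξ0

end Crest.Agent.R204.Four947
end
end

-- ▼ part R204/CovT_761
section

/-!
# Row 204, block C / G (helper761): cover transfer

A simplicial map `B → Sing (Ω^J Z)` presented by a local system of finite sets over `B`, a family of
box configurations and a family of labels.  Two such maps with the same labels are homotopic as soon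
as the boxes can be placed in disjoint sets of coordinates.
-/

set_option autoImplicit false
set_option linter.unusedSectionVars false

open scoped Topology unitInterval Topology.Homotopy
open Set

noncomputable section

namespace Crest.Agent.R204.CovT761

open Crest.Agent.R204.Cubes735 Crest.Agent.R204.Htpy761

/-! ### `place` is `extend` -/


/-! ### simplicial homotopies -/

/-- one-step simplicial homotopy -/
def Htp {K L : SS} (f g : SS.Hom K L) : Prop := ∃ h : SS.Hom (K.prod (SS.std 1)) L,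
  SS.Hom.comp h (SpecA.endMap K 0) = f ∧ SS.Hom.comp h (SpecA.endMap K 1) = g

theorem Htp.map_eq (hI : SpecA.HomotopyInv) (R : Type) [CommRing R] {K L : SS} {f g : SS.Hom K L}
    (h : Htp f g) : H.map R f = H.map R g := by
  obtain ⟨h, rfl, rfl⟩ := h
  exact hI R K L h

theorem Htp.refl {K L : SS} (f : SS.Hom K L) : Htp f f :=
  ⟨SS.Hom.comp f (SS.fst K (SS.std 1)), rfl, rfl⟩

theorem Htp.comp {K L M : SS} {f g : SS.Hom K L} (h : Htp f g) (k : SS.Hom L M) :
    Htp (SS.Hom.comp k f) (SS.Hom.comp k g) := by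
  obtain ⟨h, rfl, rfl⟩ := h
  exact ⟨SS.Hom.comp k h, rfl, rfl⟩


/-! ### local systems -/

/-- local systems of finite sets -/
structure Sys (B : SS) : Type 1 where
  F : ∀ n : ℕ, B.S n → Type
  fin : ∀ (n : ℕ) (b : B.S n), Finite (F n b)
  e : ∀ {m n : ℕ} (f : Op m n) (b : B.S n), F n b ≃ F m (B.act f b)

attribute [instance] Sys.fin

variable {B : SS} {Φ : Sys B} {A A' J : Type} {X Z : Type} [TopologicalSpace X]
  [TopologicalSpace Z] {z₀ : Z}

/-- families of box configurations -/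
structure Bx (Φ : Sys B) (A : Type) where
  c : ∀ (n : ℕ) (b : B.S n), C(stdSimplex ℝ (Fin (n + 1)), BoxConf (Φ.F n b) A)
  nat : ∀ {m n : ℕ} (f : Op m n) (b : B.S n) (t : stdSimplex ℝ (Fin (m + 1))),
    (c m (B.act f b) t).relabel (Φ.e f b) = c n b (stdSimplex.map f t)

/-- families of labels -/
structure Lb (Φ : Sys B) (X : Type) [TopologicalSpace X] where
  l : ∀ (n : ℕ) (b : B.S n), Φ.F n b → C(stdSimplex ℝ (Fin (n + 1)), X)
  nat : ∀ {m n : ℕ} (f : Op m n) (b : B.S n) (v : Φ.F n b) (t : stdSimplex ℝ (Fin (m + 1))),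
    l m (B.act f b) (Φ.e f b v) t = l n b v (stdSimplex.map f t)

/-- the constant family of labels -/
def Lb.const (Φ : Sys B) (x : X) : Lb Φ X where
  l _ _ _ := ContinuousMap.const _ x
  nat _ _ _ _ := rfl

/-- the cover transfer -/
def M [Finite J] (c : Bx Φ J) (l : Lb Φ (Ω^ J Z z₀)) : SS.Hom B (SS.Sing (Ω^ J Z z₀)) where
  app n b := (⟨fun t => mu (c.c n b t) (fun v => l.l n b v t),
    continuous_mu (c.c n b).continuous (continuous_pi fun v => (l.l n b v).continuous)⟩ :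
      C(stdSimplex ℝ (Fin (n + 1)), Ω^ J Z z₀))
  nat {m n} f b := by
    refine ContinuousMap.ext fun t => ?_
    show mu (c.c m (B.act f b) t) (fun v => l.l m (B.act f b) v t) =
      mu (c.c n b (stdSimplex.map f t)) (fun v => l.l n b v (stdSimplex.map f t))
    rw [← c.nat f b t, ← mu_relabel (c.c m (B.act f b) t) (Φ.e f b)]
    congr 1
    funext v
    exact l.nat f b v t


/-- recognising a cover transfer -/
theorem eq_M [Finite J] (c : Bx Φ J) (l : Lb Φ (Ω^ J Z z₀)) (g : SS.Hom B (SS.Sing (Ω^ J Z z₀)))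
    (h : ∀ (n : ℕ) (b : B.S n) (t : stdSimplex ℝ (Fin (n + 1))),
      DFunLike.coe (F := C(stdSimplex ℝ (Fin (n + 1)), Ω^ J Z z₀)) (g.app n b) t =
      mu (c.c n b t) (fun v => l.l n b v t)) : g = M c l :=
  SS.Hom.ext (funext fun n => funext fun b => ContinuousMap.ext fun t => h n b t)


/-- placing a family along an embedding of the coordinates -/
def Bx.extend (c : Bx Φ A) (k : A ↪ J) : Bx Φ J where
  c n b := ⟨fun t => (c.c n b t).extend k, BoxConf.continuous_extend (c.c n b).continuous k⟩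
  nat f b t := by
    show ((c.c _ (B.act f b) t).extend k).relabel (Φ.e f b) = (c.c _ b (stdSimplex.map f t)).extend k
    rw [← BoxConf.extend_relabel, c.nat]

/-! ### the cylinder -/

/-- the pull back of a local system to the cylinder -/
def Sys.cyl (Φ : Sys B) : Sys (B.prod (SS.std 1)) where
  F n b := Φ.F n b.1
  fin n b := Φ.fin n b.1
  e f b := Φ.e f b.1

/-- the underlying function of a simplex of `Δ¹` -/
def fn {n : ℕ} (g : (SS.std 1).S n) : Fin (n + 1) → Fin 2 :=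
  let g' : Op n 1 := g
  g'

theorem fn_act {m n : ℕ} (f : Op m n) (g : (SS.std 1).S n) : fn ((SS.std 1).act f g) = fn g ∘ f :=
  rfl

/-- the coordinate `Δ¹ → [0,1]` at a point of a simplex -/
def tmv {n : ℕ} (g : (SS.std 1).S n) (t : stdSimplex ℝ (Fin (n + 1))) : ℝ :=
  (stdSimplex.map (fn g) t : stdSimplex ℝ (Fin 2)) 1

theorem continuous_tmv {n : ℕ} (g : (SS.std 1).S n) : Continuous (tmv g) := by
  unfold tmv
  have h1 : Continuous (fun t : stdSimplex ℝ (Fin (n + 1)) =>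
      (stdSimplex.map (fn g) t : stdSimplex ℝ (Fin 2))) :=
    stdSimplex.continuous_map _
  exact (continuous_apply 1).comp (continuous_subtype_val.comp h1)

theorem tmv_act {m n : ℕ} (f : Op m n) (g : (SS.std 1).S n) (t : stdSimplex ℝ (Fin (m + 1))) :
    tmv ((SS.std 1).act f g) t = tmv g (stdSimplex.map f t) := by
  unfold tmv
  rw [fn_act, stdSimplex.map_comp_apply]

theorem tmv_eq_zero {n : ℕ} (g : (SS.std 1).S n) (hg : ∀ i, fn g i = 0)
    (t : stdSimplex ℝ (Fin (n + 1))) : tmv g t = 0 := by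
  unfold tmv
  rw [stdSimplex.map_coe, FunOnFinite.linearMap_apply_apply]
  refine Finset.sum_eq_zero fun i hi => ?_
  simp only [Finset.mem_filter] at hi
  rw [hg i] at hi
  exact absurd hi.2 (by simp)

theorem tmv_eq_one {n : ℕ} (g : (SS.std 1).S n) (hg : ∀ i, fn g i = 1)
    (t : stdSimplex ℝ (Fin (n + 1))) : tmv g t = 1 := by
  unfold tmv
  rw [stdSimplex.map_coe, FunOnFinite.linearMap_apply_apply]
  have := stdSimplex.sum_eq_one t
  rw [← this]
  refine Finset.sum_congr ?_ fun _ _ => rfl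
  ext i
  simp [hg i]

variable [Finite A] [Finite A']

/-- the universal homotopy as a family over the cylinder -/
def Bx.hty {ι : A ↪ J} {ι' : A' ↪ J} (hd : ∀ x y, ι x ≠ ι' y) (c : Bx Φ A) (c' : Bx Φ A') :
    Bx Φ.cyl J where
  c n b := (⟨fun t => Htpy761.hty hd (tmv b.2 t) (c.c n b.1 t) (c'.c n b.1 t),
    continuous_hty hd (continuous_tmv b.2) (c.c n b.1).continuous (c'.c n b.1).continuous⟩ :
      C(stdSimplex ℝ (Fin (n + 1)), BoxConf (Φ.F n b.1) J))
  nat {m n} f b t := by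
    show (Htpy761.hty hd (tmv ((SS.std 1).act f b.2) t) (c.c m (B.act f b.1) t)
      (c'.c m (B.act f b.1) t)).relabel (Φ.e f b.1) =
      Htpy761.hty hd (tmv b.2 (stdSimplex.map f t)) (c.c n b.1 (stdSimplex.map f t))
        (c'.c n b.1 (stdSimplex.map f t))
    rw [← hty_relabel, c.nat, c'.nat, tmv_act]


/-- labels over the cylinder -/
def Lb.cyl (l : Lb Φ X) : Lb Φ.cyl X where
  l n b v := l.l n b.1 v
  nat f b v t := l.nat f b.1 v t

/-- **Independence of the boxes** (disjoint sets of coordinates) -/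
theorem M_htp [Finite J] {ι : A ↪ J} {ι' : A' ↪ J} (hd : ∀ x y, ι x ≠ ι' y) (c : Bx Φ A)
    (c' : Bx Φ A') (l : Lb Φ (Ω^ J Z z₀)) : Htp (M (c.extend ι) l) (M (c'.extend ι') l) := by
  refine ⟨M (c.hty hd c') l.cyl, ?_, ?_⟩
  · refine eq_M _ _ _ fun n b t => ?_
    have e0 : tmv ((SpecA.endMap B 0).app n b).2 t = 0 := tmv_eq_zero _ (fun _ => rfl) t
    refine (congrArg (fun s => mu (Htpy761.hty hd s (c.c n b t) (c'.c n b t))
      (fun v => l.l n b v t)) e0).trans ?_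
    beta_reduce
    rw [hty_zero]; rfl
  · refine eq_M _ _ _ fun n b t => ?_
    have e1 : tmv ((SpecA.endMap B 1).app n b).2 t = 1 := tmv_eq_one _ (fun _ => rfl) t
    refine (congrArg (fun s => mu (Htpy761.hty hd s (c.c n b t) (c'.c n b t))
      (fun v => l.l n b v t)) e1).trans ?_
    beta_reduce
    rw [hty_one]; rfl


end Crest.Agent.R204.CovT761
end
end

-- ▼ part R204/CovT2_761
section

/-!
# Row 204, block C / G (helper761): cover transfer, II

* `M_H_eq` : independence of the boxes on homology, arbitrary coordinates (counting condition);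
* composition of box families (`Sys.sigma`, `Bx.comp`, `M_comp`);
* invariance under automorphisms of the base, orbit versions;
* box families from real labels of threads (`Rl`, moments).
-/

set_option autoImplicit false
set_option linter.unusedSectionVars false

open scoped Topology unitInterval Topology.Homotopy
open Set

noncomputable section

namespace Crest.Agent.R204.CovT761

open Crest.Agent.R204.Cubes735 Crest.Agent.R204.Htpy761 SingAct265

variable {B : SS} {Φ : Sys B} {A A' J : Type} {X Z : Type} [TopologicalSpace X]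
  [TopologicalSpace Z] {z₀ : Z}

theorem ev_M [Finite J] (c : Bx Φ J) (l : Lb Φ (Ω^ J Z z₀)) {n : ℕ} (b : B.S n)
    (t : stdSimplex ℝ (Fin (n + 1))) :
    ev ((M c l).app n b) t = mu (c.c n b t) (fun v => l.l n b v t) := rfl

theorem eq_M' [Finite J] (c : Bx Φ J) (l : Lb Φ (Ω^ J Z z₀)) (g : SS.Hom B (SS.Sing (Ω^ J Z z₀)))
    (h : ∀ (n : ℕ) (b : B.S n) (t : stdSimplex ℝ (Fin (n + 1))),
      ev (g.app n b) t = mu (c.c n b t) (fun v => l.l n b v t)) : g = M c l :=
  SS.Hom.ext (funext fun n => funext fun b => sing_ext fun t => h n b t)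

/-! ### coordinates in general position -/

theorem exists_emb_disjoint {A A' A'' J : Type} [Finite A] [Finite A'] [Finite A''] [Finite J]
    (ι : A ↪ J) (ι' : A' ↪ J) (h : Nat.card A + Nat.card A' + Nat.card A'' ≤ Nat.card J) :
    ∃ κ : A'' ↪ J, (∀ x y, ι x ≠ κ y) ∧ ∀ x y, ι' x ≠ κ y := by
  classical
  let _ := Fintype.ofFinite A
  let _ := Fintype.ofFinite A'
  let _ := Fintype.ofFinite A''
  let _ := Fintype.ofFinite J
  let S : Finset J := Finset.univ.map ι ∪ Finset.univ.map ι'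
  have hS : S.card ≤ Fintype.card A + Fintype.card A' := by
    refine (Finset.card_union_le _ _).trans ?_
    rw [Finset.card_map, Finset.card_map]
    rfl
  have hc : Fintype.card A'' ≤ Fintype.card {j // j ∉ S} := by
    rw [Fintype.card_subtype_compl, Fintype.card_coe]
    simp only [Nat.card_eq_fintype_card] at h
    omega
  obtain ⟨κ⟩ := Function.Embedding.nonempty_of_card_le hc
  refine ⟨κ.trans (Function.Embedding.subtype _), fun x y hxy => ?_, fun x y hxy => ?_⟩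
  · have := (κ y).2
    apply this
    simp only [S, Finset.mem_union, Finset.mem_map, Finset.mem_univ, true_and]
    exact Or.inl ⟨x, hxy⟩
  · have := (κ y).2
    apply this
    simp only [S, Finset.mem_union, Finset.mem_map, Finset.mem_univ, true_and]
    exact Or.inr ⟨x, hxy⟩

/-- **independence of the boxes in homology** -/
theorem M_H_eq (hI : SpecA.HomotopyInv) (R : Type) [CommRing R] [Finite A] [Finite A'] [Finite J]
    (ι : A ↪ J) (ι' : A' ↪ J) (h : 2 * Nat.card A + Nat.card A' ≤ Nat.card J)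
    (c : Bx Φ A) (c' : Bx Φ A') (l : Lb Φ (Ω^ J Z z₀)) :
    H.map R (M (c.extend ι) l) = H.map R (M (c'.extend ι') l) := by
  obtain ⟨κ, h1, h2⟩ := exists_emb_disjoint (A'' := A) ι ι' (by omega)
  have e1 := (M_htp h1 c c l).map_eq hI R
  have e2 := (M_htp (fun x y => (h2 y x).symm) c c' l).map_eq hI R
  rw [e1, e2]

/-! ### composition -/

/-- constant local system -/
def Sys.const (B : SS) (G : Type) [Finite G] : Sys B where
  F _ _ := G
  fin _ _ := inferInstance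
  e _ _ := Equiv.refl G

/-- disjoint union of local systems -/
def Sys.sigma {G : Type} [Finite G] (Φ : G → Sys B) : Sys B where
  F n b := Σ i, (Φ i).F n b
  fin _ _ := inferInstance
  e f b := Equiv.sigmaCongrRight fun i => (Φ i).e f b

theorem continuous_comp {P F J : Type*} [TopologicalSpace P] {G : F → Type*}
    {c : P → BoxConf F J} {d : P → ∀ v, BoxConf (G v) J} (hc : Continuous c)
    (hd : ∀ v, Continuous fun p => d p v) : Continuous fun p => (c p).comp (d p) := by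
  refine BoxConf.continuous_mk (fun v j => ?_) (fun v j => ?_)
  · exact ((BoxConf.continuous_a v.1 j).comp hc).add (((BoxConf.continuous_r v.1 j).comp hc).mul
      ((BoxConf.continuous_a v.2 j).comp (hd v.1)))
  · exact ((BoxConf.continuous_r v.1 j).comp hc).mul
      ((BoxConf.continuous_r v.2 j).comp (hd v.1))

/-- composition of box families -/
def Bx.comp {G : Type} [Finite G] {Φ : G → Sys B} (o : Bx (Sys.const B G) A)
    (d : ∀ i, Bx (Φ i) A) : Bx (Sys.sigma Φ) A where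
  c n b := (⟨fun t => (show BoxConf G A from o.c n b t).comp (fun i => (d i).c n b t),
    continuous_comp (c := fun t => (show BoxConf G A from o.c n b t)) (o.c n b).continuous
      fun i => ((d i).c n b).continuous⟩ :
      C(stdSimplex ℝ (Fin (n + 1)), BoxConf (Σ i, (Φ i).F n b) A))
  nat {m n} f b t := by
    have h1 : (show BoxConf G A from o.c m (B.act f b) t) =
      (show BoxConf G A from o.c n b (stdSimplex.map f t)) := o.nat f b t
    have h2 : ∀ i, ((d i).c m (B.act f b) t).relabel ((Φ i).e f b) =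
      (d i).c n b (stdSimplex.map f t) := fun i => (d i).nat f b t
    refine BoxConf.ext' (fun v j => ?_) (fun v j => ?_)
    · have e1 : (show BoxConf G A from o.c m (B.act f b) t).a v.1 j +
          (show BoxConf G A from o.c m (B.act f b) t).r v.1 j *
          (((d v.1).c m (B.act f b) t).relabel ((Φ v.1).e f b)).a v.2 j =
          (show BoxConf G A from o.c n b (stdSimplex.map f t)).a v.1 j +
          (show BoxConf G A from o.c n b (stdSimplex.map f t)).r v.1 j *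
          ((d v.1).c n b (stdSimplex.map f t)).a v.2 j := by rw [h1, h2]
      exact e1
    · have e1 : (show BoxConf G A from o.c m (B.act f b) t).r v.1 j *
          (((d v.1).c m (B.act f b) t).relabel ((Φ v.1).e f b)).r v.2 j =
          (show BoxConf G A from o.c n b (stdSimplex.map f t)).r v.1 j *
          ((d v.1).c n b (stdSimplex.map f t)).r v.2 j := by rw [h1, h2]
      exact e1

/-- labels of a disjoint union -/
def Lb.sigma {G : Type} [Finite G] {Φ : G → Sys B} (l : ∀ i, Lb (Φ i) X) : Lb (Sys.sigma Φ) X where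
  l n b v := (l v.1).l n b v.2
  nat f b v t := (l v.1).nat f b v.2 t


theorem Bx.comp_extend {G : Type} [Finite G] {Φ : G → Sys B} (o : Bx (Sys.const B G) A)
    (d : ∀ i, Bx (Φ i) A) (k : A ↪ J) {n : ℕ} (b : B.S n) (t : stdSimplex ℝ (Fin (n + 1))) :
    ((o.comp d).extend k).c n b t = ((o.extend k).comp fun i => (d i).extend k).c n b t :=
  BoxConf.extend_comp (show BoxConf G A from o.c n b t) (fun i => (d i).c n b t) k

/-! ### invariance under automorphisms of the base -/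

/-- lifting of a self map of the base to a local system -/
structure Act (Φ : Sys B) (g : SS.Hom B B) where
  s : ∀ (n : ℕ) (b : B.S n), Φ.F n b ≃ Φ.F n (g.app n b)

/-- invariance of a box family -/
def Bx.Inv {g : SS.Hom B B} (sg : Act Φ g) (c : Bx Φ A) : Prop :=
  ∀ (n : ℕ) (b : B.S n) (t : stdSimplex ℝ (Fin (n + 1))),
    (c.c n (g.app n b) t).relabel (sg.s n b) = c.c n b t

/-- invariance of labels -/
def Lb.Inv {g : SS.Hom B B} (sg : Act Φ g) (l : Lb Φ X) : Prop :=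
  ∀ (n : ℕ) (b : B.S n) (v : Φ.F n b) (t : stdSimplex ℝ (Fin (n + 1))),
    l.l n (g.app n b) (sg.s n b v) t = l.l n b v t


theorem M_inv [Finite J] {g : SS.Hom B B} {sg : Act Φ g} {c : Bx Φ J} {l : Lb Φ (Ω^ J Z z₀)}
    (hc : c.Inv sg) (hl : l.Inv sg) {n : ℕ} (b : B.S n) :
    (M c l).app n (g.app n b) = (M c l).app n b := by
  refine sing_ext fun t => ?_
  rw [ev_M, ev_M, ← hc n b t, ← mu_relabel (c.c n (g.app n b) t) (sg.s n b)]
  congr 1
  funext v
  exact hl n b v t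

theorem Bx.Inv.extend {g : SS.Hom B B} {sg : Act Φ g} {c : Bx Φ A} (hc : c.Inv sg) (k : A ↪ J) :
    (c.extend k).Inv sg := by
  intro n b t
  show ((c.c n (g.app n b) t).extend k).relabel (sg.s n b) = (c.c n b t).extend k
  rw [← BoxConf.extend_relabel, hc n b t]

/-- the induced self map of the cylinder -/
def cylMap (g : SS.Hom B B) : SS.Hom (B.prod (SS.std 1)) (B.prod (SS.std 1)) :=
  SS.prodMap g (SS.Hom.id _)

/-- the induced lifting on the cylinder -/
def Act.cyl {g : SS.Hom B B} (sg : Act Φ g) : Act Φ.cyl (cylMap g) where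
  s n b := sg.s n b.1

theorem Bx.Inv.hty [Finite A] [Finite A'] {g : SS.Hom B B} {sg : Act Φ g} {ι : A ↪ J} {ι' : A' ↪ J}
    (hd : ∀ x y, ι x ≠ ι' y) {c : Bx Φ A} {c' : Bx Φ A'} (hc : c.Inv sg) (hc' : c'.Inv sg) :
    (c.hty hd c').Inv sg.cyl := by
  intro n b t
  show (Htpy761.hty hd (tmv b.2 t) (c.c n (g.app n b.1) t) (c'.c n (g.app n b.1) t)).relabel
    (sg.s n b.1) = Htpy761.hty hd (tmv b.2 t) (c.c n b.1 t) (c'.c n b.1 t)
  rw [← hty_relabel, hc n b.1 t, hc' n b.1 t]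

/-- homotopies of maps on orbits from invariant homotopies -/
theorem Htp.orb {τ : DK742.Invo B} {L : SS} {f f' : SS.Hom (DK742.orb B τ) L}
    (h : SS.Hom (B.prod (SS.std 1)) L)
    (h0 : SS.Hom.comp h (SpecA.endMap B 0) = SS.Hom.comp f (DK742.proj τ))
    (h1 : SS.Hom.comp h (SpecA.endMap B 1) = SS.Hom.comp f' (DK742.proj τ))
    (hinv : ∀ (n : ℕ) (b : B.S n) (a : (SS.std 1).S n),
      h.app n (τ.g.app n b, a) = h.app n (b, a)) : Htp f f' := by
  refine ⟨⟨fun n p => Quotient.liftOn (s := τ.rel n) p.1 (fun b => h.app n (b, p.2)) (by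
      rintro b b' (rfl | rfl)
      · rfl
      · exact (hinv n b p.2).symm), ?_⟩, ?_, ?_⟩
  · intro m n φ p
    obtain ⟨y, a⟩ := p
    obtain ⟨b, rfl⟩ := DK742.proj_surj τ _ y
    exact h.nat φ (b, a)
  · refine SS.Hom.ext (funext fun n => funext fun y => ?_)
    obtain ⟨b, rfl⟩ := DK742.proj_surj τ _ y
    exact congrFun (congrFun (congrArg SS.Hom.app h0) n) b
  · refine SS.Hom.ext (funext fun n => funext fun y => ?_)
    obtain ⟨b, rfl⟩ := DK742.proj_surj τ _ y
    exact congrFun (congrFun (congrArg SS.Hom.app h1) n) b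

/-- **independence of the boxes, orbit version** -/
theorem M_htp_orb [Finite A] [Finite A'] [Finite J] {τ : DK742.Invo B} {sg : Act Φ τ.g}
    {ι : A ↪ J} {ι' : A' ↪ J} (hd : ∀ x y, ι x ≠ ι' y) (c : Bx Φ A) (c' : Bx Φ A')
    (l : Lb Φ (Ω^ J Z z₀)) (hc : c.Inv sg) (hc' : c'.Inv sg) (hl : l.Inv sg)
    {f f' : SS.Hom (DK742.orb B τ) (SS.Sing (Ω^ J Z z₀))}
    (hf : SS.Hom.comp f (DK742.proj τ) = M (c.extend ι) l)
    (hf' : SS.Hom.comp f' (DK742.proj τ) = M (c'.extend ι') l) : Htp f f' := by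
  refine Htp.orb (τ := τ) (M (c.hty hd c') l.cyl) ?_ ?_ ?_
  · rw [hf]
    refine eq_M' _ _ _ fun n b t => ?_
    have e0 : tmv ((SpecA.endMap B 0).app n b).2 t = 0 := tmv_eq_zero _ (fun _ => rfl) t
    refine (congrArg (fun s => mu (Htpy761.hty hd s (c.c n b t) (c'.c n b t))
      (fun v => l.l n b v t)) e0).trans ?_
    rw [hty_zero]; rfl
  · rw [hf']
    refine eq_M' _ _ _ fun n b t => ?_
    have e1 : tmv ((SpecA.endMap B 1).app n b).2 t = 1 := tmv_eq_one _ (fun _ => rfl) t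
    refine (congrArg (fun s => mu (Htpy761.hty hd s (c.c n b t) (c'.c n b t))
      (fun v => l.l n b v t)) e1).trans ?_
    rw [hty_one]; rfl
  · intro n b a
    exact M_inv (g := cylMap τ.g) (sg := sg.cyl) (Bx.Inv.hty hd hc hc')
      (fun n b v t => hl n b.1 v t) (b, a)

/-- orbit version in homology -/
theorem M_H_eq_orb (hI : SpecA.HomotopyInv) (R : Type) [CommRing R] [Finite A] [Finite A']
    [Finite J] {τ : DK742.Invo B} {sg : Act Φ τ.g}
    (ι : A ↪ J) (ι' : A' ↪ J) (h : 2 * Nat.card A + Nat.card A' ≤ Nat.card J)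
    (c : Bx Φ A) (c' : Bx Φ A') (l : Lb Φ (Ω^ J Z z₀)) (hc : c.Inv sg) (hc' : c'.Inv sg)
    (hl : l.Inv sg) {f f' : SS.Hom (DK742.orb B τ) (SS.Sing (Ω^ J Z z₀))}
    (hf : SS.Hom.comp f (DK742.proj τ) = M (c.extend ι) l)
    (hf' : SS.Hom.comp f' (DK742.proj τ) = M (c'.extend ι') l) : H.map R f = H.map R f' := by
  obtain ⟨κ, h1, h2⟩ := exists_emb_disjoint (A'' := A) ι ι' (by omega)
  let f'' : SS.Hom (DK742.orb B τ) (SS.Sing (Ω^ J Z z₀)) :=
    DK742.orbLift τ (M (c.extend κ) l) (fun n b => M_inv (hc.extend κ) hl b)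
  have hf'' : SS.Hom.comp f'' (DK742.proj τ) = M (c.extend κ) l := rfl
  have e1 := (M_htp_orb h1 c c l hc hc hl hf hf'').map_eq hI R
  have e2 := (M_htp_orb (fun x y => (h2 y x).symm) c c' l hc hc' hl hf'' hf').map_eq hI R
  rw [e1, e2]

/-! ### box families from real labels -/

open Fam265

/-- real labels of the threads of a local system, separated at every time, of dimension `≤ M` -/
structure Rl (Φ : Sys B) (M : ℕ) where
  w : ∀ (n : ℕ) (b : B.S n), Φ.F n b → Fin (n + 1) → ℝ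
  nat : ∀ {m n : ℕ} (f : Op m n) (b : B.S n) (v : Φ.F n b),
    w m (B.act f b) (Φ.e f b v) = fun i => w n b v (f i)
  sep : ∀ (n : ℕ) (b : B.S n), ∃ p, p ≤ M ∧ ∃ (f : Op n p) (y : Φ.F n b → Fin (p + 1) → ℝ),
    (∀ v, w n b v = fun i => y v (f i)) ∧ ∀ v v', v ≠ v' → ∀ k, y v k ≠ y v' k

/-- the point configuration of moments -/
def momConf {F : Type} (M : ℕ) {n : ℕ} (w : F → Fin (n + 1) → ℝ)
    (hsep : ∃ p, p ≤ M ∧ ∃ (f : Op n p) (y : F → Fin (p + 1) → ℝ),
      (∀ v, w v = fun i => y v (f i)) ∧ ∀ v v', v ≠ v' → ∀ k, y v k ≠ y v' k)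
    (t : stdSimplex ℝ (Fin (n + 1))) : InjConf F (Fin (M + 1)) :=
  ⟨fun v => mom M (w v) t, by
    obtain ⟨p, hp, f, y, h1, h2⟩ := hsep
    intro v v' h
    by_contra hne
    have h' : mom M (w v) (t : Fin (n + 1) → ℝ) = mom M (w v') t := h
    rw [h1, h1] at h'
    exact mom_ne_of_factor hp f (h2 v v' hne) t h'⟩

/-- finite type instance used for the cubes -/
def cubesF {F J : Type} [Finite F] [Fintype J] (p : InjConf F J) : BoxConf F J :=
  letI := Fintype.ofFinite F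
  InjConf.cubes p

theorem continuous_cubesF {P F J : Type} [TopologicalSpace P] [Finite F] [Fintype J]
    {p : P → InjConf F J} (hp : Continuous p) : Continuous fun q => cubesF (p q) := by
  let _ := Fintype.ofFinite F
  exact InjConf.continuous_cubes hp

theorem cubesF_relabel {F F' J : Type} [Finite F] [Finite F'] [Fintype J] (p : InjConf F J)
    (e : F' ≃ F) : cubesF (p.relabel e) = (cubesF p).relabel e := by
  let _ := Fintype.ofFinite F
  let _ := Fintype.ofFinite F'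
  exact InjConf.cubes_relabel p e

/-- the box family of a family of real labels -/
def Rl.bx {M : ℕ} (r : Rl Φ M) : Bx Φ (Fin (M + 1)) where
  c n b := ⟨fun t => cubesF (momConf M (r.w n b) (r.sep n b) t), by
    refine continuous_cubesF (Continuous.subtype_mk (continuous_pi fun v => ?_) _)
    exact continuous_mom M continuous_const continuous_subtype_val⟩
  nat {m n} f b t := by
    show (cubesF (momConf M (r.w m (B.act f b)) (r.sep m (B.act f b)) t)).relabel (Φ.e f b) =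
      cubesF (momConf M (r.w n b) (r.sep n b) (stdSimplex.map f t))
    rw [← cubesF_relabel]
    congr 1
    refine Subtype.ext (funext fun v => ?_)
    show mom M (r.w m (B.act f b) (Φ.e f b v)) t = mom M (r.w n b v) (stdSimplex.map f t)
    rw [r.nat f b v]
    exact mom_act M f (r.w n b v) t

/-- invariance of a family of real labels -/
def Rl.Inv {M : ℕ} {g : SS.Hom B B} (sg : Act Φ g) (r : Rl Φ M) : Prop :=
  ∀ (n : ℕ) (b : B.S n) (v : Φ.F n b), r.w n (g.app n b) (sg.s n b v) = r.w n b v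

theorem Rl.Inv.bx {M : ℕ} {g : SS.Hom B B} {sg : Act Φ g} {r : Rl Φ M} (h : r.Inv sg) :
    r.bx.Inv sg := by
  intro n b t
  show (cubesF (momConf M (r.w n (g.app n b)) _ t)).relabel (sg.s n b) =
    cubesF (momConf M (r.w n b) _ t)
  rw [← cubesF_relabel]
  congr 1
  refine Subtype.ext (funext fun v => ?_)
  show mom M (r.w n (g.app n b) (sg.s n b v)) t = mom M (r.w n b v) t
  rw [h n b v]

end Crest.Agent.R204.CovT761
end
end

-- ▼ part R204/Kap_761
section

/-!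
# Row 204, block G (helper761): the map `κ : (skeleton of) Tot U → Sing (Ω^J Z)`

* `IsSk.prod` : products of skeleta;
* `Sys.Iso`, `Bx.pull`, `Lb.pull`, `M_pull` : isomorphisms of local systems;
* `ofHom g` : the local system of threads of `g : Hom B (Tot U)`; `rlOf` : its real labels;
* `kapG` : cover transfer of `g` with constant label `x₀`; `kap` : the case of the skeleton of `Tot U`;
* `kapG_H_eq` : on homology `kapG` does not depend on any choice.
-/

set_option autoImplicit false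
set_option linter.unusedSectionVars false

open scoped Topology unitInterval Topology.Homotopy
open Set

noncomputable section

namespace Crest.Agent.R204

namespace SS

/-! ### skeleta of products -/

/-- the sum of two simplicial operators -/
def opAdd {n p q : ℕ} (f : Op n p) (g : Op n q) : Op n (p + q) :=
  ⟨fun i => ⟨(f i : ℕ) + (g i : ℕ), by omega⟩, fun i j h => by
    have h1 : (f i : ℕ) ≤ f j := f.monotone h
    have h2 : (g i : ℕ) ≤ g j := g.monotone h
    show (f i : ℕ) + (g i : ℕ) ≤ (f j : ℕ) + (g j : ℕ)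
    omega⟩


/-- an operator which recovers `f` from `r` -/
def opRec {n p r : ℕ} (f : Op n p) (s : Op n r) : Op r p :=
  ⟨fun k => (Finset.univ.filter (fun i => s i ≤ k)).sup f, fun _ _ h =>
    Finset.sup_mono (Finset.monotone_filter_right _ fun _ _ hi => le_trans hi h)⟩

theorem opRec_comp {n p r : ℕ} (f : Op n p) (s : Op n r)
    (h : ∀ i j, s i ≤ s j → f i ≤ f j) : (opRec f s).comp s = f := by
  refine OrderHom.ext _ _ (funext fun i => le_antisymm ?_ ?_)
  · show (Finset.univ.filter (fun j => s j ≤ s i)).sup f ≤ f i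
    refine Finset.sup_le fun j hj => h j i ?_
    exact (Finset.mem_filter.1 hj).2
  · show f i ≤ (Finset.univ.filter (fun j => s j ≤ s i)).sup f
    exact Finset.le_sup (f := f) (Finset.mem_filter.2 ⟨Finset.mem_univ _, le_rfl⟩)

theorem IsSk.fst {M : ℕ} {K L : SS} {n : ℕ} {x : (K.prod L).S n} (h : IsSk M (K.prod L) x) :
    IsSk M K x.1 := h.map (SS.fst K L)

theorem IsSk.snd {M : ℕ} {K L : SS} {n : ℕ} {x : (K.prod L).S n} (h : IsSk M (K.prod L) x) :
    IsSk M L x.2 := h.map (SS.snd K L)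

/-- skeleta of products -/
theorem IsSk.prod {M M' : ℕ} {K L : SS} {n : ℕ} {x : K.S n} {y : L.S n} (hx : IsSk M K x)
    (hy : IsSk M' L y) : IsSk (M + M') (K.prod L) (x, y) := by
  obtain ⟨p, hp, f, x, rfl⟩ := hx
  obtain ⟨q, hq, g, y, rfl⟩ := hy
  have e1 : (opRec f (opAdd f g)).comp (opAdd f g) = f := opRec_comp f _ fun i j hij => by
    have h1 : (f i : ℕ) + (g i : ℕ) ≤ (f j : ℕ) + (g j : ℕ) := hij
    rcases le_total i j with h | h
    · exact f.monotone h
    · have h2 : (f j : ℕ) ≤ f i := f.monotone h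
      have h3 : (g j : ℕ) ≤ g i := g.monotone h
      show (f i : ℕ) ≤ f j
      omega
  have e2 : (opRec g (opAdd f g)).comp (opAdd f g) = g := opRec_comp g _ fun i j hij => by
    have h1 : (f i : ℕ) + (g i : ℕ) ≤ (f j : ℕ) + (g j : ℕ) := hij
    rcases le_total i j with h | h
    · exact g.monotone h
    · have h2 : (f j : ℕ) ≤ f i := f.monotone h
      have h3 : (g j : ℕ) ≤ g i := g.monotone h
      show (g i : ℕ) ≤ g j
      omega
  refine ⟨p + q, by omega, opAdd f g,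
    (K.act (opRec f (opAdd f g)) x, L.act (opRec g (opAdd f g)) y), ?_⟩
  show (K.act f x, L.act g y) = (K.act (opAdd f g) (K.act (opRec f (opAdd f g)) x),
    L.act (opAdd f g) (L.act (opRec g (opAdd f g)) y))
  rw [← K.act_comp, ← L.act_comp, e1, e2]


end SS

namespace CovT761

open Crest.Agent.R204.Cubes735 Crest.Agent.R204.Htpy761 SingAct265 SS

variable {B : SS} {Φ Ψ : Sys B} {A A' J : Type} {X Z : Type} [TopologicalSpace X]
  [TopologicalSpace Z] {z₀ : Z}

/-! ### isomorphisms of local systems -/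

/-- isomorphism of local systems -/
structure Sys.Iso (Φ Ψ : Sys B) where
  s : ∀ (n : ℕ) (b : B.S n), Φ.F n b ≃ Ψ.F n b
  nat : ∀ {m n : ℕ} (f : Op m n) (b : B.S n) (v : Φ.F n b),
    s m (B.act f b) (Φ.e f b v) = Ψ.e f b (s n b v)

theorem continuous_relabel {P F F' A : Type} [TopologicalSpace P] {c : P → BoxConf F A}
    (hc : Continuous c) (e : F' ≃ F) : Continuous fun p => (c p).relabel e :=
  BoxConf.continuous_mk (fun v j => (BoxConf.continuous_a (e v) j).comp hc)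
    (fun v j => (BoxConf.continuous_r (e v) j).comp hc)

/-- transport of box families -/
def Bx.pull (φ : Sys.Iso Φ Ψ) (c : Bx Ψ A) : Bx Φ A where
  c n b := ⟨fun t => (c.c n b t).relabel (φ.s n b), continuous_relabel (c.c n b).continuous _⟩
  nat {m n} f b t := by
    show ((c.c m (B.act f b) t).relabel (φ.s m (B.act f b))).relabel (Φ.e f b) =
      (c.c n b (stdSimplex.map f t)).relabel (φ.s n b)
    rw [← c.nat f b t]
    refine BoxConf.ext' (fun v j => ?_) (fun v j => ?_)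
    · show (c.c m (B.act f b) t).a (φ.s m (B.act f b) (Φ.e f b v)) j =
        (c.c m (B.act f b) t).a (Ψ.e f b (φ.s n b v)) j
      rw [φ.nat]
    · show (c.c m (B.act f b) t).r (φ.s m (B.act f b) (Φ.e f b v)) j =
        (c.c m (B.act f b) t).r (Ψ.e f b (φ.s n b v)) j
      rw [φ.nat]

/-- transport of labels -/
def Lb.pull (φ : Sys.Iso Φ Ψ) (l : Lb Ψ X) : Lb Φ X where
  l n b v := l.l n b (φ.s n b v)
  nat f b v t := by rw [φ.nat]; exact l.nat f b _ t


theorem Bx.pull_extend (φ : Sys.Iso Φ Ψ) (c : Bx Ψ A) (k : A ↪ J) :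
    (c.pull φ).extend k = (c.extend k).pull φ := rfl

theorem M_pull [Finite J] (φ : Sys.Iso Φ Ψ) (c : Bx Ψ J) (l : Lb Ψ (Ω^ J Z z₀)) :
    M (c.pull φ) (l.pull φ) = M c l :=
  eq_M' _ _ _ fun n b t => by
    rw [ev_M]
    exact mu_relabel (c.c n b t) (φ.s n b) (fun v => l.l n b v t)

/-- independence of the boxes across isomorphic local systems -/
theorem M_H_eq_iso (hI : SpecA.HomotopyInv) (R : Type) [CommRing R] [Finite A] [Finite A']
    [Finite J] (ι : A ↪ J) (ι' : A' ↪ J) (h : 2 * Nat.card A + Nat.card A' ≤ Nat.card J)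
    (φ : Sys.Iso Φ Ψ) (c : Bx Φ A) (c' : Bx Ψ A') (l : Lb Ψ (Ω^ J Z z₀)) :
    H.map R (M (c.extend ι) (l.pull φ)) = H.map R (M (c'.extend ι') l) := by
  rw [M_H_eq hI R ι ι' h c (c'.pull φ) (l.pull φ), Bx.pull_extend, M_pull]

/-! ### the local system of threads -/

open Thr328 Fs348

variable {U W : Type}

/-- the local system of threads -/
def ofHom (g : Hom B (Tot U)) : Sys B where
  F n b := {a : Fin (n + 1) → U // a ∈ (g.app n b).1}
  fin n b := inferInstance
  e {m n} f b := Equiv.ofBijective (fun a => ⟨a.1 ∘ f, by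
      rw [g.nat]; exact mem_re.2 ⟨a.1, a.2, rfl⟩⟩) (by
    constructor
    · intro a a' h
      exact Subtype.ext ((g.app n b).2.injOn f a.2 a'.2 (congrArg Subtype.val h))
    · rintro ⟨a, ha⟩
      rw [g.nat] at ha
      obtain ⟨a', ha', rfl⟩ := mem_re.1 ha
      exact ⟨⟨a', ha'⟩, rfl⟩)

@[simp] theorem ofHom_e_val (g : Hom B (Tot U)) {m n : ℕ} (f : Op m n) (b : B.S n)
    (a : (ofHom g).F n b) : ((ofHom g).e f b a).1 = a.1 ∘ f := rfl

/-- real labels of threads -/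
def rlOf (lab : U ↪ ℝ) {M : ℕ} (g : Hom B (Tot U)) (hg : ∀ n b, IsSk M (Tot U) (g.app n b)) :
    Rl (ofHom g) M where
  w n b a i := lab (a.1 i)
  nat f b a := rfl
  sep n b := by
    obtain ⟨p, hp, f, y, hy⟩ := hg n b
    have key : ∀ a : (ofHom g).F n b, ∃ c ∈ y.1, c ∘ f = a.1 := by
      intro a
      have h1 : a.1 ∈ ((Tot U).act f y).1 := hy ▸ a.2
      exact mem_re.1 h1
    choose c hc hca using key
    refine ⟨p, hp, f, fun a i => lab (c a i), fun a => ?_, fun a a' h k hk => h ?_⟩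
    · funext i
      show lab (a.1 i) = lab (c a (f i))
      rw [← hca a]; rfl
    · have h1 : c a = c a' := y.2 k (hc a) (hc a') (lab.injective hk)
      exact Subtype.ext (by rw [← hca a, ← hca a', h1])

/-- the cover transfer of a family of sets of threads, with constant label `x₀` -/
def kapG [Finite J] (lab : U ↪ ℝ) {M : ℕ} (k : Fin (M + 1) ↪ J) (x₀ : Ω^ J Z z₀)
    (g : Hom B (Tot U)) (hg : ∀ n b, IsSk M (Tot U) (g.app n b)) :
    Hom B (Sing (Ω^ J Z z₀)) :=
  CovT761.M ((rlOf lab g hg).bx.extend k) (Lb.const _ x₀)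

/-- `κ` on the `M`-skeleton of `Tot U` -/
def kap [Finite J] (lab : U ↪ ℝ) (M : ℕ) (k : Fin (M + 1) ↪ J) (x₀ : Ω^ J Z z₀) :
    Hom (sk M (Tot U)) (Sing (Ω^ J Z z₀)) :=
  kapG lab k x₀ (skIncl M (Tot U)) (fun _ b => b.2)



theorem kapG_comp [Finite J] (lab : U ↪ ℝ) {M : ℕ} (k : Fin (M + 1) ↪ J) (x₀ : Ω^ J Z z₀)
    (g : Hom B (Tot U)) (hg : ∀ n b, IsSk M (Tot U) (g.app n b)) {C : SS} (f : Hom C B) :
    (kapG lab k x₀ g hg).comp f = kapG lab k x₀ (g.comp f) (fun n b => hg n (f.app n b)) := rfl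

end CovT761

end Crest.Agent.R204
end
end

-- ▼ part R204/Kap2_761
section

/-!
# Row 204, block G (helper761): `κ`, independence, products, `θ`

Everything is stated for `kapG lab k x₀ g`, `g : Hom B (Tot U)` an arbitrary family of finite sets of
threads over an arbitrary base `B` (with values in the `M`-skeleton).

* `kapG_H_eq`, `kapG_H_mapU` : independence of all choices, naturality in `U`;
* `opB o k f₁ f₂` : operation of a family of pairs of boxes; `opB_kapG_H` : it corresponds to `th`;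
* `opB_kapG_H_orb` : the orbit version;
* `kapG_one`, `kapG_zero` : one thread, no thread.
-/

set_option autoImplicit false
set_option linter.unusedSectionVars false

open scoped Topology unitInterval Topology.Homotopy
open Set

noncomputable section

namespace Crest.Agent.R204.CovT761

open Crest.Agent.R204.Cubes735 Crest.Agent.R204.Htpy761 SingAct265 SS Thr328 Fs348

variable {B : SS} {A A' J : Type} {X Z : Type} [TopologicalSpace X]
  [TopologicalSpace Z] {z₀ : Z} {U W : Type}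

/-! ### independence -/

/-- identity isomorphism -/
def Sys.Iso.refl (Φ : Sys B) : Sys.Iso Φ Φ := ⟨fun _ _ => Equiv.refl _, fun _ _ _ => rfl⟩

section
variable (hI : SpecA.HomotopyInv) (R : Type) [CommRing R] [Finite J]
include hI

/-- families with isomorphic systems of threads have the same `κ` on homology -/
theorem kapG_H_iso {g : Hom B (Tot U)} {g' : Hom B (Tot W)} (φ : Sys.Iso (ofHom g) (ofHom g'))
    (lab : U ↪ ℝ) (lab' : W ↪ ℝ) {M M' : ℕ} (k : Fin (M + 1) ↪ J) (k' : Fin (M' + 1) ↪ J)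
    (h : 2 * (M + 1) + (M' + 1) ≤ Nat.card J) (x₀ : Ω^ J Z z₀)
    (hg : ∀ n b, IsSk M (Tot U) (g.app n b)) (hg' : ∀ n b, IsSk M' (Tot W) (g'.app n b)) :
    H.map R (kapG lab k x₀ g hg) = H.map R (kapG lab' k' x₀ g' hg') :=
  M_H_eq_iso hI R k k' (by simpa using h) φ _ _ (Lb.const _ x₀)

/-- `κ` is independent of all choices on homology -/
theorem kapG_H_eq (g : Hom B (Tot U)) (lab lab' : U ↪ ℝ) {M M' : ℕ} (k : Fin (M + 1) ↪ J)
    (k' : Fin (M' + 1) ↪ J) (h : 2 * (M + 1) + (M' + 1) ≤ Nat.card J) (x₀ : Ω^ J Z z₀)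
    (hg : ∀ n b, IsSk M (Tot U) (g.app n b)) (hg' : ∀ n b, IsSk M' (Tot U) (g.app n b)) :
    H.map R (kapG lab k x₀ g hg) = H.map R (kapG lab' k' x₀ g hg') :=
  kapG_H_iso hI R (Sys.Iso.refl _) lab lab' k k' h x₀ hg hg'

end

/-- relabelling the universe -/
def isoMapU (f : U ↪ W) (g : Hom B (Tot U)) :
    Sys.Iso (ofHom g) (ofHom ((mapU f).comp g)) where
  s n b := Equiv.ofBijective (fun a => ⟨f ∘ a.1, mem_pu.2 ⟨a.1, a.2, rfl⟩⟩) (by
    constructor
    · intro a a' h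
      refine Subtype.ext (funext fun i => f.injective ?_)
      exact congrFun (congrArg Subtype.val h) i
    · rintro ⟨a, ha⟩
      obtain ⟨a', ha', rfl⟩ := mem_pu.1 ha
      exact ⟨⟨a', ha'⟩, rfl⟩)
  nat f b v := rfl

/-- naturality of `κ` in the universe -/
theorem kapG_H_mapU (hI : SpecA.HomotopyInv) (R : Type) [CommRing R] [Finite J] (f : U ↪ W)
    (g : Hom B (Tot U)) (lab : U ↪ ℝ) (lab' : W ↪ ℝ) {M M' : ℕ} (k : Fin (M + 1) ↪ J)
    (k' : Fin (M' + 1) ↪ J) (h : 2 * (M + 1) + (M' + 1) ≤ Nat.card J) (x₀ : Ω^ J Z z₀)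
    (hg : ∀ n b, IsSk M (Tot U) (g.app n b))
    (hg' : ∀ n b, IsSk M' (Tot W) (((mapU f).comp g).app n b)) :
    H.map R (kapG lab k x₀ g hg) = H.map R (kapG lab' k' x₀ ((mapU f).comp g) hg') :=
  kapG_H_iso hI R (isoMapU f g) lab lab' k k' h x₀ hg hg'

/-! ### the extended square on threads -/

/-- sign on which a copy lives -/
def sd (β : Bool) : ZMod 2 := cond β 0 1

/-- the family `θ(e; g₁, g₂)` -/
def thF (e : Hom B (EG (ZMod 2))) (g₁ g₂ : Hom B (Tot U)) : Hom B (Tot (U ⊕ U)) :=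
  (tht U).comp (pair e (pair g₁ g₂))

theorem thF_val (e : Hom B (EG (ZMod 2))) (g₁ g₂ : Hom B (Tot U)) {n : ℕ} (b : B.S n) :
    ((thF e g₁ g₂).app n b).1 = th (e.app n b) (g₁.app n b).1 (g₂.app n b).1 := rfl

theorem mem_thF {e : Hom B (EG (ZMod 2))} {g₁ g₂ : Hom B (Tot U)} {n : ℕ} {b : B.S n}
    {c : Fin (n + 1) → U ⊕ U} : c ∈ ((thF e g₁ g₂).app n b).1 ↔
      ∃ (β : Bool) (a : Fin (n + 1) → U), a ∈ ((cond β g₁ g₂).app n b).1 ∧
        side (e.app n b) (sd β) a = c := by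
  refine Iff.trans (mem_th (g := e.app n b) (A := (g₁.app n b).1) (B := (g₂.app n b).1)) ?_
  constructor
  · rintro (⟨a, ha, h⟩ | ⟨a, ha, h⟩)
    · exact ⟨true, a, ha, h⟩
    · exact ⟨false, a, ha, h⟩
  · rintro ⟨β, a, ha, h⟩
    cases β
    · exact Or.inr ⟨a, ha, h⟩
    · exact Or.inl ⟨a, ha, h⟩

/-- threads of `θ(e; g₁, g₂)` -/
def thIso (e : Hom B (EG (ZMod 2))) (g₁ g₂ : Hom B (Tot U)) :
    Sys.Iso (Sys.sigma fun β : Bool => ofHom (cond β g₁ g₂)) (ofHom (thF e g₁ g₂)) where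
  s n b := Equiv.ofBijective (fun p => ⟨side (e.app n b) (sd p.1) p.2.1,
      mem_thF.2 ⟨p.1, p.2.1, p.2.2, rfl⟩⟩) (by
    constructor
    · rintro ⟨β, a⟩ ⟨β', a'⟩ h
      have h' : side (e.app n b) (sd β) a.1 = side (e.app n b) (sd β') a'.1 :=
        congrArg Subtype.val h
      cases β <;> cases β'
      · have : a = a' := Subtype.ext (side_inj _ _ h')
        rw [this]
      · exact absurd (congrFun h' 0).symm (side_ne _ _ _ _)
      · exact absurd (congrFun h' 0) (side_ne _ _ _ _)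
      · have : a = a' := Subtype.ext (side_inj _ _ h')
        rw [this]
    · rintro ⟨c, hc⟩
      obtain ⟨β, a, ha, h⟩ := mem_thF.1 hc
      exact ⟨⟨β, ⟨a, ha⟩⟩, Subtype.ext h⟩)
  nat {m n} f b v := by
    refine Subtype.ext ?_
    show side (e.app m (B.act f b)) (sd v.1) (v.2.1 ∘ f) = side (e.app n b) (sd v.1) v.2.1 ∘ f
    rw [e.nat]
    rfl

/-- an operation given by a family of pairs of boxes -/
def opB [Finite J] (o : Bx (Sys.const B Bool) A) (k : A ↪ J)
    (f₁ f₂ : Hom B (Sing (Ω^ J Z z₀))) : Hom B (Sing (Ω^ J Z z₀)) where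
  app n b := mkS (fun t => mu ((show BoxConf Bool A from o.c n b t).extend k)
      (fun β => cond β (ev (f₁.app n b) t) (ev (f₂.app n b) t))) (by
    refine continuous_mu (BoxConf.continuous_extend (o.c n b).continuous k)
      (continuous_pi fun β => ?_)
    cases β
    · exact continuous_ev _
    · exact continuous_ev _)
  nat {m n} f b := by
    refine sing_ext fun t => ?_
    rw [ev_mkS, ev_act, ev_mkS, f₁.nat, f₂.nat]
    have h1 : (show BoxConf Bool A from o.c m (B.act f b) t) =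
      (show BoxConf Bool A from o.c n b (stdSimplex.map f t)) := o.nat f b t
    rw [h1]
    rfl

theorem ev_opB [Finite J] (o : Bx (Sys.const B Bool) A) (k : A ↪ J)
    (f₁ f₂ : Hom B (Sing (Ω^ J Z z₀))) {n : ℕ} (b : B.S n) (t : stdSimplex ℝ (Fin (n + 1))) :
    ev ((opB o k f₁ f₂).app n b) t = mu ((show BoxConf Bool A from o.c n b t).extend k)
      (fun β => cond β (ev (f₁.app n b) t) (ev (f₂.app n b) t)) := rfl

/-- the box families of two thread families -/
def bx2 {M : ℕ} (lab : U ↪ ℝ) (g₁ g₂ : Hom B (Tot U))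
    (hg₁ : ∀ n b, IsSk M (Tot U) (g₁.app n b)) (hg₂ : ∀ n b, IsSk M (Tot U) (g₂.app n b))
    (β : Bool) : Bx (ofHom (cond β g₁ g₂)) (Fin (M + 1)) :=
  (rlOf lab (cond β g₁ g₂) (by cases β; exacts [hg₂, hg₁])).bx

/-- `opB` of two `κ`'s is a cover transfer -/
theorem opB_kapG [Finite J] {M : ℕ} (o : Bx (Sys.const B Bool) (Fin (M + 1)))
    (k : Fin (M + 1) ↪ J) (lab : U ↪ ℝ) (x₀ : Ω^ J Z z₀) (g₁ g₂ : Hom B (Tot U))
    (hg₁ : ∀ n b, IsSk M (Tot U) (g₁.app n b)) (hg₂ : ∀ n b, IsSk M (Tot U) (g₂.app n b)) :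
    opB o k (kapG lab k x₀ g₁ hg₁) (kapG lab k x₀ g₂ hg₂) =
      CovT761.M ((o.comp (bx2 lab g₁ g₂ hg₁ hg₂)).extend k) (Lb.const _ x₀) := by
  refine eq_M' _ _ _ fun n b t => ?_
  rw [ev_opB, Bx.comp_extend]
  refine Eq.trans ?_ (mu_comp ((show BoxConf Bool (Fin (M + 1)) from o.c n b t).extend k)
    (fun β => (((bx2 lab g₁ g₂ hg₁ hg₂ β).extend k).c n b t)) (fun _ _ => x₀)).symm
  congr 1
  funext β
  cases β <;> rfl

section
variable (hI : SpecA.HomotopyInv) (R : Type) [CommRing R] [Finite J]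
include hI

/-- **(K2), (K3)**: a two-fold operation on `κ`'s is `κ` of `θ(e; g₁, g₂)`, on homology -/
theorem opB_kapG_H {M M' : ℕ} (o : Bx (Sys.const B Bool) (Fin (M + 1)))
    (k : Fin (M + 1) ↪ J) (k' : Fin (M' + 1) ↪ J) (h : 2 * (M + 1) + (M' + 1) ≤ Nat.card J)
    (lab : U ↪ ℝ) (lab' : U ⊕ U ↪ ℝ) (x₀ : Ω^ J Z z₀) (e : Hom B (EG (ZMod 2)))
    (g₁ g₂ : Hom B (Tot U)) (hg₁ : ∀ n b, IsSk M (Tot U) (g₁.app n b))
    (hg₂ : ∀ n b, IsSk M (Tot U) (g₂.app n b))
    (hg' : ∀ n b, IsSk M' (Tot (U ⊕ U)) ((thF e g₁ g₂).app n b)) :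
    H.map R (opB o k (kapG lab k x₀ g₁ hg₁) (kapG lab k x₀ g₂ hg₂)) =
      H.map R (kapG lab' k' x₀ (thF e g₁ g₂) hg') := by
  rw [opB_kapG]
  exact M_H_eq_iso hI R k k' (by simpa using h) (thIso e g₁ g₂) _ _ (Lb.const _ x₀)

end

/-! ### the orbit version -/

open DK742

/-- equality of sets of threads gives an equivalence of fibres -/
def thEq {n : ℕ} {S S' : Finset (Fin (n + 1) → U)} (h : S = S') : {a // a ∈ S} ≃ {a // a ∈ S'} :=
  Equiv.subtypeEquivRight (fun a => by rw [h])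

theorem bx_thEq {B B' : SS} {M : ℕ} (lab : U ↪ ℝ) (g : Hom B (Tot U)) (g' : Hom B' (Tot U))
    (hg : ∀ n b, IsSk M (Tot U) (g.app n b)) (hg' : ∀ n b, IsSk M (Tot U) (g'.app n b)) {n : ℕ}
    (b : B.S n) (b' : B'.S n) (h : (g.app n b).1 = (g'.app n b').1)
    (t : stdSimplex ℝ (Fin (n + 1))) :
    ((rlOf lab g' hg').bx.c n b' t).relabel (thEq h) = (rlOf lab g hg).bx.c n b t := by
  show (cubesF (momConf M ((rlOf lab g' hg').w n b') _ t)).relabel (thEq h) =
    cubesF (momConf M ((rlOf lab g hg).w n b) _ t)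
  exact (cubesF_relabel (F' := {a // a ∈ (g.app n b).1}) _ (thEq h)).symm

/-- the action on the fibres of a disjoint union of two thread families which are exchanged -/
theorem cond_tau {τ : Invo B} {g₁ g₂ : Hom B (Tot U)}
    (hg : ∀ n b, g₁.app n (τ.g.app n b) = g₂.app n b) (β : Bool) (n : ℕ) (b : B.S n) :
    (cond (!β) g₁ g₂).app n (τ.g.app n b) = (cond β g₁ g₂).app n b := by
  cases β
  · exact hg n b
  · have := hg n (τ.g.app n b)
    rw [τ.invol] at this
    exact this.symm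

/-- the action on the fibres of a disjoint union of two thread families which are exchanged -/
def actSig (τ : Invo B) (g₁ g₂ : Hom B (Tot U))
    (hg : ∀ n b, g₁.app n (τ.g.app n b) = g₂.app n b) :
    Act (Sys.sigma fun β : Bool => ofHom (cond β g₁ g₂)) τ.g where
  s n b :=
    { toFun := fun p => ⟨!p.1, thEq (congrArg Subtype.val (cond_tau hg p.1 n b)).symm p.2⟩
      invFun := fun p => ⟨!p.1, thEq (congrArg Subtype.val (by
        have := cond_tau hg (!p.1) n b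
        rwa [Bool.not_not] at this)) p.2⟩
      left_inv := by
        rintro ⟨β, a⟩
        cases β <;> rfl
      right_inv := by
        rintro ⟨β, a⟩
        cases β <;> rfl }

/-- the action on the threads of an invariant family -/
def actOf {τ : Invo B} (g : Hom B (Tot U)) (hg : ∀ n b, g.app n (τ.g.app n b) = g.app n b) :
    Act (ofHom g) τ.g where
  s n b := thEq (congrArg Subtype.val (hg n b)).symm

theorem rlOf_inv {τ : Invo B} {M : ℕ} (lab : U ↪ ℝ) (g : Hom B (Tot U))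
    (hg : ∀ n b, g.app n (τ.g.app n b) = g.app n b) (hM : ∀ n b, IsSk M (Tot U) (g.app n b)) :
    (rlOf lab g hM).Inv (actOf g hg) := fun _ _ _ => rfl

/-- the flip -/
def actBool (g : Hom B B) : Act (Sys.const B Bool) g := ⟨fun _ _ => Equiv.boolNot⟩

theorem comp_inv {τ : Invo B} {M : ℕ} (lab : U ↪ ℝ) {g₁ g₂ : Hom B (Tot U)}
    (hg : ∀ n b, g₁.app n (τ.g.app n b) = g₂.app n b)
    (hg₁ : ∀ n b, IsSk M (Tot U) (g₁.app n b)) (hg₂ : ∀ n b, IsSk M (Tot U) (g₂.app n b))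
    {o : Bx (Sys.const B Bool) (Fin (M + 1))} (ho : o.Inv (actBool τ.g)) :
    (o.comp (bx2 lab g₁ g₂ hg₁ hg₂)).Inv (actSig τ g₁ g₂ hg) := by
  intro n b t
  have h1 : (show BoxConf Bool (Fin (M + 1)) from o.c n (τ.g.app n b) t).relabel Equiv.boolNot =
    (show BoxConf Bool (Fin (M + 1)) from o.c n b t) := ho n b t
  have h2 : ∀ β : Bool, ((bx2 lab g₁ g₂ hg₁ hg₂ (!β)).c n (τ.g.app n b) t).relabel
      (thEq (congrArg Subtype.val (cond_tau hg β n b)).symm) =
      (bx2 lab g₁ g₂ hg₁ hg₂ β).c n b t := fun β => bx_thEq lab _ _ _ _ _ _ _ t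
  refine BoxConf.ext' (fun v j => ?_) (fun v j => ?_)
  · have e1 : ((show BoxConf Bool (Fin (M + 1)) from o.c n (τ.g.app n b) t).relabel
          Equiv.boolNot).a v.1 j +
        ((show BoxConf Bool (Fin (M + 1)) from o.c n (τ.g.app n b) t).relabel
          Equiv.boolNot).r v.1 j *
        (((bx2 lab g₁ g₂ hg₁ hg₂ (!v.1)).c n (τ.g.app n b) t).relabel
          (thEq (congrArg Subtype.val (cond_tau hg v.1 n b)).symm)).a v.2 j =
        (show BoxConf Bool (Fin (M + 1)) from o.c n b t).a v.1 j +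
        (show BoxConf Bool (Fin (M + 1)) from o.c n b t).r v.1 j *
        ((bx2 lab g₁ g₂ hg₁ hg₂ v.1).c n b t).a v.2 j := by rw [h1, h2]; rfl
    exact e1
  · have e1 : ((show BoxConf Bool (Fin (M + 1)) from o.c n (τ.g.app n b) t).relabel
          Equiv.boolNot).r v.1 j *
        (((bx2 lab g₁ g₂ hg₁ hg₂ (!v.1)).c n (τ.g.app n b) t).relabel
          (thEq (congrArg Subtype.val (cond_tau hg v.1 n b)).symm)).r v.2 j =
        (show BoxConf Bool (Fin (M + 1)) from o.c n b t).r v.1 j *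
        ((bx2 lab g₁ g₂ hg₁ hg₂ v.1).c n b t).r v.2 j := by rw [h1, h2]; rfl
    exact e1

theorem Bx.Inv.pull {Φ Ψ : Sys B} {φ : Sys.Iso Φ Ψ} {g : Hom B B} {sg : Act Φ g} {sg' : Act Ψ g}
    (hs : ∀ n b v, φ.s n (g.app n b) (sg.s n b v) = sg'.s n b (φ.s n b v)) {c : Bx Ψ A}
    (hc : c.Inv sg') : (c.pull φ).Inv sg := by
  intro n b t
  show ((c.c n (g.app n b) t).relabel (φ.s n (g.app n b))).relabel (sg.s n b) =
    (c.c n b t).relabel (φ.s n b)
  rw [← hc n b t]
  refine BoxConf.ext' (fun v j => ?_) (fun v j => ?_)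
  · show (c.c n (g.app n b) t).a (φ.s n (g.app n b) (sg.s n b v)) j =
      (c.c n (g.app n b) t).a (sg'.s n b (φ.s n b v)) j
    rw [hs]
  · show (c.c n (g.app n b) t).r (φ.s n (g.app n b) (sg.s n b v)) j =
      (c.c n (g.app n b) t).r (sg'.s n b (φ.s n b v)) j
    rw [hs]

theorem thF_inv {τ : Invo B} {e : Hom B (EG (ZMod 2))} {g₁ g₂ : Hom B (Tot U)}
    (he : ∀ n b, e.app n (τ.g.app n b) = fun i => e.app n b i + 1)
    (hg : ∀ n b, g₁.app n (τ.g.app n b) = g₂.app n b) (n : ℕ) (b : B.S n) :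
    (thF e g₁ g₂).app n (τ.g.app n b) = (thF e g₁ g₂).app n b := by
  refine Subtype.ext ?_
  have h2 : g₂.app n (τ.g.app n b) = g₁.app n b := cond_tau hg true n b
  rw [thF_val, thF_val, he, hg, h2]
  exact th_swap _ _ _

/-- **(K3)** orbit version: an equivariant two-fold operation on `κ`'s is `κ` of `θ(e; g₁, g₂)`, on
the homology of the orbits -/
theorem opB_kapG_H_orb (hI : SpecA.HomotopyInv) (R : Type) [CommRing R] [Finite J]
    {τ : Invo B} {M M' : ℕ} (o : Bx (Sys.const B Bool) (Fin (M + 1)))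
    (k : Fin (M + 1) ↪ J) (k' : Fin (M' + 1) ↪ J) (h : 2 * (M + 1) + (M' + 1) ≤ Nat.card J)
    (lab : U ↪ ℝ) (lab' : U ⊕ U ↪ ℝ) (x₀ : Ω^ J Z z₀) (e : Hom B (EG (ZMod 2)))
    (g₁ g₂ : Hom B (Tot U)) (hg₁ : ∀ n b, IsSk M (Tot U) (g₁.app n b))
    (hg₂ : ∀ n b, IsSk M (Tot U) (g₂.app n b))
    (hg' : ∀ n b, IsSk M' (Tot (U ⊕ U)) ((thF e g₁ g₂).app n b))
    (ho : o.Inv (actBool τ.g)) (he : ∀ n b, e.app n (τ.g.app n b) = fun i => e.app n b i + 1)
    (hg : ∀ n b, g₁.app n (τ.g.app n b) = g₂.app n b)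
    {f f' : Hom (orb B τ) (Sing (Ω^ J Z z₀))}
    (hf : f.comp (proj τ) = opB o k (kapG lab k x₀ g₁ hg₁) (kapG lab k x₀ g₂ hg₂))
    (hf' : f'.comp (proj τ) = kapG lab' k' x₀ (thF e g₁ g₂) hg') :
    H.map R f = H.map R f' := by
  rw [opB_kapG] at hf
  have hcomp : ∀ n b v, (thIso e g₁ g₂).s n (τ.g.app n b) ((actSig τ g₁ g₂ hg).s n b v) =
      (actOf (thF e g₁ g₂) (thF_inv he hg)).s n b ((thIso e g₁ g₂).s n b v) := by
    rintro n b ⟨β, a⟩
    refine Subtype.ext ?_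
    show side (e.app n (τ.g.app n b)) (sd (!β)) a.1 = side (e.app n b) (sd β) a.1
    rw [he]
    refine (side_add_one (e.app n b) (sd (!β)) a.1).trans ?_
    cases β <;> rfl
  refine M_H_eq_orb hI R k k' (by simpa using h) (o.comp (bx2 lab g₁ g₂ hg₁ hg₂))
    ((rlOf lab' (thF e g₁ g₂) hg').bx.pull (thIso e g₁ g₂)) (Lb.const _ x₀)
    (sg := actSig τ g₁ g₂ hg) (comp_inv lab hg hg₁ hg₂ ho) ?_ (fun _ _ _ _ => rfl) hf ?_
  · exact Bx.Inv.pull hcomp (rlOf_inv lab' _ _ hg').bx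
  · rw [hf', Bx.pull_extend]
    exact (M_pull (thIso e g₁ g₂) ((rlOf lab' (thF e g₁ g₂) hg').bx.extend k')
      (Lb.const _ x₀)).symm

end Crest.Agent.R204.CovT761
end
end

-- ▼ part R204/Kap3_761
section

/-!
# Row 204, block G (helper761): `κ` and the operations of `Sing (Ω^J Z)`

* `mulS_kap` : products; `Theta_kap` : the extended square;
* `kapG_zero`, `kapG_one` : no thread, one thread.
-/

set_option autoImplicit false
set_option linter.unusedSectionVars false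

open scoped Topology unitInterval Topology.Homotopy
open Set

noncomputable section

namespace Crest.Agent.R204.CovT761

open Crest.Agent.R204.Cubes735 Crest.Agent.R204.Htpy761 SingAct265 SS Thr328 Fs348 DK742
open ThetaSS265 HspSS696

variable {B : SS} {A A' J : Type} {X Z : Type} [TopologicalSpace X]
  [TopologicalSpace Z] {z₀ : Z} {U W : Type}

/-! ### products -/

/-- constant family of pairs of boxes -/
def constBx (B : SS) (c : BoxConf Bool A) : Bx (Sys.const B Bool) A where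
  c _ _ := ContinuousMap.const _ c
  nat _ _ _ := rfl

/-- `true ↦ 0`, `false ↦ 1` -/
def b2 : Bool ≃ Fin 2 where
  toFun β := cond β 0 1
  invFun i := decide (i = 0)
  left_inv β := by cases β <;> rfl
  right_inv i := by fin_cases i <;> rfl

theorem mulS_eq_opB [Finite J] (c : BoxConf (Fin 2) A) (k : A ↪ J)
    (f₁ f₂ : Hom B (Sing (Ω^ J Z z₀))) :
    (mulS (c.extend k)).comp (pair f₁ f₂) = opB (constBx B (c.relabel b2)) k f₁ f₂ := by
  refine Hom.ext' fun n b => sing_ext fun t => ?_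
  have h := mu_relabel (c.extend k) b2 (![ev (f₁.app n b) t, ev (f₂.app n b) t])
  refine Eq.trans h.symm ?_
  show mu ((c.extend k).relabel b2) _ = mu ((c.extend k).relabel b2) _
  congr 1
  funext β
  cases β <;> rfl

/-- the zero family in `EG` -/
def zE (B : SS) : Hom B (EG (ZMod 2)) := ⟨fun _ _ _ => 0, fun _ _ => rfl⟩

theorem thF_zero (g₁ g₂ : Hom B (Tot U)) :
    thF (zE B) g₁ g₂ = (dj U U).comp (pair g₁ g₂) :=
  Hom.ext' fun _ _ => Subtype.ext (th_zero _ _)

/-- a pair of boxes in few coordinates -/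
theorem exists_conf (M : ℕ) : Nonempty (BoxConf (Fin 2) (Fin (M + 1))) := by
  refine ⟨cubesF ⟨fun v _ => ((v : ℕ) : ℝ), fun v v' h => ?_⟩⟩
  have := congrFun h 0
  exact Fin.ext (Nat.cast_injective this)

section
variable (hI : SpecA.HomotopyInv) (R : Type) [CommRing R] [Finite J]
include hI

/-- **(K2)** products of `κ`'s, on homology; arbitrary multiplication `mulS c` -/
theorem mulS_kapG (c : BoxConf (Fin 2) J) {M M' : ℕ} (k : Fin (M + 1) ↪ J)
    (k' : Fin (M' + 1) ↪ J) (h : 2 * (M + 1) + (M' + 1) ≤ Nat.card J)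
    (lab : U ↪ ℝ) (lab' : U ⊕ U ↪ ℝ) (x₀ : Ω^ J Z z₀)
    (g₁ g₂ : Hom B (Tot U)) (hg₁ : ∀ n b, IsSk M (Tot U) (g₁.app n b))
    (hg₂ : ∀ n b, IsSk M (Tot U) (g₂.app n b))
    (hg' : ∀ n b, IsSk M' (Tot (U ⊕ U)) (((dj U U).comp (pair g₁ g₂)).app n b)) :
    H.map R ((mulS c).comp (pair (kapG lab k x₀ g₁ hg₁) (kapG lab k x₀ g₂ hg₂))) =
      H.map R (kapG lab' k' x₀ ((dj U U).comp (pair g₁ g₂)) hg') := by
  have hnt : Nontrivial J := by
    rw [← Finite.one_lt_card_iff_nontrivial]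
    omega
  obtain ⟨d⟩ := exists_conf M
  obtain ⟨H1⟩ := mulS_htpy' (Z := Z) (z₀ := z₀) c (d.extend k)
  have e1 : H.map R ((mulS c).comp (pair (kapG lab k x₀ g₁ hg₁) (kapG lab k x₀ g₂ hg₂))) =
      H.map R ((mulS (d.extend k)).comp (pair (kapG lab k x₀ g₁ hg₁) (kapG lab k x₀ g₂ hg₂))) :=
    Htpy_homology hI R (H1.pre _)
  rw [e1, mulS_eq_opB]
  have hg'' : ∀ n b, IsSk M' (Tot (U ⊕ U)) ((thF (zE B) g₁ g₂).app n b) := by
    rw [thF_zero]; exact hg'
  rw [opB_kapG_H hI R (constBx B (d.relabel b2)) k k' h lab lab' x₀ (zE B) g₁ g₂ hg₁ hg₂ hg'']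
  congr 2

end

/-! ### the extended square -/

/-- the family of pairs of boxes of `theta` -/
def thetaBx {M : ℕ} (e : Hom B (EM M)) : Bx (Sys.const B Bool) (Fin (M + 1)) where
  c n b := (⟨fun t => thetaConf (ev ((nz M).app n (e.app n b)) t),
    continuous_thetaConf.comp (continuous_ev _)⟩ :
      C(stdSimplex ℝ (Fin (n + 1)), BoxConf Bool (Fin (M + 1))))
  nat {m n} f b t := by
    show thetaConf (ev ((nz M).app m (e.app m (B.act f b))) t) =
      thetaConf (ev ((nz M).app n (e.app n b)) (stdSimplex.map f t))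
    rw [e.nat, (nz M).nat]
    rfl


theorem thetaBx_inv {τ : Invo B} {M : ℕ} {e : Hom B (EM M)}
    (he : ∀ n b, e.app n (τ.g.app n b) = (invEM M).g.app n (e.app n b)) :
    (thetaBx e).Inv (actBool τ.g) := by
  intro n b t
  show (thetaConf (ev ((nz M).app n (e.app n (τ.g.app n b))) t)).relabel Equiv.boolNot =
    thetaConf (ev ((nz M).app n (e.app n b)) t)
  rw [he, nz_neg, thetaConf_neg]
  refine BoxConf.ext' (fun v j => ?_) (fun v j => ?_) <;> cases v <;> rfl

/-- the family of sets of threads over `sk_M E(Z/2) ×_{Z/2} (Tot U)²` -/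
def thD (M : ℕ) (U : Type) : Hom (DM M (Tot U)) (Tot (U ⊕ U)) :=
  orbLift _ ((tht U).comp (prodMap (skIncl M (EG (ZMod 2))) (Hom.id _)))
    (fun _ _ => Subtype.ext (th_swap _ _ _))


/-- the same over the skeleton of `Tot U` -/
def thDs (M : ℕ) (U : Type) : Hom (DM M (sk M (Tot U))) (Tot (U ⊕ U)) :=
  (thD M U).comp (DMmap M (skIncl M (Tot U)))

theorem thDs_sk (M : ℕ) (U : Type) (n : ℕ) (b : (DM M (sk M (Tot U))).S n) :
    IsSk (M + (M + M)) (Tot (U ⊕ U)) ((thDs M U).app n b) := by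
  obtain ⟨x, rfl⟩ := proj_surj _ n b
  have h1 : IsSk (M + (M + M)) ((EG (ZMod 2)).prod ((Tot U).prod (Tot U)))
      (x.1.1, (x.2.1.1, x.2.2.1)) :=
    IsSk.prod x.1.2 (IsSk.prod x.2.1.2 x.2.2.2)
  exact h1.map (tht U)

/-- **(K3)** the extended square: `Theta ∘ κ` corresponds to `θ` on threads, on homology -/
theorem Theta_kap (hI : SpecA.HomotopyInv) (R : Type) [CommRing R] [Finite J] {M M' : ℕ}
    (k : Fin (M + 1) ↪ J) (k' : Fin (M' + 1) ↪ J) (h : 2 * (M + 1) + (M' + 1) ≤ Nat.card J)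
    (lab : U ↪ ℝ) (lab' : U ⊕ U ↪ ℝ) (x₀ : Ω^ J Z z₀)
    (hg' : ∀ n b, IsSk M' (Tot (U ⊕ U)) ((thDs M U).app n b)) :
    H.map R ((Theta k).comp (DMmap M (kap lab M k x₀))) =
      H.map R (kapG lab' k' x₀ (thDs M U) hg') := by
  let B : SS := (EM M).prod ((sk M (Tot U)).prod (sk M (Tot U)))
  let τ : Invo B := (invEM M).prod (Invo.swap (sk M (Tot U)))
  let e' : Hom B (EM M) := SS.fst _ _
  let e : Hom B (EG (ZMod 2)) := (skIncl M (EG (ZMod 2))).comp e'
  let g₁ : Hom B (Tot U) := (skIncl M (Tot U)).comp ((SS.fst _ _).comp (SS.snd _ _))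
  let g₂ : Hom B (Tot U) := (skIncl M (Tot U)).comp ((SS.snd _ _).comp (SS.snd _ _))
  have hg₁ : ∀ n b, IsSk M (Tot U) (g₁.app n b) := fun n b => b.2.1.2
  have hg₂ : ∀ n b, IsSk M (Tot U) (g₂.app n b) := fun n b => b.2.2.2
  have hgg : ∀ n b, IsSk M' (Tot (U ⊕ U)) ((thF e g₁ g₂).app n b) := fun n b =>
    hg' n ((proj τ).app n b)
  exact opB_kapG_H_orb hI R (τ := τ) (thetaBx e') k k' h lab lab' x₀ e g₁ g₂ hg₁ hg₂ hgg
    (thetaBx_inv fun _ _ => rfl) (fun _ _ => rfl) (fun _ _ => rfl) rfl rfl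

/-! ### no thread, one thread -/

/-- no thread -/
theorem kapG_zero [Finite J] (lab : U ↪ ℝ) {M : ℕ} (k : Fin (M + 1) ↪ J) (x₀ : Ω^ J Z z₀)
    (g : Hom B (Tot U)) (hg : ∀ n b, IsSk M (Tot U) (g.app n b))
    (h0 : ∀ n b, (g.app n b).1 = ∅) :
    kapG lab k x₀ g hg = constHom B (Sing (Ω^ J Z z₀)) (ptS GenLoop.const) := by
  refine Hom.ext' fun n b => sing_ext fun t => ?_
  have h1 : ∀ a : Fin (n + 1) → U, a ∉ (g.app n b).1 := by
    intro a; rw [h0]; exact Finset.notMem_empty a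
  have h2 : (fun _ : (ofHom g).F n b => x₀) = fun _ => (GenLoop.const : Ω^ J Z z₀) := by
    funext a
    exact absurd a.2 (h1 a.1)
  show mu (((rlOf lab g hg).bx.extend k).c n b t) (fun _ : (ofHom g).F n b => x₀) = GenLoop.const
  rw [h2]
  exact mu_const _

/-- the full box -/
def oneBx (Φ : Sys B) (hΦ : ∀ n b, Subsingleton (Φ.F n b)) (A : Type) : Bx Φ A where
  c n b := ContinuousMap.const _ (letI := hΦ n b; BoxConf.one (Φ.F n b) A)
  nat _ _ _ := rfl

/-- one thread -/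
theorem kapG_one (hI : SpecA.HomotopyInv) (R : Type) [CommRing R] [Finite J] (lab : U ↪ ℝ)
    {M : ℕ} (k : Fin (M + 1) ↪ J) (h : 2 * (M + 1) ≤ Nat.card J) (x₀ : Ω^ J Z z₀)
    (g : Hom B (Tot U)) (hg : ∀ n b, IsSk M (Tot U) (g.app n b))
    (h1 : ∀ n b, (g.app n b).1.card = 1) :
    H.map R (kapG lab k x₀ g hg) = H.map R (constHom B (Sing (Ω^ J Z z₀)) (ptS x₀)) := by
  have hss : ∀ n b, Subsingleton ((ofHom g).F n b) := by
    intro n b
    obtain ⟨a, ha⟩ := Finset.card_eq_one.1 (h1 n b)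
    have key : ∀ x : (ofHom g).F n b, x.1 = a := fun x =>
      Finset.mem_singleton.1 (show x.1 ∈ ({a} : Finset (Fin (n + 1) → U)) from ha ▸ x.2)
    exact ⟨fun x y => Subtype.ext ((key x).trans (key y).symm)⟩
  have e1 := M_H_eq hI R k (⟨Fin.elim0, fun a => a.elim0⟩ : Fin 0 ↪ J) (by simpa using h)
    (rlOf lab g hg).bx (oneBx (ofHom g) hss (Fin 0)) (Lb.const _ x₀)
  refine e1.trans ?_
  congr 1
  refine Hom.ext' fun n b => sing_ext fun t => ?_
  obtain ⟨a, ha⟩ := Finset.card_eq_one.1 (h1 n b)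
  let _ : Unique ((ofHom g).F n b) :=
    { default := ⟨a, by rw [ha]; exact Finset.mem_singleton_self a⟩
      uniq := fun x => (hss n b).elim _ _ }
  refine Eq.trans ?_ (mu_one (F := (ofHom g).F n b) (J := J) (fun _ => x₀))
  show mu _ _ = mu _ _
  congr 1
  refine BoxConf.ext' (fun v j => ?_) (fun v j => ?_)
  · exact BoxConf.extend_a_not _ _ _ (fun ⟨i, _⟩ => i.elim0)
  · exact BoxConf.extend_r_not _ _ _ (fun ⟨i, _⟩ => i.elim0)

end Crest.Agent.R204.CovT761
end
end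

-- ▼ part R204/Kap4_761
section

/-!
# Row 204, block G (helper761): `κ` on homology

`kapH lab M k x₀ : H R (Tot U) →ₗ[R] H R (Sing (Ω^J Z))` (zero in degrees `≥ M`).

* `kapH_map` : `kapH (g_* z) = (kapG g)_* z` for every family `g : Hom B (Tot U)` of thread sets;
* `kapH_gr` : degrees; `kapH_mul` : products; `kapH_Q` : operations; `kapH_vtx_empty`,
  `kapH_vtx_one` : the classes of vertices.
-/

set_option autoImplicit false
set_option linter.unusedSectionVars false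

open scoped Topology unitInterval Topology.Homotopy
open Set

noncomputable section

namespace Crest.Agent.R204.CovT761

open Crest.Agent.R204.Cubes735 Crest.Agent.R204.Htpy761 SingAct265 SS Thr328 Fs348 DK742
open ThetaSS265 HspSS696 Sk761 Gr334 ThAlg265 Ops265 C5265

variable {B : SS} {A A' J : Type} {X Z : Type} [TopologicalSpace X]
  [TopologicalSpace Z] {z₀ : Z} {U W : Type}

/-- `κ` on homology -/
def kapH (R : Type) [CommRing R] [Finite J] (lab : U ↪ ℝ) (M : ℕ) (k : Fin (M + 1) ↪ J)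
    (x₀ : Ω^ J Z z₀) : H R (Tot U) →ₗ[R] H R (Sing (Ω^ J Z z₀)) :=
  H.map R (kap lab M k x₀) ∘ₗ skH R M (Tot U)

section
variable (R : Type) [CommRing R] [Finite J] (lab : U ↪ ℝ) (M : ℕ) (k : Fin (M + 1) ↪ J)
  (x₀ : Ω^ J Z z₀)

theorem kapH_apply (x : H R (Tot U)) :
    kapH R lab M k x₀ x = H.map R (kap lab M k x₀) (skH R M (Tot U) x) := rfl




/-- **the universal property of `kapH`** -/
theorem kapH_map {M' : ℕ} (lab' : U ↪ ℝ) (k' : Fin (M' + 1) ↪ J)
    (h : 2 * (M + 1) + (M' + 1) ≤ Nat.card J) (g : Hom B (Tot U))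
    (hg : ∀ n b, IsSk M' (Tot U) (g.app n b)) {j : ℕ} (hj : j < M) {z : H R B}
    (hz : z ∈ H.gr R B j) :
    kapH R lab M k x₀ (H.map R g z) = H.map R (kapG lab' k' x₀ g hg) z := by
  have h1 : H.map R (kapG lab' k' x₀ g hg) z =
      H.map R ((kapG lab' k' x₀ g hg).comp (skIncl M B)) (skH R M B z) := by
    rw [Sk761.Hmap_comp, incl_skH hj hz]
  have hgM : ∀ n b, IsSk M (Tot U) ((g.comp (skIncl M B)).app n b) := fun n b => b.2.map g
  have hgM' : ∀ n b, IsSk M' (Tot U) ((g.comp (skIncl M B)).app n b) := fun n b => hg n b.1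
  rw [h1, kapG_comp, kapH_apply, skH_map g hj hz, ← Sk761.Hmap_comp]
  have h2 := kapG_H_eq HtpInv334.homotopyInv R (g.comp (skIncl M B)) lab lab' k k' h x₀ hgM hgM'
  rw [← h2]
  rfl

end

/-! ### products -/

section
variable [Finite J]

/-- cross product of classes -/
def crH {K L : SS} (x : H F2 K) (y : H F2 L) : H F2 (K.prod L) :=
  DK742.Hd2 (EZ271.cross F2) (fun a b => bd_cross_F2 a b) x y

theorem mulH_eq {K : SS} (mu : Hom (K.prod K) K) (x y : H F2 K) :
    mulH mu x y = H.map F2 mu (crH x y) := rfl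

theorem crH_map {K L K' L' : SS} (f : Hom K K') (g : Hom L L') (x : H F2 K) (y : H F2 L) :
    H.map F2 (SS.prodMap f g) (crH x y) = crH (H.map F2 f x) (H.map F2 g y) := by
  obtain ⟨x, hx, rfl⟩ := Hd.mk_surj _ x
  obtain ⟨y, hy, rfl⟩ := Hd.mk_surj _ y
  refine Hd.mk_eq_mk.2 ⟨0, ?_⟩
  show N.bd F2 _ 0 = N.map F2 (SS.prodMap f g) (EZ271.cross F2 x y) -
    EZ271.cross F2 (N.map F2 f x) (N.map F2 g y)
  rw [EZ271.map_cross, map_zero, sub_self]

theorem crH_gr {K L : SS} {s t : ℕ} {x : H F2 K} {y : H F2 L} (hx : x ∈ H.gr F2 K s)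
    (hy : y ∈ H.gr F2 L t) : crH x y ∈ H.gr F2 (K.prod L) (s + t) := by
  obtain ⟨x, hx, hxn, rfl⟩ := DK742.exists_rep_gr hx
  obtain ⟨y, hy, hyn, rfl⟩ := DK742.exists_rep_gr hy
  exact DK742.mk_mem_gr _ (DK742.cross_gr hxn hyn)

theorem pw_gr {K : SS} {M i t : ℕ} (h : i ≤ M) {x : H F2 K} (hx : x ∈ H.gr F2 K t) :
    pw M K i x ∈ H.gr F2 (DM M K) (i + (t + t)) := by
  obtain ⟨z, hz, hn, rfl⟩ := DK742.exists_rep_gr hx
  rw [pw_mk h]
  refine DK742.mk_mem_gr _ ?_
  rw [PhiC_apply]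
  exact DK742.map_gr _ (DK742.cross_gr (ee_mem_gr M i) (DK742.cross_gr hn hn))

/-- existence of embeddings -/
theorem exists_emb {n : ℕ} (h : n ≤ Nat.card J) : Nonempty (Fin n ↪ J) := by
  classical
  let _ := Fintype.ofFinite J
  refine Function.Embedding.nonempty_of_card_le ?_
  simpa using h

/-- first component of the product of skeleta -/
def pr₁ (M : ℕ) (U : Type) : Hom ((sk M (Tot U)).prod (sk M (Tot U))) (Tot U) :=
  (skIncl M (Tot U)).comp (SS.fst _ _)
/-- second component of the product of skeleta -/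
def pr₂ (M : ℕ) (U : Type) : Hom ((sk M (Tot U)).prod (sk M (Tot U))) (Tot U) :=
  (skIncl M (Tot U)).comp (SS.snd _ _)

/-- disjoint union on the skeleta -/
def djs (M : ℕ) (U : Type) : Hom ((sk M (Tot U)).prod (sk M (Tot U))) (Tot (U ⊕ U)) :=
  (dj U U).comp (pair (pr₁ M U) (pr₂ M U))

theorem djs_sk (M : ℕ) (U : Type) (n : ℕ) (b : ((sk M (Tot U)).prod (sk M (Tot U))).S n) :
    IsSk (M + M) (Tot (U ⊕ U)) ((djs M U).app n b) :=
  (IsSk.prod b.1.2 b.2.2).map (dj U U)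

theorem djs_eq (M : ℕ) (U : Type) :
    djs M U = (dj U U).comp (SS.prodMap (skIncl M (Tot U)) (skIncl M (Tot U))) := rfl

/-- `κ × κ` followed by the multiplication -/
theorem mulS_kap (c : BoxConf (Fin 2) J) {M M' : ℕ} (k : Fin (M + 1) ↪ J)
    (k' : Fin (M' + 1) ↪ J) (h : 2 * (M + 1) + (M' + 1) ≤ Nat.card J)
    (lab : U ↪ ℝ) (lab' : U ⊕ U ↪ ℝ) (x₀ : Ω^ J Z z₀)
    (hg' : ∀ n b, IsSk M' (Tot (U ⊕ U)) ((djs M U).app n b)) :
    H.map F2 ((mulS c).comp (SS.prodMap (kap lab M k x₀) (kap lab M k x₀))) =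
      H.map F2 (kapG lab' k' x₀ (djs M U) hg') :=
  mulS_kapG HtpInv334.homotopyInv F2 c k k' h lab lab' x₀ (pr₁ M U) (pr₂ M U)
    (fun _ b => b.1.2) (fun _ b => b.2.2) hg'

/-- **(K2)** `κ` is multiplicative -/
theorem kapH_mul (lab : U ↪ ℝ) (M : ℕ) (k : Fin (M + 1) ↪ J) (x₀ : Ω^ J Z z₀)
    (e : U ⊕ U ↪ U) (c : BoxConf (Fin 2) J) (hJ : 9 * (M + 1) ≤ Nat.card J) {s t : ℕ}
    (hst : s + t < M) {x y : H F2 (Tot U)} (hx : x ∈ H.gr F2 (Tot U) s)
    (hy : y ∈ H.gr F2 (Tot U) t) :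
    kapH F2 lab M k x₀ (mulH ((mapU e).comp (dj U U)) x y) =
      mulH (mulS c) (kapH F2 lab M k x₀ x) (kapH F2 lab M k x₀ y) := by
  have ex : H.map F2 (skIncl M (Tot U)) (skH F2 M (Tot U) x) = x := incl_skH (by omega) hx
  have ey : H.map F2 (skIncl M (Tot U)) (skH F2 M (Tot U) y) = y := incl_skH (by omega) hy
  have hx'' : skH F2 M (Tot U) x ∈ H.gr F2 (sk M (Tot U)) s := skH_mem hx
  have hy'' : skH F2 M (Tot U) y ∈ H.gr F2 (sk M (Tot U)) t := skH_mem hy
  obtain ⟨k2⟩ := exists_emb (J := J) (n := M + M + 1) (by omega)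
  have hd' : ∀ n b, IsSk (M + M) (Tot U) (((mapU e).comp (djs M U)).app n b) :=
    fun n b => (djs_sk M U n b).map (mapU e)
  have e1 : mulH ((mapU e).comp (dj U U)) x y =
      H.map F2 ((mapU e).comp (djs M U)) (crH (skH F2 M (Tot U) x) (skH F2 M (Tot U) y)) := by
    have h1 := crH_map (skIncl M (Tot U)) (skIncl M (Tot U)) (skH F2 M (Tot U) x)
      (skH F2 M (Tot U) y)
    rw [ex, ey] at h1
    rw [mulH_eq, ← h1, ← Sk761.Hmap_comp, djs_eq]
    rfl
  have e2 := kapH_map F2 lab M k x₀ lab k2 (by omega) ((mapU e).comp (djs M U)) hd' hst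
    (crH_gr hx'' hy'')
  have e3 := kapG_H_mapU HtpInv334.homotopyInv F2 e (djs M U) (e.trans lab) lab k2 k2
    (by omega) x₀ (djs_sk M U) hd'
  have e4 := mulS_kap c k k2 (by omega) lab (e.trans lab) x₀ (djs_sk M U)
  rw [e1, e2, ← e3, ← e4, Sk761.Hmap_comp, crH_map]
  rfl

/-- **(K3)** `κ` commutes with the operations -/
theorem kapH_Q (lab : U ↪ ℝ) (M : ℕ) (k : Fin (M + 1) ↪ J) (x₀ : Ω^ J Z z₀)
    (e : U ⊕ U ↪ U) (A : ThAlg M (Tot U)) (hA : A.Th = (mapU e).comp (thD M U))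
    (B : ThAlg M (Sing (Ω^ J Z z₀))) (hB : B.Th = Theta k)
    (hJ : 9 * (M + 1) ≤ Nat.card J) {i t : ℕ} (hit : 2 * t + i < M) {x : H F2 (Tot U)}
    (hx : x ∈ H.gr F2 (Tot U) t) :
    kapH F2 lab M k x₀ (Ops265.Q A i x) = Ops265.Q B i (kapH F2 lab M k x₀ x) := by
  have ex : H.map F2 (skIncl M (Tot U)) (skH F2 M (Tot U) x) = x := incl_skH (by omega) hx
  have hx'' : skH F2 M (Tot U) x ∈ H.gr F2 (sk M (Tot U)) t := skH_mem hx
  obtain ⟨k3⟩ := exists_emb (J := J) (n := M + (M + M) + 1) (by omega)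
  have hd' : ∀ n b, IsSk (M + (M + M)) (Tot U) (((mapU e).comp (thDs M U)).app n b) :=
    fun n b => (thDs_sk M U n b).map (mapU e)
  have e1 : Ops265.Q A i x =
      H.map F2 ((mapU e).comp (thDs M U)) (C5265.pw M _ i (skH F2 M (Tot U) x)) := by
    have h1 := C5265.pw_map (M := M) (skIncl M (Tot U)) (i := i) (by omega) (skH F2 M (Tot U) x)
    rw [ex] at h1
    rw [Ops265.Q, ← h1, ← Sk761.Hmap_comp, hA]
    rfl
  have e2 := kapH_map F2 lab M k x₀ lab k3 (by omega) ((mapU e).comp (thDs M U)) hd'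
    (show i + (t + t) < M by omega) (pw_gr (M := M) (by omega) hx'')
  have e3 := kapG_H_mapU HtpInv334.homotopyInv F2 e (thDs M U) (e.trans lab) lab k3 k3
    (by omega) x₀ (thDs_sk M U) hd'
  have e4 := Theta_kap HtpInv334.homotopyInv F2 k k3 (by omega) lab (e.trans lab) x₀ (thDs_sk M U)
  have e5 := C5265.pw_map (M := M) (kap lab M k x₀) (i := i) (by omega) (skH F2 M (Tot U) x)
  rw [e1, e2, ← e3, ← e4, Sk761.Hmap_comp, e5, Ops265.Q, hB]
  rfl

end

/-! ### vertices -/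

section
variable [Finite J]

theorem map_vtx {K L : SS} (f : Hom K L) (v : K.S 0) :
    H.map F2 f (C5T557.vtx F2 v) = C5T557.vtx F2 (f.app 0 v) := by
  refine Hd.mk_eq_mk.2 ⟨0, ?_⟩
  show N.bd F2 _ 0 = N.map F2 f (N.sx F2 v) - N.sx F2 (f.app 0 v)
  rw [N.map_sx, map_zero, sub_self]

theorem vtx_gr {K : SS} (v : K.S 0) : C5T557.vtx F2 v ∈ H.gr F2 K 0 :=
  DK742.mk_mem_gr _ (DK742.sx_mem_gr _)

/-- a vertex of the skeleton -/
def skV (M : ℕ) {K : SS} (v : K.S 0) : (sk M K).S 0 := ⟨v, isSk_of_le (Nat.zero_le M) v⟩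

/-- the vertex of the point -/
def ptV : SS.pt.S 0 := ()

theorem skH_vtx {K : SS} {M : ℕ} (hM : 0 < M) (v : K.S 0) :
    skH F2 M K (C5T557.vtx F2 v) = C5T557.vtx F2 (skV M v) := by
  rw [← skH_incl hM (vtx_gr (skV M v)), map_vtx]
  rfl


/-- a vertex as a family over the point -/
def vHom {K : SS} (v : K.S 0) : Hom SS.pt K := constHom SS.pt K v

theorem vHom_sk {K : SS} {M : ℕ} (v : K.S 0) (n : ℕ) (b : SS.pt.S n) :
    IsSk M K ((vHom v).app n b) := ⟨0, Nat.zero_le _, _, v, rfl⟩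

theorem vtx_eq {K : SS} (v : K.S 0) :
    C5T557.vtx F2 v = H.map F2 (vHom v) (C5T557.vtx F2 ptV) := by
  rw [map_vtx]
  congr 1
  have h : (OrderHom.id : Op 0 0) = ⟨fun _ => 0, fun _ _ _ => le_rfl⟩ :=
    OrderHom.ext _ _ (funext fun i => Fin.ext (by
      show (i : ℕ) = 0
      omega))
  conv_lhs => rw [← K.act_id v, h]
  rfl

/-- the empty set of threads -/
theorem kapH_vtx_empty (lab : U ↪ ℝ) {M : ℕ} (hM : 0 < M) (k : Fin (M + 1) ↪ J)
    (x₀ : Ω^ J Z z₀) (hJ : 9 * (M + 1) ≤ Nat.card J) (v : (Tot U).S 0) (hv : v.1 = ∅) :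
    kapH F2 lab M k x₀ (C5T557.vtx F2 v) =
      C5T557.vtx F2 (ptS (GenLoop.const : Ω^ J Z z₀)) := by
  have h0 : ∀ n b, ((vHom (K := Tot U) v).app n b).1 = ∅ := by
    intro n b
    show re _ v.1 = ∅
    rw [hv]
    ext a
    simp [mem_re]
  have e2 := kapH_map F2 lab M k x₀ lab k (by omega) (vHom (K := Tot U) v) (vHom_sk v) hM
    (vtx_gr ptV)
  rw [vtx_eq v, e2, kapG_zero lab k x₀ _ _ h0, map_vtx]
  congr 1

/-- one thread -/
theorem kapH_vtx_one (lab : U ↪ ℝ) {M : ℕ} (hM : 0 < M) (k : Fin (M + 1) ↪ J)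
    (x₀ : Ω^ J Z z₀) (hJ : 9 * (M + 1) ≤ Nat.card J) (v : (Tot U).S 0) (hv : v.1.card = 1) :
    kapH F2 lab M k x₀ (C5T557.vtx F2 v) = C5T557.vtx F2 (ptS x₀) := by
  have h1 : ∀ n b, ((vHom (K := Tot U) v).app n b).1.card = 1 := by
    intro n b
    show (re _ v.1).card = 1
    rw [v.2.card_re, hv]
  have e2 := kapH_map F2 lab M k x₀ lab k (by omega) (vHom (K := Tot U) v) (vHom_sk v) hM
    (vtx_gr ptV)
  have e3 := kapG_one HtpInv334.homotopyInv F2 lab k (by omega) x₀ (vHom (K := Tot U) v)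
    (vHom_sk v) h1
  rw [vtx_eq v, e2, e3, map_vtx]
  congr 1

end

end Crest.Agent.R204.CovT761
end
end

-- ▼ part R204/Kap5_761
section

/-!
# Row 204, block G (helper761): `κ` for arbitrary coefficients, for `Fs U v`, and for `totAlg`

* `kapH_mul'`, `kapH_Q'`, `kapH_one'` : the comparison in the language of `totAlg`, `omAlg`;
* `skH_coH`, `kapH_coH` : change of coefficients;
* `kapH_mulR` : products over an arbitrary ring;
* `kapF` : `κ_v : H R (Fs U v) → H R (Sing (Ω^J Z))`, `kapF_prd`, `kapF_coH`, `kapF_vt_one`, …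
-/

set_option autoImplicit false
set_option linter.unusedSectionVars false

open scoped Topology unitInterval Topology.Homotopy
open Set

noncomputable section

namespace Crest.Agent.R204.CovT761

open Crest.Agent.R204.Cubes735 Crest.Agent.R204.Htpy761 SingAct265 SS Thr328 Fs348 DK742
open ThetaSS265 HspSS696 Sk761 Gr334 ThAlg265 Ops265 C5265

variable {B : SS} {A A' J : Type} {X Z : Type} [TopologicalSpace X]
  [TopologicalSpace Z] {z₀ : Z} {U W : Type}

/-! ### in the language of `Θ`-algebras -/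

section alg
variable [Finite J]


theorem kapH_mul' (lab : U ↪ ℝ) (M : ℕ) (k : Fin (M + 1) ↪ J) (x₀ : Ω^ J Z z₀)
    (e : U ⊕ U ↪ U) (c : BoxConf (Fin 2) J) (hJ : 9 * (M + 1) ≤ Nat.card J) {s t : ℕ}
    (hst : s + t < M) {x y : H F2 (Tot U)} (hx : x ∈ H.gr F2 (Tot U) s)
    (hy : y ∈ H.gr F2 (Tot U) t) :
    kapH F2 lab M k x₀ (mulH (TotAlg328.totAlg e M).mu x y) =
      mulH (omAlg (Z := Z) (z₀ := z₀) k (mulS c)).mu (kapH F2 lab M k x₀ x)
        (kapH F2 lab M k x₀ y) :=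
  kapH_mul lab M k x₀ e c hJ hst hx hy

theorem kapH_Q' (lab : U ↪ ℝ) (M : ℕ) (k : Fin (M + 1) ↪ J) (x₀ : Ω^ J Z z₀)
    (e : U ⊕ U ↪ U) (m : Hom ((Sing (Ω^ J Z z₀)).prod (Sing (Ω^ J Z z₀))) (Sing (Ω^ J Z z₀)))
    (hJ : 9 * (M + 1) ≤ Nat.card J) {i t : ℕ} (hit : 2 * t + i < M) {x : H F2 (Tot U)}
    (hx : x ∈ H.gr F2 (Tot U) t) :
    kapH F2 lab M k x₀ (Ops265.Q (TotAlg328.totAlg e M) i x) =
      Ops265.Q (omAlg (Z := Z) (z₀ := z₀) k m) i (kapH F2 lab M k x₀ x) :=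
  kapH_Q lab M k x₀ e (TotAlg328.totAlg e M) rfl (omAlg k m) rfl hJ hit hx


end alg

/-! ### change of coefficients -/

section coef

open Coef947

variable {R S : Type} [CommRing R] [CommRing S]






end coef

/-! ### products, arbitrary coefficients -/

section prod

variable [Finite J] (R : Type) [CommRing R]

open Prd328 (crossH)

/-- `κ × κ` followed by the multiplication, arbitrary coefficients -/
theorem mulS_kapR (c : BoxConf (Fin 2) J) {M M' : ℕ} (k : Fin (M + 1) ↪ J)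
    (k' : Fin (M' + 1) ↪ J) (h : 2 * (M + 1) + (M' + 1) ≤ Nat.card J)
    (lab : U ↪ ℝ) (lab' : U ⊕ U ↪ ℝ) (x₀ : Ω^ J Z z₀)
    (hg' : ∀ n b, IsSk M' (Tot (U ⊕ U)) ((djs M U).app n b)) :
    H.map R ((mulS c).comp (SS.prodMap (kap lab M k x₀) (kap lab M k x₀))) =
      H.map R (kapG lab' k' x₀ (djs M U) hg') :=
  mulS_kapG HtpInv334.homotopyInv R c k k' h lab lab' x₀ (pr₁ M U) (pr₂ M U)
    (fun _ b => b.1.2) (fun _ b => b.2.2) hg'

/-- **(K2)** `κ` is multiplicative, arbitrary coefficients -/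
theorem kapH_mulR (lab : U ↪ ℝ) (M : ℕ) (k : Fin (M + 1) ↪ J) (x₀ : Ω^ J Z z₀)
    (e : U ⊕ U ↪ U) (c : BoxConf (Fin 2) J) (hJ : 9 * (M + 1) ≤ Nat.card J) {s t : ℕ}
    (hst : s + t < M) {x y : H R (Tot U)} (hx : x ∈ H.gr R (Tot U) s)
    (hy : y ∈ H.gr R (Tot U) t) :
    kapH R lab M k x₀ (H.map R ((mapU e).comp (dj U U)) (crossH R x y)) =
      H.map R (mulS c) (crossH R (kapH R lab M k x₀ x) (kapH R lab M k x₀ y)) := by
  have ex : H.map R (skIncl M (Tot U)) (skH R M (Tot U) x) = x := incl_skH (by omega) hx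
  have ey : H.map R (skIncl M (Tot U)) (skH R M (Tot U) y) = y := incl_skH (by omega) hy
  have hx'' : skH R M (Tot U) x ∈ H.gr R (sk M (Tot U)) s := skH_mem hx
  have hy'' : skH R M (Tot U) y ∈ H.gr R (sk M (Tot U)) t := skH_mem hy
  obtain ⟨k2⟩ := exists_emb (J := J) (n := M + M + 1) (by omega)
  have hd' : ∀ n b, IsSk (M + M) (Tot U) (((mapU e).comp (djs M U)).app n b) :=
    fun n b => (djs_sk M U n b).map (mapU e)
  have e1 : H.map R ((mapU e).comp (dj U U)) (crossH R x y) =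
      H.map R ((mapU e).comp (djs M U)) (crossH R (skH R M (Tot U) x) (skH R M (Tot U) y)) := by
    have h1 := Prd328.map_crossH R (skIncl M (Tot U)) (skIncl M (Tot U)) (skH R M (Tot U) x)
      (skH R M (Tot U) y)
    rw [ex, ey] at h1
    have h2 : (mapU e).comp (djs M U) =
      ((mapU e).comp (dj U U)).comp (SS.prodMap (skIncl M (Tot U)) (skIncl M (Tot U))) := rfl
    rw [← h1, ← Sk761.Hmap_comp, h2]
  have e2 := kapH_map R lab M k x₀ lab k2 (by omega) ((mapU e).comp (djs M U)) hd' hst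
    (Prd328.crossH_mem_gr R hx'' hy'')
  have e3 := kapG_H_mapU HtpInv334.homotopyInv R e (djs M U) (e.trans lab) lab k2 k2
    (by omega) x₀ (djs_sk M U) hd'
  have e4 := mulS_kapR R c k k2 (by omega) lab (e.trans lab) x₀ (djs_sk M U)
  have e5 := Prd328.map_crossH R (kap lab M k x₀) (kap lab M k x₀) (skH R M (Tot U) x)
    (skH R M (Tot U) y)
  have e6 := Sk761.Hmap_comp (R := R) (mulS c) (SS.prodMap (kap lab M k x₀) (kap lab M k x₀))
    (crossH R (skH R M (Tot U) x) (skH R M (Tot U) y))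
  rw [e5] at e6
  rw [kapH_apply R lab M k x₀ x, kapH_apply R lab M k x₀ y]
  exact (congrArg _ e1).trans (e2.trans ((LinearMap.congr_fun e3.symm _).trans
    ((LinearMap.congr_fun e4.symm _).trans e6)))

/-! ### the version on `Fs U v` -/

/-- `κ_v` -/
def kapF (lab : U ↪ ℝ) (M : ℕ) (k : Fin (M + 1) ↪ J) (x₀ : Ω^ J Z z₀) (v : ℕ) :
    H R (Fs U v) →ₗ[R] H R (Sing (Ω^ J Z z₀)) := kapH R lab M k x₀ ∘ₗ H.map R (inc U v)

theorem kapF_apply (lab : U ↪ ℝ) (M : ℕ) (k : Fin (M + 1) ↪ J) (x₀ : Ω^ J Z z₀) (v : ℕ)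
    (x : H R (Fs U v)) : kapF R lab M k x₀ v x = kapH R lab M k x₀ (H.map R (inc U v) x) := rfl


theorem inc_mu (e : U ⊕ U ↪ U) {a b v : ℕ} (hab : a + b = v) :
    (inc U v).comp (Prd328.mu e hab) =
      ((mapU e).comp (dj U U)).comp (SS.prodMap (inc U a) (inc U b)) := rfl

/-- multiplicativity of `κ_v` -/
theorem kapF_prd (lab : U ↪ ℝ) (M : ℕ) (k : Fin (M + 1) ↪ J) (x₀ : Ω^ J Z z₀)
    (e : U ⊕ U ↪ U) (c : BoxConf (Fin 2) J) (hJ : 9 * (M + 1) ≤ Nat.card J) {s t : ℕ}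
    (hst : s + t < M) {a b v : ℕ} (hab : a + b = v) {x : H R (Fs U a)} {y : H R (Fs U b)}
    (hx : x ∈ H.gr R _ s) (hy : y ∈ H.gr R _ t) :
    kapF R lab M k x₀ v (Prd328.prd R e hab x y) =
      H.map R (mulS c) (crossH R (kapF R lab M k x₀ a x) (kapF R lab M k x₀ b y)) := by
  have h2 := kapH_mulR R lab M k x₀ e c hJ hst (Gr334.H_map_mem_gr (inc U a) hx)
    (Gr334.H_map_mem_gr (inc U b) hy)
  have h3 := Prd328.map_crossH R (inc U a) (inc U b) x y
  have h1 : H.map R (inc U v) (Prd328.prd R e hab x y) =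
      H.map R ((mapU e).comp (dj U U))
        (crossH R (H.map R (inc U a) x) (H.map R (inc U b) y)) := by
    rw [← h3, ← Sk761.Hmap_comp, Prd328.prd_apply, ← Sk761.Hmap_comp]
    exact Prd328.map_congr R (inc_mu e hab) _
  exact (congrArg (kapH R lab M k x₀) h1).trans h2

end prod

section coef2
open Coef947
variable {R S : Type} [CommRing R] [CommRing S]


end coef2

end Crest.Agent.R204.CovT761
end
end

-- ▼ part R204/KDI_103
section

/-!
# Row 204, block G (helper103): the comparison data for `X₀` of the concrete tower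

* `cm_eq_of_vt` : vertices with equal classes lie in the same component;
* `toKap` : `KTr947.Kap` for the base component from `KTr103.KD`;
* `ff`, `kdOm` : the comparison maps `sk_M (Fs ℕ v) → Sing (Ω^J Z)` and `KTr103.KD` for them;
* `kapInst` : `KTr947.Kap` for `X0` of `Inst194.Par.tower`.
-/

set_option autoImplicit false
set_option linter.unusedSectionVars false
set_option linter.style.haveILetI false

open scoped Topology unitInterval Topology.Homotopy

noncomputable section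

namespace Crest.Agent.R204.KDI103

open Crest.Agent.R204 SS Coef947 Fs348 Prd328 Comp696 ThAlg265 Gr334
open Crest.Agent.R204.Sk761 (skH skH_mem incl_skH skH_incl incl_injH)
open Crest.Agent.R204.KTr103 (KD tr)
open Crest.Agent.R204.KTr103.KD (map_tr tr_comp)

/-! ## components and classes of vertices -/


theorem eps_vt {Y : SS} (y : Y.S 0) : Coalg847.eps Y (vt F2 y) = 1 := Coalg847.eps_vtx y

theorem cm_eq_of_vt {Y : SS} {π : Type} (c : Cm Y π) {y y' : Y.S 0} (h : vt F2 y = vt F2 y') :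
    c.app 0 y = c.app 0 y' := by
  by_contra hne
  have h1 : hret F2 c (c.app 0 y) (vt F2 y) = vt F2 (fmk c (c.app 0 y) y rfl) := by
    have : vt F2 y = H.map F2 (fibIncl c (c.app 0 y)) (vt F2 (fmk c (c.app 0 y) y rfl)) := by
      rw [map_vt]; rfl
    conv_lhs => rw [this, hret_incl]
  have h2 : hret F2 c (c.app 0 y) (vt F2 y') = 0 := by
    have : vt F2 y' = H.map F2 (fibIncl c (c.app 0 y')) (vt F2 (fmk c (c.app 0 y') y' rfl)) := by
      rw [map_vt]; rfl
    rw [this]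
    exact hret_incl_ne F2 c (fun e => hne e.symm) _
  have h3 := eps_vt (fmk c (c.app 0 y) y rfl)
  rw [← h1, h, h2, map_zero] at h3
  exact absurd h3 (by decide)

/-! ## from `KD` to `Kap` -/

section toKap

variable {U : Type} {e : U ⊕ U ↪ U} {M D : ℕ} {Y : SS} {π : Type} [CommGroup π]
  {μ : Hom (Y.prod Y) Y} {c : Cm Y π} {g : π}

/-- products of translated classes -/
theorem mul_tr (R : Type) [CommRing R]
    (hA : SH (μ.comp (prodMap μ (Hom.id Y)))
      (μ.comp (pair ((fst Y Y).comp (fst _ _)) (μ.comp (pair ((snd Y Y).comp (fst _ _)) (snd _ _))))))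
    (hC : SH μ (μ.comp (SS.swap Y Y))) (p : Y.S 0) (a b : H R Y) :
    H.map R μ (crossH R (H.map R (tr μ p) a) (H.map R (tr μ p) b)) =
        H.map R (tr μ (μ.app 0 (p, p))) (H.map R μ (crossH R a b)) := by
  have h1 := LinearMap.congr_fun ((KTr103.mu_tr hA hC p).map_eq HtpInv334.homotopyInv R)
    (crossH R a b)
  rw [← map_crossH, Prd328.map_comp, Prd328.map_comp]
  exact h1

theorem tr_tr' (R : Type) [CommRing R]
    (hA : SH (μ.comp (prodMap μ (Hom.id Y)))
      (μ.comp (pair ((fst Y Y).comp (fst _ _)) (μ.comp (pair ((snd Y Y).comp (fst _ _)) (snd _ _))))))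
    (p q : Y.S 0) (a : H R Y) :
    H.map R (tr μ q) (H.map R (tr μ p) a) = H.map R (tr μ (μ.app 0 (p, q))) a := by
  have h1 := LinearMap.congr_fun ((KTr103.tr_tr hA p q).map_eq HtpInv334.homotopyInv R) a
  rw [Prd328.map_comp]
  exact h1

/-- translations are invertible -/
theorem tr_cancel
    (hA : SH (μ.comp (prodMap μ (Hom.id Y)))
      (μ.comp (pair ((fst Y Y).comp (fst _ _)) (μ.comp (pair ((snd Y Y).comp (fst _ _)) (snd _ _))))))
    (hmu : ∀ (n : ℕ) (x y : Y.S n), c.app n (μ.app n (x, y)) = c.app n x * c.app n y)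
    (e₀ : Y.S 0) (hunit : ∀ x : H F2 Y, H.map F2 μ (crossH F2 x (vt F2 e₀)) = x)
    (hvt : ∀ w : Y.S 0, c.app 0 w = 1 → vt F2 w = vt F2 e₀)
    (p q : Y.S 0) (hpq : c.app 0 p * c.app 0 q = 1) (x : H F2 Y) :
    H.map F2 (tr μ q) (H.map F2 (tr μ p) x) = x := by
  rw [tr_tr' F2 hA, map_tr, hvt _ (by rw [hmu]; exact hpq), hunit]

theorem comp_tr (K : KD U e M D Y π μ c g)
    (hmu : ∀ (n : ℕ) (x y : Y.S n), c.app n (μ.app n (x, y)) = c.app n x * c.app n y)
    (w : ℕ) (r : Y.S 0) (hr : g ^ w * c.app 0 r = 1) (n : ℕ) (b : (sk M (Fs U w)).S n) :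
    c.app n (((tr μ r).comp (K.f w)).app n b) = 1 := by
  show c.app n (μ.app n ((K.f w).app n b, Y.act _ r)) = 1
  rw [hmu, K.comp, c.nat, hr]

/-- the map to the base component -/
def kk (K : KD U e M D Y π μ c g)
    (hmu : ∀ (n : ℕ) (x y : Y.S n), c.app n (μ.app n (x, y)) = c.app n x * c.app n y)
    (w : ℕ) (r : Y.S 0) (hr : g ^ w * c.app 0 r = 1) : Hom (sk M (Fs U w)) (fib c 1) :=
  fibLift c 1 ((tr μ r).comp (K.f w)) (comp_tr K hmu w r hr)

theorem incl_kk (K : KD U e M D Y π μ c g)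
    (hmu : ∀ (n : ℕ) (x y : Y.S n), c.app n (μ.app n (x, y)) = c.app n x * c.app n y)
    (w : ℕ) (r : Y.S 0) (hr : g ^ w * c.app 0 r = 1) (R : Type) [CommRing R]
    (x : H R (sk M (Fs U w))) : H.map R (fibIncl c 1) (H.map R (kk K hmu w r hr) x) =
      H.map R (tr μ r) (H.map R (K.f w) x) := by
  rw [Prd328.map_comp, Prd328.map_comp]; rfl

theorem bij_kk (K : KD U e M D Y π μ c g)
    (hmu : ∀ (n : ℕ) (x y : Y.S n), c.app n (μ.app n (x, y)) = c.app n x * c.app n y)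
    (hs : ∀ a : π, ∃ y : Y.S 0, c.app 0 y = a)
    (e₀ : Y.S 0) (hunit : ∀ x : H F2 Y, H.map F2 μ (crossH F2 x (vt F2 e₀)) = x)
    (hvt : ∀ w : Y.S 0, c.app 0 w = 1 → vt F2 w = vt F2 e₀)
    (w : ℕ) (r : Y.S 0) (hr : g ^ w * c.app 0 r = 1) (j : ℕ) (hj : j ≤ D) (hw : 2 * j ≤ w) :
    KTr947.Bij _ _ (kk K hmu w r hr) j := by
  have hlt := K.lt
  obtain ⟨b, hb⟩ := hs (g ^ w)
  refine ⟨fun x hx h0 => ?_, fun y hy => ?_⟩
  · have h1 : H.map F2 (K.f w) x = 0 := by
      have h2 := tr_cancel K.assoc hmu e₀ hunit hvt r b (by rw [hb, mul_comm, hr])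
        (H.map F2 (K.f w) x)
      rw [← incl_kk K hmu w r hr, h0, map_zero, map_zero] at h2
      exact h2.symm
    have h2 : skH F2 M (Fs U w) (H.map F2 (skIncl M _) x) = x := skH_incl (by omega) hx
    have h3 : H.map F2 (skIncl M (Fs U w)) x ∈ H.gr F2 (Fs U w) j := H_map_mem_gr _ hx
    have h4 := K.inj w j hj _ h3 (by rw [h2]; exact h1)
    have h5 : H.map F2 (skIncl M (Fs U w)) x = H.map F2 (skIncl M (Fs U w)) 0 := by
      rw [h4, map_zero]
    exact incl_injH (by omega) hx (Submodule.zero_mem _) h5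
  · have h1 : H.map F2 (fibIncl c 1) y ∈ Hc F2 c 1 := ⟨y, rfl⟩
    have h2 := tr_comp hmu F2 b hb h1
    rw [one_mul] at h2
    obtain ⟨x, hx, hxy⟩ := K.surj w j hj hw _ (H_map_mem_gr _ (H_map_mem_gr _ hy)) h2
    refine ⟨skH F2 M _ x, skH_mem hx, ?_⟩
    apply Comp696.incl_injective F2 c 1
    rw [incl_kk, hxy]
    exact tr_cancel K.assoc hmu e₀ hunit hvt b r (by rw [hb, hr]) _

/-- **`Kap` from `KD`** -/
def toKap (K : KD U e M D Y π μ c g)
    (hmu : ∀ (n : ℕ) (x y : Y.S n), c.app n (μ.app n (x, y)) = c.app n x * c.app n y)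
    (hs : ∀ a : π, ∃ y : Y.S 0, c.app 0 y = a)
    (e₀ : Y.S 0) (he₀ : c.app 0 e₀ = 1)
    (hunit : ∀ x : H F2 Y, H.map F2 μ (crossH F2 x (vt F2 e₀)) = x)
    (hvt : ∀ w : Y.S 0, c.app 0 w = 1 → vt F2 w = vt F2 e₀)
    (μ0 : Hom ((fib c 1).prod (fib c 1)) (fib c 1))
    (hμ0 : (fibIncl c 1).comp μ0 = μ.comp (prodMap (fibIncl c 1) (fibIncl c 1)))
    {m : ℕ} (hD : 2 * m + 1 ≤ D) {v : ℕ} (hv : 2 * (2 * m + 1) ≤ v)
    (p : Y.S 0) (hp : g ^ v * c.app 0 p = 1) (B : (Fs U v).S 0) :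
    KTr947.Kap U e (fib c 1) μ0 (fmk c 1 e₀ he₀) v m :=
  have hlt := K.lt
  have hq : g ^ (v + v) * c.app 0 (μ.app 0 (p, p)) = 1 := by
    rw [hmu, pow_add, mul_mul_mul_comm, hp, mul_one]
  have hB : IsSk M (Fs U v) B := SS.isSk_of_le (Nat.zero_le M) B
  have hbij : ∀ (w j : ℕ), j ≤ 2 * m + 1 → KTr947.Bij _ _ (skIncl M (Fs U w)) j := by
    intro w j hj
    refine ⟨fun x hx h0 => ?_, fun y hy => ⟨_, skH_mem hy, incl_skH (by omega) hy⟩⟩
    exact incl_injH (by omega) hx (Submodule.zero_mem _) (by rw [h0, map_zero])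
  { K1 := sk M (Fs U v)
    K2 := sk M (Fs U (v + v))
    i1 := skIncl M (Fs U v)
    i2 := skIncl M (Fs U (v + v))
    k1 := kk K hmu v p hp
    k2 := kk K hmu (v + v) (μ.app 0 (p, p)) hq
    B := ⟨B, hB⟩
    hi1 := fun j hj => hbij v j hj
    hi2 := fun j hj => hbij (v + v) j hj
    hk1 := fun j hj => bij_kk K hmu hs e₀ hunit hvt v p hp j (by omega) (by omega)
    hk2 := fun j hj => bij_kk K hmu hs e₀ hunit hvt (v + v) _ hq j (by omega) (by omega)
    mul := by
      intro R _ s t hst x hx y hy w hw h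
      apply Comp696.incl_injective R c 1
      have e1 : w = skH R M _ (prd R e rfl (H.map R (skIncl M (Fs U v)) x)
          (H.map R (skIncl M (Fs U v)) y)) := by
        rw [← h, skH_incl (show s + t < M by omega) hw]
      have e2 := K.mul R v v s t (H.map R (skIncl M (Fs U v)) x) (H.map R (skIncl M (Fs U v)) y)
        (by omega) (H_map_mem_gr _ hx) (H_map_mem_gr _ hy)
      rw [skH_incl (show s < M by omega) hx, skH_incl (show t < M by omega) hy] at e2
      rw [incl_kk, e1, e2, ← mul_tr R K.assoc K.comm, ← incl_kk K hmu v p hp,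
        ← incl_kk K hmu v p hp, ← map_crossH, Prd328.map_comp, Prd328.map_comp, hμ0]
    vB := by
      apply Comp696.incl_injective F2 c 1
      rw [map_vt, map_vt]
      exact hvt _ (comp_tr K hmu v p hp 0 _)
    unit := by
      intro x
      apply Comp696.incl_injective F2 c 1
      rw [Prd328.map_comp, hμ0, ← Prd328.map_comp, map_crossH, map_vt]
      exact hunit _ }

end toKap

/-! ## vertices of `Fs U v` -/

section edges

variable {U : Type}

theorem z1 (i : Fin (0 + 1)) : i = 0 := Fin.ext (by omega)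

/-- inclusion of a vertex into the interval -/
def vx (i : Fin 2) : Op 0 1 := ⟨fun _ => i, fun _ _ _ => le_rfl⟩

/-- any two vertices of `Fs U v` are joined by an edge -/
theorem exists_edge {v : ℕ} (A B : (Fs U v).S 0) : ∃ E : (Fs U v).S 1,
    (Fs U v).act (vx 0) E = A ∧ (Fs U v).act (vx 1) E = B := by
  classical
  have hc : A.1.card = B.1.card := A.2.2.trans B.2.2.symm
  let ρ : A.1 ≃ B.1 := Finset.equivOfCardEq hc
  let F : A.1 → (Fin 2 → U) := fun a => ![a.1 0, (ρ a).1 0]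
  have hA : ∀ a a' : A.1, a.1 0 = a'.1 0 → a = a' := fun a a' h =>
    Subtype.ext (funext fun i => by rw [z1 i]; exact h)
  have hB : ∀ a a' : A.1, (ρ a).1 0 = (ρ a').1 0 → a = a' := fun a a' h =>
    ρ.injective (Subtype.ext (funext fun i => by rw [z1 i]; exact h))
  have hF : Function.Injective F := fun a a' h => hA a a' (congrFun h 0)
  refine ⟨⟨Finset.univ.image F, ?_, ?_⟩, ?_, ?_⟩
  · intro i t ht t' ht' h
    obtain ⟨a, -, rfl⟩ := Finset.mem_image.1 (Finset.mem_coe.1 ht)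
    obtain ⟨a', -, rfl⟩ := Finset.mem_image.1 (Finset.mem_coe.1 ht')
    congr 1
    fin_cases i
    · exact hA a a' h
    · exact hB a a' h
  · rw [Finset.card_image_of_injective _ hF, Finset.card_univ, Fintype.card_coe, A.2.2]
  · refine Subtype.ext (Finset.ext fun g => ?_)
    show g ∈ re _ (Finset.univ.image F) ↔ g ∈ A.1
    rw [mem_re]
    constructor
    · rintro ⟨t, ht, rfl⟩
      obtain ⟨a, -, rfl⟩ := Finset.mem_image.1 ht
      have : F a ∘ ⇑(vx 0) = a.1 := funext fun i => by rw [z1 i]; rfl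
      rw [this]; exact a.2
    · intro hg
      refine ⟨F ⟨g, hg⟩, Finset.mem_image_of_mem _ (Finset.mem_univ _), funext fun i => ?_⟩
      rw [z1 i]; rfl
  · refine Subtype.ext (Finset.ext fun g => ?_)
    show g ∈ re _ (Finset.univ.image F) ↔ g ∈ B.1
    rw [mem_re]
    constructor
    · rintro ⟨t, ht, rfl⟩
      obtain ⟨a, -, rfl⟩ := Finset.mem_image.1 ht
      have : F a ∘ ⇑(vx 1) = (ρ a).1 := funext fun i => by rw [z1 i]; rfl
      rw [this]; exact (ρ a).2
    · intro hg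
      refine ⟨F (ρ.symm ⟨g, hg⟩), Finset.mem_image_of_mem _ (Finset.mem_univ _),
        funext fun i => ?_⟩
      rw [z1 i]
      show (ρ (ρ.symm ⟨g, hg⟩)).1 0 = g 0
      rw [Equiv.apply_symm_apply]

/-- a component map is constant on the skeleta of `Fs U v` -/
theorem cm_const {M v : ℕ} (hM : 1 ≤ M) {π : Type} (d : Cm (sk M (Fs U v)) π) {g : π}
    (B : (Fs U v).S 0) (h : d.app 0 (CovT761.skV M B) = g) (n : ℕ)
    (b : (sk M (Fs U v)).S n) : d.app n b = g := by
  have hB : IsSk M (Fs U v) B := SS.isSk_of_le (Nat.zero_le M) B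
  have h1 : d.app n b = d.app 0 ((sk M (Fs U v)).act (⟨fun _ => 0, fun _ _ _ => le_rfl⟩ : Op 0 n) b) :=
    (d.nat _ b).symm
  rw [h1]
  generalize (sk M (Fs U v)).act (⟨fun _ => 0, fun _ _ _ => le_rfl⟩ : Op 0 n) b = A
  obtain ⟨A, hA⟩ := A
  obtain ⟨E, hE0, hE1⟩ := exists_edge A B
  have hE : IsSk M (Fs U v) E := SS.isSk_of_le hM E
  have h2 := d.nat (vx 0) ⟨E, hE⟩
  have h3 := d.nat (vx 1) ⟨E, hE⟩
  have e2 : (sk M (Fs U v)).act (vx 0) ⟨E, hE⟩ = ⟨A, hA⟩ := Subtype.ext hE0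
  have e3 : (sk M (Fs U v)).act (vx 1) ⟨E, hE⟩ = CovT761.skV M B := Subtype.ext hE1
  rw [e2] at h2
  rw [e3] at h3
  rw [h2, ← h3, h]

/-- a vertex of a product -/
def pv {K L : SS} (a : K.S 0) (b : L.S 0) : (K.prod L).S 0 := (a, b)

theorem crossH_vt_vt (R : Type) [CommRing R] {K L : SS} (a : K.S 0) (b : L.S 0) :
    crossH R (vt R a) (vt R b) = vt R (pv a b) := by
  rw [crossH_vt, map_vt]
  congr 1
  exact Prod.ext rfl (SrcTot85.act_const_zero b)

theorem prd_vt_vt (R : Type) [CommRing R] (e : U ⊕ U ↪ U) {a b c : ℕ} (h : a + b = c)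
    (A : (Fs U a).S 0) (B : (Fs U b).S 0) :
    prd R e h (vt R A) (vt R B) = vt R ((Prd328.mu e h).app 0 (pv A B)) := by
  rw [prd_apply, crossH_vt_vt, map_vt]

end edges

/-! ## the comparison maps to `Ω^J Z` -/

section om

open CovT761 Cubes735 Thr328
open Crest.Agent.R204.HspSS696 hiding Om
open Crest.Agent.R204.HspSS696 (Om)

variable {J : Type} [Finite J] [DecidableEq J] [Nontrivial J] {Z : Type} [TopologicalSpace Z]
  {z₀ : Z} (lab : ℕ ↪ ℝ) (M : ℕ) (k : Fin (M + 1) ↪ J) (x₀ : Ω^ J Z z₀)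

/-- the comparison maps -/
def ff (v : ℕ) : Hom (sk M (Fs ℕ v)) (Sing (Om J Z z₀)) :=
  (kap lab M k x₀).comp (skMap M (inc ℕ v))

theorem map_ff (R : Type) [CommRing R] {j v : ℕ} (hj : j < M) {x : H R (Fs ℕ v)}
    (hx : x ∈ H.gr R _ j) : H.map R (ff lab M k x₀ v) (skH R M _ x) = kapF R lab M k x₀ v x := by
  rw [kapF_apply, kapH_apply, Sk761.skH_map (inc ℕ v) hj hx, Prd328.map_comp]; rfl

theorem kapF_vt (hM : 0 < M) {v : ℕ} (B : (Fs ℕ v).S 0) :
    kapF F2 lab M k x₀ v (vt F2 B) = vt F2 ((ff lab M k x₀ v).app 0 (skV M B)) := by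
  have h1 : skH F2 M (Fs ℕ v) (vt F2 B) = vt F2 (skV M B) := skH_vtx hM B
  rw [← map_ff lab M k x₀ F2 hM (vt_mem_gr F2 _), h1, map_vt]

variable (e : ℕ ⊕ ℕ ↪ ℕ) (c : BoxConf (Fin 2) J)

/-- the empty set of threads -/
def emV : (Fs ℕ 0).S 0 := ⟨∅, fun i a ha => by simp at ha, Finset.card_empty⟩

include e c in
/-- value of the component map -/
theorem ff_comp (hM : 1 ≤ M) (hJ : 9 * (M + 1) ≤ Nat.card J) (v n : ℕ)
    (b : (sk M (Fs ℕ v)).S n) :
    (cOm J Z z₀).app n ((ff lab M k x₀ v).app n b) = cls x₀ ^ v := by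
  have key : ∀ v : ℕ, ∃ (B : (Fs ℕ v).S 0),
      (cOm J Z z₀).app 0 ((ff lab M k x₀ v).app 0 (skV M B)) = cls x₀ ^ v := by
    intro v
    induction v with
    | zero =>
      refine ⟨emV, ?_⟩
      have h1 := kapF_vt lab M k x₀ hM emV
      have h2 : kapF F2 lab M k x₀ 0 (vt F2 emV) = vt F2 (ptS (GenLoop.const : Ω^ J Z z₀)) := by
        rw [kapF_apply, map_vt]
        exact kapH_vtx_empty lab hM k x₀ hJ _ rfl
      rw [pow_zero, cm_eq_of_vt (cOm J Z z₀) (h1.symm.trans h2)]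
      exact (cOm_ptS _).trans cls_const
    | succ v ih =>
      obtain ⟨B, hBc⟩ := ih
      have h1 := kapF_vt lab M k x₀ hM SrcTot85.thr1
      have h2 : kapF F2 lab M k x₀ 1 (vt F2 SrcTot85.thr1) = vt F2 (ptS x₀) := by
        rw [kapF_apply, map_vt]
        exact kapH_vtx_one lab hM k x₀ hJ _ (Finset.card_singleton _)
      have hTc : (cOm J Z z₀).app 0 ((ff lab M k x₀ 1).app 0 (skV M SrcTot85.thr1)) = cls x₀ := by
        rw [cm_eq_of_vt (cOm J Z z₀) (h1.symm.trans h2)]; rfl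
      refine ⟨(Prd328.mu e (rfl : v + 1 = v + 1)).app 0 (pv B SrcTot85.thr1), ?_⟩
      have h3 := kapF_prd F2 lab M k x₀ e c hJ (show 0 + 0 < M by omega)
        (rfl : v + 1 = v + 1) (vt_mem_gr F2 B) (vt_mem_gr F2 SrcTot85.thr1)
      rw [prd_vt_vt, kapF_vt lab M k x₀ hM, kapF_vt lab M k x₀ hM, kapF_vt lab M k x₀ hM,
        crossH_vt_vt, map_vt] at h3
      rw [cm_eq_of_vt (cOm J Z z₀) h3, pow_succ, ← hBc, ← hTc]
      exact cOm_mulS c _ _
  obtain ⟨B, hBc⟩ := key v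
  exact cm_const hM ((cOm J Z z₀).pre (ff lab M k x₀ v)) B hBc n b

/-- **`KD` for `Ω^J Z`** -/
def kdOm {D : ℕ} (hD : D < M) (hJ : 9 * (M + 1) ≤ Nat.card J)
    (hinj : ∀ (v j : ℕ), j ≤ D → ∀ x ∈ H.gr F2 (Fs ℕ v) j, kapF F2 lab M k x₀ v x = 0 → x = 0)
    (hsurj : ∀ (v j : ℕ), j ≤ D → 2 * j ≤ v → ∀ y ∈ H.gr F2 (Sing (Om J Z z₀)) j,
      y ∈ Hc F2 (cOm J Z z₀) (cls x₀ ^ v) →
      ∃ x ∈ H.gr F2 (Fs ℕ v) j, kapF F2 lab M k x₀ v x = y) :
    KD ℕ e M D (Sing (Om J Z z₀)) (HomotopyGroup J Z z₀) (mulS c) (cOm J Z z₀) (cls x₀) where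
  f := ff lab M k x₀
  comp := ff_comp lab M k x₀ e c (by omega) hJ
  lt := hD
  assoc := SH.of' (mulS_assoc c)
  comm := SH.of' (mulS_comm c)
  mul := by
    intro R _ a b s t x y hst hx hy
    have := prd_mem_gr R e (rfl : a + b = a + b) hx hy
    rw [map_ff lab M k x₀ R hst this, map_ff lab M k x₀ R (by omega) hx,
      map_ff lab M k x₀ R (by omega) hy]
    exact kapF_prd R lab M k x₀ e c hJ hst rfl hx hy
  inj := by
    intro v j hj x hx h0
    rw [map_ff lab M k x₀ F2 (by omega) hx] at h0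
    exact hinj v j hj x hx h0
  surj := by
    intro v j hj hv y hy hy'
    obtain ⟨x, hx, hxy⟩ := hsurj v j hj hv y hy hy'
    exact ⟨x, hx, by rw [map_ff lab M k x₀ F2 (by omega) hx, hxy]⟩

/-- vertices of the base component -/
theorem vt_base (w : (Sing (Om J Z z₀)).S 0) (hw : (cOm J Z z₀).app 0 w = 1) :
    vt F2 w = vt F2 (eS : (Sing (Om J Z z₀)).S 0) := by
  have h := X0947.vt_eq F2 (fmk (cOm J Z z₀) 1 w hw : (X0947.X0 J Z z₀).S 0)
  have h2 := congrArg (H.map F2 (X0947.inX0 (J := J) (Z := Z) (z₀ := z₀))) h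
  rw [map_vt, map_vt] at h2
  exact h2

/-- **`Kap` for the base component of `Ω^J Z`** -/
theorem kapOm {D : ℕ} (hD : D < M) (hJ : 9 * (M + 1) ≤ Nat.card J)
    (hinj : ∀ (v j : ℕ), j ≤ D → ∀ x ∈ H.gr F2 (Fs ℕ v) j, kapF F2 lab M k x₀ v x = 0 → x = 0)
    (hsurj : ∀ (v j : ℕ), j ≤ D → 2 * j ≤ v → ∀ y ∈ H.gr F2 (Sing (Om J Z z₀)) j,
      y ∈ Hc F2 (cOm J Z z₀) (cls x₀ ^ v) →
      ∃ x ∈ H.gr F2 (Fs ℕ v) j, kapF F2 lab M k x₀ v x = y)
    {m : ℕ} (hm : 2 * m + 1 ≤ D) {v : ℕ} (hv : 2 * (2 * m + 1) ≤ v) :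
    Nonempty (KTr947.Kap ℕ e (X0947.X0 J Z z₀) (X0947.mu0 c) X0947.e0 v m) := by
  obtain ⟨y, hy⟩ := cls_surj ((cls x₀ ^ v)⁻¹)
  have hB : ∃ B : (Fs ℕ v).S 0, True := by
    refine ⟨⟨(Finset.range v).image (fun n _ => n), ?_, ?_⟩, trivial⟩
    · intro i a ha b hb h
      obtain ⟨n, -, rfl⟩ := Finset.mem_image.1 (Finset.mem_coe.1 ha)
      obtain ⟨m, -, rfl⟩ := Finset.mem_image.1 (Finset.mem_coe.1 hb)
      have : n = m := h
      rw [this]
    · rw [Finset.card_image_of_injective _ (fun a b h => congrFun h 0), Finset.card_range]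
  obtain ⟨B, -⟩ := hB
  exact ⟨toKap (kdOm lab M k x₀ e c hD hJ hinj hsurj) (fun n x y => cOm_mulS c x y)
    (fun a => by
      obtain ⟨y, hy⟩ := cls_surj a
      exact ⟨ptS y, hy⟩)
    eS rfl (X0947.mulS_unitR F2 c) vt_base (X0947.mu0 c) (X0947.in_mu0 c) hm hv (ptS y)
    (by
      have h1 : (cOm J Z z₀).app 0 (ptS y) = cls y := cOm_ptS y
      rw [h1, hy, mul_inv_cancel]) B⟩

end om

end Crest.Agent.R204.KDI103
end
end

-- ▼ part R204/TotW_328
section

/-!
# Row 204, block G (helper328): weights on the homology of `Tot U`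

* `wC U v : Corr (Tot U) (Fs U v)` the part of weight `v`; `prW`; `H.map (inc U v)` is injective,
  the homology of `Tot U` is the sum of the homologies of the `Fs U v`.
* `mulH_inc`, `Q_inc` : the product and the operations of `totAlg` on classes of given weight.
* `W v t` : the submodule of bidegree `(v, t)`, in the form used by `Squ_103.Src`.
-/

set_option autoImplicit false

noncomputable section

namespace Crest.Agent.R204.TotW328

open Crest.Agent.R204 SS Fs348 Thr328 Corr328 TotAlg328 Prd328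

/-! ## weights -/

section weight

variable (U : Type) (v : ℕ)

/-- the part of weight `v` of a set of threads -/
def wF {n : ℕ} (A : (Tot U).S n) : Finset ((Fs U v).S n) :=
  if h : A.1.card = v then {⟨A.1, A.2, h⟩} else ∅

variable {U v}

theorem wF_of_eq {n : ℕ} (A : (Tot U).S n) (h : A.1.card = v) : wF U v A = {⟨A.1, A.2, h⟩} :=
  dif_pos h

theorem wF_of_ne {n : ℕ} (A : (Tot U).S n) (h : A.1.card ≠ v) : wF U v A = ∅ := dif_neg h

variable (U v)

/-- the part of weight `v` -/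
def wC : Corr (Tot U) (Fs U v) where
  F A := wF U v A
  bij {m n} f A := by
    have hc : ((Tot U).act f A).1.card = A.1.card := A.2.card_re f
    by_cases h : A.1.card = v
    · rw [wF_of_eq A h, wF_of_eq _ (hc.trans h), Finset.coe_singleton, Finset.coe_singleton,
        Set.bijOn_singleton]
      rfl
    · rw [wF_of_ne A h, wF_of_ne _ (fun h' => h (hc.symm.trans h'))]
      simp

variable (R : Type) [CommRing R]

theorem nm_wC_inc (z : N R (Fs U v)) : (wC U v).nm R (N.map R (inc U v) z) = z := by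
  have : (wC U v).nm R ∘ₗ N.map R (inc U v) = LinearMap.id := by
    refine EZ271.hom_ext fun n A => ?_
    rw [LinearMap.comp_apply, N.map_sx, Corr.nm_sx, LinearMap.id_apply]
    change ∑ x ∈ wF U v ((inc U v).app n A), N.sx R x = _
    rw [wF_of_eq ((inc U v).app n A) A.2.2, Finset.sum_singleton]
    rfl
  exact LinearMap.congr_fun this z



/-- projection to weight `v` in homology -/
def prW : H R (Tot U) →ₗ[R] H R (Fs U v) := (wC U v).h R

theorem prW_inc (x : H R (Fs U v)) : prW U v R (H.map R (inc U v) x) = x := by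
  obtain ⟨z, hz, rfl⟩ := Hd.mk_surj _ x
  rw [H_map_mk, prW, Corr.h_mk, Hd.mk_eq_mk]
  exact ⟨0, by rw [map_zero, nm_wC_inc, sub_self]⟩


theorem inc_injective : Function.Injective (H.map R (inc U v)) := fun x y h => by
  rw [← prW_inc U v R x, h, prW_inc]



end weight

/-! ## products and operations -/

section ops

variable {U : Type} (e : U ⊕ U ↪ U) (M : ℕ)





end ops

/-! ## `Q_i 1 = 0` -/

section one

variable {M : ℕ} {K : SS}


end one

/-! ## the bidegree submodules -/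

section W

variable {U : Type}

/-- bidegree `(v, t)` -/
def W (U : Type) (v t : ℕ) : Submodule F2 (H F2 (Tot U)) :=
  (H.gr F2 (Fs U v) t).map (H.map F2 (inc U v))

theorem mem_W {v t : ℕ} {y : H F2 (Tot U)} :
    y ∈ W U v t ↔ ∃ x ∈ H.gr F2 (Fs U v) t, H.map F2 (inc U v) x = y := Iff.rfl


/-- the class of the empty set -/
theorem oneH_eq : Ops265.oneH (oneT U) = H.map F2 (inc U 0) (C5T557.vtx F2 (Prd328.e0 U)) := by
  rw [C5T557.map_vtx]; rfl


/-- one thread as a vertex of `Fs U 1` -/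
def thr1 (u : U) : (Fs U 1).S 0 :=
  ⟨{fun _ => u}, fun i a ha b hb _ => by
    rw [Finset.mem_coe, Finset.mem_singleton] at ha hb
    rw [ha, hb], Finset.card_singleton _⟩

/-- the class of one thread -/
def x1 (u : U) : H F2 (Tot U) := H.map F2 (inc U 1) (C5T557.vtx F2 (thr1 u))



variable (e : U ⊕ U ↪ U) (M : ℕ)







theorem W0 : W U 0 0 ≤ Submodule.span F2 {Ops265.oneH (oneT U)} := by
  intro y hy
  obtain ⟨x, hx, rfl⟩ := mem_W.1 hy
  obtain ⟨r, rfl⟩ := Span348.span_zero (Prd328.e0 U) x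
  rw [map_smul, ← oneH_eq]
  exact Submodule.smul_mem _ _ (Submodule.subset_span rfl)


theorem W1 (u : U) : W U 1 0 ≤ Submodule.span F2 {x1 u} := by
  intro y hy
  obtain ⟨x, hx, rfl⟩ := mem_W.1 hy
  obtain ⟨r, rfl⟩ := Span348.span_one (thr1 u) x
  rw [map_smul]
  exact Submodule.smul_mem _ _ (Submodule.subset_span rfl)


end W

/-! ## the spanning theorem, bigraded form -/

section span

variable {U : Type} (e : U ⊕ U ↪ U) (M : ℕ)



/-- the submodule of `H (Fs U v)` cut out by a bigraded family in degrees `≤ D` -/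
def PS (D : ℕ) (S : ℕ → ℕ → Submodule F2 (H F2 (Tot U))) (v : ℕ) :
    Submodule F2 (H F2 (Fs U v)) :=
  ⨅ t : {t : ℕ // t ≤ D}, (S v t).comap (H.map F2 (inc U v) ∘ₗ Gr334.prH F2 (Fs U v) t)



end span

end Crest.Agent.R204.TotW328
end
end

-- ▼ part R204/KDT_103

/-!
# Row 204, block G (helper103): the comparison data for `X₀` of the concrete tower

`kapInst` : `KTr947.Kap` for `X0` of `Inst194.Par.tower`, from `FactGr`, `FactQ`, `FactX`,
`FactPoly0` of the tower and the Steenrod facts `ThFacts` of the thread algebra.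
-/

set_option autoImplicit false
set_option linter.unusedSectionVars false
set_option linter.style.haveILetI false

open scoped Topology unitInterval Topology.Homotopy

noncomputable section

namespace Crest.Agent.R204.KDI103

open Crest.Agent.R204 SS Coef947 Fs348 Prd328 Comp696 ThAlg265 Gr334 Inst194 SrcTot85 CovT761
open Crest.Agent.R204.Hsp696 (halves)
open Crest.Agent.R204.Freu297 (Sph pt)
open Crest.Agent.R204.HspSS696 (mulS eS ptS)
open Crest.Agent.R204.Thr328 (Tot inc)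
open Crest.Agent.R204.Ops265 (Q mulH oneH)
open Crest.Agent.R204.TotAlg328 (oneT)

instance inst0 (p : Par) : Nontrivial (Fin (cd p.J0 p.K 0)) :=
  Fin.nontrivial_iff_two_le.2 (two_le p.hM (p.hc 0))

variable (p : Par) {D : ℕ} (e : ℕ ⊕ ℕ ↪ ℕ) (lab : ℕ ↪ ℝ)

/-! ## components -/

/-- the component map of `X₀` -/
abbrev c0 : Cm (p.S 0) (HomotopyGroup (Fin (cd p.J0 p.K 0)) (Sph (p.J0 + p.K)) (pt (p.J0 + p.K))) :=
  cOm (Fin (cd p.J0 p.K 0)) (Sph (p.J0 + p.K)) (pt (p.J0 + p.K))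

/-- the class of the generator -/
abbrev g0 : HomotopyGroup (Fin (cd p.J0 p.K 0)) (Sph (p.J0 + p.K)) (pt (p.J0 + p.K)) :=
  Comp696.cls (iotaL p.n)

theorem tower_mem (a b : HomotopyGroup (Fin (cd p.J0 p.K 0)) (Sph (p.J0 + p.K)) (pt (p.J0 + p.K)))
    (x y : p.tower.H 0) (hx : (x : H F2 (p.S 0)) ∈ Hc F2 (c0 p) a)
    (hy : (y : H F2 (p.S 0)) ∈ Hc F2 (c0 p) b) :
    ((x * y : p.tower.H 0) : H F2 (p.S 0)) ∈ Hc F2 (c0 p) (a * b) :=
  ring_mul_mem (p.N 0) EE (c0 p) (omCm (emb (p.hc 0)) (halves (i0 (p.hc 0)))).mu a b x y hx hy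

theorem tower_one_mem : ((1 : p.tower.H 0) : H F2 (p.S 0)) ∈ Hc F2 (c0 p) 1 :=
  ring_one_mem (p.N 0) EE (c0 p) (omCm (emb (p.hc 0)) (halves (i0 (p.hc 0)))).one

theorem xinv_mem : (p.tower.xinv : H F2 (p.S 0)) ∈ Hc F2 (c0 p) (g0 p)⁻¹ :=
  vtx_symmAt_mem (i0 (p.hc 0)) (iotaL p.n)

theorem xinv_pow_mem (v : ℕ) :
    ((p.tower.xinv ^ v : p.tower.H 0) : H F2 (p.S 0)) ∈ Hc F2 (c0 p) ((g0 p)⁻¹ ^ v) := by
  induction v with
  | zero => rw [pow_zero, pow_zero]; exact tower_one_mem p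
  | succ v ih => rw [pow_succ, pow_succ]; exact tower_mem p _ _ _ _ ih (xinv_mem p)

theorem mem_base_iff (x : p.tower.H 0) :
    x ∈ p.tower.base ↔ (x : H F2 (p.S 0)) ∈ Hc F2 (c0 p) 1 := Iff.rfl

theorem xinv_pow_gr (hG : p.tower.FactGr D) (hX : p.tower.FactX D) (v : ℕ) :
    p.tower.xinv ^ v ∈ p.tower.gr 0 0 := by
  have h := hG 0 (by omega)
  induction v with
  | zero => rw [pow_zero]; exact h.2.1
  | succ v ih =>
    rw [pow_succ]
    exact h.2.2 0 0 _ _ ih hX.2.2.2.1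

/-! ## the comparison map -/

/-- the comparison map to the bottom stage of the tower -/
abbrev kap0 : H F2 (Tot ℕ) →ₗ[F2] p.tower.H 0 :=
  kapH F2 lab p.M (emb (p.hc 0)) (iotaL p.n)

theorem card_J (hJ : 9 * (p.M + 1) ≤ p.J0 + p.K) :
    9 * (p.M + 1) ≤ Nat.card (Fin (cd p.J0 p.K 0)) := by
  rw [Nat.card_fin]; exact hJ

theorem tower_mul_eq (x y : p.tower.H 0) :
    x * y = mulH (mu0 (p.hc 0)) (x : H F2 (p.S 0)) y :=
  OpsHopf557.mulL_eq (p.N 0) EZ847.ezd rfl x y

section main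

variable (hJ : 9 * (p.M + 1) ≤ p.J0 + p.K)

include hJ

theorem kap0_x1 : kap0 p lab x1 = p.tower.x 0 :=
  kapH_vtx_one lab (by have := p.hM; omega) (emb (p.hc 0)) (iotaL p.n) (card_J p hJ) _
    (Finset.card_singleton _)

theorem kap0_one : kap0 p lab (C5T557.vtx F2 (oneT ℕ)) = (1 : p.tower.H 0) :=
  kapH_vtx_empty lab (by have := p.hM; omega) (emb (p.hc 0)) (iotaL p.n) (card_J p hJ) _ rfl

variable (hD : D + 2 ≤ p.M)

include hD

theorem kap0_Q (i t : ℕ) (y : H F2 (Tot ℕ)) (h : 2 * t + i ≤ D) (hy : y ∈ H.gr F2 (Tot ℕ) t) :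
    kap0 p lab (Q (TotAlg328.totAlg e p.M) i y) = p.tower.Q 0 i (kap0 p lab y) :=
  kapH_Q' lab p.M (emb (p.hc 0)) (iotaL p.n) e (mu0 (p.hc 0)) (card_J p hJ) (by omega) hy

theorem kap0_mul (s t : ℕ) (y z : H F2 (Tot ℕ)) (h : s + t ≤ D) (hy : y ∈ H.gr F2 (Tot ℕ) s)
    (hz : z ∈ H.gr F2 (Tot ℕ) t) :
    kap0 p lab (mulH (TotAlg328.totAlg e p.M).mu y z) = kap0 p lab y * kap0 p lab z := by
  rw [tower_mul_eq p]
  exact kapH_mul' lab p.M (emb (p.hc 0)) (iotaL p.n) e (halves (i0 (p.hc 0))) (card_J p hJ)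
    (by omega) hy hz

variable {Sq : ℕ → (H F2 (Tot ℕ) →ₗ[F2] H F2 (Tot ℕ))}
  (hA : ThFacts (TotAlg328.totAlg e p.M) D Sq) (hQ : p.tower.FactQ D) (hX : p.tower.FactX D)
  (hP : p.tower.FactPoly0 D)

include hA hQ hX hP

theorem tower_inj (v j : ℕ) (hj : j ≤ D) (x : H F2 (Fs ℕ v)) (hx : x ∈ H.gr F2 (Fs ℕ v) j)
    (h0 : kapF F2 lab p.M (emb (p.hc 0)) (iotaL p.n) v x = 0) : x = 0 := by
  have h1 := kappa_injective hD hA hQ hP (kap0 p lab) (kap0_x1 p lab hJ)
    (kap0_Q p e lab hJ hD) hX (kap0_one p lab hJ) (kap0_mul p e lab hJ hD) hj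
    (y := H.map F2 (inc ℕ v) x) ⟨x, hx, rfl⟩ h0
  exact TotW328.inc_injective ℕ v F2 (by rw [h1, map_zero])

variable (hG : p.tower.FactGr D)

include hG

theorem tower_surj (v j : ℕ) (hj : j ≤ D) (hv : 2 * j ≤ v) (y : p.tower.H 0)
    (hy : (y : H F2 (p.S 0)) ∈ H.gr F2 (p.S 0) j)
    (hy' : (y : H F2 (p.S 0)) ∈ Hc F2 (c0 p) (g0 p ^ v)) :
    ∃ x ∈ H.gr F2 (Fs ℕ v) j, kapF F2 lab p.M (emb (p.hc 0)) (iotaL p.n) v x = y := by
  have hb : y * p.tower.xinv ^ v ∈ p.tower.gr 0 j := by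
    have := (hG 0 (by omega)).2.2 j 0 _ _ hy (xinv_pow_gr p hG hX v)
    rwa [add_zero] at this
  have hb' : y * p.tower.xinv ^ v ∈ p.tower.base := by
    rw [mem_base_iff]
    have := tower_mem p _ _ y (p.tower.xinv ^ v) hy' (xinv_pow_mem p v)
    rwa [inv_pow, mul_inv_cancel] at this
  obtain ⟨y', hy1, hy2⟩ := kappa_surjective hD hA hQ hP (kap0 p lab) (kap0_x1 p lab hJ)
    (kap0_Q p e lab hJ hD) hX (kap0_one p lab hJ) (kap0_mul p e lab hJ hD) hj hv hb hb'
  obtain ⟨x, hx, rfl⟩ := hy1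
  refine ⟨x, hx, ?_⟩
  have h1 : p.tower.xinv ^ v * p.tower.x 0 ^ v = 1 := by
    rw [← mul_pow, mul_comm, hX.2.2.2.2.2, one_pow]
  have h2 := congrArg (fun z : p.tower.H 0 => z * p.tower.x 0 ^ v) hy2
  simp only [mul_assoc, h1, mul_one] at h2
  exact h2

/-- **the comparison data for the base component of `X₀`** -/
theorem kapInst {m : ℕ} (hm : 2 * m + 1 ≤ D) {v : ℕ} (hv : 2 * (2 * m + 1) ≤ v) :
    Nonempty (KTr947.Kap ℕ e (X0947.X0 (Fin (cd p.J0 p.K 0)) (Sph (p.J0 + p.K)) (pt (p.J0 + p.K)))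
      (X0947.mu0 (halves (i0 (p.hc 0)))) X0947.e0 v m) :=
  have lab : ℕ ↪ ℝ := ⟨fun n => (n : ℝ), Nat.cast_injective⟩
  kapOm (M := p.M) lab (emb (p.hc 0)) (iotaL p.n) e (halves (i0 (p.hc 0))) (D := D) (by omega)
    (card_J p hJ) (fun v j hj x hx h0 => tower_inj p e lab hJ hD hA hQ hX hP v j hj x hx h0)
    (fun v j hj hv y hy hy' => tower_surj p e lab hJ hD hA hQ hX hP hG v j hj hv y hy hy') hm hv

end main

end Crest.Agent.R204.KDI103
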