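import Crest.Agent.R204.Wang_905
import Crest.Agent.R204.EZCross_271
import Crest.Agent.R204.Coalg_847
import Crest.Agent.R204.Gr_334
import Crest.Agent.R204.Defs
import Crest.Agent.R204.Ind3_979
import Crest.Agent.R204.EZInst_847
import Crest.Agent.R204.Hopf4_450
import Crest.Agent.R204.Cov2_892
import Crest.Agent.R204.AdjC_330
import Crest.Agent.R204.HInv_328
import Crest.Agent.R204.PiC_808
import Crest.Agent.R204.Spec_114
import Crest.Agent.R204.GeoB_979
import Crest.Agent.R204.Psi3_755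
import Crest.Agent.R204.PF_94
import Crest.Agent.R204.Sigma2_88

-- ▼ part R204/Wang2_905
section

/-!
# Row 204, leaf B5: explicit form of the Wang sequence (helper905)

* canonical lifts `lift C n : K.S n → Kt.S n` (0-th vertex in a fixed section), heights `ht`
* integral cocycle `kap C : K.S 1 → ℤ`
* `capN C R : N R K →ₗ N R K`, `x ↦ kap (x|01) • d_0 x`
* `p_dlt_mk : p_* (dlt [z]) = -[capN z]`, `capH C : H F2 K →ₗ H F2 K`, `p_dlt`
* consequences of `g_* = 1`
-/

set_option autoImplicit false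

noncomputable section

open Finsupp Function

namespace Crest.Agent.R204.Wang905

open Cov892

/-- vertex operator -/
def vtx {n : ℕ} (i : Fin (n + 1)) : Op 0 n := ⟨fun _ => i, fun _ _ _ => le_rfl⟩

/-- front edge operator -/
def e01 {n : ℕ} : Op 1 (n + 1) := ⟨fun i => Fin.castLE (by omega) i, fun _ _ h => h⟩

theorem comp_vtx {m n : ℕ} (f : Op m n) (i : Fin (m + 1)) : f.comp (vtx i) = vtx (f i) := rfl

theorem vtx_id : (vtx 0 : Op 0 0) = OrderHom.id := by
  ext a
  simp [vtx]

@[simp] theorem e01_zero {n : ℕ} : (e01 : Op 1 (n + 1)) 0 = 0 := rfl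
@[simp] theorem e01_one {n : ℕ} : (e01 : Op 1 (n + 1)) 1 = 1 := rfl
theorem e01_val {n : ℕ} (a : Fin 2) : (((e01 : Op 1 (n + 1)) a : Fin (n + 2)) : ℕ) = a := rfl
theorem vtx_val {n : ℕ} (i : Fin (n + 1)) (a : Fin 1) : (((vtx i : Op 0 n) a : Fin (n + 1)) : ℕ) = i := rfl

section
variable {Kt K : SS} (C : ZCov Kt K)

theorem exists_ht (x : Kt.S 0) : ∃ k : ℤ, x = (C.gE 0 ^ k) (sec C 0 (C.p.app 0 x)) :=
  C.orb _ _ (p_sec C _ _)

/-- height of a vertex upstairs with respect to the section on vertices -/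
def ht (x : Kt.S 0) : ℤ := (exists_ht C x).choose

theorem ht_spec (x : Kt.S 0) : x = (C.gE 0 ^ ht C x) (sec C 0 (C.p.app 0 x)) :=
  (exists_ht C x).choose_spec

theorem ht_eq {x : Kt.S 0} {k : ℤ} (h : x = (C.gE 0 ^ k) (sec C 0 (C.p.app 0 x))) :
    ht C x = k := by
  apply C.zpow_inj (sec C 0 (C.p.app 0 x))
  rw [← ht_spec, ← h]

theorem ht_zpow (k : ℤ) (x : Kt.S 0) : ht C ((C.gE 0 ^ k) x) = k + ht C x := by
  apply ht_eq
  rw [C.p_zpow, zpow_add, Equiv.Perm.mul_apply, ← ht_spec]

/-- height of the 0-th vertex -/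
def ht0 {n : ℕ} (x : Kt.S n) : ℤ := ht C (Kt.act (vtx 0) x)

theorem ht0_zpow {n : ℕ} (k : ℤ) (x : Kt.S n) : ht0 C ((C.gE n ^ k) x) = k + ht0 C x := by
  unfold ht0
  rw [← C.zpow_nat, ht_zpow]

theorem ht0_act {m n : ℕ} (f : Op m n) (x : Kt.S n) :
    ht0 C (Kt.act f x) = ht C (Kt.act (vtx (f 0)) x) := by
  unfold ht0
  rw [← Kt.act_comp, comp_vtx]

/-- canonical lift -/
def lift (n : ℕ) (y : K.S n) : Kt.S n := (C.gE n ^ (-(ht0 C (sec C n y)))) (sec C n y)

theorem p_lift (n : ℕ) (y : K.S n) : C.p.app n (lift C n y) = y := by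
  unfold lift
  rw [C.p_zpow, p_sec]

theorem ht0_lift (n : ℕ) (y : K.S n) : ht0 C (lift C n y) = 0 := by
  unfold lift
  rw [ht0_zpow]
  omega

theorem eq_lift {n : ℕ} (x : Kt.S n) : x = (C.gE n ^ ht0 C x) (lift C n (C.p.app n x)) := by
  obtain ⟨k, hk⟩ := C.orb (lift C n (C.p.app n x)) x (p_lift C _ _)
  have : ht0 C x = k := by
    conv_lhs => rw [hk]
    rw [ht0_zpow, ht0_lift, add_zero]
  rw [this]
  exact hk

theorem act_lift {m n : ℕ} (f : Op m n) (y : K.S n) :
    Kt.act f (lift C n y) = (C.gE m ^ ht C (Kt.act (vtx (f 0)) (lift C n y))) (lift C m (K.act f y)) := by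
  have := eq_lift C (Kt.act f (lift C n y))
  rw [ht0_act, C.p.nat, p_lift] at this
  exact this

theorem ht_vtx_zero {n : ℕ} (y : K.S n) : ht C (Kt.act (vtx 0) (lift C n y)) = 0 := ht0_lift C n y

theorem act_lift_of_zero {m n : ℕ} (f : Op m n) (hf : f 0 = 0) (y : K.S n) :
    Kt.act f (lift C n y) = lift C m (K.act f y) := by
  rw [act_lift, hf, ht_vtx_zero, zpow_zero]
  rfl

/-- the integral cocycle on edges -/
def kap (e : K.S 1) : ℤ := ht C (Kt.act (vtx 1) (lift C 1 e))

theorem kap_act {n : ℕ} (f : Op 1 n) (hf : f 0 = 0) (y : K.S n) :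
    kap C (K.act f y) = ht C (Kt.act (vtx (f 1)) (lift C n y)) := by
  unfold kap
  rw [← act_lift_of_zero C f hf, ← Kt.act_comp, comp_vtx]

theorem act_face_zero_lift {n : ℕ} (y : K.S (n + 1)) :
    Kt.act (Op.face 0) (lift C (n + 1) y) =
      (C.gE n ^ kap C (K.act e01 y)) (lift C n (K.act (Op.face 0) y)) := by
  rw [act_lift, kap_act C (e01 : Op 1 (n + 1)) rfl y]
  rfl

theorem face_apply_zero {n : ℕ} {i : Fin (n + 2)} (hi : i ≠ 0) : (Op.face i : Op n (n + 1)) 0 = 0 := by
  apply Fin.ext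
  rw [Ch.face_val]
  have : 0 < (i : ℕ) := Nat.pos_of_ne_zero (fun h => hi (Fin.ext h))
  simp [this]

/-- cocycle property: `kap (d_1 x) = kap (d_2 x) + kap (d_0 x)` -/
theorem kap_cocycle (x : K.S 2) :
    kap C (K.act (Op.face 1) x) = kap C (K.act (Op.face 2) x) + kap C (K.act (Op.face 0) x) := by
  have f1 : (Op.face 1 : Op 1 2) 1 = 2 := by
    apply Fin.ext; rw [Ch.face_val]; rfl
  have f2 : (Op.face 2 : Op 1 2) 1 = 1 := by
    apply Fin.ext; rw [Ch.face_val]; rfl
  have f0 : (Op.face 0 : Op 1 2) 1 = 2 := by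
    apply Fin.ext; rw [Ch.face_val]; rfl
  have f00 : (Op.face 0 : Op 1 2) 0 = 1 := by
    apply Fin.ext; rw [Ch.face_val]; rfl
  rw [kap_act C (Op.face 1) (face_apply_zero (by decide)) x,
    kap_act C (Op.face 2) (face_apply_zero (by decide)) x, f1, f2]
  have h := act_lift C (Op.face 0 : Op 1 2) x
  have h2 : ht C (Kt.act (vtx 1) (Kt.act (Op.face 0) (lift C 2 x))) =
      ht C (Kt.act (vtx 1) (lift C 2 x)) + kap C (K.act (Op.face 0) x) := by
    rw [h, ← C.zpow_nat, ht_zpow, f00]
    rfl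
  rw [← Kt.act_comp, comp_vtx, f0] at h2
  exact h2

theorem kap_dgn (v : K.S 0) (f : Op 1 0) : kap C (K.act f v) = 0 := by
  have h0 : ∀ a : Fin 1, a = 0 := fun a => Fin.ext (by omega)
  rw [kap_act C f (h0 _), h0 (f 1), ht_vtx_zero]

section chains
variable (R : Type) [CommRing R]

/-- cap product with `kap` on a simplex -/
def capT : K.T → Ch R K
  | ⟨0, _⟩ => 0
  | ⟨n + 1, y⟩ => single ⟨n, K.act (Op.face 0) y⟩ (kap C (K.act e01 y) : R)

/-- cap product with `kap` on chains -/
def capI : Ch R K →ₗ[R] Ch R K := Finsupp.linearCombination R (capT C R)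

variable {R}

theorem capI_single_zero (y : K.S 0) (r : R) : capI C R (single ⟨0, y⟩ r) = 0 := by
  simp [capI, capT]

theorem capI_single_succ {n : ℕ} (y : K.S (n + 1)) (r : R) :
    capI C R (single ⟨n + 1, y⟩ r) =
      (kap C (K.act e01 y) : R) • single ⟨n, K.act (Op.face 0) y⟩ r := by
  simp [capI, capT, mul_comm]

theorem capI_mem_gr {n : ℕ} {c : Ch R K} (hc : c ∈ Ch.gr R K (n + 1)) :
    capI C R c ∈ Ch.gr R K n := by
  refine Submodule.span_induction (p := fun c _ => capI C R c ∈ Ch.gr R K n) ?_ ?_ ?_ ?_ hc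
  · rintro _ ⟨x, rfl⟩
    rw [capI_single_succ]
    exact Submodule.smul_mem _ _ (single_mem_gr _ _ _)
  · simp
  · intro a b _ _ ha hb; rw [map_add]; exact Submodule.add_mem _ ha hb
  · intro r a _ ha; rw [map_smul]; exact Submodule.smul_mem _ _ ha

theorem capI_mem_Dg {c : Ch R K} (hc : c ∈ Ch.Dg R K) : capI C R c ∈ Ch.Dg R K := by
  refine Submodule.span_induction (p := fun c _ => capI C R c ∈ Ch.Dg R K) ?_ ?_ ?_ ?_ hc
  · rintro _ ⟨⟨n, x⟩, hx, rfl⟩
    rcases n with _ | n
    · exact hx.elim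
    obtain ⟨j, y, rfl⟩ := hx
    rw [capI_single_succ]
    by_cases hj : j = 0
    · subst hj
      have e : (Op.dgn (0 : Fin (n + 1))).comp (e01 : Op 1 (n + 1)) =
          (vtx (0 : Fin (n + 1))).comp (⟨fun _ => 0, fun _ _ _ => le_rfl⟩ : Op 1 0) := by
        refine OrderHom.ext _ _ (funext fun a => Fin.ext ?_)
        simp only [OrderHom.comp_coe, Function.comp_apply, Ch.dgn_val, e01_val, vtx_val, Fin.val_zero]
        have ha : (a : ℕ) = 0 ∨ (a : ℕ) = 1 := by omega
        rcases ha with ha | ha <;> simp [ha]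
      have : kap C (K.act e01 (K.act (Op.dgn 0) y)) = 0 := by
        rw [← K.act_comp, e, K.act_comp, kap_dgn]
      rw [this]
      simp
    · refine Submodule.smul_mem _ _ ?_
      rcases n with _ | n
      · exact absurd (Fin.ext (by omega)) hj
      have h1 : (0 : Fin (n + 3)) ≠ j.castSucc := by
        intro h
        apply hj
        apply Fin.ext
        have := congrArg Fin.val h
        simpa using this.symm
      obtain ⟨i', j', h⟩ := Ch.face_dgn_ne (0 : Fin (n + 3)) j h1 (Fin.succ_ne_zero j).symm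
      rw [← K.act_comp, h, K.act_comp]
      exact Submodule.subset_span ⟨_, Ch.isDgn_act _ _ _, rfl⟩
  · simp
  · intro a b _ _ ha hb; rw [map_add]; exact Submodule.add_mem _ ha hb
  · intro r a _ ha; rw [map_smul]; exact Submodule.smul_mem _ _ ha

/-- boundary of the canonical lift -/
theorem bd_secL (c : Ch R K) : ∃ b : Ch R Kt,
    Ch.bd R Kt (secL R (lift C) c) = secL R (lift C) (Ch.bd R K c) + om C R b ∧
      Ch.map R C.p b = -capI C R c := by
  induction c using Finsupp.induction_linear with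
  | zero => exact ⟨0, by simp⟩
  | add c c' h h' =>
    obtain ⟨b, hb, e⟩ := h
    obtain ⟨b', hb', e'⟩ := h'
    refine ⟨b + b', ?_, ?_⟩
    · simp only [map_add, hb, hb']
      abel
    · simp only [map_add, e, e']
      abel
  | single t r =>
    obtain ⟨n, y⟩ := t
    rcases n with _ | n
    · refine ⟨0, ?_, ?_⟩
      · rw [secL_single, Ch.bd_single_zero, Ch.bd_single_zero]
        simp
      · rw [capI_single_zero]
        simp
    · obtain ⟨b, -, e, e'⟩ := exists_tel C (kap C (K.act e01 y)) n (lift C n (K.act (Op.face 0) y)) r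
      refine ⟨b, ?_, ?_⟩
      · have : ∀ i : Fin (n + 1), (single ⟨n, Kt.act (Op.face i.succ) (lift C (n + 1) y)⟩
            (r * (-1 : R) ^ ((i.succ : Fin (n + 2)) : ℕ)) : Ch R Kt) =
            secL R (lift C) (single ⟨n, K.act (Op.face i.succ) y⟩
              (r * (-1 : R) ^ ((i.succ : Fin (n + 2)) : ℕ))) := by
          intro i
          rw [secL_single, act_lift_of_zero C _ (face_apply_zero (Fin.succ_ne_zero i))]
        have hL : (∑ i : Fin (n + 2), (single ⟨n, Kt.act (Op.face i) (lift C (n + 1) y)⟩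
            (r * (-1 : R) ^ (i : ℕ)) : Ch R Kt)) = single ⟨n, (C.gE n ^ kap C (K.act e01 y))
              (lift C n (K.act (Op.face 0) y))⟩ r + ∑ i : Fin (n + 1),
            secL R (lift C) (single ⟨n, K.act (Op.face i.succ) y⟩
              (r * (-1 : R) ^ ((i.succ : Fin (n + 2)) : ℕ))) := by
          rw [Fin.sum_univ_succ, act_face_zero_lift, Finset.sum_congr rfl (fun i _ => this i),
            Fin.val_zero, pow_zero, mul_one]
        have hR : secL R (lift C) (∑ i : Fin (n + 2), (single ⟨n, K.act (Op.face i) y⟩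
            (r * (-1 : R) ^ (i : ℕ)) : Ch R K)) = single ⟨n, lift C n (K.act (Op.face 0) y)⟩ r +
            ∑ i : Fin (n + 1), secL R (lift C) (single ⟨n, K.act (Op.face i.succ) y⟩
              (r * (-1 : R) ^ ((i.succ : Fin (n + 2)) : ℕ))) := by
          rw [Fin.sum_univ_succ, map_add, map_sum, secL_single, Fin.val_zero, pow_zero, mul_one]
        rw [secL_single, Ch.bd_single_succ, Ch.bd_single_succ, hL, hR, ← e]
        abel
      · rw [e', capI_single_succ, p_lift]

theorem bd_capI (c : Ch R K) : Ch.bd R K (capI C R c) = -capI C R (Ch.bd R K c) := by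
  obtain ⟨b, hb, e⟩ := bd_secL C c
  obtain ⟨b', hb', e'⟩ := bd_secL C (Ch.bd R K c)
  have h1 : om C R (b' + Ch.bd R Kt b) = 0 := by
    have h2 := congrArg (Ch.bd R Kt) hb
    rw [Ch.bd_bd, map_add, hb', Ch.bd_bd, map_zero, zero_add] at h2
    have h3 : Ch.bd R Kt (om C R b) = om C R (Ch.bd R Kt b) := by
      rw [om_apply, om_apply, map_sub, Ch.map_bd]
    rw [h3, ← map_add] at h2
    exact h2.symm
  have h4 : b' + Ch.bd R Kt b = 0 := om_injective C (by rw [h1, map_zero])
  have h5 := congrArg (Ch.map R C.p) h4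
  rw [map_add, Ch.map_bd, e, e', map_neg, map_zero] at h5
  have h6 : Ch.bd R K (capI C R c) = -capI C R (Ch.bd R K c) -
    (-capI C R (Ch.bd R K c) + -Ch.bd R K (capI C R c)) := by abel
  rw [h6, h5, sub_zero]

variable (R) in
/-- cap product with `kap` on normalised chains -/
def capN : N R K →ₗ[R] N R K := Submodule.mapQ _ _ (capI C R) (fun _ hc => capI_mem_Dg C hc)

theorem capN_mk (c : Ch R K) :
    capN C R (Submodule.Quotient.mk c) = Submodule.Quotient.mk (capI C R c) := rfl

theorem capN_sx_zero (y : K.S 0) : capN C R (N.sx R y) = 0 := by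
  rw [N.sx, capN_mk, capI_single_zero]; rfl

theorem capN_sx_succ {n : ℕ} (y : K.S (n + 1)) :
    capN C R (N.sx R y) = (kap C (K.act e01 y) : R) • N.sx R (K.act (Op.face 0) y) := by
  rw [N.sx, capN_mk, capI_single_succ]; rfl

theorem bd_capN (c : N R K) : N.bd R K (capN C R c) = -capN C R (N.bd R K c) := by
  obtain ⟨c, rfl⟩ := Submodule.Quotient.mk_surjective _ c
  rw [capN_mk, N.bd_mk, N.bd_mk, capN_mk, bd_capI]
  rfl

theorem capN_mem_gr {n : ℕ} {c : N R K} (hc : c ∈ N.gr R K (n + 1)) :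
    capN C R c ∈ N.gr R K n := by
  obtain ⟨c, hc, rfl⟩ := hc
  exact ⟨_, capI_mem_gr C hc, rfl⟩

/-- representative of the connecting map -/
theorem exists_dlt_rep (z : N R K) (hz : N.bd R K z = 0) : ∃ (y : N R Kt) (hy : N.bd R Kt y = 0),
    dlt C R (Hd.mk _ z hz) = Hd.mk _ y hy ∧ N.map R C.p y = -capN C R z := by
  obtain ⟨c, rfl⟩ := Submodule.Quotient.mk_surjective _ z
  obtain ⟨b, hb, e⟩ := bd_secL C c
  have hz' : Ch.bd R K c ∈ Ch.Dg R K := (Submodule.Quotient.mk_eq_zero _).1 hz
  have key : omN C R (Submodule.Quotient.mk b) =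
      N.bd R Kt (Submodule.Quotient.mk (secL R (lift C) c)) := by
    rw [omN_mk, N.bd_mk, hb]
    rw [Submodule.Quotient.eq]
    have : om C R b - (secL R (lift C) (Ch.bd R K c) + om C R b) =
        -secL R (lift C) (Ch.bd R K c) := by abel
    rw [this]
    exact Submodule.neg_mem _ (secL_mem_Dg C _ (p_lift C) hz')
  have hy : N.bd R Kt (Submodule.Quotient.mk b) = 0 := by
    apply omN_injective C
    have := LinearMap.congr_fun (omN_bd C (R := R)) (Submodule.Quotient.mk b)
    simp only [LinearMap.comp_apply] at this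
    rw [this, key, N.bd_bd, map_zero]
  have hp : N.map R C.p (Submodule.Quotient.mk (secL R (lift C) c)) = Submodule.Quotient.mk c := by
    rw [N.map_mk, p_secL C _ (p_lift C)]
  refine ⟨Submodule.Quotient.mk b, hy, ?_, ?_⟩
  · have h := dlt_mk C (Submodule.Quotient.mk (secL R (lift C) c)) (Submodule.Quotient.mk b)
      (by rw [hp]; exact hz) hy key
    rw [← h]
    congr 1
    rw [Hd.mk_eq_mk]
    exact ⟨0, by rw [map_zero, hp, sub_self]⟩
  · rw [N.map_mk, e]
    rfl

theorem p_dlt_mk (z : N R K) (hz : N.bd R K z = 0) (hz' : N.bd R K (capN C R z) = 0) :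
    H.map R C.p (dlt C R (Hd.mk _ z hz)) = -Hd.mk _ (capN C R z) hz' := by
  obtain ⟨y, hy, e, e'⟩ := exists_dlt_rep C z hz
  rw [e]
  have hyp : N.bd R K (N.map R C.p y) = 0 := by rw [e', map_neg, hz', neg_zero]
  have h1 : H.map R C.p (Hd.mk _ y hy) = Hd.mk _ (N.map R C.p y) hyp := rfl
  have h2 : -Hd.mk (N.bd R K) (capN C R z) hz' =
      Hd.mk (N.bd R K) (-capN C R z) (by rw [map_neg, hz', neg_zero]) := rfl
  rw [h1, h2, Hd.mk_eq_mk]
  exact ⟨0, by rw [map_zero, e', sub_self]⟩

end chains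

/-! ## mod 2 -/

/-- cap product with the mod 2 class of `kap` on homology -/
def capH : H F2 K →ₗ[F2] H F2 K := Hd.map (capN C F2) (by
  ext c
  simp only [LinearMap.comp_apply, Submodule.mkQ_apply]
  rw [bd_capN]
  exact (ZModModule.neg_eq_self _).symm)

theorem capH_mk (z : N F2 K) (hz : N.bd F2 K z = 0) (hz' : N.bd F2 K (capN C F2 z) = 0) :
    capH C (Hd.mk _ z hz) = Hd.mk _ (capN C F2 z) hz' := rfl

theorem p_dlt (x : H F2 K) : H.map F2 C.p (dlt C F2 x) = capH C x := by
  obtain ⟨z, hz, rfl⟩ := Hd.mk_surj _ x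
  have hz' : N.bd F2 K (capN C F2 z) = 0 := by rw [bd_capN, hz, map_zero, neg_zero]
  rw [p_dlt_mk C z hz hz', capH_mk C z hz hz']
  exact ZModModule.neg_eq_self _

theorem capH_mem {n : ℕ} {x : H F2 K} (hx : x ∈ H.gr F2 K (n + 1)) : capH C x ∈ H.gr F2 K n := by
  obtain ⟨z, hz, hz', rfl⟩ := HA498.mem_grHd.1 hx
  have h2 : N.bd F2 K (capN C F2 z) = 0 := by rw [bd_capN, hz', map_zero, neg_zero]
  rw [capH_mk C z hz' h2]
  exact HA498.mk_mem_grHd (capN_mem_gr C hz) h2

/-! ## the case `g_* = 1` -/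

section triv
variable {R : Type} [CommRing R] (hg : ∀ x : H R Kt, H.map R C.g x = x)
include hg

theorem p_inj : Injective (H.map R C.p) := by
  rw [injective_iff_map_eq_zero]
  intro x hx
  obtain ⟨y, hy⟩ := (exact_om_p C x).1 hx
  rw [← hy]
  change y - H.map R C.g y = 0
  rw [hg, sub_self]

theorem dlt_surj : Surjective (dlt C R) := by
  intro x
  refine (exact_dlt_om C x).1 ?_
  change x - H.map R C.g x = 0
  rw [hg, sub_self]

theorem mem_range_p_iff (y : H R K) : (∃ x, H.map R C.p x = y) ↔ H.map R C.p (dlt C R y) = 0 := by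
  constructor
  · rintro ⟨x, rfl⟩
    rw [(exact_p_dlt C _).2 ⟨x, rfl⟩, map_zero]
  · intro h
    refine (exact_p_dlt C y).1 ?_
    exact p_inj C hg (by rw [h, map_zero])

theorem mem_range_p_iff' (y : H R K) :
    (∃ x, H.map R C.p x = y) ↔ ∃ w, H.map R C.p (dlt C R w) = y := by
  constructor
  · rintro ⟨x, rfl⟩
    obtain ⟨w, rfl⟩ := dlt_surj C hg x
    exact ⟨w, rfl⟩
  · rintro ⟨w, rfl⟩
    exact ⟨_, rfl⟩

end triv

/-- mod 2 summary: `p_*` is injective and its image is both the kernel and the image of the cap product -/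
theorem summary (hg : ∀ x : H F2 Kt, H.map F2 C.g x = x) :
    Injective (H.map F2 C.p) ∧ (∀ y, (∃ x, H.map F2 C.p x = y) ↔ capH C y = 0) ∧
      (∀ y, (∃ x, H.map F2 C.p x = y) ↔ ∃ w, capH C w = y) := by
  refine ⟨p_inj C hg, fun y => ?_, fun y => ?_⟩
  · rw [mem_range_p_iff C hg, p_dlt]
  · rw [mem_range_p_iff' C hg]
    simp only [p_dlt]

end

end Crest.Agent.R204.Wang905
end
private theorem rz_2ae2ac4cab : type_of% @_root_.Crest.Agent.R204.Wang905.capT.eq_1 := @_root_.Crest.Agent.R204.Wang905.capT.eq_1 -- L155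
end

-- ▼ part R204/Wang3_905
section

/-!
# Row 204, leaf B5: the cap product with a degree 1 class is a derivation (helper905)

* `Coc1 K` : normalised 1-cocycles mod 2, `Coc1.pull`
* `capL c : N F2 K →ₗ N F2 K`, `capG c : H F2 K →ₗ H F2 K`, naturality
* `capL_cross : capL (c.pull fst) (cross a b) = cross (capL c a) b` (strict)
* `cop_capG : cop (capG c x) = (capG c ⊗ id) (cop x)`, `capG_eq : capG c x = lid ((u ⊗ id) (cop x))`
* `capG_mul` : derivation of the Pontryagin product, `capG_prim`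
* `capH C = capG (kapCoc C)`
-/

set_option autoImplicit false

noncomputable section

open Finsupp Function TensorProduct

namespace Crest.Agent.R204.Wang905

open EZ271 (Cone liftN hom_ext N_induction cross stdMap Op.cons Op.star)
open Coalg847 (EZData eps)

/-- normalised 1-cocycles mod 2 -/
structure Coc1 (K : SS) where
  l : K.S 1 → F2
  dgn : ∀ (v : K.S 0) (f : Op 1 0), l (K.act f v) = 0
  coc : ∀ x : K.S 2, l (K.act (Op.face 1) x) = l (K.act (Op.face 2) x) + l (K.act (Op.face 0) x)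

namespace Coc1

/-- pullback -/
def pull {K L : SS} (c : Coc1 L) (f : SS.Hom K L) : Coc1 K where
  l e := c.l (f.app 1 e)
  dgn v g := by rw [f.nat, c.dgn]
  coc x := by rw [f.nat, f.nat, f.nat, c.coc]

end Coc1

variable {K L : SS}

/-- front edge of a degenerate simplex -/
theorem e01_dgn_zero {n : ℕ} : (Op.dgn (0 : Fin (n + 1))).comp (e01 : Op 1 (n + 1)) =
    (vtx (0 : Fin (n + 1))).comp (⟨fun _ => 0, fun _ _ _ => le_rfl⟩ : Op 1 0) := by
  refine OrderHom.ext _ _ (funext fun a => Fin.ext ?_)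
  simp only [OrderHom.comp_coe, Function.comp_apply, Ch.dgn_val, e01_val, vtx_val, Fin.val_zero]
  have ha : (a : ℕ) = 0 ∨ (a : ℕ) = 1 := by omega
  rcases ha with ha | ha <;> simp [ha]

theorem face_zero_dgn_succ {n : ℕ} (j : Fin (n + 1)) :
    (Op.dgn j.succ).comp (Op.face 0) = (Op.face 0).comp (Op.dgn j) := EZ271.dgn_succ_face_zero j

/-- values of the cap product on simplices -/
def capF (c : Coc1 K) : ∀ n : ℕ, K.S n → N F2 K
  | 0, _ => 0
  | _ + 1, x => c.l (K.act e01 x) • N.sx F2 (K.act (Op.face 0) x)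

theorem capF_succ (c : Coc1 K) (n : ℕ) (x : K.S (n + 1)) :
    capF c (n + 1) x = c.l (K.act e01 x) • N.sx F2 (K.act (Op.face 0) x) := rfl

theorem capF_dgn (c : Coc1 K) (n : ℕ) (j : Fin (n + 1)) (y : K.S n) :
    capF c (n + 1) (K.act (Op.dgn j) y) = 0 := by
  rw [capF_succ]
  induction j using Fin.cases with
  | zero =>
    rw [← K.act_comp e01, e01_dgn_zero, K.act_comp, c.dgn, zero_smul]
  | succ j =>
    rcases n with _ | n
    · exact j.elim0
    · rw [← K.act_comp (Op.face 0), face_zero_dgn_succ, K.act_comp, N.sx_dgn, smul_zero]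

/-- cap product with a 1-cocycle on normalised chains -/
def capL (c : Coc1 K) : N F2 K →ₗ[F2] N F2 K := liftN (capF c) (capF_dgn c)

theorem capL_sx_zero (c : Coc1 K) (x : K.S 0) : capL c (N.sx F2 x) = 0 := by
  rw [capL, EZ271.liftN_sx, capF]

theorem capL_sx_succ (c : Coc1 K) {n : ℕ} (x : K.S (n + 1)) :
    capL c (N.sx F2 x) = c.l (K.act e01 x) • N.sx F2 (K.act (Op.face 0) x) := by
  rw [capL, EZ271.liftN_sx, capF]

theorem capL_map (c : Coc1 L) (f : SS.Hom K L) (z : N F2 K) :
    capL c (N.map F2 f z) = N.map F2 f (capL (c.pull f) z) := by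
  have : capL c ∘ₗ N.map F2 f = N.map F2 f ∘ₗ capL (c.pull f) := by
    refine hom_ext fun n x => ?_
    rcases n with _ | n
    · simp only [LinearMap.comp_apply, N.map_sx, capL_sx_zero, map_zero]
    · simp only [LinearMap.comp_apply, N.map_sx, capL_sx_succ, map_smul, Coc1.pull, f.nat]
  exact LinearMap.congr_fun this z

/-- front 2-simplex operator -/
def e012 {n : ℕ} : Op 2 (n + 2) := ⟨fun i => Fin.castLE (by omega) i, fun _ _ h => h⟩

theorem e012_val {n : ℕ} (a : Fin 3) : (((e012 : Op 2 (n + 2)) a : Fin (n + 3)) : ℕ) = a := rfl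

theorem fv_lt {n : ℕ} {i : Fin (n + 2)} {a : Fin (n + 1)} (h : (a : ℕ) < i) :
    ((Op.face i a : Fin (n + 2)) : ℕ) = a := by rw [Ch.face_val, if_pos h]

theorem fv_ge {n : ℕ} {i : Fin (n + 2)} {a : Fin (n + 1)} (h : (i : ℕ) ≤ a) :
    ((Op.face i a : Fin (n + 2)) : ℕ) = a + 1 := by rw [Ch.face_val, if_neg (by omega)]

theorem e012_face_zero {n : ℕ} : (e012 : Op 2 (n + 2)).comp (Op.face 0) = (Op.face 0).comp e01 := by
  refine OrderHom.ext _ _ (funext fun a => Fin.ext ?_)
  rw [OrderHom.comp_coe, Function.comp_apply, OrderHom.comp_coe, Function.comp_apply, e012_val,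
    fv_ge (Nat.zero_le _), fv_ge (Nat.zero_le _), e01_val]

theorem e012_face_one {n : ℕ} : (e012 : Op 2 (n + 2)).comp (Op.face 1) = (Op.face 1).comp e01 := by
  refine OrderHom.ext _ _ (funext fun a => Fin.ext ?_)
  rw [OrderHom.comp_coe, Function.comp_apply, OrderHom.comp_coe, Function.comp_apply, e012_val]
  have ha : (a : ℕ) = 0 ∨ (a : ℕ) = 1 := by omega
  rcases ha with ha | ha
  · rw [fv_lt (by rw [ha]; exact Nat.zero_lt_one), fv_lt (by rw [e01_val, ha]; exact Nat.zero_lt_one),
      e01_val]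
  · rw [fv_ge (by rw [ha]; exact le_rfl), fv_ge (by rw [e01_val, ha]; exact le_rfl), e01_val]

theorem e012_face_two {n : ℕ} : (e012 : Op 2 (n + 2)).comp (Op.face 2) = e01 := by
  refine OrderHom.ext _ _ (funext fun a => Fin.ext ?_)
  rw [OrderHom.comp_coe, Function.comp_apply, e012_val, e01_val]
  exact fv_lt (show (a : ℕ) < 2 from a.2)

theorem face_succ_succ_e01 {n : ℕ} (i : Fin (n + 1)) :
    (Op.face i.succ.succ : Op (n + 1) (n + 2)).comp e01 = e01 := by
  refine OrderHom.ext _ _ (funext fun a => Fin.ext ?_)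
  rw [OrderHom.comp_coe, Function.comp_apply, fv_lt, e01_val, e01_val]
  rw [e01_val, Fin.val_succ, Fin.val_succ]
  have : (a : ℕ) < 2 := a.2
  omega

theorem face_face_zero {n : ℕ} (i : Fin (n + 2)) :
    (Op.face i.succ : Op (n + 1) (n + 2)).comp (Op.face 0) = (Op.face 0).comp (Op.face i) := by
  refine OrderHom.ext _ _ (funext fun a => Fin.ext ?_)
  rw [OrderHom.comp_coe, Function.comp_apply, OrderHom.comp_coe, Function.comp_apply,
    fv_ge (i := (0 : Fin (n + 3))) (Nat.zero_le _)]
  have h0 : ((Op.face (0 : Fin (n + 2)) a : Fin (n + 2)) : ℕ) = a + 1 := fv_ge (Nat.zero_le _)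
  by_cases h : (a : ℕ) < i
  · rw [fv_lt (by rw [h0, Fin.val_succ]; omega), h0, fv_lt h]
  · rw [fv_ge (by rw [h0, Fin.val_succ]; omega), h0, fv_ge (by omega)]

/-- `capL c` commutes with the boundary (mod 2) -/
theorem bd_capL (c : Coc1 K) (z : N F2 K) : N.bd F2 K (capL c z) = capL c (N.bd F2 K z) := by
  have : N.bd F2 K ∘ₗ capL c = capL c ∘ₗ N.bd F2 K := by
    refine hom_ext fun n x => ?_
    simp only [LinearMap.comp_apply]
    have h2 : ∀ (i : ℕ) (m : ℕ) (y : K.S m), ((-1 : F2) ^ i) • N.sx F2 y = N.sx F2 y := by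
      intro i m y
      have : (-1 : F2) = 1 := by decide
      rw [this, one_pow, one_smul]
    rcases n with _ | _ | n
    · rw [capL_sx_zero, map_zero, EZ271.bd_sx_zero, map_zero]
    · rw [capL_sx_succ, map_smul, EZ271.bd_sx_zero, EZ271.bd_sx_succ, smul_zero, map_sum]
      symm
      refine Finset.sum_eq_zero fun i _ => ?_
      rw [h2, capL_sx_zero]
    · rw [capL_sx_succ, map_smul, EZ271.bd_sx_succ, EZ271.bd_sx_succ, map_sum]
      simp only [h2, capL_sx_succ]
      rw [Fin.sum_univ_succ, Fin.sum_univ_succ (n := n + 2), Fin.sum_univ_succ (n := n + 1)]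
      have hc := c.coc (K.act e012 x)
      rw [← K.act_comp, ← K.act_comp, ← K.act_comp, e012_face_zero, e012_face_one,
        e012_face_two] at hc
      have e1 : K.act (Op.face 0) (K.act (Op.face (Fin.succ (0 : Fin (n + 2)))) x) =
          K.act (Op.face 0) (K.act (Op.face 0) x) := by
        rw [← K.act_comp, face_face_zero, K.act_comp]
      have e2 : ∀ i : Fin (n + 1), c.l (K.act e01 (K.act (Op.face i.succ.succ) x)) •
          N.sx F2 (K.act (Op.face 0) (K.act (Op.face i.succ.succ) x)) =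
          c.l (K.act e01 x) • N.sx F2 (K.act (Op.face i.succ) (K.act (Op.face 0) x)) := by
        intro i
        rw [← K.act_comp e01, face_succ_succ_e01, ← K.act_comp (Op.face 0), face_face_zero,
          K.act_comp]
      have e3 : c.l (K.act e01 (K.act (Op.face (Fin.succ (0 : Fin (n + 2)))) x)) =
          c.l (K.act e01 x) + c.l (K.act e01 (K.act (Op.face 0) x)) := by
        rw [← K.act_comp e01, ← K.act_comp e01]
        exact hc
      rw [Finset.sum_congr rfl fun i _ => e2 i, e1, e3, smul_add, ← Finset.smul_sum, add_smul]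
      generalize c.l (K.act e01 (K.act (Op.face 0) x)) • N.sx F2
        (K.act (Op.face 0) (K.act (Op.face 0) x)) = t
      generalize c.l (K.act e01 x) • N.sx F2
        (K.act (Op.face 0) (K.act (Op.face 0) x)) = s
      have ht : t + t = 0 := ZModModule.add_self t
      rw [← add_assoc, add_comm s t, ← add_assoc, ht, zero_add]
  exact LinearMap.congr_fun this z

theorem capL_mem_gr (c : Coc1 K) {n : ℕ} {z : N F2 K} (hz : z ∈ N.gr F2 K (n + 1)) :
    capL c z ∈ N.gr F2 K n := by
  refine Gr334.gr_induction (p := fun z => capL c z ∈ N.gr F2 K n) hz ?_ ?_ ?_ ?_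
  · rw [map_zero]; exact Submodule.zero_mem _
  · intro a b ha hb; rw [map_add]; exact Submodule.add_mem _ ha hb
  · intro r a ha; rw [map_smul]; exact Submodule.smul_mem _ _ ha
  · intro x; rw [capL_sx_succ]; exact Submodule.smul_mem _ _ (Gr334.sx_mem_gr _)

theorem capL_gr_zero (c : Coc1 K) {z : N F2 K} (hz : z ∈ N.gr F2 K 0) : capL c z = 0 := by
  refine Gr334.gr_induction (p := fun z => capL c z = 0) hz ?_ ?_ ?_ ?_
  · rw [map_zero]
  · intro a b ha hb; rw [map_add, ha, hb, add_zero]
  · intro r a ha; rw [map_smul, ha, smul_zero]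
  · intro x; rw [capL_sx_zero]

/-! ## cones and the cross product -/

/-- chains all of whose simplices start at the vertex `v` -/
def startAt (v : K.S 0) : Submodule F2 (N F2 K) :=
  Submodule.span F2 {z | ∃ (n : ℕ) (y : K.S n), K.act (vtx 0) y = v ∧ z = N.sx F2 y}

theorem star_vtx {n : ℕ} : Op.star (vtx 0 : Op 0 n) = (e01 : Op 1 (n + 1)) := by
  refine OrderHom.ext _ _ (funext fun a => ?_)
  induction a using Fin.cases with
  | zero => rfl
  | succ a =>
    have ha : a = 0 := Fin.ext (by omega)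
    subst ha
    rfl

theorem capL_cone (c : Coc1 K) (A : Cone K) {v : K.S 0} {z : N F2 K} (hz : z ∈ startAt v) :
    capL c (A.c F2 z) = c.l (A.k v) • z := by
  refine Submodule.span_induction (p := fun z _ => capL c (A.c F2 z) = c.l (A.k v) • z)
    ?_ ?_ ?_ ?_ hz
  · rintro _ ⟨n, y, hy, rfl⟩
    rw [Cone.c_sx, capL_sx_succ, A.h_face, ← star_vtx, ← A.h_star, hy]
  · simp
  · intro a b _ _ ha hb; rw [map_add, map_add, ha, hb, smul_add]
  · intro r a _ ha; rw [map_smul, map_smul, ha, smul_comm]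

theorem map_startAt (f : SS.Hom K L) {v : K.S 0} {z : N F2 K} (hz : z ∈ startAt v) :
    N.map F2 f z ∈ startAt (f.app 0 v) := by
  refine Submodule.span_induction (p := fun z _ => N.map F2 f z ∈ startAt (f.app 0 v))
    ?_ ?_ ?_ ?_ hz
  · rintro _ ⟨n, y, hy, rfl⟩
    rw [N.map_sx]
    exact Submodule.subset_span ⟨n, _, by rw [← f.nat, hy], rfl⟩
  · rw [map_zero]; exact Submodule.zero_mem _
  · intro a b _ _ ha hb; rw [map_add]; exact Submodule.add_mem _ ha hb
  · intro r a _ ha; rw [map_smul]; exact Submodule.smul_mem _ _ ha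

theorem cone_startAt (A : Cone K) (z : N F2 K) : A.c F2 z ∈ startAt A.bot := by
  refine N_induction (p := fun z => A.c F2 z ∈ startAt A.bot) z ?_ ?_ ?_ ?_
  · rw [map_zero]; exact Submodule.zero_mem _
  · intro a b ha hb; rw [map_add]; exact Submodule.add_mem _ ha hb
  · intro r a ha; rw [map_smul]; exact Submodule.smul_mem _ _ ha
  · intro n y
    rw [Cone.c_sx]
    exact Submodule.subset_span ⟨n + 1, _, A.h_vert _ _ rfl, rfl⟩

theorem E_startAt (p q : ℕ) : EZ271.E F2 p q ∈ startAt (EZ271.Cpq p q).bot := by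
  rcases p with _ | p <;> rcases q with _ | q
  · rw [EZ271.E_zero_zero]
    exact Submodule.subset_span ⟨0, _, by rw [vtx_id, SS.act_id], rfl⟩
  · rw [EZ271.E_zero_succ]; exact cone_startAt _ _
  · rw [EZ271.E_succ_zero]; exact cone_startAt _ _
  · rw [EZ271.E_succ_succ]; exact cone_startAt _ _

theorem capL_E_succ (p q : ℕ) (c : Coc1 (SS.std (p + 1))) :
    capL (c.pull (SS.fst _ _)) (EZ271.E F2 (p + 1) q) =
      c.l (e01 : Op 1 (p + 1)) • N.map F2 (SS.prodMap (stdMap (Op.face 0)) (SS.Hom.id _))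
        (EZ271.E F2 p q) := by
  have h1 : ∀ q : ℕ, (c.pull (SS.fst _ _)).l ((EZ271.Cpq (p + 1) q).k
      ((SS.prodMap (stdMap (Op.face 0)) (SS.Hom.id _)).app 0 (EZ271.Cpq p q).bot)) =
      c.l (e01 : Op 1 (p + 1)) := fun q => by
    show c.l (Op.star (vtx 0 : Op 0 p)) = _
    rw [star_vtx]
  rcases q with _ | q
  · rw [EZ271.E_succ_zero, capL_cone _ _ (map_startAt _ (E_startAt p 0)), h1]
  · have h2 : (c.pull (SS.fst _ _)).l ((EZ271.Cpq (p + 1) (q + 1)).k
        ((SS.prodMap (SS.Hom.id _) (stdMap (Op.face 0))).app 0 (EZ271.Cpq (p + 1) q).bot)) = 0 := by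
      show c.l ((Cone.std (p + 1)).k (Cone.std (p + 1)).bot) = 0
      rw [(Cone.std (p + 1)).h_bot, c.dgn]
    rw [EZ271.E_succ_succ, map_add, map_smul, map_add, map_smul,
      capL_cone _ _ (map_startAt _ (E_startAt p (q + 1))), h1,
      capL_cone _ _ (map_startAt _ (E_startAt (p + 1) q)), h2, zero_smul, smul_zero, add_zero]

theorem capL_E_zero (q : ℕ) (c : Coc1 (SS.std 0)) :
    capL (c.pull (SS.fst _ _)) (EZ271.E F2 0 q) = 0 := by
  rcases q with _ | q
  · rw [EZ271.E_zero_zero, capL_sx_zero]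
  · have h2 : (c.pull (SS.fst _ _)).l ((EZ271.Cpq 0 (q + 1)).k
        ((SS.prodMap (SS.Hom.id _) (stdMap (Op.face 0))).app 0 (EZ271.Cpq 0 q).bot)) = 0 := by
      show c.l ((Cone.std 0).k (Cone.std 0).bot) = 0
      rw [(Cone.std 0).h_bot, c.dgn]
    rw [EZ271.E_zero_succ, capL_cone _ _ (map_startAt _ (E_startAt 0 q)), h2, zero_smul]

/-- **the cap product with a class from the first factor, on a cross product** -/
theorem capL_cross (c : Coc1 K) (a : N F2 K) (b : N F2 L) :
    capL (c.pull (SS.fst K L)) (cross F2 a b) = cross F2 (capL c a) b := by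
  have : (cross F2 (K := K) (L := L)).compr₂ (capL (c.pull (SS.fst K L))) =
      (cross F2).comp (capL c) := by
    refine EZ271.bilin_ext F2 fun p x q y => ?_
    simp only [LinearMap.compr₂_apply, LinearMap.comp_apply]
    rw [EZ271.cross_sx, capL_map]
    have e : (c.pull (SS.fst K L)).pull (SS.prodMap (K.yo x) (L.yo y)) =
      (c.pull (K.yo x)).pull (SS.fst _ _) := rfl
    rw [e]
    rcases p with _ | p
    · rw [capL_E_zero, capL_sx_zero, map_zero, map_zero, LinearMap.zero_apply]
    · rw [capL_E_succ, capL_sx_succ, map_smul, map_smul, LinearMap.smul_apply, EZ271.cross_sx,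
        EZ271.map_map, EZ271.prodMap_comp, ← EZ271.yo_act]
      rfl
  exact LinearMap.congr_fun₂ this a b

/-! ## homology -/

/-- cap product with a 1-cocycle on homology -/
def capG (c : Coc1 K) : H F2 K →ₗ[F2] H F2 K := Hd.map (capL c) (by
  ext z
  simp only [LinearMap.comp_apply, Submodule.mkQ_apply]
  rw [bd_capL])

theorem capL_cyc (c : Coc1 K) {z : N F2 K} (hz : N.bd F2 K z = 0) : N.bd F2 K (capL c z) = 0 := by
  rw [bd_capL, hz, map_zero]

theorem capG_mk (c : Coc1 K) (z : N F2 K) (hz : N.bd F2 K z = 0) :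
    capG c (Hd.mk _ z hz) = Hd.mk _ (capL c z) (capL_cyc c hz) := rfl

theorem capG_map (c : Coc1 L) (f : SS.Hom K L) (x : H F2 K) :
    capG c (H.map F2 f x) = H.map F2 f (capG (c.pull f) x) := by
  obtain ⟨z, hz, rfl⟩ := Hd.mk_surj _ x
  simp only [Coalg847.hMap_mk, capG_mk, capL_map]

theorem capG_mem_gr (c : Coc1 K) {n : ℕ} {x : H F2 K} (hx : x ∈ H.gr F2 K (n + 1)) :
    capG c x ∈ H.gr F2 K n := by
  obtain ⟨z, hz, hz', rfl⟩ := Coalg847.mem_gr_iff.1 hx
  rw [capG_mk]
  exact Coalg847.mk_mem_gr _ (capL_mem_gr c hz')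

theorem capG_gr_zero (c : Coc1 K) {x : H F2 K} (hx : x ∈ H.gr F2 K 0) : capG c x = 0 := by
  obtain ⟨z, hz, hz', rfl⟩ := Coalg847.mem_gr_iff.1 hx
  rw [capG_mk, Hd.mk_eq_zero]
  exact ⟨0, by rw [map_zero, capL_gr_zero c hz']⟩

theorem capG_cr (E : EZData) (hE : ∀ (K L : SS) (x : N F2 K) (y : N F2 L),
    E.ez K L x y = cross F2 x y) (c : Coc1 K) (x : H F2 K) (y : H F2 L) :
    capG (c.pull (SS.fst K L)) (E.cr K L (x ⊗ₜ y)) = E.cr K L (capG c x ⊗ₜ y) := by
  obtain ⟨z, hz, rfl⟩ := Hd.mk_surj _ x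
  obtain ⟨w, hw, rfl⟩ := Hd.mk_surj _ y
  simp only [EZData.cr_mk, capG_mk, hE, capL_cross]

section cop
variable (E : EZData) (hE : ∀ (K L : SS) (x : N F2 K) (y : N F2 L), E.ez K L x y = cross F2 x y)

include hE in
theorem capG_cr' (c : Coc1 K) (t : H F2 K ⊗[F2] H F2 L) :
    capG (c.pull (SS.fst K L)) (E.cr K L t) =
      E.cr K L (TensorProduct.map (capG c) LinearMap.id t) := by
  induction t with
  | zero => simp
  | add a b ha hb => simp only [map_add, ha, hb]
  | tmul a b => rw [capG_cr E hE, TensorProduct.map_tmul, LinearMap.id_apply]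

include hE in
/-- the cap product is a coderivation-like map: `Δ ∘ cap = (cap ⊗ id) ∘ Δ` -/
theorem cop_capG (c : Coc1 K) (x : H F2 K) :
    E.cop K (capG c x) = TensorProduct.map (capG c) LinearMap.id (E.cop K x) := by
  apply (E.cr K K).injective
  rw [EZData.cr_cop, ← capG_cr' E hE, EZData.cr_cop, capG_map]
  rfl

/-- evaluation of the degree 1 class -/
def uu (c : Coc1 K) : H F2 K →ₗ[F2] F2 := eps K ∘ₗ capG c

theorem uu_apply (c : Coc1 K) (x : H F2 K) : uu c x = eps K (capG c x) := rfl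

theorem uu_gr_zero (c : Coc1 K) {x : H F2 K} (hx : x ∈ H.gr F2 K 0) : uu c x = 0 := by
  rw [uu_apply, capG_gr_zero c hx, map_zero]

theorem uu_gr (c : Coc1 K) {n : ℕ} (hn : n ≠ 1) {x : H F2 K} (hx : x ∈ H.gr F2 K n) :
    uu c x = 0 := by
  rcases n with _ | _ | n
  · exact uu_gr_zero c hx
  · exact absurd rfl hn
  · rw [uu_apply]
    exact Coalg847.eps_gr (Nat.succ_ne_zero n) (capG_mem_gr c hx)

include hE in
/-- **cap product as a slant of the coproduct** -/
theorem capG_eq (c : Coc1 K) (x : H F2 K) :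
    capG c x = TensorProduct.lid F2 _ (TensorProduct.map (uu c) LinearMap.id (E.cop K x)) := by
  conv_lhs => rw [← E.eps_cop (capG c x), cop_capG E hE]
  congr 1
  generalize E.cop K x = t
  induction t with
  | zero => simp
  | add a b ha hb => simp only [map_add, ha, hb]
  | tmul a b => rfl

include hE in
/-- primitive elements -/
theorem capG_prim (c : Coc1 K) {v : K.S 0} {x : H F2 K}
    (hx : E.cop K x = x ⊗ₜ Coalg847.vtx v + Coalg847.vtx v ⊗ₜ x) :
    capG c x = uu c x • Coalg847.vtx v := by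
  rw [capG_eq E hE, hx]
  simp only [map_add, TensorProduct.map_tmul, TensorProduct.lid_tmul, LinearMap.id_apply,
    uu_gr_zero c (Coalg847.vtx_mem_gr v), zero_smul, add_zero]

include hE in
theorem capG_prim_zero (c : Coc1 K) {v : K.S 0} {x : H F2 K}
    (hx : E.cop K x = x ⊗ₜ Coalg847.vtx v + Coalg847.vtx v ⊗ₜ x) {n : ℕ} (hn : n ≠ 1)
    (hg : x ∈ H.gr F2 K n) : capG c x = 0 := by
  rw [capG_prim E hE c hx, uu_gr c hn hg, zero_smul]

/-! ## the product -/

variable (μ : SS.Hom (K.prod K) K)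

/-- Pontryagin product (raw form) -/
def pmul (x y : H F2 K) : H F2 K := H.map F2 μ (E.cr K K (x ⊗ₜ y))

theorem pmul_add_left (x x' y : H F2 K) : pmul E μ (x + x') y = pmul E μ x y + pmul E μ x' y := by
  simp only [pmul, TensorProduct.add_tmul, map_add]

theorem pmul_add_right (x y y' : H F2 K) : pmul E μ x (y + y') = pmul E μ x y + pmul E μ x y' := by
  simp only [pmul, TensorProduct.tmul_add, map_add]

theorem pmul_smul_left (r : F2) (x y : H F2 K) : pmul E μ (r • x) y = r • pmul E μ x y := by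
  simp only [pmul, ← TensorProduct.smul_tmul', map_smul]

theorem pmul_smul_right (r : F2) (x y : H F2 K) : pmul E μ x (r • y) = r • pmul E μ x y := by
  simp only [pmul, TensorProduct.tmul_smul, map_smul]

theorem pmul_mem_gr {m n : ℕ} {x y : H F2 K} (hx : x ∈ H.gr F2 K m) (hy : y ∈ H.gr F2 K n) :
    pmul E μ x y ∈ H.gr F2 K (m + n) := Coalg847.hMap_mem_gr _ (E.cr_mem_gr hx hy)

theorem pmul_zero_left (y : H F2 K) : pmul E μ 0 y = 0 := by
  simp [pmul]

theorem pmul_zero_right (x : H F2 K) : pmul E μ x 0 = 0 := by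
  simp [pmul]

/-- homogeneous induction on homology classes -/
theorem H_induction {p : H F2 K → Prop} (x : H F2 K) (h0 : p 0)
    (hadd : ∀ a b, p a → p b → p (a + b)) (hgr : ∀ n, ∀ a ∈ H.gr F2 K n, p a) : p x := by
  have hx : x ∈ ⨆ n, H.gr F2 K n := by
    rw [(Gr334.isInternal_H F2 K).submodule_iSup_eq_top]; trivial
  exact Submodule.iSup_induction _ (motive := p) hx (fun n a ha => hgr n a ha) h0 hadd

/-- the evaluation is a derivation over the augmentation -/
theorem uu_pmul (c : Coc1 K) {v : K.S 0} (hconn : ∀ x ∈ H.gr F2 K 0, x = eps K x • Coalg847.vtx v)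
    (hr : ∀ x, pmul E μ x (Coalg847.vtx v) = x) (hl : ∀ x, pmul E μ (Coalg847.vtx v) x = x)
    (x y : H F2 K) : uu c (pmul E μ x y) = uu c x * eps K y + eps K x * uu c y := by
  refine H_induction (p := fun x => uu c (pmul E μ x y) = uu c x * eps K y + eps K x * uu c y)
    x ?_ ?_ ?_
  · rw [pmul_zero_left]; simp
  · intro a b ha hb
    rw [pmul_add_left, map_add, ha, hb, map_add, map_add]; ring
  intro m x hx
  refine H_induction (p := fun y => uu c (pmul E μ x y) = uu c x * eps K y + eps K x * uu c y)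
    y ?_ ?_ ?_
  · rw [pmul_zero_right]; simp
  · intro a b ha hb
    rw [pmul_add_right, map_add, ha, hb, map_add, map_add]; ring
  intro n y hy
  by_cases h1 : m = 1 ∧ n = 0
  · obtain ⟨rfl, rfl⟩ := h1
    rw [Coalg847.eps_gr one_ne_zero hx, zero_mul, add_zero]
    conv_lhs => rw [hconn y hy, pmul_smul_right, hr, map_smul]
    rw [smul_eq_mul, mul_comm]
  by_cases h2 : m = 0 ∧ n = 1
  · obtain ⟨rfl, rfl⟩ := h2
    rw [Coalg847.eps_gr one_ne_zero hy, mul_zero, zero_add]
    conv_lhs => rw [hconn x hx, pmul_smul_left, hl, map_smul]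
    rw [smul_eq_mul]
  rw [uu_gr c (by omega) (pmul_mem_gr E μ hx hy)]
  have h3 : uu c x * eps K y = 0 := by
    by_cases hm : m = 1
    · rw [Coalg847.eps_gr (fun hn => h1 ⟨hm, hn⟩) hy, mul_zero]
    · rw [uu_gr c hm hx, zero_mul]
  have h4 : eps K x * uu c y = 0 := by
    by_cases hn : n = 1
    · rw [Coalg847.eps_gr (fun hm => h2 ⟨hm, hn⟩) hx, zero_mul]
    · rw [uu_gr c hn hy, mul_zero]
  rw [h3, h4, add_zero]

/-- coproduct of a product -/
theorem cop_pmul (x y : H F2 K) : E.cop K (pmul E μ x y) =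
    TensorProduct.map (H.map F2 μ ∘ₗ (E.cr K K).toLinearMap) (H.map F2 μ ∘ₗ (E.cr K K).toLinearMap)
      (TensorProduct.tensorTensorTensorComm F2 _ _ _ _ (E.cop K x ⊗ₜ E.cop K y)) := by
  rw [pmul, EZData.cop_nat, EZData.cop_cr, TensorProduct.map_comp]
  rfl

include hE in
/-- **(e) the cap product with a degree 1 class is a derivation of the Pontryagin product** -/
theorem capG_pmul (c : Coc1 K) {v : K.S 0}
    (hconn : ∀ x ∈ H.gr F2 K 0, x = eps K x • Coalg847.vtx v)
    (hr : ∀ x, pmul E μ x (Coalg847.vtx v) = x) (hl : ∀ x, pmul E μ (Coalg847.vtx v) x = x)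
    (x y : H F2 K) :
    capG c (pmul E μ x y) = pmul E μ (capG c x) y + pmul E μ x (capG c y) := by
  have key : ∀ s t : H F2 K ⊗[F2] H F2 K,
      TensorProduct.lid F2 _ (TensorProduct.map (uu c) LinearMap.id
        (TensorProduct.map (H.map F2 μ ∘ₗ (E.cr K K).toLinearMap)
          (H.map F2 μ ∘ₗ (E.cr K K).toLinearMap)
          (TensorProduct.tensorTensorTensorComm F2 _ _ _ _ (s ⊗ₜ t)))) =
      pmul E μ (TensorProduct.lid F2 _ (TensorProduct.map (uu c) LinearMap.id s))
          (TensorProduct.lid F2 _ (TensorProduct.map (eps K) LinearMap.id t)) +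
        pmul E μ (TensorProduct.lid F2 _ (TensorProduct.map (eps K) LinearMap.id s))
          (TensorProduct.lid F2 _ (TensorProduct.map (uu c) LinearMap.id t)) := by
    intro s t
    induction s with
    | zero => simp [pmul_zero_left]
    | add a b ha hb =>
      simp only [map_add, TensorProduct.add_tmul, ha, hb, pmul_add_left]
      abel
    | tmul a b =>
      induction t with
      | zero => simp [pmul_zero_right]
      | add c d hc hd =>
        simp only [map_add, TensorProduct.tmul_add, hc, hd, pmul_add_right]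
        abel
      | tmul a' b' =>
        have h := uu_pmul E μ c hconn hr hl a a'
        simp only [TensorProduct.tensorTensorTensorComm_tmul, TensorProduct.map_tmul,
          TensorProduct.lid_tmul, LinearMap.id_apply, LinearMap.comp_apply,
          LinearEquiv.coe_coe]
        change uu c (pmul E μ a a') • pmul E μ b b' = _
        rw [h, pmul_smul_left, pmul_smul_right, pmul_smul_left, pmul_smul_right, smul_smul,
          smul_smul, ← add_smul]
  rw [capG_eq E hE c (pmul E μ x y), cop_pmul, key, E.eps_cop, E.eps_cop, ← capG_eq E hE,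
    ← capG_eq E hE]

end cop

/-! ## back to the Wang sequence -/

section wang
open Cov892

variable {Kt : SS} (C : ZCov Kt K)

/-- the mod 2 cocycle of a `ℤ`-covering -/
def kapCoc : Coc1 K where
  l e := (kap C e : F2)
  dgn v f := by rw [kap_dgn]; simp
  coc x := by rw [kap_cocycle]; push_cast; ring

theorem capN_eq (z : N F2 K) : capN C F2 z = capL (kapCoc C) z := by
  have : capN C F2 = capL (kapCoc C) := by
    refine hom_ext fun n x => ?_
    rcases n with _ | n
    · rw [capN_sx_zero, capL_sx_zero]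
    · rw [capN_sx_succ, capL_sx_succ]; rfl
  rw [this]

theorem capH_eq (x : H F2 K) : capH C x = capG (kapCoc C) x := by
  obtain ⟨z, hz, rfl⟩ := Hd.mk_surj _ x
  have hz' : N.bd F2 K (capN C F2 z) = 0 := by rw [bd_capN, hz, map_zero, neg_zero]
  rw [capH_mk C z hz hz', capG_mk]
  simp only [capN_eq]

theorem capH_gr_zero {x : H F2 K} (hx : x ∈ H.gr F2 K 0) : capH C x = 0 := by
  rw [capH_eq, capG_gr_zero _ hx]

/-- the class of a vertex is a value of the cap product -/
theorem exists_capH_vtx (hg : ∀ x : H F2 Kt, H.map F2 C.g x = x) (v : K.S 0) :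
    ∃ w ∈ H.gr F2 K 1, capH C w = Coalg847.vtx v := by
  obtain ⟨t, ht⟩ := C.surj 0 v
  obtain ⟨w, hw⟩ := ((summary C hg).2.2 (Coalg847.vtx v)).1
    ⟨Coalg847.vtx t, by rw [Coalg847.hMap_vtx, ht]⟩
  have key : ∀ w : H F2 K, ∃ w' ∈ H.gr F2 K 1, Gr334.prH F2 K 0 (capH C w) = capH C w' := by
    intro w
    refine H_induction (p := fun w => ∃ w' ∈ H.gr F2 K 1, Gr334.prH F2 K 0 (capH C w) = capH C w')
      w ?_ ?_ ?_
    · exact ⟨0, Submodule.zero_mem _, by simp⟩
    · rintro a b ⟨a', ha', ha⟩ ⟨b', hb', hb⟩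
      exact ⟨a' + b', Submodule.add_mem _ ha' hb', by simp only [map_add, ha, hb]⟩
    · intro n a ha
      rcases n with _ | _ | n
      · exact ⟨0, Submodule.zero_mem _, by rw [capH_gr_zero C ha, map_zero, map_zero]⟩
      · exact ⟨a, ha, Gr334.prH_of_mem (capH_mem C ha)⟩
      · exact ⟨0, Submodule.zero_mem _, by
          rw [Gr334.prH_of_mem_ne (Nat.succ_ne_zero n) (capH_mem C ha), map_zero]⟩
  obtain ⟨w', hw', h⟩ := key w
  refine ⟨w', hw', ?_⟩
  rw [← h, hw, Gr334.prH_of_mem (Coalg847.vtx_mem_gr v)]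

/-- if `x₁` spans the degree 1 homology, its cap product with the class is the unit -/
theorem capH_x1 (hg : ∀ x : H F2 Kt, H.map F2 C.g x = x) (v : K.S 0) {x₁ : H F2 K}
    (hx : ∀ x ∈ H.gr F2 K 1, ∃ r : F2, x = r • x₁) : capH C x₁ = Coalg847.vtx v := by
  obtain ⟨w, hw, h⟩ := exists_capH_vtx C hg v
  obtain ⟨r, rfl⟩ := hx w hw
  have hr : r ≠ 0 := by
    rintro rfl
    rw [zero_smul, map_zero] at h
    have := congrArg (eps K) h
    rw [map_zero, Coalg847.eps_vtx] at this
    exact zero_ne_one this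
  have h1 : r = 1 := (by decide : ∀ r : F2, r ≠ 0 → r = 1) r hr
  rw [h1, one_smul] at h
  exact h

section cop
variable (E : EZData) (hE : ∀ (K L : SS) (x : N F2 K) (y : N F2 L), E.ez K L x y = cross F2 x y)
include hE

/-- the cap product kills primitives of degree `≠ 1` -/
theorem capH_prim {v : K.S 0} {x : H F2 K}
    (hx : E.cop K x = x ⊗ₜ Coalg847.vtx v + Coalg847.vtx v ⊗ₜ x) {n : ℕ} (hn : n ≠ 1)
    (hg : x ∈ H.gr F2 K n) : capH C x = 0 := by
  rw [capH_eq]
  exact capG_prim_zero E hE _ hx hn hg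

/-- the cap product is a derivation of the Pontryagin product -/
theorem capH_pmul (μ : SS.Hom (K.prod K) K) {v : K.S 0}
    (hconn : ∀ x ∈ H.gr F2 K 0, x = eps K x • Coalg847.vtx v)
    (hr : ∀ x, pmul E μ x (Coalg847.vtx v) = x) (hl : ∀ x, pmul E μ (Coalg847.vtx v) x = x)
    (x y : H F2 K) :
    capH C (pmul E μ x y) = pmul E μ (capH C x) y + pmul E μ x (capH C y) := by
  simp only [capH_eq]
  exact capG_pmul E hE μ _ hconn hr hl x y

end cop

end wang

end Crest.Agent.R204.Wang905
end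
private theorem rz_0a809cfa5f : type_of% @_root_.Crest.Agent.R204.Wang905.capF.eq_1 := @_root_.Crest.Agent.R204.Wang905.capF.eq_1 -- L58
end

-- ▼ part R204/CovAlg_808
section

/-!
# Row 204, leaf B5 (f): algebra of the k = 0 step, range version (helper808)

* products of distinct elements of the simple system `y^(2^b)` = monomials (binary digits):
  `prodS`, `unbits`, `bits`, `prodS_eq`, `wtS_eq`, `indep`, `span_prodS`;
* a derivation `D` with `D x_1 = 1`, `D y = 0` on the other generators: in the range its kernel is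
  spanned by the products of distinct elements of the simple system without `x_1` itself: `ker_span`.
-/

set_option autoImplicit false

namespace Crest.Agent.R204.CovAlg808

open MvPolynomial Finsupp

section Bits

variable {κ : Type*}











end Bits

section Alg

variable {κ A : Type*} [CommRing A] [Algebra F2 A]








/-! ## the derivation -/

theorem D_aeval (val : κ → A) (D : A →ₗ[F2] A) (leib : ∀ a b, D (a * b) = D a * b + a * D b) (i0 : κ)
    (h0 : D (val i0) = 1) (h1 : ∀ i, i ≠ i0 → D (val i) = 0) (p : MvPolynomial κ F2) :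
    D (aeval val p) = aeval val (pderiv i0 p) := by
  have hD1 : D 1 = 0 := by
    have := leib 1 1
    rw [mul_one, one_mul, mul_one] at this
    exact left_eq_add.1 this
  induction p using MvPolynomial.induction_on with
  | C r =>
    rw [pderiv_C, map_zero, aeval_C, Algebra.algebraMap_eq_smul_one, map_smul, hD1, smul_zero]
  | add p q hp hq => simp only [map_add, hp, hq]
  | mul_X p i hp =>
    rw [map_mul, leib, hp, pderiv_mul, map_add, map_mul, map_mul, aeval_X]
    by_cases h : i = i0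
    · subst h; rw [h0, pderiv_X_self, map_one]
    · rw [h1 i h, pderiv_X_of_ne h, map_zero]

theorem even_of_pderiv (p : MvPolynomial κ F2) (i0 : κ) (h : pderiv i0 p = 0) :
    ∀ m ∈ p.support, Even (m i0) := by
  intro m hm
  by_contra hodd
  rw [Nat.not_even_iff_odd] at hodd
  obtain ⟨k, hk⟩ := hodd
  have h1 := coeff_pderiv (i := i0) p (m - single i0 1)
  rw [h, coeff_zero] at h1
  have h2 : m - single i0 1 + single i0 1 = m := by
    ext j
    by_cases hj : j = i0
    · subst hj; simp; omega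
    · simp [Ne.symm hj]
  rw [h2] at h1
  have h3 : (((m - single i0 1 : κ →₀ ℕ) i0 : ℕ) : F2) + 1 = 1 := by
    have : (m - single i0 1 : κ →₀ ℕ) i0 = 2 * k := by simp; omega
    rw [this]
    push_cast
    have : (2 : F2) = 0 := by decide
    rw [this, zero_mul, zero_add]
  rw [h3, mul_one] at h1
  exact (MvPolynomial.mem_support_iff.1 hm) h1.symm

/-- kernel of the derivation in the range -/
theorem ker_poly {w : κ → ℕ} {val : κ → A} {gr : ℕ → Submodule F2 A} {N : ℕ}
    (hind : ∀ t ≤ N, ∀ p ∈ weightedHomogeneousSubmodule F2 w t, aeval val p = 0 → p = 0)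
    (hspan : ∀ t ≤ N + 1, gr t ≤ (weightedHomogeneousSubmodule F2 w t).map
      (aeval val : MvPolynomial κ F2 →ₐ[F2] A).toLinearMap)
    (D : A →ₗ[F2] A) (leib : ∀ a b, D (a * b) = D a * b + a * D b) (i0 : κ) (hw : w i0 = 1)
    (h0 : D (val i0) = 1) (h1 : ∀ i, i ≠ i0 → D (val i) = 0)
    {t : ℕ} (ht : t ≤ N + 1) {a : A} (ha : a ∈ gr t) (hDa : D a = 0) :
    ∃ p ∈ weightedHomogeneousSubmodule F2 w t, (∀ m ∈ p.support, Even (m i0)) ∧ aeval val p = a := by
  obtain ⟨p, hp, rfl⟩ := hspan t ht ha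
  refine ⟨p, hp, ?_, rfl⟩
  rw [SetLike.mem_coe, mem_weightedHomogeneousSubmodule] at hp
  rcases t with _ | t
  · intro m hm
    have h2 : Finsupp.weight w m = 0 := hp (MvPolynomial.mem_support_iff.1 hm)
    have h3 : m i0 = 0 := by
      by_contra h4
      have := Finsupp.le_weight w (s := i0) (by omega) m
      omega
    rw [h3]; exact ⟨0, rfl⟩
  · apply even_of_pderiv
    apply hind t (by omega)
    · rw [mem_weightedHomogeneousSubmodule]
      exact hp.pderiv (by rw [hw])
    · rw [← D_aeval val D leib i0 h0 h1]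
      exact hDa




end Alg

end Crest.Agent.R204.CovAlg808
end

-- ▼ part R204/Cov3_892
section

/-!
# Row 204, leaf B5: `Cover0` from the cap derivation (owner helper892)

`CapData X` : the operator `cap = u ∩ ·` on `H(X_1)` (905), a derivation killing primitives of degree `> 1`
and the suspensions of the base component, with `cap x_1 = 1`.
`cover0` : everything in 979's `Cover0` except the loop statement, which is a hypothesis.
-/

set_option autoImplicit false

noncomputable section

namespace Crest.Agent.R204.Cov892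

open Crest.Agent.R204.Spec114 Crest.Agent.R204.Spec114.Tower Crest.Agent.R204.Ind979 MvPolynomial

/-- the cap product with the generator of `H¹(X_1)` -/
structure CapData (X : Tower) where
  cap : X.H 1 →ₗ[F2] X.H 1
  leib : ∀ a b, cap (a * b) = cap a * b + a * cap b
  prim : ∀ t, 2 ≤ t → ∀ y ∈ X.gr 1 t, y ∈ X.prim 1 → cap y = 0
  x1 : cap (X.x 1) = 1
  sig : ∀ y ∈ X.base, cap (X.σ 0 y) = 0

namespace CapData

variable {X : Tower} (c : CapData X)

theorem cap_one : c.cap 1 = 0 := by
  have := c.leib 1 1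
  rw [mul_one, one_mul, mul_one] at this
  exact left_eq_add.1 this

/-- the kernel of the derivation = the homology of the covering -/
def C : Subalgebra F2 (X.H 1) where
  carrier := {a | c.cap a = 0}
  mul_mem' {a b} ha hb := by
    simp only [Set.mem_ofPred_eq] at ha hb ⊢
    rw [c.leib, ha, hb, zero_mul, mul_zero, add_zero]
  add_mem' {a b} ha hb := by
    simp only [Set.mem_ofPred_eq] at ha hb ⊢
    rw [map_add, ha, hb, add_zero]
  algebraMap_mem' r := by
    simp only [Set.mem_ofPred_eq]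
    rw [Algebra.algebraMap_eq_smul_one, map_smul, c.cap_one, smul_zero]


/-- grading of the kernel -/
def grC (t : ℕ) : Submodule F2 c.C := (X.gr 1 t).comap c.C.val.toLinearMap

theorem mem_grC {t : ℕ} {a : c.C} : a ∈ c.grC t ↔ (a : X.H 1) ∈ X.gr 1 t := Iff.rfl

/-- suspension on the base component -/
def s0 : Subalgebra.toSubmodule X.base →ₗ[F2] c.C :=
  LinearMap.codRestrict (Subalgebra.toSubmodule c.C)
    ((X.σ 0).domRestrict (Subalgebra.toSubmodule X.base)) (fun y => c.sig _ y.2)

theorem exists_s : ∃ s : X.H 0 →ₗ[F2] c.C, ∀ y ∈ X.base, (s y : X.H 1) = X.σ 0 y := by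
  obtain ⟨g, hg⟩ := LinearMap.exists_extend c.s0
  refine ⟨g, fun y hy => ?_⟩
  have := LinearMap.congr_fun hg ⟨y, hy⟩
  exact congrArg Subtype.val this

/-- an extension of the suspension to all of `H(X_0)` -/
def s : X.H 0 →ₗ[F2] c.C := Classical.choose c.exists_s

theorem s_spec (y : X.H 0) (hy : y ∈ X.base) : (c.s y : X.H 1) = X.σ 0 y :=
  Classical.choose_spec c.exists_s y hy

/-- the words of positive length are killed by the derivation -/
theorem cap_word {D : ℕ} (hQ : X.FactQ D) (hσ : X.FactSigma D) (hx : X.FactX D) (I : Wd)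
    (hI : I.1 ≠ []) (hd : wdeg 1 I.1 ≤ D + 2) : c.cap (X.word 1 I.1) = 0 := by
  have h1 := wdeg_up 0 (I, 0)
  rw [pow_zero, one_mul] at h1
  have hent : ∀ i ∈ (up (I, 0)).1, i ≤ D + 1 := fun i hi => by
    have := entry_le_wdeg 0 _ i hi
    change wdeg 0 (up (I, 0)).1 + 1 = wdeg 1 I.1 at h1
    omega
  have h2 : X.σ 0 (X.word 0 (up (I, 0)).1) = X.word 1 I.1 := by
    rw [sigma_word_up hQ hσ (by omega : 0 ≤ D + 1) (I, 0) hent]
    show X.word (0 + 1) I.1 ^ 2 ^ 0 = _
    rw [pow_zero, pow_one]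
  have h3 : 2 ≤ wdeg 1 I.1 := by
    rcases hL : I.1 with _ | ⟨i, L⟩
    · exact absurd hL hI
    · rw [wdeg_cons]
      have := le_wdeg 1 L
      omega
  have hentI : ∀ i ∈ I.1, i ≤ D + 1 := fun i hi => by
    have := entry_le_wdeg 1 _ i hi
    omega
  refine c.prim _ h3 _ (word_mem hQ hx (by omega) I.1 hentI) ?_
  rw [← h2]
  exact (hσ 0 (by omega)).2.1 _

end CapData

/-- value of a monomial pushed forward along the inclusion of a subset of the generators -/
theorem mval_mapDomain {H : Type*} [CommRing H] {ι : Type*} {p : ι → Prop} (y : ι → H)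
    (m : {i // p i} →₀ ℕ) : mval y (m.mapDomain Subtype.val) = mval (fun i : {i // p i} => y i) m := by
  unfold mval
  rw [Finsupp.prod_mapDomain_index_inj Subtype.val_injective]

theorem mdeg_mapDomain {ι : Type*} {p : ι → Prop} (d : ι → ℕ)
    (m : {i // p i} →₀ ℕ) : mdeg d (m.mapDomain Subtype.val) = mdeg (fun i : {i // p i} => d i) m := by
  unfold mdeg
  rw [Finsupp.sum_mapDomain_index_inj Subtype.val_injective]

/-- **the kernel of the derivation is spanned by the monomials with even exponent of `x_1`** -/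
theorem CapData.even {X : Tower} (c : CapData X) {D : ℕ} (hQ : X.FactQ D) (hσ : X.FactSigma D)
    (hx : X.FactX D) (hP : X.FactPoly D) (t : ℕ) (ht : t ≤ D + 2) (a : X.H 1) (ha : a ∈ X.gr 1 t)
    (hca : c.cap a = 0) : a ∈ Submodule.span F2
      (mval (fun I : Wd => X.word 1 I.1) '' {m | mdeg (fun I : Wd => wdeg 1 I.1) m = t ∧
        Even (m ⟨[], by simp⟩)}) := by
  classical
  have hP1 := (factPoly_iff D).1 hP 1 le_rfl (by omega)
  have hP2 : PolyR (X.gr 1) (fun i : {I : Wd // wdeg 1 I.1 ≤ D + 2} => X.word 1 i.1.1)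
      (fun i => wdeg 1 i.1.1) (1 + D) :=
    (PolyR.subtype_iff (fun I : Wd => wdeg 1 I.1 ≤ D + 2) (fun I hI => by omega)).2 hP1
  rw [polyR_iff] at hP2
  let i0 : {I : Wd // wdeg 1 I.1 ≤ D + 2} := ⟨⟨[], by simp⟩, by
    show wdeg 1 [] ≤ D + 2
    rw [wdeg_nil]; omega⟩
  obtain ⟨p, hp, hev, rfl⟩ := CovAlg808.ker_poly hP2.1 hP2.2 c.cap c.leib i0
    (show wdeg 1 [] = 1 from rfl) c.x1 (fun i hi => c.cap_word hQ hσ hx i.1 (fun h => hi (by
      apply Subtype.ext; apply Subtype.ext; exact h)) i.2) (by omega) ha hca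
  have key : ∀ m ∈ p.support, mval (fun i : {I : Wd // wdeg 1 I.1 ≤ D + 2} => X.word 1 i.1.1) m ∈
      Submodule.span F2 (mval (fun I : Wd => X.word 1 I.1) '' {m | mdeg (fun I : Wd => wdeg 1 I.1) m = t ∧
        Even (m ⟨[], by simp⟩)}) := by
    intro m hm
    refine Submodule.subset_span ⟨m.mapDomain Subtype.val, ⟨?_, ?_⟩, mval_mapDomain _ m⟩
    · rw [mdeg_mapDomain (p := fun I : Wd => wdeg 1 I.1 ≤ D + 2) (fun I : Wd => wdeg 1 I.1) m,
        mdeg_eq_weight]
      exact hp (MvPolynomial.mem_support_iff.1 hm)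
    · have h1 := hev m hm
      have h2 : (m.mapDomain Subtype.val : Wd →₀ ℕ) i0.1 = m i0 :=
        Finsupp.mapDomain_apply Subtype.val_injective m i0
      show Even ((m.mapDomain Subtype.val : Wd →₀ ℕ) i0.1)
      rw [h2]; exact h1
  rw [aeval_eq]
  exact Submodule.sum_mem _ fun m hm => Submodule.smul_mem _ _ (key m hm)

/-- **everything in `Cover0` except the range loop statement** -/
def cover0 {X : Tower} (c : CapData X) {D : ℕ} (hGr : X.FactGr D) (hQ : X.FactQ D) (hσ : X.FactSigma D)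
    (hx : X.FactX D) (hP : X.FactPoly D)
    (loop : ∀ (J : Type) (v : J → X.H 0) (e : J → ℕ), (∀ j, 1 ≤ e j) →
      (∀ j, v j ∈ X.gr 0 (e j) ⊓ Subalgebra.toSubmodule X.base) →
      SimR c.grC (fun j => c.s (v j)) (fun j => e j + 1) (D + 1) →
      PolyR (fun t => X.gr 0 t ⊓ Subalgebra.toSubmodule X.base) v e D) : Cover0 X D where
  C := c.C
  grC := c.grC
  π := c.C.val
  s := c.s
  one_mem := (hGr 1 (by omega)).2.1
  mul_mem s t a b ha hb := (hGr 1 (by omega)).2.2 s t _ _ ha hb
  π_inj t _ a _ ha := Subtype.ext ha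
  π_even t ht a ha := c.even hQ hσ hx hP t ht a ha a.2
  s_mem t y hy := by
    rw [CapData.mem_grC, c.s_spec y hy.2]
    exact (hσ 0 (by omega)).1 t y hy.1
  π_s y hy := c.s_spec y hy
  loop := loop

end Crest.Agent.R204.Cov892
end
end

-- ▼ part R204/Wang4_905
section

/-!
# Row 204, leaf B5: `CapData` (helper905)

* `capH_mul`, `capH_prim_M` : the cap product on the Pontryagin ring `M.ring ezd` of 450
* `capData_of` : 892's `CapData X` from an operator on `X.H 1`
-/

set_option autoImplicit false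
set_option linter.style.haveILetI false

noncomputable section

namespace Crest.Agent.R204.Wang905

open Cov892 TensorProduct

section hmon

variable {Kt K : SS} (M : Hopf450.HMon K) (C : ZCov Kt K)

theorem capH_mulL (hconn : ∀ x ∈ H.gr F2 K 0, x = Coalg847.eps K x • Coalg847.vtx M.e)
    (x y : H F2 K) : capH C (M.mulL EZ847.ezd x y) =
      M.mulL EZ847.ezd (capH C x) y + M.mulL EZ847.ezd x (capH C y) :=
  capH_pmul C EZ847.ezd (fun _ _ _ _ => rfl) M.mu hconn (M.mulL_vtx EZ847.ezd)
    (M.vtx_mulL EZ847.ezd) x y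

/-- Leibniz rule in the Pontryagin ring -/
theorem capH_mul (hconn : ∀ x ∈ H.gr F2 K 0, x = Coalg847.eps K x • Coalg847.vtx M.e)
    (x y : H F2 K) : letI := M.ring EZ847.ezd
    capH C (x * y) = capH C x * y + x * capH C y := capH_mulL M C hconn x y

/-- the cap product kills primitives of degree `≠ 1` -/
theorem capH_prim_M {x : H F2 K} (hx : letI := M.ring EZ847.ezd; letI := M.alg EZ847.ezd
      M.copA EZ847.ezd x = x ⊗ₜ[F2] 1 + 1 ⊗ₜ[F2] x) {n : ℕ} (hn : n ≠ 1)
    (hg : x ∈ H.gr F2 K n) : capH C x = 0 :=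
  capH_prim C EZ847.ezd (fun _ _ _ _ => rfl) (v := M.e) hx hn hg

/-- the cap product of the generator -/
theorem capH_one (hg : ∀ x : H F2 Kt, H.map F2 C.g x = x) {x₁ : H F2 K}
    (hx : ∀ x ∈ H.gr F2 K 1, ∃ r : F2, x = r • x₁) :
    letI := M.ring EZ847.ezd
    capH C x₁ = 1 := capH_x1 C hg M.e hx

end hmon

open Crest.Agent.R204.Spec114 Crest.Agent.R204.Spec114.Tower

/-- `σ 1 = 0` -/
theorem sigma_one {X : Tower} {D : ℕ} (hσ : X.FactSigma D) {k : ℕ} (hk : k ≤ D + 1) :
    X.σ k 1 = 0 := by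
  have h := (hσ k hk).2.2.1 1 1
  rw [mul_one, map_one (X.ε k), one_smul] at h
  exact left_eq_add.1 h

/-- **`CapData` from the operator** -/
def capData_of {X : Tower} {D : ℕ} (hσ : X.FactSigma D) (cap : X.H 1 →ₗ[F2] X.H 1)
    (leib : ∀ a b, cap (a * b) = cap a * b + a * cap b)
    (prim : ∀ t, t ≠ 1 → ∀ y ∈ X.gr 1 t, y ∈ X.prim 1 → cap y = 0)
    (x1 : cap (X.x 1) = 1)
    (hbase : ∀ y ∈ X.base, y ∈ ⨆ t, (X.gr 0 t ⊓ Subalgebra.toSubmodule X.base))
    (hbase0 : ∀ y ∈ X.gr 0 0 ⊓ Subalgebra.toSubmodule X.base, ∃ r : F2, y = r • (1 : X.H 0)) :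
    CapData X where
  cap := cap
  leib := leib
  prim t ht y hy hp := prim t (by omega) y hy hp
  x1 := x1
  sig y hy := by
    refine Submodule.iSup_induction _ (motive := fun y => cap (X.σ 0 y) = 0) (hbase y hy) ?_ ?_ ?_
    · rintro (_ | t) y hy
      · obtain ⟨r, rfl⟩ := hbase0 y hy
        rw [map_smul, sigma_one hσ (Nat.zero_le _), smul_zero, map_zero]
      · exact prim (t + 1 + 1) (by omega) _ ((hσ 0 (Nat.zero_le _)).1 _ y hy.1)
          ((hσ 0 (Nat.zero_le _)).2.1 y)
    · rw [map_zero, map_zero]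
    · intro a b ha hb
      rw [map_add, map_add, ha, hb, add_zero]

end Crest.Agent.R204.Wang905
end
end

-- ▼ part R204/PiA_808
section

/-!
# Row 204, leaf B5 (g), part A: the degree one Hurewicz homomorphism on normalised chains, any
coefficient ring (helper808)

`ps p : (Sing B).S 1` for a path `p`; modulo boundaries `sx (ps ·)` is additive under
concatenation and invariant under homotopy rel endpoints; `hur : π₁(B,b) →* Multiplicative (N/bd N)`.
-/

set_option autoImplicit false

noncomputable section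

namespace Crest.Agent.R204.Pi808

open Crest.Agent.R204 unitInterval

theorem bd_sx (R : Type) [CommRing R] {K : SS} {n : ℕ} (x : K.S (n + 1)) :
    N.bd R K (N.sx R x) = ∑ i : Fin (n + 2), ((-1 : R) ^ (i : ℕ)) • N.sx R (K.act (Op.face i) x) := by
  rw [N.sx, N.bd_mk, Ch.bd_single_succ]
  rw [← Submodule.mkQ_apply, map_sum]
  refine Finset.sum_congr rfl fun i _ => ?_
  rw [N.sx, ← Submodule.mkQ_apply, ← map_smul, Finsupp.smul_single, smul_eq_mul, mul_one, one_mul]

variable {B : Type} [TopologicalSpace B]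

/-! ## affine coordinates -/

/-- affine function on the simplex with prescribed values at the vertices -/
def crd {n : ℕ} (g : Fin (n + 1) → I) : C(stdSimplex ℝ (Fin (n + 1)), I) where
  toFun t := ⟨∑ i, (g i : ℝ) * t i,
    Finset.sum_nonneg fun i _ => mul_nonneg (g i).2.1 (stdSimplex.zero_le t i), by
    calc ∑ i, (g i : ℝ) * t i ≤ ∑ i, t i :=
          Finset.sum_le_sum fun i _ => mul_le_of_le_one_left (stdSimplex.zero_le t i) (g i).2.2
      _ = 1 := stdSimplex.sum_eq_one t⟩
  continuous_toFun := by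
    apply Continuous.subtype_mk
    refine continuous_finsetSum _ fun i _ => ?_
    exact continuous_const.mul ((continuous_apply i).comp continuous_subtype_val)

theorem crd_val {n : ℕ} (g : Fin (n + 1) → I) (t : stdSimplex ℝ (Fin (n + 1))) :
    ((crd g t : I) : ℝ) = ∑ i, (g i : ℝ) * t i := rfl

theorem crd_comp {m n : ℕ} (f : Op m n) (g : Fin (n + 1) → I) :
    (crd g).comp ⟨stdSimplex.map f, stdSimplex.continuous_map f⟩ = crd (fun i => g (f i)) := by
  ext t
  simp only [ContinuousMap.comp_apply, ContinuousMap.coe_mk, crd_val]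
  have : ∀ j, (stdSimplex.map f t : stdSimplex ℝ (Fin (n + 1))) j = ∑ i, if f i = j then t i else 0 := by
    intro j
    rw [stdSimplex.map_coe, FunOnFinite.linearMap_apply_apply, Finset.sum_filter]
  simp only [this, Finset.mul_sum]
  rw [Finset.sum_comm]
  refine Finset.sum_congr rfl fun i _ => ?_
  rw [Finset.sum_eq_single (f i)]
  · simp
  · intro j _ hj; rw [if_neg (Ne.symm hj), mul_zero]
  · intro h; exact absurd (Finset.mem_univ _) h

theorem crd_const {n : ℕ} (c : I) (t : stdSimplex ℝ (Fin (n + 1))) : crd (fun _ => c) t = c := by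
  apply Subtype.ext
  rw [crd_val, ← Finset.mul_sum, stdSimplex.sum_eq_one, mul_one]

/-- simplices in the square -/
def sqx (F : C(I × I, B)) {n : ℕ} (g g' : Fin (n + 1) → I) : (SS.Sing B).S n :=
  F.comp ((crd g).prodMk (crd g'))

theorem sqx_act (F : C(I × I, B)) {m n : ℕ} (f : Op m n) (g g' : Fin (n + 1) → I) :
    (SS.Sing B).act f (sqx F g g') = sqx F (fun i => g (f i)) (fun i => g' (f i)) := by
  change (F.comp ((crd g).prodMk (crd g'))).comp _ = _
  rw [sqx, ← crd_comp, ← crd_comp]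
  rfl

/-- simplices on a path -/
def pth (q : C(I, B)) {n : ℕ} (g : Fin (n + 1) → I) : (SS.Sing B).S n := q.comp (crd g)

theorem pth_act (q : C(I, B)) {m n : ℕ} (f : Op m n) (g : Fin (n + 1) → I) :
    (SS.Sing B).act f (pth q g) = pth q (fun i => g (f i)) := by
  change (q.comp (crd g)).comp _ = _
  rw [pth, ← crd_comp]
  rfl

/-- the singular 1-simplex of a path -/
def ps {x y : B} (p : Path x y) : (SS.Sing B).S 1 := pth p.toContinuousMap ![0, 1]

/-- constant simplex -/
def cst (y : B) (n : ℕ) : (SS.Sing B).S n := ContinuousMap.const _ y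

theorem sx_cst (R : Type) [CommRing R] (y : B) (n : ℕ) :
    N.sx R (K := SS.Sing B) (cst y (n + 1)) = 0 := by
  have : (cst y (n + 1) : (SS.Sing B).S (n + 1)) = (SS.Sing B).act (Op.dgn 0) (cst y n) := rfl
  rw [this, N.sx_dgn]

theorem face0_1 : (fun i => (![(0 : I), 1] : Fin 2 → I) ((Op.face (0 : Fin 2)) i)) = fun _ => 1 := by
  funext i; fin_cases i; rfl

theorem face1_1 : (fun i => (![(0 : I), 1] : Fin 2 → I) ((Op.face (1 : Fin 2)) i)) = fun _ => 0 := by
  funext i; fin_cases i; rfl

section faces2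
variable (a b c : I)

theorem face0_2 : (fun i => (![a, b, c] : Fin 3 → I) ((Op.face (0 : Fin 3)) i)) = ![b, c] := by
  funext i; fin_cases i <;> rfl

theorem face1_2 : (fun i => (![a, b, c] : Fin 3 → I) ((Op.face (1 : Fin 3)) i)) = ![a, c] := by
  funext i; fin_cases i <;> rfl

theorem face2_2 : (fun i => (![a, b, c] : Fin 3 → I) ((Op.face (2 : Fin 3)) i)) = ![a, b] := by
  funext i; fin_cases i <;> rfl

end faces2

theorem bd_sx2 (R : Type) [CommRing R] {K : SS} (x : K.S 2) :
    N.bd R K (N.sx R x) = N.sx R (K.act (Op.face 0) x) - N.sx R (K.act (Op.face 1) x) +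
      N.sx R (K.act (Op.face 2) x) := by
  rw [bd_sx, Fin.sum_univ_three]
  simp only [Fin.val_zero, pow_zero, one_smul, Fin.val_one, pow_one, neg_smul, Fin.val_two,
    even_two, Even.neg_pow, one_pow]
  abel

theorem bd_pth (R : Type) [CommRing R] (q : C(I, B)) (a b c : I) :
    N.bd R (SS.Sing B) (N.sx R (K := SS.Sing B) (pth q ![a, b, c])) =
      N.sx R (K := SS.Sing B) (pth q ![b, c]) - N.sx R (K := SS.Sing B) (pth q ![a, c]) +
      N.sx R (K := SS.Sing B) (pth q ![a, b]) := by
  rw [bd_sx2, pth_act, pth_act, pth_act, face0_2, face1_2, face2_2]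

theorem bd_sqx (R : Type) [CommRing R] (F : C(I × I, B)) (a b c a' b' c' : I) :
    N.bd R (SS.Sing B) (N.sx R (K := SS.Sing B) (sqx F ![a, b, c] ![a', b', c'])) =
      N.sx R (K := SS.Sing B) (sqx F ![b, c] ![b', c']) -
      N.sx R (K := SS.Sing B) (sqx F ![a, c] ![a', c']) +
      N.sx R (K := SS.Sing B) (sqx F ![a, b] ![a', b']) := by
  rw [bd_sx2, sqx_act, sqx_act, sqx_act, face0_2, face1_2, face2_2, face0_2, face1_2, face2_2]

/-- one half -/
def hf : I := ⟨1 / 2, by norm_num, by norm_num⟩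

theorem crd2_val (a b : I) (t : stdSimplex ℝ (Fin 2)) :
    ((crd ![a, b] t : I) : ℝ) = a * t 0 + b * t 1 := by
  rw [crd_val, Fin.sum_univ_two]; rfl

theorem sum2 (t : stdSimplex ℝ (Fin 2)) : t 0 + t 1 = 1 := by
  have := stdSimplex.sum_eq_one t
  rwa [Fin.sum_univ_two] at this

theorem pth_trans0 {x y z : B} (p : Path x y) (q : Path y z) :
    pth (p.trans q).toContinuousMap ![hf, 1] = ps q := by
  apply ContinuousMap.ext
  intro t
  change (p.trans q) (crd ![hf, 1] t) = q (crd ![0, 1] t)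
  have h1 : ((crd ![hf, 1] t : I) : ℝ) = (1 + t 1) / 2 := by
    rw [crd2_val]
    have := sum2 t
    have e : ((hf : I) : ℝ) = 1 / 2 := rfl
    rw [e, Set.Icc.coe_one]; linarith
  have h2 : ((crd ![0, 1] t : I) : ℝ) = t 1 := by
    rw [crd2_val, Set.Icc.coe_one, Set.Icc.coe_zero]; ring
  have h3 := stdSimplex.zero_le t 1
  rw [Path.trans_apply]
  split_ifs with h
  · have h4 : t 1 = 0 := by rw [h1] at h; linarith
    have h5 : crd ![0, 1] t = (0 : I) := Subtype.ext (by rw [h2, h4]; rfl)
    rw [h5, q.source]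
    have h6 : (⟨2 * ((crd ![hf, 1] t : I) : ℝ), (unitInterval.mul_pos_mem_iff zero_lt_two).2
        ⟨(crd ![hf, 1] t).2.1, h⟩⟩ : I) = 1 := Subtype.ext (by
          show 2 * ((crd ![hf, 1] t : I) : ℝ) = 1
          rw [h1, h4]; norm_num)
    rw [h6, p.target]
  · congr 1
    apply Subtype.ext
    simp only
    rw [h1, h2]; ring

theorem pth_trans2 {x y z : B} (p : Path x y) (q : Path y z) :
    pth (p.trans q).toContinuousMap ![0, hf] = ps p := by
  apply ContinuousMap.ext
  intro t
  change (p.trans q) (crd ![0, hf] t) = p (crd ![0, 1] t)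
  have h1 : ((crd ![0, hf] t : I) : ℝ) = t 1 / 2 := by
    rw [crd2_val]
    have e : ((hf : I) : ℝ) = 1 / 2 := rfl
    rw [e, Set.Icc.coe_zero]; ring
  have h2 : ((crd ![0, 1] t : I) : ℝ) = t 1 := by
    rw [crd2_val, Set.Icc.coe_one, Set.Icc.coe_zero]; ring
  have h3 : t 1 ≤ 1 := by
    have := sum2 t
    have := stdSimplex.zero_le t 0
    linarith
  rw [Path.trans_apply]
  rw [dif_pos (by rw [h1]; linarith)]
  congr 1
  apply Subtype.ext
  simp only
  rw [h1, h2]; ring

variable (R : Type) [CommRing R]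

/-- chains modulo boundaries -/
abbrev NB (B : Type) [TopologicalSpace B] : Type :=
  N R (SS.Sing B) ⧸ LinearMap.range (N.bd R (SS.Sing B))

/-- class of a path modulo boundaries -/
def hp {x y : B} (p : Path x y) : NB R B := Submodule.Quotient.mk (N.sx R (K := SS.Sing B) (ps p))

theorem hp_trans {x y z : B} (p : Path x y) (q : Path y z) :
    hp R (p.trans q) = hp R p + hp R q := by
  rw [hp, hp, hp, ← Submodule.Quotient.mk_add, Submodule.Quotient.eq]
  refine ⟨-(N.sx R (K := SS.Sing B) (pth (p.trans q).toContinuousMap ![0, hf, 1])), ?_⟩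
  rw [map_neg, bd_pth, pth_trans0, pth_trans2]
  have : pth (p.trans q).toContinuousMap ![0, 1] = ps (p.trans q) := rfl
  rw [this]
  abel

theorem hp_homotopic {x y : B} {p q : Path x y} (h : p.Homotopic q) : hp R p = hp R q := by
  obtain ⟨F⟩ := h
  rw [hp, hp, Submodule.Quotient.eq]
  let G : C(I × I, B) := F.toContinuousMap
  refine ⟨N.sx R (K := SS.Sing B) (sqx G ![0, 0, 1] ![0, 1, 1]) -
    N.sx R (K := SS.Sing B) (sqx G ![0, 1, 1] ![0, 0, 1]), ?_⟩
  rw [map_sub, bd_sqx, bd_sqx]
  have c1 : (![1, 1] : Fin 2 → I) = fun _ => 1 := by funext i; fin_cases i <;> rfl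
  have c0 : (![0, 0] : Fin 2 → I) = fun _ => 0 := by funext i; fin_cases i <;> rfl
  have e1 : sqx G ![0, 1] ![1, 1] = cst y 1 := by
    apply ContinuousMap.ext
    intro t
    change F (crd ![0, 1] t, crd ![1, 1] t) = y
    rw [c1, crd_const, F.target]
  have e2 : sqx G ![0, 0] ![0, 1] = ps p := by
    apply ContinuousMap.ext
    intro t
    change F (crd ![0, 0] t, crd ![0, 1] t) = p (crd ![0, 1] t)
    rw [c0, crd_const]
    exact F.apply_zero _
  have e3 : sqx G ![1, 1] ![0, 1] = ps q := by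
    apply ContinuousMap.ext
    intro t
    change F (crd ![1, 1] t, crd ![0, 1] t) = q (crd ![0, 1] t)
    rw [c1, crd_const]
    exact F.apply_one _
  have e4 : sqx G ![0, 1] ![0, 0] = cst x 1 := by
    apply ContinuousMap.ext
    intro t
    change F (crd ![0, 1] t, crd ![0, 0] t) = x
    rw [c0, crd_const, F.source]
  rw [e1, e2, e3, e4, sx_cst, sx_cst]
  abel

/-- class of a homotopy class of paths -/
def hq {x y : B} (a : Path.Homotopic.Quotient x y) : NB R B :=
  Quotient.lift (fun p : Path x y => hp R p) (fun _ _ h => hp_homotopic R h) a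

theorem hq_mk {x y : B} (p : Path x y) : hq R (Path.Homotopic.Quotient.mk p) = hp R p := rfl

theorem hq_trans {x y z : B} (a : Path.Homotopic.Quotient x y) (b : Path.Homotopic.Quotient y z) :
    hq R (a.trans b) = hq R a + hq R b := by
  obtain ⟨p, rfl⟩ := Path.Homotopic.Quotient.mk_surjective a
  obtain ⟨q, rfl⟩ := Path.Homotopic.Quotient.mk_surjective b
  rw [← Path.Homotopic.Quotient.mk_trans, hq_mk, hq_mk, hq_mk, hp_trans]

theorem hq_refl (x : B) : hq R (Path.Homotopic.Quotient.refl x) = 0 := by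
  have := hq_trans R (Path.Homotopic.Quotient.refl x) (Path.Homotopic.Quotient.refl x)
  have h2 : (Path.Homotopic.Quotient.refl x).trans (Path.Homotopic.Quotient.refl x) =
      Path.Homotopic.Quotient.refl x := by
    rw [← Path.Homotopic.Quotient.mk_refl, ← Path.Homotopic.Quotient.mk_trans,
      Path.refl_trans_refl]
  rw [h2] at this
  exact left_eq_add.1 this

/-- the Hurewicz homomorphism in degree one -/
def hur (b : B) : FundamentalGroup B b →* Multiplicative (NB R B) where
  toFun a := Multiplicative.ofAdd (hq R a.toPath)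
  map_one' := by
    rw [FundamentalGroup.one_def]
    exact congrArg _ (hq_refl R b)
  map_mul' a c := by
    rw [FundamentalGroup.mul_def]
    change Multiplicative.ofAdd (hq R (Path.Homotopic.Quotient.trans c a)) = _
    rw [hq_trans, add_comm, ofAdd_add]

theorem hur_apply (b : B) (a : FundamentalGroup B b) :
    (hur R b a).toAdd = hq R a.toPath := rfl

theorem hq_zpow (b : B) (a : FundamentalGroup B b) (k : ℤ) :
    hq R (a ^ k).toPath = k • hq R a.toPath := by
  rw [← hur_apply, ← hur_apply, map_zpow, toAdd_zpow]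

end Crest.Agent.R204.Pi808
end
end

-- ▼ part R204/Cov4_892
section

/-!
# Row 204, leaf B5: the class `x_1`, the suspension lifts to the covering (owner helper892)

* `kap_ps` : the cocycle of the covering takes the value `-1` on the generating loop, `capH_ps`.
* `evT`, `sigt`, `sigmaT` : for a loop structure `Λ : LoopStr P B g0 b` (330) and a space `G` of null-homotopic
  loops, the suspension `H(G) → H(B)` factors through `H(Bt b)`.
-/

set_option autoImplicit false

noncomputable section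

open Set unitInterval Topology

namespace Crest.Agent.R204.Cov892

open Crest.Agent.R204 Crest.Agent.R204.SS Crest.Agent.R204.Wang905 Crest.Agent.R204.Pi808
  Crest.Agent.R204.Sus330

/-! ## the cocycle on the generating loop -/


variable {B : Type} [TopologicalSpace B] {b : B}







variable [PathConnectedSpace B]




/-! ## the suspension lifts to the covering -/

section lift

omit [PathConnectedSpace B]

variable {P G : Type} [TopologicalSpace P] [TopologicalSpace G] {g0 : P} (Λ : LoopStr P B g0 b)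



/-- a loop as a based path -/
def toPB : C(P, PB b) where
  toFun g := ⟨⟨fun r => Λ.ev (r, g), by fun_prop⟩, Λ.ev_zero _⟩
  continuous_toFun := by
    refine Continuous.subtype_mk ?_ _
    exact ContinuousMap.continuous_of_continuous_uncurry _ (by
      show Continuous fun z : P × I => Λ.ev (z.2, z.1)
      fun_prop)


/-- the constant path -/
def cP (b : B) : PB b := ⟨ContinuousMap.const _ b, rfl⟩



variable (j : C(G, P))


variable (R : Type) [CommRing R]




variable (hj : ∀ g : G, PEq (toPB Λ (j g)) (cP b))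







end lift

/-! ## consequences for the cap product -/

section cap

variable {mu : C(B × B, B)} (h : HSp b mu) (w : FundamentalGroup B b)
  (hgen : ∀ a : FundamentalGroup B b, ∃ k : ℤ, a = w ^ k) (hinf : ∀ k : ℤ, w ^ k = 1 → k = 0)

include h hgen hinf

theorem prj_injective : Function.Injective (H.map F2 (prj b)) :=
  (summary (zcov w hgen hinf) (fun x => LinearMap.congr_fun
    (zcov_g_homology HInv328.homotopyInv h F2 w hgen hinf) x)).1

theorem range_prj_iff (y : H F2 (Sing B)) :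
    (∃ x, H.map F2 (prj b) x = y) ↔ capH (zcov w hgen hinf) y = 0 :=
  (summary (zcov w hgen hinf) (fun x => LinearMap.congr_fun
    (zcov_g_homology HInv328.homotopyInv h F2 w hgen hinf) x)).2.1 y


end cap

end Crest.Agent.R204.Cov892
end
end

-- ▼ part R204/PiB_808
section

/-!
# Row 204, leaf B5 (g), part B: reduction mod 2 of integral normalised chains, 2-divisibility descent,
`π₁(X_1)` is infinite cyclic (helper808)
-/

set_option autoImplicit false

noncomputable section

namespace Crest.Agent.R204.Pi808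

open Crest.Agent.R204 Finsupp

/-! ## projection on degree `n` -/

section Pr

variable (R : Type) [CommRing R] (K : SS)

open scoped Classical in
/-- degree `n` part of a chain -/
def chPr (n : ℕ) : Ch R K →ₗ[R] Ch R K :=
  Finsupp.linearCombination R (fun t : K.T => if t.1 = n then single t (1 : R) else 0)

variable {R K}

open scoped Classical in
theorem chPr_single (n : ℕ) (t : K.T) (r : R) :
    chPr R K n (single t r) = if t.1 = n then single t r else 0 := by
  rw [chPr, Finsupp.linearCombination_single]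
  split_ifs <;> simp

theorem chPr_mem_Dg (n : ℕ) {c : Ch R K} (hc : c ∈ Ch.Dg R K) : chPr R K n c ∈ Ch.Dg R K := by
  classical
  refine Submodule.span_induction (p := fun c _ => chPr R K n c ∈ Ch.Dg R K) ?_ ?_ ?_ ?_ hc
  · rintro _ ⟨t, ht, rfl⟩
    rw [chPr_single]
    split_ifs
    · exact Submodule.subset_span ⟨t, ht, rfl⟩
    · exact Submodule.zero_mem _
  · simp
  · intro a b _ _ ha hb; rw [map_add]; exact Submodule.add_mem _ ha hb
  · intro r a _ ha; rw [map_smul]; exact Submodule.smul_mem _ _ ha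

theorem chPr_bd (n : ℕ) (c : Ch R K) :
    Ch.bd R K (chPr R K (n + 1) c) = chPr R K n (Ch.bd R K c) := by
  classical
  induction c using Finsupp.induction_linear with
  | zero => simp
  | add f g hf hg => simp only [map_add, hf, hg]
  | single t r =>
    obtain ⟨m, x⟩ := t
    rcases m with _ | m
    · rw [chPr_single, if_neg (by simp), Ch.bd_single_zero, map_zero, map_zero]
    · rw [chPr_single, Ch.bd_single_succ, map_sum]
      by_cases h : m = n
      · subst h
        rw [if_pos rfl, Ch.bd_single_succ]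
        refine Finset.sum_congr rfl fun i _ => ?_
        rw [chPr_single, if_pos rfl]
      · rw [if_neg (by simpa using h), map_zero]
        symm
        refine Finset.sum_eq_zero fun i _ => ?_
        rw [chPr_single, if_neg h]

variable (R K)

/-- degree `n` part of a normalised chain -/
def nPr (n : ℕ) : N R K →ₗ[R] N R K := Submodule.mapQ _ _ (chPr R K n) (fun _ h => chPr_mem_Dg n h)

variable {R K}

theorem nPr_bd (n : ℕ) (c : N R K) : N.bd R K (nPr R K (n + 1) c) = nPr R K n (N.bd R K c) := by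
  obtain ⟨c, rfl⟩ := Submodule.Quotient.mk_surjective _ c
  rw [nPr, Submodule.mapQ_apply, N.bd_mk, N.bd_mk, nPr, Submodule.mapQ_apply, chPr_bd]

theorem chPr_mem_gr (n : ℕ) (c : Ch R K) : chPr R K n c ∈ Ch.gr R K n := by
  classical
  induction c using Finsupp.induction_linear with
  | zero => simp
  | add f g hf hg => rw [map_add]; exact Submodule.add_mem _ hf hg
  | single t r =>
    rw [chPr_single]
    split_ifs with h
    · obtain ⟨m, x⟩ := t
      simp only at h
      subst h
      have : (single (⟨m, x⟩ : K.T) r : Ch R K) = r • single ⟨m, x⟩ 1 := by simp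
      rw [this]
      exact Submodule.smul_mem _ _ (Submodule.subset_span ⟨x, rfl⟩)
    · exact Submodule.zero_mem _

theorem chPr_of_mem {n : ℕ} {c : Ch R K} (hc : c ∈ Ch.gr R K n) : chPr R K n c = c := by
  classical
  refine Submodule.span_induction (p := fun c _ => chPr R K n c = c) ?_ ?_ ?_ ?_ hc
  · rintro _ ⟨x, rfl⟩
    rw [chPr_single, if_pos rfl]
  · simp
  · intro a b _ _ ha hb; rw [map_add, ha, hb]
  · intro r a _ ha; rw [map_smul, ha]

theorem nPr_mem_gr (n : ℕ) (c : N R K) : nPr R K n c ∈ N.gr R K n := by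
  obtain ⟨c, rfl⟩ := Submodule.Quotient.mk_surjective _ c
  rw [nPr, Submodule.mapQ_apply]
  exact ⟨_, chPr_mem_gr n c, rfl⟩

theorem nPr_of_mem {n : ℕ} {c : N R K} (hc : c ∈ N.gr R K n) : nPr R K n c = c := by
  obtain ⟨c, hc, rfl⟩ := hc
  rw [Submodule.mkQ_apply, nPr, Submodule.mapQ_apply, chPr_of_mem hc]

theorem sx_mem_gr {n : ℕ} (x : K.S n) : N.sx R x ∈ N.gr R K n :=
  ⟨single ⟨n, x⟩ 1, Submodule.subset_span ⟨x, rfl⟩, rfl⟩

end Pr

/-! ## degenerate chains -/

theorem mem_Dg_iff {R : Type} [CommRing R] {K : SS} (c : Ch R K) :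
    c ∈ Ch.Dg R K ↔ ∀ t : K.T, ¬ Ch.IsDgn K t → c t = 0 := by
  have h : Ch.Dg R K = Finsupp.supported R R {t : K.T | Ch.IsDgn K t} := by
    rw [Finsupp.supported_eq_span_single]
    unfold Ch.Dg
    congr 1
    ext c
    constructor
    · rintro ⟨t, ht, rfl⟩; exact ⟨t, ht, rfl⟩
    · rintro ⟨t, ht, rfl⟩; exact ⟨t, ht, rfl⟩
  rw [h, Finsupp.mem_supported']
  rfl

/-! ## reduction mod 2 -/

section Red

variable (K : SS)

/-- reduction mod 2 of chains -/
def redCh : Ch ℤ K →+ Ch F2 K := Finsupp.mapRange.addMonoidHom (Int.castAddHom F2)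

variable {K}

theorem redCh_apply (c : Ch ℤ K) (t : K.T) : redCh K c t = ((c t : ℤ) : F2) := rfl

theorem redCh_single (t : K.T) (r : ℤ) : redCh K (single t r) = single t (r : F2) := by
  simp [redCh]

theorem redCh_bd (c : Ch ℤ K) : redCh K (Ch.bd ℤ K c) = Ch.bd F2 K (redCh K c) := by
  induction c using Finsupp.induction_linear with
  | zero => simp
  | add f g hf hg => simp only [map_add, hf, hg]
  | single t r =>
    obtain ⟨m, x⟩ := t
    rcases m with _ | m
    · rw [Ch.bd_single_zero, redCh_single, Ch.bd_single_zero, map_zero]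
    · rw [Ch.bd_single_succ, map_sum, redCh_single, Ch.bd_single_succ]
      refine Finset.sum_congr rfl fun i _ => ?_
      rw [redCh_single]
      push_cast
      rfl

theorem redCh_mem_Dg {c : Ch ℤ K} (hc : c ∈ Ch.Dg ℤ K) : redCh K c ∈ Ch.Dg F2 K := by
  rw [mem_Dg_iff] at hc ⊢
  intro t ht
  rw [redCh_apply, hc t ht, Int.cast_zero]

variable (K)

/-- reduction mod 2 of normalised chains -/
def red : N ℤ K →+ N F2 K :=
  QuotientAddGroup.map (Ch.Dg ℤ K).toAddSubgroup (Ch.Dg F2 K).toAddSubgroup (redCh K)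
    (fun _ hc => redCh_mem_Dg hc)

variable {K}

theorem red_mk (c : Ch ℤ K) :
    red K (Submodule.Quotient.mk c) = Submodule.Quotient.mk (redCh K c) := rfl

theorem red_sx {n : ℕ} (x : K.S n) : red K (N.sx ℤ x) = N.sx F2 x := by
  rw [N.sx, red_mk, redCh_single, Int.cast_one]; rfl

theorem red_bd (a : N ℤ K) : red K (N.bd ℤ K a) = N.bd F2 K (red K a) := by
  obtain ⟨c, rfl⟩ := Submodule.Quotient.mk_surjective _ a
  rw [N.bd_mk, red_mk, red_mk, N.bd_mk, redCh_bd]

theorem redCh_surjective : Function.Surjective (redCh K) := by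
  intro c
  induction c using Finsupp.induction_linear with
  | zero => exact ⟨0, map_zero _⟩
  | add f g hf hg =>
    obtain ⟨a, rfl⟩ := hf
    obtain ⟨b, rfl⟩ := hg
    exact ⟨a + b, map_add _ _ _⟩
  | single t r =>
    refine ⟨single t (r.val : ℤ), ?_⟩
    rw [redCh_single]
    congr 1
    simp

theorem red_surjective : Function.Surjective (red K) := by
  intro a
  obtain ⟨c, rfl⟩ := Submodule.Quotient.mk_surjective _ a
  obtain ⟨d, rfl⟩ := redCh_surjective c
  exact ⟨Submodule.Quotient.mk d, red_mk d⟩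

open scoped Classical in
theorem red_ker (a : N ℤ K) (h : red K a = 0) : ∃ b, a = b + b := by
  obtain ⟨c, rfl⟩ := Submodule.Quotient.mk_surjective _ a
  rw [red_mk, Submodule.Quotient.mk_eq_zero, mem_Dg_iff] at h
  -- half of the nondegenerate part
  let e : Ch ℤ K := c.mapRange (fun r => r / 2) (by simp)
  let e' : Ch ℤ K := Finsupp.filter (fun t => ¬ Ch.IsDgn K t) e
  refine ⟨Submodule.Quotient.mk e', ?_⟩
  rw [← Submodule.Quotient.mk_add, Submodule.Quotient.eq, mem_Dg_iff]
  intro t ht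
  have h1 := h t ht
  rw [redCh_apply, ZMod.intCast_zmod_eq_zero_iff_dvd] at h1
  have h2 : e' t = c t / 2 := by
    have h3 : e' t = e t := Finsupp.filter_apply_pos (fun t => ¬ Ch.IsDgn K t) e ht
    rw [h3]; rfl
  rw [Finsupp.sub_apply, Finsupp.add_apply, h2]
  push_cast at h1
  omega

theorem two_tf (a : N ℤ K) (h : a + a = 0) : a = 0 := by
  obtain ⟨c, rfl⟩ := Submodule.Quotient.mk_surjective _ a
  rw [← Submodule.Quotient.mk_add, Submodule.Quotient.mk_eq_zero, mem_Dg_iff] at h
  rw [Submodule.Quotient.mk_eq_zero, mem_Dg_iff]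
  intro t ht
  have := h t ht
  rw [Finsupp.add_apply] at this
  omega

theorem red_nPr (n : ℕ) (a : N ℤ K) : red K (nPr ℤ K n a) = nPr F2 K n (red K a) := by
  classical
  obtain ⟨c, rfl⟩ := Submodule.Quotient.mk_surjective _ a
  rw [nPr, Submodule.mapQ_apply, red_mk, red_mk, nPr, Submodule.mapQ_apply]
  congr 1
  induction c using Finsupp.induction_linear with
  | zero => simp
  | add f g hf hg => simp only [map_add, hf, hg]
  | single t r =>
    rw [chPr_single, redCh_single, chPr_single]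
    split_ifs
    · rw [redCh_single]
    · rw [map_zero]

theorem add_self_F2 {M : Type*} [AddCommGroup M] [Module F2 M] (a : M) : a + a = 0 := by
  rw [← two_smul F2 a, show (2 : F2) = 0 from by decide, zero_smul]

/-- **descent**: if `H_2(K; F2)` is spanned by the reduction of an integral cycle `q` and the integral
1-cycle `a` is not a boundary mod 2, then no nonzero multiple of `a` is an integral boundary. -/
theorem descent (a : N ℤ K) (ha : a ∈ N.gr ℤ K 1) (hne : ¬ ∃ w, N.bd F2 K w = red K a)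
    (q : N ℤ K) (hq : N.bd ℤ K q = 0)
    (h2 : ∀ v ∈ N.gr F2 K 2, N.bd F2 K v = 0 → ∃ (e : F2) (w : N F2 K), v = e • red K q + N.bd F2 K w) :
    ∀ (m : ℕ) (k : ℤ), k.natAbs = m → ∀ v : N ℤ K, N.bd ℤ K v = k • a → k = 0 := by
  intro m
  induction m using Nat.strong_induction_on with
  | _ m ih =>
    intro k hk v hv
    by_contra hk0
    have hv' : N.bd ℤ K (nPr ℤ K 2 v) = k • a := by
      rw [nPr_bd, hv, map_smul, nPr_of_mem ha]
    set u := nPr ℤ K 2 v with hu
    have hugr : u ∈ N.gr ℤ K 2 := nPr_mem_gr 2 v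
    rcases Int.even_or_odd' k with ⟨l, hl | hl⟩
    · have e0 : k • a = l • a + l • a := by rw [hl, two_mul, add_smul]
      have h3 : N.bd F2 K (red K u) = 0 := by
        rw [← red_bd, hv', e0, map_add, add_self_F2]
      have h4 : red K u ∈ N.gr F2 K 2 := by
        rw [hu, red_nPr]; exact nPr_mem_gr _ _
      obtain ⟨e, w, hw⟩ := h2 _ h4 h3
      obtain ⟨w', rfl⟩ := red_surjective w
      have h5 : red K (u - (e.val : ℤ) • q - N.bd ℤ K w') = 0 := by
        rw [map_sub, map_sub, hw, map_zsmul, red_bd]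
        have : ((e.val : ℤ) • red K q) = e • red K q := by
          have h6 : ((e.val : ℤ) : F2) = e := by simp
          conv_rhs => rw [← h6]
          rw [Int.cast_smul_eq_zsmul]
        rw [this]; abel
      obtain ⟨b, hb⟩ := red_ker _ h5
      have h7 : l • a - N.bd ℤ K b = 0 := by
        apply two_tf
        have h8 : N.bd ℤ K (u - (e.val : ℤ) • q - N.bd ℤ K w') = N.bd ℤ K b + N.bd ℤ K b := by
          rw [hb, map_add]
        rw [map_sub, map_sub, hv', map_smul, hq, smul_zero, N.bd_bd, sub_zero, sub_zero, e0] at h8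
        calc l • a - N.bd ℤ K b + (l • a - N.bd ℤ K b)
            = (l • a + l • a) - (N.bd ℤ K b + N.bd ℤ K b) := by abel
          _ = 0 := by rw [h8, sub_self]
      have h9 : N.bd ℤ K b = l • a := (sub_eq_zero.1 h7).symm
      have h10 := ih l.natAbs (by omega) l rfl b h9
      omega
    · apply hne
      refine ⟨red K u, ?_⟩
      rw [← red_bd, hv', hl, add_smul, mul_smul, two_smul, one_smul, map_add, map_add, add_self_F2,
        zero_add]

end Red

/-! ## the torus cycle -/

section Torus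

variable {B : Type} [TopologicalSpace B]

open unitInterval








/-- **(g)** the loop `p` has infinite order in `π₁(B,b)`. -/
theorem free_of_H2 {b : B} (p : Path b b)
    (hne : ¬ ∃ w, N.bd F2 (SS.Sing B) w = N.sx F2 (K := SS.Sing B) (ps p))
    (q : N ℤ (SS.Sing B)) (hq : N.bd ℤ _ q = 0)
    (h2 : ∀ v ∈ N.gr F2 (SS.Sing B) 2, N.bd F2 _ v = 0 →
      ∃ (e : F2) (w : N F2 (SS.Sing B)), v = e • red _ q + N.bd F2 _ w)
    (k : ℤ) (hk : (FundamentalGroup.fromPath (Path.Homotopic.Quotient.mk p)) ^ k = 1) : k = 0 := by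
  have h1 := hq_zpow ℤ b (FundamentalGroup.fromPath (Path.Homotopic.Quotient.mk p)) k
  rw [hk] at h1
  have h3 : Pi808.hq ℤ (FundamentalGroup.toPath (1 : FundamentalGroup B b)) = 0 := hq_refl ℤ b
  rw [h3] at h1
  have h4 : k • hp ℤ p = 0 := h1.symm
  rw [hp, ← Submodule.Quotient.mk_smul, Submodule.Quotient.mk_eq_zero] at h4
  obtain ⟨v, hv⟩ := h4
  refine descent (N.sx ℤ (K := SS.Sing B) (ps p)) (sx_mem_gr _) ?_ q hq h2 _ k rfl v hv
  rwa [red_sx]

end Torus

end Crest.Agent.R204.Pi808
end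
end

-- ▼ part R204/PiD_808
section

/-!
# Row 204, B5 (helper808): the class of a loop has infinite order in `π_1` if `H_2` is spanned by its
Pontryagin square

`red_cross` : reduction mod 2 of the (signed) Eilenberg-Zilber product.
`hcl p : H F2 (Sing B)` : the class of a loop.
`free_of_sq` : `hcl p ≠ 0` and `H_2(B)` is spanned by `mu_*(hcl p × hcl p)` imply that
`(lc p) ^ k = 1` only for `k = 0`.
-/

set_option autoImplicit false
set_option linter.unusedVariables false

noncomputable section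

namespace Crest.Agent.R204.Pi808

open scoped Topology unitInterval TensorProduct
open Finsupp EZ271

section Red

variable {K L : SS}

theorem red_hom_ext {A : Type*} [AddCommGroup A] {f g : N ℤ K →+ A}
    (h : ∀ (n : ℕ) (x : K.S n), f (N.sx ℤ x) = g (N.sx ℤ x)) : f = g := by
  ext c
  refine N_induction (R := ℤ) (K := K) (p := fun c => f c = g c) _ ?_ ?_ ?_ ?_
  · simp
  · intro a b ha hb; rw [map_add, map_add, ha, hb]
  · intro r a ha; rw [map_zsmul, map_zsmul, ha]
  · exact h

theorem red_map (f : SS.Hom K L) (c : N ℤ K) : red L (N.map ℤ f c) = N.map F2 f (red K c) := by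
  have : (red L).comp (N.map ℤ f).toAddMonoidHom = (N.map F2 f).toAddMonoidHom.comp (red K) := by
    refine red_hom_ext fun n x => ?_
    show red L (N.map ℤ f (N.sx ℤ x)) = N.map F2 f (red K (N.sx ℤ x))
    rw [N.map_sx, red_sx, red_sx, N.map_sx]
  exact DFunLike.congr_fun this c

theorem red_smul (r : ℤ) (c : N ℤ K) : red K (r • c) = (r : F2) • red K c := by
  rw [map_zsmul, Int.cast_smul_eq_zsmul]

theorem red_c (A : Cone K) (c : N ℤ K) : red K (A.c ℤ c) = A.c F2 (red K c) := by
  have : (red K).comp (A.c ℤ).toAddMonoidHom = (A.c F2).toAddMonoidHom.comp (red K) := by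
    refine red_hom_ext fun n x => ?_
    show red K (A.c ℤ (N.sx ℤ x)) = A.c F2 (red K (N.sx ℤ x))
    rw [Cone.c_sx, red_sx, red_sx, Cone.c_sx]
  exact DFunLike.congr_fun this c

theorem red_E : ∀ n p q : ℕ, p + q = n → red _ (E ℤ p q) = E F2 p q := by
  intro n
  induction n with
  | zero =>
    intro p q h
    obtain rfl : p = 0 := by omega
    obtain rfl : q = 0 := by omega
    rw [E_zero_zero, E_zero_zero, red_sx]
  | succ n ih =>
    intro p q h
    rcases p with _ | p <;> rcases q with _ | q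
    · omega
    · rw [E_zero_succ, E_zero_succ, red_c, red_map, ih 0 q (by omega)]
    · rw [E_succ_zero, E_succ_zero, red_c, red_map, ih p 0 (by omega)]
    · rw [E_succ_succ, E_succ_succ, red_c, map_add, red_map, red_smul, red_map, ih p (q + 1) (by omega),
        ih (p + 1) q (by omega)]
      push_cast
      rfl

theorem red_cross (a : N ℤ K) (b : N ℤ L) :
    red _ (cross ℤ a b) = cross F2 (red K a) (red L b) := by
  have h1 : ∀ (n : ℕ) (x : K.S n) (b : N ℤ L), red _ (cross ℤ (N.sx ℤ x) b) =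
      cross F2 (red K (N.sx ℤ x)) (red L b) := by
    intro n x b
    have : (red _).comp (cross ℤ (N.sx ℤ x) : N ℤ L →ₗ[ℤ] _).toAddMonoidHom =
        (cross F2 (red K (N.sx ℤ x)) : N F2 L →ₗ[F2] _).toAddMonoidHom.comp (red L) := by
      refine red_hom_ext fun m y => ?_
      show red _ (cross ℤ (N.sx ℤ x) (N.sx ℤ y)) = cross F2 (red K (N.sx ℤ x)) (red L (N.sx ℤ y))
      rw [red_sx, red_sx, cross_sx, cross_sx, red_map, red_E _ _ _ rfl]
    exact DFunLike.congr_fun this b
  have : (red _).comp ((cross ℤ).flip b : N ℤ K →ₗ[ℤ] _).toAddMonoidHom =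
      ((cross F2).flip (red L b) : N F2 K →ₗ[F2] _).toAddMonoidHom.comp (red K) :=
    red_hom_ext fun m y => h1 m y b
  exact DFunLike.congr_fun this a

end Red

variable {B : Type} [TopologicalSpace B]

theorem bd_ps (R : Type) [CommRing R] {b : B} (p : Path b b) :
    N.bd R (SS.Sing B) (N.sx R (K := SS.Sing B) (ps p)) = 0 := by
  rw [bd_sx, Fin.sum_univ_two]
  have e0 : (SS.Sing B).act (Op.face 0) (ps p) = cst b 0 := by
    show (SS.Sing B).act (Op.face 0) (pth p.toContinuousMap ![0, 1]) = _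
    rw [pth_act, face0_1]
    refine ContinuousMap.ext fun t => ?_
    show p (crd _ t) = b
    rw [crd_const, p.target]
  have e1 : (SS.Sing B).act (Op.face 1) (ps p) = cst b 0 := by
    show (SS.Sing B).act (Op.face 1) (pth p.toContinuousMap ![0, 1]) = _
    rw [pth_act, face1_1]
    refine ContinuousMap.ext fun t => ?_
    show p (crd _ t) = b
    rw [crd_const, p.source]
  rw [e0, e1]
  simp

/-- the mod 2 homology class of a loop -/
def hcl {b : B} (p : Path b b) : H F2 (SS.Sing B) := Hd.mk _ (N.sx F2 (K := SS.Sing B) (ps p)) (bd_ps F2 p)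

theorem hcl_ne_zero_iff {b : B} (p : Path b b) :
    hcl p ≠ 0 ↔ ¬ ∃ w, N.bd F2 (SS.Sing B) w = N.sx F2 (K := SS.Sing B) (ps p) := by
  rw [hcl, ne_eq, Hd.mk_eq_zero]

theorem free_of_sq {b : B} (p : Path b b) (hne : hcl p ≠ 0)
    (mu : SS.Hom ((SS.Sing B).prod (SS.Sing B)) (SS.Sing B))
    (h2 : ∀ z ∈ H.gr F2 (SS.Sing B) 2,
      ∃ e : F2, z = e • H.map F2 mu (EZ847.ezd.cr _ _ (hcl p ⊗ₜ hcl p)))
    (k : ℤ) (hk : (Cov892.lc p) ^ k = 1) : k = 0 := by
  set c : N ℤ (SS.Sing B) := N.sx ℤ (K := SS.Sing B) (ps p) with hc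
  have hbc : N.bd ℤ _ c = 0 := bd_ps ℤ p
  have hr : red _ (N.map ℤ mu (cross ℤ c c)) =
      N.map F2 mu (cross F2 (N.sx F2 (K := SS.Sing B) (ps p)) (N.sx F2 (K := SS.Sing B) (ps p))) := by
    rw [red_map, red_cross, hc, red_sx]
  refine free_of_H2 p ((hcl_ne_zero_iff p).1 hne) (N.map ℤ mu (cross ℤ c c)) ?_ ?_ k hk
  · have := LinearMap.congr_fun (N.map_bd (R := ℤ) mu) (cross ℤ c c)
    rw [LinearMap.comp_apply, LinearMap.comp_apply] at this
    rw [← this, bd_cross, hbc, map_zero, LinearMap.zero_apply, map_zero, add_zero, map_zero]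
  · intro v hv hbv
    obtain ⟨e, he⟩ := h2 (Hd.mk _ v hbv) (Submodule.mem_map.2 ⟨⟨v, hbv⟩, hv, rfl⟩)
    rw [hcl, Coalg847.EZData.cr_mk, Coalg847.hMap_mk] at he
    rw [hr]
    have h3 : ∀ (z : N F2 (SS.Sing B)) (hz : N.bd F2 _ z = 0), Hd.mk (N.bd F2 _) v hbv = e • Hd.mk _ z hz →
        ∃ w, v = e • z + N.bd F2 _ w := by
      intro z hz h
      have h4 : e • Hd.mk (N.bd F2 _) z hz = Hd.mk (N.bd F2 _) (e • z) (by rw [map_smul, hz, smul_zero]) := rfl
      rw [h4, Hd.mk_eq_mk] at h
      obtain ⟨w, hw⟩ := h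
      exact ⟨w, by rw [hw]; abel⟩
    obtain ⟨w, hw⟩ := h3 _ _ he
    exact ⟨e, w, hw⟩

end Crest.Agent.R204.Pi808
end
end

-- ▼ part R204/PiE_808
section

/-!
# Row 204, B5 (helper808): the suspension of a vertex is the class of a loop; `hinf` for `X_1`
-/

set_option autoImplicit false
set_option linter.unusedVariables false

noncomputable section

namespace Crest.Agent.R204.Pi808

open scoped Topology unitInterval TensorProduct
open Crest.Agent.R204.Sus330 Coalg847

variable {P Y : Type} [TopologicalSpace P] [TopologicalSpace Y] {g0 : P} {y0 : Y}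

/-- the path of a point of a loop space -/
def lpath (Λ : LoopStr P Y g0 y0) (g : P) : Path y0 y0 where
  toFun s := Λ.ev (s, g)
  continuous_toFun := Λ.ev.continuous.comp (by fun_prop)
  source' := Λ.ev_zero g
  target' := Λ.ev_one g

@[simp] theorem lpath_apply (Λ : LoopStr P Y g0 y0) (g : P) (s : I) : lpath Λ g s = Λ.ev (s, g) := rfl

theorem sig_vtx (R : Type) [CommRing R] (Λ : LoopStr P Y g0 y0) (a : (SS.Sing P).S 0) (g : P)
    (ha : ∀ u, sg a u = g) :
    Λ.sig R (N.sx R a) = N.sx R (K := SS.Sing Y) (ps (lpath Λ g)) := by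
  refine Λ.sig_adj R a _ fun s u => ?_
  rw [ha]
  show Λ.ev (s, g) = Λ.ev (crd ![0, 1] (qP (s, u)), g)
  congr 2
  apply Subtype.ext
  rw [crd2_val]
  have h1 : (qP (s, u) : Dl 1) 1 = (s : ℝ) := by
    have h := qP_succ (s, u) (0 : Fin 1)
    have e : (0 : Fin 1).succ = (1 : Fin 2) := rfl
    rw [e] at h
    rw [h]
    have t0 : tl u ((0 : Fin 1) : ℕ) = 1 := tl_zero u
    have t1 : tl u (((0 : Fin 1) : ℕ) + 1) = 0 := tl_big u (by decide)
    rw [t0, t1, min_eq_left s.2.2, min_eq_right s.2.1, sub_zero]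
  rw [h1]
  simp

/-- **the loop suspension of a vertex class** -/
theorem sigma_vtx (Λ : LoopStr P Y g0 y0) (a : (SS.Sing P).S 0) (g : P) (ha : ∀ u, sg a u = g) :
    Λ.sigma (vtx a) = hcl (lpath Λ g) := by
  rw [vtx, LoopStr.sigma_mk, hcl]
  congr 1
  exact sig_vtx F2 Λ a g ha

open Crest.Agent.R204.Inst194 Crest.Agent.R204.Hsp696
open scoped Topology.Homotopy

theorem lpath_loopC {Z : Type} [TopologicalSpace Z] {z₀ : Z} {a b : ℕ} (h : a = b + 1)
    (g : Ω^ (Fin a) Z z₀) : lpath (loopC h) g = toPath (castL h g) := by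
  subst h; rfl

theorem lpath_loopX {J0 K : ℕ} (h : 0 < K) (g : XT J0 K 0) :
    lpath (loopX J0 h) g = toPath (castL (cd_succ h) g) := lpath_loopC _ _

/-- `x_1 = σ x_0` is the class of the loop `iotaP` -/
theorem sigma_iota {J0 K : ℕ} (h : 0 < K) (v : (XS J0 K 0).S 0)
    (hv : ∀ u, sg v u = iotaL (J0 + K)) :
    (loopX J0 h).sigma (vtx v) = hcl (iotaP J0 K h) := by
  rw [sigma_vtx (loopX J0 h) v _ hv, lpath_loopX]
  rfl

/-- **`π_1(X_1)` is infinite cyclic**: the class of `iotaP` has infinite order -/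
theorem hinf_XT {J0 K : ℕ} (h : 0 < K) (x1 : H F2 (XS J0 K 1)) (hx1 : x1 = hcl (iotaP J0 K h))
    (hne : x1 ≠ 0) (mu : SS.Hom ((XS J0 K 1).prod (XS J0 K 1)) (XS J0 K 1))
    (h2 : ∀ z ∈ H.gr F2 (XS J0 K 1) 2,
      ∃ e : F2, z = e • H.map F2 mu (EZ847.ezd.cr _ _ (x1 ⊗ₜ x1)))
    (k : ℤ) (hk : Cov892.lc (iotaP J0 K h) ^ k = 1) : k = 0 := by
  subst hx1
  exact free_of_sq (iotaP J0 K h) hne mu h2 k hk

/-- **the universal cover of `X_1` as a `ℤ`-cover** -/
def zcovXT {J0 K : ℕ} (h : 0 < K)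
    (hinf : ∀ k : ℤ, Cov892.lc (iotaP J0 K h) ^ k = 1 → k = 0) :
    haveI := pathConnected_XT (J0 := J0) h le_rfl
    Cov892.ZCov (Cov892.Bt (GenLoop.const : XT J0 K 1)) (XS J0 K 1) :=
  haveI := pathConnected_XT (J0 := J0) h le_rfl
  Cov892.zcov (Cov892.lc (iotaP J0 K h)) (hgen_XT h) hinf

end Crest.Agent.R204.Pi808
end
end

-- ▼ part R204/PiF_808
section

/-!
# Row 204, B5 (helper808): `H_2(X_1)` is spanned by `x_1^2` and `x_k ≠ 0`, from `FactPoly`
-/

set_option autoImplicit false
set_option linter.unusedVariables false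

namespace Crest.Agent.R204.Pi808

open Crest.Agent.R204.Spec114 Crest.Agent.R204.Spec114.Tower MvPolynomial

/-- the empty word -/
def w0 : Wd := ⟨[], by simp⟩

theorem wdeg_ge (k : ℕ) (I : List ℕ) : k ≤ wdeg k I := by
  induction I with
  | nil => exact le_rfl
  | cons i L ih =>
    show k ≤ 2 * wdeg k L + i
    omega

theorem wdeg_one_of_ne (I : Wd) (h : I ≠ w0) : 3 ≤ wdeg 1 I.1 := by
  obtain ⟨L, hL⟩ := I
  rcases L with _ | ⟨i, L⟩
  · exact absurd rfl h
  · show 3 ≤ 2 * wdeg 1 L + i
    have h1 := wdeg_ge 1 L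
    have h2 := hL.2 i (by simp)
    omega

theorem gr_one_two {X : Tower} {D : ℕ} (hP : X.FactPoly D) (z : X.H 1) (hz : z ∈ X.gr 1 2) :
    ∃ e : F2, z = e • (X.x 1 * X.x 1) := by
  classical
  obtain ⟨p, hp, rfl⟩ := (hP 1 le_rfl (by omega)).2 2 (by omega) hz
  have hp' : IsWeightedHomogeneous (fun I : Wd => wdeg 1 I.1) p 2 := hp
  have key : ∀ m : Wd →₀ ℕ, coeff m p ≠ 0 → m = Finsupp.single w0 2 := by
    intro m hm
    have h1 : Finsupp.weight (fun I : Wd => wdeg 1 I.1) m = 2 := hp' hm
    rw [Finsupp.weight_apply, Finsupp.sum] at h1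
    have h2 : ∀ I : Wd, I ≠ w0 → m I = 0 := by
      intro I hI
      by_contra h3
      have h4 : m I • wdeg 1 I.1 ≤ 2 := by
        rw [← h1]
        exact Finset.single_le_sum (f := fun I : Wd => m I • wdeg 1 I.1) (fun _ _ => Nat.zero_le _)
          (Finsupp.mem_support_iff.2 h3)
      have h5 := wdeg_one_of_ne I hI
      have h6 : 1 ≤ m I := Nat.one_le_iff_ne_zero.2 h3
      rw [smul_eq_mul] at h4
      nlinarith
    have h7 : m = Finsupp.single w0 (m w0) := by
      ext I
      by_cases hI : I = w0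
      · subst hI; simp
      · rw [h2 I hI, Finsupp.single_eq_of_ne hI]
    have h8 : m w0 = 2 := by
      have h9 : ∑ I ∈ m.support, m I • wdeg 1 I.1 = m w0 • wdeg 1 (w0 : Wd).1 := by
        refine Finset.sum_eq_single w0 (fun I _ hI => by rw [h2 I hI, zero_smul]) (fun h => ?_)
        rw [Finsupp.notMem_support_iff.1 h, zero_smul]
      rw [h9] at h1
      have h10 : wdeg 1 (w0 : Wd).1 = 1 := rfl
      rw [h10] at h1
      simpa using h1
    rw [h7, h8]
  have hpe : p = monomial (Finsupp.single w0 2) (coeff (Finsupp.single w0 2) p) := by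
    ext m
    rw [coeff_monomial]
    split_ifs with h
    · rw [h]
    · by_contra h3
      exact h (key m h3).symm
  refine ⟨coeff (Finsupp.single w0 2) p, ?_⟩
  rw [hpe]
  show aeval (fun I : Wd => X.word 1 I.1) (monomial (Finsupp.single w0 2) _) = _
  have h12 : (Finsupp.single w0 2 : Wd →₀ ℕ).prod (fun (I : Wd) k => X.word 1 I.1 ^ k) =
      X.word 1 (w0 : Wd).1 ^ 2 := Finsupp.prod_single_index (pow_zero _)
  have h11 : X.word 1 (w0 : Wd).1 = X.x 1 := rfl
  rw [aeval_monomial, coeff_monomial, if_pos rfl, Algebra.smul_def]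
  erw [h12]
  rw [h11, pow_two]


end Crest.Agent.R204.Pi808
end

-- ▼ part R204/Cov5_892
section

/-!
# Row 204, leaf B5: the range loop statement on the base component (owner helper892)

`loop_base` : 979's `loop_polyR` for a principal fibration `X` whose `H(G)` is identified with a subalgebra
`base` of an algebra `H0` (`H0 = H(Ω^(n+1) Z)`, `base` = homology of the component of the constant loop).
-/

set_option autoImplicit false

noncomputable section

namespace Crest.Agent.R204.Cov892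

open Crest.Agent.R204 Crest.Agent.R204.Bis343 Crest.Agent.R204.Bis343.BSS Crest.Agent.R204.Bar170
  Crest.Agent.R204.Coalg847 Crest.Agent.R204.Ind979 Crest.Agent.R204.Bar334 Crest.Agent.R204.Geo979
open TensorProduct

section alg

variable {H0 : Type} [CommRing H0] [Algebra F2 H0] {base : Subalgebra F2 H0}

theorem mval_val {ι : Type} (v : ι → base) (m : ι →₀ ℕ) :
    ((mval v m : base) : H0) = mval (fun i => (v i : H0)) m := by
  unfold mval
  exact map_finsuppProd base.val m _

/-- range polynomial generators of a subalgebra, seen in the big algebra -/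
theorem PolyR.of_base {gr0 : ℕ → Submodule F2 H0} {ι : Type} {v : ι → base} {deg : ι → ℕ} {N : ℕ}
    (h : PolyR (fun t => (gr0 t).comap base.val.toLinearMap) v deg N) :
    PolyR (fun t => gr0 t ⊓ Subalgebra.toSubmodule base) (fun i => (v i : H0)) deg N := by
  refine ⟨fun t ht => ?_, fun t ht a ha => ?_⟩
  · have h1 := (h.1 t ht).map' base.val.toLinearMap (LinearMap.ker_eq_bot.2 Subtype.val_injective)
    have h2 : (fun m : {m : ι →₀ ℕ // mdeg deg m = t} => mval (fun i => (v i : H0)) m) =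
        base.val.toLinearMap ∘ fun m : {m : ι →₀ ℕ // mdeg deg m = t} => mval v m :=
      funext fun m => (mval_val v m).symm
    rw [h2]
    exact h1
  · have h2 := h.2 t ht (show (⟨a, ha.2⟩ : base) ∈ _ from ha.1)
    have h3 := Submodule.mem_map_of_mem (f := base.val.toLinearMap) h2
    rw [Submodule.map_span, Set.image_image] at h3
    refine Submodule.span_mono ?_ h3
    rintro _ ⟨m, hm, rfl⟩
    exact ⟨m, hm, (mval_val v m).symm⟩

end alg

section loop

variable {X : PFib} {H0 A : Type} [CommRing H0] [Algebra F2 H0] [CommRing A] [Algebra F2 A]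
  {ι : Type}


end loop

end Crest.Agent.R204.Cov892
end
end

-- ▼ part R204/Cov6_892

/-!
# Row 204, leaf B5: the suspension of the path fibration and the loop suspension (owner helper892)
-/

set_option autoImplicit false

noncomputable section

open Set unitInterval Topology

namespace Crest.Agent.R204.Cov892

open Crest.Agent.R204 Crest.Agent.R204.SS Crest.Agent.R204.Sus330 Crest.Agent.R204.PF872

variable {B : Type} [TopologicalSpace B] {b : B} {P : Type} [TopologicalSpace P] {g0 : P}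

/-- 755's suspension of the path fibration, projected to the base space, is the loop suspension -/
theorem prj_sus (Λ : LoopStr P B g0 b) (j : C(G0 b, P)) (hj : ∀ g : G0 b, toPB Λ (j g) = g.1)
    (y : H F2 (Sing (G0 b))) :
    H.map F2 (prj b) (Psi755.sus (PF94.psus b) y) = Λ.sigma (H.map F2 (SingMap j) y) := by
  refine (Sigma88.sgH_nat (Psi755.susE_ends (PF94.psus b)) (Sigma88.ends Λ) (SingMap j) (prj b)
    (fun n θ x => ?_) y).symm
  refine ContinuousMap.ext fun u => ?_
  have h1 := congrArg (fun γ : PB b => γ.1 (lam1 (stdSimplex.map (so θ) u))) (hj (sg x u))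
  refine (show _ = (sg x u).1.1 (lam1 (stdSimplex.map (so θ) u)) from h1).trans ?_
  have h2 := PF94.shr_end (sg x u).1 (SingAct265.bar (so θ) u)
  exact h2.symm

section base

open Crest.Agent.R204.Ind979 Crest.Agent.R204.Bar170 Crest.Agent.R204.Psi755 Crest.Agent.R204.Coalg847

/-- **the range loop theorem on the base component**, algebraic form -/
theorem loop_range_base {X : PFib} (S : PSus X) (M : PMul X) {H0 A : Type} [CommRing H0] [Algebra F2 H0]
    [CommRing A] [Algebra F2 A] {ι : Type} {deg : ι → ℕ} (hdeg : ∀ i, 1 ≤ deg i)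
    (connX : ∀ x ∈ H.gr F2 X.G 0, ∃ r : F2, x = r • Coalg847.vtx X.e)
    (base : Subalgebra F2 H0) (gr0 : ℕ → Submodule F2 H0) (θ : H F2 X.G →ₗ[F2] H0)
    (θ_inj : Function.Injective θ) (θ_range : ∀ y ∈ base, ∃ x, θ x = y)
    (θ_gr : ∀ t x, θ x ∈ gr0 t → x ∈ H.gr F2 X.G t)
    (θ_one : θ (Coalg847.vtx X.e) = 1) (θ_mul : ∀ x y, θ (X.mulH EZ847.ezd x y) = θ x * θ y)
    (one_mem : (1 : H0) ∈ gr0 0)
    (mul_mem : ∀ s t a b, a ∈ gr0 s → b ∈ gr0 t → a * b ∈ gr0 (s + t))
    (v : ι → H0) (hv : ∀ i, v i ∈ gr0 (deg i) ⊓ Subalgebra.toSubmodule base)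
    (ψ : H F2 X.K →ₗ[F2] A) (grA : ℕ → Submodule F2 A) (ψ_inj : Function.Injective ψ)
    (hgA : ∀ t a, a ∈ H.gr F2 X.K t → ψ a ∈ grA t)
    (ψ_one : ψ (Coalg847.vtx (X.π.app 0 X.p0)) = 1)
    (ψ_mul : ∀ a b, ψ (mulK M a b) = ψ a * ψ b)
    (s : H0 →ₗ[F2] A) (hs : ∀ x, θ x ∈ base → s (θ x) = ψ (sus S x)) {n : ℕ}
    (h : SimR grA (fun i => s (v i)) (fun i => deg i + 1) (n + 1)) :
    PolyR (fun t => gr0 t ⊓ Subalgebra.toSubmodule base) v deg n := by
  classical
  have hex : ∀ y : base, ∃ x, θ x = (y : H0) := fun y => θ_range y y.2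
  choose g0 hg0 using hex
  let g : base →ₗ[F2] H F2 X.G :=
    { toFun := g0
      map_add' := fun a b => θ_inj (by rw [map_add, hg0, hg0, hg0]; rfl)
      map_smul' := fun r a => θ_inj (by rw [map_smul, hg0, hg0]; rfl) }
  have hg : ∀ y : base, θ (g y) = (y : H0) := hg0
  let v' : ι → base := fun i => ⟨v i, (hv i).2⟩
  refine PolyR.of_base (base := base) (gr0 := gr0) (v := v') (deg := deg) (N := n) ?_
  refine loop_range S M hdeg connX g (fun t => (gr0 t).comap base.val.toLinearMap) ?_ ?_ ?_ ?_ one_mem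
    (fun s t a b ha hb => mul_mem s t a b ha hb) ?_ v' (fun i => (hv i).1) ψ grA ψ_inj hgA ψ_one ψ_mul ?_
  · intro a b hab
    apply Subtype.ext
    rw [← hg, ← hg, hab]
  · intro t a ha
    refine θ_gr t _ ?_
    rw [hg]; exact ha
  · refine θ_inj ?_
    rw [hg, θ_one]; rfl
  · intro a b
    refine θ_inj ?_
    rw [hg, θ_mul, hg, hg]; rfl
  · intro a ha
    have h1 : g a ∈ H.gr F2 X.G 0 := θ_gr 0 _ (by rw [hg]; exact ha)
    obtain ⟨r, hr⟩ := connX _ h1
    have h2 := congrArg θ hr
    rw [hg, map_smul, θ_one] at h2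
    exact Submodule.mem_span_singleton.2 ⟨r, Subtype.ext h2.symm⟩
  · have h3 : (fun i => ψ (sus S (g (v' i)))) = fun i => s (v i) := by
      funext i
      have h4 := hs (g (v' i)) (by rw [hg]; exact (v' i).2)
      rw [hg] at h4
      exact h4.symm
    rw [h3]
    exact h

end base

end Crest.Agent.R204.Cov892
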