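import Crest.Agent.R204.C5T_557
import Crest.Agent.R204.ThAlg_265
import Crest.Agent.R204.C5_265
import Crest.Agent.R204.HtpInv_334
import Crest.Agent.R204.Ops_265
import Crest.Agent.R204.Hopf4_450

-- ▼ part R204/C5U_557
section

/-!
# Row 204, leaf C5 (helper557): `T_i 1` and `T_0` for an abstract `Θ`-algebra
-/

set_option autoImplicit false

noncomputable section

namespace Crest.Agent.R204.C5T557

open SS EZ271 ThetaSS265 ThAlg265
open DK742 hiding bd_sx_zero bd_sx_succ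

variable {M : ℕ} {K : SS}

/-- the cells of this file are the chains `aa` of `C5_265` -/
theorem aCell_eq_aa (M i : ℕ) (h : i ≤ M) : aCell M i h = C5265.aa M i := by
  unfold C5265.aa
  rw [C5265.ee_of_le h, N.map_sx]
  unfold aCell
  congr 2
  exact (skel_e M i h 0).symm

theorem TT_eq (Th : Hom (DM M K) K) (i : ℕ) (h : i ≤ M) :
    TT Th i = H.map F2 (PsiOf Th) ∘ₗ C5265.crossL (C5265.aa M i) (C5265.bd_aa h) := by
  rw [TT_of_le Th i h]
  refine LinearMap.ext fun y => ?_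
  obtain ⟨z, hz, rfl⟩ := Hd.mk_surj _ y
  rw [opT_mk, LinearMap.comp_apply, C5265.crossL_mk]
  refine congrArg (H.map F2 (PsiOf Th)) (a₁ := Hd.mk _ (cross F2 (aCell M i h) z)
    (bd_cross_cyc (bd_aCell M i h) hz)) ?_
  rw [Hd.mk_eq_mk]
  exact ⟨0, by rw [map_zero, aCell_eq_aa, sub_self]⟩

variable (A : ThAlg M K)

theorem psi_one (h1 : A.OneLaw) :
    (PsiOf A.Th).comp (SS.pair (SS.Hom.id (BM M)) (SS.constHom (BM M) K A.one)) =
      SS.constHom (BM M) K A.one := by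
  refine SS.Hom.ext (funext fun n => funext fun b => ?_)
  obtain ⟨g, rfl⟩ := proj_surj (invEM M) n b
  exact h1 n g

theorem psi_vertex :
    (PsiOf A.Th).comp (SS.pair (SS.constHom K (BM M)
      ((proj (invEM M)).app 0 (eM M 0 (Nat.zero_le M) 0))) (SS.Hom.id K)) =
    (A.Th.comp (ThAlg265.vtx M K)).comp (SS.diag K) := by
  refine SS.Hom.ext (funext fun n => funext fun x => ?_)
  show A.Th.app n ((diagD M K).app n ((proj (invEM M)).app n
    ((EM M).act (toZero n) (eM M 0 (Nat.zero_le M) 0)), x)) = A.Th.app n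
      ((proj ((invEM M).prod (Invo.swap K))).app n (e0 M n, (x, x)))
  rw [diagD_proj]
  have h : (EM M).act (toZero n) (eM M 0 (Nat.zero_le M) 0) = e0 M n :=
    Subtype.ext (funext fun i => alt_zero 0 0)
  rw [h]

/-- **`T_i 1 = δ_{i0}`** -/
theorem T_one (h1 : A.OneLaw) (i : ℕ) (hi : i ≤ M) :
    TT A.Th i (C5T557.vtx F2 A.one) = if i = 0 then C5T557.vtx F2 A.one else 0 :=
  TT_one A.Th A.one (by rw [psi_one A h1]) i hi

/-- **`T_0 y = μ_* (Δ_* y)`** -/
theorem T_zero (hV : A.Vertex) (y : H F2 K) :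
    TT A.Th 0 y = H.map F2 A.mu (H.map F2 (SS.diag K) y) := by
  refine TT_zero A.Th A.mu ?_ y
  rw [psi_vertex]
  exact SH.map_eq HtpInv334.homotopyInv F2 (hV.pre (SS.diag K))

end Crest.Agent.R204.C5T557
end
end

-- ▼ part R204/OpsHopf_557

/-!
# Row 204, leaf C5 (helper557): the operations of a `Θ`-algebra against the Pontryagin ring

`Qup`, (1.3) from (P4), `mulL = mulH`, `Q_0`, `T_0`, `T_i 1` in ring language.
-/

set_option autoImplicit false
set_option linter.style.haveILetI false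

noncomputable section

namespace Crest.Agent.R204.OpsHopf557

open TensorProduct Coalg847 Hopf450 ThAlg265 Ops265 C5265 ThetaSS265

variable {M : ℕ} {K : SS}

/-! ## (1.3) from (P4) -/

/-- `Q^s y` for `y` of degree `u` (upper notation) -/
def Qup (A : ThAlg M K) (s u : ℕ) (y : H F2 K) : H F2 K := if u ≤ s then Q A (s - u) y else 0

/-- `T_i y = Θ_* diagD_* (a_i × y)` -/
theorem T_eq (A : ThAlg M K) {i : ℕ} (hi : i ≤ M) (y : H F2 K) :
    T A i y = H.map F2 A.Th (H.map F2 (diagD M K) (crossL (aa M i) (bd_aa hi) y)) := by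
  rw [T, C5T557.TT_eq A.Th i hi]
  show H.map F2 (A.Th.comp (diagD M K)) (crossL (aa M i) (bd_aa hi) y) = _
  rw [Hmap_comp]

/-- (P4) for the class `y` of degree `t` -/
def P4At (M : ℕ) (K : SS) (Sq : ℕ → (H F2 K →ₗ[F2] H F2 K)) (i t : ℕ) (hi : i ≤ M)
    (y : H F2 K) : Prop :=
  H.map F2 (diagD M K) (crossL (aa M i) (bd_aa hi) y) =
    ∑ l ∈ Finset.range (t / 2 + 1), if t ≤ i + 2 * l then pw M K (i + 2 * l - t) (Sq l y) else 0

/-- **(1.3)** : `T_i y = ∑_{2l ≤ t} Q^{i+l} (Sq^l_* y)` -/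
theorem T_eq_sum (A : ThAlg M K) {Sq : ℕ → (H F2 K →ₗ[F2] H F2 K)} {i t : ℕ} {hi : i ≤ M}
    {y : H F2 K} (h : P4At M K Sq i t hi y) :
    T A i y = ∑ l ∈ Finset.range (t / 2 + 1), Qup A (i + l) (t - l) (Sq l y) := by
  rw [T_eq A hi, h, map_sum]
  refine Finset.sum_congr rfl fun l hl => ?_
  have hl' : 2 * l ≤ t := by
    have := Finset.mem_range.1 hl; omega
  unfold Qup
  by_cases h1 : t ≤ i + 2 * l
  · rw [if_pos h1, if_pos (by omega), show i + l - (t - l) = i + 2 * l - t by omega, Q]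
  · rw [if_neg h1, if_neg (by omega), map_zero]

/-! ## ring language -/

section ring

variable (A : ThAlg M K) (P : HMon K) (E : EZData)

/-- the two products agree -/
theorem mulL_eq (hE : E.ez K K = EZ271.cross F2) (x y : H F2 K) :
    P.mulL E x y = mulH P.mu x y := by
  obtain ⟨x, hx, rfl⟩ := Hd.mk_surj _ x
  obtain ⟨y, hy, rfl⟩ := Hd.mk_surj _ y
  rw [HMon.mulL_apply, EZData.cr_mk, mulH_mk]
  have : E.ez K K x y = EZ271.cross F2 x y := by rw [hE]
  rw [Hmap_mk]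
  exact (Hd.mk_eq_mk (d := N.bd F2 K)).2 ⟨0, by rw [map_zero, this, sub_self]⟩


/-- `Q_0 y = y²` -/
theorem Q_zero_mulL (hV : A.Vertex) (hP : P.mu = A.mu) (hE : E.ez K K = EZ271.cross F2)
    (y : H F2 K) : Q A 0 y = P.mulL E y y := by
  rw [Q_zero A hV, mulL_eq P E hE, hP]

/-- multiplication applied to the coproduct -/
theorem map_diag (y : H F2 K) :
    H.map F2 P.mu (H.map F2 (SS.diag K) y) =
      TensorProduct.lift (P.mulL E) (E.cop K y) := by
  have h1 : H.map F2 (SS.diag K) y = E.cr K K (E.cop K y) := by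
    simp [EZData.cop]
  rw [h1]
  generalize E.cop K y = s
  induction s with
  | zero => simp
  | add a b ha hb => simp only [map_add, ha, hb]
  | tmul a b => rfl

/-- `T_0 y = μ Δ y` -/
theorem T_zero_cop (hV : A.Vertex) (hP : P.mu = A.mu) (y : H F2 K) :
    T A 0 y = TensorProduct.lift (P.mulL E) (E.cop K y) := by
  rw [T_zero A hV, ← hP, map_diag P E]

theorem T_zero_ring (hV : A.Vertex) (hP : P.mu = A.mu) (y : H F2 K) :
    letI := P.ring E; letI := P.alg E
    T A 0 y = LinearMap.mul' F2 (H F2 K) (P.copA E y) := by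
  letI := P.ring E
  letI := P.alg E
  rw [T_zero_cop A P E hV hP]
  show _ = LinearMap.mul' F2 (H F2 K) (E.cop K y)
  generalize E.cop K y = s
  induction s with
  | zero => rw [map_zero, map_zero]
  | add a b ha hb => rw [map_add, map_add, ha, hb]
  | tmul a b => rfl

theorem T_one_ring (h1 : A.OneLaw) (hP : P.e = A.one) {i : ℕ} (hi : i ≤ M) :
    letI := P.ring E
    T A i (1 : H F2 K) = if i = 0 then (1 : H F2 K) else 0 := by
  show T A i (Coalg847.vtx P.e) = if i = 0 then Coalg847.vtx P.e else 0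
  rw [hP]
  exact T_one A h1 hi

/-- `FactQ` of `Spec_114` for one stage -/
theorem factQ (hV : A.Vertex) (hP : P.mu = A.mu) (hE : E.ez K K = EZ271.cross F2) {D : ℕ}
    (hD : D + 2 ≤ M) :
    letI := P.ring E
    (∀ y : H F2 K, Q A 0 y = y * y) ∧
    (∀ i, 1 ≤ i → i ≤ D + 1 → ∀ y z : H F2 K, Q A i (y + z) = Q A i y + Q A i z) ∧
    (∀ i ≤ D + 1, ∀ t, ∀ y ∈ H.gr F2 K t, Q A i y ∈ H.gr F2 K (2 * t + i)) :=
  ⟨fun y => Q_zero_mulL A P E hV hP hE y, fun _ _ hi y z => Q_add A (by omega) y z,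
    fun _ hi _ _ hy => Q_gr A (by omega) hy⟩

/-- `FactT0` of `Spec_114` for one stage -/
theorem factT0 (hV : A.Vertex) (hP : P.mu = A.mu) :
    letI := P.ring E; letI := P.alg E
    ∀ y : H F2 K, T A 0 y = LinearMap.mul' F2 (H F2 K) (P.copA E y) :=
  T_zero_ring A P E hV hP

/-- the first two clauses of `FactT` of `Spec_114` for one stage -/
theorem factT12 (h1 : A.OneLaw) (hP : P.e = A.one) {D : ℕ} (hD : D + 1 ≤ M) :
    letI := P.ring E
    ∀ i ≤ D + 1, (∀ t, ∀ y ∈ H.gr F2 K t, T A i y ∈ H.gr F2 K (t + i)) ∧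
      T A i (1 : H F2 K) = if i = 0 then (1 : H F2 K) else 0 :=
  fun _ hi => ⟨fun _ _ hy => T_gr A hy, T_one_ring A P E h1 hP (by omega)⟩

/-- `Fact13` of `Spec_114` for one stage, from (P4) -/
theorem fact13 {Sq : ℕ → (H F2 K →ₗ[F2] H F2 K)} {D : ℕ} (hD : D + 1 ≤ M)
    (h : ∀ i (hi : i ≤ M), 1 ≤ i → i ≤ D + 1 → ∀ t, ∀ y ∈ H.gr F2 K t, P4At M K Sq i t hi y) :
    ∀ i, 1 ≤ i → i ≤ D + 1 → ∀ t, ∀ y ∈ H.gr F2 K t,
      T A i y = ∑ l ∈ Finset.range (t / 2 + 1), Qup A (i + l) (t - l) (Sq l y) :=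
  fun i h1 hi t y hy => T_eq_sum A (h i (by omega) h1 hi t y hy)

end ring

end Crest.Agent.R204.OpsHopf557
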