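import Crest.Agent.R204.Phi_252
import Crest.Agent.R204.QCb_134
import Crest.Agent.R204.Gr_334

/-!
# Row 204, block S: dual Steenrod squares on `H F2 K`   (helper252)
-/

set_option autoImplicit false

noncomputable section

open TensorProduct Finsupp

namespace Crest.Agent.R204.Sq252

open SS DK742 Phi252 QC134

/-! ## functionals on homology -/

section functionals

variable {M : Type*} [AddCommGroup M] [Module F2 M]

/-- functional on homology induced by a cocycle functional -/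
def uH (d : M →ₗ[F2] M) (u : M →ₗ[F2] F2) (hu : ∀ x, u (d x) = 0) : Hd d →ₗ[F2] F2 :=
  Submodule.liftQ _ (u ∘ₗ (LinearMap.ker d).subtype) (by
    rintro ⟨x, hx⟩ hx'
    obtain ⟨w, hw⟩ := hx'
    simp only [Submodule.subtype_apply] at hw
    rw [LinearMap.mem_ker, LinearMap.comp_apply, Submodule.subtype_apply]
    show u x = 0
    rw [← hw, hu])

@[simp] theorem uH_mk (d : M →ₗ[F2] M) (u : M →ₗ[F2] F2) (hu : ∀ x, u (d x) = 0) (z : M)
    (hz : d z = 0) : uH d u hu (Hd.mk d z hz) = u z := rfl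

/-- every functional on homology comes from a cocycle functional -/
theorem exists_uH (d : M →ₗ[F2] M) (hdd : ∀ x, d (d x) = 0) (f : Hd d →ₗ[F2] F2) :
    ∃ (u : M →ₗ[F2] F2) (hu : ∀ x, u (d x) = 0), uH d u hu = f := by
  obtain ⟨u, hu⟩ := LinearMap.exists_extend (f ∘ₗ Submodule.mkQ ((LinearMap.range d).comap
    (LinearMap.ker d).subtype))
  have h1 : ∀ (z : M) (hz : d z = 0), u z = f (Hd.mk d z hz) := fun z hz =>
    LinearMap.congr_fun hu ⟨z, hz⟩
  refine ⟨u, fun x => ?_, ?_⟩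
  · rw [h1 (d x) (hdd x)]
    have : Hd.mk d (d x) (hdd x) = 0 := Hd.mk_eq_zero.2 ⟨x, rfl⟩
    rw [this, map_zero]
  · refine LinearMap.ext fun x => ?_
    obtain ⟨z, hz, rfl⟩ := Hd.mk_surj d x
    rw [uH_mk, h1 z hz]

theorem Hd_ext {d : M →ₗ[F2] M} (hdd : ∀ x, d (d x) = 0) {x y : Hd d}
    (h : ∀ (u : M →ₗ[F2] F2) (hu : ∀ x, u (d x) = 0), uH d u hu x = uH d u hu y) : x = y := by
  rw [← sub_eq_zero, ← Module.forall_dual_apply_eq_zero_iff F2]
  intro f
  obtain ⟨u, hu, rfl⟩ := exists_uH d hdd f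
  rw [map_sub, h u hu, sub_self]

/-- `u ⊗ u` -/
def uu (u : M →ₗ[F2] F2) : (M ⊗[F2] M) →ₗ[F2] F2 := TensorProduct.lift ((LinearMap.mul F2 F2).compl₁₂ u u)

@[simp] theorem uu_tmul (u : M →ₗ[F2] F2) (x y : M) : uu u (x ⊗ₜ y) = u x * u y := rfl

theorem uu_tau (u : M →ₗ[F2] F2) (z : M ⊗[F2] M) : uu u (tau M z) = uu u z := by
  induction z using TensorProduct.induction_on with
  | zero => simp
  | tmul x y => simp [mul_comm]
  | add a b ha hb => simp only [map_add, ha, hb]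

theorem uu_dT (d : M →ₗ[F2] M) (u : M →ₗ[F2] F2) (hu : ∀ x, u (d x) = 0) (z : M ⊗[F2] M) :
    uu u (dT d d z) = 0 := by
  induction z using TensorProduct.induction_on with
  | zero => simp
  | tmul x y => simp [hu]
  | add a b ha hb => simp only [map_add, ha, hb, add_zero]

/-- the functional `e_i ⊗ c ↦ [i = j] (u ⊗ u)(c)` on the quadratic construction -/
def FQ (u : M →ₗ[F2] F2) (j : ℕ) : (ℕ →₀ (M ⊗[F2] M)) →ₗ[F2] F2 := uu u ∘ₗ Finsupp.lapply j

theorem FQ_apply (u : M →ₗ[F2] F2) (j : ℕ) (z : ℕ →₀ (M ⊗[F2] M)) : FQ u j z = uu u (z j) := rfl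

theorem FQ_dQ (d : M →ₗ[F2] M) (u : M →ₗ[F2] F2) (hu : ∀ x, u (d x) = 0) (j : ℕ)
    (z : ℕ →₀ (M ⊗[F2] M)) : FQ u j (dQ d z) = 0 := by
  rw [FQ_apply, dQ, QD_apply, map_add, map_add, uu_dT d u hu, uu_tau, zero_add]
  exact two_eq _

theorem f2_sq (a : F2) : a * a = a := by
  fin_cases a <;> rfl

variable (d : M →ₗ[F2] M) (hdd : ∀ x, d (d x) = 0)

include hdd in
theorem exists_kap (j : ℕ) : ∃ κ : Hd (dQ d) →ₗ[F2] Hd d,
    ∀ (u : M →ₗ[F2] F2) (hu : ∀ x, u (d x) = 0) (ζ : Hd (dQ d)),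
      uH d u hu (κ ζ) = uH (dQ d) (FQ u (j + 1)) (FQ_dQ d u hu (j + 1)) ζ := by
  classical
  obtain ⟨J, b, hb⟩ := exists_HBasis d
  let _ : LinearOrder J := linearOrderOfSTO (WellOrderingRel (α := J))
  let B := (hb.quad hdd).toBasis
  let κ : Hd (dQ d) →ₗ[F2] Hd d := B.constr F2 (fun a => match a with
    | Sum.inl p => if p.1 = j + 1 then Hd.mk d (b p.2) (hb.cyc p.2) else 0
    | Sum.inr _ => 0)
  refine ⟨κ, fun u hu ζ => ?_⟩
  have : uH d u hu ∘ₗ κ = uH (dQ d) (FQ u (j + 1)) (FQ_dQ d u hu (j + 1)) := by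
    refine B.ext fun a => ?_
    rw [LinearMap.comp_apply, Module.Basis.constr_basis]
    rcases a with ⟨i, k⟩ | p
    · show uH d u hu (if i = j + 1 then _ else 0) = _
      rw [HBasis.toBasis_apply, uH_mk, FQ_apply]
      simp only [qfam]
      split_ifs with h
      · subst h
        rw [uH_mk, Finsupp.single_eq_same, uu_tmul, f2_sq]
      · rw [map_zero, Finsupp.single_eq_of_ne (by omega), map_zero]
    · show uH d u hu 0 = _
      rw [HBasis.toBasis_apply, uH_mk, FQ_apply]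
      simp only [qfam]
      rw [map_zero, Finsupp.single_eq_of_ne (by omega), map_zero]
  exact LinearMap.congr_fun this ζ

/-- extraction of the `e_{j+1}`-component -/
def kap (j : ℕ) : Hd (dQ d) →ₗ[F2] Hd d := (exists_kap d hdd j).choose

theorem uH_kap (j : ℕ) (u : M →ₗ[F2] F2) (hu : ∀ x, u (d x) = 0) (ζ : Hd (dQ d)) :
    uH d u hu (kap d hdd j ζ) = uH (dQ d) (FQ u (j + 1)) (FQ_dQ d u hu (j + 1)) ζ :=
  (exists_kap d hdd j).choose_spec u hu ζ




end functionals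

/-! ## the chain maps `x ↦ ∑_{a+b=i} e_a ⊗ t^a Φ_b(x)` -/

theorem dd_eq (K : SS) : dd K = dT (N.bd F2 K) (N.bd F2 K) := rfl
theorem tt_eq (K : SS) : tt K = tau (N F2 K) := rfl

/-- `t^a` -/
def tpow (K : SS) (a : ℕ) : NN K →ₗ[F2] NN K := if a % 2 = 0 then LinearMap.id else tt K


theorem tpow_succ {K : SS} (a : ℕ) (z : NN K) : tpow K (a + 1) z = tt K (tpow K a z) := by
  unfold tpow
  rcases Nat.mod_two_eq_zero_or_one a with h | h
  · have : (a + 1) % 2 = 1 := by omega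
    simp [h, this]
  · have : (a + 1) % 2 = 0 := by omega
    simp [h, this, tt_tt]

theorem dd_tpow {K : SS} (a : ℕ) (z : NN K) : dd K (tpow K a z) = tpow K a (dd K z) := by
  unfold tpow; split_ifs
  · rfl
  · exact dd_tt z

theorem uu_tpow {K : SS} (u : N F2 K →ₗ[F2] F2) (a : ℕ) (z : NN K) : uu u (tpow K a z) = uu u z := by
  unfold tpow; split_ifs
  · rfl
  · exact uu_tau u z

/-- the chain map `x ↦ ∑_{a+b=i} e_a ⊗ t^a Φ_b(x)` -/
def StC (K : SS) (i : ℕ) : N F2 K →ₗ[F2] (ℕ →₀ NN K) :=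
  ∑ a ∈ Finset.range (i + 1), Finsupp.lsingle a ∘ₗ tpow K a ∘ₗ Phi K (i - a)

theorem StC_apply (K : SS) (i : ℕ) (x : N F2 K) (a : ℕ) :
    StC K i x a = if a ≤ i then tpow K a (Phi K (i - a) x) else 0 := by
  unfold StC
  rw [LinearMap.sum_apply, Finsupp.finsetSum_apply]
  simp only [LinearMap.comp_apply, Finsupp.lsingle_apply, Finsupp.single_apply]
  rw [Finset.sum_ite_eq']
  simp only [Finset.mem_range, Nat.lt_succ_iff]

theorem StC_bd (K : SS) (i : ℕ) (x : N F2 K) :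
    StC K i (N.bd F2 K x) = dQ (N.bd F2 K) (StC K i x) := by
  ext a : 1
  rw [dQ, QD_apply, StC_apply, StC_apply, StC_apply, ← dd_eq, ← tt_eq]
  rcases lt_trichotomy a i with h | h | h
  · obtain ⟨b, hb⟩ : ∃ b, i - a = b + 1 := ⟨i - a - 1, by omega⟩
    have hb' : i - (a + 1) = b := by omega
    rw [if_pos h.le, if_pos h.le, if_pos (by omega), hb, hb', dd_tpow, dd_Phi_succ, map_add, map_add,
      tpow_succ, tt_tt]
    have e1 : tpow K a (tt K (Phi K b x)) = tt K (tpow K a (Phi K b x)) := by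
      unfold tpow; split_ifs <;> rfl
    rw [e1]
    have := two_eq (tpow K a (Phi K b x) + tt K (tpow K a (Phi K b x)))
    linear_combination (norm := module) -this
  · subst h
    rw [if_pos le_rfl, if_pos le_rfl, if_neg (by omega), Nat.sub_self, dd_tpow, dd_Phi_zero]
    simp
  · rw [if_neg (by omega), if_neg (by omega), if_neg (by omega)]
    simp

theorem bdd (K : SS) : ∀ x, N.bd F2 K (N.bd F2 K x) = 0 := fun x => N.bd_bd x

/-- `St_i` in homology -/
def St (K : SS) (i : ℕ) : H F2 K →ₗ[F2] Hd (dQ (N.bd F2 K)) :=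
  Hd.map (StC K i) (LinearMap.ext fun x => StC_bd K i x)

theorem St_mk (K : SS) (i : ℕ) (z : N F2 K) (hz : N.bd F2 K z = 0) :
    St K i (Hd.mk _ z hz) = Hd.mk _ (StC K i z) (by rw [← StC_bd, hz, map_zero]) := rfl

/-- `R_k : H_n → H_{(n+k)/2}`; `R_k = Sq_l` for `k = n - 2 l` -/
def Rk (K : SS) (k : ℕ) : H F2 K →ₗ[F2] H F2 K := kap (N.bd F2 K) (bdd K) 0 ∘ₗ St K (k + 1)

/-- **functional characterisation** -/
theorem uH_Rk (K : SS) (k : ℕ) (u : N F2 K →ₗ[F2] F2) (hu : ∀ x, u (N.bd F2 K x) = 0) (z : N F2 K)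
    (hz : N.bd F2 K z = 0) : uH _ u hu (Rk K k (Hd.mk _ z hz)) = uu u (Phi K k z) := by
  rw [Rk, LinearMap.comp_apply, uH_kap, St_mk, uH_mk, FQ_apply, StC_apply, if_pos (by omega), uu_tpow]
  congr 2


theorem uu_nm {K L : SS} (f : Hom K L) (u : N F2 L →ₗ[F2] F2) (z : NN K) :
    uu u (nm f z) = uu (u ∘ₗ N.map F2 f) z := by
  induction z using TensorProduct.induction_on with
  | zero => simp
  | tmul x y => simp
  | add a b ha hb => simp only [map_add, ha, hb]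

/-- naturality of `R_k` -/
theorem Rk_map {K L : SS} (f : Hom K L) (k : ℕ) (x : H F2 K) :
    H.map F2 f (Rk K k x) = Rk L k (H.map F2 f x) := by
  obtain ⟨z, hz, rfl⟩ := Hd.mk_surj _ x
  refine Hd_ext (bdd L) fun u hu => ?_
  have hu' : ∀ x, (u ∘ₗ N.map F2 f) (N.bd F2 K x) = 0 := fun x => by
    rw [LinearMap.comp_apply, map_bd', hu]
  have e1 : ∀ y : H F2 K, uH _ u hu (H.map F2 f y) = uH _ (u ∘ₗ N.map F2 f) hu' y := by
    intro y
    obtain ⟨y, hy, rfl⟩ := Hd.mk_surj _ y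
    rfl
  rw [e1, uH_Rk]
  show _ = uH _ u hu (Rk L k (Hd.map _ _ (Hd.mk _ z hz)))
  rw [Hd.map_mk, uH_Rk, ← nm_Phi, uu_nm]

end Crest.Agent.R204.Sq252
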