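import Crest.Agent.R204.QCb_134
import Crest.Agent.R204.AMU_898
import Crest.Agent.R204.Pw_742
import Crest.Agent.R204.Sq_252
import Crest.Agent.R204.C5_265
import Crest.Agent.R204.Gr_334
import Crest.Agent.R204.Sq2_252
import Crest.Agent.R204.OpsHopf_557

-- ▼ part R204/P4a_742
section

/-!
# Row 204, S-block P4, algebraic part (helper742)

* `Fil M d τ dZ P` : a family `P_a : Y → Z`, `a ≤ M`, with `dZ P_a = P_{a-1}(1+τ) + P_a d`
  (`P_a c = e_a ⊗ c` in the quadratic construction or in the chains of `D(K)`).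
* `tot τ P i y = Σ_{a ≤ i} P_a (τ^a y_{i-a})`.
* `tot_bd` : boundary of `tot`.
* `sq_decomp`, `tot_sq` : `Σ_{a ≤ i} P_a (τ^a y_{i-a}) ~ Σ_{a ≤ i} P_a (s_{i-a} ⊗ s_{i-a})`
  when `d y_b = (1+τ) y_{b-1}` and `⟨u, s_b⟩ = (u ⊗ u)(y_b)` for all cocycles `u`, `i < M`.
-/

set_option autoImplicit false
set_option linter.unusedSectionVars false

namespace Crest.Agent.R204.P4

open Finsupp TensorProduct QC134 AMU898

section Fil

variable {Y Z : Type} [AddCommGroup Y] [Module F2 Y] [AddCommGroup Z] [Module F2 Z]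

/-- `P_a c = e_a ⊗ c`, `a ≤ M` -/
structure Fil (M : ℕ∞) (d τ : Y →ₗ[F2] Y) (dZ : Z →ₗ[F2] Z) (P : ℕ → Y →ₗ[F2] Z) : Prop where
  inv : ∀ c, τ (τ c) = c
  comm : ∀ c, d (τ c) = τ (d c)
  zero : ∀ c, dZ (P 0 c) = P 0 (d c)
  succ : ∀ a : ℕ, ((a + 1 : ℕ) : ℕ∞) ≤ M → ∀ c, dZ (P (a + 1) c) = P a (c + τ c) + P (a + 1) (d c)

/-- `Σ_{a ≤ i} P_a (τ^a y_{i-a})` -/
def tot (τ : Y →ₗ[F2] Y) (P : ℕ → Y →ₗ[F2] Z) : ℕ → (ℕ → Y) → Z
  | 0, y => P 0 (y 0)
  | i + 1, y => P (i + 1) ((τ ^ (i + 1)) (y 0)) + tot τ P i (fun b => y (b + 1))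

variable (τ : Y →ₗ[F2] Y) (P : ℕ → Y →ₗ[F2] Z)

theorem tot_zero (y : ℕ → Y) : tot τ P 0 y = P 0 (y 0) := rfl
theorem tot_succ (i : ℕ) (y : ℕ → Y) : tot τ P (i + 1) y =
    P (i + 1) ((τ ^ (i + 1)) (y 0)) + tot τ P i (fun b => y (b + 1)) := rfl

theorem tot_add (i : ℕ) (y y' : ℕ → Y) : tot τ P i (fun b => y b + y' b) =
    tot τ P i y + tot τ P i y' := by
  induction i generalizing y y' with
  | zero => rw [tot_zero, map_add]; rfl
  | succ i ih =>
    rw [tot_succ, tot_succ, tot_succ, map_add, map_add, ih]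
    abel

theorem tot_null (i : ℕ) : tot τ P i (fun _ => 0) = 0 := by
  induction i with
  | zero => rw [tot_zero, map_zero]
  | succ i ih => rw [tot_succ, ih, map_zero, map_zero, add_zero]

/-- a sequence concentrated in index zero -/
def sgl (x : Y) : ℕ → Y
  | 0 => x
  | _ + 1 => 0

@[simp] theorem sgl_zero (x : Y) : sgl x 0 = x := rfl
@[simp] theorem sgl_succ (x : Y) (b : ℕ) : sgl x (b + 1) = 0 := rfl

theorem tot_sgl (i : ℕ) (x : Y) : tot τ P i (sgl x) = P i ((τ ^ i) x) := by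
  rcases i with _ | i
  · rw [tot_zero, pow_zero]; rfl
  · rw [tot_succ]
    simp only [sgl_zero, sgl_succ]
    rw [tot_null, add_zero]

theorem tot_congr (i : ℕ) {y y' : ℕ → Y} (h : ∀ b, b ≤ i → y b = y' b) :
    tot τ P i y = tot τ P i y' := by
  induction i generalizing y y' with
  | zero => rw [tot_zero, tot_zero, h 0 le_rfl]
  | succ i ih =>
    rw [tot_succ, tot_succ, h 0 (Nat.zero_le _), ih (fun b hb => h (b + 1) (by omega))]

/-- closed form -/
theorem tot_eq_sum (i : ℕ) (y : ℕ → Y) :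
    tot τ P i y = ∑ a ∈ Finset.range (i + 1), P a ((τ ^ a) (y (i - a))) := by
  induction i generalizing y with
  | zero => simp [tot_zero]
  | succ i ih =>
    rw [tot_succ, ih, Finset.sum_range_succ _ (i + 1), add_comm]
    congr 1
    · refine Finset.sum_congr rfl fun a ha => ?_
      rw [Finset.mem_range] at ha
      rw [show i - a + 1 = i + 1 - a by omega]
    · rw [Nat.sub_self]

variable {τ P}

theorem pow_inv (h : ∀ c, τ (τ c) = c) (a : ℕ) (c : Y) :
    (τ ^ a) c + (τ ^ (a + 1)) c = c + τ c := by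
  induction a with
  | zero => simp
  | succ a ih =>
    rw [pow_succ' τ (a + 1), Module.End.mul_apply]
    have h1 : (τ ^ (a + 1)) c = τ ((τ ^ a) c) := by rw [pow_succ', Module.End.mul_apply]
    have h2 := ih
    rw [h1] at h2 ⊢
    rw [h, add_comm]; exact h2

theorem pow_add_inv (h : ∀ c, τ (τ c) = c) (a : ℕ) (c : Y) :
    (τ ^ a) (c + τ c) = c + τ c := by
  rw [map_add]
  have : (τ ^ a) (τ c) = (τ ^ (a + 1)) c := by rw [pow_succ, Module.End.mul_apply]
  rw [this, pow_inv h]

theorem pow_comm {d : Y →ₗ[F2] Y} (h : ∀ c, d (τ c) = τ (d c)) (a : ℕ) (c : Y) :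
    d ((τ ^ a) c) = (τ ^ a) (d c) := by
  induction a with
  | zero => simp
  | succ a ih => rw [pow_succ', Module.End.mul_apply, Module.End.mul_apply, h, ih]

variable {M : ℕ∞} {d : Y →ₗ[F2] Y} {dZ : Z →ₗ[F2] Z}

theorem le_of_succ {i : ℕ} (h : ((i + 1 : ℕ) : ℕ∞) ≤ M) : (i : ℕ∞) ≤ M :=
  le_trans (by exact_mod_cast Nat.le_succ i) h

theorem Fil.pow (F : Fil M d τ dZ P) (a : ℕ) (h : ((a + 1 : ℕ) : ℕ∞) ≤ M) (b : ℕ) (c : Y) :
    dZ (P (a + 1) ((τ ^ b) c)) = P a ((τ ^ a) (c + τ c)) + P (a + 1) ((τ ^ b) (d c)) := by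
  rw [F.succ a h, pow_comm F.comm, pow_add_inv F.inv]
  congr 2
  have : τ ((τ ^ b) c) = (τ ^ (b + 1)) c := by rw [pow_succ', Module.End.mul_apply]
  rw [this, pow_inv F.inv]

/-- the boundary of `tot` -/
theorem tot_bd (F : Fil M d τ dZ P) : ∀ (i : ℕ) (_ : (i : ℕ∞) ≤ M) (w : ℕ → Y),
    dZ (tot τ P i w) = tot τ P i (fun b => d (w b) + (prev w b + τ (prev w b))) := by
  intro i
  induction i with
  | zero => intro _ w; rw [tot_zero, tot_zero, F.zero]; simp
  | succ i ih =>
    intro h w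
    rw [tot_succ, map_add, F.pow i h, ih (le_of_succ h), tot_succ]
    have h1 : tot τ P i (fun b => d (w (b + 1)) + (prev w (b + 1) + τ (prev w (b + 1)))) =
        tot τ P i (fun b => d (w (b + 1)) + (prev (fun b => w (b + 1)) b +
          τ (prev (fun b => w (b + 1)) b))) + tot τ P i (sgl (w 0 + τ (w 0))) := by
      rw [← tot_add]
      refine tot_congr τ P i fun b _ => ?_
      rcases b with _ | b
      · simp
      · simp
    rw [h1, tot_sgl]
    simp only [prev_zero, map_zero, add_zero]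
    abel

end Fil

/-! ## tensor products of functionals -/

section ten

variable {C : Type*} [AddCommGroup C] [Module F2 C]

/-- `u ⊗ v` as a functional -/
noncomputable def ten (u v : C →ₗ[F2] F2) : C ⊗[F2] C →ₗ[F2] F2 :=
  LinearMap.mul' F2 F2 ∘ₗ TensorProduct.map u v

@[simp] theorem ten_tmul (u v : C →ₗ[F2] F2) (x y : C) : ten u v (x ⊗ₜ y) = u x * v y := rfl

theorem ten_tau (u v : C →ₗ[F2] F2) (x : C ⊗[F2] C) : ten u v (tau C x) = ten v u x := by
  induction x using TensorProduct.induction_on with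
  | zero => simp
  | add x y hx hy => simp only [map_add, hx, hy]
  | tmul x y => rw [tau_tmul, ten_tmul, ten_tmul, mul_comm]

theorem ten_dT {d : C →ₗ[F2] C} {u v : C →ₗ[F2] F2} (hu : ∀ x, u (d x) = 0) (hv : ∀ x, v (d x) = 0)
    (x : C ⊗[F2] C) : ten u v (dT d d x) = 0 := by
  induction x using TensorProduct.induction_on with
  | zero => simp
  | add x y hx hy => simp only [map_add, hx, hy, add_zero]
  | tmul x y => rw [dT_tmul, map_add, ten_tmul, ten_tmul, hu, hv]; simp

end ten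

/-! ## the key lemma -/

section key

variable {C : Type*} [AddCommGroup C] [Module F2 C] {d : C →ₗ[F2] C}

theorem sq_congr (a r : C) (ha : d a = 0) (hdd : ∀ x, d (d x) = 0) :
    ∃ u, (a + d r) ⊗ₜ[F2] (a + d r) = a ⊗ₜ[F2] a + dT d d u := by
  refine ⟨a ⊗ₜ r + r ⊗ₜ a + r ⊗ₜ d r, ?_⟩
  simp only [map_add, dT_tmul, ha, hdd, TensorProduct.zero_tmul, TensorProduct.tmul_zero, zero_add,
    add_zero, TensorProduct.add_tmul, TensorProduct.tmul_add]
  abel

theorem sym_zero_diag {J : Type*} [LinearOrder J] (e : (J × J) →₀ F2)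
    (hs : ∀ p, e p.swap = e p) (hd : ∀ j, e (j, j) = 0) :
    e = e.filter (fun p => p.1 < p.2) + swapJ (e.filter (fun p => p.1 < p.2)) := by
  ext p
  rw [Finsupp.add_apply, swapJ_apply]
  simp only [Finsupp.filter_apply, Prod.fst_swap, Prod.snd_swap]
  obtain ⟨j, k⟩ := p
  rcases lt_trichotomy j k with h | h | h
  · simp [h, not_lt.2 h.le]
  · subst h
    simp [hd]
  · have h' : e (k, j) = e (j, k) := hs (j, k)
    simp [h, not_lt.2 h.le, h']

theorem lc_swap {J : Type*} [LinearOrder J] (b : J → C) (e : (J × J) →₀ F2) :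
    Finsupp.linearCombination F2 (fun p : J × J => b p.1 ⊗ₜ[F2] b p.2) (swapJ e) =
      tau C (Finsupp.linearCombination F2 (fun p : J × J => b p.1 ⊗ₜ[F2] b p.2) e) := by
  induction e using Finsupp.induction_linear with
  | zero => simp
  | add f g hf hg => simp only [map_add, hf, hg]
  | single p r =>
    rw [swapJ, Finsupp.lmapDomain_apply, Finsupp.mapDomain_single,
      Finsupp.linearCombination_single, Finsupp.linearCombination_single, map_smul, tau_tmul]
    rfl

/-- the functional dual to a member of a homology basis -/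
theorem HBasis.dual {J : Type*} {b : J → C} (hdd : ∀ x, d (d x) = 0) (h : HBasis d b) :
    ∃ u : J → (C →ₗ[F2] F2), (∀ j x, u j (d x) = 0) ∧ (∀ j (c : J →₀ F2),
      u j (Finsupp.linearCombination F2 b c) = c j) ∧
      ∀ z, d z = 0 → ∃ (c : J →₀ F2) (r : C), z = Finsupp.linearCombination F2 b c + d r ∧
        ∀ j, c j = u j z := by
  obtain ⟨g, s, s', h1, h2, h3⟩ := QI.homotopyEquiv (fun _ => rfl) hdd h
  refine ⟨fun j => Finsupp.lapply j ∘ₗ g, ?_, ?_, ?_⟩
  · intro j x
    rw [LinearMap.comp_apply, h1]; simp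
  · intro j c
    have := h2 c
    simp only [LinearMap.zero_apply, map_zero, zero_add, add_zero] at this
    rw [LinearMap.comp_apply, this]; rfl
  · intro z hz
    refine ⟨g z, s' z, ?_, fun j => rfl⟩
    have := h3 z
    rw [hz, map_zero, add_zero, add_comm] at this
    exact this.symm

theorem ten_lc {J : Type*} {b : J → C} {u v : C →ₗ[F2] F2} (e : (J × J) →₀ F2) :
    ten u v (Finsupp.linearCombination F2 (fun p : J × J => b p.1 ⊗ₜ[F2] b p.2) e) =
      e.sum fun p r => r * (u (b p.1) * v (b p.2)) := by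
  rw [Finsupp.linearCombination_apply, Finsupp.sum, Finsupp.sum, map_sum]
  exact Finset.sum_congr rfl fun x _ => by rw [map_smul, ten_tmul, smul_eq_mul]

/-- **key lemma** -/
theorem sq_decomp (hdd : ∀ x, d (d x) = 0) (y : C ⊗[F2] C) (hy : dT d d y = 0)
    (hs : ∃ w, dT d d w = y + tau C y) (s : C) (hs0 : d s = 0)
    (hu : ∀ u : C →ₗ[F2] F2, (∀ x, u (d x) = 0) → u s = ten u u y) :
    ∃ v u, dT d d v = 0 ∧ y = s ⊗ₜ s + (v + tau C v) + dT d d u := by
  classical
  obtain ⟨J, b, hb⟩ := exists_HBasis d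
  let _ : LinearOrder J := linearOrderOfSTO (WellOrderingRel (α := J))
  obtain ⟨u, hu1, hu2, hu3⟩ := HBasis.dual hdd hb
  have hT := hb.tensor hdd hdd hb
  set L := Finsupp.linearCombination F2 (fun p : J × J => b p.1 ⊗ₜ[F2] b p.2) with hL
  have hub : ∀ j k, u j (b k) = if k = j then 1 else 0 := by
    intro j k
    have := hu2 j (single k 1)
    rw [Finsupp.linearCombination_single, one_smul, Finsupp.single_apply] at this
    exact this
  obtain ⟨c, w, hyc⟩ := (HBasis.iff.1 hT).2.1 y hy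
  obtain ⟨s', r, hsr, hs'⟩ := hu3 s hs0
  -- `c` is symmetric
  have hsym : swapJ c = c := by
    have h1 : c + swapJ c = 0 := by
      refine (HBasis.iff.1 hT).2.2 _ ?_
      obtain ⟨w', hw'⟩ := hs
      refine ⟨w' + w + tau C w, ?_⟩
      rw [map_add, map_add, hw', hyc, map_add, map_add, ← tau_dT, lc_swap]
      have e1 := add_self' (dT d d w)
      have e2 := add_self' (tau C (dT d d w))
      calc _ = (L c + tau C (L c)) + (dT d d w + dT d d w) +
          (tau C (dT d d w) + tau C (dT d d w)) := by abel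
        _ = _ := by rw [e1, e2, add_zero, add_zero]
    exact (eq_of_add_eq_zero h1).symm
  have hsym' : ∀ p, c p.swap = c p := by
    intro p
    rw [← swapJ_apply, hsym]
  -- its diagonal
  have hdiag : ∀ j, c (j, j) = s' j := by
    intro j
    have h1 := hu (u j) (hu1 j)
    rw [hyc, map_add, ten_dT (hu1 j) (hu1 j), add_zero] at h1
    rw [hs', h1, ten_lc]
    rw [Finsupp.sum, Finset.sum_eq_single (j, j)]
    · simp [hub]
    · rintro ⟨k, l⟩ _ hkl
      simp only [hub]
      by_cases h : k = j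
      · by_cases h' : l = j
        · subst h; subst h'; exact (hkl rfl).elim
        · simp [h']
      · simp [h]
    · intro h
      rw [Finsupp.notMem_support_iff] at h
      rw [h, zero_mul]
  -- the square of `s'`
  obtain ⟨v', hv'⟩ := sq_congr (Finsupp.linearCombination F2 b s') r (hb.lc_cyc s') hdd
  rw [← hsr] at hv'
  obtain ⟨q, hq, hqL⟩ : ∃ q : (J × J) →₀ F2, (∀ j k, q (j, k) = s' j * s' k) ∧
      L q = Finsupp.linearCombination F2 b s' ⊗ₜ Finsupp.linearCombination F2 b s' := by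
    refine ⟨finsuppTensorFinsupp' F2 J J (s' ⊗ₜ s'), fun j k => ?_, ?_⟩
    · rw [finsuppTensorFinsupp'_apply_apply]
    · have key : L ∘ₗ (finsuppTensorFinsupp' F2 J J).toLinearMap =
          TensorProduct.map (Finsupp.linearCombination F2 b) (Finsupp.linearCombination F2 b) := by
        ext j k
        simp [hL]
      have := LinearMap.congr_fun key (s' ⊗ₜ s')
      simpa using this
  have hz := sym_zero_diag (c + q)
    (by rintro ⟨j, k⟩
        rw [Finsupp.add_apply, Finsupp.add_apply, hsym', Prod.swap_prod_mk, hq, hq, mul_comm])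
    (by intro j
        rw [Finsupp.add_apply, hq, hdiag]
        have : ∀ t : F2, t + t * t = 0 := by decide
        exact this _)
  set e := (c + q).filter (fun p : J × J => p.1 < p.2) with he
  refine ⟨L e, w + v', hT.lc_cyc e, ?_⟩
  have h1 : L c = L q + (L e + tau C (L e)) := by
    have h2 := congrArg L hz
    rw [map_add, map_add, lc_swap] at h2
    have h3 := add_self' (L q)
    rw [← h2]
    calc L c = L c + (L q + L q) := by rw [h3, add_zero]
      _ = _ := by abel
  rw [hyc, h1, hqL, map_add, hv']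
  have h3 := add_self' (dT d d v')
  calc _ = (Finsupp.linearCombination F2 b s' ⊗ₜ Finsupp.linearCombination F2 b s' +
        (L e + tau C (L e)) + dT d d w) + (dT d d v' + dT d d v') := by rw [h3, add_zero]
    _ = _ := by abel

end key

section main

variable {C Z : Type} [AddCommGroup C] [Module F2 C] [AddCommGroup Z] [Module F2 Z]
  {d : C →ₗ[F2] C} {M : ℕ∞} {dZ : Z →ₗ[F2] Z} {P : ℕ → C ⊗[F2] C →ₗ[F2] Z}

theorem tau_pow_sq (a : ℕ) (s : C) : ((tau C) ^ a) (s ⊗ₜ[F2] s) = s ⊗ₜ s := by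
  induction a with
  | zero => simp
  | succ a ih => rw [pow_succ', Module.End.mul_apply, ih, tau_tmul]

theorem tot_sq (hdd : ∀ x, d (d x) = 0) (F : Fil M (dT d d) (tau C) dZ P) :
    ∀ (i : ℕ) (_ : ((i + 1 : ℕ) : ℕ∞) ≤ M) (y : ℕ → C ⊗[F2] C) (s : ℕ → C)
      (_ : dT d d (y 0) = 0) (_ : ∀ b, dT d d (y (b + 1)) = y b + tau C (y b))
      (_ : ∀ b, d (s b) = 0)
      (_ : ∀ b (u : C →ₗ[F2] F2), (∀ x, u (d x) = 0) → u (s b) = ten u u (y b)),
      ∃ w, tot (tau C) P i y = tot (tau C) P i (fun b => s b ⊗ₜ s b) + dZ w := by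
  intro i
  induction i with
  | zero =>
    intro h y s h0 h1 h2 h3
    obtain ⟨v, u, hv, hy⟩ := sq_decomp hdd (y 0) h0 ⟨_, h1 0⟩ (s 0) (h2 0) (h3 0)
    refine ⟨P 1 v + P 0 u, ?_⟩
    have h4 : dZ (P 1 v) = P 0 (v + tau C v) := by
      have := F.succ 0 h v
      rw [hv, map_zero, add_zero] at this
      exact this
    rw [tot_zero, tot_zero, hy, map_add dZ, F.zero, h4, map_add (P 0), map_add (P 0)]
    abel
  | succ i ih =>
    intro h y s h0 h1 h2 h3
    obtain ⟨v, u, hv, hy⟩ := sq_decomp hdd (y 0) h0 ⟨_, h1 0⟩ (s 0) (h2 0) (h3 0)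
    have hi : ((i + 1 : ℕ) : ℕ∞) ≤ M := le_of_succ h
    obtain ⟨w, hw⟩ := ih hi (fun b => y (b + 1) + sgl (u + tau C u) b) (fun b => s (b + 1))
      (by
        rw [sgl_zero, map_add, h1 0, hy]
        simp only [map_add, tau_tau, tau_tmul, ← tau_dT]
        have e1 := add_self' (s 0 ⊗ₜ[F2] s 0)
        have e2 := add_self' v
        have e3 := add_self' (tau C v)
        have e4 := add_self' (dT d d u)
        have e5 := add_self' (tau C (dT d d u))
        calc _ = (s 0 ⊗ₜ[F2] s 0 + s 0 ⊗ₜ[F2] s 0) + (v + v) + (tau C v + tau C v) +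
            (dT d d u + dT d d u) + (tau C (dT d d u) + tau C (dT d d u)) := by abel
          _ = 0 := by rw [e1, e2, e3, e4, e5]; simp)
      (by
        intro b
        rw [sgl_succ, add_zero, h1 (b + 1)]
        rcases b with _ | b
        · rw [sgl_zero]
          simp only [map_add, tau_tau]
          have e2 := add_self' u
          have e3 := add_self' (tau C u)
          calc _ = y (0 + 1) + tau C (y (0 + 1)) + (u + u) + (tau C u + tau C u) := by
                rw [e2, e3, add_zero, add_zero]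
            _ = _ := by abel
        · rw [sgl_succ, add_zero])
      (fun b => h2 _)
      (by
        intro b u' hu'
        rw [h3 (b + 1) u' hu', map_add]
        rcases b with _ | b
        · rw [sgl_zero, map_add, ten_tau, add_self', add_zero]
        · rw [sgl_succ, map_zero, add_zero])
    refine ⟨P (i + 1 + 1) v + P (i + 1) (((tau C) ^ (i + 1)) u) + w, ?_⟩
    rw [tot_succ, tot_succ, hy, map_add (tau C ^ (i + 1)), map_add (tau C ^ (i + 1)), tau_pow_sq,
      pow_add_inv F.inv, map_add (P (i + 1)), map_add (P (i + 1)), map_add dZ, map_add dZ,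
      F.succ (i + 1) h v, hv, map_zero, add_zero, F.pow i hi]
    rw [tot_add, tot_sgl] at hw
    have e : tot (tau C) P i (fun b => y (b + 1)) = tot (tau C) P i (fun b => s (b + 1) ⊗ₜ s (b + 1)) +
        dZ w + P i ((tau C ^ i) (u + tau C u)) := by
      rw [← hw, add_add_self]
    rw [e]
    abel

end main

end Crest.Agent.R204.P4
end

-- ▼ part R204/P4b_742
section

/-!
# Row 204, S-block P4 = formula (1.3) (helper742)

`d_*(a_i × x) = Σ_{a ≤ i} e_a ⊗ (R_{i-a} x)^2` in `H(D_M K)`, `i < M`, `R_k = Sq_{(n-k)/2}` on `H_n`.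
-/

set_option autoImplicit false
set_option linter.unusedSectionVars false

noncomputable section

namespace Crest.Agent.R204.P4

open Finsupp TensorProduct QC134 AMU898 SS EZ271 DK742 ThetaSS265 C5265

/-! ## the functor `K ↦ N(K × K)` -/

theorem mapSq_comp {K L M : SS} (f : Hom K L) (g : Hom L M) (x : N F2 (K.prod K)) :
    N.map F2 (prodMap (g.comp f) (g.comp f)) x =
      N.map F2 (prodMap g g) (N.map F2 (prodMap f f) x) := by
  rw [EZ271.map_map]; rfl

/-- the functor `K ↦ N(K × K)`, with `ker aug` as acyclic part -/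
def sqMF : MF F2 where
  T K := N F2 (K.prod K)
  map f := N.map F2 (prodMap f f)
  map_id K x := by rw [prodMap_id, map_idHom]
  map_comp f g x := mapSq_comp f g x
  d K := N.bd F2 (K.prod K)
  map_d f x := EZ271.map_bd' F2 _ _
  T0 K := LinearMap.ker (EZ271.aug F2)
  T0_map f x hx := by
    rw [LinearMap.mem_ker] at hx ⊢
    rw [EZ271.aug_map, hx]
  acyc n z hz hd := by
    rw [LinearMap.mem_ker] at hz
    refine ⟨(Cpq n n).c F2 z, ?_, ?_⟩
    · rw [LinearMap.mem_ker, Cone.aug_c]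
    · rw [Cone.bd_c, hd, hz, map_zero, zero_smul, sub_zero, sub_zero]

/-- `swap` on `N(K × K)` -/
abbrev swp (K : SS) : N F2 (K.prod K) →ₗ[F2] N F2 (K.prod K) := N.map F2 (SS.swap K K)

theorem swp_swp (K : SS) (x : N F2 (K.prod K)) : swp K (swp K x) = x := by
  rw [EZ271.map_map]
  exact map_idHom F2 x

theorem bd_swp (K : SS) (x : N F2 (K.prod K)) :
    N.bd F2 _ (swp K x) = swp K (N.bd F2 _ x) := (EZ271.map_bd' F2 _ _).symm

/-- `∇ : N K ⊗ N K → N(K × K)` -/
def nabla (K : SS) : N F2 K ⊗[F2] N F2 K →ₗ[F2] N F2 (K.prod K) := TensorProduct.lift (cross F2)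

@[simp] theorem nabla_tmul (K : SS) (x y : N F2 K) : nabla K (x ⊗ₜ y) = cross F2 x y := rfl

theorem nabla_dT (K : SS) (x : N F2 K ⊗[F2] N F2 K) :
    nabla K (dT (N.bd F2 K) (N.bd F2 K) x) = N.bd F2 _ (nabla K x) := by
  induction x using TensorProduct.induction_on with
  | zero => simp
  | add x y hx hy => simp only [map_add, hx, hy]
  | tmul x y => rw [dT_tmul, map_add, nabla_tmul, nabla_tmul, nabla_tmul, bd_cross2]

theorem nabla_tau (K : SS) (x : N F2 K ⊗[F2] N F2 K) :
    nabla K (tau _ x) = swp K (nabla K x) := by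
  induction x using TensorProduct.induction_on with
  | zero => simp
  | add x y hx hy => simp only [map_add, hx, hy]
  | tmul x y => rw [tau_tmul, nabla_tmul, nabla_tmul, swap_cross]

theorem nabla_nm {K L : SS} (f : Hom K L) (x : N F2 K ⊗[F2] N F2 K) :
    N.map F2 (prodMap f f) (nabla K x) = nabla L (Phi252.nm f x) := by
  induction x using TensorProduct.induction_on with
  | zero => simp
  | add x y hx hy => simp only [map_add, hx, hy]
  | tmul x y => rw [Phi252.nm_tmul, nabla_tmul, nabla_tmul, map_cross]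

theorem aug_eq (K : SS) (x : N F2 K) : EZ271.aug F2 x = Phi252.aug K x := by
  have : EZ271.aug F2 (K := K) = Phi252.aug K := by
    refine DK742.N_ext F2 fun n x => ?_
    rcases n with _ | n
    · rw [EZ271.aug_sx_zero, Phi252.aug_zero]
    · rw [EZ271.aug_sx_succ, Phi252.aug_succ]
  rw [this]

theorem aug_nabla (K : SS) (x : N F2 K ⊗[F2] N F2 K) :
    EZ271.aug F2 (nabla K x) = Phi252.aa K x := by
  induction x using TensorProduct.induction_on with
  | zero => simp
  | add x y hx hy => simp only [map_add, hx, hy]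
  | tmul x y => rw [nabla_tmul, EZ271.aug_cross, Phi252.aa_tmul, aug_eq, aug_eq]

/-! ## the two families -/

/-- the diagonal, concentrated in index zero -/
def thD (K : SS) : ℕ → N F2 K →ₗ[F2] N F2 (K.prod K)
  | 0 => N.map F2 (SS.diag K)
  | _ + 1 => 0

theorem swp_diag (K : SS) (x : N F2 K) :
    swp K (N.map F2 (SS.diag K) x) = N.map F2 (SS.diag K) x := by
  rw [EZ271.map_map]; rfl

theorem exists_w (K : SS) (x : N F2 K) (hx : N.bd F2 K x = 0) :
    ∃ w : ℕ → N F2 (K.prod K), ∀ i, thD K i x + nabla K (Phi252.Phi K i x) =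
      N.bd F2 _ (w i) + (prev w i + swp K (prev w i)) := by
  refine sqMF.family (fun K => swp K) ?_ bd_swp swp_swp ?_ thD
    (fun K i => nabla K ∘ₗ Phi252.Phi K i) ?_ ?_ ?_ ?_ ?_ K x hx
  · intro K L f (x : N F2 (K.prod K))
    change N.map F2 (prodMap f f) (N.map F2 (SS.swap K K) x) =
      N.map F2 (SS.swap L L) (N.map F2 (prodMap f f) x)
    rw [EZ271.map_map, EZ271.map_map]; rfl
  · intro K (x : N F2 (K.prod K)) hx
    change EZ271.aug F2 x = 0 at hx
    change EZ271.aug F2 (N.map F2 (SS.swap K K) x) = 0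
    rw [EZ271.aug_map, hx]
  · intro K L f i x
    rcases i with _ | i
    · change N.map F2 (prodMap f f) (N.map F2 (SS.diag K) x) =
        N.map F2 (SS.diag L) (N.map F2 f x)
      rw [EZ271.map_map, EZ271.map_map]; rfl
    · change N.map F2 (prodMap f f) 0 = 0
      rw [map_zero]
  · intro K L f i x
    change N.map F2 (prodMap f f) (nabla K (Phi252.Phi K i x)) = nabla L (Phi252.Phi L i (N.map F2 f x))
    rw [nabla_nm, Phi252.nm_Phi]
  · intro K i x
    rcases i with _ | _ | i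
    · change N.bd F2 _ (N.map F2 (SS.diag K) x) + N.map F2 (SS.diag K) (N.bd F2 K x) =
        0 + swp K 0
      rw [EZ271.map_bd', add_self2, map_zero, add_zero]
    · change N.bd F2 _ (0 : N F2 (K.prod K)) + 0 =
        N.map F2 (SS.diag K) x + swp K (N.map F2 (SS.diag K) x)
      rw [swp_diag, add_self2, map_zero, add_zero]
    · change N.bd F2 _ (0 : N F2 (K.prod K)) + 0 = (0 : N F2 (K.prod K)) + swp K 0
      rw [map_zero, map_zero]
  · intro K i x
    rcases i with _ | i
    · change N.bd F2 _ (nabla K (Phi252.Phi K 0 x)) + nabla K (Phi252.Phi K 0 (N.bd F2 K x)) =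
        0 + swp K 0
      rw [← nabla_dT, ← Phi252.dd_Phi_zero, Sq252.dd_eq, add_self2, map_zero, add_zero]
    · change N.bd F2 _ (nabla K (Phi252.Phi K (i + 1) x)) +
        nabla K (Phi252.Phi K (i + 1) (N.bd F2 K x)) =
        nabla K (Phi252.Phi K i x) + swp K (nabla K (Phi252.Phi K i x))
      rw [← nabla_dT, ← Sq252.dd_eq, Phi252.dd_Phi_succ, map_add, map_add, ← nabla_tau,
        ← Sq252.tt_eq, add_comm (nabla K (Phi252.Phi K (i + 1) (N.bd F2 K x))), add_add_self]
  · intro K i x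
    change EZ271.aug F2 (thD K i x + nabla K (Phi252.Phi K i x)) = 0
    rw [map_add, aug_nabla]
    rcases i with _ | i
    · change EZ271.aug F2 (N.map F2 (SS.diag K) x) + _ = 0
      rw [EZ271.aug_map, Phi252.aa_Phi_zero, aug_eq, add_self2]
    · change EZ271.aug F2 (0 : N F2 (K.prod K)) + _ = 0
      rw [Phi252.aa_Phi_succ, map_zero, add_zero]

/-! ## filtrations -/

theorem Fil.comp {Y Y' Z : Type} [AddCommGroup Y] [Module F2 Y] [AddCommGroup Y'] [Module F2 Y']
    [AddCommGroup Z] [Module F2 Z] {M : ℕ∞} {d τ : Y →ₗ[F2] Y} {dZ : Z →ₗ[F2] Z}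
    {P : ℕ → Y →ₗ[F2] Z} (F : Fil M d τ dZ P) {d' τ' : Y' →ₗ[F2] Y'} (f : Y' →ₗ[F2] Y)
    (hd : ∀ c, f (d' c) = d (f c)) (ht : ∀ c, f (τ' c) = τ (f c)) (hi : ∀ c, τ' (τ' c) = c)
    (hc : ∀ c, d' (τ' c) = τ' (d' c)) : Fil M d' τ' dZ (fun a => P a ∘ₗ f) where
  inv := hi
  comm := hc
  zero c := by rw [LinearMap.comp_apply, LinearMap.comp_apply, F.zero, hd]
  succ a h c := by
    simp only [LinearMap.comp_apply]
    rw [F.succ a h, hd, map_add f, ht]

theorem tot_comp {Y Y' Z : Type} [AddCommGroup Y] [Module F2 Y] [AddCommGroup Y'] [Module F2 Y']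
    [AddCommGroup Z] [Module F2 Z] {τ : Y →ₗ[F2] Y} {P : ℕ → Y →ₗ[F2] Z} {τ' : Y' →ₗ[F2] Y'}
    (f : Y' →ₗ[F2] Y) (ht : ∀ c, f (τ' c) = τ (f c)) (i : ℕ) (y : ℕ → Y') :
    tot τ P i (fun b => f (y b)) = tot τ' (fun a => P a ∘ₗ f) i y := by
  have hp : ∀ (a : ℕ) (c : Y'), f ((τ' ^ a) c) = (τ ^ a) (f c) := by
    intro a c
    induction a with
    | zero => simp
    | succ a ih => rw [pow_succ', pow_succ', Module.End.mul_apply, Module.End.mul_apply, ht, ih]
  induction i generalizing y with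
  | zero => rfl
  | succ i ih => rw [tot_succ, tot_succ, ih, LinearMap.comp_apply, hp]

section

variable (M : ℕ) (K : SS)

theorem filPhiC : Fil (M : ℕ∞) (N.bd F2 (K.prod K)) (swp K) (N.bd F2 (DM M K)) (PhiC M K) where
  inv := swp_swp K
  comm := bd_swp K
  zero c := bd_PhiC_zero c
  succ a h c := bd_PhiC_succ (by exact_mod_cast h) c

theorem filT : Fil (M : ℕ∞) (dT (N.bd F2 K) (N.bd F2 K)) (tau (N F2 K)) (N.bd F2 (DM M K))
    (fun a => PhiC M K a ∘ₗ nabla K) :=
  (filPhiC M K).comp (nabla K) (nabla_dT K) (nabla_tau K) tau_tau (fun c => (tau_dT _ c).symm)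

variable {M K}

theorem swp_pow_diag (x : N F2 K) (i : ℕ) :
    ((swp K) ^ i) (N.map F2 (SS.diag K) x) = N.map F2 (SS.diag K) x := by
  induction i with
  | zero => simp
  | succ i ih => rw [pow_succ', Module.End.mul_apply, ih, swp_diag]

theorem thD_eq_sgl (x : N F2 K) : (fun b => thD K b x) = sgl (N.map F2 (SS.diag K) x) := by
  funext b
  rcases b with _ | b <;> rfl

theorem ten_eq_uu (u : N F2 K →ₗ[F2] F2) (x : N F2 K ⊗[F2] N F2 K) :
    ten u u x = Sq252.uu u x := by
  induction x using TensorProduct.induction_on with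
  | zero => simp
  | add x y hx hy => simp only [map_add, hx, hy]
  | tmul x y => rfl

/-- **(1.3) on chains** -/
theorem chain13 {i : ℕ} (hi : i + 1 ≤ M) (z : N F2 K) (hz : N.bd F2 K z = 0) (s : ℕ → N F2 K)
    (hs : ∀ b, N.bd F2 K (s b) = 0)
    (hu : ∀ b (u : N F2 K →ₗ[F2] F2), (∀ x, u (N.bd F2 K x) = 0) →
      u (s b) = Sq252.uu u (Phi252.Phi K b z)) :
    ∃ w, PhiC M K i (N.map F2 (SS.diag K) z) =
      ∑ a ∈ Finset.range (i + 1), PhiC M K a (cross F2 (s (i - a)) (s (i - a))) +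
        N.bd F2 (DM M K) w := by
  obtain ⟨w, hw⟩ := exists_w K z hz
  have hi' : ((i : ℕ) : ℕ∞) ≤ (M : ℕ∞) := by exact_mod_cast (by omega : i ≤ M)
  have h1 := tot_bd (filPhiC M K) i hi' w
  have h2 : tot (swp K) (PhiC M K) i (fun b => N.bd F2 _ (w b) + (prev w b + swp K (prev w b))) =
      tot (swp K) (PhiC M K) i (fun b => thD K b z + nabla K (Phi252.Phi K b z)) :=
    tot_congr _ _ i fun b _ => (hw b).symm
  rw [h2, tot_add, thD_eq_sgl, tot_sgl, swp_pow_diag, tot_comp (nabla K) (nabla_tau K)] at h1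
  obtain ⟨w', hw'⟩ := tot_sq (fun x => N.bd_bd x) (filT M K) i (by exact_mod_cast hi)
    (fun b => Phi252.Phi K b z) s
    (by
      have := Phi252.dd_Phi_zero (K := K) z
      rw [hz, map_zero] at this
      exact this)
    (by
      intro b
      have := Phi252.dd_Phi_succ (K := K) b z
      rw [hz, map_zero, zero_add] at this
      exact this)
    hs (fun b u hu' => by rw [ten_eq_uu]; exact hu b u hu')
  have h3 : tot (tau (N F2 K)) (fun a => PhiC M K a ∘ₗ nabla K) i (fun b => s b ⊗ₜ s b) =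
      ∑ a ∈ Finset.range (i + 1), PhiC M K a (cross F2 (s (i - a)) (s (i - a))) := by
    rw [tot_eq_sum]
    refine Finset.sum_congr rfl fun a _ => ?_
    rw [tau_pow_sq, LinearMap.comp_apply, nabla_tmul]
  rw [h3] at hw'
  rw [hw'] at h1
  refine ⟨tot (swp K) (PhiC M K) i w + w', ?_⟩
  rw [map_add, h1]
  generalize PhiC M K i (N.map F2 (SS.diag K) z) = A
  generalize (∑ a ∈ Finset.range (i + 1), PhiC M K a (cross F2 (s (i - a)) (s (i - a)))) = B
  generalize N.bd F2 (DM M K) w' = C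
  have e1 := add_self2 B
  have e2 := add_self2 C
  calc A = A + (B + B) + (C + C) := by rw [e1, e2, add_zero, add_zero]
    _ = _ := by abel

theorem diagD_cross (i : ℕ) (z : N F2 K) :
    N.map F2 (diagD M K) (cross F2 (aa M i) z) = PhiC M K i (N.map F2 (SS.diag K) z) := by
  have h1 : cross F2 (aa M i) z = N.map F2 (prodMap (proj (invEM M)) (Hom.id K)) (cross F2 (ee M i) z) := by
    rw [map_cross, map_idHom]; rfl
  rw [h1, EZ271.map_map]
  have h2 : (diagD M K).comp (prodMap (proj (invEM M)) (Hom.id K)) =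
      (proj ((invEM M).prod (Invo.swap K))).comp (prodMap (Hom.id (EM M)) (SS.diag K)) := rfl
  rw [h2, ← EZ271.map_map, map_cross, map_idHom]
  rfl

/-- **(1.3)** -/
theorem diagD_eq {i : ℕ} (hi : i + 1 ≤ M) (x : H F2 K) :
    H.map F2 (diagD M K) (crossL (aa M i) (bd_aa (by omega)) x) =
      ∑ a ∈ Finset.range (i + 1), C5265.pw M K a (Sq252.Rk K (i - a) x) := by
  classical
  obtain ⟨z, hz, rfl⟩ := Hd.mk_surj _ x
  choose s hs hs' using fun b => Hd.mk_surj (N.bd F2 K) (Sq252.Rk K b (Hd.mk _ z hz))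
  have hu : ∀ b (u : N F2 K →ₗ[F2] F2), (∀ x, u (N.bd F2 K x) = 0) →
      u (s b) = Sq252.uu u (Phi252.Phi K b z) := by
    intro b u hu
    rw [← Sq252.uH_Rk K b u hu z hz, hs' b, Sq252.uH_mk]
  obtain ⟨w, hw⟩ := chain13 hi z hz s hs hu
  have hcyc : ∀ a ∈ Finset.range (i + 1),
      N.bd F2 (DM M K) (PhiC M K a (cross F2 (s (i - a)) (s (i - a)))) = 0 := by
    intro a ha
    rw [Finset.mem_range] at ha
    exact bd_PhiC_sq (by omega) (hs _)
  have hR : ∀ a ∈ Finset.range (i + 1), C5265.pw M K a (Sq252.Rk K (i - a) (Hd.mk _ z hz)) =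
      Submodule.mkQ _ (if h : N.bd F2 (DM M K) (PhiC M K a (cross F2 (s (i - a)) (s (i - a)))) = 0 then
        (⟨_, h⟩ : LinearMap.ker (N.bd F2 (DM M K))) else 0) := by
    intro a ha
    rw [dif_pos (hcyc a ha), hs', C5265.pw_mk (by rw [Finset.mem_range] at ha; omega)]
    rfl
  rw [Finset.sum_congr rfl hR, ← map_sum, crossL_mk, H.map, Hd.map_mk]
  have : ((∑ a ∈ Finset.range (i + 1),
      (if h : N.bd F2 (DM M K) (PhiC M K a (cross F2 (s (i - a)) (s (i - a)))) = 0 then
        (⟨_, h⟩ : LinearMap.ker (N.bd F2 (DM M K))) else 0) : LinearMap.ker (N.bd F2 (DM M K))) :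
        N F2 (DM M K)) = ∑ a ∈ Finset.range (i + 1), PhiC M K a (cross F2 (s (i - a)) (s (i - a))) := by
    rw [AddSubmonoidClass.coe_finsetSum]
    refine Finset.sum_congr rfl fun a ha => ?_
    rw [dif_pos (hcyc a ha)]
  show Submodule.mkQ _ _ = _
  rw [← sub_eq_zero, ← map_sub, Submodule.mkQ_apply, Submodule.Quotient.mk_eq_zero,
    Submodule.mem_comap]
  refine ⟨w, ?_⟩
  rw [map_sub]
  show _ = N.map F2 (diagD M K) (cross F2 (aa M i) z) - _
  rw [Submodule.subtype_apply, this, diagD_cross, hw, add_sub_cancel_left]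

end

end Crest.Agent.R204.P4
end
end

-- ▼ part R204/P4c_742

/-!
# Row 204, S-block P4 = (1.3), graded form on 557's names (helper742)
-/

set_option autoImplicit false

noncomputable section

namespace Crest.Agent.R204.P4

open SS DK742 ThetaSS265 C5265 Gr334

variable {M : ℕ} {K : SS}

theorem pw_zero' (i : ℕ) : C5265.pw M K i 0 = 0 := by
  by_cases h : i ≤ M
  · have h0 : (0 : H F2 K) = Hd.mk (N.bd F2 K) 0 (map_zero _) := rfl
    rw [h0, C5265.pw_mk h, Hd.mk_eq_zero]
    exact ⟨0, by simp⟩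
  · rw [C5265.pw, dif_neg h]

/-- **(1.3)** for a class of degree `t` -/
theorem diagD_gr {i t : ℕ} (hi : i + 1 ≤ M) {y : H F2 K} (hy : y ∈ H.gr F2 K t) :
    H.map F2 (diagD M K) (crossL (aa M i) (bd_aa (by omega)) y) =
      ∑ l ∈ Finset.range (t / 2 + 1),
        if t ≤ i + 2 * l then C5265.pw M K (i + 2 * l - t) (Sq252.Sq K l y) else 0 := by
  rw [diagD_eq hi]
  symm
  refine Finset.sum_bij_ne_zero (fun l _ _ => i + 2 * l - t) ?_ ?_ ?_ ?_
  · intro l hl hne
    rw [Finset.mem_range] at hl ⊢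
    have : t ≤ i + 2 * l := by
      by_contra h; rw [if_neg h] at hne; exact hne rfl
    omega
  · intro l hl hne l' hl' hne' h
    have h1 : t ≤ i + 2 * l := by
      by_contra h; rw [if_neg h] at hne; exact hne rfl
    have h2 : t ≤ i + 2 * l' := by
      by_contra h; rw [if_neg h] at hne'; exact hne' rfl
    omega
  · intro a ha hne
    rw [Finset.mem_range] at ha
    have h1 : i - a ≤ t := by
      by_contra h
      rw [Sq252.Rk_eq_zero_of_lt (by omega) hy, pw_zero'] at hne
      exact hne rfl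
    have h2 : (t + (i - a)) % 2 = 0 := by
      by_contra h
      rw [Sq252.Rk_eq_zero_of_odd (by omega) hy, pw_zero'] at hne
      exact hne rfl
    obtain ⟨l, hl⟩ : ∃ l, t = 2 * l + (i - a) := ⟨(t - (i - a)) / 2, by omega⟩
    have h3 : i + 2 * l - t = a := by omega
    refine ⟨l, by rw [Finset.mem_range]; omega, ?_, h3⟩
    rw [if_pos (by omega), h3, ← Sq252.Rk_eq_Sq hy hl]
    exact hne
  · intro l hl hne
    rw [Finset.mem_range] at hl
    have h1 : t ≤ i + 2 * l := by
      by_contra h; rw [if_neg h] at hne; exact hne rfl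
    rw [if_pos h1, Sq252.Rk_eq_Sq hy (l := l) (by omega)]

/-- 557's form -/
theorem p4At {i t : ℕ} (hi : i + 1 ≤ M) {y : H F2 K} (hy : y ∈ H.gr F2 K t) :
    OpsHopf557.P4At M K (fun l => Sq252.Sq K l) i t (by omega) y := diagD_gr hi hy

/-- **`Fact13` of `Spec_114`** for one stage: `T_i y = ∑ Q^{i+l} Sq_l y`, `i < M` -/
theorem T_eq_sum (A : ThAlg265.ThAlg M K) {i t : ℕ} (hi : i + 1 ≤ M) {y : H F2 K}
    (hy : y ∈ H.gr F2 K t) :
    Ops265.T A i y = ∑ l ∈ Finset.range (t / 2 + 1),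
      OpsHopf557.Qup A (i + l) (t - l) (Sq252.Sq K l y) :=
  OpsHopf557.T_eq_sum A (p4At hi hy)

end Crest.Agent.R204.P4
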