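import Crest.Agent.R204.Odd2_369
import Crest.Agent.R204.HopfKa_515
import Crest.Agent.R204.HopfGlueD_339
import Crest.Agent.R204.HopfGlueE_339
import Crest.Agent.R204.KFin_837
import Crest.Agent.R204.LoopZ_979
import Crest.Agent.R204.InstBase_194
import Crest.Agent.R204.SrcTot_85
import Crest.Agent.R204.SqCartan_898
import Crest.Agent.R204.P4c_742
import Crest.Agent.R204.GL2D_735
import Crest.Agent.R204.KDT_103_Mg
import Crest.Agent.R204.GG_803
import Crest.Agent.R204.E2_803
import Mathlib.GroupTheory.RegularWreathProduct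
import Crest.Agent.R204.SQdef_803
import Crest.Agent.R204.E_803
import Crest.Agent.R204.SQT_334
import Crest.Agent.R204.Final_114

-- ▼ part R204/KZero_369
section

/-!
# Row 204, block H: `KZero` for odd cubes in helper515's form, helper369
-/

set_option autoImplicit false

open scoped unitInterval
open Crest.Agent.R204.K357 Crest.Agent.R204.H472

namespace Crest.Agent.R204.BottK369

theorem kZero_odd (a : ℕ) : HMain515.KZero (Fin (2 * a + 1)) := by
  intro x hx
  exact kn_SA_odd a (x₀ := fun _ => 0) ⟨0, Or.inl rfl⟩ x hx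

theorem kZero_of_odd {n : ℕ} (h : Odd n) : HMain515.KZero (Fin n) := by
  obtain ⟨a, rfl⟩ := h
  exact kZero_odd a

end Crest.Agent.R204.BottK369
end

-- ▼ part R204/HopfGlueF_339
section

/-!
# Row 204, block H, leaf H12 (helper339), part F: `HopfLow` from the K-theory of even spheres
-/

set_option autoImplicit false

noncomputable section

namespace Crest.Agent.R204.HopfGlue339

theorem kOdd : KOdd := fun _ h => BottK369.kZero_of_odd h

/-- `HopfLow` from the K-theory of even spheres -/
theorem hopfLow_of_even (h : KEven) : HopfLow478.HopfLow :=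
  hopfLow fund HopfF2477.acy (kside kOdd h)

end Crest.Agent.R204.HopfGlue339
end
end

-- ▼ part R204/FinalH_114
section

/-!
# Row 204: `HopfLow`, unconditional
-/

set_option autoImplicit false

noncomputable section

namespace Crest.Agent.R204.Final114

/-- the low-dimensional Hopf invariant input of `Final_478` -/
theorem hopfLow : HopfLow478.HopfLow := HopfGlue339.hopfLow_of_even Bt837.keven

end Crest.Agent.R204.Final114
end
end

-- ▼ part R204/Poly0_979
section

/-!
# Row 204, block B: `FactPoly0` for the concrete tower, no hypotheses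
-/

set_option autoImplicit false

noncomputable section

namespace Crest.Agent.R204.LoopZ979

open Crest.Agent.R204 Spec114 Inst194

/-- **loop space theorem on the concrete tower**, `k = 0`, no hypotheses -/
theorem factPoly0 (p : Par) {D : ℕ} (hM : D + 2 ≤ p.M) (hK : D + 2 ≤ p.K) : p.tower.FactPoly0 D :=
  factPoly0_of_base p hM hK (p.factBase D)

end Crest.Agent.R204.LoopZ979
end
end

-- ▼ part R204/ThFacts_85
section

/-!
# Row 204, leaf G11 (helper85): `ThFacts` for every `Θ`-algebra with `GL_2`-laws, unconditionally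
-/

set_option autoImplicit false

noncomputable section

namespace Crest.Agent.R204.SrcTot85

open SS ThAlg265 Ops265

/-- the facts for the Steenrod squares of helper252 -/
theorem thFacts {M D : ℕ} {K : SS} (A : ThAlg M K) (hD : D + 2 ≤ M)
    (hs : ∀ i j, A.GLswap i j) (hr : ∀ i j, A.GLshear i j) :
    ThFacts A D (fun a => Sq252.Sq K a) where
  sq0 := Sq252.Sq_zero
  sqgr := fun a t y hy => Sq252.Sq_mem_gr hy
  unst := fun a t y hy h => Sq252.Sq_unst hy h
  sqT := fun i hi a y => C6898.sqSys.Sq_T A (by omega) a y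
  gl2 := fun i j hij y => GL2735.gl2 A (hs i j) (hr i j) (by omega) y
  f13 := fun i _ hi t y hy => P4.T_eq_sum A (by omega) hy

/-- the facts for the thread algebra -/
theorem totFacts (e : ℕ ⊕ ℕ ↪ ℕ) {M D : ℕ} (hD : D + 2 ≤ M) :
    ThFacts (TotAlg328.totAlg e M) D (fun a => Sq252.Sq (Thr328.Tot ℕ) a) :=
  thFacts _ hD (TotAlg328.glswap e M) (TotAlg328.glshear e M)

end Crest.Agent.R204.SrcTot85
end
end

-- ▼ part R204/FourZ_947
section

/-!
# Row 204, block G (helper947): `FactFour` for the concrete tower from `FactPoly0` and `SQ(Perm)`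
-/

set_option autoImplicit false
set_option linter.unusedSectionVars false
set_option linter.style.haveILetI false

noncomputable section

namespace Crest.Agent.R204.Four947

open Crest.Agent.R204 Inst194 InstSph478

/-- **FactFour**: the only inputs are `FactPoly0` and `SQ` for the symmetric groups -/
theorem factFour (p : Par) {D : ℕ} (hM : D + 2 ≤ p.M) (hK : D + 2 ≤ p.K)
    (hJ : 9 * (p.M + 1) ≤ p.J0 + p.K) (hP : p.tower.FactPoly0 D)
    (hperm : ∀ w, SQ803.SQ (Equiv.Perm (Fin w))) {e : ℕ} (he : e + 2 ≤ D) :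
    (pSph p e).FactFour (e + 1) := by
  haveI : Nontrivial (Fin (cd p.J0 p.K 0)) := p.nontrivial0
  refine factFour_kap p hP (by omega) hperm fun m hm hem => ?_
  exact ⟨ℕ, Equiv.natSumNatEquivNat.toEmbedding, 2 * (2 * m + 1),
    KDI103.kapInst p Equiv.natSumNatEquivNat.toEmbedding hJ hM (SrcTot85.totFacts _ hM)
      (p.factQ hM) (p.factX hM hK) hP (p.factGr D) (by omega) le_rfl⟩

end Crest.Agent.R204.Four947
end
end

-- ▼ part R204/W_803
section

/-!
# The wreath product step (row 204, leaf G5; helper803)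
-/

set_option autoImplicit false
set_option linter.unusedSectionVars false

namespace Crest.Agent.R204.SQ803

open Co

section GHinst

theorem dl_inv {J : Type*} {n : ℕ} (φ : J → J) {f : List J → ZMod n} (h : ∀ l, f (l.map φ) = f l)
    (l : List J) : dl (l.map φ) f = dl l f := by
  rw [← dl_map]; exact dl_congr fun l' _ => h l'

theorem cupl_inv {J : Type*} {n : ℕ} (φ : J → J) {f g : List J → ZMod n} (h : ∀ l, f (l.map φ) = f l)
    (h' : ∀ l, g (l.map φ) = g l) (l : List J) : cupl (l.map φ) f g = cupl l f g := by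
  rw [← cupl_map]; exact cupl_congr (fun x l => h _) (fun x l => h' _)

theorem cupo_inv {J : Type*} {n : ℕ} (φ : J → J) {f g : List J → ZMod n} (h : ∀ l, f (l.map φ) = f l)
    (h' : ∀ l, g (l.map φ) = g l) (l : List J) : cupo (l.map φ) f g = cupo l f g := by
  rw [← cupo_map]
  have e1 : (fun l' => f (l'.map φ)) = f := funext h
  have e2 : (fun l' => g (l'.map φ)) = g := funext h'
  rw [e1, e2]


theorem GH_B {J X : Type*} [Group X] [MulAction (X × X) J] {N : ℕ} (hN : 0 < N) (W : Sig J X) :
    GH hN (QB W 2) (FB W 2) (QB W (2 ^ N)) (FB W (2 ^ N)) where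
  δQ _ h := δ_mem_QB h
  mulQ _ h _ h' := mul_mem_QB h h'
  ioQ _ h := io_mem_QB h
  red2 _ h h' := redS_B W h h'
  redR _ h h' := redS_B W h h'
  δF f h := ⟨⟨δ_nil f, fun g l => by rw [δ_Co_f _ h.1.1, δ_Co_f _ h.1.1]; exact dl_inv _ (h.1.2 g) l⟩,
    fun l => by rw [δ_Co_f _ h.1.1, δ_Co_f _ h.1.1]; exact dl_inv _ h.2 l⟩
  mulF f h g h' := ⟨⟨rfl, fun a l => cupl_inv _ (h.1.2 a) (h'.1.2 a) l⟩,
    fun l => cupl_inv _ h.2 h'.2 l⟩
  cupoF f h g h' := ⟨⟨rfl, fun a l => cupo_inv _ (h.1.2 a) (h'.1.2 a) l⟩,
    fun l => cupo_inv _ h.2 h'.2 l⟩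
  nzF f h := h.1.1
  rhoQ _ h := rhoE_QB hN h
  rhoF f h := ⟨⟨by rw [cf_f, h.1.1, map_zero], fun g l => by rw [cf_f, cf_f, h.1.2 g l]⟩,
    fun l => by rw [cf_f, cf_f, h.2 l]⟩

end GHinst

section lifts
variable {X : Type*} [Group X] {N : ℕ}

/-- the square of `a` lifts -/
def Lf (X : Type*) [Group X] {N : ℕ} (hN : 0 < N) (a : List X → ZMod 2) : Prop :=
  ∃ A ∈ CI X (2 ^ N), (∀ l, dl l A = 0) ∧ (∀ l, A l ≠ 0 → l.length % 2 = 1) ∧ ∃ c ∈ CI X 2,
    (fun l => cupl l a a) = (fun l => rho hN (A l)) + (fun l => dl l c)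

theorem lift_of_SQ {X : Type} [Group X] (h : SQ X) (hN : 0 < N) {p : ℕ} {a : List X → ZMod 2}
    (ha : a ∈ ZC X p) : Lf X hN a := by
  rcases p with _ | m
  · rw [CM_zero ha.1]
    refine ⟨0, AddSubgroup.zero_mem _, fun l => dl_zero l, fun l hl => absurd rfl hl, 0,
      AddSubgroup.zero_mem _, ?_⟩
    funext l
    show cupl l (fun _ => 0) (fun _ => 0) = rho hN 0 + dl l (fun _ => 0)
    rw [cupl_zero_left, map_zero, dl_zero, add_zero]
  · obtain ⟨Y, v, h1, h2, h3, h4, h5, h6, h7⟩ := h X (fun g j hg => mul_eq_right.1 hg) N hN m a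
      (fun l hl => by by_contra hc; exact hl (ha.1.2.1 l hc)) (fun g l => ha.1.2.2 g l)
      (fun l => congrFun ha.2 l)
    refine ⟨Y, ⟨?_, ⟨2 * m + 1, fun l hl => ?_⟩, h2⟩, h3, fun l hl => ?_, v,
      ⟨h5, ⟨2 * m, fun l hl => ?_⟩, h6⟩, funext h7⟩
    · by_contra hc
      have := h1 [] hc
      simp at this
    · by_contra hc
      have := h1 l hc
      omega
    · have := h1 l hl
      omega
    · by_contra hc
      have := h4 l hc
      omega

theorem rho_CI (hN : 0 < N) {A : List X → ZMod (2 ^ N)} (hA : A ∈ CI X (2 ^ N)) :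
    (fun l => rho hN (A l)) ∈ CI X 2 := by
  refine ⟨?_, ?_, fun g l => ?_⟩
  · show rho hN (A []) = 0
    rw [hA.1, map_zero]
  · obtain ⟨K, hK⟩ := hA.2.1
    exact ⟨K, fun l hl => by show rho hN (A l) = 0; rw [hK l hl, map_zero]⟩
  · show rho hN (A (l.map fun b => g * b)) = rho hN (A l)
    rw [hA.2.2]

theorem dl_rho (hN : 0 < N) {A : List X → ZMod (2 ^ N)} (hA : ∀ l, dl l A = 0) (l : List X) :
    dl l (fun l => rho hN (A l)) = 0 := by
  rw [dl_hom (rho hN), hA, map_zero]

/-- commutativity up to a coboundary -/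
theorem comm_ZC {p q : ℕ} {a b : List X → ZMod 2} (ha : a ∈ ZC X p) (hb : b ∈ ZC X q) :
    ∃ e ∈ CI X 2, (fun l => cupl l b a) = (fun l => cupl l a b) + fun l => dl l e := by
  rcases p with _ | p
  · rw [CM_zero ha.1]
    refine ⟨0, AddSubgroup.zero_mem _, ?_⟩
    funext l
    show cupl l b (fun _ => 0) = cupl l (fun _ => 0) b + dl l (fun _ => 0)
    rw [cupl_zero_left, cupl_zero_right, dl_zero, add_zero]
  rcases q with _ | q
  · rw [CM_zero hb.1]
    refine ⟨0, AddSubgroup.zero_mem _, ?_⟩
    funext l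
    show cupl l (fun _ => 0) a = cupl l a (fun _ => 0) + dl l (fun _ => 0)
    rw [cupl_zero_left, cupl_zero_right, dl_zero, add_zero]
  refine ⟨fun l => if l.length = p + q then cupo l a b else 0, ⟨?_, ⟨p + q, fun l hl => ?_⟩,
    fun g l => ?_⟩, ?_⟩
  · show (if ([] : List X).length = p + q then cupo [] a b else 0) = 0
    split_ifs <;> rfl
  · exact if_neg (by omega)
  · show (if (l.map fun b => g * b).length = p + q then cupo (l.map fun b => g * b) a b else 0) = _
    rw [List.length_map, cupo_inv _ (ha.1.2.2 g) (hb.1.2.2 g)]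
  · funext l
    show cupl l b a = cupl l a b + dl l (fun l => if l.length = p + q then cupo l a b else 0)
    by_cases hl : l.length = p + q + 1
    · have h1 : dl l (fun l => if l.length = p + q then cupo l a b else 0) =
          dl l (fun l => cupo l a b) := dl_congr fun l' hl' => if_pos (by omega)
      have ha' : (fun l' => dl l' a) = fun _ => 0 := ha.2
      have hb' : (fun l' => dl l' b) = fun _ => 0 := hb.2
      have h := dl_cupo (DG2.two (B := ZMod 2)) l a b hb.1.1
      have z1 : ∀ (l : List X) (g : List X → ZMod 2), cupo l (fun _ => 0) g = 0 := by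
        intro l
        induction l with
        | nil => intro g; rfl
        | cons x l ih => intro g; rw [cupo_cons, cupl_zero_right, ih, add_zero]
      have z2 : ∀ (l : List X) (f : List X → ZMod 2), cupo l f (fun _ => 0) = 0 := by
        intro l
        induction l with
        | nil => intro g; rfl
        | cons x l ih => intro g; rw [cupo_cons, cupl_zero_left, ih, add_zero]
      rw [ha', hb', z1, z2, zero_add, zero_add] at h
      rw [h1, h, ← add_assoc, DG2.two (cupl l a b), zero_add]
    · have h1 : dl l (fun l => if l.length = p + q then cupo l a b else 0) = 0 :=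
        dl_eq_zero fun l' hl' => if_neg (by omega)
      have h2 : ∀ {p q : ℕ} {a b : List X → ZMod 2}, a ∈ ZC X (p + 1) → b ∈ ZC X (q + 1) →
          l.length ≠ p + q + 1 → cupl l a b = 0 := by
        intro p q a b ha hb hl
        refine cupl_eq_zero (fun x => x) rfl (fun _ _ => rfl) fun c d hcd => ?_
        by_cases h : c.length = p + 1
        · rw [hb.1.2.1 d (by omega), mul_zero]
        · rw [ha.1.2.1 c h, zero_mul]
      rw [h1, h2 ha hb hl, h2 hb ha (by omega), add_zero]

theorem cup_ZC {p q : ℕ} {a b : List X → ZMod 2} (ha : a ∈ ZC X p) (hb : b ∈ ZC X q) (l : List X) :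
    dl l (fun l => cupl l a b) = 0 := by
  have ha' : (fun l' => dl l' a) = fun _ => 0 := ha.2
  have hb' : (fun l' => dl l' b) = fun _ => 0 := hb.2
  rw [dl_cup (DG2.two (B := ZMod 2)), ha', hb', cupl_zero_left, cupl_zero_right, ha.1.1, hb.1.1]
  simp

end lifts

section wr
variable {J X : Type*} [Group X] [MulAction (X × X) J] {N : ℕ}


/-- norm classes of coboundaries -/
theorem normN (W : Sig J X) (hN : 0 < N) {r c : List X → ZMod 2} (hr : r ∈ CI X 2) (hc : c ∈ CI X 2)
    (dr : ∀ l, dl l r = 0) :
    ∃ K ∈ QB W 2, kap (crs (r + fun l => dl l c) (r + fun l => dl l c)) = kap (crs r r) + Cx.δ K := by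
  have hdc : (fun l => dl l c) ∈ CI X 2 := dl_mem_CI hc
  have dr' : (fun l => dl l r) = 0 := funext dr
  have ddc : (fun l => dl l (fun l => dl l c)) = 0 := funext fun l => dl_dl l c
  have z1 : ∀ b : List X → ZMod 2, crs (0 : List X → ZMod 2) b = 0 := fun b =>
    Co.ext fun x => Co.ext fun y => zero_mul _
  have z2 : ∀ b : List X → ZMod 2, crs b (0 : List X → ZMod 2) = 0 := fun b =>
    Co.ext fun x => Co.ext fun y => mul_zero _
  -- mixed terms
  have m1 : crs r (fun l => dl l c) + crs (fun l => dl l c) r = Cx.δ (crs r c + crs c r) := by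
    rw [map_add, δ_crs hr.1 hc.1, δ_crs hc.1 hr.1, dr', z1, z2, zero_add, add_zero]
  have m1' : kap (crs r c + crs c r) ∈ QB W 2 :=
    kap_mem_QB W (AddSubgroup.add_mem _ (crs_mem hr hc) (crs_mem hc hr))
      (by rw [map_add, Tn_crs hr.1 hc.1, Tn_crs hc.1 hr.1, add_comm])
  -- the pure term
  let w : Co J (Co X (Co X (ZMod 2))) := kap (crs c fun l => dl l c)
  have hw : w ∈ QA J X X 2 := kap_mem_QA (crs_mem hc hdc)
  have hw1 : Cx.δ w = kap (crs (fun l => dl l c) fun l => dl l c) := by
    show Cx.δ (kap _) = _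
    rw [δ_kap, δ_crs hc.1 hdc.1, ddc, z2, add_zero]
  have hs : aT W.σ (kap (crs (fun l => dl l c) fun l => dl l c)) =
      kap (crs (fun l => dl l c) fun l => dl l c) := by
    rw [aT_kap, Tn_crs hdc.1 hdc.1]
  have g := gysinB W hw hw1 hs
  have g2 : w + aT W.σ w = Cx.δ (kap (crs c c)) := by
    show kap _ + aT W.σ (kap _) = _
    rw [aT_kap, Tn_crs hc.1 hdc.1, δ_kap, δ_crs hc.1 hc.1, map_add, add_comm]
  rw [g2, ← δ_tm_two W.ε DG2.two, ← map_add] at g
  refine ⟨kap (crs r c + crs c r) + (mix W.ε w (aT W.σ w) + tm W.ε (kap (crs c c))),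
    AddSubgroup.add_mem _ m1' (AddSubgroup.add_mem _ (mix_mem W hw) (tm_mem_QB W
      (kap_mem_QB W (crs_mem hc hc) (Tn_crs hc.1 hc.1)))), ?_⟩
  rw [map_add, ← g, δ_kap, ← m1, crs_add_left, crs_add_right, crs_add_right, ← map_add, ← map_add]
  congr 1
  abel

theorem tmi_rhoE (e : J → Bool) (hN : 0 < N) (i : ℕ) (F : Co J (Co X (Co X (ZMod (2 ^ N))))) :
    (tm e)^[i] (rhoE hN F) = rhoE hN ((tm e)^[i] F) := by
  induction i with
  | zero => rfl
  | succ i ih =>
    rw [Function.iterate_succ_apply', ih, Function.iterate_succ_apply']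
    exact tm_cf e _ _

theorem good_N (W : Sig J X) (hN : 0 < N) (i : ℕ) {p : ℕ} {a : List X → ZMod 2} (ha : a ∈ ZC X p)
    (hL : Lf X hN a) :
    GG hN (QB W 2) (FB W 2) (FB W (2 ^ N)) ((tm W.ε)^[i] (kap (crs a a))) := by
  obtain ⟨A, hA, dA, oA, c, hc, e⟩ := hL
  have ha' := CM_le_CI ha.1
  have da : ∀ l, dl l a = 0 := fun l => congrFun ha.2 l
  obtain ⟨K, hK, eK⟩ := normN W hN (rho_CI hN hA) hc (dl_rho hN dA)
  refine GG.of_sq (GH_B hN W) (F := (tm W.ε)^[i] (kap (crs a a)))
    (tmi_mem_QB W i (kap_mem_QB W (crs_mem ha' ha') (Tn_crs ha'.1 ha'.1))) ?_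
    (Z := (tm W.ε)^[2 * i] (kap (crs A A)))
    (tmi_mem_QB W _ (kap_mem_QB W (crs_mem hA hA) (Tn_crs_odd hA.1 hA.1 oA))) ?_
    (K := (tm W.ε)^[2 * i] K) (tmi_mem_QB W _ hK) ?_
  · rw [δ_tmi, δ_kap, δ_crs_zero ha'.1 ha'.1 da da, map_zero]
    clear eK
    induction i with
    | zero => rfl
    | succ i ih => rw [Function.iterate_succ_apply', ih, map_zero]
  · exact δ_tmi_two _ _ _ (by rw [δ_kap, δ_crs_zero hA.1 hA.1 dA dA, map_zero])
  · rw [sq_tm_kap, crs_mul, e, eK, tmi_add, δ_tmi, ← tmi_rhoE, rhoE_kap, rhoS_crs]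

theorem good_tr (W : Sig J X) (hN : 0 < N) {p q : ℕ} {a b : List X → ZMod 2} (ha : a ∈ ZC X p)
    (hb : b ∈ ZC X q) (hLa : Lf X hN a) (hLb : Lf X hN b) :
    GG hN (QB W 2) (FB W 2) (FB W (2 ^ N)) (kap (crs a b + crs b a)) := by
  obtain ⟨A, hA, dA, oA, c, hc, e⟩ := hLa
  obtain ⟨B, hB, dB, oB, c', hc', e'⟩ := hLb
  obtain ⟨d, hd, ed⟩ := comm_ZC ha hb
  have ha' := CM_le_CI ha.1
  have hb' := CM_le_CI hb.1
  have da : ∀ l, dl l a = 0 := fun l => congrFun ha.2 l
  have db : ∀ l, dl l b = 0 := fun l => congrFun hb.2 l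
  have z1 : ∀ b : List X → ZMod 2, crs (0 : List X → ZMod 2) b = 0 := fun b =>
    Co.ext fun x => Co.ext fun y => zero_mul _
  have z2 : ∀ b : List X → ZMod 2, crs b (0 : List X → ZMod 2) = 0 := fun b =>
    Co.ext fun x => Co.ext fun y => mul_zero _
  have hrA := rho_CI hN hA
  have drA : (fun l => dl l (fun l => rho hN (A l))) = 0 := funext (dl_rho hN dA)
  have hab : (fun l => cupl l a b) ∈ CI X 2 := cupl_mem_CI ha' hb'
  have dab : (fun l => dl l (fun l => cupl l a b)) = 0 := funext (cup_ZC ha hb)
  have hbb : (fun l => cupl l b b) ∈ CI X 2 := cupl_mem_CI hb' hb'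
  have dbb : (fun l => dl l (fun l => cupl l b b)) = 0 := funext (cup_ZC hb hb)
  let k := crs (fun l => rho hN (A l)) c' + crs c' (fun l => rho hN (A l)) +
    (crs c (fun l => cupl l b b) + crs (fun l => cupl l b b) c) +
    (crs (fun l => cupl l a b) d + crs d (fun l => cupl l a b))
  refine GG.of_sq (GH_B hN W) (F := kap (crs a b + crs b a))
    (kap_mem_QB W (AddSubgroup.add_mem _ (crs_mem ha' hb') (crs_mem hb' ha'))
      (by rw [map_add, Tn_crs ha'.1 hb'.1, Tn_crs hb'.1 ha'.1, add_comm])) ?_
    (Z := kap (crs A B + crs B A))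
    (kap_mem_QB W (AddSubgroup.add_mem _ (crs_mem hA hB) (crs_mem hB hA))
      (by rw [map_add, Tn_crs_odd hA.1 hB.1 oA, Tn_crs_odd hB.1 hA.1 oB, add_comm])) ?_
    (K := kap k) ?_ ?_
  · rw [δ_kap, map_add, δ_crs_zero ha'.1 hb'.1 da db, δ_crs_zero hb'.1 ha'.1 db da, add_zero, map_zero]
  · rw [δ_kap, map_add, δ_crs_zero hA.1 hB.1 dA dB, δ_crs_zero hB.1 hA.1 dB dA, add_zero, map_zero]
  · refine kap_mem_QB W (AddSubgroup.add_mem _ (AddSubgroup.add_mem _
      (AddSubgroup.add_mem _ (crs_mem hrA hc') (crs_mem hc' hrA))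
      (AddSubgroup.add_mem _ (crs_mem hc hbb) (crs_mem hbb hc)))
      (AddSubgroup.add_mem _ (crs_mem hab hd) (crs_mem hd hab))) ?_
    simp only [k, map_add]
    rw [Tn_crs hrA.1 hc'.1, Tn_crs hc'.1 hrA.1, Tn_crs hc.1 hbb.1, Tn_crs hbb.1 hc.1,
      Tn_crs hab.1 hd.1, Tn_crs hd.1 hab.1]
    abel
  · rw [kap_mul_kap, rhoE_kap, δ_kap, ← map_add]
    congr 1
    simp only [k, map_add, rhoS_crs]
    rw [δ_crs hrA.1 hc'.1, δ_crs hc'.1 hrA.1, δ_crs hc.1 hbb.1, δ_crs hbb.1 hc.1,
      δ_crs hab.1 hd.1, δ_crs hd.1 hab.1, drA, dbb, dab]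
    simp only [z1, z2, add_zero, zero_add]
    have h1 : crs (fun l => rho hN (A l)) (fun l => cupl l b b) =
        crs (fun l => rho hN (A l)) (fun l => rho hN (B l)) +
        crs (fun l => rho hN (A l)) (fun l => dl l c') := by rw [e', crs_add_right]
    have h2 : crs (fun l => cupl l b b) (fun l => rho hN (A l)) =
        crs (fun l => rho hN (B l)) (fun l => rho hN (A l)) +
        crs (fun l => dl l c') (fun l => rho hN (A l)) := by rw [e', crs_add_left]
    rw [mul_add, add_mul, add_mul, crs_mul, crs_mul, crs_mul, crs_mul, ed, e,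
      crs_add_left _ _ (fun l => cupl l b b), crs_add_right (fun l => cupl l b b),
      crs_add_left _ _ (fun l => cupl l a b), crs_add_right (fun l => cupl l a b), h1, h2]
    have t := two_Co (crs (fun l => cupl l a b) (fun l => cupl l a b))
    generalize crs (fun l => cupl l a b) (fun l => cupl l a b) = u0 at t ⊢
    generalize crs (fun l => rho hN (A l)) (fun l => rho hN (B l)) = u1
    generalize crs (fun l => rho hN (A l)) (fun l => dl l c') = u2
    generalize crs (fun l => rho hN (B l)) (fun l => rho hN (A l)) = u3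
    generalize crs (fun l => dl l c') (fun l => rho hN (A l)) = u4
    generalize crs (fun l => dl l c) (fun l => cupl l b b) = u5
    generalize crs (fun l => cupl l b b) (fun l => dl l c) = u6
    generalize crs (fun l => cupl l a b) (fun l => dl l d) = u7
    generalize crs (fun l => dl l d) (fun l => cupl l a b) = u8
    calc _ = (u0 + u0) + (u1 + u3 + (u2 + u4 + (u5 + u6) + (u7 + u8))) := by abel
      _ = _ := by rw [t, zero_add]; try abel

/-! ## the structure theorem -/

/-- sums of coboundaries, norm classes and transfers -/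
def Sp (W : Sig J X) : AddSubgroup (Co J (Co X (Co X (ZMod 2)))) :=
  AddSubgroup.closure ({F | ∃ H ∈ QB W 2, F = Cx.δ H} ∪
    ({F | ∃ i p, ∃ a ∈ ZC X p, F = (tm W.ε)^[i] (kap (crs a a))} ∪
     {F | ∃ p q, ∃ a ∈ ZC X p, ∃ b ∈ ZC X q, F = kap (crs a b + crs b a)}))

theorem Sp_bd (W : Sig J X) {H : Co J (Co X (Co X (ZMod 2)))} (hH : H ∈ QB W 2) : Cx.δ H ∈ Sp W :=
  AddSubgroup.subset_closure (Or.inl ⟨H, hH, rfl⟩)

theorem Sp_tm (W : Sig J X) {F : Co J (Co X (Co X (ZMod 2)))} (hF : F ∈ Sp W) : tm W.ε F ∈ Sp W := by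
  induction hF using AddSubgroup.closure_induction with
  | mem F h =>
    rcases h with ⟨H, hH, rfl⟩ | ⟨i, p, a, ha, rfl⟩ | ⟨p, q, a, ha, b, hb, rfl⟩
    · rw [← δ_tm_two W.ε DG2.two]
      exact Sp_bd W (tm_mem_QB W hH)
    · rw [← Function.iterate_succ_apply' (tm W.ε)]
      exact AddSubgroup.subset_closure (Or.inr (Or.inl ⟨i + 1, p, a, ha, rfl⟩))
    · have ha' := CM_le_CI ha.1
      have hb' := CM_le_CI hb.1
      have da : ∀ l, dl l a = 0 := fun l => congrFun ha.2 l
      have db : ∀ l, dl l b = 0 := fun l => congrFun hb.2 l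
      have hw : (kap (crs a b) : Co J (Co X (Co X (ZMod 2)))) ∈ QA J X X 2 := kap_mem_QA (crs_mem ha' hb')
      have g := gysinB W hw (X1 := 0)
        (by rw [δ_kap, δ_crs_zero ha'.1 hb'.1 da db, map_zero]) (map_zero _)
      rw [aT_kap, Tn_crs ha'.1 hb'.1] at g
      have g2 : tm W.ε (kap (crs a b + crs b a)) = Cx.δ (mix W.ε (kap (crs a b)) (kap (crs b a))) := by
        rw [map_add]
        exact (sum_zero2 DG2.two g.symm).symm
      rw [g2]
      have hm := mix_mem W hw
      rw [aT_kap, Tn_crs ha'.1 hb'.1] at hm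
      exact Sp_bd W hm
  | zero => rw [map_zero]; exact AddSubgroup.zero_mem _
  | add F G _ _ h h' => rw [map_add]; exact AddSubgroup.add_mem _ h h'
  | neg F _ h => rw [map_neg]; exact AddSubgroup.neg_mem _ h

theorem PA_zero {J X Y : Type*} [Group X] [Group Y] [MulAction (X × Y) J] {n : ℕ}
    {F : Co J (Co X (Co Y (ZMod n)))} (hF : F ∈ PA J X Y n 0) : F = 0 := by
  refine Co.ext fun l => Co.ext fun x => Co.ext fun y => ?_
  rcases l with _ | ⟨a, l⟩
  · rw [hF.1.1]; rfl
  · exact hF.2.1 _ _ _ (by simp only [List.length_cons]; omega)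

theorem SA_zero {X Y : Type*} [Group X] [Group Y] {n : ℕ}
    {s : Co X (Co Y (ZMod n))} (hs : s ∈ SA X Y n 0) : s = 0 := by
  refine Co.ext fun x => Co.ext fun y => ?_
  rcases x with _ | ⟨a, x⟩
  · rw [hs.1.1]; rfl
  · exact hs.2.1 _ _ (by simp only [List.length_cons]; omega)

theorem Tn_eq_tp {s : Co X (Co X (ZMod 2))} (hs : NzS s) : Tn s = tp s := by
  refine Co.ext fun x => Co.ext fun y => ?_
  rw [Tn_f2, hs.vv, tp_f]


theorem structure_thm [Finite X] (j0 : J) (W : Sig J X) : ∀ (L : ℕ) (F : Co J (Co X (Co X (ZMod 2)))),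
    F ∈ PB W 2 L → Cx.δ F = 0 → F ∈ Sp W := by
  haveI : Nonempty J := ⟨j0⟩
  have two := DG2.two (B := Co J (Co X (Co X (ZMod 2))))
  intro L
  induction L with
  | zero =>
    intro F hF _
    rw [PA_zero hF.1]; exact AddSubgroup.zero_mem _
  | succ L ih =>
    intro F hF dF
    obtain ⟨z, hz, H0, hH0, e⟩ := redJ j0 hF.1 (fun k _ => by rw [dF, map_zero])
    have dz : Cx.δ z = 0 := by
      refine kap_injective (J := J) ?_
      rw [map_zero, ← δ_kap]
      have : kap z = F - Cx.δ H0 := by rw [e]; abel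
      rw [this, map_sub, dF, Cx.δδ, sub_zero]
    rcases L with _ | M
    · rw [SA_zero hz, PA_zero hH0, map_zero, map_zero, add_zero] at e
      rw [e]; exact AddSubgroup.zero_mem _
    · -- symmetry of `z` up to a coboundary
      have hT : kap (z + tp z) = Cx.δ (H0 + aT W.σ H0) := by
        have h1 := hF.2
        rw [e, map_add, aT_kap, ← δ_aT, Tn_eq_tp hz.1] at h1
        rw [map_add, map_add]
        refine sum_zero2 two ?_
        calc kap z + kap (tp z) + (Cx.δ H0 + Cx.δ (aT W.σ H0))
            = (kap (tp z) + Cx.δ (aT W.σ H0)) + (kap z + Cx.δ H0) := by abel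
          _ = 0 := by rw [h1, two]
      obtain ⟨w, hw, H', hH', e'⟩ := redJ j0 (AddSubgroup.add_mem _ hH0 (aT_mem_PA W hH0))
        (fun k hk => by
          rw [← hT]
          refine Co.ext fun l => ?_
          rw [cJ_f, kap_f]
          split_ifs with h1 h2
          · omega
          · rfl
          · rfl)
      have hsym : z + tp z = Cx.δ w := by
        refine kap_injective (J := J) ?_
        rw [hT, e', map_add, Cx.δδ, add_zero, δ_kap]
      obtain ⟨z', hz', hzS, hzt, w', hw', e2⟩ := kunneth_sym hz dz hw hsym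
      -- the part coming from `z'`
      have hX' : kap z' ∈ Sp W := by
        clear hzt hzS e2
        induction hz' using AddSubgroup.closure_induction with
        | mem s h =>
          rcases h with ⟨p, -, a, ha, rfl⟩ | ⟨p, q, -, a, ha, b, hb, rfl⟩
          · exact AddSubgroup.subset_closure (Or.inr (Or.inl ⟨0, p, a, ha, rfl⟩))
          · exact AddSubgroup.subset_closure (Or.inr (Or.inr ⟨p, q, a, ha, b, hb, rfl⟩))
        | zero => rw [map_zero]; exact AddSubgroup.zero_mem _
        | add s t _ _ h h' => rw [map_add]; exact AddSubgroup.add_mem _ h h'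
        | neg s _ h => rw [map_neg]; exact AddSubgroup.neg_mem _ h
      have hXB : aT W.σ (kap z') = (kap z' : Co J (Co X (Co X (ZMod 2)))) := by
        rw [aT_kap, Tn_eq_tp hzS.1, hzt]
      -- the rest
      let y := kap w' + H0
      have hy : y ∈ PA J X X 2 (M + 1) := AddSubgroup.add_mem _ (kap_mem_PA hw') hH0
      have e3 : F = kap z' + Cx.δ y := by
        show F = kap z' + Cx.δ (kap w' + H0)
        rw [map_add, δ_kap, ← add_assoc, ← map_add, ← e2, e]
      have hs : aT W.σ (Cx.δ y) = Cx.δ y := by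
        have : Cx.δ y = F - kap z' := by rw [e3]; abel
        rw [this, map_sub, hF.2, hXB]
      have g := gysinB W (PA_le_QA _ hy) rfl hs
      have hx' : y + aT W.σ y ∈ PB W 2 (M + 1) :=
        ⟨AddSubgroup.add_mem _ hy (aT_mem_PA W hy), by rw [map_add, aT_aT W.inv hy.1, add_comm]⟩
      have dx' : Cx.δ (y + aT W.σ y) = 0 := by rw [map_add, δ_aT, hs, two]
      rw [e3, g]
      exact AddSubgroup.add_mem _ hX' (AddSubgroup.add_mem _ (Sp_bd W (mix_mem W (PA_le_QA _ hy)))
        (Sp_tm W (ih _ hx' dx')))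

theorem good_Sp (W : Sig J X) (hN : 0 < N) (hL : ∀ p, ∀ a ∈ ZC X p, Lf X hN a)
    {F : Co J (Co X (Co X (ZMod 2)))} (hF : F ∈ Sp W) :
    GG hN (QB W 2) (FB W 2) (FB W (2 ^ N)) F := by
  induction hF using AddSubgroup.closure_induction with
  | mem F h =>
    rcases h with ⟨H, hH, rfl⟩ | ⟨i, p, a, ha, rfl⟩ | ⟨p, q, a, ha, b, hb, rfl⟩
    · exact GG.bd _ hH
    · exact good_N W hN i ha (hL _ _ ha)
    · exact good_tr W hN ha hb (hL _ _ ha) (hL _ _ hb)
  | zero => exact GG.zero
  | add F G _ _ h h' => exact h.add (GH_B hN W) h'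
  | neg F _ h => rw [neg_eq_self2 DG2.two]; exact h

/-- the main statement for a swap situation -/
theorem main_wr [Finite X] (j0 : J) (W : Sig J X) (hN : 0 < N) (hL : ∀ p, ∀ a ∈ ZC X p, Lf X hN a)
    {m : ℕ} {u : Co J (ZMod 2)} (hu : u ∈ FB W 2) (hum : ∀ l, u.f l ≠ 0 → l.length = m + 1)
    (du : ∀ l, dl l u.f = 0) : SqL hN (FB W 2) (FB W (2 ^ N)) u := by
  refine GG.concl (GH_B hN W) hu (good_Sp W hN hL (structure_thm j0 W (m + 3) _ ⟨?_, (io_mem_QB hu).2⟩ ?_))
  · refine ⟨(io_mem_QB hu).1.1, fun l x y h => ?_, (io_mem_QB hu).1.2.2⟩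
    rw [io_f, kap_f]
    split_ifs with h1
    · rw [kap_f]
      split_ifs with h2
      · by_contra hc
        have := hum l hc
        omega
      · rfl
    · rfl
  · rw [δ_io]
    have : Cx.δ u = 0 := Co.ext fun l => by rw [δ_Co_f _ hu.1.1, du]; rfl
    rw [this, map_zero]

end wr

end Crest.Agent.R204.SQ803
end

-- ▼ part R204/SigEx_718
section

/-!
# Row 204, leaf G5 (helper718 for helper803): a free `Γ = D ≀ᵣ Z/2`-set carries the data `Sig`
-/

set_option autoImplicit false

namespace Crest.Agent.R204.SigEx718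

open SQ803

abbrev Q2 : Type := Multiplicative (ZMod 2)

/-- the generator -/
def tt : Q2 := Multiplicative.ofAdd 1

theorem tt_mul_tt : tt * tt = 1 := rfl
theorem tt_inv : tt⁻¹ = tt := rfl
theorem tt_ne : tt ≠ 1 := by decide
theorem q2_cases (q : Q2) : q = 1 ∨ q = tt := by revert q; decide

section grp

variable {D : Type} [Group D]

/-- the base group -/
def bas : D × D →* D ≀ᵣ Q2 where
  toFun g := ⟨fun x => if x = 1 then g.1 else g.2, 1⟩
  map_one' := by
    refine RegularWreathProduct.ext ?_ rfl
    funext x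
    show (if x = 1 then (1 : D) else 1) = 1
    split_ifs <;> rfl
  map_mul' g h := by
    refine RegularWreathProduct.ext ?_ rfl
    funext x
    rw [RegularWreathProduct.mul_left]
    show (if x = 1 then g.1 * h.1 else g.2 * h.2) =
      (if x = 1 then g.1 else g.2) * (if (1 : Q2)⁻¹ * x = 1 then h.1 else h.2)
    rw [inv_one, one_mul]
    split_ifs <;> rfl

/-- the involution -/
def tau : D ≀ᵣ Q2 := ⟨1, tt⟩

theorem tau_mul_tau : (tau : D ≀ᵣ Q2) * tau = 1 := by
  refine RegularWreathProduct.ext ?_ tt_mul_tt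
  funext x
  simp [tau]

theorem tau_mul_bas (g : D × D) : (tau : D ≀ᵣ Q2) * bas g = bas (g.2, g.1) * tau := by
  refine RegularWreathProduct.ext ?_ ?_
  · funext x
    rw [RegularWreathProduct.mul_left, RegularWreathProduct.mul_left]
    show (1 : D) * (if tt⁻¹ * x = 1 then g.1 else g.2) = (if x = 1 then g.2 else g.1) * 1
    rw [one_mul, mul_one]
    rcases q2_cases x with rfl | rfl
    · rw [if_neg (by decide), if_pos rfl]
    · rw [if_pos (by decide), if_neg (by decide)]
  · show tt * 1 = 1 * tt
    rw [one_mul, mul_one]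

theorem decomp (γ : D ≀ᵣ Q2) : γ = bas (γ.left 1, γ.left tt) ∨ γ = bas (γ.left 1, γ.left tt) * tau := by
  have hl : (fun x : Q2 => if x = 1 then γ.left 1 else γ.left tt) = γ.left := by
    funext x
    rcases q2_cases x with rfl | rfl
    · rw [if_pos rfl]
    · rw [if_neg (by decide)]
  rcases q2_cases γ.right with h | h
  · left
    refine RegularWreathProduct.ext hl.symm h
  · right
    refine RegularWreathProduct.ext ?_ ?_
    · rw [RegularWreathProduct.mul_left]
      funext x
      show _ = (if x = 1 then γ.left 1 else γ.left tt) * 1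
      rw [mul_one]
      exact (congrFun hl x).symm
    · show γ.right = 1 * tt
      rw [one_mul, h]

end grp

/-- an equivariant map from a free `G`-set to `G` -/
theorem exists_equiv {G J : Type} [Group G] [MulAction G J] (hfree : ∀ (γ : G) (j : J), γ • j = j → γ = 1) :
    ∃ φ : J → G, ∀ (γ : G) (j : J), φ (γ • j) = γ * φ j := by
  classical
  let r : J → J := fun j => Quotient.out (Quotient.mk (MulAction.orbitRel G J) j)
  have hr : ∀ j, ∃ γ : G, γ • r j = j := by
    intro j
    have h := Quotient.mk_out (s := MulAction.orbitRel G J) j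
    have h2 : r j ∈ MulAction.orbit G j := MulAction.orbitRel_apply.1 h
    obtain ⟨γ, hγ⟩ := h2
    refine ⟨γ⁻¹, ?_⟩
    rw [← hγ]
    exact inv_smul_smul γ j
  choose φ hφ using hr
  refine ⟨φ, fun γ j => ?_⟩
  have h1 : r (γ • j) = r j := by
    show Quotient.out _ = Quotient.out _
    congr 1
    exact Quotient.sound (MulAction.orbitRel_apply.2 ⟨γ, rfl⟩)
  have h2 : φ (γ • j) • r j = (γ * φ j) • r j := by
    rw [mul_smul, hφ j]
    have := hφ (γ • j)
    rwa [h1] at this
  have h3 : ((γ * φ j)⁻¹ * φ (γ • j)) • r j = r j := by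
    rw [mul_smul, h2, inv_smul_smul]
  have h4 := hfree _ _ h3
  rw [inv_mul_eq_one] at h4
  exact h4.symm

theorem exists_sig (D : Type) [Group D] (J : Type) [MulAction (D ≀ᵣ Multiplicative (ZMod 2)) J]
    (hfree : ∀ (γ : D ≀ᵣ Multiplicative (ZMod 2)) (j : J), γ • j = j → γ = 1) :
    ∃ (I : MulAction (D × D) J) (W : @Sig J D _ I), ∀ (R : Type) (u : List J → R),
      (∀ (γ : D ≀ᵣ Multiplicative (ZMod 2)) (l : List J), u (l.map (γ • ·)) = u l) ↔
      ((∀ (g : D × D) (l : List J), u (l.map (fun j => I.smul g j)) = u l) ∧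
        ∀ l, u (l.map W.σ) = u l) := by
  classical
  obtain ⟨φ, hφ⟩ := exists_equiv hfree
  letI I : MulAction (D × D) J := MulAction.compHom J bas
  have hI : ∀ (g : D × D) (j : J), g • j = (bas g : D ≀ᵣ Q2) • j := fun _ _ => rfl
  let W : Sig J D :=
    { σ := fun j => (tau : D ≀ᵣ Q2) • j
      inv := fun j => by rw [← mul_smul, tau_mul_tau, one_smul]
      smul := fun g j => by
        rw [hI, hI, ← mul_smul, ← mul_smul, tau_mul_bas]
      c1 := fun j => (φ j).left 1
      c2 := fun j => (φ j).left tt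
      ε := fun j => decide ((φ j).right = tt)
      c1_smul := fun g j => by
        rw [hI, hφ, RegularWreathProduct.mul_left]
        show (if (1 : Q2) = 1 then g.1 else g.2) * (φ j).left ((1 : Q2)⁻¹ * 1) = _
        rw [if_pos rfl, inv_one, one_mul]
      c2_smul := fun g j => by
        rw [hI, hφ, RegularWreathProduct.mul_left]
        show (if tt = 1 then g.1 else g.2) * (φ j).left ((1 : Q2)⁻¹ * tt) = _
        rw [if_neg tt_ne, inv_one, one_mul]
      c1_σ := fun j => by
        rw [hφ, RegularWreathProduct.mul_left]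
        show (1 : D) * (φ j).left (tt⁻¹ * 1) = _
        rw [one_mul, mul_one, tt_inv]
      ε_smul := fun g j => by
        rw [hI, hφ, RegularWreathProduct.mul_right]
        show decide ((1 : Q2) * (φ j).right = tt) = _
        rw [one_mul]
      ε_σ := fun j => by
        rw [hφ, RegularWreathProduct.mul_right]
        show decide (tt * (φ j).right = tt) = _
        rcases q2_cases (φ j).right with h | h
        · rw [h]; decide
        · rw [h]; decide }
  refine ⟨I, W, fun R u => ⟨fun h => ⟨fun g l => h (bas g) l, fun l => h tau l⟩, ?_⟩⟩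
  rintro ⟨h1, h2⟩ γ l
  have h1' : ∀ (g : D × D) (l : List J), u (l.map (fun j => (bas g : D ≀ᵣ Q2) • j)) = u l := h1
  have h2' : ∀ l : List J, u (l.map (fun j => (tau : D ≀ᵣ Q2) • j)) = u l := h2
  rcases decomp γ with h | h
  · rw [h]; exact h1' _ l
  · rw [h]
    have e : l.map (fun j => (bas (γ.left 1, γ.left tt) * tau : D ≀ᵣ Q2) • j) =
        (l.map (fun j => (tau : D ≀ᵣ Q2) • j)).map
          (fun j => (bas (γ.left 1, γ.left tt) : D ≀ᵣ Q2) • j) := by
      rw [List.map_map]
      refine List.map_congr_left fun j _ => ?_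
      exact mul_smul _ _ _
    rw [e, h1', h2']

end Crest.Agent.R204.SigEx718
end

-- ▼ part R204/SQJ_761
section

/-!
# Row 204, block G, leaf G5: `SQ` for the trivial group, invariance under isomorphism, independence of `J`
(helper761)
-/

set_option autoImplicit false

namespace Crest.Agent.R204.SQ803

section deg
variable {J B : Type*} [NonUnitalRing B]

/-- the cup product of `f` supported on lists of length `a` and `g` supported on lists of length `b` is
supported on lists of length `a + b - 1` -/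
theorem cupl_deg761 {a b : ℕ} (l : List J) (f g : List J → B) (hf : ∀ l, f l ≠ 0 → l.length = a)
    (hg : ∀ l, g l ≠ 0 → l.length = b) (h : cupl l f g ≠ 0) : l.length + 1 = a + b := by
  induction l generalizing f a with
  | nil => exact absurd rfl h
  | cons x l ih =>
    rw [cupl_cons] at h
    by_cases h1 : f [x] * g (x :: l) = 0
    · rw [h1, zero_add] at h
      rcases a with _ | a
      · exfalso
        apply h
        have : (fun l' => f (x :: l')) = fun _ => 0 := by
          funext l'
          by_contra hne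
          exact absurd (hf _ hne) (by simp)
        rw [this, cupl_zero_left]
      · have := ih (a := a) (fun l' => f (x :: l')) (fun l' hl' => by
          have := hf _ hl'
          simpa using this) h
        rw [List.length_cons]; omega
    · have hfx : f [x] ≠ 0 := fun h0 => h1 (by rw [h0, zero_mul])
      have hgx : g (x :: l) ≠ 0 := fun h0 => h1 (by rw [h0, mul_zero])
      have e1 := hf _ hfx
      have e2 := hg _ hgx
      rw [List.length_singleton] at e1
      omega

end deg

/-- `SQ` is invariant under isomorphism -/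
theorem SQ_iso (G H : Type) [Group G] [Group H] (e : G ≃* H) (h : SQ G) : SQ H := by
  intro J iH hfree N hN m u hum hu hdu
  let iG : MulAction G J := MulAction.compHom J (e : G →* H)
  have hs : ∀ (g : G) (j : J), g • j = e g • j := fun g j => rfl
  obtain ⟨Y, v, hYm, hY, hdY, hvm, hv0, hv, huu⟩ := h J
    (fun g j hg => by
      have := hfree (e g) j hg
      exact e.map_eq_one_iff.1 this) N hN m u hum (fun g l => hu (e g) l) hdu
  refine ⟨Y, v, hYm, fun x l => ?_, hdY, hvm, hv0, fun x l => ?_, huu⟩
  · have := hY (e.symm x) l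
    simp only [hs, MulEquiv.apply_symm_apply] at this
    exact this
  · have := hv (e.symm x) l
    simp only [hs, MulEquiv.apply_symm_apply] at this
    exact this

/-- trivial groups -/
theorem SQ_subsingleton (G : Type) [Group G] [Subsingleton G] : SQ G := by
  intro J _ _ N hN m u hum _ hdu
  have hg : ∀ (g : G) (l : List J), l.map (g • ·) = l := by
    intro g l
    have : (fun j : J => g • j) = id := by
      funext j
      have h1 : g = 1 := Subsingleton.elim _ _
      rw [h1]; exact one_smul G j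
    rw [this, List.map_id]
  rcases isEmpty_or_nonempty J with hJ | ⟨⟨c⟩⟩
  · have hl : ∀ l : List J, l = [] := fun l => by
      rcases l with _ | ⟨x, l⟩
      · rfl
      · exact (hJ.false x).elim
    refine ⟨fun _ => 0, fun _ => 0, fun l h => absurd rfl h, fun _ _ => rfl, fun l => dl_zero l,
      fun l h => absurd rfl h, rfl, fun _ _ => rfl, fun l => ?_⟩
    rw [hl l]
    simp
  · rcases m with _ | m
    · have hc : ∀ x : J, u [x] = u [c] := by
        intro x
        have h := hdu [c, x]
        simp only [dl_cons, dl_nil, sub_zero] at h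
        exact sub_eq_zero.1 h
      refine ⟨fun l => if l.length = 1 then ((u [c]).val : ZMod (2 ^ N)) else 0, fun _ => 0, ?_, ?_, ?_,
        fun l h => absurd rfl h, rfl, fun _ _ => rfl, fun l => ?_⟩
      · intro l h
        by_contra hne
        exact h (if_neg (by simpa using hne))
      · intro g l
        rw [hg]
      · intro l
        rcases l with _ | ⟨x, _ | ⟨y, _ | ⟨z, l⟩⟩⟩
        · rfl
        · simp [dl_cons]
        · simp [dl_cons]
        · refine dl_eq_zero fun l' hl' => ?_
          rw [if_neg]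
          simp only [List.length_cons] at hl'
          omega
      · rw [dl_zero, add_zero]
        by_cases hl1 : l.length = 1
        · obtain ⟨x, rfl⟩ := List.length_eq_one_iff.1 hl1
          simp only [cupl_cons, cupl_nil, add_zero, hc x, List.length_singleton, if_true]
          have key : ∀ a : ZMod 2, a * a = (((a.val : ℕ) : ZMod (2 ^ N))).cast := by
            intro a
            have h2 : (((a.val : ℕ) : ZMod (2 ^ N)).cast : ZMod 2) = ((a.val : ℕ) : ZMod 2) :=
              map_natCast (ZMod.castHom (dvd_pow_self 2 hN.ne') (ZMod 2)) _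
            rw [h2, ZMod.natCast_zmod_val]
            clear h2
            revert a
            decide
          exact key _
        · simp only [if_neg hl1]
          have h0 : cupl l u u = 0 := by
            by_contra hne
            have := cupl_deg761 l u u hum hum hne
            omega
          rw [h0]
          exact (ZMod.cast_zero).symm
    · have hw0 : u [c] = 0 := by
        by_contra hne
        have := hum _ hne
        simp at this
      have hu0 : u [] = 0 := by
        by_contra hne
        have := hum _ hne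
        simp at this
      have hcon : ∀ l, dl l (fun l' => u (c :: l')) = u l := by
        intro l
        have := contr c l u
        rw [hdu, zero_add] at this
        exact this.symm
      have hwm : ∀ l : List J, u (c :: l) ≠ 0 → l.length = m + 1 := fun l hl => by
        have := hum _ hl
        simpa using this
      refine ⟨fun _ => 0, fun l => cupl l (fun l' => u (c :: l')) u, fun l h => absurd rfl h,
        fun _ _ => rfl, fun l => dl_zero l, ?_, rfl, ?_, fun l => ?_⟩
      · intro l h
        have := cupl_deg761 l _ u hwm hum h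
        omega
      · intro g l
        rw [hg]
      · rw [dl_cup (fun b => CharTwo.add_self_eq_zero b)]
        have e1 : (fun l' => dl l' (fun l' => u (c :: l'))) = u := funext hcon
        have e2 : (fun l' => dl l' u) = fun _ => (0 : ZMod 2) := funext hdu
        rw [e1, e2, cupl_zero_right, hw0, hu0, ZMod.cast_zero]
        ring

/-- the trivial group -/
theorem SQ_one : SQ PUnit := SQ_subsingleton PUnit

end Crest.Agent.R204.SQ803
end

-- ▼ part R204/SQP_334
section

/-!
# Row 204, block G, lemma SQ: the product step, part 1 (helper334)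

Functions of three lists `F : List J → List X → List Y → ZMod n` with the total differential `D3`;
`X = D`, `Y = E` groups, `J` a free `D × E`-set.  `ι` (constant in `X`, `Y`) is a quasi-isomorphism on
invariants, `κ` (constant in `J`) is onto in homology.
-/

set_option autoImplicit false
set_option linter.unusedSectionVars false

namespace Crest.Agent.R204.SQP334

open SQ803 SQ803.Co

section plain
variable {J X Y : Type} {n : ℕ}

/-- plain functions of two lists -/
abbrev F2L (X Y : Type) (n : ℕ) : Type := List X → List Y → ZMod n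
/-- plain functions of three lists -/
abbrev F3L (J X Y : Type) (n : ℕ) : Type := List J → List X → List Y → ZMod n

/-- evaluation -/
def ev2 (x : List X) (y : List Y) : F2L X Y n →+ ZMod n where
  toFun f := f x y
  map_zero' := rfl
  map_add' _ _ := rfl

@[simp] theorem ev2_apply (x : List X) (y : List Y) (f : F2L X Y n) : ev2 x y f = f x y := rfl

/-- differential in two variables -/
def D2 : F2L X Y n →+ F2L X Y n where
  toFun f := fun x y => dl x (fun x' => f x' y) + sg x.length • dl y (fun y' => f x y')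
  map_zero' := by funext x y; simp
  map_add' f g := by
    funext x y
    simp only [Pi.add_apply, dl_add, smul_add]
    abel

theorem D2_apply (f : F2L X Y n) (x : List X) (y : List Y) :
    D2 f x y = dl x (fun x' => f x' y) + sg x.length • dl y (fun y' => f x y') := rfl

/-- differential in the first variable -/
def DJ : F3L J X Y n →+ F3L J X Y n where
  toFun F := fun j x y => dl j (fun j' => F j' x y)
  map_zero' := by funext j x y; simp
  map_add' f g := by funext j x y; simp only [Pi.add_apply, dl_add]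

theorem DJ_apply (F : F3L J X Y n) (j : List J) (x : List X) (y : List Y) :
    DJ F j x y = dl j (fun j' => F j' x y) := rfl

/-- differential in the last two variables -/
def DS : F3L J X Y n →+ F3L J X Y n where
  toFun F := fun j x y => sg j.length • D2 (F j) x y
  map_zero' := by
    funext j x y
    show sg j.length • D2 (0 : F2L X Y n) x y = 0
    rw [map_zero]; simp
  map_add' f g := by
    funext j x y
    show sg j.length • D2 (f j + g j) x y = _
    rw [map_add]
    show sg j.length • (D2 (f j) x y + D2 (g j) x y) = _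
    rw [smul_add]; rfl

theorem DS_apply (F : F3L J X Y n) (j : List J) (x : List X) (y : List Y) :
    DS F j x y = sg j.length • D2 (F j) x y := rfl

/-- total differential -/
def D3 : F3L J X Y n →+ F3L J X Y n := DJ + DS

theorem D3_apply (F : F3L J X Y n) (j : List J) (x : List X) (y : List Y) :
    D3 F j x y = dl j (fun j' => F j' x y) + sg j.length • D2 (F j) x y := rfl

/-! ### comparison with 803's nested cochains -/

/-- to nested cochains -/
def toS (f : F2L X Y n) : Co X (Co Y (ZMod n)) := ⟨fun x => ⟨fun y => f x y⟩⟩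
/-- to nested cochains -/
def toE (F : F3L J X Y n) : Co J (Co X (Co Y (ZMod n))) := ⟨fun j => toS (F j)⟩

@[simp] theorem toS_f (f : F2L X Y n) (x : List X) (y : List Y) : ((toS f).f x).f y = f x y := rfl
@[simp] theorem toE_f (F : F3L J X Y n) (j : List J) : (toE F).f j = toS (F j) := rfl

theorem toS_inj {f g : F2L X Y n} (h : toS f = toS g) : f = g := by
  funext x y
  rw [← toS_f f, h, toS_f]

theorem toE_inj {f g : F3L J X Y n} (h : toE f = toE g) : f = g := by
  funext j
  apply toS_inj
  rw [← toE_f f, h, toE_f]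

/-- normalised: vanishes at empty lists -/
def Nz2 (f : F2L X Y n) : Prop := (∀ y, f [] y = 0) ∧ ∀ x, f x [] = 0
/-- normalised: vanishes at empty lists -/
def Nz3 (F : F3L J X Y n) : Prop := (∀ x y, F [] x y = 0) ∧ ∀ j, Nz2 (F j)

theorem Nz2.nzS {f : F2L X Y n} (h : Nz2 f) : NzS (toS f) :=
  ⟨Co.ext fun y => h.1 y, fun x => h.2 x⟩

theorem toS_D2 {f : F2L X Y n} (h : Nz2 f) : Cx.δ (toS f) = toS (D2 f) := by
  refine Co.ext fun x => Co.ext fun y => ?_
  rw [h.nzS.δ_fz]; rfl

theorem Nz2.D2 {f : F2L X Y n} (h : Nz2 f) : Nz2 (D2 f) := by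
  constructor
  · intro y
    rw [D2_apply]
    simp [h.1]
  · intro x
    rw [D2_apply]
    simp [h.2]

theorem Nz3.D3 {F : F3L J X Y n} (h : Nz3 F) : Nz3 (D3 F) := by
  refine ⟨fun x y => ?_, fun j => ⟨fun y => ?_, fun x => ?_⟩⟩
  · rw [D3_apply, dl_nil, zero_add, show F [] = 0 from funext fun x => funext fun y => h.1 x y, map_zero]
    simp
  · rw [D3_apply, (h.2 j).D2.1]
    have : (fun j' => F j' [] y) = fun _ => 0 := funext fun j' => (h.2 j').1 y
    rw [this]; simp
  · rw [D3_apply, (h.2 j).D2.2]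
    have : (fun j' => F j' x []) = fun _ => 0 := funext fun j' => (h.2 j').2 x
    rw [this]; simp

theorem toE_D3 {F : F3L J X Y n} (h : Nz3 F) : Cx.δ (toE F) = toE (D3 F) := by
  have h0 : (toE F).f [] = 0 := Co.ext fun x => Co.ext fun y => h.1 x y
  refine Co.ext fun j => Co.ext fun x => Co.ext fun y => ?_
  rw [δ_of h0, add_f, add_f, zsmul_f, zsmul_f, dl_f, dl_f, toE_f, toS_D2 (h.2 j)]
  rfl

theorem D2_D2 (f : F2L X Y n) : D2 (D2 f) = 0 := by
  funext x y
  rw [D2_apply]
  have e1 : dl x (fun x' => D2 f x' y) =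
      dl x (fun x' => dl x' (fun x'' => f x'' y)) + dl x (fun x' => sg x'.length • dl y (fun y' => f x' y')) := by
    rw [← dl_add]; rfl
  have e2 : dl y (fun y' => D2 f x y') =
      dl y (fun y' => dl x (fun x' => f x' y')) + dl y (fun y' => sg x.length • dl y' (fun y'' => f x y'')) := by
    rw [← dl_add]; rfl
  have e3 : dl y (fun y' => sg x.length • dl y' (fun y'' => f x y'')) = 0 := by
    have := dl_hom (zsmulAddGroupHom (sg x.length)) y (fun y' => dl y' (fun y'' => f x y''))
    simp only [zsmulAddGroupHom_apply] at this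
    rw [this, dl_dl, smul_zero]
  have e4 : dl x (fun x' => dl y (fun y' => f x' y')) = dl y (fun y' => dl x (fun x' => f x' y')) := by
    generalize x = x at *
    clear e1 e2 e3
    induction x generalizing f with
    | nil => simp
    | cons a x ih =>
      rw [dl_cons, ih (fun x' y' => f (a :: x') y')]
      have : (fun y' => dl (a :: x) (fun x' => f x' y')) =
          fun y' => f x y' - dl x (fun x' => f (a :: x') y') := by funext y'; rw [dl_cons]
      rw [this, dl_sub]
  rw [e1, e2, e3, dl_dl, zero_add, add_zero, dl_sg, e4, neg_smul, neg_add_cancel]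
  rfl

theorem D3_D3 (F : F3L J X Y n) : D3 (D3 F) = 0 := by
  funext j x y
  rw [D3_apply]
  have e1 : dl j (fun j' => D3 F j' x y) =
      dl j (fun j' => dl j' (fun j'' => F j'' x y)) + dl j (fun j' => sg j'.length • D2 (F j') x y) := by
    rw [← dl_add]; rfl
  have e2 : D3 F j = (fun x y => dl j (fun j' => F j' x y)) + sg j.length • D2 (F j) := by
    funext x y; rfl
  have e3 : D2 (fun x y => dl j (fun j' => F j' x y)) x y = dl j (fun j' => D2 (F j') x y) := by
    have h2 : (fun x y => dl j (fun j' => F j' x y)) = dl j F := by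
      funext x y
      exact dl_hom (ev2 x y) j F
    rw [h2]
    exact (dl_hom ((ev2 x y).comp D2) j F).symm
  rw [e1, e2, dl_dl, zero_add, dl_sg, map_add, map_zsmul, D2_D2, smul_zero, add_zero, e3, neg_smul,
    neg_add_cancel]
  rfl

/-! ### bounded functions -/

/-- vanishing for long lists -/
def Bd3 (F : F3L J X Y n) : Prop := ∃ N : ℕ, ∀ j x y, N < j.length + x.length + y.length → F j x y = 0

theorem Bd3.add {F G : F3L J X Y n} (hF : Bd3 F) (hG : Bd3 G) : Bd3 (F + G) := by
  obtain ⟨N, hN⟩ := hF
  obtain ⟨M, hM⟩ := hG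
  refine ⟨max N M, fun j x y h => ?_⟩
  show F j x y + G j x y = 0
  rw [hN _ _ _ (lt_of_le_of_lt (le_max_left _ _) h), hM _ _ _ (lt_of_le_of_lt (le_max_right _ _) h), add_zero]

theorem Bd3.neg {F : F3L J X Y n} (hF : Bd3 F) : Bd3 (-F) := by
  obtain ⟨N, hN⟩ := hF
  refine ⟨N, fun j x y h => ?_⟩
  show -(F j x y) = 0
  rw [hN _ _ _ h, neg_zero]

theorem Bd3.D3 {F : F3L J X Y n} (hF : Bd3 F) : Bd3 (D3 F) := by
  obtain ⟨N, hN⟩ := hF
  refine ⟨N + 1, fun j x y h => ?_⟩
  rw [D3_apply, D2_apply]
  rw [dl_eq_zero fun j' hj => hN _ _ _ (by omega), dl_eq_zero fun j' hj => hN _ _ _ (by omega),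
    dl_eq_zero fun j' hj => hN _ _ _ (by omega)]
  simp

end plain

/-! ## groups -/

/-- a free `G`-set maps equivariantly to `G` -/
theorem exists_equivariant {G J : Type} [Group G] [MulAction G J] (hfree : ∀ (g : G) (j : J), g • j = j → g = 1) :
    ∃ φ : J → G, ∀ g j, φ (g • j) = g * φ j := by
  have h : ∀ j : J, ∃ g : G, g • (Quotient.out (Quotient.mk (MulAction.orbitRel G J) j)) = j := by
    intro j
    have h1 := Quotient.mk_out (s := MulAction.orbitRel G J) j
    have h2 : MulAction.orbitRel G J j (Quotient.out (Quotient.mk (MulAction.orbitRel G J) j)) :=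
      (MulAction.orbitRel G J).symm' h1
    rw [MulAction.orbitRel_apply] at h2
    exact h2
  choose φ hφ using h
  refine ⟨φ, fun g j => ?_⟩
  have e : Quotient.mk (MulAction.orbitRel G J) (g • j) = Quotient.mk (MulAction.orbitRel G J) j :=
    Quotient.sound ⟨g, rfl⟩
  have h1 := hφ (g • j)
  rw [e] at h1
  have h2 : (g * φ j) • (Quotient.out (Quotient.mk (MulAction.orbitRel G J) j)) = g • j := by
    rw [mul_smul, hφ j]
  have h3 : ((g * φ j)⁻¹ * φ (g • j)) • (Quotient.out (Quotient.mk (MulAction.orbitRel G J) j)) =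
      Quotient.out (Quotient.mk (MulAction.orbitRel G J) j) := by
    rw [mul_smul, h1, ← h2, inv_smul_smul]
  have h4 := hfree _ _ h3
  have h5 : φ (g • j) = (g * φ j) * ((g * φ j)⁻¹ * φ (g • j)) := by group
  rw [h5, h4, mul_one]

section grp
variable {J D E : Type} [Group D] [Group E] [MulAction (D × E) J] {n : ℕ}

/-- invariance -/
def Inv3 (F : F3L J D E n) : Prop := ∀ (g : D × E) (j : List J) (x : List D) (y : List E),
  F (j.map (g • ·)) (x.map (g.1 * ·)) (y.map (g.2 * ·)) = F j x y
/-- invariance -/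
def Inv2 (f : F2L D E n) : Prop := ∀ (a : D) (b : E) (x : List D) (y : List E),
  f (x.map (a * ·)) (y.map (b * ·)) = f x y

theorem inv_D2 {g : D × E} {f f' : F2L D E n} (h : ∀ x y, f' (x.map (g.1 * ·)) (y.map (g.2 * ·)) = f x y)
    (x : List D) (y : List E) : D2 f' (x.map (g.1 * ·)) (y.map (g.2 * ·)) = D2 f x y := by
  rw [D2_apply, D2_apply, ← dl_map, ← dl_map, List.length_map]
  simp only [h]

theorem Inv3.D3 {F : F3L J D E n} (h : Inv3 F) : Inv3 (D3 F) := by
  intro g j x y
  rw [D3_apply, D3_apply, ← dl_map, List.length_map, inv_D2 (fun x y => h g j x y)]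
  simp only [h g]

variable (J D E n) in
/-- normalised bounded invariant cochains -/
def P3 : AddSubgroup (F3L J D E n) where
  carrier := {F | Nz3 F ∧ Inv3 F ∧ Bd3 F}
  zero_mem' := ⟨⟨fun _ _ => rfl, fun _ => ⟨fun _ => rfl, fun _ => rfl⟩⟩, fun _ _ _ _ => rfl, 0, fun _ _ _ _ => rfl⟩
  add_mem' := by
    rintro F G ⟨hF, hF', hF''⟩ ⟨hG, hG', hG''⟩
    refine ⟨⟨fun x y => ?_, fun j => ⟨fun y => ?_, fun x => ?_⟩⟩, fun g j x y => ?_, hF''.add hG''⟩
    · show F [] x y + G [] x y = 0
      rw [hF.1, hG.1, add_zero]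
    · show F j [] y + G j [] y = 0
      rw [(hF.2 j).1, (hG.2 j).1, add_zero]
    · show F j x [] + G j x [] = 0
      rw [(hF.2 j).2, (hG.2 j).2, add_zero]
    · show F _ _ _ + G _ _ _ = F j x y + G j x y
      rw [hF', hG']
  neg_mem' := by
    rintro F ⟨hF, hF', hF''⟩
    refine ⟨⟨fun x y => ?_, fun j => ⟨fun y => ?_, fun x => ?_⟩⟩, fun g j x y => ?_, hF''.neg⟩
    · show -(F [] x y) = 0
      rw [hF.1, neg_zero]
    · show -(F j [] y) = 0
      rw [(hF.2 j).1, neg_zero]
    · show -(F j x []) = 0
      rw [(hF.2 j).2, neg_zero]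
    · show -(F _ _ _) = -(F j x y)
      rw [hF']


theorem D3_mem {F : F3L J D E n} (h : F ∈ P3 J D E n) : D3 F ∈ P3 J D E n := ⟨h.1.D3, h.2.1.D3, h.2.2.D3⟩

end grp

section levels
variable {J X Y : Type} {n : ℕ}

/-- part of level `|x| + |y| = k` -/
def cS (k : ℕ) : F3L J X Y n →+ F3L J X Y n where
  toFun F := fun j x y => if x.length + y.length = k then F j x y else 0
  map_zero' := by funext j x y; simp
  map_add' F G := by
    funext j x y
    simp only [Pi.add_apply]
    split_ifs <;> simp

theorem cS_apply (k : ℕ) (F : F3L J X Y n) (j : List J) (x : List X) (y : List Y) :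
    cS k F j x y = if x.length + y.length = k then F j x y else 0 := rfl

/-- part of level `|j| = k` -/
def cJ (k : ℕ) : F3L J X Y n →+ F3L J X Y n where
  toFun F := fun j x y => if j.length = k then F j x y else 0
  map_zero' := by funext j x y; simp
  map_add' F G := by
    funext j x y
    simp only [Pi.add_apply]
    split_ifs <;> simp

theorem cJ_apply (k : ℕ) (F : F3L J X Y n) (j : List J) (x : List X) (y : List Y) :
    cJ k F j x y = if j.length = k then F j x y else 0 := rfl

theorem cS_top (F : F3L J X Y n) (K : ℕ) (h : ∀ k > K, cS k F = 0) : cS (K + 1) (D3 F) = DS (cS K F) := by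
  funext j x y
  rw [cS_apply, DS_apply]
  by_cases hxy : x.length + y.length = K + 1
  · rw [if_pos hxy, D3_apply]
    have h1 : dl j (fun j' => F j' x y) = 0 := by
      refine dl_eq_zero fun j' _ => ?_
      have := congrFun (congrFun (congrFun (h (K + 1) (by omega)) j') x) y
      rw [cS_apply, if_pos hxy] at this
      exact this
    rw [h1, zero_add, D2_apply, D2_apply]
    congr 2
    · refine dl_congr fun x' hx' => ?_
      rw [cS_apply, if_pos (by omega)]
    · congr 1
      refine dl_congr fun y' hy' => ?_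
      rw [cS_apply, if_pos (by omega)]
  · rw [if_neg hxy, D2_apply, dl_eq_zero, dl_eq_zero]
    · simp
    · intro y' hy'
      rw [cS_apply, if_neg (by omega)]
    · intro x' hx'
      rw [cS_apply, if_neg (by omega)]

theorem cJ_top (F : F3L J X Y n) (K : ℕ) (h : ∀ k > K, cJ k F = 0) : cJ (K + 1) (D3 F) = DJ (cJ K F) := by
  funext j x y
  rw [cJ_apply, DJ_apply]
  by_cases hj : j.length = K + 1
  · rw [if_pos hj, D3_apply]
    have h1 : F j = 0 := by
      funext x y
      have := congrFun (congrFun (congrFun (h (K + 1) (by omega)) j) x) y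
      rw [cJ_apply, if_pos hj] at this
      exact this
    rw [h1, map_zero]
    simp only [Pi.zero_apply, smul_zero, add_zero]
    refine dl_congr fun j' hj' => ?_
    rw [cJ_apply, if_pos (by omega)]
  · rw [if_neg hj, dl_eq_zero]
    intro j' hj'
    rw [cJ_apply, if_neg (by omega)]

theorem cS_idem (k : ℕ) (F : F3L J X Y n) : cS k (cS k F) = cS k F := by
  funext j x y
  simp only [cS_apply]
  split_ifs <;> rfl

theorem cS_ne (i k : ℕ) (F : F3L J X Y n) (h : i ≠ k) : cS i (cS k F) = 0 := by
  funext j x y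
  simp only [cS_apply]
  split_ifs with h1 h2
  · omega
  · rfl
  · rfl

theorem cJ_idem (k : ℕ) (F : F3L J X Y n) : cJ k (cJ k F) = cJ k F := by
  funext j x y
  simp only [cJ_apply]
  split_ifs <;> rfl

theorem cJ_ne (i k : ℕ) (F : F3L J X Y n) (h : i ≠ k) : cJ i (cJ k F) = 0 := by
  funext j x y
  simp only [cJ_apply]
  split_ifs with h1 h2
  · omega
  · rfl
  · rfl

end levels

section grp2
variable {J D E : Type} [Group D] [Group E] [MulAction (D × E) J] {n : ℕ}

theorem cS_mem (k : ℕ) (F : F3L J D E n) (h : F ∈ P3 J D E n) : cS k F ∈ P3 J D E n := by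
  obtain ⟨h1, h2, N, h3⟩ := h
  refine ⟨⟨fun x y => ?_, fun j => ⟨fun y => ?_, fun x => ?_⟩⟩, fun g j x y => ?_, N, fun j x y hN => ?_⟩
  · rw [cS_apply, h1.1]; simp
  · rw [cS_apply, (h1.2 j).1]; simp
  · rw [cS_apply, (h1.2 j).2]; simp
  · rw [cS_apply, cS_apply, h2 g j x y, List.length_map, List.length_map]
  · rw [cS_apply, h3 _ _ _ hN]; simp

theorem cJ_mem (k : ℕ) (F : F3L J D E n) (h : F ∈ P3 J D E n) : cJ k F ∈ P3 J D E n := by
  obtain ⟨h1, h2, N, h3⟩ := h
  refine ⟨⟨fun x y => ?_, fun j => ⟨fun y => ?_, fun x => ?_⟩⟩, fun g j x y => ?_, N, fun j x y hN => ?_⟩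
  · rw [cJ_apply, h1.1]; simp
  · rw [cJ_apply, (h1.2 j).1]; simp
  · rw [cJ_apply, (h1.2 j).2]; simp
  · rw [cJ_apply, cJ_apply, h2 g j x y, List.length_map]
  · rw [cJ_apply, h3 _ _ _ hN]; simp

/-- exactness in the `S` direction -/
theorem exS (φ : J → D × E) (hφ : ∀ g j, φ (g • j) = g * φ j) (k : ℕ) (hk : k > 2) (G : F3L J D E n)
    (hG : G ∈ P3 J D E n) (hc : cS k G = G) (hd : DS G = 0) :
    ∃ H ∈ P3 J D E n, cS (k - 1) H = H ∧ DS H = G := by
  obtain ⟨h1, h2, N, h3⟩ := hG
  have hlev : ∀ j x y, x.length + y.length ≠ k → G j x y = 0 := by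
    intro j x y h
    rw [← hc, cS_apply, if_neg h]
  have hD2 : ∀ j, D2 (G j) = 0 := by
    intro j
    funext x y
    have := congrFun (congrFun (congrFun hd j) x) y
    rw [DS_apply] at this
    have h4 : sg j.length • (sg j.length • D2 (G j) x y) = 0 := by rw [this]; simp
    rwa [smul_smul, sg_mul_self, one_smul] at h4
  let hp : J → F2L D E n → F2L D E n := fun a s x y =>
    if x = [] ∨ y = [] then 0 else s ((φ a).1 :: x) y + if x.length = 1 then s [(φ a).1] ((φ a).2 :: y) else 0
  have hp_nz : ∀ a s, Nz2 (hp a s) := fun a s => ⟨fun y => by simp [hp], fun x => by simp [hp]⟩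
  have hp_D2 : ∀ a j, D2 (hp a (G j)) = G j := by
    intro a j
    apply toS_inj
    rw [← toS_D2 (hp_nz a _)]
    have e : toS (hp a (G j)) = hA (φ a).1 (φ a).2 (toS (G j)) := rfl
    rw [e]
    refine hA_spec _ _ (h1.2 j).nzS ?_ ?_
    · rw [toS_D2 (h1.2 j), hD2 j]; rfl
    · rw [toS_f]
      exact hlev _ _ _ (by simp; omega)
  let H : F3L J D E n := fun j x y => match j with
    | [] => 0
    | a :: j' => sg (a :: j').length • hp a (G (a :: j')) x y
  have hH0 : ∀ x y, H [] x y = 0 := fun _ _ => rfl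
  have hHc : ∀ a j x y, H (a :: j) x y = sg (a :: j).length • hp a (G (a :: j)) x y := fun _ _ _ _ => rfl
  refine ⟨H, ⟨⟨hH0, fun j => ?_⟩, fun g j x y => ?_, N, fun j x y hN => ?_⟩, ?_, ?_⟩
  · rcases j with _ | ⟨a, j⟩
    · exact ⟨fun _ => rfl, fun _ => rfl⟩
    · refine ⟨fun y => ?_, fun x => ?_⟩
      · rw [hHc, (hp_nz a _).1, smul_zero]
      · rw [hHc, (hp_nz a _).2, smul_zero]
  · rcases j with _ | ⟨a, j⟩
    · rfl
    · rw [List.map_cons, hHc, hHc]
      have e1 : (g • a :: j.map (g • ·)).length = (a :: j).length := by simp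
      rw [e1]
      congr 1
      show (if x.map (g.1 * ·) = [] ∨ y.map (g.2 * ·) = [] then (0 : ZMod n) else _) = if x = [] ∨ y = [] then 0 else _
      have e2 : ∀ (x : List D) (y : List E), G (g • a :: j.map (g • ·)) (x.map (g.1 * ·)) (y.map (g.2 * ·)) =
          G (a :: j) x y := fun x y => h2 g (a :: j) x y
      have e3 : (φ (g • a)).1 = g.1 * (φ a).1 := by rw [hφ]; rfl
      have e4 : (φ (g • a)).2 = g.2 * (φ a).2 := by rw [hφ]; rfl
      have e5 := e2 ((φ a).1 :: x) y
      have e6 := e2 [(φ a).1] ((φ a).2 :: y)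
      simp only [List.map_cons, List.map_nil] at e5 e6
      rw [e3, e4, e5, e6]
      simp only [List.map_eq_nil_iff, List.length_map]
  · rcases j with _ | ⟨a, j⟩
    · rfl
    · rw [hHc]
      show sg _ • (if x = [] ∨ y = [] then (0 : ZMod n) else _) = 0
      by_cases hxy : x = [] ∨ y = []
      · rw [if_pos hxy, smul_zero]
      · rw [if_neg hxy, h3 _ _ _ (by simp at hN ⊢; omega)]
        by_cases hx1 : x.length = 1
        · rw [if_pos hx1, h3 _ _ _ (by simp at hN ⊢; omega)]; simp
        · rw [if_neg hx1]; simp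
  · funext j x y
    rw [cS_apply]
    split_ifs with hl
    · rfl
    · rcases j with _ | ⟨a, j⟩
      · rfl
      · rw [hHc]
        show 0 = sg _ • (if x = [] ∨ y = [] then (0 : ZMod n) else _)
        split_ifs with hxy hx1
        · simp
        · rw [hlev _ _ _ (by simp; omega), hlev _ _ _ (by simp; omega)]; simp
        · rw [hlev _ _ _ (by simp; omega)]; simp
  · funext j x y
    rw [DS_apply]
    rcases j with _ | ⟨a, j⟩
    · rw [h1.1]
      have : H [] = 0 := rfl
      rw [this, map_zero]; simp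
    · have : H (a :: j) = sg (a :: j).length • hp a (G (a :: j)) := rfl
      rw [this, map_zsmul, hp_D2]
      show sg _ • (sg _ • G (a :: j) x y) = _
      rw [smul_smul, sg_mul_self, one_smul]

/-- exactness in the `J` direction -/
theorem exJ (j0 : J) (k : ℕ) (hk : k > 1) (G : F3L J D E n)
    (hG : G ∈ P3 J D E n) (hc : cJ k G = G) (hd : DJ G = 0) :
    ∃ H ∈ P3 J D E n, cJ (k - 1) H = H ∧ DJ H = G := by
  obtain ⟨h1, h2, N, h3⟩ := hG
  have hlev : ∀ j x y, j.length ≠ k → G j x y = 0 := by
    intro j x y h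
    rw [← hc, cJ_apply, if_neg h]
  let H : F3L J D E n := fun j x y => match x, y with
    | a :: x', b :: y' => G (((a, b) : D × E) • j0 :: j) (a :: x') (b :: y')
    | _, _ => 0
  have hHc : ∀ j a x b y, H j (a :: x) (b :: y) = G (((a, b) : D × E) • j0 :: j) (a :: x) (b :: y) :=
    fun _ _ _ _ _ => rfl
  have hHn : ∀ j y, H j [] y = 0 := fun _ _ => rfl
  have hHn' : ∀ j x, H j x [] = 0 := fun _ x => by cases x <;> rfl
  refine ⟨H, ⟨⟨fun x y => ?_, fun j => ⟨hHn j, hHn' j⟩⟩, fun g j x y => ?_, N, fun j x y hN => ?_⟩, ?_, ?_⟩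
  · rcases x with _ | ⟨a, x⟩
    · rfl
    · rcases y with _ | ⟨b, y⟩
      · rfl
      · rw [hHc]
        exact hlev _ _ _ (by simp; omega)
  · rcases x with _ | ⟨a, x⟩
    · rfl
    · rcases y with _ | ⟨b, y⟩
      · rfl
      · rw [List.map_cons, List.map_cons, hHc, hHc, ← h2 g _ (a :: x) (b :: y)]
        simp only [List.map_cons]
        congr 2
        rw [← mul_smul]; rfl
  · rcases x with _ | ⟨a, x⟩
    · rfl
    · rcases y with _ | ⟨b, y⟩
      · rfl
      · rw [hHc]
        exact h3 _ _ _ (by simp at hN ⊢; omega)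
  · funext j x y
    rw [cJ_apply]
    split_ifs with hl
    · rfl
    · rcases x with _ | ⟨a, x⟩
      · rfl
      · rcases y with _ | ⟨b, y⟩
        · rfl
        · rw [hHc]
          exact (hlev _ _ _ (by simp; omega)).symm
  · funext j x y
    rw [DJ_apply]
    rcases x with _ | ⟨a, x⟩
    · rw [(h1.2 j).1]; simp [hHn]
    · rcases y with _ | ⟨b, y⟩
      · rw [(h1.2 j).2]; simp [hHn']
      · have e : (fun j' => H j' (a :: x) (b :: y)) =
            fun j' => G (((a, b) : D × E) • j0 :: j') (a :: x) (b :: y) := rfl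
        rw [e]
        have h4 := contr (((a, b) : D × E) • j0) j (fun j' => G j' (a :: x) (b :: y))
        have h5 := congrFun (congrFun (congrFun hd (((a, b) : D × E) • j0 :: j)) (a :: x)) (b :: y)
        rw [DJ_apply] at h5
        rw [h5] at h4
        rw [h4]
        simp

end grp2

end Crest.Agent.R204.SQP334
end

-- ▼ part R204/SQP2_334
section

/-!
# Row 204, block G, lemma SQ: the product step, part 2 (helper334): `ι` and `κ`
-/

set_option autoImplicit false
set_option linter.unusedSectionVars false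

namespace Crest.Agent.R204.SQP334

open SQ803 SQ803.Co

section plain
variable {J X Y : Type} {n : ℕ}

/-- constant in the last two variables -/
def io : (List J → ZMod n) →+ F3L J X Y n where
  toFun u := fun j x y => if x.length = 1 ∧ y.length = 1 then u j else 0
  map_zero' := by funext j x y; simp
  map_add' u v := by
    funext j x y
    simp only [Pi.add_apply]
    split_ifs <;> simp

theorem io_apply (u : List J → ZMod n) (j : List J) (x : List X) (y : List Y) :
    io u j x y = if x.length = 1 ∧ y.length = 1 then u j else 0 := rfl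

/-- constant in the first variable -/
def ka : F2L X Y n →+ F3L J X Y n where
  toFun f := fun j x y => if j.length = 1 then f x y else 0
  map_zero' := by funext j x y; simp
  map_add' u v := by
    funext j x y
    simp only [Pi.add_apply]
    split_ifs <;> simp

theorem ka_apply (f : F2L X Y n) (j : List J) (x : List X) (y : List Y) :
    ka f j x y = if j.length = 1 then f x y else 0 := rfl

/-- differential of one-variable functions -/
def D1 : (List J → ZMod n) →+ (List J → ZMod n) where
  toFun u := fun j => dl j u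
  map_zero' := by funext j; exact dl_zero j
  map_add' u v := by funext j; exact dl_add j u v

theorem D1_apply (u : List J → ZMod n) (j : List J) : D1 u j = dl j u := rfl

theorem dl_ind (M : Type) [AddCommGroup M] (u : List J → M) (j : List J) (c : M) :
    dl j (fun j' => if j'.length = 1 then c else 0) = 0 := dl_kap c j

theorem D3_io (u : List J → ZMod n) : D3 (io u : F3L J X Y n) = io (D1 u) := by
  funext j x y
  rw [D3_apply, D2_apply]
  have h1 : dl x (fun x' => io u j x' y) = 0 := by
    have : (fun x' : List X => (io u j x' y : ZMod n)) =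
        fun x' => if x'.length = 1 then (if y.length = 1 then u j else 0) else 0 := by
      funext x'
      rw [io_apply]
      by_cases h : x'.length = 1 <;> by_cases h' : y.length = 1 <;> simp [h, h']
    rw [this]
    exact dl_ind (J := X) (ZMod n) (fun _ => 0) x _
  have h2 : dl y (fun y' => io u j x y') = 0 := by
    have : (fun y' : List Y => (io u j x y' : ZMod n)) =
        fun y' => if y'.length = 1 then (if x.length = 1 then u j else 0) else 0 := by
      funext y'
      rw [io_apply]
      by_cases h : x.length = 1 <;> by_cases h' : y'.length = 1 <;> simp [h, h']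
    rw [this]
    exact dl_ind (J := Y) (ZMod n) (fun _ => 0) y _
  rw [h1, h2, smul_zero, add_zero, smul_zero, add_zero, io_apply, D1_apply]
  simp only [io_apply]
  split_ifs
  · rfl
  · exact dl_zero j

theorem D3_ka (f : F2L X Y n) : D3 (ka f : F3L J X Y n) = ka (D2 f) := by
  funext j x y
  rw [D3_apply]
  have h1 : dl j (fun j' => ka f j' x y) = 0 := dl_ind (J := J) (ZMod n) (fun _ => 0) j (f x y)
  rw [h1, zero_add, ka_apply]
  split_ifs with h
  · have : ka f j = f := by funext x y; rw [ka_apply, if_pos h]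
    rw [this, h]
    simp [sg]
  · have : ka f j = 0 := by funext x y; rw [ka_apply, if_neg h]; rfl
    rw [this, map_zero]; simp


/-- bounded -/
def Bd1 (u : List J → ZMod n) : Prop := ∃ N : ℕ, ∀ j, N < j.length → u j = 0
/-- bounded -/
def Bd2 (f : F2L X Y n) : Prop := ∃ N : ℕ, ∀ x y, N < x.length + y.length → f x y = 0

end plain

section grp
variable {J D E : Type} [Group D] [Group E] [MulAction (D × E) J] {n : ℕ}

variable (J D E n) in
/-- normalised bounded invariant one-variable cochains -/
def P1 : AddSubgroup (List J → ZMod n) where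
  carrier := {u | u [] = 0 ∧ (∀ (g : D × E) (j : List J), u (j.map (g • ·)) = u j) ∧ Bd1 u}
  zero_mem' := ⟨rfl, fun _ _ => rfl, 0, fun _ _ => rfl⟩
  add_mem' := by
    rintro u v ⟨h1, h2, N, h3⟩ ⟨h1', h2', N', h3'⟩
    refine ⟨?_, fun g j => ?_, max N N', fun j hj => ?_⟩
    · show u [] + v [] = 0
      rw [h1, h1', add_zero]
    · show u _ + v _ = u j + v j
      rw [h2, h2']
    · show u j + v j = 0
      rw [h3 _ (lt_of_le_of_lt (le_max_left _ _) hj), h3' _ (lt_of_le_of_lt (le_max_right _ _) hj), add_zero]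
  neg_mem' := by
    rintro u ⟨h1, h2, N, h3⟩
    refine ⟨?_, fun g j => ?_, N, fun j hj => ?_⟩
    · show -(u []) = 0
      rw [h1, neg_zero]
    · show -(u _) = -(u j)
      rw [h2]
    · show -(u j) = 0
      rw [h3 _ hj, neg_zero]


variable (D E n) in
/-- normalised bounded invariant two-variable cochains -/
def P2 : AddSubgroup (F2L D E n) where
  carrier := {f | Nz2 f ∧ Inv2 f ∧ Bd2 f}
  zero_mem' := ⟨⟨fun _ => rfl, fun _ => rfl⟩, fun _ _ _ _ => rfl, 0, fun _ _ _ => rfl⟩
  add_mem' := by
    rintro u v ⟨h1, h2, N, h3⟩ ⟨h1', h2', N', h3'⟩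
    refine ⟨⟨fun y => ?_, fun x => ?_⟩, fun a b x y => ?_, max N N', fun x y hj => ?_⟩
    · show u _ _ + v _ _ = 0
      rw [h1.1, h1'.1, add_zero]
    · show u _ _ + v _ _ = 0
      rw [h1.2, h1'.2, add_zero]
    · show u _ _ + v _ _ = u x y + v x y
      rw [h2, h2']
    · show u x y + v x y = 0
      rw [h3 _ _ (lt_of_le_of_lt (le_max_left _ _) hj), h3' _ _ (lt_of_le_of_lt (le_max_right _ _) hj), add_zero]
  neg_mem' := by
    rintro u ⟨h1, h2, N, h3⟩
    refine ⟨⟨fun y => ?_, fun x => ?_⟩, fun a b x y => ?_, N, fun x y hj => ?_⟩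
    · show -(u _ _) = 0
      rw [h1.1, neg_zero]
    · show -(u _ _) = 0
      rw [h1.2, neg_zero]
    · show -(u _ _) = -(u x y)
      rw [h2]
    · show -(u x y) = 0
      rw [h3 _ _ hj, neg_zero]



theorem D2_mem {f : F2L D E n} (h : f ∈ P2 D E n) : D2 f ∈ P2 D E n := by
  obtain ⟨h1, h2, N, h3⟩ := h
  refine ⟨h1.D2, fun a b x y => ?_, N + 1, fun x y hj => ?_⟩
  · exact inv_D2 (g := (a, b)) (fun x y => h2 a b x y) x y
  · rw [D2_apply, dl_eq_zero fun x' hx' => h3 _ _ (by omega), dl_eq_zero fun y' hy' => h3 _ _ (by omega)]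
    simp

theorem io_mem {u : List J → ZMod n} (h : u ∈ P1 J D E n) : (io u : F3L J D E n) ∈ P3 J D E n := by
  obtain ⟨h1, h2, N, h3⟩ := h
  refine ⟨⟨fun x y => ?_, fun j => ⟨fun y => ?_, fun x => ?_⟩⟩, fun g j x y => ?_, N + 2, fun j x y hj => ?_⟩
  · rw [io_apply, h1]; simp
  · rw [io_apply]; simp
  · rw [io_apply]; simp
  · rw [io_apply, io_apply, h2, List.length_map, List.length_map]
  · rw [io_apply]
    split_ifs with h
    · exact h3 _ (by omega)
    · rfl

theorem ka_mem {f : F2L D E n} (h : f ∈ P2 D E n) : (ka f : F3L J D E n) ∈ P3 J D E n := by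
  obtain ⟨h1, h2, N, h3⟩ := h
  refine ⟨⟨fun x y => ?_, fun j => ⟨fun y => ?_, fun x => ?_⟩⟩, fun g j x y => ?_, N + 1, fun j x y hj => ?_⟩
  · rw [ka_apply]; simp
  · rw [ka_apply, h1.1]; simp
  · rw [ka_apply, h1.2]; simp
  · rw [ka_apply, ka_apply, h2, List.length_map]
  · rw [ka_apply]
    split_ifs with h
    · exact h3 _ _ (by omega)
    · rfl

/-- pushing down the `S`-level -/
theorem downS (φ : J → D × E) (hφ : ∀ g j, φ (g • j) = g * φ j) {F : F3L J D E n} (hF : F ∈ P3 J D E n)
    (h : ∀ k > 3, cS k (D3 F) = 0) :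
    ∃ F' ∈ P3 J D E n, ∃ H ∈ P3 J D E n, F = F' + D3 H ∧ ∀ k > 2, cS k F' = 0 := by
  obtain ⟨N, hN⟩ := hF.2.2
  refine dc D3 DS D3_D3 cS (P3 J D E n) (P3 J D E n) 2 (fun H hH => D3_mem hH)
    (fun k F hF => cS_mem k F hF) (fun F K _ h => cS_top F K h) cS_idem (fun j k F hjk => cS_ne j k F hjk)
    (fun k hk G hG hc hd => exS φ hφ k hk G hG hc hd) N F hF ?_ h
  intro k hk
  funext j x y
  rw [cS_apply]
  split_ifs with hl
  · exact hN _ _ _ (by omega)
  · rfl

/-- pushing down the `J`-level -/
theorem downJ (j0 : J) {F : F3L J D E n} (hF : F ∈ P3 J D E n)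
    (h : ∀ k > 2, cJ k (D3 F) = 0) :
    ∃ F' ∈ P3 J D E n, ∃ H ∈ P3 J D E n, F = F' + D3 H ∧ ∀ k > 1, cJ k F' = 0 := by
  obtain ⟨N, hN⟩ := hF.2.2
  refine dc D3 DJ D3_D3 cJ (P3 J D E n) (P3 J D E n) 1 (fun H hH => D3_mem hH)
    (fun k F hF => cJ_mem k F hF) (fun F K _ h => cJ_top F K h) cJ_idem (fun j k F hjk => cJ_ne j k F hjk)
    (fun k hk G hG hc hd => exJ j0 k hk G hG hc hd) N F hF ?_ h
  intro k hk
  funext j x y
  rw [cJ_apply]
  split_ifs with hl
  · exact hN _ _ _ (by omega)
  · rfl

/-- a cochain of `S`-level `≤ 2` whose differential has no level 3 part is in the image of `ι` -/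
theorem exists_io {F : F3L J D E n} (hF : F ∈ P3 J D E n) (h2 : ∀ k > 2, cS k F = 0)
    (h3 : cS 3 (D3 F) = 0) : ∃ u ∈ P1 J D E n, F = io u := by
  obtain ⟨h1, hi, N, hN⟩ := hF
  have hlev : ∀ j x y, ¬ (x.length = 1 ∧ y.length = 1) → F j x y = 0 := by
    intro j x y hxy
    by_cases hk : x.length + y.length > 2
    · have := congrFun (congrFun (congrFun (h2 _ hk) j) x) y
      rw [cS_apply, if_pos rfl] at this
      exact this
    · rcases x with _ | ⟨a, x⟩
      · exact (h1.2 j).1 y
      · rcases y with _ | ⟨b, y⟩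
        · exact (h1.2 j).2 _
        · exfalso
          simp only [List.length_cons] at hk hxy
          omega
  have hlev3 : ∀ j x y, x.length + y.length = 3 → sg j.length • D2 (F j) x y = 0 := by
    intro j x y hxy
    have := congrFun (congrFun (congrFun h3 j) x) y
    rw [cS_apply, if_pos hxy, D3_apply] at this
    have e : dl j (fun j' => F j' x y) = 0 := by
      refine dl_eq_zero fun j' _ => hlev _ _ _ (by omega)
    rw [e, zero_add] at this
    exact this
  have hD2 : ∀ j x y, x.length + y.length = 3 → D2 (F j) x y = 0 := by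
    intro j x y hxy
    have h4 : sg j.length • (sg j.length • D2 (F j) x y) = 0 := by rw [hlev3 j x y hxy]; simp
    rwa [smul_smul, sg_mul_self, one_smul] at h4
  have hx : ∀ j (a a' : D) (b : E), F j [a] [b] = F j [a'] [b] := by
    intro j a a' b
    have := hD2 j [a, a'] [b] rfl
    rw [D2_apply] at this
    simp only [dl_cons, dl_nil, sub_zero] at this
    rw [(h1.2 j).2] at this
    simp only [smul_zero, add_zero] at this
    rw [sub_eq_zero] at this
    exact this.symm
  have hy : ∀ j (a : D) (b b' : E), F j [a] [b] = F j [a] [b'] := by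
    intro j a b b'
    have := hD2 j [a] [b, b'] rfl
    rw [D2_apply] at this
    simp only [dl_cons, dl_nil, sub_zero] at this
    rw [(h1.2 j).1] at this
    simp only [zero_add] at this
    have hs : sg ([a] : List D).length = 1 := by simp [sg]
    rw [hs, one_smul, sub_eq_zero] at this
    exact this.symm
  refine ⟨fun j => F j [1] [1], ⟨h1.1 _ _, fun g j => ?_, N, fun j hj => ?_⟩, ?_⟩
  · have := hi g j [1] [1]
    simp only [List.map_cons, List.map_nil, mul_one] at this
    show F (j.map (g • ·)) [1] [1] = F j [1] [1]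
    rw [← this, hx _ 1 g.1, hy _ _ 1 g.2]
  · exact hN _ _ _ (by omega)
  · funext j x y
    rw [io_apply]
    split_ifs with h
    · obtain ⟨a, rfl⟩ := List.length_eq_one_iff.1 h.1
      obtain ⟨b, rfl⟩ := List.length_eq_one_iff.1 h.2
      rw [hx j a 1 b, hy j 1 b 1]
    · exact hlev _ _ _ h

theorem io_injective {u v : List J → ZMod n} (h : (io u : F3L J D E n) = io v) : u = v := by
  funext j
  have := congrFun (congrFun (congrFun h j) [1]) [1]
  rw [io_apply, io_apply, if_pos ⟨rfl, rfl⟩, if_pos ⟨rfl, rfl⟩] at this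
  exact this

/-- **F1, surjectivity** -/
theorem io_surj (φ : J → D × E) (hφ : ∀ g j, φ (g • j) = g * φ j) {F : F3L J D E n} (hF : F ∈ P3 J D E n)
    (h : D3 F = 0) : ∃ u ∈ P1 J D E n, D1 u = 0 ∧ ∃ H ∈ P3 J D E n, F = io u + D3 H := by
  obtain ⟨F', hF', H, hH, e, h2⟩ := downS φ hφ hF (fun k _ => by rw [h, map_zero])
  have hF0 : D3 F' = 0 := by
    have := congrArg (D3 (n := n)) e
    rw [h, map_add, D3_D3, add_zero] at this
    exact this.symm
  obtain ⟨u, hu, rfl⟩ := exists_io hF' h2 (by rw [hF0, map_zero])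
  refine ⟨u, hu, ?_, H, hH, e⟩
  rw [D3_io] at hF0
  apply io_injective (D := D) (E := E)
  rw [hF0, map_zero]

/-- **F1, injectivity** -/
theorem io_inj (φ : J → D × E) (hφ : ∀ g j, φ (g • j) = g * φ j) {u : List J → ZMod n}
    {H : F3L J D E n} (hH : H ∈ P3 J D E n) (h : D3 H = io u) : ∃ v ∈ P1 J D E n, D1 v = u := by
  have hio : ∀ k > 2, cS k (io u : F3L J D E n) = 0 := by
    intro k hk
    funext j x y
    rw [cS_apply, io_apply]
    split_ifs with h1 h2
    · omega
    · rfl
    · rfl
  obtain ⟨F', hF', H', hH', e, h2⟩ := downS φ hφ hH (fun k hk => by rw [h]; exact hio k (by omega))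
  have h3 : D3 F' = io u := by
    rw [← h, e, map_add, D3_D3, add_zero]
  obtain ⟨v, hv, rfl⟩ := exists_io hF' h2 (by rw [h3]; exact hio 3 (by omega))
  refine ⟨v, hv, ?_⟩
  rw [D3_io] at h3
  exact io_injective (D := D) (E := E) h3

/-- **F2** -/
theorem ka_surj (j0 : J) {F : F3L J D E n} (hF : F ∈ P3 J D E n)
    (h : D3 F = 0) : ∃ f ∈ P2 D E n, D2 f = 0 ∧ ∃ H ∈ P3 J D E n, F = ka f + D3 H := by
  obtain ⟨F', hF', H, hH, e, h2⟩ := downJ j0 hF (fun k _ => by rw [h, map_zero])
  have hF0 : D3 F' = 0 := by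
    have := congrArg (D3 (n := n)) e
    rw [h, map_add, D3_D3, add_zero] at this
    exact this.symm
  obtain ⟨h1, hi, N, hN⟩ := hF'
  have hlev : ∀ j x y, j.length ≠ 1 → F' j x y = 0 := by
    intro j x y hj
    rcases j with _ | ⟨a, j⟩
    · exact h1.1 x y
    · have hj2 : (a :: j).length > 1 := by
        rw [List.length_cons] at hj ⊢; omega
      have := congrFun (congrFun (congrFun (h2 (a :: j).length hj2) (a :: j)) x) y
      rw [cJ_apply, if_pos rfl] at this
      exact this
  have hc : ∀ a b x y, F' [a] x y = F' [b] x y := by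
    intro a b x y
    have := congrFun (congrFun (congrFun hF0 [a, b]) x) y
    rw [D3_apply] at this
    have e2 : F' [a, b] = 0 := by funext x y; exact hlev _ _ _ (by simp)
    rw [e2, map_zero] at this
    simp only [dl_cons, dl_nil, sub_zero, Pi.zero_apply, smul_zero, add_zero] at this
    rw [sub_eq_zero] at this
    exact this.symm
  have e3 : F' = ka (F' [j0]) := by
    funext j x y
    rw [ka_apply]
    split_ifs with h
    · obtain ⟨a, rfl⟩ := List.length_eq_one_iff.1 h
      exact hc _ _ _ _
    · exact hlev _ _ _ h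
  refine ⟨F' [j0], ⟨h1.2 _, fun a b x y => ?_, N, fun x y hxy => hN _ _ _ (by simp; omega)⟩, ?_, H, hH, ?_⟩
  · have := hi (a, b) [j0] x y
    simp only [List.map_cons, List.map_nil] at this
    rw [← this]
    exact hc _ _ _ _
  · rw [e3, D3_ka] at hF0
    funext x y
    have := congrFun (congrFun (congrFun hF0 [j0]) x) y
    rw [ka_apply, if_pos (show [j0].length = 1 from rfl)] at this
    exact this
  · rw [← e3]; exact e

end grp

end Crest.Agent.R204.SQP334
end

-- ▼ part R204/SQP3_334
section

/-!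
# Row 204, block G, lemma SQ: the product step, part 3 (helper334): Kuenneth decomposition
-/

set_option autoImplicit false
set_option linter.unusedSectionVars false

namespace Crest.Agent.R204.SQP334

open SQ803 SQ803.Co

section kun
variable {D E : Type} [Group D] [Group E]

/-- invariant homogeneous cocycles of length `p` (degree `p - 1`) -/
structure IsC (G : Type) [Group G] (p : ℕ) (a : List G → ZMod 2) : Prop where
  nil : a [] = 0
  len : ∀ l, a l ≠ 0 → l.length = p
  inv : ∀ (g : G) (l : List G), a (l.map (g * ·)) = a l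
  cyc : ∀ l, dl l a = 0

/-- external product -/
def ten {n : ℕ} (a : List D → ZMod n) (b : List E → ZMod n) : F2L D E n := fun x y => a x * b y

theorem D2_ten {n : ℕ} (a : List D → ZMod n) (b : List E → ZMod n) (x : List D) (y : List E) :
    D2 (ten a b) x y = dl x a * b y + sg x.length • (a x * dl y b) := by
  rw [D2_apply]
  have h1 : dl x (fun x' => ten a b x' y) = dl x a * b y :=
    dl_hom (AddMonoidHom.mulRight (b y)) x a
  have h2 : dl y (fun y' => ten a b x y') = a x * dl y b :=
    dl_hom (AddMonoidHom.mulLeft (a x)) y b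
  rw [h1, h2]

/-- the space of invariant functions on lists of length `q` -/
def VV (E : Type) [Group E] (q : ℕ) : Submodule (ZMod 2) (List E → ZMod 2) where
  carrier := {b | (∀ l, l.length ≠ q → b l = 0) ∧ b [] = 0 ∧ ∀ (g : E) (l : List E), b (l.map (g * ·)) = b l}
  zero_mem' := ⟨fun _ _ => rfl, rfl, fun _ _ => rfl⟩
  add_mem' := by
    rintro a b ⟨h1, h2, h3⟩ ⟨h1', h2', h3'⟩
    refine ⟨fun l hl => ?_, ?_, fun g l => ?_⟩
    · show a l + b l = 0
      rw [h1 l hl, h1' l hl, add_zero]
    · show a [] + b [] = 0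
      rw [h2, h2', add_zero]
    · show a _ + b _ = a l + b l
      rw [h3, h3']
  smul_mem' := by
    rintro r a ⟨h1, h2, h3⟩
    refine ⟨fun l hl => ?_, ?_, fun g l => ?_⟩
    · show r * a l = 0
      rw [h1 l hl, mul_zero]
    · show r * a [] = 0
      rw [h2, mul_zero]
    · show r * a _ = r * a l
      rw [h3]

theorem VV_finite [Finite E] (q : ℕ) : Module.Finite (ZMod 2) (VV E q) := by
  have : Finite {l : List E // l.length = q} := by
    have : Fintype E := Fintype.ofFinite E
    exact inferInstanceAs (Finite (List.Vector E q))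
  let res : VV E q →ₗ[ZMod 2] ({l : List E // l.length = q} → ZMod 2) :=
    { toFun := fun b l => b.1 l.1
      map_add' := fun _ _ => rfl
      map_smul' := fun _ _ => rfl }
  refine Module.Finite.of_injective res ?_
  intro a b h
  apply Subtype.ext
  funext l
  by_cases hl : l.length = q
  · exact congrFun h ⟨l, hl⟩
  · rw [a.2.1 l hl, b.2.1 l hl]

/-- the differential on the spaces `VV` -/
def dV (q : ℕ) : VV E q →ₗ[ZMod 2] VV E (q + 1) where
  toFun b := ⟨fun l => dl l b.1, by
    refine ⟨fun l hl => ?_, rfl, fun g l => ?_⟩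
    · exact dl_eq_zero fun l' hl' => b.2.1 l' (by omega)
    · show dl (l.map (g * ·)) b.1 = dl l b.1
      rw [← dl_map]
      simp only [b.2.2.2]⟩
  map_add' a b := Subtype.ext (funext fun l => dl_add l a.1 b.1)
  map_smul' r a := Subtype.ext (funext fun l => dl_hom (AddMonoidHom.mulLeft r) l a.1)

theorem dV_apply (q : ℕ) (b : VV E q) (l : List E) : (dV q b).1 l = dl l b.1 := rfl

theorem dV_dV (q : ℕ) (b : VV E q) : dV (q + 1) (dV q b) = 0 :=
  Subtype.ext (funext fun l => dl_dl l b.1)

/-- a section `T` of the differential: `dV (T b) = b` for boundaries `b` -/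
theorem exists_section (q : ℕ) : ∃ T : VV E (q + 1) →ₗ[ZMod 2] VV E q, ∀ b, dV q (T (dV q b)) = dV q b := by
  obtain ⟨s, hs⟩ := LinearMap.exists_rightInverse_of_surjective (dV (E := E) q).rangeRestrict
    (LinearMap.range_rangeRestrict _)
  obtain ⟨T, hT⟩ := LinearMap.exists_extend s
  refine ⟨T, fun b => ?_⟩
  have h1 : T (dV q b) = s ⟨dV q b, b, rfl⟩ := by
    rw [← hT]; rfl
  rw [h1]
  have h2 := LinearMap.congr_fun hs ⟨dV q b, b, rfl⟩
  exact congrArg Subtype.val h2

/-- decomposition of a cocycle -/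
def Dec (f : F2L D E 2) : Prop :=
  ∃ (s : ℕ) (p q : Fin s → ℕ) (a : Fin s → List D → ZMod 2) (b : Fin s → List E → ZMod 2),
    (∀ i, IsC D (p i) (a i) ∧ IsC E (q i) (b i)) ∧ ∃ h ∈ P2 D E 2, f = (∑ i, ten (a i) (b i)) + D2 h

theorem Dec.zero : Dec (0 : F2L D E 2) :=
  ⟨0, Fin.elim0, Fin.elim0, Fin.elim0, Fin.elim0, fun i => i.elim0, 0, (P2 D E 2).zero_mem, by simp⟩

theorem Dec.add {f g : F2L D E 2} (hf : Dec f) (hg : Dec g) : Dec (f + g) := by
  obtain ⟨s, p, q, a, b, hab, h, hh, e⟩ := hf
  obtain ⟨s', p', q', a', b', hab', h', hh', e'⟩ := hg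
  refine ⟨s + s', Fin.append p p', Fin.append q q', Fin.append a a', Fin.append b b', fun i => ?_,
    h + h', (P2 D E 2).add_mem hh hh', ?_⟩
  · refine Fin.addCases (fun i => ?_) (fun i => ?_) i
    · rw [Fin.append_left, Fin.append_left, Fin.append_left, Fin.append_left]; exact hab i
    · rw [Fin.append_right, Fin.append_right, Fin.append_right, Fin.append_right]; exact hab' i
  · rw [Fin.sum_univ_add, e, e', map_add]
    simp only [Fin.append_left, Fin.append_right]
    abel

theorem Dec.D2 {h : F2L D E 2} (hh : h ∈ P2 D E 2) : Dec (D2 h) :=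
  ⟨0, Fin.elim0, Fin.elim0, Fin.elim0, Fin.elim0, fun i => i.elim0, h, hh, by simp⟩

theorem Dec.sum {ι : Type*} (S : Finset ι) (f : ι → F2L D E 2) (h : ∀ i ∈ S, Dec (f i)) :
    Dec (∑ i ∈ S, f i) := by
  classical
  induction S using Finset.induction_on with
  | empty => exact Dec.zero
  | insert a S ha ih =>
    rw [Finset.sum_insert ha]
    exact (h a (Finset.mem_insert_self _ _)).add (ih fun i hi => h i (Finset.mem_insert_of_mem hi))

theorem Dec.single {p q : ℕ} {a : List D → ZMod 2} {b : List E → ZMod 2} (ha : IsC D p a) (hb : IsC E q b) :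
    Dec (ten a b) :=
  ⟨1, fun _ => p, fun _ => q, fun _ => a, fun _ => b, fun _ => ⟨ha, hb⟩, 0, (P2 D E 2).zero_mem, by simp⟩

/-- the external product with a not necessarily homogeneous bounded cocycle -/
theorem Dec.ten {q : ℕ} {a : List D → ZMod 2} {b : List E → ZMod 2} (h0 : a [] = 0)
    (hinv : ∀ (g : D) (l : List D), a (l.map (g * ·)) = a l) (hcyc : ∀ l, dl l a = 0)
    (N : ℕ) (hN : ∀ l : List D, N < l.length → a l = 0) (hb : IsC E q b) : Dec (SQP334.ten a b) := by
  have e : SQP334.ten a b = ∑ p ∈ Finset.range (N + 1),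
      SQP334.ten (fun l => if l.length = p then a l else 0) b := by
    funext x y
    rw [Finset.sum_apply, Finset.sum_apply]
    have hv : ∀ p, SQP334.ten (fun l => if l.length = p then a l else 0) b x y =
        (if x.length = p then a x else 0) * b y := fun _ => rfl
    have hv' : SQP334.ten a b x y = a x * b y := rfl
    simp only [hv, hv']
    by_cases hx : x.length ≤ N
    · rw [Finset.sum_eq_single x.length]
      · rw [if_pos rfl]
      · intro p _ hp
        rw [if_neg (Ne.symm hp), zero_mul]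
      · intro h; exact absurd (Finset.mem_range.2 (by omega)) h
    · rw [Finset.sum_eq_zero]
      · rw [hN x (by omega), zero_mul]
      · intro p hp
        split_ifs
        · rw [hN x (by omega), zero_mul]
        · rw [zero_mul]
  rw [e]
  refine Dec.sum _ _ fun p _ => Dec.single (p := p) ⟨?_, ?_, ?_, ?_⟩ hb
  · split_ifs
    · exact h0
    · rfl
  · intro l hl
    by_contra hn
    exact hl (if_neg hn)
  · intro g l
    simp only [List.length_map, hinv]
  · intro l
    by_cases hl : l.length = p + 1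
    · rw [dl_congr (g := a), hcyc]
      intro l' hl'
      rw [if_pos (by omega)]
    · exact dl_eq_zero fun l' hl' => by rw [if_neg (by omega)]

theorem sg2 (n : ℕ) (r : ZMod 2) : sg n • r = r := sg_smul_of_two (by decide) n r

theorem D2_two (f : F2L D E 2) (x : List D) (y : List E) :
    D2 f x y = dl x (fun x' => f x' y) + dl y (fun y' => f x y') := by
  rw [D2_apply, sg2]

/-- **F3**, Kuenneth decomposition -/
theorem kun [Finite E] (q : ℕ) : ∀ f ∈ P2 D E 2, D2 f = 0 → (∀ x y, q < y.length → f x y = 0) → Dec f := by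
  classical
  induction q with
  | zero =>
    intro f hf _ hq
    have : f = 0 := by
      funext x y
      rcases y with _ | ⟨b, y⟩
      · exact hf.1.2 x
      · exact hq _ _ (by simp)
    rw [this]; exact Dec.zero
  | succ q ih =>
    intro f hf hd hq
    obtain ⟨h1, h2, N, h3⟩ := hf
    obtain ⟨T, hT⟩ := exists_section (E := E) q
    -- top part
    let ft : List D → VV E (q + 1) := fun x => ⟨fun y => if y.length = q + 1 then f x y else 0, by
      refine ⟨fun l hl => if_neg hl, if_neg (by simp), fun g l => ?_⟩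
      have := h2 1 g x l
      simp only [one_mul, List.map_id'] at this
      show (if (l.map (g * ·)).length = q + 1 then f x (l.map (g * ·)) else 0) = if l.length = q + 1 then f x l else 0
      rw [List.length_map, this]⟩
    have ft_apply : ∀ x y, (ft x).1 y = if y.length = q + 1 then f x y else 0 := fun _ _ => rfl
    have ft_inv : ∀ (g : D) x, ft (x.map (g * ·)) = ft x := by
      intro g x
      apply Subtype.ext
      funext y
      have := h2 g 1 x y
      simp only [one_mul, List.map_id'] at this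
      rw [ft_apply, ft_apply, this]
    have ft_nil : ft [] = 0 := by
      apply Subtype.ext
      funext y
      rw [ft_apply, h1.1]; simp
    have ft_len : ∀ x, N < x.length → ft x = 0 := by
      intro x hx
      apply Subtype.ext
      funext y
      rw [ft_apply, h3 _ _ (by omega)]; simp
    have ft_cyc : ∀ x, dV (q + 1) (ft x) = 0 := by
      intro x
      apply Subtype.ext
      funext y
      rw [dV_apply]
      by_cases hy : y.length = q + 2
      · have h4 := congrFun (congrFun hd x) y
        rw [D2_two] at h4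
        have h5 : dl x (fun x' => f x' y) = 0 := dl_eq_zero fun x' _ => hq _ _ (by omega)
        rw [h5, zero_add] at h4
        refine Eq.trans ?_ h4
        exact dl_congr fun y' hy' => by rw [ft_apply, if_pos (by omega)]
      · exact dl_eq_zero fun y' hy' => by rw [ft_apply, if_neg (by omega)]
    -- correction
    let g : F2L D E 2 := fun x y => (T (ft x)).1 y
    have g_apply : ∀ x y, g x y = (T (ft x)).1 y := fun _ _ => rfl
    have hgP : g ∈ P2 D E 2 := by
      refine ⟨⟨fun y => ?_, fun x => ?_⟩, fun a b x y => ?_, N + q, fun x y hxy => ?_⟩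
      · rw [g_apply, ft_nil, map_zero]; rfl
      · rw [g_apply]; exact (T (ft x)).2.2.1
      · rw [g_apply, g_apply, ft_inv]; exact (T (ft x)).2.2.2 b y
      · rw [g_apply]
        by_cases hx : N < x.length
        · rw [ft_len x hx, map_zero]; rfl
        · exact (T (ft x)).2.1 y (by omega)
    let ρ : VV E (q + 1) →ₗ[ZMod 2] VV E (q + 1) := LinearMap.id - (dV q).comp T
    have ρ_apply : ∀ b, ρ b = b - dV q (T b) := fun _ => rfl
    have ρ_bd : ∀ b, ρ (dV q b) = 0 := fun b => by rw [ρ_apply, hT, sub_self]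
    have ρ_ρ : ∀ b, ρ (ρ b) = ρ b := fun b => by
      conv_lhs => rw [ρ_apply b, map_sub, ρ_bd, sub_zero]
    have ρ_cyc : ∀ b, dV (q + 1) b = 0 → dV (q + 1) (ρ b) = 0 := fun b hb => by
      rw [ρ_apply, map_sub, hb, dV_dV, sub_zero]
    -- the finite dimensional space of coefficients
    let W : Submodule (ZMod 2) (VV E (q + 1)) := LinearMap.range ρ ⊓ LinearMap.ker (dV (q + 1))
    have : Module.Finite (ZMod 2) (VV E (q + 1)) := VV_finite (q + 1)
    let bs := Module.finBasis (ZMod 2) W
    have hW : ∀ x, ρ (ft x) ∈ W := fun x => ⟨⟨_, rfl⟩, ρ_cyc _ (ft_cyc x)⟩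
    let wx : List D → W := fun x => ⟨ρ (ft x), hW x⟩
    let ac : Fin (Module.finrank (ZMod 2) W) → List D → ZMod 2 := fun k x => bs.repr (wx x) k
    have hexp : ∀ x, ρ (ft x) = ∑ k, ac k x • (bs k : VV E (q + 1)) := by
      intro x
      have := bs.sum_repr (wx x)
      have h4 := congrArg (Subtype.val) this
      rw [Submodule.coe_sum] at h4
      exact h4.symm
    let f' : F2L D E 2 := f - D2 g
    have hf'P : f' ∈ P2 D E 2 := (P2 D E 2).sub_mem ⟨h1, h2, N, h3⟩ (D2_mem hgP)
    have hf'd : D2 f' = 0 := by rw [map_sub, hd, D2_D2, sub_zero]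
    have hf'top : ∀ x y, y.length = q + 1 → f' x y = (ρ (ft x)).1 y := by
      intro x y hy
      show f x y - D2 g x y = (ft x).1 y - (dV q (T (ft x))).1 y
      rw [D2_two, dV_apply, ft_apply, if_pos hy]
      have h4 : dl x (fun x' => g x' y) = 0 := dl_eq_zero fun x' _ => by
        rw [g_apply]; exact (T (ft x')).2.1 y (by omega)
      rw [h4, zero_add]
    have hf'big : ∀ x y, q + 1 < y.length → f' x y = 0 := by
      intro x y hy
      show f x y - D2 g x y = 0
      rw [hq _ _ hy, D2_two]
      have h4 : dl x (fun x' => g x' y) = 0 := dl_eq_zero fun x' _ => by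
        rw [g_apply]; exact (T (ft x')).2.1 y (by omega)
      have h5 : dl y (fun y' => g x y') = 0 := dl_eq_zero fun y' hy' => by
        rw [g_apply]; exact (T (ft x)).2.1 y' (by omega)
      rw [h4, h5]; simp
    have wx_inv : ∀ (c : D) x, wx (x.map (c * ·)) = wx x := fun c x => Subtype.ext (by
      show ρ (ft _) = ρ (ft _)
      rw [ft_inv])
    have ac_inv : ∀ k (c : D) x, ac k (x.map (c * ·)) = ac k x := fun k c x => by
      show bs.repr (wx _) k = bs.repr (wx x) k
      rw [wx_inv]
    have wx_zero : ∀ x, ft x = 0 → wx x = 0 := fun x hx => Subtype.ext (by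
      show ρ (ft x) = 0
      rw [hx, map_zero])
    have ac_zero : ∀ k x, ft x = 0 → ac k x = 0 := fun k x hx => by
      show bs.repr (wx x) k = 0
      rw [wx_zero x hx, map_zero]; rfl
    have ac_cyc : ∀ k x, dl x (ac k) = 0 := by
      intro k x
      have e1 : dl x wx = 0 := by
        -- value of `dl` on `ρ ∘ ft` is the boundary of the level `q` part of `f'`
        let fq : VV E q := ⟨fun y => if y.length = q then f' x y else 0, by
          refine ⟨fun l hl => if_neg hl, ?_, fun g l => ?_⟩
          · show (if ([] : List E).length = q then f' x [] else 0) = 0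
            rw [hf'P.1.2 x]; simp
          · have := hf'P.2.1 1 g x l
            simp only [one_mul, List.map_id'] at this
            show (if (l.map (g * ·)).length = q then f' x (l.map (g * ·)) else 0) = if l.length = q then f' x l else 0
            rw [List.length_map, this]⟩
        have e2 : dl x (fun x' => ρ (ft x')) = dV q fq := by
          apply Subtype.ext
          funext y
          have h4 : (dl x (fun x' => ρ (ft x'))).1 y = dl x (fun x' => (ρ (ft x')).1 y) := by
            let evy : VV E (q + 1) →+ ZMod 2 :=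
              { toFun := fun b => b.1 y, map_zero' := rfl, map_add' := fun _ _ => rfl }
            exact (dl_hom evy x (fun x' => ρ (ft x'))).symm
          rw [h4, dV_apply]
          by_cases hy : y.length = q + 1
          · have h5 := congrFun (congrFun hf'd x) y
            rw [D2_two] at h5
            have h6 : dl x (fun x' => f' x' y) = dl x (fun x' => (ρ (ft x')).1 y) :=
              dl_congr fun x' _ => hf'top x' y hy
            have h7 : dl y (fun y' => f' x y') = dl y fq.1 := dl_congr fun y' hy' => by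
              show f' x y' = if y'.length = q then f' x y' else 0
              rw [if_pos (by omega)]
            rw [h6, h7] at h5
            have h8 : ∀ a b : ZMod 2, a + b = 0 → a = b := by decide
            exact h8 _ _ h5
          · have h5 : dl x (fun x' => (ρ (ft x')).1 y) = 0 := dl_eq_zero fun x' _ =>
              (ρ (ft x')).2.1 y hy
            have h6 : dl y fq.1 = 0 := dl_eq_zero fun y' hy' => if_neg (by omega)
            rw [h5, h6]
        have e3 : dl x (fun x' => ρ (ft x')) = 0 := by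
          have h4 : dl x (fun x' => ρ (ρ (ft x'))) = ρ (dl x (fun x' => ρ (ft x'))) :=
            dl_hom ρ.toAddMonoidHom x (fun x' => ρ (ft x'))
          have h5 : (fun x' => ρ (ρ (ft x'))) = fun x' => ρ (ft x') := by funext x'; exact ρ_ρ _
          rw [h5] at h4
          rw [h4, e2, ρ_bd]
        apply Subtype.ext
        have h6 : ((dl x wx : W) : VV E (q + 1)) = dl x (fun x' => ((wx x' : W) : VV E (q + 1))) :=
          (dl_hom W.subtype.toAddMonoidHom x wx).symm
        rw [h6]
        exact e3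
      have h7 : dl x (ac k) = bs.repr (dl x wx) k := by
        let evk : W →+ ZMod 2 :=
          { toFun := fun b => bs.repr b k, map_zero' := by simp, map_add' := fun _ _ => by simp }
        exact dl_hom evk x wx
      rw [h7, e1, map_zero]; rfl
    have hbC : ∀ k, IsC E (q + 1) ((bs k : VV E (q + 1)) : List E → ZMod 2) := by
      intro k
      refine ⟨(bs k : VV E (q + 1)).2.2.1, fun l hl => ?_, (bs k : VV E (q + 1)).2.2.2, fun l => ?_⟩
      · by_contra hn
        exact hl ((bs k : VV E (q + 1)).2.1 l hn)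
      · have h4 : dV (q + 1) (bs k : VV E (q + 1)) = 0 := (bs k).2.2
        have h5 := congrFun (congrArg Subtype.val h4) l
        exact h5
    let S : F2L D E 2 := ∑ k, ten (ac k) ((bs k : VV E (q + 1)) : List E → ZMod 2)
    have hSDec : Dec S := Dec.sum _ _ fun k _ => Dec.ten (ac_zero k [] ft_nil) (ac_inv k) (ac_cyc k) N
      (fun x hx => ac_zero k x (ft_len x hx)) (hbC k)
    have hS : ∀ x y, S x y = (ρ (ft x)).1 y := by
      intro x y
      show (∑ k, ten (ac k) ((bs k : VV E (q + 1)) : List E → ZMod 2)) x y = _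
      rw [hexp x, Finset.sum_apply, Finset.sum_apply, Submodule.coe_sum, Finset.sum_apply]
      rfl
    have hSP : S ∈ P2 D E 2 := by
      refine ⟨⟨fun y => ?_, fun x => ?_⟩, fun a b x y => ?_, N + (q + 1), fun x y hxy => ?_⟩
      · rw [hS, ft_nil, map_zero]; rfl
      · rw [hS]; exact (ρ (ft x)).2.2.1
      · rw [hS, hS, ft_inv]; exact (ρ (ft x)).2.2.2 b y
      · rw [hS]
        by_cases hx : N < x.length
        · rw [ft_len x hx, map_zero]; rfl
        · exact (ρ (ft x)).2.1 y (by omega)
    have hSd : D2 S = 0 := by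
      rw [map_sum]
      refine Finset.sum_eq_zero fun k _ => ?_
      funext x y
      rw [D2_ten, ac_cyc, (hbC k).cyc]; simp
    have hlow : Dec (f' - S) := by
      refine ih (f' - S) ((P2 D E 2).sub_mem hf'P hSP) (by rw [map_sub, hf'd, hSd, sub_zero]) ?_
      intro x y hy
      show f' x y - S x y = 0
      rcases Nat.lt_or_ge (q + 1) y.length with h | h
      · rw [hf'big x y h, hS, (ρ (ft x)).2.1 y (by omega), sub_zero]
      · rw [hf'top x y (by omega), hS, sub_self]
    have e : f = (f' - S) + S + D2 g := by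
      show f = f - D2 g - S + S + D2 g
      abel
    rw [e]
    exact (hlow.add hSDec).add (Dec.D2 hgP)

/-- **F3** -/
theorem kunneth [Finite E] {f : F2L D E 2} (hf : f ∈ P2 D E 2) (hd : D2 f = 0) : Dec f := by
  obtain ⟨N, hN⟩ := hf.2.2
  exact kun N f hf hd fun x y hy => hN _ _ (by omega)

end kun

end Crest.Agent.R204.SQP334
end

-- ▼ part R204/SQP4_334
section

/-!
# Row 204, block G, lemma SQ: the product step, part 4 (helper334): good cochains, `SQ_prod`
-/

set_option autoImplicit false
set_option linter.unusedSectionVars false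

namespace Crest.Agent.R204.SQP334

open SQ803 SQ803.Co

/-! ## good cochains (any group) -/

section good
variable {G J : Type} [Group G] [MulAction G J]

/-- invariant cocycles mod 2 -/
structure IsZ (G : Type) {J : Type} [Group G] [MulAction G J] (u : List J → ZMod 2) : Prop where
  nil : u [] = 0
  inv : ∀ (g : G) (l : List J), u (l.map (g • ·)) = u l
  cyc : ∀ l, dl l u = 0

/-- the square lifts -/
def Good (G : Type) {J : Type} [Group G] [MulAction G J] (N : ℕ) (u : List J → ZMod 2) : Prop :=
  ∃ (Y : List J → ZMod (2 ^ N)) (v : List J → ZMod 2),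
    Y [] = 0 ∧ (∀ (g : G) (l : List J), Y (l.map (g • ·)) = Y l) ∧ (∀ l, dl l Y = 0) ∧
    v [] = 0 ∧ (∀ (g : G) (l : List J), v (l.map (g • ·)) = v l) ∧
    ∀ l, cupl l u u = (Y l).cast + dl l v

theorem two2 : ∀ b : ZMod 2, b + b = 0 := by decide

theorem IsZ.add {u v : List J → ZMod 2} (hu : IsZ G u) (hv : IsZ G v) : IsZ G (fun l => u l + v l) :=
  ⟨by simp [hu.nil, hv.nil], fun g l => by rw [hu.inv, hv.inv], fun l => by
    rw [dl_add, hu.cyc, hv.cyc, add_zero]⟩

theorem IsZ.cob {w : List J → ZMod 2} (hw : ∀ (g : G) (l : List J), w (l.map (g • ·)) = w l) :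
    IsZ G (fun l => dl l w) :=
  ⟨rfl, fun g l => by rw [← dl_map]; simp only [hw], fun l => dl_dl l w⟩

theorem inv_cupl {M : Type} [NonUnitalRing M] {u v : List J → M} (hu : ∀ (g : G) (l : List J), u (l.map (g • ·)) = u l)
    (hv : ∀ (g : G) (l : List J), v (l.map (g • ·)) = v l) (g : G) (l : List J) :
    cupl (l.map (g • ·)) u v = cupl l u v := by
  rw [← cupl_map]
  simp only [hu, hv]

theorem inv_cupo {u v : List J → ZMod 2} (hu : ∀ (g : G) (l : List J), u (l.map (g • ·)) = u l)
    (hv : ∀ (g : G) (l : List J), v (l.map (g • ·)) = v l) (g : G) (l : List J) :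
    cupo (l.map (g • ·)) u v = cupo l u v := by
  rw [← cupo_map]
  simp only [hu, hv]

/-- the reduction of `ZMod (2 ^ N)` mod 2, as a ring homomorphism -/
theorem cast_add' {N : ℕ} (hN : 0 < N) (a b : ZMod (2 ^ N)) : ((a + b).cast : ZMod 2) = a.cast + b.cast :=
  map_add (ZMod.castHom (dvd_pow_self 2 hN.ne') (ZMod 2)) a b

theorem Good.add {N : ℕ} (hN : 0 < N) {u u' : List J → ZMod 2} (hu : IsZ G u) (hu' : IsZ G u')
    (h : Good G N u) (h' : Good G N u') : Good G N (fun l => u l + u' l) := by
  obtain ⟨Y, v, h1, h2, h3, h4, h5, h6⟩ := h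
  obtain ⟨Y', v', h1', h2', h3', h4', h5', h6'⟩ := h'
  refine ⟨fun l => Y l + Y' l, fun l => v l + v' l + cupo l u u', by simp [h1, h1'], fun g l => by simp only [h2, h2'],
    fun l => by rw [dl_add, h3, h3', add_zero], by simp [h4, h4', cupo], fun g l => by
      simp only [h5, h5', inv_cupo hu.inv hu'.inv], fun l => ?_⟩
  have e1 : dl l (fun l' => cupo l' u u') = cupl l u u' + cupl l u' u := by
    rw [dl_cupo two2 l u u' hu'.nil]
    have z1 : (fun l' => dl l' u) = fun _ => 0 := funext hu.cyc
    have z2 : (fun l' => dl l' u') = fun _ => 0 := funext hu'.cyc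
    rw [z1, z2]
    have z3 : ∀ (l : List J) (g : List J → ZMod 2), cupo l (fun _ => 0) g = 0 := by
      intro l
      induction l with
      | nil => intro g; rfl
      | cons x l ih => intro g; rw [cupo_cons, ih, cupl_zero_right, add_zero]
    have z4 : ∀ (l : List J) (g : List J → ZMod 2), cupo l g (fun _ => 0) = 0 := by
      intro l
      induction l with
      | nil => intro g; rfl
      | cons x l ih => intro g; rw [cupo_cons, ih, cupl_zero_left, add_zero]
    rw [z3, z4, zero_add, zero_add]
  rw [cupl_add_left, cupl_add_right, cupl_add_right, h6, h6', cast_add' hN, dl_add, dl_add, e1]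
  abel

theorem Good.cob {N : ℕ} {w : List J → ZMod 2} (hw0 : w [] = 0)
    (hw : ∀ (g : G) (l : List J), w (l.map (g • ·)) = w l) : Good G N (fun l => dl l w) := by
  refine ⟨fun _ => 0, fun l => cupl l w (fun l' => dl l' w), rfl, fun _ _ => rfl, fun l => dl_zero l, rfl,
    fun g l => inv_cupl hw (IsZ.cob hw).inv g l, fun l => ?_⟩
  rw [dl_cup two2]
  have z1 : (fun l' => dl l' (fun l'' => dl l'' w)) = fun _ => 0 := funext fun l' => dl_dl l' w
  rw [z1, cupl_zero_right, hw0, dl_nil]
  simp

theorem Good.zero {N : ℕ} : Good G N (fun _ : List J => 0) :=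
  ⟨fun _ => 0, fun _ => 0, rfl, fun _ _ => rfl, fun l => dl_zero l, rfl, fun _ _ => rfl, fun l => by
    rw [cupl_zero_left, dl_zero]; simp⟩

theorem Good.sum {N : ℕ} (hN : 0 < N) {ι : Type*} (S : Finset ι) (u : ι → List J → ZMod 2)
    (hu : ∀ i ∈ S, IsZ G (u i)) (h : ∀ i ∈ S, Good G N (u i)) :
    IsZ G (fun l => ∑ i ∈ S, u i l) ∧ Good G N (fun l => ∑ i ∈ S, u i l) := by
  classical
  induction S using Finset.induction_on with
  | empty =>
    simp only [Finset.sum_empty]
    exact ⟨⟨rfl, fun _ _ => rfl, fun l => dl_zero l⟩, Good.zero⟩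
  | insert a S ha ih =>
    obtain ⟨i1, i2⟩ := ih (fun i hi => hu i (Finset.mem_insert_of_mem hi))
      (fun i hi => h i (Finset.mem_insert_of_mem hi))
    simp only [Finset.sum_insert ha]
    exact ⟨(hu a (Finset.mem_insert_self _ _)).add i1,
      Good.add hN (hu a (Finset.mem_insert_self _ _)) i1 (h a (Finset.mem_insert_self _ _)) i2⟩

/-- cup products of homogeneous cochains are homogeneous -/
theorem cupl_len {M : Type} [NonUnitalRing M] (l : List J) (f g : List J → M) (p q : ℕ)
    (hf : ∀ l, l.length ≠ p + 1 → f l = 0) (hg : ∀ l, l.length ≠ q + 1 → g l = 0)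
    (hl : l.length ≠ p + q + 1) : cupl l f g = 0 := by
  induction l generalizing f p with
  | nil => rfl
  | cons x l ih =>
    rw [cupl_cons]
    rcases p with _ | p
    · have h1 : (fun l' => f (x :: l')) = fun l' => if l' = [] then f [x] else 0 := by
        funext l'
        split_ifs with h
        · rw [h]
        · refine hf _ ?_
          intro h2
          rw [List.length_cons] at h2
          exact h (List.length_eq_zero_iff.1 (by omega))
      have h2 : cupl l (fun l' => f (x :: l')) g = 0 := by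
        rw [h1]
        have : cupl l (fun l' => if l' = [] then f [x] else 0) g = cupl l (fun _ => 0) g :=
          cupl_congr (fun y l' => by simp) (fun _ _ => rfl)
        rw [this, cupl_zero_left]
      rw [h2, hg (x :: l) (by omega), mul_zero, add_zero]
    · rw [hf [x] (by simp), zero_mul, zero_add]
      refine ih (fun l' => f (x :: l')) p (fun l' h => hf _ ?_) ?_
      · rw [List.length_cons]; omega
      · rw [List.length_cons] at hl; omega

/-- homogenisation: from `Good` to the conclusion of `SQ` -/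
theorem Good.homog {N : ℕ} {m : ℕ} {u : List J → ZMod 2}
    (hum : ∀ l, u l ≠ 0 → l.length = m + 1) (h : Good G N u) :
    ∃ (Y : List J → ZMod (2 ^ N)) (v : List J → ZMod 2),
      (∀ l, Y l ≠ 0 → l.length = 2 * m + 1) ∧ (∀ (g : G) (l : List J), Y (l.map (g • ·)) = Y l) ∧
      (∀ l, dl l Y = 0) ∧
      (∀ l, v l ≠ 0 → l.length = 2 * m) ∧ v [] = 0 ∧ (∀ (g : G) (l : List J), v (l.map (g • ·)) = v l) ∧
      ∀ l, cupl l u u = (Y l).cast + dl l v := by
  obtain ⟨Y, v, h1, h2, h3, h4, h5, h6⟩ := h
  have hu0 : ∀ l, l.length ≠ m + 1 → u l = 0 := by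
    intro l hl
    by_contra hn
    exact hl (hum l hn)
  refine ⟨fun l => if l.length = 2 * m + 1 then Y l else 0, fun l => if l.length = 2 * m then v l else 0,
    fun l hl => ?_, fun g l => ?_, fun l => ?_, fun l hl => ?_, ?_, fun g l => ?_, fun l => ?_⟩
  · by_contra hn
    exact hl (if_neg hn)
  · simp only [List.length_map, h2]
  · by_cases hl : l.length = 2 * m + 2
    · rw [dl_congr (g := Y), h3]
      intro l' hl'
      rw [if_pos (by omega)]
    · exact dl_eq_zero fun l' hl' => if_neg (by omega)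
  · by_contra hn
    exact hl (if_neg hn)
  · simp [h4]
  · simp only [List.length_map, h5]
  · beta_reduce
    by_cases hl : l.length = 2 * m + 1
    · rw [if_pos hl, h6]
      congr 1
      refine dl_congr fun l' hl' => ?_
      rw [if_pos (by omega)]
    · rw [if_neg hl, cupl_len l u u m m hu0 hu0 (by omega)]
      rw [dl_eq_zero fun l' hl' => if_neg (by omega)]
      simp

end good

end Crest.Agent.R204.SQP334
end

-- ▼ part R204/SQP5_334
section

/-!
# Row 204, block G, lemma SQ: the product step, part 5 (helper334): `SQ_prod`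
-/

set_option autoImplicit false
set_option linter.unusedSectionVars false

namespace Crest.Agent.R204.SQP334

open SQ803 SQ803.Co

/-! ## rings -/

section rings

/-- vanishing of the values of a cup product -/
theorem cupl_ev_zero {J B M : Type*} [NonUnitalRing B] [AddCommGroup M] (φ : B →+ M) (l : List J)
    (f g : List J → B) (h : ∀ l' l'' : List J, l'.length + l''.length = l.length + 1 → φ (f l' * g l'') = 0) :
    φ (cupl l f g) = 0 := by
  induction l generalizing f with
  | nil => simp
  | cons x l ih =>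
    rw [cupl_cons, map_add, h [x] (x :: l) (by simp; omega), zero_add]
    refine ih _ fun l' l'' hl => h _ _ ?_
    rw [List.length_cons, List.length_cons]; omega

variable {J D E : Type} {n : ℕ}

/-- from nested cochains -/
def frE (F : Co J (Co D (Co E (ZMod n)))) : F3L J D E n := fun j x y => ((F.f j).f x).f y

theorem toE_frE (F : Co J (Co D (Co E (ZMod n)))) : toE (frE F) = F := rfl
theorem toE_add (F G : F3L J D E n) : toE (F + G) = toE F + toE G := rfl

/-- the coefficient map of `ι` -/
def psi : ZMod n →+ Co D (Co E (ZMod n)) := (kap (J := D) (B := Co E (ZMod n))).comp (kap (J := E))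

theorem psi_mul (a b : ZMod n) : (psi (a * b) : Co D (Co E (ZMod n))) = psi a * psi b := by
  show kap (kap (a * b)) = kap (kap a) * kap (kap b)
  rw [kap_mul_kap, kap_mul_kap]

theorem toE_io (u : List J → ZMod n) : (toE (io u) : Co J (Co D (Co E (ZMod n)))) = pull id psi ⟨u⟩ := by
  refine Co.ext fun j => Co.ext fun x => Co.ext fun y => ?_
  rw [toE_f, toS_f, io_apply, pull_f, List.map_id]
  show _ = ((if x.length = 1 then kap (u j) else 0 : Co E (ZMod n))).f y
  split_ifs with h1 h2 h2
  · rw [kap_f, if_pos h1.2]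
  · exact absurd h1.1 h2
  · rw [kap_f, if_neg fun h3 => h1 ⟨h2, h3⟩]
  · rfl

theorem io_mul (u v : List J → ZMod n) :
    (toE (io (fun j => cupl j u v)) : Co J (Co D (Co E (ZMod n)))) = toE (io u) * toE (io v) := by
  rw [toE_io, toE_io, toE_io, ← pull_mul _ _ psi_mul]
  rfl

theorem toE_ka (f : F2L D E n) : (toE (ka f) : Co J (Co D (Co E (ZMod n)))) = kap (toS f) := by
  refine Co.ext fun j => Co.ext fun x => Co.ext fun y => ?_
  rw [toE_f, toS_f, ka_apply, kap_f]
  split_ifs <;> rfl

theorem cupl_smul_smul {M : Type} [CommRing M] (y : List E) (r r' : M) (b b' : List E → M) :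
    cupl y (fun y => r * b y) (fun y => r' * b' y) = r * r' * cupl y b b' := by
  induction y generalizing b with
  | nil => simp
  | cons a y ih => rw [cupl_cons, cupl_cons, ih]; ring

theorem ten_mul (a a' : List D → ZMod n) (b b' : List E → ZMod n) :
    toS (ten a b) * toS (ten a' b') = toS (ten (fun x => cupl x a a') (fun y => cupl y b b')) := by
  refine Co.ext fun x => ?_
  rw [mul_f]
  show cupl x (fun x' => (⟨fun y => a x' * b y⟩ : Co E (ZMod n))) (fun x' => (⟨fun y => a' x' * b' y⟩ : Co E (ZMod n))) =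
    (⟨fun y => cupl x a a' * cupl y b b'⟩ : Co E (ZMod n))
  induction x generalizing a with
  | nil =>
    refine Co.ext fun y => ?_
    simp
  | cons c x ih =>
    rw [cupl_cons, ih (fun x' => a (c :: x'))]
    refine Co.ext fun y => ?_
    rw [add_f, mul_f]
    show cupl y (fun y => a [c] * b y) (fun y => a' (c :: x) * b' y) + _ = _
    rw [cupl_smul_smul, cupl_cons]
    ring

theorem ka_ten_mul (a a' : List D → ZMod n) (b b' : List E → ZMod n) :
    (toE (ka (ten (fun x => cupl x a a') (fun y => cupl y b b'))) : Co J (Co D (Co E (ZMod n)))) =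
      toE (ka (ten a b)) * toE (ka (ten a' b')) := by
  rw [toE_ka, toE_ka, toE_ka, kap_mul_kap, ten_mul]

end rings

section prod
variable {J D E : Type} [Group D] [Group E] [MulAction (D × E) J] {n : ℕ}

/-- nested cochains in `P3` -/
def PE (F : Co J (Co D (Co E (ZMod n)))) : Prop := frE F ∈ P3 J D E n

theorem inv_iff (F : Co J (Co D (Co E (ZMod n)))) : Inv3 (frE F) ↔
    ∀ g : D × E, pull (g • ·) (pull (g.1 * ·) (pull (g.2 * ·) (AddMonoidHom.id (ZMod n)))) F = F := by
  constructor
  · intro h g
    refine Co.ext fun j => Co.ext fun x => Co.ext fun y => ?_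
    exact h g j x y
  · intro h g j x y
    have := congrArg (fun F => frE F j x y) (h g)
    exact this

theorem PE.mul {F G : Co J (Co D (Co E (ZMod n)))} (hF : PE F) (hG : PE G) : PE (F * G) := by
  obtain ⟨⟨h1, h2⟩, h3, N, h4⟩ := hF
  obtain ⟨⟨g1, g2⟩, g3, M, g4⟩ := hG
  refine ⟨⟨fun x y => rfl, fun j => ⟨fun y => ?_, fun x => ?_⟩⟩, ?_, N + M + 3, fun j x y hl => ?_⟩
  · -- value at x = []
    show ((ev []) (cupl j F.f G.f) : Co E (ZMod n)).f y = 0
    rw [cupl_ev_zero (ev (J := D) (B := Co E (ZMod n)) []) j F.f G.f fun _ _ _ => rfl]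
    rfl
  · show ((cupl j F.f G.f).f x).f [] = 0
    refine cupl_ev_zero ((ev (J := E) (B := ZMod n) []).comp (ev (J := D) (B := Co E (ZMod n)) x)) j F.f G.f
      fun j' j'' _ => ?_
    show ((F.f j' * G.f j'').f x).f [] = 0
    rw [mul_f]
    exact cupl_ev_zero (ev (J := E) (B := ZMod n) []) x _ _ fun _ _ _ => rfl
  · rw [inv_iff] at h3 g3 ⊢
    intro g
    rw [pull_mul, h3 g, g3 g]
    intro a b
    rw [pull_mul]
    intro a b
    rw [pull_mul]
    intro a b
    rfl
  · show ((cupl j F.f G.f).f x).f y = 0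
    refine cupl_ev_zero ((ev (J := E) (B := ZMod n) y).comp (ev (J := D) (B := Co E (ZMod n)) x)) j F.f G.f
      fun j' j'' hj => ?_
    show ((F.f j' * G.f j'').f x).f y = 0
    rw [mul_f]
    refine cupl_ev_zero (ev (J := E) (B := ZMod n) y) x _ _ fun x' x'' hx => ?_
    show ((F.f j').f x' * (G.f j'').f x'').f y = 0
    rw [mul_f]
    refine cupl_ev_zero (AddMonoidHom.id (ZMod n)) y _ _ fun y' y'' hy => ?_
    show ((F.f j').f x').f y' * ((G.f j'').f x'').f y'' = 0
    by_cases hN : N < j'.length + x'.length + y'.length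
    · rw [show ((F.f j').f x').f y' = 0 from h4 _ _ _ hN, zero_mul]
    · rw [show ((G.f j'').f x'').f y'' = 0 from g4 _ _ _ (by omega), mul_zero]

theorem PE.δ {F : Co J (Co D (Co E (ZMod n)))} (hF : PE F) : PE (Cx.δ F) := by
  have := toE_D3 hF.1
  rw [toE_frE] at this
  rw [this]
  exact D3_mem hF

theorem PE.add {F G : Co J (Co D (Co E (ZMod n)))} (hF : PE F) (hG : PE G) : PE (F + G) :=
  (P3 J D E n).add_mem hF hG

theorem ten_mem {a : List D → ZMod n} {b : List E → ZMod n} (ha : a [] = 0) (hb : b [] = 0)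
    (ha' : ∀ (g : D) (l : List D), a (l.map (g * ·)) = a l) (hb' : ∀ (g : E) (l : List E), b (l.map (g * ·)) = b l)
    (N M : ℕ) (hN : ∀ l : List D, N < l.length → a l = 0) (hM : ∀ l : List E, M < l.length → b l = 0) :
    ten a b ∈ P2 D E n := by
  refine ⟨⟨fun y => ?_, fun x => ?_⟩, fun c d x y => ?_, N + M, fun x y h => ?_⟩
  · show a [] * b y = 0
    rw [ha, zero_mul]
  · show a x * b [] = 0
    rw [hb, mul_zero]
  · show a _ * b _ = a x * b y
    rw [ha', hb']
  · show a x * b y = 0
    by_cases hx : N < x.length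
    · rw [hN x hx, zero_mul]
    · rw [hM y (by omega), mul_zero]

/-- reduction mod 2 -/
def red {N : ℕ} (F : F3L J D E (2 ^ N)) : F3L J D E 2 := fun j x y => (F j x y).cast

theorem red_D3 {N : ℕ} (hN : 0 < N) (F : F3L J D E (2 ^ N)) : D3 (red F) = red (D3 F) := by
  funext j x y
  let φ : ZMod (2 ^ N) →+ ZMod 2 := (ZMod.castHom (dvd_pow_self 2 hN.ne') (ZMod 2)).toAddMonoidHom
  show D3 (fun j x y => φ (F j x y)) j x y = φ (D3 F j x y)
  rw [D3_apply, D3_apply, D2_apply, D2_apply, map_add, map_zsmul, map_add, map_zsmul, ← dl_hom φ, ← dl_hom φ,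
    ← dl_hom φ]

theorem red_mem {N : ℕ} (hN : 0 < N) {F : F3L J D E (2 ^ N)} (hF : F ∈ P3 J D E (2 ^ N)) :
    red F ∈ P3 J D E 2 := by
  obtain ⟨h1, h2, M, h3⟩ := hF
  have h0 : ((0 : ZMod (2 ^ N)).cast : ZMod 2) = 0 := ZMod.cast_zero
  refine ⟨⟨fun x y => ?_, fun j => ⟨fun y => ?_, fun x => ?_⟩⟩, fun g j x y => ?_, M, fun j x y h => ?_⟩
  · show (F [] x y).cast = _
    rw [h1.1]; exact h0
  · show (F j [] y).cast = _
    rw [(h1.2 j).1]; exact h0
  · show (F j x []).cast = _
    rw [(h1.2 j).2]; exact h0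
  · show (F _ _ _).cast = (F j x y).cast
    rw [h2]
  · show (F j x y).cast = _
    rw [h3 _ _ _ h]; exact h0

/-- the key step: a class `ι u = κ (a ⊗ b)` is good -/
theorem good_ten {φ : J → D × E} (hφ : ∀ g j, φ (g • j) = g * φ j) {N : ℕ} (hN : 0 < N)
    (hD : SQ D) (hE : SQ E) {p q : ℕ} {a : List D → ZMod 2} {b : List E → ZMod 2} (ha : IsC D p a)
    (hb : IsC E q b) {u : List J → ZMod 2} (hu : u ∈ P1 J D E 2) {H : F3L J D E 2} (hH : H ∈ P3 J D E 2)
    (e : (ka (ten a b) : F3L J D E 2) = io u + D3 H) : Good (D × E) N u := by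
  obtain ⟨Ya, va, y1, y2, y3, y4, y5, y6, y7⟩ := hD D (fun g j h => by
    have h' : g * j = j := h
    simpa using h') N hN (p - 1) a (fun l hl => by
      have h1 := ha.len l hl
      have h2 : l ≠ [] := fun h => hl (by rw [h]; exact ha.nil)
      have h3 : 0 < l.length := List.length_pos_iff.2 h2
      omega) ha.inv ha.cyc
  obtain ⟨Yb, vb, z1, z2, z3, z4, z5, z6, z7⟩ := hE E (fun g j h => by
    have h' : g * j = j := h
    simpa using h') N hN (q - 1) b (fun l hl => by
      have h1 := hb.len l hl
      have h2 : l ≠ [] := fun h => hl (by rw [h]; exact hb.nil)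
      have h3 : 0 < l.length := List.length_pos_iff.2 h2
      omega) hb.inv hb.cyc
  have lenz : ∀ {X M : Type} [Zero M] {f : List X → M} {k : ℕ}, (∀ l, f l ≠ 0 → l.length = k) →
      ∀ l : List X, k < l.length → f l = 0 := by
    intro X M _ f k h l hl
    by_contra hn
    have := h l hn
    omega
  have Ya0 : Ya [] = 0 := by
    by_contra h
    have := y1 [] h
    simp at this
  have Yb0 : Yb [] = 0 := by
    by_contra h
    have := z1 [] h
    simp at this
  let cs : ZMod (2 ^ N) →+* ZMod 2 := ZMod.castHom (dvd_pow_self 2 hN.ne') (ZMod 2)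
  have hcs : ∀ r, (ZMod.cast r : ZMod 2) = cs r := fun _ => rfl
  let α : List D → ZMod 2 := fun x => cs (Ya x)
  let β : List E → ZMod 2 := fun y => cs (Yb y)
  have dα : ∀ x, dl x α = 0 := fun x => by
    show dl x (fun x => cs.toAddMonoidHom (Ya x)) = 0
    rw [dl_hom, y3, map_zero]
  have dβ : ∀ y, dl y β = 0 := fun y => by
    show dl y (fun y => cs.toAddMonoidHom (Yb y)) = 0
    rw [dl_hom, z3, map_zero]
  -- the correction `h2`
  let dva : List D → ZMod 2 := fun x => dl x va
  let dvb : List E → ZMod 2 := fun y => dl y vb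
  let h2 : F2L D E 2 := ten α vb + ten va β + ten va dvb
  have hval : ten (fun x => cupl x a a) (fun y => cupl y b b) = ten α β + D2 h2 := by
    funext x y
    show cupl x a a * cupl y b b = α x * β y + D2 h2 x y
    have e1 : D2 h2 x y = D2 (ten α vb) x y + D2 (ten va β) x y + D2 (ten va dvb) x y := by
      show D2 (ten α vb + ten va β + ten va dvb) x y = _
      rw [map_add, map_add]; rfl
    rw [e1, D2_ten, D2_ten, D2_ten, sg2, sg2, sg2, dα, dβ, show dl y dvb = 0 from dl_dl y vb, y7, z7]
    show (cs (Ya x) + dl x va) * (cs (Yb y) + dl y vb) = cs (Ya x) * cs (Yb y) + _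
    show _ = cs (Ya x) * cs (Yb y) + (0 * vb y + cs (Ya x) * dl y vb + (dl x va * cs (Yb y) + va x * 0) +
      (dl x va * dl y vb + va x * 0))
    ring
  have vaN := lenz y4
  have vbN := lenz z4
  have YaN := lenz y1
  have YbN := lenz z1
  have αN : ∀ l : List D, 2 * (p - 1) + 1 < l.length → α l = 0 := fun l hl => by
    show cs (Ya l) = 0
    rw [YaN l hl, map_zero]
  have βN : ∀ l : List E, 2 * (q - 1) + 1 < l.length → β l = 0 := fun l hl => by
    show cs (Yb l) = 0
    rw [YbN l hl, map_zero]
  have α0 : α [] = 0 := by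
    show cs (Ya []) = 0
    rw [Ya0, map_zero]
  have β0 : β [] = 0 := by
    show cs (Yb []) = 0
    rw [Yb0, map_zero]
  have αi : ∀ (g : D) (l : List D), α (l.map (g * ·)) = α l := fun g l => congrArg cs (y2 g l)
  have βi : ∀ (g : E) (l : List E), β (l.map (g * ·)) = β l := fun g l => congrArg cs (z2 g l)
  have dvbi : ∀ (g : E) (l : List E), dvb (l.map (g * ·)) = dvb l := fun g l => by
    show dl _ vb = dl l vb
    rw [← dl_map]
    congr 1
    funext l'
    exact z6 g l'
  have dvbN : ∀ l : List E, 2 * (q - 1) + 1 < l.length → dvb l = 0 := fun l hl =>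
    dl_eq_zero fun l' hl' => vbN l' (by omega)
  have hh2 : h2 ∈ P2 D E 2 := (P2 D E 2).add_mem ((P2 D E 2).add_mem
    (ten_mem α0 z5 αi z6 _ _ αN vbN) (ten_mem y5 β0 y6 βi _ _ vaN βN))
    (ten_mem y5 rfl y6 dvbi _ _ vaN dvbN)
  -- the integral class
  have hY2 : ten Ya Yb ∈ P2 D E (2 ^ N) := ten_mem Ya0 Yb0 y2 z2 _ _ YaN YbN
  have hY2d : D2 (ten Ya Yb) = 0 := by
    funext x y
    rw [D2_ten, y3, z3]; simp
  have hkY : D3 (ka (ten Ya Yb) : F3L J D E (2 ^ N)) = 0 := by rw [D3_ka, hY2d, map_zero]
  obtain ⟨Y, hY, hYd, H', hH', e'⟩ := io_surj φ hφ (ka_mem hY2) hkY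
  -- reduction mod 2
  have e2 : (ka (ten α β) : F3L J D E 2) = io (fun j => cs (Y j)) + D3 (red H') := by
    rw [red_D3 hN]
    funext j x y
    have h3 := congrFun (congrFun (congrFun e' j) x) y
    have h4 := congrArg cs h3
    have h5 : cs ((ka (ten Ya Yb) : F3L J D E (2 ^ N)) j x y) = (ka (ten α β) : F3L J D E 2) j x y := by
      rw [ka_apply, ka_apply]
      split_ifs
      · exact map_mul cs _ _
      · exact map_zero cs
    have h6 : cs ((io Y : F3L J D E (2 ^ N)) j x y) = (io (fun j => cs (Y j)) : F3L J D E 2) j x y := by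
      rw [io_apply, io_apply]
      split_ifs
      · rfl
      · exact map_zero cs
    rw [← h5, h4]
    show cs ((io Y : F3L J D E (2 ^ N)) j x y + D3 H' j x y) = _
    rw [map_add, h6]
    rfl
  -- squares in the nested ring
  let X : Co J (Co D (Co E (ZMod 2))) := toE (io u)
  let K : Co J (Co D (Co E (ZMod 2))) := toE (ka (ten a b))
  let T : Co J (Co D (Co E (ZMod 2))) := toE H
  have hT : PE T := hH
  have hX : PE X := io_mem hu
  have haN := lenz ha.len
  have hbN := lenz hb.len
  have hK : PE K := ka_mem (ten_mem ha.nil hb.nil ha.inv hb.inv _ _ haN hbN)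
  have two3 := DG2.two (B := Co J (Co D (Co E (ZMod 2))))
  have hKX : K = X + Cx.δ T := by
    show toE (ka (ten a b)) = toE (io u) + Cx.δ (toE H)
    rw [toE_D3 hH.1, ← toE_add, ← e]
  have hXK : X = K + Cx.δ T := by
    rw [hKX, add_assoc, two3, add_zero]
  have hδK : Cx.δ K = 0 := by
    show Cx.δ (toE (ka (ten a b))) = 0
    have hK1 : Nz3 (ka (ten a b) : F3L J D E 2) := hK.1
    rw [toE_D3 hK1, D3_ka]
    have : D2 (ten a b) = 0 := by
      funext x y
      rw [D2_ten, ha.cyc, hb.cyc]; simp
    rw [this, map_zero]; rfl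
  let Z : Co J (Co D (Co E (ZMod 2))) := K * T + T * K + T * Cx.δ T
  have hZ : PE Z := ((hK.mul hT).add (hT.mul hK)).add (hT.mul hT.δ)
  have hXX : X * X = K * K + Cx.δ Z := by
    show X * X = K * K + Cx.δ (K * T + T * K + T * Cx.δ T)
    rw [map_add, map_add, DG2.leib, DG2.leib, DG2.leib, hδK, Cx.δδ, zero_mul, mul_zero, zero_add]
    simp only [add_zero]
    conv_lhs => rw [hXK]
    rw [add_mul, mul_add, mul_add]
    abel
  have hfin : (io (fun j => cupl j u u) : F3L J D E 2) =
      io (fun j => cs (Y j)) + D3 (red H' + ka h2 + frE Z) := by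
    apply toE_inj
    rw [io_mul]
    show X * X = _
    rw [hXX]
    show toE (ka (ten a b)) * toE (ka (ten a b)) + _ = _
    have h7 : Cx.δ Z = toE (D3 (frE Z)) := by
      rw [← toE_D3 hZ.1, toE_frE]
    have h8 : D3 (ka h2 : F3L J D E 2) = ka (D2 h2) := D3_ka h2
    rw [← ka_ten_mul, hval, (ka (J := J)).map_add, e2, D3.map_add, D3.map_add, h8, toE_add, toE_add, toE_add,
      toE_add, toE_add, h7]
    abel
  have hH2 : red H' + ka h2 + frE Z ∈ P3 J D E 2 :=
    (P3 J D E 2).add_mem ((P3 J D E 2).add_mem (red_mem hN hH') (ka_mem hh2)) hZ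
  have hD3 : D3 (red H' + ka h2 + frE Z) = io ((fun j => cupl j u u) - fun j => cs (Y j)) := by
    rw [map_sub, hfin]
    abel
  obtain ⟨v, hv, hdv⟩ := io_inj φ hφ hH2 hD3
  refine ⟨Y, v, hY.1, hY.2.1, fun l => congrFun hYd l, hv.1, hv.2.1, fun l => ?_⟩
  have h8 := congrFun hdv l
  rw [D1_apply] at h8
  have h9 : dl l v = cupl l u u - cs (Y l) := h8
  rw [h9]
  show cupl l u u = cs (Y l) + (cupl l u u - cs (Y l))
  abel

end prod

/-- **the product step** -/
theorem SQ_prod (D E : Type) [Group D] [Group E] [Finite D] [Finite E] (hD : SQ D) (hE : SQ E) : SQ (D × E) := by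
  intro J _ hfree N hN m u hum hui hud
  apply Good.homog hum
  by_cases hJ : Nonempty J
  · obtain ⟨j0⟩ := hJ
    obtain ⟨φ, hφ⟩ := exists_equivariant hfree
    have hu0 : u [] = 0 := by
      by_contra h
      have := hum [] h
      simp at this
    have hu : u ∈ P1 J D E 2 := ⟨hu0, hui, m + 1, fun j hj => by
      by_contra h
      have := hum j h
      omega⟩
    have hF : D3 (io u : F3L J D E 2) = 0 := by
      rw [D3_io, show D1 u = 0 from funext hud, map_zero]
    obtain ⟨f, hf, hfd, H, hH, e⟩ := ka_surj j0 (io_mem hu) hF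
    obtain ⟨s, p, q, a, b, hab, h, hh, e2⟩ := kunneth hf hfd
    have lenz : ∀ {X M : Type} [Zero M] {f : List X → M} {k : ℕ}, (∀ l, f l ≠ 0 → l.length = k) →
        ∀ l : List X, k < l.length → f l = 0 := by
      intro X M _ f k h l hl
      by_contra hn
      have := h l hn
      omega
    have hki : ∀ i, (ka (ten (a i) (b i)) : F3L J D E 2) ∈ P3 J D E 2 := fun i =>
      ka_mem (ten_mem (hab i).1.nil (hab i).2.nil (hab i).1.inv (hab i).2.inv _ _ (lenz (hab i).1.len)
        (lenz (hab i).2.len))
    have hkd : ∀ i, D3 (ka (ten (a i) (b i)) : F3L J D E 2) = 0 := fun i => by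
      rw [D3_ka]
      have : D2 (ten (a i) (b i)) = 0 := by
        funext x y
        rw [D2_ten, (hab i).1.cyc, (hab i).2.cyc]; simp
      rw [this, map_zero]
    have hex := fun i => io_surj φ hφ (hki i) (hkd i)
    choose ui hui' huid Hi hHi ei using hex
    have hsum : D3 ((∑ i, Hi i) + ka h + H) = io (u - ∑ i, ui i) := by
      rw [map_sub, e, e2, map_add, map_add, map_add, map_sum, map_sum, map_sum, D3_ka]
      have : ∑ i, (ka (ten (a i) (b i)) : F3L J D E 2) = ∑ i, (io (ui i) : F3L J D E 2) + ∑ i, D3 (Hi i) := by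
        rw [← Finset.sum_add_distrib]
        exact Finset.sum_congr rfl fun i _ => ei i
      rw [this]
      abel
    have hmem : (∑ i, Hi i) + ka h + H ∈ P3 J D E 2 :=
      (P3 J D E 2).add_mem ((P3 J D E 2).add_mem ((P3 J D E 2).sum_mem fun i _ => hHi i) (ka_mem hh)) hH
    obtain ⟨w, hw, hdw⟩ := io_inj φ hφ hmem hsum
    have hz : ∀ i ∈ Finset.univ, IsZ (D × E) (ui i) := fun i _ =>
      ⟨(hui' i).1, (hui' i).2.1, fun l => congrFun (huid i) l⟩
    have hg : ∀ i ∈ Finset.univ, Good (D × E) N (ui i) := fun i _ =>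
      good_ten hφ hN hD hE (hab i).1 (hab i).2 (hui' i) (hHi i) (ei i)
    obtain ⟨i1, i2⟩ := Good.sum hN Finset.univ ui hz hg
    have hue : u = fun l => (∑ i, ui i l) + dl l w := by
      funext l
      have h3 := congrFun hdw l
      rw [D1_apply] at h3
      have h4 : dl l w = u l - ∑ i, ui i l := by
        rw [h3, Pi.sub_apply, Finset.sum_apply]
      rw [h4]; abel
    rw [hue]
    exact Good.add hN i1 (IsZ.cob hw.2.1) i2 (Good.cob hw.1 hw.2.1)
  · have hl : ∀ l : List J, l = [] := fun l => by
      cases l with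
      | nil => rfl
      | cons x _ => exact absurd ⟨x⟩ hJ
    refine ⟨fun _ => 0, fun _ => 0, rfl, fun _ _ => rfl, fun l => dl_zero l, rfl, fun _ _ => rfl, fun l => ?_⟩
    rw [hl l]; simp

end Crest.Agent.R204.SQP334
end

-- ▼ part R204/SQAll_334
section

/-!
# Row 204, block G, leaf G5: `SQ` for wreath products with `Z/2` and all symmetric groups (helper334;
structure theorem by helper803)
-/

set_option autoImplicit false
set_option linter.unusedSectionVars false

namespace Crest.Agent.R204.SQ334

open SQ803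

theorem SQ_wr334 (D : Type) [Group D] [Finite D] (h : SQ D) :
    SQ (D ≀ᵣ Multiplicative (ZMod 2)) := by
  intro J _ hfree N hN m u hum hu hdu
  obtain ⟨I, W, hW⟩ := SigEx718.exists_sig D J hfree
  rcases isEmpty_or_nonempty J with hJ | ⟨⟨j0⟩⟩
  · have hl : ∀ l : List J, l = [] := fun l => by
      rcases l with _ | ⟨x, l⟩
      · rfl
      · exact (hJ.false x).elim
    refine ⟨fun _ => 0, fun _ => 0, fun l h => absurd rfl h, fun _ _ => rfl, fun l => dl_zero l,
      fun l h => absurd rfl h, rfl, fun _ _ => rfl, fun l => ?_⟩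
    rw [hl l]
    simp
  · have hu' := (hW _ u).1 hu
    have h0 : u [] = 0 := by
      by_contra hc
      have := hum [] hc
      simp at this
    have hFB : (⟨u⟩ : Co J (ZMod 2)) ∈ FB W 2 := ⟨⟨h0, hu'.1⟩, hu'.2⟩
    have key := main_wr j0 W hN (fun p a ha => lift_of_SQ h hN ha) hFB hum hdu
    obtain ⟨Y, v, Y', v', hY', hv', eY, ev, hYm, hdY, hvm, hv0, huu⟩ :=
      key.out (Fq := FB W 2) (FR := FB W (2 ^ N)) (fun f hf => hf.1.1) (fun f hf => hf.1.1) hum
    refine ⟨Y, v, hYm, ?_, hdY, hvm, hv0, ?_, huu⟩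
    · refine (hW _ Y).2 ⟨fun g l => ?_, fun l => ?_⟩
      · rw [eY]
        simp only [List.length_map]
        have := hY'.1.2 g l
        split_ifs
        · exact this
        · rfl
      · rw [eY]
        simp only [List.length_map]
        have := hY'.2 l
        split_ifs
        · exact this
        · rfl
    · refine (hW _ v).2 ⟨fun g l => ?_, fun l => ?_⟩
      · rw [ev]
        simp only [List.length_map]
        have := hv'.1.2 g l
        split_ifs
        · exact this
        · rfl
      · rw [ev]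
        simp only [List.length_map]
        have := hv'.2 l
        split_ifs
        · exact this
        · rfl

/-- **LEMMA SQ** for all symmetric groups -/
theorem sq_perm : ∀ w : ℕ, SQ (Equiv.Perm (Fin w)) :=
  SQG334.SQ_perm SQ_iso SQ_one (fun G H _ _ _ _ hG hH => SQP334.SQ_prod G H hG hH)
    (fun G _ _ h => SQ_wr334 G h)

end Crest.Agent.R204.SQ334
end

-- ▼ part R204/AllF_525

/-!
# Row 204: all the facts of the concrete tower, unconditional (independent assembly, helper525)
-/

set_option autoImplicit false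

namespace Crest.Agent.R204.AllF525

theorem allFacts : Final478.AllFacts :=
  Final114.allFacts_of fun e N =>
    have hP : (Final114.par e N).tower.FactPoly0 (2 * (e + 1) + 4) :=
      LoopZ979.factPoly0 _ (by simp only [Final114.par]; omega) (by simp only [Final114.par]; omega)
    { poly0 := hP
      four := Four947.factFour _ (by simp only [Final114.par]; omega)
        (by simp only [Final114.par]; omega) (by simp only [Final114.par]; omega) hP
        SQ334.sq_perm (by omega) }

end Crest.Agent.R204.AllF525
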