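import Crest.Agent.R204.Defs

/-!
# Row 204, leaf A7 (helper498): homological algebra for `Hd`

* `SES d' d d'' f g` : short exact sequence of differential modules (Prop)
* `delta h : Hd d'' →ₗ[R] Hd d'`, `delta_mk`, `exact_fg`, `exact_gδ`, `exact_δf`, `les`
* `delta_nat` : naturality
* `grHd`, `delta_mem` : degrees
* two out of three for maps of short exact sequences
* chain homotopies, sub/quotient complexes, acyclic sub / quotient
-/

set_option autoImplicit false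

namespace Crest.Agent.R204.HA498

open Function

section LES

variable {R M' M M'' : Type*} [CommRing R] [AddCommGroup M'] [AddCommGroup M]
  [AddCommGroup M''] [Module R M'] [Module R M] [Module R M'']

/-- short exact sequence of differential modules -/
structure SES (d' : M' →ₗ[R] M') (d : M →ₗ[R] M) (d'' : M'' →ₗ[R] M'')
    (f : M' →ₗ[R] M) (g : M →ₗ[R] M'') : Prop where
  sq' : ∀ x, d' (d' x) = 0
  sq : ∀ x, d (d x) = 0
  hf : f ∘ₗ d' = d ∘ₗ f
  hg : g ∘ₗ d = d'' ∘ₗ g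
  inj : Injective f
  ex : Exact f g
  surj : Surjective g

variable {d' : M' →ₗ[R] M'} {d : M →ₗ[R] M} {d'' : M'' →ₗ[R] M''} {f : M' →ₗ[R] M} {g : M →ₗ[R] M''}

namespace SES

theorem f_d (h : SES d' d d'' f g) (x : M') : f (d' x) = d (f x) := LinearMap.congr_fun h.hf x

theorem g_d (h : SES d' d d'' f g) (x : M) : g (d x) = d'' (g x) := LinearMap.congr_fun h.hg x

theorem g_f (h : SES d' d d'' f g) (x : M') : g (f x) = 0 := (h.ex _).2 ⟨x, rfl⟩


/-- every class downstairs has the data that define `δ` -/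
theorem exists_rep (h : SES d' d d'' f g) (u : Hd d'') :
    ∃ (m : M) (y : M') (hm : d'' (g m) = 0) (_ : d' y = 0), f y = d m ∧ u = Hd.mk d'' (g m) hm := by
  obtain ⟨z, hz, rfl⟩ := Hd.mk_surj d'' u
  obtain ⟨m, rfl⟩ := h.surj z
  have : g (d m) = 0 := by rw [h.g_d, hz]
  obtain ⟨y, hy⟩ := (h.ex _).1 this
  refine ⟨m, y, hz, ?_, hy, rfl⟩
  apply h.inj
  rw [h.f_d, hy, h.sq, map_zero]

theorem rep_unique (h : SES d' d d'' f g) {m₁ m₂ : M} {y₁ y₂ : M'} (hm₁ : d'' (g m₁) = 0)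
    (hm₂ : d'' (g m₂) = 0) (hy₁ : d' y₁ = 0) (hy₂ : d' y₂ = 0) (e₁ : f y₁ = d m₁) (e₂ : f y₂ = d m₂)
    (e : Hd.mk d'' (g m₁) hm₁ = Hd.mk d'' (g m₂) hm₂) : Hd.mk d' y₁ hy₁ = Hd.mk d' y₂ hy₂ := by
  rw [Hd.mk_eq_mk] at e ⊢
  obtain ⟨w, hw⟩ := e
  obtain ⟨w, rfl⟩ := h.surj w
  have : g (m₁ - m₂ - d w) = 0 := by rw [map_sub, map_sub, h.g_d, hw, sub_self]
  obtain ⟨v, hv⟩ := (h.ex _).1 this
  refine ⟨v, ?_⟩
  apply h.inj
  rw [h.f_d, hv, map_sub, map_sub, map_sub, h.sq, e₁, e₂, sub_zero]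

end SES

/-- the connecting map -/
noncomputable def delta (h : SES d' d d'' f g) : Hd d'' →ₗ[R] Hd d' where
  toFun u := Hd.mk d' (h.exists_rep u).choose_spec.choose
    (h.exists_rep u).choose_spec.choose_spec.choose_spec.choose
  map_add' u v := by
    obtain ⟨hm₁, hy₁, e₁, q₁⟩ := (h.exists_rep u).choose_spec.choose_spec
    obtain ⟨hm₂, hy₂, e₂, q₂⟩ := (h.exists_rep v).choose_spec.choose_spec
    obtain ⟨hm₃, hy₃, e₃, q₃⟩ := (h.exists_rep (u + v)).choose_spec.choose_spec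
    set m₁ := (h.exists_rep u).choose
    set m₂ := (h.exists_rep v).choose
    set m₃ := (h.exists_rep (u + v)).choose
    set y₁ := (h.exists_rep u).choose_spec.choose
    set y₂ := (h.exists_rep v).choose_spec.choose
    set y₃ := (h.exists_rep (u + v)).choose_spec.choose
    have hm₄ : d'' (g (m₁ + m₂)) = 0 := by rw [map_add, map_add, hm₁, hm₂, add_zero]
    have hy₄ : d' (y₁ + y₂) = 0 := by rw [map_add, hy₁, hy₂, add_zero]
    have e₄ : f (y₁ + y₂) = d (m₁ + m₂) := by rw [map_add, map_add, e₁, e₂]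
    refine (h.rep_unique hm₃ hm₄ hy₃ hy₄ e₃ e₄ ?_).trans ?_
    · rw [← q₃, q₁, q₂]
      rw [Hd.mk, Hd.mk, Hd.mk, ← Submodule.Quotient.mk_add]
      congr 1
      exact Subtype.ext (map_add g m₁ m₂).symm
    · rfl
  map_smul' r u := by
    obtain ⟨hm₁, hy₁, e₁, q₁⟩ := (h.exists_rep u).choose_spec.choose_spec
    obtain ⟨hm₃, hy₃, e₃, q₃⟩ := (h.exists_rep (r • u)).choose_spec.choose_spec
    set m₁ := (h.exists_rep u).choose
    set m₃ := (h.exists_rep (r • u)).choose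
    set y₁ := (h.exists_rep u).choose_spec.choose
    set y₃ := (h.exists_rep (r • u)).choose_spec.choose
    have hm₄ : d'' (g (r • m₁)) = 0 := by rw [map_smul, map_smul, hm₁, smul_zero]
    have hy₄ : d' (r • y₁) = 0 := by rw [map_smul, hy₁, smul_zero]
    have e₄ : f (r • y₁) = d (r • m₁) := by rw [map_smul, map_smul, e₁]
    refine (h.rep_unique hm₃ hm₄ hy₃ hy₄ e₃ e₄ ?_).trans ?_
    · rw [← q₃, q₁]
      rw [Hd.mk, Hd.mk, ← Submodule.Quotient.mk_smul]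
      congr 1
      exact Subtype.ext (map_smul g r m₁).symm
    · rfl

/-- the defining property of the connecting map -/
theorem delta_mk (h : SES d' d d'' f g) (m : M) (y : M') (hm : d'' (g m) = 0) (hy : d' y = 0)
    (e : f y = d m) : delta h (Hd.mk d'' (g m) hm) = Hd.mk d' y hy := by
  obtain ⟨hm₁, hy₁, e₁, q₁⟩ := (h.exists_rep (Hd.mk d'' (g m) hm)).choose_spec.choose_spec
  exact h.rep_unique hm₁ hm hy₁ hy e₁ e q₁.symm

/-- the defining property, with a variable for `g m` -/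
theorem delta_mk' (h : SES d' d d'' f g) (z : M'') (hz : d'' z = 0) (m : M) (y : M') (hy : d' y = 0)
    (e : f y = d m) (e' : g m = z) : delta h (Hd.mk d'' z hz) = Hd.mk d' y hy := by
  subst e'
  exact delta_mk h m y hz hy e

theorem exact_fg (h : SES d' d d'' f g) : Exact (Hd.map f h.hf) (Hd.map g h.hg) := by
  intro u
  constructor
  · intro hu
    obtain ⟨z, hz, rfl⟩ := Hd.mk_surj d u
    rw [Hd.map_mk, Hd.mk_eq_zero] at hu
    obtain ⟨w, hw⟩ := hu
    obtain ⟨w, rfl⟩ := h.surj w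
    have : g (z - d w) = 0 := by rw [map_sub, h.g_d, hw, sub_self]
    obtain ⟨v, hv⟩ := (h.ex _).1 this
    have hv' : d' v = 0 := by
      apply h.inj
      rw [h.f_d, hv, map_sub, hz, h.sq, sub_zero, map_zero]
    refine ⟨Hd.mk d' v hv', ?_⟩
    rw [Hd.map_mk, Hd.mk_eq_mk]
    exact ⟨-w, by rw [hv, map_neg]; abel⟩
  · rintro ⟨v, rfl⟩
    obtain ⟨v, hv, rfl⟩ := Hd.mk_surj d' v
    rw [Hd.map_mk, Hd.map_mk, Hd.mk_eq_zero]
    exact ⟨0, by rw [map_zero, h.g_f]⟩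

theorem exact_gδ (h : SES d' d d'' f g) : Exact (Hd.map g h.hg) (delta h) := by
  intro u
  constructor
  · intro hu
    obtain ⟨m, y, hm, hy, e, rfl⟩ := h.exists_rep u
    rw [delta_mk h m y hm hy e, Hd.mk_eq_zero] at hu
    obtain ⟨w, hw⟩ := hu
    have hm' : d (m - f w) = 0 := by rw [map_sub, ← h.f_d, hw, e, sub_self]
    refine ⟨Hd.mk d (m - f w) hm', ?_⟩
    rw [Hd.map_mk, Hd.mk_eq_mk]
    exact ⟨0, by rw [map_zero, map_sub, h.g_f]; abel⟩
  · rintro ⟨v, rfl⟩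
    obtain ⟨v, hv, rfl⟩ := Hd.mk_surj d v
    rw [Hd.map_mk, delta_mk h v 0 _ (map_zero _) (by rw [map_zero, hv]), Hd.mk_eq_zero]
    exact ⟨0, map_zero _⟩

theorem exact_δf (h : SES d' d d'' f g) : Exact (delta h) (Hd.map f h.hf) := by
  intro u
  constructor
  · intro hu
    obtain ⟨y, hy, rfl⟩ := Hd.mk_surj d' u
    rw [Hd.map_mk, Hd.mk_eq_zero] at hu
    obtain ⟨m, hm⟩ := hu
    have hm' : d'' (g m) = 0 := by rw [← h.g_d, hm, h.g_f]
    exact ⟨Hd.mk d'' (g m) hm', delta_mk h m y hm' hy hm.symm⟩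
  · rintro ⟨v, rfl⟩
    obtain ⟨m, y, hm, hy, e, rfl⟩ := h.exists_rep v
    rw [delta_mk h m y hm hy e, Hd.map_mk, Hd.mk_eq_zero]
    exact ⟨m, e.symm⟩


/-! ### degrees -/

/-- classes represented by cycles in `p` -/
def grHd (d : M →ₗ[R] M) (p : Submodule R M) : Submodule R (Hd d) :=
  (p.comap (LinearMap.ker d).subtype).map (Submodule.mkQ _)

theorem mem_grHd {d : M →ₗ[R] M} {p : Submodule R M} {u : Hd d} :
    u ∈ grHd d p ↔ ∃ z ∈ p, ∃ hz : d z = 0, u = Hd.mk d z hz := by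
  constructor
  · rintro ⟨⟨z, hz⟩, hz', rfl⟩
    exact ⟨z, hz', hz, rfl⟩
  · rintro ⟨z, hz, hz', rfl⟩
    exact ⟨⟨z, hz'⟩, hz, rfl⟩

theorem mk_mem_grHd {d : M →ₗ[R] M} {p : Submodule R M} {z : M} (hz : z ∈ p) (hz' : d z = 0) :
    Hd.mk d z hz' ∈ grHd d p := mem_grHd.2 ⟨z, hz, hz', rfl⟩

theorem H_gr_eq (R : Type) [CommRing R] (K : SS) (n : ℕ) : H.gr R K n = grHd (N.bd R K) (N.gr R K n) := rfl

theorem map_mem_grHd {p : Submodule R M} {p'' : Submodule R M''} (hg : g ∘ₗ d = d'' ∘ₗ g)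
    (h : ∀ x ∈ p, g x ∈ p'') {u : Hd d} (hu : u ∈ grHd d p) : Hd.map g hg u ∈ grHd d'' p'' := by
  obtain ⟨z, hz, hz', rfl⟩ := mem_grHd.1 hu
  rw [Hd.map_mk]
  exact mk_mem_grHd (h z hz) _

/-- `δ` lowers degrees: `p''` lifts to `p`, `d` maps `p` into `q`, `f⁻¹ q ≤ q'`. -/
theorem delta_mem (h : SES d' d d'' f g) {p'' : Submodule R M''} {p q : Submodule R M}
    {q' : Submodule R M'} (hlift : ∀ z ∈ p'', ∃ m ∈ p, g m = z) (hd : ∀ m ∈ p, d m ∈ q)
    (hq : ∀ y, f y ∈ q → y ∈ q') {u : Hd d''} (hu : u ∈ grHd d'' p'') : delta h u ∈ grHd d' q' := by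
  obtain ⟨z, hz, hz', rfl⟩ := mem_grHd.1 hu
  obtain ⟨m, hm, rfl⟩ := hlift z hz
  have : g (d m) = 0 := by rw [h.g_d, hz']
  obtain ⟨y, hy⟩ := (h.ex _).1 this
  have hy' : d' y = 0 := by
    apply h.inj
    rw [h.f_d, hy, h.sq, map_zero]
  rw [delta_mk h m y hz' hy' hy]
  exact mk_mem_grHd (hq y (by rw [hy]; exact hd m hm)) _

end LES

/-! ### naturality -/

section Nat

variable {R M' M M'' N' N N'' : Type*} [CommRing R] [AddCommGroup M'] [AddCommGroup M]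
  [AddCommGroup M''] [Module R M'] [Module R M] [Module R M''] [AddCommGroup N'] [AddCommGroup N]
  [AddCommGroup N''] [Module R N'] [Module R N] [Module R N'']
  {d' : M' →ₗ[R] M'} {d : M →ₗ[R] M} {d'' : M'' →ₗ[R] M''} {f : M' →ₗ[R] M} {g : M →ₗ[R] M''}
  {e' : N' →ₗ[R] N'} {e : N →ₗ[R] N} {e'' : N'' →ₗ[R] N''} {k : N' →ₗ[R] N} {l : N →ₗ[R] N''}
  {a' : M' →ₗ[R] N'} {a : M →ₗ[R] N} {a'' : M'' →ₗ[R] N''}


variable (h : SES d' d d'' f g) (h₂ : SES e' e e'' k l)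
    (ha' : a' ∘ₗ d' = e' ∘ₗ a') (ha : a ∘ₗ d = e ∘ₗ a) (ha'' : a'' ∘ₗ d'' = e'' ∘ₗ a'')
    (c₁ : ∀ x, k (a' x) = a (f x)) (c₂ : ∀ x, l (a x) = a'' (g x))











end Nat

/-! ### consequences of acyclicity -/

section Acyclic

variable {R M' M M'' : Type*} [CommRing R] [AddCommGroup M'] [AddCommGroup M]
  [AddCommGroup M''] [Module R M'] [Module R M] [Module R M'']
  {d' : M' →ₗ[R] M'} {d : M →ₗ[R] M} {d'' : M'' →ₗ[R] M''} {f : M' →ₗ[R] M} {g : M →ₗ[R] M''}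









end Acyclic

/-! ### sub and quotient complexes -/

section Sub

variable {R M : Type*} [CommRing R] [AddCommGroup M] [Module R M] {d : M →ₗ[R] M}



end Sub

/-! ### homotopies -/

section Homotopy

variable {R M N L : Type*} [CommRing R] [AddCommGroup M] [Module R M] [AddCommGroup N] [Module R N]
  [AddCommGroup L] [Module R L] {d : M →ₗ[R] M} {e : N →ₗ[R] N}







end Homotopy

end Crest.Agent.R204.HA498
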