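import Crest.Agent.R204.Defs

-- ▼ part R204/Bis_343
section

/-!
# Row 204, block B (section 02): bisimplicial sets and their normalised total complex over `F2`
(helper343)
-/

set_option autoImplicit false

namespace Crest.Agent.R204.Bis343

open Finsupp

/-! ## the Moore projection of the chains of a simplicial set -/

/-- underlying function of `tau` -/
def tauFun {n : ℕ} (j : ℕ) (hj : j < n) (a : Fin (n + 1)) : Fin (n + 1) :=
  ⟨if (a : ℕ) = j + 1 then j else a, by split_ifs <;> omega⟩

/-- the idempotent endomorphism of `[n]` sending `j+1` to `j` and fixing everything else -/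
def tau {n : ℕ} (j : ℕ) (hj : j < n) : Op n n where
  toFun := tauFun j hj
  monotone' a b h := by
    have h' : (a : ℕ) ≤ b := h
    rw [Fin.le_def]
    simp only [tauFun]
    split_ifs <;> omega

theorem tau_val {n : ℕ} (j : ℕ) (hj : j < n) (a : Fin (n + 1)) :
    ((tau j hj a : Fin (n + 1)) : ℕ) = if (a : ℕ) = j + 1 then j else a := rfl

theorem tau_eq {n : ℕ} (j : Fin (n + 1)) :
    (tau (n := n + 1) (j : ℕ) (by omega)) = (Op.face j.succ).comp (Op.dgn j) := by
  ext a
  simp only [OrderHom.comp_coe, Function.comp_apply, tau_val, Ch.face_val, Ch.dgn_val,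
    Fin.val_succ]
  split_ifs <;> omega


theorem tau_braid {n : ℕ} (i j : ℕ) (hij : i < j) (hj : j < n) :
    (tau i (hij.trans hj)).comp ((tau j hj).comp (tau i (hij.trans hj))) =
      (tau i (hij.trans hj)).comp (tau j hj) := by
  ext a
  simp only [OrderHom.comp_coe, Function.comp_apply, tau_val]
  split_ifs <;> omega

/-- action on the free module on the `n`-simplices -/
noncomputable def actL (K : SS) {m n : ℕ} (f : Op m n) : (K.S n →₀ F2) →ₗ[F2] (K.S m →₀ F2) :=
  Finsupp.lmapDomain F2 F2 (K.act f)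

variable {K : SS}

theorem actL_single {m n : ℕ} (f : Op m n) (x : K.S n) (r : F2) :
    actL K f (single x r) = single (K.act f x) r := by
  simp [actL, Finsupp.lmapDomain_apply, Finsupp.mapDomain_single]

theorem actL_comp {l m n : ℕ} (f : Op l m) (g : Op m n) (x : K.S n →₀ F2) :
    actL K (g.comp f) x = actL K f (actL K g x) := by
  induction x using Finsupp.induction_linear with
  | zero => simp
  | add a b ha hb => rw [map_add, map_add, map_add, ha, hb]
  | single t r => rw [actL_single, actL_single, actL_single, K.act_comp]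

theorem f2_add_self {M : Type*} [AddCommGroup M] [Module F2 M] (x : M) : x + x = 0 := by
  have : (2 : F2) • x = 0 := by
    have h2 : (2 : F2) = 0 := rfl
    rw [h2, zero_smul]
  rwa [two_smul] at this

/-- the operator `1 + tau_j^*` (identity if `n ≤ j`) -/
noncomputable def opA (K : SS) (n j : ℕ) : (K.S n →₀ F2) →ₗ[F2] (K.S n →₀ F2) :=
  if h : j < n then LinearMap.id + actL K (tau j h) else LinearMap.id

theorem opA_lt {n j : ℕ} (h : j < n) (x : K.S n →₀ F2) : opA K n j x = x + actL K (tau j h) x := by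
  simp [opA, h]

/-- `A_0 A_1 ⋯ A_{k-1}` -/
noncomputable def opP (K : SS) (n : ℕ) : ℕ → ((K.S n →₀ F2) →ₗ[F2] (K.S n →₀ F2))
  | 0 => LinearMap.id
  | k + 1 => (opP K n k) ∘ₗ opA K n k

theorem opP_fixed {n i : ℕ} (hi : i < n) (k : ℕ) (hk : i < k) (hkn : k ≤ n) (x : K.S n →₀ F2)
    (hx : actL K (tau i hi) x = x) : opP K n k x = 0 := by
  induction k generalizing x with
  | zero => omega
  | succ k ih =>
    show opP K n k (opA K n k x) = 0
    rw [opA_lt (by omega : k < n)]
    rcases Nat.lt_succ_iff_lt_or_eq.1 hk with h | rfl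
    · apply ih h (by omega)
      rw [map_add, hx]
      congr 1
      conv_lhs => rw [← hx]
      conv_rhs => rw [← hx]
      rw [← actL_comp, ← actL_comp, ← actL_comp, ← tau_braid i k h (by omega)]
    · rw [hx, f2_add_self, map_zero]

/-- the Moore projection on `n`-chains -/
noncomputable def moore (K : SS) (n : ℕ) : (K.S n →₀ F2) →ₗ[F2] (K.S n →₀ F2) := opP K n n

theorem moore_dgn {n : ℕ} (j : Fin (n + 1)) (y : K.S n →₀ F2) :
    moore K (n + 1) (actL K (Op.dgn j) y) = 0 := by
  refine opP_fixed (i := j) (by omega) (n + 1) (by omega) le_rfl _ ?_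
  rw [tau_eq, actL_comp, ← actL_comp (Op.face j.succ), Ch.face_dgn_eq _ _ (Or.inr rfl)]
  congr 1
  induction y using Finsupp.induction_linear with
  | zero => simp
  | add a b ha hb => rw [map_add, ha, hb]
  | single t r => rw [actL_single, K.act_id]

/-- the submodule spanned by the degenerate `n`-simplices -/
noncomputable def DgN (K : SS) (n : ℕ) : Submodule F2 (K.S n →₀ F2) :=
  Submodule.span F2 {c | ∃ x : K.S n, Ch.IsDgn K ⟨n, x⟩ ∧ c = single x 1}

theorem actL_tau_mem {n j : ℕ} (h : j < n) (x : K.S n →₀ F2) : actL K (tau j h) x ∈ DgN K n := by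
  obtain ⟨m, rfl⟩ : ∃ m, n = m + 1 := ⟨n - 1, by omega⟩
  induction x using Finsupp.induction_linear with
  | zero => simp
  | add a b ha hb => rw [map_add]; exact Submodule.add_mem _ ha hb
  | single t r =>
    rw [actL_single]
    have e : tau j h = (Op.face (⟨j, h⟩ : Fin (m + 1)).succ).comp (Op.dgn (⟨j, h⟩ : Fin (m + 1))) :=
      tau_eq (⟨j, h⟩ : Fin (m + 1))
    rw [e, K.act_comp]
    have : (single (K.act (Op.dgn (⟨j, h⟩ : Fin (m + 1)))
        (K.act (Op.face (⟨j, h⟩ : Fin (m + 1)).succ) t)) r : K.S (m + 1) →₀ F2) =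
        r • single (K.act (Op.dgn (⟨j, h⟩ : Fin (m + 1)))
        (K.act (Op.face (⟨j, h⟩ : Fin (m + 1)).succ) t)) 1 := by simp
    rw [this]
    exact Submodule.smul_mem _ _ (Submodule.subset_span ⟨_, Ch.isDgn_act _ _ _, rfl⟩)

theorem opP_sub_mem {n : ℕ} (k : ℕ) (hk : k ≤ n) (x : K.S n →₀ F2) : x - opP K n k x ∈ DgN K n := by
  induction k generalizing x with
  | zero => simp [opP]
  | succ k ih =>
    have h1 := ih (by omega) (opA K n k x)
    have h2 : x - opP K n (k + 1) x = (opA K n k x - opP K n k (opA K n k x)) -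
        actL K (tau k (by omega)) x := by
      show x - opP K n k (opA K n k x) = _
      rw [opA_lt (by omega : k < n)]; abel
    rw [h2]
    exact Submodule.sub_mem _ h1 (actL_tau_mem _ _)

theorem moore_sub_mem {n : ℕ} (x : K.S n →₀ F2) : x - moore K n x ∈ DgN K n := opP_sub_mem n le_rfl x

theorem moore_eq_zero_of_mem {n : ℕ} {x : K.S n →₀ F2} (hx : x ∈ DgN K n) : moore K n x = 0 := by
  refine Submodule.span_induction (p := fun c _ => moore K n c = 0) ?_ ?_ ?_ ?_ hx
  · rintro _ ⟨x, hx, rfl⟩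
    rcases n with _ | n
    · exact hx.elim
    · obtain ⟨j, y, rfl⟩ := hx
      have := moore_dgn (K := K) j (single y 1)
      rwa [actL_single] at this
  · simp
  · intro a b _ _ ha hb; rw [map_add, ha, hb, add_zero]
  · intro r a _ ha; rw [map_smul, ha, smul_zero]

/-- naturality of the Moore projection -/
theorem moore_nat {K L : SS} {n : ℕ} (φ : (K.S n →₀ F2) →ₗ[F2] (L.S n →₀ F2))
    (h : ∀ (f : Op n n) (x : K.S n →₀ F2), φ (actL K f x) = actL L f (φ x)) (x : K.S n →₀ F2) :
    φ (moore K n x) = moore L n (φ x) := by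
  unfold moore
  suffices H : ∀ k ≤ n, ∀ x, φ (opP K n k x) = opP L n k (φ x) from H n le_rfl x
  intro k
  induction k with
  | zero => intro _ x; rfl
  | succ k ih =>
    intro hk x
    show φ (opP K n k (opA K n k x)) = opP L n k (opA L n k (φ x))
    rw [ih (by omega), opA_lt (by omega : k < n), opA_lt (by omega : k < n), map_add, h]

/-! ## bisimplicial sets -/

/-- lightweight bisimplicial sets; first index horizontal, second index vertical -/
structure BSS where
  S : ℕ → ℕ → Type
  hact : ∀ {m n q : ℕ}, Op m n → S n q → S m q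
  vact : ∀ {m n p : ℕ}, Op m n → S p n → S p m
  hact_id : ∀ {n q : ℕ} (x : S n q), hact (OrderHom.id) x = x
  hact_comp : ∀ {l m n q : ℕ} (f : Op l m) (g : Op m n) (x : S n q),
    hact (g.comp f) x = hact f (hact g x)
  vact_id : ∀ {p n : ℕ} (x : S p n), vact (OrderHom.id) x = x
  vact_comp : ∀ {l m n p : ℕ} (f : Op l m) (g : Op m n) (x : S p n),
    vact (g.comp f) x = vact f (vact g x)
  comm : ∀ {m n m' n' : ℕ} (f : Op m n) (g : Op m' n') (x : S n n'),
    hact f (vact g x) = vact g (hact f x)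

namespace BSS

/-- the row `E_{•,q}` -/
abbrev row (E : BSS) (q : ℕ) : SS where
  S p := E.S p q
  act f x := E.hact f x
  act_id := E.hact_id
  act_comp := E.hact_comp

/-- the column `E_{p,•}` -/
abbrev col (E : BSS) (p : ℕ) : SS where
  S q := E.S p q
  act f x := E.vact f x
  act_id := E.vact_id
  act_comp := E.vact_comp

/-- the horizontal operators are maps of columns -/
def colMap (E : BSS) {m n : ℕ} (f : Op m n) : SS.Hom (E.col n) (E.col m) :=
  ⟨fun _ x => E.hact f x, fun g x => E.comm f g x⟩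

/-- the vertical operators are maps of rows -/
def rowMap (E : BSS) {m n : ℕ} (f : Op m n) : SS.Hom (E.row n) (E.row m) :=
  ⟨fun _ x => E.vact f x, fun g x => (E.comm g f x).symm⟩

/-- all bisimplices -/
abbrev TT (E : BSS) : Type := Σ p : ℕ, Σ q : ℕ, E.S p q

/-- unnormalised total chains -/
abbrev Bt (E : BSS) : Type := E.TT →₀ F2

/-- inclusion of the chains of a row -/
noncomputable def inH (E : BSS) (q : ℕ) : Ch F2 (E.row q) →ₗ[F2] E.Bt :=
  Finsupp.lmapDomain F2 F2 (fun t : (E.row q).T => (⟨t.1, q, t.2⟩ : E.TT))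

/-- inclusion of the chains of a column -/
noncomputable def inV (E : BSS) (p : ℕ) : Ch F2 (E.col p) →ₗ[F2] E.Bt :=
  Finsupp.lmapDomain F2 F2 (fun t : (E.col p).T => (⟨p, t.1, t.2⟩ : E.TT))

variable (E : BSS)

@[simp] theorem inH_single (q p : ℕ) (x : E.S p q) (r : F2) :
    E.inH q (single (⟨p, x⟩ : (E.row q).T) r) = single (⟨p, q, x⟩ : E.TT) r := by
  simp [inH, Finsupp.lmapDomain_apply, Finsupp.mapDomain_single]

@[simp] theorem inV_single (p q : ℕ) (x : E.S p q) (r : F2) :
    E.inV p (single (⟨q, x⟩ : (E.col p).T) r) = single (⟨p, q, x⟩ : E.TT) r := by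
  simp [inV, Finsupp.lmapDomain_apply, Finsupp.mapDomain_single]

/-- horizontal differential -/
noncomputable def dh : E.Bt →ₗ[F2] E.Bt :=
  Finsupp.linearCombination F2 (fun t : E.TT =>
    E.inH t.2.1 (Ch.bd F2 (E.row t.2.1) (single (⟨t.1, t.2.2⟩ : (E.row t.2.1).T) 1)))

/-- vertical differential -/
noncomputable def dv : E.Bt →ₗ[F2] E.Bt :=
  Finsupp.linearCombination F2 (fun t : E.TT =>
    E.inV t.1 (Ch.bd F2 (E.col t.1) (single (⟨t.2.1, t.2.2⟩ : (E.col t.1).T) 1)))

theorem dh_inH (q : ℕ) (c : Ch F2 (E.row q)) : E.dh (E.inH q c) = E.inH q (Ch.bd F2 (E.row q) c) := by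
  induction c using Finsupp.induction_linear with
  | zero => simp
  | add a b ha hb => simp only [map_add, ha, hb]
  | single t r =>
    obtain ⟨p, x⟩ := t
    rw [inH_single]
    simp only [dh, Finsupp.linearCombination_single]
    rw [← map_smul, ← map_smul, Finsupp.smul_single, smul_eq_mul, mul_one]

theorem dv_inV (p : ℕ) (c : Ch F2 (E.col p)) : E.dv (E.inV p c) = E.inV p (Ch.bd F2 (E.col p) c) := by
  induction c using Finsupp.induction_linear with
  | zero => simp
  | add a b ha hb => simp only [map_add, ha, hb]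
  | single t r =>
    obtain ⟨q, x⟩ := t
    rw [inV_single]
    simp only [dv, Finsupp.linearCombination_single]
    rw [← map_smul, ← map_smul, Finsupp.smul_single, smul_eq_mul, mul_one]

theorem dh_zero (q : ℕ) (x : E.S 0 q) (r : F2) : E.dh (single ⟨0, q, x⟩ r) = 0 := by
  rw [← inH_single, dh_inH, Ch.bd_single_zero, map_zero]

theorem dh_succ (p q : ℕ) (x : E.S (p + 1) q) (r : F2) : E.dh (single ⟨p + 1, q, x⟩ r) =
    ∑ i : Fin (p + 2), single ⟨p, q, E.hact (Op.face i) x⟩ r := by
  rw [← inH_single, dh_inH, Ch.bd_single_succ, map_sum]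
  refine Finset.sum_congr rfl fun i _ => ?_
  rw [inH_single]
  congr 1
  have : (-1 : F2) = 1 := rfl
  rw [this, one_pow, mul_one]

theorem dv_zero (p : ℕ) (x : E.S p 0) (r : F2) : E.dv (single ⟨p, 0, x⟩ r) = 0 := by
  rw [← inV_single, dv_inV, Ch.bd_single_zero, map_zero]

theorem dv_succ (p q : ℕ) (x : E.S p (q + 1)) (r : F2) : E.dv (single ⟨p, q + 1, x⟩ r) =
    ∑ i : Fin (q + 2), single ⟨p, q, E.vact (Op.face i) x⟩ r := by
  rw [← inV_single, dv_inV, Ch.bd_single_succ, map_sum]
  refine Finset.sum_congr rfl fun i _ => ?_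
  rw [inV_single]
  congr 1
  have : (-1 : F2) = 1 := rfl
  rw [this, one_pow, mul_one]

theorem induction_H {P : E.Bt → Prop} (c : E.Bt) (h0 : P 0) (ha : ∀ a b, P a → P b → P (a + b))
    (h : ∀ p q (x : E.S p q) (r : F2), P (single ⟨p, q, x⟩ r)) : P c := by
  induction c using Finsupp.induction_linear with
  | zero => exact h0
  | add a b h1 h2 => exact ha _ _ h1 h2
  | single t r => exact h t.1 t.2.1 t.2.2 r

theorem dh_dh (c : E.Bt) : E.dh (E.dh c) = 0 := by
  induction c using induction_H with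
  | h0 => simp
  | ha a b ha hb => rw [map_add, map_add, ha, hb, add_zero]
  | h p q x r => rw [← inH_single, dh_inH, dh_inH, Ch.bd_bd, map_zero]

theorem dv_dv (c : E.Bt) : E.dv (E.dv c) = 0 := by
  induction c using induction_H with
  | h0 => simp
  | ha a b ha hb => rw [map_add, map_add, ha, hb, add_zero]
  | h p q x r => rw [← inV_single, dv_inV, dv_inV, Ch.bd_bd, map_zero]

theorem dh_dv (c : E.Bt) : E.dh (E.dv c) = E.dv (E.dh c) := by
  induction c using induction_H with
  | h0 => simp
  | ha a b ha hb => simp only [map_add, ha, hb]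
  | h p q x r =>
    rcases q with _ | q
    · rw [dv_zero, map_zero]
      rcases p with _ | p
      · rw [dh_zero, map_zero]
      · rw [dh_succ, map_sum]
        exact (Finset.sum_eq_zero fun i _ => dv_zero _ _ _ _).symm
    · rcases p with _ | p
      · rw [dh_zero, map_zero, dv_succ, map_sum]
        exact Finset.sum_eq_zero fun i _ => dh_zero _ _ _ _
      · rw [dh_succ, dv_succ, map_sum, map_sum]
        simp only [dh_succ, dv_succ]
        rw [Finset.sum_comm]
        refine Finset.sum_congr rfl fun i _ => Finset.sum_congr rfl fun j _ => ?_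
        rw [E.comm]

/-- span of the (horizontally or vertically) degenerate bisimplices -/
noncomputable def Dg : Submodule F2 E.Bt :=
  Submodule.span F2 {c | ∃ (p q : ℕ) (x : E.S p q),
    (Ch.IsDgn (E.row q) ⟨p, x⟩ ∨ Ch.IsDgn (E.col p) ⟨q, x⟩) ∧ c = single ⟨p, q, x⟩ 1}

theorem inH_mem (q : ℕ) {c : Ch F2 (E.row q)} (hc : c ∈ Ch.Dg F2 (E.row q)) : E.inH q c ∈ E.Dg := by
  refine Submodule.span_induction (p := fun c _ => E.inH q c ∈ E.Dg) ?_ ?_ ?_ ?_ hc
  · rintro _ ⟨⟨p, x⟩, hx, rfl⟩
    rw [inH_single]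
    exact Submodule.subset_span ⟨p, q, x, Or.inl hx, rfl⟩
  · simp
  · intro a b _ _ ha hb; rw [map_add]; exact Submodule.add_mem _ ha hb
  · intro r a _ ha; rw [map_smul]; exact Submodule.smul_mem _ _ ha

theorem inV_mem (p : ℕ) {c : Ch F2 (E.col p)} (hc : c ∈ Ch.Dg F2 (E.col p)) : E.inV p c ∈ E.Dg := by
  refine Submodule.span_induction (p := fun c _ => E.inV p c ∈ E.Dg) ?_ ?_ ?_ ?_ hc
  · rintro _ ⟨⟨q, x⟩, hx, rfl⟩
    rw [inV_single]
    exact Submodule.subset_span ⟨p, q, x, Or.inr hx, rfl⟩
  · simp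
  · intro a b _ _ ha hb; rw [map_add]; exact Submodule.add_mem _ ha hb
  · intro r a _ ha; rw [map_smul]; exact Submodule.smul_mem _ _ ha

theorem single_mem_Dg_h {p q : ℕ} {x : E.S p q} (h : Ch.IsDgn (E.row q) ⟨p, x⟩) (r : F2) :
    (single ⟨p, q, x⟩ r : E.Bt) ∈ E.Dg := by
  have : (single ⟨p, q, x⟩ r : E.Bt) = r • single ⟨p, q, x⟩ 1 := by simp
  rw [this]
  exact Submodule.smul_mem _ _ (Submodule.subset_span ⟨p, q, x, Or.inl h, rfl⟩)

theorem single_mem_Dg_v {p q : ℕ} {x : E.S p q} (h : Ch.IsDgn (E.col p) ⟨q, x⟩) (r : F2) :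
    (single ⟨p, q, x⟩ r : E.Bt) ∈ E.Dg := by
  have : (single ⟨p, q, x⟩ r : E.Bt) = r • single ⟨p, q, x⟩ 1 := by simp
  rw [this]
  exact Submodule.smul_mem _ _ (Submodule.subset_span ⟨p, q, x, Or.inr h, rfl⟩)

theorem isDgn_map {K L : SS} (f : SS.Hom K L) {n : ℕ} {x : K.S n} (h : Ch.IsDgn K ⟨n, x⟩) :
    Ch.IsDgn L ⟨n, f.app n x⟩ := by
  rcases n with _ | n
  · exact h.elim
  · obtain ⟨j, y, rfl⟩ := h
    exact ⟨j, f.app n y, f.nat _ _⟩

theorem dh_mem {c : E.Bt} (hc : c ∈ E.Dg) : E.dh c ∈ E.Dg := by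
  refine Submodule.span_induction (p := fun c _ => E.dh c ∈ E.Dg) ?_ ?_ ?_ ?_ hc
  · rintro _ ⟨p, q, x, hx | hx, rfl⟩
    · rw [← inH_single, dh_inH]
      exact E.inH_mem q (Ch.bd_mem_Dg (Submodule.subset_span ⟨_, hx, rfl⟩))
    · rcases p with _ | p
      · rw [dh_zero]; exact Submodule.zero_mem _
      · rw [dh_succ]
        refine Submodule.sum_mem _ fun i _ => E.single_mem_Dg_v ?_ _
        exact isDgn_map (E.colMap (Op.face i)) hx
  · simp
  · intro a b _ _ ha hb; rw [map_add]; exact Submodule.add_mem _ ha hb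
  · intro r a _ ha; rw [map_smul]; exact Submodule.smul_mem _ _ ha

theorem dv_mem {c : E.Bt} (hc : c ∈ E.Dg) : E.dv c ∈ E.Dg := by
  refine Submodule.span_induction (p := fun c _ => E.dv c ∈ E.Dg) ?_ ?_ ?_ ?_ hc
  · rintro _ ⟨p, q, x, hx | hx, rfl⟩
    · rcases q with _ | q
      · rw [dv_zero]; exact Submodule.zero_mem _
      · rw [dv_succ]
        refine Submodule.sum_mem _ fun i _ => E.single_mem_Dg_h ?_ _
        exact isDgn_map (E.rowMap (Op.face i)) hx
    · rw [← inV_single, dv_inV]
      exact E.inV_mem p (Ch.bd_mem_Dg (Submodule.subset_span ⟨_, hx, rfl⟩))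
  · simp
  · intro a b _ _ ha hb; rw [map_add]; exact Submodule.add_mem _ ha hb
  · intro r a _ ha; rw [map_smul]; exact Submodule.smul_mem _ _ ha

/-- the normalised total complex -/
abbrev Tot : Type := E.Bt ⧸ E.Dg

namespace Tot

variable {E}

/-- class of a bisimplex -/
noncomputable def bx {p q : ℕ} (x : E.S p q) : E.Tot := Submodule.Quotient.mk (single ⟨p, q, x⟩ 1)

variable (E)

/-- horizontal differential -/
noncomputable def dH : E.Tot →ₗ[F2] E.Tot := Submodule.mapQ _ _ E.dh (fun _ hc => E.dh_mem hc)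

/-- vertical differential -/
noncomputable def dV : E.Tot →ₗ[F2] E.Tot := Submodule.mapQ _ _ E.dv (fun _ hc => E.dv_mem hc)

/-- total differential -/
noncomputable def D : E.Tot →ₗ[F2] E.Tot := dH E + dV E

variable {E}

theorem dH_mk (c : E.Bt) : dH E (Submodule.Quotient.mk c) = Submodule.Quotient.mk (E.dh c) := rfl
theorem dV_mk (c : E.Bt) : dV E (Submodule.Quotient.mk c) = Submodule.Quotient.mk (E.dv c) := rfl
theorem D_apply (c : E.Tot) : D E c = dH E c + dV E c := rfl

theorem dH_dH (c : E.Tot) : dH E (dH E c) = 0 := by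
  obtain ⟨c, rfl⟩ := Submodule.Quotient.mk_surjective _ c
  rw [dH_mk, dH_mk, E.dh_dh]; rfl

theorem dV_dV (c : E.Tot) : dV E (dV E c) = 0 := by
  obtain ⟨c, rfl⟩ := Submodule.Quotient.mk_surjective _ c
  rw [dV_mk, dV_mk, E.dv_dv]; rfl

theorem dH_dV (c : E.Tot) : dH E (dV E c) = dV E (dH E c) := by
  obtain ⟨c, rfl⟩ := Submodule.Quotient.mk_surjective _ c
  rw [dH_mk, dV_mk, dH_mk, dV_mk, E.dh_dv]

theorem D_D (c : E.Tot) : D E (D E c) = 0 := by
  rw [D_apply, D_apply, map_add, map_add, dH_dH, dV_dV, dH_dV, zero_add, add_zero, f2_add_self]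

/-- the normalised chains of a row -/
noncomputable def ofRow (E : BSS) (q : ℕ) : N F2 (E.row q) →ₗ[F2] E.Tot :=
  Submodule.mapQ _ _ (E.inH q) (fun _ hc => E.inH_mem q hc)

/-- the normalised chains of a column -/
noncomputable def ofCol (E : BSS) (p : ℕ) : N F2 (E.col p) →ₗ[F2] E.Tot :=
  Submodule.mapQ _ _ (E.inV p) (fun _ hc => E.inV_mem p hc)

@[simp] theorem ofRow_sx (q p : ℕ) (x : E.S p q) : ofRow E q (N.sx F2 (K := E.row q) (n := p) x) = bx x := by
  show Submodule.Quotient.mk (E.inH q _) = _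
  rw [inH_single]; rfl

@[simp] theorem ofCol_sx (p q : ℕ) (x : E.S p q) : ofCol E p (N.sx F2 (K := E.col p) (n := q) x) = bx x := by
  show Submodule.Quotient.mk (E.inV p _) = _
  rw [inV_single]; rfl


theorem dV_ofCol (p : ℕ) (c : N F2 (E.col p)) : dV E (ofCol E p c) = ofCol E p (N.bd F2 _ c) := by
  obtain ⟨c, rfl⟩ := Submodule.Quotient.mk_surjective _ c
  show Submodule.Quotient.mk (E.dv (E.inV p c)) = Submodule.Quotient.mk (E.inV p (Ch.bd F2 _ c))
  rw [dv_inV]

/-- the horizontal differential on a column: sum of the horizontal faces -/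
theorem dH_ofCol_zero (c : N F2 (E.col 0)) : dH E (ofCol E 0 c) = 0 := by
  obtain ⟨c, rfl⟩ := Submodule.Quotient.mk_surjective _ c
  induction c using Finsupp.induction_linear with
  | zero => simp
  | add a b ha hb => rw [Submodule.Quotient.mk_add, map_add, map_add, ha, hb, add_zero]
  | single t r =>
    show Submodule.Quotient.mk (E.dh (E.inV 0 (single ⟨t.1, t.2⟩ r))) = (0 : E.Tot)
    rw [inV_single, dh_zero]; rfl

theorem dH_ofCol_succ (p : ℕ) (c : N F2 (E.col (p + 1))) :
    dH E (ofCol E (p + 1) c) = ∑ i : Fin (p + 2), ofCol E p (N.map F2 (E.colMap (Op.face i)) c) := by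
  obtain ⟨c, rfl⟩ := Submodule.Quotient.mk_surjective _ c
  induction c using Finsupp.induction_linear with
  | zero => simp
  | add a b ha hb =>
    rw [Submodule.Quotient.mk_add, map_add, map_add, ha, hb, ← Finset.sum_add_distrib]
    simp only [map_add]
  | single t r =>
    obtain ⟨q, x⟩ := t
    show Submodule.Quotient.mk (E.dh (E.inV (p + 1) (single ⟨q, x⟩ r))) = _
    rw [inV_single, dh_succ, ← Submodule.mkQ_apply, map_sum]
    refine Finset.sum_congr rfl fun i _ => ?_
    show _ = Submodule.Quotient.mk (E.inV p (Ch.map F2 (E.colMap (Op.face i)) (single ⟨q, x⟩ r)))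
    rw [Ch.map_single, inV_single]
    rfl

end Tot

end BSS

end Crest.Agent.R204.Bis343
private theorem rz_23b883671b : type_of% @_root_.Crest.Agent.R204.Bis343.opP.eq_def := @_root_.Crest.Agent.R204.Bis343.opP.eq_def -- L82
private theorem rz_b0baa19de0 : type_of% @_root_.Crest.Agent.R204.Bis343.opP.eq_1 := @_root_.Crest.Agent.R204.Bis343.opP.eq_1 -- L82
end

-- ▼ part R204/Bis2_343

/-!
# Row 204, block B: the Cech nerve of a surjective simplicial map and its augmentation
(helper343).  Main result `Cech.acyclic` / `Cech.aug_surj` / `Cech.aug_D`: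
`aug : Tot (cech f) → N F2 B` is a surjective quasi-isomorphism when every `f.app q` is onto.
-/

set_option autoImplicit false

namespace Crest.Agent.R204.Bis343

open Finsupp

/-! ## Moore projection on the total chains -/

/-- inclusion of `n`-chains -/
noncomputable def incN (K : SS) (n : ℕ) : (K.S n →₀ F2) →ₗ[F2] Ch F2 K :=
  Finsupp.lmapDomain F2 F2 (fun x => (⟨n, x⟩ : K.T))

theorem incN_single {K : SS} (n : ℕ) (x : K.S n) (r : F2) : incN K n (single x r) = single ⟨n, x⟩ r := by
  simp [incN, Finsupp.lmapDomain_apply, Finsupp.mapDomain_single]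

/-- the Moore projection on total chains -/
noncomputable def mooreT (K : SS) : Ch F2 K →ₗ[F2] Ch F2 K :=
  Finsupp.linearCombination F2 (fun t : K.T => incN K t.1 (moore K t.1 (single t.2 1)))

theorem mooreT_incN {K : SS} (n : ℕ) (c : K.S n →₀ F2) : mooreT K (incN K n c) = incN K n (moore K n c) := by
  induction c using Finsupp.induction_linear with
  | zero => simp
  | add a b ha hb => simp only [map_add, ha, hb]
  | single t r =>
    rw [incN_single, mooreT, Finsupp.linearCombination_single]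
    simp only []
    rw [← map_smul, ← map_smul, Finsupp.smul_single, smul_eq_mul, mul_one]

theorem mooreT_single {K : SS} (n : ℕ) (x : K.S n) (r : F2) :
    mooreT K (single ⟨n, x⟩ r) = incN K n (moore K n (single x r)) := by
  rw [← incN_single, mooreT_incN]

theorem incN_mem {K : SS} (n : ℕ) {c : K.S n →₀ F2} (hc : c ∈ DgN K n) : incN K n c ∈ Ch.Dg F2 K := by
  refine Submodule.span_induction (p := fun c _ => incN K n c ∈ Ch.Dg F2 K) ?_ ?_ ?_ ?_ hc
  · rintro _ ⟨x, hx, rfl⟩
    rw [incN_single]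
    exact Submodule.subset_span ⟨_, hx, rfl⟩
  · simp
  · intro a b _ _ ha hb; rw [map_add]; exact Submodule.add_mem _ ha hb
  · intro r a _ ha; rw [map_smul]; exact Submodule.smul_mem _ _ ha

theorem sub_mooreT_mem {K : SS} (c : Ch F2 K) : c - mooreT K c ∈ Ch.Dg F2 K := by
  induction c using Finsupp.induction_linear with
  | zero => simp
  | add a b ha hb =>
    have : a + b - mooreT K (a + b) = (a - mooreT K a) + (b - mooreT K b) := by rw [map_add]; abel
    rw [this]; exact Submodule.add_mem _ ha hb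
  | single t r =>
    obtain ⟨n, x⟩ := t
    rw [← incN_single, mooreT_incN, ← map_sub]
    exact incN_mem n (moore_sub_mem _)

theorem mooreT_eq_zero {K : SS} {c : Ch F2 K} (hc : c ∈ Ch.Dg F2 K) : mooreT K c = 0 := by
  refine Submodule.span_induction (p := fun c _ => mooreT K c = 0) ?_ ?_ ?_ ?_ hc
  · rintro _ ⟨⟨n, x⟩, hx, rfl⟩
    rw [mooreT_single, moore_eq_zero_of_mem (Submodule.subset_span ⟨x, hx, rfl⟩), map_zero]
  · simp
  · intro a b _ _ ha hb; rw [map_add, ha, hb, add_zero]
  · intro r a _ ha; rw [map_smul, ha, smul_zero]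

theorem mooreT_map {K L : SS} (f : SS.Hom K L) (c : Ch F2 K) :
    Ch.map F2 f (mooreT K c) = mooreT L (Ch.map F2 f c) := by
  induction c using Finsupp.induction_linear with
  | zero => simp
  | add a b ha hb => simp only [map_add, ha, hb]
  | single t r =>
    obtain ⟨n, x⟩ := t
    have key : ∀ c : K.S n →₀ F2, Ch.map F2 f (incN K n c) =
        incN L n (Finsupp.lmapDomain F2 F2 (f.app n) c) := by
      intro c
      induction c using Finsupp.induction_linear with
      | zero => simp
      | add a b ha hb => simp only [map_add, ha, hb]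
      | single t r =>
        rw [incN_single, Ch.map_single, Finsupp.lmapDomain_apply, Finsupp.mapDomain_single, incN_single]
    rw [mooreT_single, key, Ch.map_single, mooreT_single]
    congr 1
    rw [moore_nat (K := K) (L := L) (Finsupp.lmapDomain F2 F2 (f.app n))]
    · rw [Finsupp.lmapDomain_apply, Finsupp.mapDomain_single]
    · intro g y
      induction y using Finsupp.induction_linear with
      | zero => simp
      | add a b ha hb => simp only [map_add, ha, hb]
      | single t r =>
        rw [actL_single, Finsupp.lmapDomain_apply, Finsupp.mapDomain_single,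
          Finsupp.lmapDomain_apply, Finsupp.mapDomain_single, actL_single, f.nat]

namespace BSS

variable (E : BSS)

/-- vertical Moore projection -/
noncomputable def piV : E.Bt →ₗ[F2] E.Bt :=
  Finsupp.linearCombination F2 (fun t : E.TT =>
    E.inV t.1 (mooreT (E.col t.1) (single (⟨t.2.1, t.2.2⟩ : (E.col t.1).T) 1)))

theorem piV_inV (p : ℕ) (c : Ch F2 (E.col p)) : E.piV (E.inV p c) = E.inV p (mooreT (E.col p) c) := by
  induction c using Finsupp.induction_linear with
  | zero => simp
  | add a b ha hb => simp only [map_add, ha, hb]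
  | single t r =>
    obtain ⟨q, x⟩ := t
    rw [inV_single]
    simp only [piV, Finsupp.linearCombination_single]
    rw [← map_smul, ← map_smul, Finsupp.smul_single, smul_eq_mul, mul_one]

theorem induction_V {P : E.Bt → Prop} (c : E.Bt) (h0 : P 0) (ha : ∀ a b, P a → P b → P (a + b))
    (h : ∀ p (c : Ch F2 (E.col p)), P (E.inV p c)) : P c := by
  induction c using Finsupp.induction_linear with
  | zero => exact h0
  | add a b h1 h2 => exact ha _ _ h1 h2
  | single t r =>
    have := h t.1 (single (⟨t.2.1, t.2.2⟩ : (E.col t.1).T) r)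
    rw [inV_single] at this
    exact this

theorem dh_inV_zero (c : Ch F2 (E.col 0)) : E.dh (E.inV 0 c) = 0 := by
  induction c using Finsupp.induction_linear with
  | zero => simp
  | add a b ha hb => simp only [map_add, ha, hb, add_zero]
  | single t r => rw [inV_single, dh_zero]

theorem dh_inV_succ (p : ℕ) (c : Ch F2 (E.col (p + 1))) :
    E.dh (E.inV (p + 1) c) = ∑ i : Fin (p + 2), E.inV p (Ch.map F2 (E.colMap (Op.face i)) c) := by
  induction c using Finsupp.induction_linear with
  | zero => simp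
  | add a b ha hb => simp only [map_add, ha, hb, Finset.sum_add_distrib]
  | single t r =>
    rw [inV_single, dh_succ]
    refine Finset.sum_congr rfl fun i _ => ?_
    rw [Ch.map_single, inV_single]
    rfl

theorem piV_dh (c : E.Bt) : E.piV (E.dh c) = E.dh (E.piV c) := by
  induction c using induction_V with
  | h0 => simp
  | ha a b ha hb => simp only [map_add, ha, hb]
  | h p c =>
    rw [piV_inV]
    rcases p with _ | p
    · rw [dh_inV_zero, dh_inV_zero, map_zero]
    · rw [dh_inV_succ, dh_inV_succ, map_sum]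
      refine Finset.sum_congr rfl fun i _ => ?_
      rw [piV_inV, mooreT_map]

theorem sub_piV_mem (c : E.Bt) : c - E.piV c ∈ E.Dg := by
  induction c using induction_V with
  | h0 => simp
  | ha a b ha hb =>
    have : a + b - E.piV (a + b) = (a - E.piV a) + (b - E.piV b) := by rw [map_add]; abel
    rw [this]; exact Submodule.add_mem _ ha hb
  | h p c =>
    rw [piV_inV, ← map_sub]
    exact E.inV_mem p (sub_mooreT_mem c)

end BSS

/-! ## the vertical filtration -/

namespace BSS

variable (E : BSS)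

/-- span of the bisimplices of vertical degree `< Q` -/
noncomputable def Gq (Q : ℕ) : Submodule F2 E.Tot :=
  Submodule.span F2 {c | ∃ (p q : ℕ) (x : E.S p q), q < Q ∧ c = Tot.bx x}

theorem bx_mem_Gq {p q Q : ℕ} (x : E.S p q) (h : q < Q) : Tot.bx x ∈ E.Gq Q :=
  Submodule.subset_span ⟨p, q, x, h, rfl⟩

theorem Gq_zero : E.Gq 0 = ⊥ := by
  rw [eq_bot_iff, Gq, Submodule.span_le]
  rintro _ ⟨p, q, x, h, _⟩
  omega

theorem mk_single (p q : ℕ) (x : E.S p q) (r : F2) :
    (Submodule.Quotient.mk (single ⟨p, q, x⟩ r) : E.Tot) = r • Tot.bx x := by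
  rw [Tot.bx, ← Submodule.Quotient.mk_smul, Finsupp.smul_single, smul_eq_mul, mul_one]

theorem Gq_mono {Q Q' : ℕ} (h : Q ≤ Q') : E.Gq Q ≤ E.Gq Q' := by
  rw [Gq, Submodule.span_le]
  rintro _ ⟨p, q, x, h', rfl⟩
  exact E.bx_mem_Gq x (by omega)

theorem exists_Gq (x : E.Tot) : ∃ Q, x ∈ E.Gq Q := by
  obtain ⟨c, rfl⟩ := Submodule.Quotient.mk_surjective _ x
  induction c using induction_H with
  | h0 => exact ⟨0, Submodule.zero_mem _⟩
  | ha a b ha hb =>
    obtain ⟨Q, hQ⟩ := ha
    obtain ⟨Q', hQ'⟩ := hb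
    exact ⟨max Q Q', Submodule.add_mem _ (E.Gq_mono (le_max_left _ _) hQ)
      (E.Gq_mono (le_max_right _ _) hQ')⟩
  | h p q x r =>
    refine ⟨q + 1, ?_⟩
    rw [mk_single]
    exact Submodule.smul_mem _ _ (E.bx_mem_Gq x (by omega))

theorem dV_Gq {Q : ℕ} {x : E.Tot} (hx : x ∈ E.Gq (Q + 1)) : Tot.dV E x ∈ E.Gq Q := by
  refine Submodule.span_induction (p := fun x _ => Tot.dV E x ∈ E.Gq Q) ?_ ?_ ?_ ?_ hx
  · rintro _ ⟨p, q, x, h, rfl⟩
    rw [Tot.bx, Tot.dV_mk]
    rcases q with _ | q
    · rw [dv_zero]; exact Submodule.zero_mem _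
    · rw [dv_succ, ← Submodule.mkQ_apply, map_sum]
      refine Submodule.sum_mem _ fun i _ => ?_
      rw [Submodule.mkQ_apply, mk_single]
      exact Submodule.smul_mem _ _ (E.bx_mem_Gq _ (by omega))
  · simp
  · intro a b _ _ ha hb; rw [map_add]; exact Submodule.add_mem _ ha hb
  · intro r a _ ha; rw [map_smul]; exact Submodule.smul_mem _ _ ha

end BSS

/-! ## the Cech nerve -/

/-- the Cech nerve of a simplicial map -/
def cech {P B : SS} (f : SS.Hom P B) : BSS where
  S p q := {x : Fin (p + 1) → P.S q // ∀ i j, f.app q (x i) = f.app q (x j)}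
  hact g x := ⟨fun i => x.1 (g i), fun _ _ => x.2 _ _⟩
  vact g x := ⟨fun i => P.act g (x.1 i), fun i j => by rw [f.nat, f.nat, x.2 i j]⟩
  hact_id _ := rfl
  hact_comp _ _ _ := rfl
  vact_id x := Subtype.ext (funext fun i => P.act_id _)
  vact_comp a b x := Subtype.ext (funext fun i => P.act_comp _ _ _)
  comm _ _ _ := rfl

namespace Cech

variable {P B : SS} (f : SS.Hom P B)

/-- unnormalised augmentation -/
noncomputable def augB : (cech f).Bt →ₗ[F2] Ch F2 B :=
  Finsupp.linearCombination F2 (fun t : (cech f).TT =>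
    match t with
    | ⟨0, q, x⟩ => (single ⟨q, f.app q (x.1 0)⟩ 1 : Ch F2 B)
    | ⟨_ + 1, _, _⟩ => 0)

theorem augB_zero (q : ℕ) (x : (cech f).S 0 q) (r : F2) :
    augB f (single ⟨0, q, x⟩ r) = single ⟨q, f.app q (x.1 0)⟩ r := by
  simp [augB]

theorem augB_succ (p q : ℕ) (x : (cech f).S (p + 1) q) (r : F2) :
    augB f (single ⟨p + 1, q, x⟩ r) = 0 := by
  simp [augB]

/-- column `0` of the Cech nerve maps to `B` -/
def col0 : SS.Hom ((cech f).col 0) B := ⟨fun q x => f.app q (x.1 0), fun g x => f.nat g _⟩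

theorem augB_inV_zero (c : Ch F2 ((cech f).col 0)) : augB f ((cech f).inV 0 c) = Ch.map F2 (col0 f) c := by
  induction c using Finsupp.induction_linear with
  | zero => simp
  | add a b ha hb => simp only [map_add, ha, hb]
  | single t r => rw [BSS.inV_single, augB_zero, Ch.map_single]; rfl

theorem augB_inV_succ (p : ℕ) (c : Ch F2 ((cech f).col (p + 1))) :
    augB f ((cech f).inV (p + 1) c) = 0 := by
  induction c using Finsupp.induction_linear with
  | zero => simp
  | add a b ha hb => simp only [map_add, ha, hb, add_zero]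
  | single t r => rw [BSS.inV_single, augB_succ]

theorem augB_mem {c : (cech f).Bt} (hc : c ∈ (cech f).Dg) : augB f c ∈ Ch.Dg F2 B := by
  refine Submodule.span_induction (p := fun c _ => augB f c ∈ Ch.Dg F2 B) ?_ ?_ ?_ ?_ hc
  · rintro _ ⟨p, q, x, hx, rfl⟩
    rcases p with _ | p
    · rcases hx with hx | hx
      · exact hx.elim
      · rw [augB_zero]
        exact Submodule.subset_span ⟨_, BSS.isDgn_map (col0 f) hx, rfl⟩
    · rw [augB_succ]; exact Submodule.zero_mem _
  · simp
  · intro a b _ _ ha hb; rw [map_add]; exact Submodule.add_mem _ ha hb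
  · intro r a _ ha; rw [map_smul]; exact Submodule.smul_mem _ _ ha

theorem augB_dv (c : (cech f).Bt) : augB f ((cech f).dv c) = Ch.bd F2 B (augB f c) := by
  induction c using BSS.induction_V with
  | h0 => simp
  | ha a b ha hb => simp only [map_add, ha, hb]
  | h p c =>
    rw [BSS.dv_inV]
    rcases p with _ | p
    · rw [augB_inV_zero, augB_inV_zero, Ch.map_bd]
    · rw [augB_inV_succ, augB_inV_succ, map_zero]

theorem augB_dh (c : (cech f).Bt) : augB f ((cech f).dh c) = 0 := by
  induction c using BSS.induction_H with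
  | h0 => simp
  | ha a b ha hb => simp only [map_add, ha, hb, add_zero]
  | h p q x r =>
    rcases p with _ | _ | p
    · rw [BSS.dh_zero, map_zero]
    · rw [BSS.dh_succ, map_sum, Fin.sum_univ_two, augB_zero, augB_zero]
      have : f.app q (((cech f).hact (Op.face 0) x).1 0) = f.app q (((cech f).hact (Op.face 1) x).1 0) :=
        x.2 _ _
      rw [this, ← Finsupp.single_add]
      have h2 : r + r = 0 := f2_add_self r
      rw [h2, Finsupp.single_zero]
    · rw [BSS.dh_succ, map_sum]
      exact Finset.sum_eq_zero fun i _ => augB_succ f _ _ _ _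

/-- the augmentation `Tot (cech f) → N F2 B` -/
noncomputable def aug : (cech f).Tot →ₗ[F2] N F2 B :=
  Submodule.mapQ _ _ (augB f) (fun _ hc => augB_mem f hc)

theorem aug_mk (c : (cech f).Bt) : aug f (Submodule.Quotient.mk c) = Submodule.Quotient.mk (augB f c) := rfl

/-- the augmentation is a chain map -/
theorem aug_D (c : (cech f).Tot) : aug f (BSS.Tot.D _ c) = N.bd F2 B (aug f c) := by
  obtain ⟨c, rfl⟩ := Submodule.Quotient.mk_surjective _ c
  rw [BSS.Tot.D_apply, BSS.Tot.dH_mk, BSS.Tot.dV_mk, ← Submodule.Quotient.mk_add, aug_mk, aug_mk,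
    map_add, augB_dh, augB_dv, zero_add]
  rfl

@[simp] theorem aug_bx_zero (q : ℕ) (x : (cech f).S 0 q) :
    aug f (BSS.Tot.bx x) = N.sx F2 (f.app q (x.1 0)) := by
  show Submodule.Quotient.mk (augB f _) = _
  rw [augB_zero]; rfl

@[simp] theorem aug_bx_succ (p q : ℕ) (x : (cech f).S (p + 1) q) : aug f (BSS.Tot.bx x) = 0 := by
  show Submodule.Quotient.mk (augB f _) = _
  rw [augB_succ]; rfl

/-- a simplex of `P` as a bisimplex of column `0` -/
def vert {q : ℕ} (x : P.S q) : (cech f).S 0 q := ⟨fun _ => x, fun _ _ => rfl⟩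

theorem vert_val {q : ℕ} (x : P.S q) (i : Fin 1) : (vert f x).1 i = x := rfl

section contraction

variable (s : ∀ q, B.S q → P.S q) (hs : ∀ q b, f.app q (s q b) = b)

/-- the extra degeneracy -/
def ext {p q : ℕ} (x : (cech f).S p q) : (cech f).S (p + 1) q :=
  ⟨Fin.cons (s q (f.app q (x.1 0))) x.1, by
    have H : ∀ i : Fin (p + 2), f.app q
        ((Fin.cons (s q (f.app q (x.1 0))) x.1 : Fin (p + 2) → P.S q) i) = f.app q (x.1 0) := by
      intro i
      refine Fin.cases ?_ (fun i => ?_) i
      · rw [Fin.cons_zero, hs]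
      · rw [Fin.cons_succ]; exact x.2 _ _
    intro i j; rw [H, H]⟩

/-- the vertex `s b` -/
def sec {q : ℕ} (b : B.S q) : (cech f).S 0 q := ⟨fun _ => s q b, fun _ _ => rfl⟩

/-- contraction on unnormalised chains -/
noncomputable def hB : (cech f).Bt →ₗ[F2] (cech f).Bt :=
  Finsupp.lmapDomain F2 F2 (fun t : (cech f).TT => ⟨t.1 + 1, t.2.1, ext f s hs t.2.2⟩)

theorem hB_single (p q : ℕ) (x : (cech f).S p q) (r : F2) :
    hB f s hs (single ⟨p, q, x⟩ r) = single ⟨p + 1, q, ext f s hs x⟩ r := by
  simp [hB, Finsupp.lmapDomain_apply, Finsupp.mapDomain_single]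

/-- section on unnormalised chains -/
noncomputable def secB : Ch F2 B →ₗ[F2] (cech f).Bt :=
  Finsupp.lmapDomain F2 F2 (fun t : B.T => (⟨0, t.1, sec f s t.2⟩ : (cech f).TT))

theorem secB_single (q : ℕ) (b : B.S q) (r : F2) :
    secB f s (single ⟨q, b⟩ r) = single ⟨0, q, sec f s b⟩ r := by
  simp [secB, Finsupp.lmapDomain_apply, Finsupp.mapDomain_single]

theorem ext_zero {p q : ℕ} (x : (cech f).S p q) : (ext f s hs x).1 0 = s q (f.app q (x.1 0)) := rfl

theorem ext_succ {p q : ℕ} (x : (cech f).S p q) (i : Fin (p + 1)) :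
    (ext f s hs x).1 i.succ = x.1 i := rfl

theorem hact_val {m n q : ℕ} (g : Op m n) (x : (cech f).S n q) (i : Fin (m + 1)) :
    ((cech f).hact g x).1 i = x.1 (g i) := rfl

theorem face_zero_val {n : ℕ} (i : Fin (n + 1)) : Op.face (n := n) 0 i = i.succ := by
  apply Fin.ext; rw [Ch.face_val]; simp

theorem face_succ_zero {n : ℕ} (i : Fin (n + 2)) : Op.face (n := n + 1) i.succ 0 = 0 := by
  apply Fin.ext; rw [Ch.face_val]; simp

theorem face_succ_succ {n : ℕ} (i : Fin (n + 2)) (a : Fin (n + 1)) :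
    Op.face (n := n + 1) i.succ a.succ = (Op.face i a).succ := by
  apply Fin.ext; rw [Ch.face_val, Fin.val_succ, Fin.val_succ, Fin.val_succ, Ch.face_val]
  split_ifs <;> omega

theorem dgn_succ_zero {n : ℕ} (j : Fin (n + 1)) : Op.dgn (n := n + 1) j.succ 0 = 0 := by
  apply Fin.ext; rw [Ch.dgn_val]; simp

theorem dgn_succ_succ {n : ℕ} (j : Fin (n + 1)) (a : Fin (n + 2)) :
    Op.dgn (n := n + 1) j.succ a.succ = (Op.dgn j a).succ := by
  apply Fin.ext; rw [Ch.dgn_val, Fin.val_succ, Fin.val_succ, Fin.val_succ, Ch.dgn_val]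
  split_ifs <;> omega

theorem face_zero_ext {p q : ℕ} (x : (cech f).S p q) :
    (cech f).hact (Op.face 0) (ext f s hs x) = x := by
  apply Subtype.ext
  funext i
  rw [hact_val, face_zero_val, ext_succ]

theorem face_succ_ext {p q : ℕ} (i : Fin (p + 2)) (x : (cech f).S (p + 1) q) :
    (cech f).hact (Op.face i.succ) (ext f s hs x) = ext f s hs ((cech f).hact (Op.face i) x) := by
  apply Subtype.ext
  funext a
  rw [hact_val]
  refine Fin.cases ?_ (fun a => ?_) a
  · rw [face_succ_zero, ext_zero, ext_zero, hact_val]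
    congr 1
    exact x.2 _ _
  · rw [face_succ_succ, ext_succ, ext_succ, hact_val]

theorem face_one_ext {q : ℕ} (x : (cech f).S 0 q) :
    (cech f).hact (Op.face 1) (ext f s hs x) = sec f s (f.app q (x.1 0)) := by
  apply Subtype.ext
  funext a
  have ha : a = 0 := Fin.ext (by omega)
  subst ha
  rfl

theorem hB_dh (c : (cech f).Bt) :
    (cech f).dh (hB f s hs c) + hB f s hs ((cech f).dh c) = c + secB f s (augB f c) := by
  induction c using BSS.induction_H with
  | h0 => simp
  | ha a b ha hb =>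
    simp only [map_add]
    rw [show ∀ a b c d : (cech f).Bt, a + b + (c + d) = (a + c) + (b + d) from fun a b c d => by abel,
      ha, hb]
    abel
  | h p q x r =>
    rw [hB_single, BSS.dh_succ]
    rcases p with _ | p
    · rw [BSS.dh_zero, map_zero, add_zero, augB_zero, secB_single, Fin.sum_univ_two,
        face_zero_ext, face_one_ext]
    · rw [augB_succ, map_zero, add_zero, Fin.sum_univ_succ, face_zero_ext, BSS.dh_succ, map_sum]
      simp only [hB_single, face_succ_ext]
      rw [add_assoc, f2_add_self, add_zero]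

theorem dgn_ext {p q : ℕ} (j : Fin (p + 1)) (x : (cech f).S p q) :
    ext f s hs ((cech f).hact (Op.dgn j) x) = (cech f).hact (Op.dgn j.succ) (ext f s hs x) := by
  apply Subtype.ext
  funext a
  rw [hact_val]
  refine Fin.cases ?_ (fun a => ?_) a
  · rw [dgn_succ_zero, ext_zero, ext_zero, hact_val]
    rw [x.2 (Op.dgn j 0) 0]
  · rw [dgn_succ_succ, ext_succ, ext_succ, hact_val]

theorem hB_colMap_dgn_mem {p : ℕ} (j : Fin (p + 1)) (c : Ch F2 ((cech f).col p)) :
    hB f s hs ((cech f).inV (p + 1) (Ch.map F2 ((cech f).colMap (Op.dgn j)) c)) ∈ (cech f).Dg := by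
  induction c using Finsupp.induction_linear with
  | zero => simp
  | add a b ha hb => simp only [map_add]; exact Submodule.add_mem _ ha hb
  | single t r =>
    obtain ⟨q, x⟩ := t
    rw [Ch.map_single, BSS.inV_single, hB_single]
    refine BSS.single_mem_Dg_h _ ?_ _
    exact (⟨j.succ, ext f s hs x, dgn_ext f s hs j x⟩ : ∃ (j' : Fin (p + 1 + 1))
      (y : ((cech f).row q).S (p + 1)), _ = ((cech f).row q).act (Op.dgn j') y)

theorem hB_piV_mem {c : (cech f).Bt} (hc : c ∈ (cech f).Dg) :
    hB f s hs ((cech f).piV c) ∈ (cech f).Dg := by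
  refine Submodule.span_induction (p := fun c _ => hB f s hs ((cech f).piV c) ∈ (cech f).Dg) ?_ ?_ ?_ ?_ hc
  · rintro _ ⟨p, q, x, hx | hx, rfl⟩
    · rcases p with _ | p
      · exact hx.elim
      · obtain ⟨j, y, rfl⟩ := hx
        have e : (single ⟨p + 1, q, ((cech f).row q).act (Op.dgn j) y⟩ 1 : (cech f).Bt) =
            (cech f).inV (p + 1) (Ch.map F2 ((cech f).colMap (Op.dgn j)) (single ⟨q, y⟩ 1)) := by
          rw [Ch.map_single, BSS.inV_single]; rfl
        rw [e, BSS.piV_inV, ← mooreT_map]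
        exact hB_colMap_dgn_mem f s hs j _
    · rw [← BSS.inV_single, BSS.piV_inV, mooreT_eq_zero (Submodule.subset_span ⟨_, hx, rfl⟩), map_zero,
        map_zero]
      exact Submodule.zero_mem _
  · simp
  · intro a b _ _ ha hb; simp only [map_add]; exact Submodule.add_mem _ ha hb
  · intro r a _ ha; simp only [map_smul]; exact Submodule.smul_mem _ _ ha

/-- the contraction on the normalised total complex -/
noncomputable def hT : (cech f).Tot →ₗ[F2] (cech f).Tot :=
  Submodule.mapQ _ _ (hB f s hs ∘ₗ (cech f).piV) (fun _ hc => hB_piV_mem f s hs hc)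

theorem hT_mk (c : (cech f).Bt) : hT f s hs (Submodule.Quotient.mk c) =
    Submodule.Quotient.mk (hB f s hs ((cech f).piV c)) := rfl

theorem augB_piV (c : (cech f).Bt) : augB f ((cech f).piV c) = mooreT B (augB f c) := by
  induction c using BSS.induction_V with
  | h0 => simp
  | ha a b ha hb => simp only [map_add, ha, hb]
  | h p c =>
    rw [BSS.piV_inV]
    rcases p with _ | p
    · rw [augB_inV_zero, augB_inV_zero, mooreT_map]
    · rw [augB_inV_succ, augB_inV_succ, map_zero]

theorem dH_hT {x : (cech f).Tot} (hx : aug f x = 0) :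
    BSS.Tot.dH _ (hT f s hs x) + hT f s hs (BSS.Tot.dH _ x) = x := by
  obtain ⟨c, rfl⟩ := Submodule.Quotient.mk_surjective _ x
  rw [hT_mk, BSS.Tot.dH_mk, BSS.Tot.dH_mk, hT_mk, ← Submodule.Quotient.mk_add, BSS.piV_dh, hB_dh,
    augB_piV]
  rw [aug_mk, Submodule.Quotient.mk_eq_zero] at hx
  rw [mooreT_eq_zero hx, map_zero, add_zero]
  rw [Submodule.Quotient.eq]
  have := (cech f).sub_piV_mem c
  rw [← Submodule.neg_mem_iff] at this
  simpa using this

theorem aug_hT (x : (cech f).Tot) : aug f (hT f s hs x) = 0 := by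
  obtain ⟨c, rfl⟩ := Submodule.Quotient.mk_surjective _ x
  rw [hT_mk, aug_mk]
  have : ∀ c, augB f (hB f s hs c) = 0 := by
    intro c
    induction c using BSS.induction_H with
    | h0 => simp
    | ha a b ha hb => simp only [map_add, ha, hb, add_zero]
    | h p q x r => rw [hB_single, augB_succ]
  rw [this]; rfl

theorem hT_Gq {Q : ℕ} {x : (cech f).Tot} (hx : x ∈ (cech f).Gq Q) : hT f s hs x ∈ (cech f).Gq Q := by
  refine Submodule.span_induction (p := fun x _ => hT f s hs x ∈ (cech f).Gq Q) ?_ ?_ ?_ ?_ hx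
  · rintro _ ⟨p, q, x, h, rfl⟩
    rw [BSS.Tot.bx, hT_mk, ← BSS.inV_single, BSS.piV_inV, mooreT_single]
    have key : ∀ c : ((cech f).col p).S q →₀ F2,
        (Submodule.Quotient.mk (hB f s hs ((cech f).inV p (incN ((cech f).col p) q c))) :
          (cech f).Tot) ∈ (cech f).Gq Q := by
      intro c
      induction c using Finsupp.induction_linear with
      | zero => simp
      | add a b ha hb =>
        rw [map_add, map_add, map_add, Submodule.Quotient.mk_add]
        exact Submodule.add_mem _ ha hb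
      | single t r =>
        rw [incN_single, BSS.inV_single, hB_single, BSS.mk_single]
        exact Submodule.smul_mem _ _ (BSS.bx_mem_Gq _ _ h)
    exact key _
  · simp
  · intro a b _ _ ha hb; rw [map_add]; exact Submodule.add_mem _ ha hb
  · intro r a _ ha; rw [map_smul]; exact Submodule.smul_mem _ _ ha

include hs in
theorem exact_of_Gq (Q : ℕ) : ∀ x ∈ (cech f).Gq Q, aug f x = 0 → BSS.Tot.D _ x = 0 →
    ∃ y, aug f y = 0 ∧ BSS.Tot.D _ y = x := by
  induction Q with
  | zero =>
    intro x hx _ _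
    rw [BSS.Gq_zero, Submodule.mem_bot] at hx
    exact ⟨0, by simp, by rw [map_zero, hx]⟩
  | succ Q ih =>
    intro x hx h1 h2
    have e1 := dH_hT f s hs h1
    have e2 : BSS.Tot.dH _ x = BSS.Tot.dV _ x := by
      have h3 : BSS.Tot.dH _ x + BSS.Tot.dV _ x = 0 := h2
      have h4 := f2_add_self (BSS.Tot.dV (cech f) x)
      have h5 : BSS.Tot.dH (cech f) x = BSS.Tot.dH _ x + (BSS.Tot.dV _ x + BSS.Tot.dV _ x) := by
        rw [h4, add_zero]
      rw [h5, ← add_assoc, h3, zero_add]
    rw [e2] at e1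
    -- `D (h x) = x + n`
    set n := BSS.Tot.dV _ (hT f s hs x) + hT f s hs (BSS.Tot.dV _ x) with hn
    have e3 : BSS.Tot.D _ (hT f s hs x) = x + n := by
      rw [BSS.Tot.D_apply, hn]
      have h4 := f2_add_self (hT f s hs (BSS.Tot.dV (cech f) x))
      calc BSS.Tot.dH (cech f) (hT f s hs x) + BSS.Tot.dV _ (hT f s hs x)
          = (BSS.Tot.dH (cech f) (hT f s hs x) + hT f s hs (BSS.Tot.dV (cech f) x)) +
            (BSS.Tot.dV _ (hT f s hs x) + hT f s hs (BSS.Tot.dV (cech f) x)) := by
              rw [show ∀ a b c : (cech f).Tot, a + c + (b + c) = a + b + (c + c) from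
                fun a b c => by abel, h4, add_zero]
        _ = _ := by rw [e1]
    have hnG : n ∈ (cech f).Gq Q :=
      Submodule.add_mem _ (BSS.dV_Gq _ (hT_Gq f s hs hx)) (hT_Gq f s hs (BSS.dV_Gq _ hx))
    have hna : aug f n = 0 := by
      have := congrArg (aug f) e3
      rw [aug_D, aug_hT, map_zero, map_add, h1, zero_add] at this
      exact this.symm
    have hnD : BSS.Tot.D _ n = 0 := by
      have := congrArg (BSS.Tot.D (cech f)) e3
      rw [BSS.Tot.D_D, map_add, h2, zero_add] at this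
      exact this.symm
    obtain ⟨y, hy1, hy2⟩ := ih n hnG hna hnD
    refine ⟨hT f s hs x + y, by rw [map_add, aug_hT, hy1, add_zero], ?_⟩
    rw [map_add, hy2, e3, add_assoc, f2_add_self, add_zero]

end contraction

/-- the kernel of the augmentation of a degreewise surjective map is acyclic -/
theorem exact (hf : ∀ q, Function.Surjective (f.app q)) {x : (cech f).Tot} (h1 : aug f x = 0)
    (h2 : BSS.Tot.D _ x = 0) : ∃ y, aug f y = 0 ∧ BSS.Tot.D _ y = x := by
  obtain ⟨Q, hQ⟩ := (cech f).exists_Gq x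
  exact exact_of_Gq f (fun q => Function.surjInv (hf q)) (fun q b => Function.surjInv_eq (hf q) b)
    Q x hQ h1 h2

theorem aug_surjective (hf : ∀ q, Function.Surjective (f.app q)) : Function.Surjective (aug f) := by
  intro b
  obtain ⟨b, rfl⟩ := Submodule.Quotient.mk_surjective _ b
  induction b using Finsupp.induction_linear with
  | zero => exact ⟨0, by simp⟩
  | add a b ha hb =>
    obtain ⟨x, hx⟩ := ha
    obtain ⟨y, hy⟩ := hb
    exact ⟨x + y, by rw [map_add, hx, hy, Submodule.Quotient.mk_add]⟩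
  | single t r =>
    obtain ⟨q, b⟩ := t
    obtain ⟨x, rfl⟩ := hf q b
    refine ⟨Submodule.Quotient.mk (single ⟨0, q, vert f x⟩ r), ?_⟩
    rw [aug_mk, augB_zero, vert_val]


/-- a cycle of the total complex whose augmentation is a boundary is a boundary -/
theorem bd_of_aug_bd (hf : ∀ q, Function.Surjective (f.app q)) {x : (cech f).Tot}
    (hx : BSS.Tot.D _ x = 0) {c : N F2 B} (hc : aug f x = N.bd F2 B c) :
    ∃ y, BSS.Tot.D _ y = x := by
  obtain ⟨y, hy⟩ := aug_surjective f hf c
  obtain ⟨z, -, hz⟩ := exact f hf (x := x + BSS.Tot.D _ y)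
    (by rw [map_add, aug_D, hy, hc, f2_add_self])
    (by rw [map_add, hx, BSS.Tot.D_D, add_zero])
  refine ⟨z + y, ?_⟩
  rw [map_add, hz, add_assoc, f2_add_self, add_zero]

end Cech

end Crest.Agent.R204.Bis343
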