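import Crest.Agent.R204.BottPath_671

-- ▼ part R204/BottDense_671
section

/-!
# Density of Laurent polynomials in `C(Circle, R)`
-/

set_option autoImplicit false
set_option linter.unusedSectionVars false

open Filter Topology Polynomial Matrix

namespace Crest.Agent.R204.Bott671

section

variable {R : Type*} [NormedCommRing R] [NormedAlgebra ℂ R] [CompleteSpace R]

theorem zi_pow_mul_zc_pow (n : ℕ) : (zi : C(Circle, R)) ^ n * zc ^ n = 1 := by
  rw [← mul_pow, zi_mul_zc, one_pow]

theorem smul_C_mul (c : ℂ) (p : R[X]) :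
    loop (Polynomial.C (algebraMap ℂ R c) * p) = c • loop p := by
  rw [map_mul, loop_C]
  ext z
  simp [Algebra.smul_def]

variable (R) in
/-- The Laurent polynomials. -/
noncomputable def LSub : Submodule ℂ C(Circle, R) where
  carrier := {F | ∃ (N : ℕ) (p : R[X]), F = zi ^ N * loop p}
  zero_mem' := ⟨0, 0, by simp⟩
  add_mem' := by
    rintro _ _ ⟨N, p, rfl⟩ ⟨M, q, rfl⟩
    refine ⟨N + M, X ^ M * p + X ^ N * q, ?_⟩
    rw [map_add, map_mul, map_mul, map_pow, map_pow, loop_X, mul_add]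
    have h1 : (zi : C(Circle, R)) ^ (N + M) * (zc ^ M * loop p)
        = (zi ^ M * zc ^ M) * (zi ^ N * loop p) := by rw [pow_add]; ring
    have h2 : (zi : C(Circle, R)) ^ (N + M) * (zc ^ N * loop q)
        = (zi ^ N * zc ^ N) * (zi ^ M * loop q) := by rw [pow_add]; ring
    rw [h1, h2, zi_pow_mul_zc_pow, zi_pow_mul_zc_pow, one_mul, one_mul]
  smul_mem' := by
    rintro c _ ⟨N, p, rfl⟩
    refine ⟨N, Polynomial.C (algebraMap ℂ R c) * p, ?_⟩
    rw [smul_C_mul, mul_smul_comm]

/-- `h ↦ (z ↦ h z • v)`. -/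
noncomputable def Psi (v : R) : C(Circle, ℂ) →L[ℂ] C(Circle, R) :=
  ContinuousLinearMap.compLeftContinuous ℂ Circle (ContinuousLinearMap.toSpanSingleton ℂ v)

theorem Psi_apply (v : R) (h : C(Circle, ℂ)) (z : Circle) : Psi v h z = h z • v := rfl

/-- Monomials on the circle. -/
noncomputable def mono (n : ℤ) : C(Circle, ℂ) := 
  ⟨fun z => ((z ^ n : Circle) : ℂ), continuous_subtype_val.comp (continuous_zpow n)⟩

theorem Psi_mono_mem (v : R) (n : ℤ) : Psi v (mono n) ∈ LSub R := by
  obtain ⟨k, rfl | rfl⟩ := n.eq_nat_or_neg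
  · refine ⟨0, Polynomial.C v * X ^ k, ?_⟩
    ext z
    rw [Psi_apply, pow_zero, one_mul, map_mul, map_pow, loop_C, loop_X]
    change ((z ^ (k : ℤ) : Circle) : ℂ) • v = v * (algebraMap ℂ R (z : ℂ)) ^ k
    rw [Algebra.smul_def, mul_comm, zpow_natCast, Circle.coe_pow, map_pow]
  · refine ⟨k, Polynomial.C v, ?_⟩
    ext z
    rw [Psi_apply, loop_C]
    change ((z ^ (-k : ℤ) : Circle) : ℂ) • v = (algebraMap ℂ R ((z⁻¹ : Circle) : ℂ)) ^ k * v
    rw [Algebra.smul_def, _root_.zpow_neg, zpow_natCast, ← inv_pow, Circle.coe_pow, map_pow]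

theorem mem_closure_mono (f : C(Circle, ℂ)) :
    f ∈ closure (Submodule.span ℂ (Set.range mono) : Set C(Circle, ℂ)) := by
  have : Fact (0 < 2 * Real.pi) := ⟨by positivity⟩
  have hT : (2 * Real.pi) ≠ 0 := by positivity
  let φ : AddCircle (2 * Real.pi) ≃ₜ Circle := AddCircle.homeomorphCircle hT
  let Φ : C(AddCircle (2 * Real.pi), ℂ) →L[ℂ] C(Circle, ℂ) :=
    { toFun := fun g => g.comp ⟨φ.symm, φ.symm.continuous⟩
      map_add' := fun _ _ => rfl
      map_smul' := fun _ _ => rfl
      cont := ContinuousMap.continuous_precomp _ }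
  have hf : f = Φ (f.comp ⟨φ, φ.continuous⟩) := by
    ext z
    change f z = f (φ (φ.symm z))
    rw [φ.apply_symm_apply]
  have h1 : (f.comp ⟨φ, φ.continuous⟩ : C(AddCircle (2 * Real.pi), ℂ)) ∈
      closure (Submodule.span ℂ (Set.range (@fourier (2 * Real.pi))) : Set _) := by
    have := span_fourier_closure_eq_top (T := 2 * Real.pi)
    rw [← Submodule.topologicalClosure_coe, this]
    trivial
  rw [hf]
  refine map_mem_closure Φ.continuous h1 fun g hg => ?_
  have : Submodule.span ℂ (Set.range (@fourier (2 * Real.pi)))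
      ≤ (Submodule.span ℂ (Set.range mono)).comap (Φ : _ →ₗ[ℂ] _) := by
    rw [Submodule.span_le]
    rintro _ ⟨n, rfl⟩
    refine Submodule.subset_span ⟨n, ?_⟩
    ext z
    change ((z ^ n : Circle) : ℂ) = fourier n (φ.symm z)
    rw [fourier_apply, AddCircle.toCircle_zsmul]
    have h2 : AddCircle.toCircle (φ.symm z) = z := by
      rw [← AddCircle.homeomorphCircle_apply hT]
      exact φ.apply_symm_apply z
    rw [h2]
  exact this hg

theorem Psi_mem_closure (v : R) (h : C(Circle, ℂ)) :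
    Psi v h ∈ closure (LSub R : Set C(Circle, R)) := by
  refine map_mem_closure (Psi v).continuous (mem_closure_mono h) fun g hg => ?_
  have : Submodule.span ℂ (Set.range mono) ≤ (LSub R).comap (Psi v : _ →ₗ[ℂ] _) := by
    rw [Submodule.span_le]
    rintro _ ⟨n, rfl⟩
    exact Psi_mono_mem v n
  exact this hg

theorem LSub_dense (F : C(Circle, R)) : F ∈ closure (LSub R : Set C(Circle, R)) := by
  rw [← closure_closure, Metric.mem_closure_iff]
  intro ε hε
  -- finite cover
  have hU : ∀ x : Circle, {z | ‖F z - F x‖ < ε / 2} ∈ 𝓝 x := by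
    intro x
    refine IsOpen.mem_nhds ?_ ?_
    · exact isOpen_lt (by fun_prop) continuous_const
    · simp only [Set.mem_ofPred_eq, sub_self, norm_zero]
      positivity
  obtain ⟨t, -, ht⟩ := isCompact_univ.elim_nhds_subcover (fun x : Circle => {z | ‖F z - F x‖ < ε / 2})
    (fun x _ => hU x)
  obtain ⟨f, hf⟩ := PartitionOfUnity.exists_isSubordinate (X := Circle) (s := Set.univ) isClosed_univ
    (fun x : t => {z | ‖F z - F x‖ < ε / 2}) (fun x => isOpen_lt (by fun_prop) continuous_const)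
    (fun z hz => by
      have := ht hz
      simp only [Set.mem_iUnion] at this ⊢
      obtain ⟨x, hx, hzx⟩ := this
      exact ⟨⟨x, hx⟩, hzx⟩)
  let h : t → C(Circle, ℂ) := fun i => ⟨fun z => ((f i z : ℝ) : ℂ), by fun_prop⟩
  refine ⟨∑ i : t, Psi (F i) (h i), ?_, ?_⟩
  · exact Submodule.sum_mem (LSub R).topologicalClosure fun i _ => Psi_mem_closure (F i) (h i)
  · rw [dist_eq_norm]
    refine lt_of_le_of_lt ?_ (half_lt_self hε)
    rw [ContinuousMap.norm_le _ (by positivity)]
    intro z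
    have hsum : ∑ i : t, f i z = 1 := by
      rw [← finsum_eq_sum_of_fintype]
      exact f.sum_eq_one (Set.mem_univ z)
    have h1 : (F - ∑ i : t, Psi (F i) (h i)) z = ∑ i : t, ((f i z : ℝ) : ℂ) • (F z - F i) := by
      simp only [ContinuousMap.sub_apply, ContinuousMap.sum_apply, Psi_apply, smul_sub,
        Finset.sum_sub_distrib]
      rw [← Finset.sum_smul, ← Complex.ofReal_sum, hsum]
      simp [h]
    rw [h1]
    calc ‖∑ i : t, ((f i z : ℝ) : ℂ) • (F z - F i)‖ ≤ ∑ i : t, ‖((f i z : ℝ) : ℂ) • (F z - F i)‖ :=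
          norm_sum_le _ _
      _ ≤ ∑ i : t, f i z * (ε / 2) := by
          refine Finset.sum_le_sum fun i _ => ?_
          rw [norm_smul, Complex.norm_real, Real.norm_of_nonneg (f.nonneg i z)]
          by_cases hz : f i z = 0
          · rw [hz]; simp
          · have : z ∈ tsupport (f i) := subset_tsupport _ hz
            have := hf i this
            exact mul_le_mul_of_nonneg_left (le_of_lt this) (f.nonneg i z)
      _ = ε / 2 := by rw [← Finset.sum_mul, hsum, one_mul]

/-- **Density.** -/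
theorem exists_laurent (F : C(Circle, R)) {ε : ℝ} (hε : 0 < ε) :
    ∃ (N : ℕ) (p : R[X]), ‖F - zi ^ N * loop p‖ < ε := by
  obtain ⟨G, ⟨N, p, rfl⟩, hG⟩ := Metric.mem_closure_iff.1 (LSub_dense F) ε hε
  exact ⟨N, p, by rwa [dist_eq_norm] at hG⟩

end

end Crest.Agent.R204.Bott671
end

-- ▼ part R204/BottS_671

/-!
# Surjectivity half of Bott periodicity (statement (S))
-/

set_option autoImplicit false
set_option linter.unusedSectionVars false

open Filter Topology Polynomial Matrix

namespace Crest.Agent.R204.Bott671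

section ball

variable {S : Type*} [NormedCommRing S] [NormedAlgebra ℂ S] [CompleteSpace S]
  {ι : Type} [Fintype ι] [DecidableEq ι]

theorem dist_fun_lt (f g : ι → ι → S) {δ : ℝ} (hδ : 0 < δ) (h : ∀ i j, ‖g i j - f i j‖ < δ) :
    dist f g < δ := by
  rw [dist_comm, dist_pi_lt_iff hδ]
  intro i
  rw [dist_pi_lt_iff hδ]
  intro j
  rw [dist_eq_norm]
  exact h i j

theorem exists_ball {u : Matrix ι ι S} (hu : IsUnit u) :
    ∃ δ > 0, ∀ v : Matrix ι ι S, (∀ i j, ‖u i j - v i j‖ < δ) → IsUnit v := by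
  have h1 : IsOpen (Set.range (Units.val : (Matrix ι ι S)ˣ → Matrix ι ι S)) :=
    (Crest.Agent.R204.Ex837.isOpenEmbedding_val_matrix ι S).isOpen_range
  have h2 : IsOpen (Set.range (Units.val : (Matrix ι ι S)ˣ → Matrix ι ι S) : Set (ι → ι → S)) := h1
  obtain ⟨δ, hδ, hb⟩ := Metric.isOpen_iff.1 h2 u hu
  exact ⟨δ, hδ, fun v hv => hb (dist_fun_lt v u hδ hv)⟩

theorem isUnit_segment {δ : ℝ} {u v : Matrix ι ι S}
    (h : ∀ v : Matrix ι ι S, (∀ i j, ‖u i j - v i j‖ < δ) → IsUnit v)
    (hv : ∀ i j, ‖u i j - v i j‖ < δ) {t : ℝ} (ht : t ∈ Set.Icc (0:ℝ) 1) :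
    IsUnit ((1 - (t : ℂ)) • u + (t : ℂ) • v) := by
  refine h _ fun i j => ?_
  have : u i j - ((1 - (t : ℂ)) • u + (t : ℂ) • v) i j = (t : ℂ) • (u i j - v i j) := by
    simp only [Matrix.add_apply, Matrix.smul_apply]
    rw [sub_smul, one_smul, smul_sub]
    abel
  rw [this, norm_smul, Complex.norm_real, Real.norm_of_nonneg ht.1]
  calc t * ‖u i j - v i j‖ ≤ 1 * ‖u i j - v i j‖ := by
        gcongr
        exact ht.2
    _ < δ := by rw [one_mul]; exact hv i j


end ball

section

variable {R : Type*} [NormedCommRing R] [NormedAlgebra ℂ R] [CompleteSpace R]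
  {ι κ : Type} [Fintype ι] [DecidableEq ι] [Fintype κ] [DecidableEq κ]

/-- Matrix version of density, with a common power of `z`. -/
theorem exists_laurentM (F : Matrix ι κ C(Circle, R)) {ε : ℝ} (hε : 0 < ε) :
    ∃ (N : ℕ) (p : Matrix ι κ R[X]), ∀ i j, ‖F i j - zi ^ N * loop (p i j)‖ < ε := by
  choose N p hp using fun i j => exists_laurent (F i j) hε
  let M : ℕ := Finset.univ.sup fun i => Finset.univ.sup fun j => N i j
  have hM : ∀ i j, N i j ≤ M := fun i j =>
    (Finset.le_sup (f := fun j => N i j) (Finset.mem_univ j)).trans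
      (Finset.le_sup (f := fun i => Finset.univ.sup fun j => N i j) (Finset.mem_univ i))
  refine ⟨M, fun i j => X ^ (M - N i j) * p i j, fun i j => ?_⟩
  have h1 : (zi : C(Circle, R)) ^ M * loop (X ^ (M - N i j) * p i j) = zi ^ (N i j) * loop (p i j) := by
    have h2 : (zi : C(Circle, R)) ^ M = zi ^ (M - N i j) * zi ^ N i j := by
      rw [← pow_add, Nat.sub_add_cancel (hM i j)]
    rw [map_mul, map_pow, loop_X, h2]
    rw [show (zi : C(Circle, R)) ^ (M - N i j) * zi ^ N i j * (zc ^ (M - N i j) * loop (p i j))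
      = (zi ^ (M - N i j) * zc ^ (M - N i j)) * (zi ^ N i j * loop (p i j)) by ring,
      zi_pow_mul_zc_pow, one_mul]
  rw [h1]
  exact hp i j











end

end Crest.Agent.R204.Bott671
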