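import Crest.Agent.R204.Defs
import Crest.Agent.R204.HA_498
import Crest.Agent.R204.Gr_334

-- ▼ part R204/HA_683
section

/-!
# Row 204, leaf A7, part b (helper683)

Range ("`n`-connected") versions of the five lemma and the filtered comparison theorem, elementwise:
no connecting map, no quotient module is used.

`c : GMap R M M'` is a map `φ` of internally graded complexes `(M, d, G)`, `(M', d', G')`
(`d` lowers the degree by one and kills `G 0`).  For subcomplexes `Q ≤ P` of `M`, `Q' ≤ P'` of `M'`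
with `φ P ⊆ P'`, `φ Q ⊆ Q'`:

* `c.Inj P Q P' Q' n` : `H_n(P/Q) → H_n(P'/Q')` is injective,
* `c.Sur P Q P' Q' n` : `H_n(P/Q) → H_n(P'/Q')` is surjective,
* `c.Conn P Q P' Q' n` : surjective for `k ≤ n`, injective for `k < n`.

Take `P = ⊤`, `Q = ⊥` for the whole complex.
-/

set_option autoImplicit false

namespace Crest.Agent.R204.HA683

open Function

/-- `d` is a differential which lowers the internal degree by one (and kills degree `0`) -/
structure DGr {R M : Type*} [CommRing R] [AddCommGroup M] [Module R M] (d : M →ₗ[R] M)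
    (G : ℕ → Submodule R M) : Prop where
  succ : ∀ n, ∀ x ∈ G (n + 1), d x ∈ G n
  zero : ∀ x ∈ G 0, d x = 0
  dd : ∀ x, d (d x) = 0

/-- a map of internally graded complexes -/
structure GMap (R M M' : Type*) [CommRing R] [AddCommGroup M] [AddCommGroup M'] [Module R M]
    [Module R M'] where
  d : M →ₗ[R] M
  G : ℕ → Submodule R M
  d' : M' →ₗ[R] M'
  G' : ℕ → Submodule R M'
  φ : M →ₗ[R] M'
  src : DGr d G
  tgt : DGr d' G'
  comm : ∀ x, φ (d x) = d' (φ x)
  deg : ∀ n, ∀ x ∈ G n, φ x ∈ G' n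

/-- a subcomplex of the source together with a subcomplex of the target, `φ P ⊆ P'` -/
structure GMap.Sub {R M M' : Type*} [CommRing R] [AddCommGroup M] [AddCommGroup M'] [Module R M]
    [Module R M'] (c : GMap R M M') (P : Submodule R M) (P' : Submodule R M') : Prop where
  d_mem : ∀ x ∈ P, c.d x ∈ P
  d_mem' : ∀ x ∈ P', c.d' x ∈ P'
  map : ∀ x ∈ P, c.φ x ∈ P'

namespace GMap

variable {R M M' : Type*} [CommRing R] [AddCommGroup M] [AddCommGroup M'] [Module R M]
    [Module R M'] (c : GMap R M M')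



/-- `H_n(P/Q) → H_n(P'/Q')` is injective -/
def Inj (P Q : Submodule R M) (P' Q' : Submodule R M') (n : ℕ) : Prop :=
  ∀ z ∈ P, z ∈ c.G n → c.d z ∈ Q → ∀ w ∈ P', w ∈ c.G' (n + 1) → c.φ z - c.d' w ∈ Q' →
    ∃ v ∈ P, v ∈ c.G (n + 1) ∧ z - c.d v ∈ Q

/-- `H_n(P/Q) → H_n(P'/Q')` is surjective -/
def Sur (P Q : Submodule R M) (P' Q' : Submodule R M') (n : ℕ) : Prop :=
  ∀ z' ∈ P', z' ∈ c.G' n → c.d' z' ∈ Q' → ∃ z ∈ P, z ∈ c.G n ∧ c.d z ∈ Q ∧
    ∃ w ∈ P', w ∈ c.G' (n + 1) ∧ z' - c.φ z - c.d' w ∈ Q'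

/-- surjective in degrees `≤ n` and injective in degrees `< n` -/
def Conn (P Q : Submodule R M) (P' Q' : Submodule R M') (n : ℕ) : Prop :=
  (∀ k, k ≤ n → c.Sur P Q P' Q' k) ∧ (∀ k, k < n → c.Inj P Q P' Q' k)

variable {c}
variable {P Q S : Submodule R M} {P' Q' S' : Submodule R M'}

section Four

variable (hQ : c.Sub Q Q') (hP : c.Sub P P') (hS : c.Sub S S') (hQP : Q ≤ P) (hQP' : Q' ≤ P')
  (hPS : P ≤ S) (hPS' : P' ≤ S')
include hQ hP hS hQP hQP' hPS hPS'










end Four

end GMap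

end Crest.Agent.R204.HA683
end

-- ▼ part R204/HAFil_683
section

/-!
# Row 204, leaf A7, part b (helper683): filtered comparison, vanishing ranges, conversion to `Hd`
-/

set_option autoImplicit false

namespace Crest.Agent.R204.HA683

open Function HA498

namespace GMap

variable {R M M' : Type*} [CommRing R] [AddCommGroup M] [AddCommGroup M'] [Module R M]
    [Module R M'] {c : GMap R M M'} {Q : Submodule R M} {Q' : Submodule R M'}
    {F : ℕ → Submodule R M} {F' : ℕ → Submodule R M'}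

/-! ### filtrations -/







theorem Conn.mono {P Q : Submodule R M} {P' Q' : Submodule R M'} {m n : ℕ} (h : c.Conn P Q P' Q' n)
    (hmn : m ≤ n) : c.Conn P Q P' Q' m :=
  ⟨fun k hk => h.1 k (by omega), fun k hk => h.2 k (by omega)⟩



end GMap

/-! ### vanishing -/

section Van

variable {R M : Type*} [CommRing R] [AddCommGroup M] [Module R M] {d : M →ₗ[R] M}
  {G : ℕ → Submodule R M}

/-- `H_n(P/Q) = 0` -/
def Van (d : M →ₗ[R] M) (G : ℕ → Submodule R M) (P Q : Submodule R M) (n : ℕ) : Prop :=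
  ∀ z ∈ P, z ∈ G n → d z ∈ Q → ∃ v ∈ P, v ∈ G (n + 1) ∧ z - d v ∈ Q


variable {P Q S : Submodule R M}










variable {F : ℕ → Submodule R M}




end Van

end Crest.Agent.R204.HA683
end

-- ▼ part R204/HAHd_683
section

/-!
# Row 204, leaf A7, part b (helper683): projections of an internal grading, conversion of
`Inj` / `Sur` / `Van` to statements about `Hd`, transfer along presentations of `P / Q`.
-/

set_option autoImplicit false

namespace Crest.Agent.R204.HA683

open Function HA498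

/-! ### projections -/

/-- `p n` are the projections of the internal grading `G` -/
structure Prj {R M : Type*} [CommRing R] [AddCommGroup M] [Module R M] (G : ℕ → Submodule R M)
    (p : ℕ → M →ₗ[R] M) : Prop where
  mem : ∀ n x, p n x ∈ G n
  same : ∀ n, ∀ x ∈ G n, p n x = x
  ne : ∀ m n, m ≠ n → ∀ x ∈ G m, p n x = 0
  sum : ∀ x, ∃ N, ∑ i ∈ Finset.range N, p i x = x

section Prj

variable {R M M' : Type*} [CommRing R] [AddCommGroup M] [AddCommGroup M'] [Module R M] [Module R M']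
  {d : M →ₗ[R] M} {G : ℕ → Submodule R M} {p : ℕ → M →ₗ[R] M}
  {d' : M' →ₗ[R] M'} {G' : ℕ → Submodule R M'} {p' : ℕ → M' →ₗ[R] M'}

namespace Prj

theorem iSup_eq (h : Prj G p) : iSup G = ⊤ := by
  refine eq_top_iff.2 fun x _ => ?_
  obtain ⟨N, hN⟩ := h.sum x
  rw [← hN]
  exact Submodule.sum_mem _ fun i _ => Submodule.mem_iSup_of_mem i (h.mem i x)



/-- homogeneous induction -/
theorem induction (h : Prj G p) {C : M → Prop} (hom : ∀ n, ∀ x ∈ G n, C x) (zero : C 0)
    (add : ∀ x y, C x → C y → C (x + y)) (x : M) : C x := by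
  have hx : x ∈ iSup G := by rw [h.iSup_eq]; trivial
  exact Submodule.iSup_induction _ (motive := C) hx hom zero add

theorem proj_d (h : Prj G p) (hd : DGr d G) (n : ℕ) (x : M) : p n (d x) = d (p (n + 1) x) := by
  refine h.induction (C := fun x => p n (d x) = d (p (n + 1) x)) ?_ (by simp) ?_ x
  · intro m y hy
    rcases m with _ | m
    · rw [hd.zero y hy, map_zero, h.ne 0 (n + 1) (by omega) y hy, map_zero]
    · by_cases hmn : m = n
      · subst hmn
        rw [h.same _ _ hy, h.same _ _ (hd.succ _ _ hy)]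
      · rw [h.ne m n hmn _ (hd.succ _ _ hy), h.ne (m + 1) (n + 1) (by omega) y hy, map_zero]
  · intro y z hy hz
    rw [map_add, map_add, map_add, map_add, hy, hz]



theorem comm (h : Prj G p) (h' : Prj G' p') {φ : M →ₗ[R] M'} (hφ : ∀ n, ∀ x ∈ G n, φ x ∈ G' n)
    (n : ℕ) (x : M) : φ (p n x) = p' n (φ x) := by
  refine h.induction (C := fun x => φ (p n x) = p' n (φ x)) ?_ (by simp) ?_ x
  · intro m y hy
    by_cases hmn : m = n
    · subst hmn
      rw [h.same _ _ hy, h'.same _ _ (hφ _ _ hy)]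
    · rw [h.ne m n hmn y hy, h'.ne m n hmn _ (hφ _ _ hy), map_zero]
  · intro y z hy hz
    rw [map_add, map_add, map_add, map_add, hy, hz]

/-- a homogeneous boundary bounds a homogeneous chain -/
theorem hom_bd (h : Prj G p) (hd : DGr d G) {n : ℕ} {z w : M} (hz : z ∈ G n) (hw : d w = z) :
    ∃ v ∈ G (n + 1), d v = z :=
  ⟨p (n + 1) w, h.mem _ _, by rw [← h.proj_d hd, hw, h.same _ _ hz]⟩


/-- homogeneous submodules -/
def Homog (p : ℕ → M →ₗ[R] M) (P : Submodule R M) : Prop := ∀ x ∈ P, ∀ n, p n x ∈ P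





/-- the projections on a homogeneous submodule -/
theorem sub (h : Prj G p) {P : Submodule R M} (hP : Homog p P) :
    Prj (fun n => (G n).comap P.subtype) (fun n => (p n).restrict (fun x hx => hP x hx n)) where
  mem n x := h.mem n x
  same n x hx := Subtype.ext (h.same n x hx)
  ne m n hmn x hx := Subtype.ext (h.ne m n hmn x hx)
  sum x := by
    obtain ⟨N, hN⟩ := h.sum x
    refine ⟨N, Subtype.ext ?_⟩
    rw [← hN]
    simp only [Submodule.coe_sum]
    rw [hN]
    refine Eq.trans (Finset.sum_congr rfl fun i _ => ?_) hN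
    rfl


end Prj


end Prj

/-! ### conversion to `Hd` -/

namespace GMap

variable {R M M' : Type*} [CommRing R] [AddCommGroup M] [AddCommGroup M'] [Module R M]
    [Module R M'] {c : GMap R M M'} {p : ℕ → M →ₗ[R] M} {p' : ℕ → M' →ₗ[R] M'}

theorem sq (c : GMap R M M') : c.φ ∘ₗ c.d = c.d' ∘ₗ c.φ := LinearMap.ext c.comm

theorem inj_iff (h' : Prj c.G' p') (h : Prj c.G p) {n : ℕ} : c.Inj ⊤ ⊥ ⊤ ⊥ n ↔
    ∀ x ∈ grHd c.d (c.G n), Hd.map c.φ c.sq x = 0 → x = 0 := by
  constructor
  · intro H x hx h0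
    obtain ⟨z, hz, hdz, rfl⟩ := mem_grHd.1 hx
    rw [Hd.map_mk, Hd.mk_eq_zero] at h0
    obtain ⟨w, hw⟩ := h0
    obtain ⟨w, hwG, hw⟩ := h'.hom_bd c.tgt (c.deg _ _ hz) hw
    obtain ⟨v, -, -, hv⟩ := H z trivial hz ((Submodule.mem_bot R).2 hdz) w trivial hwG
      ((Submodule.mem_bot R).2 (by rw [hw, sub_self]))
    exact Hd.mk_eq_zero.2 ⟨v, (sub_eq_zero.1 ((Submodule.mem_bot R).1 hv)).symm⟩
  · intro H z _ hz hdz w _ hw hzw
    rw [Submodule.mem_bot] at hdz hzw
    have := H (Hd.mk c.d z hdz) (mk_mem_grHd hz hdz) (by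
      rw [Hd.map_mk, Hd.mk_eq_zero]
      exact ⟨w, (sub_eq_zero.1 hzw).symm⟩)
    rw [Hd.mk_eq_zero] at this
    obtain ⟨v, hv⟩ := this
    obtain ⟨v, hvG, hv⟩ := h.hom_bd c.src hz hv
    exact ⟨v, trivial, hvG, (Submodule.mem_bot R).2 (by rw [hv, sub_self])⟩





end GMap

section

variable {R M : Type*} [CommRing R] [AddCommGroup M] [Module R M] {d : M →ₗ[R] M}
  {G : ℕ → Submodule R M} {p : ℕ → M →ₗ[R] M}







end

/-! ### presentations `P / Q ≅ A` with a degree shift -/

/-- `π : P → A` presents the differential module `(A, e, L)` as `P / Q`, degree `n` of `A` being degree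
`n + s` of `P` -/
structure Pres {R M A : Type*} [CommRing R] [AddCommGroup M] [Module R M] [AddCommGroup A] [Module R A]
    (d : M →ₗ[R] M) (G : ℕ → Submodule R M) (P Q : Submodule R M) (s : ℕ) (e : A →ₗ[R] A)
    (L : ℕ → Submodule R A) (π : P →ₗ[R] A) : Prop where
  d_mem : ∀ x ∈ P, d x ∈ P
  ker : ∀ x : P, π x = 0 ↔ (x : M) ∈ Q
  comm : ∀ x : P, π ⟨d x, d_mem x x.2⟩ = e (π x)
  deg : ∀ n, ∀ x : P, (x : M) ∈ G (n + s) → π x ∈ L n
  lift : ∀ n, ∀ a ∈ L n, ∃ x : P, (x : M) ∈ G (n + s) ∧ π x = a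

section Pres

variable {R M A : Type*} [CommRing R] [AddCommGroup M] [Module R M] [AddCommGroup A] [Module R A]
  {d : M →ₗ[R] M} {G : ℕ → Submodule R M} {P Q : Submodule R M} {s : ℕ} {e : A →ₗ[R] A}
  {L : ℕ → Submodule R A} {π : P →ₗ[R] A}



end Pres

namespace GMap

variable {R M M' A A' : Type*} [CommRing R] [AddCommGroup M] [AddCommGroup M'] [Module R M]
    [Module R M'] [AddCommGroup A] [AddCommGroup A'] [Module R A] [Module R A']
    {c : GMap R M M'} {a : GMap R A A'} {P Q : Submodule R M} {P' Q' : Submodule R M'} {s : ℕ}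
    {π : P →ₗ[R] A} {π' : P' →ₗ[R] A'}

variable (hP : c.Sub P P') (h : Pres c.d c.G P Q s a.d a.G π)
  (h' : Pres c.d' c.G' P' Q' s a.d' a.G' π')
  (hπ : ∀ x : P, π' ⟨c.φ x, hP.map x x.2⟩ = a.φ (π x))
include h h' hπ





end GMap

end Crest.Agent.R204.HA683
end

-- ▼ part R204/Rel_683

/-!
# Row 204, leaf A7, part b (helper683): relative homology of an injective simplicial map

For `i : SS.Hom A K` with `hi : SInj i` (all `i.app n` injective):

* `N_map_injective hi`; `isDgn_of_map hi`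
* `NRel R i = N R K / N R A`, `NRel.bd`, `HRel R i = Hd (NRel.bd R i)`, `NRel.gr`, `HRel.gr`
* `ses hi : HA498.SES ...`, so `HA498.delta (ses hi)`, `exact_fg`, ... ; `delta_gr_succ`, `delta_gr_zero`
* naturality: `NRel.map`, `HRel.map`, `delta_map`
* `NRel_map_bijective` : relative homeomorphisms (union/excision, quotients, pushouts) induce
  isomorphisms `NRel R i → NRel R j`; `HRel_map_bijective`
* five lemma: `HRel_bijective_of`, `H_bijective_of`
-/

set_option autoImplicit false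

noncomputable section

namespace Crest.Agent.R204.HA683

open Finsupp Function HA498 Gr334

variable {A K B L : SS}

/-- injective simplicial maps -/
def SInj (i : SS.Hom A K) : Prop := ∀ n, Injective (i.app n)

theorem isDgn_of_map {i : SS.Hom A K} (hi : SInj i) {n : ℕ} {x : A.S n}
    (h : Ch.IsDgn K ⟨n, i.app n x⟩) : Ch.IsDgn A ⟨n, x⟩ := by
  rcases n with _ | n
  · exact h.elim
  · obtain ⟨j, y, hy⟩ := h
    have h1 : y = i.app n (A.act (Op.face j.castSucc) x) := by
      rw [i.nat, hy, ← K.act_comp, Ch.face_dgn_eq _ _ (Or.inl rfl), K.act_id]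
    refine ⟨j, A.act (Op.face j.castSucc) x, hi _ ?_⟩
    rw [i.nat, ← h1, hy]


variable (R : Type) [CommRing R]


theorem N_map_injective {i : SS.Hom A K} (hi : SInj i) : Injective (N.map R i) := by
  classical
  rw [injective_iff_map_eq_zero]
  intro c hc
  obtain ⟨c, rfl⟩ := Submodule.Quotient.mk_surjective _ c
  rw [N.map_mk, Submodule.Quotient.mk_eq_zero, mem_Dg] at hc
  rw [Submodule.Quotient.mk_eq_zero, mem_Dg]
  rintro ⟨n, x⟩ ht
  refine isDgn_of_map hi (hc ⟨n, i.app n x⟩ ?_)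
  have hinj : Injective (fun t : A.T => (⟨t.1, i.app t.1 t.2⟩ : K.T)) := by
    rintro ⟨n, x⟩ ⟨m, y⟩ h
    obtain ⟨h1, h2⟩ := Sigma.mk.inj_iff.1 h
    change n = m at h1
    subst h1
    have h3 : x = y := hi _ (eq_of_heq h2)
    rw [h3]
  rw [Finsupp.mem_support_iff] at ht ⊢
  change Finsupp.mapDomain _ c ((fun t : A.T => (⟨t.1, i.app t.1 t.2⟩ : K.T)) ⟨n, x⟩) ≠ 0
  rwa [Finsupp.mapDomain_apply hinj]




/-- relative normalised chains -/
abbrev NRel (i : SS.Hom A K) : Type := N R K ⧸ LinearMap.range (N.map R i)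

theorem range_stable (i : SS.Hom A K) {x : N R K} (hx : x ∈ LinearMap.range (N.map R i)) :
    N.bd R K x ∈ LinearMap.range (N.map R i) := by
  obtain ⟨y, rfl⟩ := hx
  exact ⟨N.bd R A y, LinearMap.congr_fun (N.map_bd i) y⟩

/-- boundary of relative chains -/
def NRel.bd (i : SS.Hom A K) : NRel R i →ₗ[R] NRel R i :=
  Submodule.mapQ _ _ (N.bd R K) fun _ hx => range_stable R i hx

/-- the projection to relative chains -/
def NRel.pi (i : SS.Hom A K) : N R K →ₗ[R] NRel R i := Submodule.mkQ _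

theorem NRel.pi_surj (i : SS.Hom A K) : Surjective (NRel.pi R i) := Submodule.mkQ_surjective _

theorem NRel.pi_eq_zero (i : SS.Hom A K) {x : N R K} :
    NRel.pi R i x = 0 ↔ ∃ y, N.map R i y = x := by
  change Submodule.mkQ _ x = 0 ↔ _
  rw [Submodule.mkQ_apply, Submodule.Quotient.mk_eq_zero, LinearMap.mem_range]

theorem NRel.bd_pi (i : SS.Hom A K) (x : N R K) :
    NRel.bd R i (NRel.pi R i x) = NRel.pi R i (N.bd R K x) := rfl

theorem NRel.bd_bd (i : SS.Hom A K) (x : NRel R i) : NRel.bd R i (NRel.bd R i x) = 0 := by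
  obtain ⟨x, rfl⟩ := NRel.pi_surj R i x
  rw [NRel.bd_pi, NRel.bd_pi, N.bd_bd, map_zero]

/-- the grading of relative chains -/
def NRel.gr (i : SS.Hom A K) (n : ℕ) : Submodule R (NRel R i) := (N.gr R K n).map (NRel.pi R i)

/-- relative homology -/
abbrev HRel (i : SS.Hom A K) : Type := Hd (NRel.bd R i)

/-- the grading of relative homology -/
def HRel.gr (i : SS.Hom A K) (n : ℕ) : Submodule R (HRel R i) := grHd (NRel.bd R i) (NRel.gr R i n)

theorem homog_range (i : SS.Hom A K) : Prj.Homog (prN R K) (LinearMap.range (N.map R i)) := by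
  rintro _ ⟨y, rfl⟩ n
  exact ⟨prN R A n y, (prN_map i n y).symm⟩

/-- projections of relative chains -/
def NRel.pr (i : SS.Hom A K) (n : ℕ) : NRel R i →ₗ[R] NRel R i :=
  Submodule.mapQ _ _ (prN R K n) fun _ hx => homog_range R i _ hx n




/-- the short exact sequence of a pair -/
theorem ses {i : SS.Hom A K} (hi : SInj i) :
    SES (N.bd R A) (N.bd R K) (NRel.bd R i) (N.map R i) (NRel.pi R i) where
  sq' := N.bd_bd
  sq := N.bd_bd
  hf := N.map_bd i
  hg := rfl
  inj := N_map_injective R hi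
  ex x := by rw [NRel.pi_eq_zero]; rfl
  surj := NRel.pi_surj R i

/-- `H(K) → H(K, A)` -/
def HRel.pi (i : SS.Hom A K) : H R K →ₗ[R] HRel R i := Hd.map (NRel.pi R i) rfl

/-- the connecting map of a pair -/
def HRel.delta {i : SS.Hom A K} (hi : SInj i) : HRel R i →ₗ[R] H R A := HA498.delta (ses R hi)





theorem mem_gr_of_map {i : SS.Hom A K} (hi : SInj i) {n : ℕ} {y : N R A}
    (h : N.map R i y ∈ N.gr R K n) : y ∈ N.gr R A n := by
  rw [mem_gr_iff] at h ⊢
  rw [prN_map] at h
  exact N_map_injective R hi h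




/-! ### naturality -/

/-- a commutative square -/
structure Sq (i : SS.Hom A K) (j : SS.Hom B L) (g : SS.Hom A B) (f : SS.Hom K L) : Prop where
  sq : ∀ (n : ℕ) (x : A.S n), f.app n (i.app n x) = j.app n (g.app n x)

variable {R}

section Nat

variable {i : SS.Hom A K} {j : SS.Hom B L} {g : SS.Hom A B} {f : SS.Hom K L}

theorem Sq.N_map (h : Sq i j g f) (x : N R A) :
    N.map R f (N.map R i x) = N.map R j (N.map R g x) := by
  have : N.map R f ∘ₗ N.map R i = N.map R j ∘ₗ N.map R g := by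
    refine N_ext fun n x => ?_
    simp only [LinearMap.comp_apply, N.map_sx, h.sq]
  exact LinearMap.congr_fun this x

/-- the map of relative chains -/
def NRel.map (h : Sq i j g f) : NRel R i →ₗ[R] NRel R j :=
  Submodule.mapQ _ _ (N.map R f) (by
    rintro _ ⟨y, rfl⟩
    exact ⟨N.map R g y, (h.N_map y).symm⟩)


theorem NRel.map_bd (h : Sq i j g f) :
    NRel.map h ∘ₗ NRel.bd R i = NRel.bd R j ∘ₗ NRel.map h := by
  refine LinearMap.ext fun x => ?_
  obtain ⟨x, rfl⟩ := NRel.pi_surj R i x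
  change NRel.pi R j (N.map R f (N.bd R K x)) = NRel.pi R j (N.bd R L (N.map R f x))
  rw [show N.map R f (N.bd R K x) = N.bd R L (N.map R f x) from LinearMap.congr_fun (N.map_bd f) x]

/-- the map of relative homology -/
def HRel.map (h : Sq i j g f) : HRel R i →ₗ[R] HRel R j := Hd.map (NRel.map h) (NRel.map_bd h)







/-! ### relative homeomorphisms -/

/-- `f : K → L` is bijective from the simplices of `K` not in `A` to the simplices of `L` not in `B` -/
structure RelHomeo (i : SS.Hom A K) (j : SS.Hom B L) (g : SS.Hom A B) (f : SS.Hom K L) : Prop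
    extends Sq i j g f where
  cover : ∀ (n : ℕ) (y : L.S n), (∃ b, j.app n b = y) ∨ ∃ x, f.app n x = y
  disj : ∀ (n : ℕ) (x : K.S n) (b : B.S n), f.app n x = j.app n b → ∃ a, i.app n a = x
  inj : ∀ (n : ℕ) (x x' : K.S n), f.app n x = f.app n x' → x = x' ∨ ∃ a, i.app n a = x


open Classical in
/-- the inverse on relative chains -/
def RelHomeo.inv (_h : RelHomeo i j g f) : N R L →ₗ[R] NRel R i :=
  (nbasis R L).constr R fun t =>
    if e : ∃ x : K.S t.1.1, (¬ ∃ a, i.app t.1.1 a = x) ∧ f.app t.1.1 x = t.1.2 then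
      NRel.pi R i (N.sx R e.choose) else 0








end Nat

end Crest.Agent.R204.HA683
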