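import Crest.Agent.R204.Fs_348
import Crest.Agent.R204.ThetaSS_265
import Crest.Agent.R204.Thr_328
import Crest.Agent.R204.Pw_742
import Crest.Agent.R204.Gr_334
import Crest.Agent.R204.HtpInv_334
import Crest.Agent.R204.C5T_557

-- ▼ part R204/Thm_348
section

/-!
# Maps into the thread model (row 204, block G)

`Ps.tw`, `Fs.tw` : transport of threads along a vertexwise injective, natural family of maps of threads.
Relabelling homotopies, and: `H (Fs U a × Fs U b) → H (Fs (U ⊕ U) (a+b))` is onto when `C(a+b,a)` is odd.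
-/

set_option autoImplicit false

namespace Crest.Agent.R204.Fs348

open Finsupp Tr348

section img

variable {U W : Type} {m n : ℕ}

open Classical in
/-- image of a set of threads -/
noncomputable def im (G : (Fin (n + 1) → U) → Fin (n + 1) → W) (A : Finset (Fin (n + 1) → U)) :
    Finset (Fin (n + 1) → W) := A.image G

theorem mem_im {G : (Fin (n + 1) → U) → Fin (n + 1) → W} {A : Finset (Fin (n + 1) → U)}
    {g : Fin (n + 1) → W} : g ∈ im G A ↔ ∃ a ∈ A, G a = g := by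
  simp [im]

theorem im_mono {G : (Fin (n + 1) → U) → Fin (n + 1) → W} {A B : Finset (Fin (n + 1) → U)}
    (h : A ⊆ B) : im G A ⊆ im G B := by
  intro g hg
  obtain ⟨a, ha, rfl⟩ := mem_im.1 hg
  exact mem_im.2 ⟨a, h ha, rfl⟩

/-- vertexwise injective on `A` -/
def VI (G : (Fin (n + 1) → U) → Fin (n + 1) → W) (A : Finset (Fin (n + 1) → U)) : Prop :=
  ∀ i, Set.InjOn (fun c => G c i) (A : Set (Fin (n + 1) → U))

theorem VI.ci {G : (Fin (n + 1) → U) → Fin (n + 1) → W} {A : Finset (Fin (n + 1) → U)}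
    (h : VI G A) : CI (im G A) := by
  intro i x hx y hy e
  obtain ⟨a, ha, rfl⟩ := mem_im.1 hx
  obtain ⟨b, hb, rfl⟩ := mem_im.1 hy
  rw [h i ha hb e]

theorem VI.injOn {G : (Fin (n + 1) → U) → Fin (n + 1) → W} {A : Finset (Fin (n + 1) → U)}
    (h : VI G A) : Set.InjOn G (A : Set (Fin (n + 1) → U)) :=
  fun _ ha _ hb e => h 0 ha hb (congrFun e 0)

theorem VI.card {G : (Fin (n + 1) → U) → Fin (n + 1) → W} {A : Finset (Fin (n + 1) → U)}
    (h : VI G A) : (im G A).card = A.card := by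
  classical
  unfold im
  exact Finset.card_image_of_injOn h.injOn

theorem VI.mono {G : (Fin (n + 1) → U) → Fin (n + 1) → W} {A B : Finset (Fin (n + 1) → U)}
    (h : VI G B) (hAB : A ⊆ B) : VI G A := fun i => (h i).mono (by exact_mod_cast hAB)

theorem re_im {G : (Fin (n + 1) → U) → Fin (n + 1) → W} {G' : (Fin (m + 1) → U) → Fin (m + 1) → W}
    {A : Finset (Fin (n + 1) → U)} (f : Fin (m + 1) → Fin (n + 1))
    (h : ∀ c ∈ A, G c ∘ f = G' (c ∘ f)) : re f (im G A) = im G' (re f A) := by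
  ext g
  simp only [mem_re, mem_im]
  constructor
  · rintro ⟨_, ⟨a, ha, rfl⟩, rfl⟩
    exact ⟨a ∘ f, ⟨a, ha, rfl⟩, (h a ha).symm⟩
  · rintro ⟨_, ⟨a, ha, rfl⟩, rfl⟩
    exact ⟨G a, ⟨a, ha, rfl⟩, h a ha⟩

end img

/-- twist a map to `Ps U v a` by maps of threads -/
noncomputable def Ps.tw {K : SS} {U W : Type} {v a : ℕ} (p : SS.Hom K (Ps U v a))
    (G : ∀ n, K.S n → (Fin (n + 1) → U) → Fin (n + 1) → W)
    (hi : ∀ n x, VI (G n x) (p.app n x).1.1)
    (hn : ∀ (m n : ℕ) (f : Op m n) (x : K.S n), ∀ c ∈ (p.app n x).1.1,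
      G n x c ∘ f = G m (K.act f x) (c ∘ f)) : SS.Hom K (Ps W v a) :=
  ⟨fun n x => ⟨(im (G n x) (p.app n x).1.1, im (G n x) (p.app n x).1.2),
    (hi n x).ci, by rw [(hi n x).card, (p.app n x).2.2.1], im_mono (p.app n x).2.2.2.1,
    by rw [((hi n x).mono (p.app n x).2.2.2.1).card, (p.app n x).2.2.2.2]⟩,
   fun {m n} f x => by
    refine Subtype.ext (Prod.ext ?_ ?_)
    · show im (G m (K.act f x)) (p.app m (K.act f x)).1.1 = re f (im (G n x) (p.app n x).1.1)
      rw [re_im f (hn m n f x), p.nat]; rfl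
    · show im (G m (K.act f x)) (p.app m (K.act f x)).1.2 = re f (im (G n x) (p.app n x).1.2)
      rw [re_im f (fun c hc => hn m n f x c ((p.app n x).2.2.2.1 hc)), p.nat]; rfl⟩

/-- twist a map to `Fs U v` by maps of threads -/
noncomputable def Fs.tw {K : SS} {U W : Type} {v : ℕ} (p : SS.Hom K (Fs U v))
    (G : ∀ n, K.S n → (Fin (n + 1) → U) → Fin (n + 1) → W)
    (hi : ∀ n x, VI (G n x) (p.app n x).1)
    (hn : ∀ (m n : ℕ) (f : Op m n) (x : K.S n), ∀ c ∈ (p.app n x).1,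
      G n x c ∘ f = G m (K.act f x) (c ∘ f)) : SS.Hom K (Fs W v) :=
  ⟨fun n x => ⟨im (G n x) (p.app n x).1,
    (hi n x).ci, by rw [(hi n x).card, (p.app n x).2.2]⟩,
   fun {m n} f x => by
    refine Subtype.ext ?_
    show im (G m (K.act f x)) (p.app m (K.act f x)).1 = re f (im (G n x) (p.app n x).1)
    rw [re_im f (hn m n f x), p.nat]; rfl⟩

/-! ### homotopies -/

/-- `i`-end of the cylinder -/
def cyl (K : SS) (i : Fin 2) : SS.Hom K (K.prod (SS.std 1)) :=
  SS.pair (SS.Hom.id K) ⟨fun _ _ => ⟨fun _ => i, fun _ _ _ => le_rfl⟩, fun _ _ => rfl⟩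

/-- colour of a vertex of a simplex of `Δ¹` -/
def tm {n : ℕ} (θ : (SS.std 1).S n) : Fin (n + 1) → Fin 2 :=
  let g : Op n 1 := θ
  g



/-- homotopy invariance (block A6a, same as `SpecA.HomotopyInv`) -/
def HInv : Prop := ∀ (R : Type) [CommRing R] (K L : SS) (h : SS.Hom (K.prod (SS.std 1)) L),
  H.map R (SS.Hom.comp h (cyl K 0)) = H.map R (SS.Hom.comp h (cyl K 1))

/-- simplicially homotopic (one step) -/
def Htp {K L : SS} (f g : SS.Hom K L) : Prop := ∃ h : SS.Hom (K.prod (SS.std 1)) L,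
  SS.Hom.comp h (cyl K 0) = f ∧ SS.Hom.comp h (cyl K 1) = g

theorem HInv.eq (hI : HInv) (R : Type) [CommRing R] {K L : SS} {f g : SS.Hom K L} (h : Htp f g) :
    H.map R f = H.map R g := by
  obtain ⟨h, rfl, rfl⟩ := h
  exact hI R K L h

theorem Ch.map_comp' (R : Type) [CommRing R] {K L M : SS} (g : SS.Hom L M) (f : SS.Hom K L)
    (c : Ch R K) : Ch.map R (SS.Hom.comp g f) c = Ch.map R g (Ch.map R f c) := by
  induction c using Finsupp.induction_linear with
  | zero => simp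
  | add f g hf hg => simp only [map_add, hf, hg]
  | single t r => obtain ⟨n, x⟩ := t; simp [SS.Hom.comp]

theorem Ch.map_id' (R : Type) [CommRing R] {K : SS} (c : Ch R K) :
    Ch.map R (SS.Hom.id K) c = c := by
  induction c using Finsupp.induction_linear with
  | zero => simp
  | add f g hf hg => simp only [map_add, hf, hg]
  | single t r => obtain ⟨n, x⟩ := t; simp [SS.Hom.id]

theorem H.map_comp' (R : Type) [CommRing R] {K L M : SS} (g : SS.Hom L M) (f : SS.Hom K L)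
    (x : H R K) : H.map R (SS.Hom.comp g f) x = H.map R g (H.map R f x) := by
  obtain ⟨z, hz, rfl⟩ := Hd.mk_surj _ x
  rw [H.map, H.map, H.map, Hd.map_mk, Hd.map_mk, Hd.map_mk, Hd.mk_eq_mk]
  refine ⟨0, ?_⟩
  rw [map_zero, eq_comm, sub_eq_zero]
  obtain ⟨c, rfl⟩ := Submodule.Quotient.mk_surjective _ z
  rw [N.map_mk, N.map_mk, N.map_mk, Ch.map_comp']

theorem H.map_id' (R : Type) [CommRing R] {K : SS} (x : H R K) : H.map R (SS.Hom.id K) x = x := by
  obtain ⟨z, hz, rfl⟩ := Hd.mk_surj _ x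
  rw [H.map, Hd.map_mk, Hd.mk_eq_mk]
  refine ⟨0, ?_⟩
  rw [map_zero, eq_comm, sub_eq_zero]
  obtain ⟨c, rfl⟩ := Submodule.Quotient.mk_surjective _ z
  rw [N.map_mk, Ch.map_id']

/-- homotopy between twists: threads moved by `G`, resp. `G'`, at the vertices of colour `0`, resp. `1` -/
theorem Ps.tw_htp {K : SS} {U W : Type} {v a : ℕ} (p : SS.Hom K (Ps U v a))
    (G G' : ∀ n, K.S n → (Fin (n + 1) → U) → Fin (n + 1) → W)
    (hi : ∀ n x, VI (G n x) (p.app n x).1.1) (hi' : ∀ n x, VI (G' n x) (p.app n x).1.1)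
    (hn : ∀ (m n : ℕ) (f : Op m n) (x : K.S n), ∀ c ∈ (p.app n x).1.1,
      G n x c ∘ f = G m (K.act f x) (c ∘ f))
    (hn' : ∀ (m n : ℕ) (f : Op m n) (x : K.S n), ∀ c ∈ (p.app n x).1.1,
      G' n x c ∘ f = G' m (K.act f x) (c ∘ f)) :
    Htp (Ps.tw p G hi hn) (Ps.tw p G' hi' hn') := by
  refine ⟨Ps.tw (SS.Hom.comp p (SS.fst K (SS.std 1)))
    (fun n x c i => if tm x.2 i = 0 then G n x.1 c i else G' n x.1 c i) ?_ ?_, ?_, ?_⟩
  · intro n x i
    by_cases h : tm x.2 i = 0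
    · simp only [h, if_true]; exact hi n x.1 i
    · simp only [h, if_false]; exact hi' n x.1 i
  · intro m n f x c hc
    funext i
    have h1 := congrFun (hn m n f x.1 c hc) i
    have h2 := congrFun (hn' m n f x.1 c hc) i
    simp only [Function.comp_apply] at h1 h2 ⊢
    show (if tm x.2 (f i) = 0 then G n x.1 c (f i) else G' n x.1 c (f i)) =
      (if tm x.2 (f i) = 0 then _ else _)
    rw [h1, h2]; rfl
  · refine SS.Hom.ext (funext fun n => funext fun x => Subtype.ext (Prod.ext ?_ ?_)) <;>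
    · show im _ _ = im _ _
      congr 1
  · refine SS.Hom.ext (funext fun n => funext fun x => Subtype.ext (Prod.ext ?_ ?_)) <;>
    · show im _ _ = im _ _
      congr 1

/-- homotopy between twists, `Fs` version -/
theorem Fs.tw_htp {K : SS} {U W : Type} {v : ℕ} (p : SS.Hom K (Fs U v))
    (G G' : ∀ n, K.S n → (Fin (n + 1) → U) → Fin (n + 1) → W)
    (hi : ∀ n x, VI (G n x) (p.app n x).1) (hi' : ∀ n x, VI (G' n x) (p.app n x).1)
    (hn : ∀ (m n : ℕ) (f : Op m n) (x : K.S n), ∀ c ∈ (p.app n x).1,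
      G n x c ∘ f = G m (K.act f x) (c ∘ f))
    (hn' : ∀ (m n : ℕ) (f : Op m n) (x : K.S n), ∀ c ∈ (p.app n x).1,
      G' n x c ∘ f = G' m (K.act f x) (c ∘ f)) :
    Htp (Fs.tw p G hi hn) (Fs.tw p G' hi' hn') := by
  refine ⟨Fs.tw (SS.Hom.comp p (SS.fst K (SS.std 1)))
    (fun n x c i => if tm x.2 i = 0 then G n x.1 c i else G' n x.1 c i) ?_ ?_, ?_, ?_⟩
  · intro n x i
    by_cases h : tm x.2 i = 0
    · simp only [h, if_true]; exact hi n x.1 i
    · simp only [h, if_false]; exact hi' n x.1 i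
  · intro m n f x c hc
    funext i
    have h1 := congrFun (hn m n f x.1 c hc) i
    have h2 := congrFun (hn' m n f x.1 c hc) i
    simp only [Function.comp_apply] at h1 h2 ⊢
    show (if tm x.2 (f i) = 0 then G n x.1 c (f i) else G' n x.1 c (f i)) =
      (if tm x.2 (f i) = 0 then _ else _)
    rw [h1, h2]; rfl
  · refine SS.Hom.ext (funext fun n => funext fun x => Subtype.ext ?_)
    show im _ _ = im _ _
    congr 1
  · refine SS.Hom.ext (funext fun n => funext fun x => Subtype.ext ?_)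
    show im _ _ = im _ _
    congr 1

/-! ### relabelling -/

variable {U W X : Type}

theorem vi_comp {n : ℕ} {A : Finset (Fin (n + 1) → U)} (hA : CI A) {φ : U → W}
    (hφ : Function.Injective φ) : VI (fun c i => φ (c i)) A :=
  fun i _ ha _ hb e => hA i ha hb (hφ e)

/-- relabelling along an injection -/
noncomputable def Fs.rel (v : ℕ) (φ : U → W) (hφ : Function.Injective φ) :
    SS.Hom (Fs U v) (Fs W v) :=
  Fs.tw (SS.Hom.id _) (fun _ _ c i => φ (c i)) (fun _ x => vi_comp x.2.1 hφ)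
    (fun _ _ _ _ _ _ => rfl)

/-- relabelling along an injection -/
noncomputable def Ps.rel (v a : ℕ) (φ : U → W) (hφ : Function.Injective φ) :
    SS.Hom (Ps U v a) (Ps W v a) :=
  Ps.tw (SS.Hom.id _) (fun _ _ c i => φ (c i)) (fun _ x => vi_comp x.2.1 hφ)
    (fun _ _ _ _ _ _ => rfl)

theorem Fs.rel_htp (v : ℕ) (φ ψ : U → W) (hφ : Function.Injective φ) (hψ : Function.Injective ψ) :
    Htp (Fs.rel v φ hφ) (Fs.rel v ψ hψ) := Fs.tw_htp _ _ _ _ _ _ _

theorem Ps.rel_htp (v a : ℕ) (φ ψ : U → W) (hφ : Function.Injective φ)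
    (hψ : Function.Injective ψ) : Htp (Ps.rel v a φ hφ) (Ps.rel v a ψ hψ) :=
  Ps.tw_htp _ _ _ _ _ _ _

theorem im_im {n : ℕ} (G : (Fin (n + 1) → U) → Fin (n + 1) → W)
    (G' : (Fin (n + 1) → W) → Fin (n + 1) → X) (A : Finset (Fin (n + 1) → U)) :
    im G' (im G A) = im (fun c => G' (G c)) A := by
  ext g
  simp only [mem_im]
  constructor
  · rintro ⟨_, ⟨a, ha, rfl⟩, rfl⟩; exact ⟨a, ha, rfl⟩
  · rintro ⟨a, ha, rfl⟩; exact ⟨_, ⟨a, ha, rfl⟩, rfl⟩

theorem im_id {n : ℕ} (A : Finset (Fin (n + 1) → U)) : im (fun c => c) A = A := by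
  ext g; simp [mem_im]

theorem Fs.rel_comp (v : ℕ) (φ : U → W) (hφ : Function.Injective φ) (ψ : W → X)
    (hψ : Function.Injective ψ) : SS.Hom.comp (Fs.rel v ψ hψ) (Fs.rel v φ hφ) =
      Fs.rel v (ψ ∘ φ) (hψ.comp hφ) :=
  SS.Hom.ext (funext fun _ => funext fun _ => Subtype.ext (im_im _ _ _))

theorem Ps.rel_comp (v a : ℕ) (φ : U → W) (hφ : Function.Injective φ) (ψ : W → X)
    (hψ : Function.Injective ψ) : SS.Hom.comp (Ps.rel v a ψ hψ) (Ps.rel v a φ hφ) =
      Ps.rel v a (ψ ∘ φ) (hψ.comp hφ) :=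
  SS.Hom.ext (funext fun _ => funext fun _ => Subtype.ext (Prod.ext (im_im _ _ _) (im_im _ _ _)))

theorem Fs.rel_id (v : ℕ) : Fs.rel v (id : U → U) Function.injective_id = SS.Hom.id _ :=
  SS.Hom.ext (funext fun _ => funext fun _ => Subtype.ext (im_id _))

theorem Ps.rel_id (v a : ℕ) : Ps.rel v a (id : U → U) Function.injective_id = SS.Hom.id _ :=
  SS.Hom.ext (funext fun _ => funext fun _ => Subtype.ext (Prod.ext (im_id _) (im_id _)))

/-- relabellings are bijective in homology as soon as the bigger set embeds in the smaller one -/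
theorem Fs.rel_bij (hI : HInv) (R : Type) [CommRing R] (v : ℕ) (φ : U → W)
    (hφ : Function.Injective φ) (k : W → U) (hk : Function.Injective k) :
    Function.Bijective (H.map R (Fs.rel v φ hφ)) := by
  have h1 : ∀ x, H.map R (Fs.rel v k hk) (H.map R (Fs.rel v φ hφ) x) = x := by
    intro x
    rw [← H.map_comp', Fs.rel_comp, hI.eq R (Fs.rel_htp v (k ∘ φ) id _ Function.injective_id),
      Fs.rel_id, H.map_id']
  have h2 : ∀ x, H.map R (Fs.rel v φ hφ) (H.map R (Fs.rel v k hk) x) = x := by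
    intro x
    rw [← H.map_comp', Fs.rel_comp, hI.eq R (Fs.rel_htp v (φ ∘ k) id _ Function.injective_id),
      Fs.rel_id, H.map_id']
  exact ⟨Function.LeftInverse.injective h1, Function.RightInverse.surjective h2⟩

theorem Ps.rel_bij (hI : HInv) (R : Type) [CommRing R] (v a : ℕ) (φ : U → W)
    (hφ : Function.Injective φ) (k : W → U) (hk : Function.Injective k) :
    Function.Bijective (H.map R (Ps.rel v a φ hφ)) := by
  have h1 : ∀ x, H.map R (Ps.rel v a k hk) (H.map R (Ps.rel v a φ hφ) x) = x := by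
    intro x
    rw [← H.map_comp', Ps.rel_comp, hI.eq R (Ps.rel_htp v a (k ∘ φ) id _ Function.injective_id),
      Ps.rel_id, H.map_id']
  have h2 : ∀ x, H.map R (Ps.rel v a φ hφ) (H.map R (Ps.rel v a k hk) x) = x := by
    intro x
    rw [← H.map_comp', Ps.rel_comp, hI.eq R (Ps.rel_htp v a (φ ∘ k) id _ Function.injective_id),
      Ps.rel_id, H.map_id']
  exact ⟨Function.LeftInverse.injective h1, Function.RightInverse.surjective h2⟩

end Crest.Agent.R204.Fs348
end

-- ▼ part R204/Span1_348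
section

/-!
# Product maps of the thread model and surjectivity in homology (row 204, block G)
-/

set_option autoImplicit false

namespace Crest.Agent.R204.Fs348

open Finsupp Tr348

open Classical in
/-- union of sets of threads -/
noncomputable def un {U : Type} {n : ℕ} (A B : Finset (Fin (n + 1) → U)) :
    Finset (Fin (n + 1) → U) := A ∪ B

open Classical in
/-- difference of sets of threads -/
noncomputable def df {U : Type} {n : ℕ} (A B : Finset (Fin (n + 1) → U)) :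
    Finset (Fin (n + 1) → U) := A \ B

section

variable {U W : Type} {m n : ℕ}

theorem mem_un {A B : Finset (Fin (n + 1) → U)} {c : Fin (n + 1) → U} :
    c ∈ un A B ↔ c ∈ A ∨ c ∈ B := by simp [un]

theorem mem_df {A B : Finset (Fin (n + 1) → U)} {c : Fin (n + 1) → U} :
    c ∈ df A B ↔ c ∈ A ∧ c ∉ B := by simp [df]

theorem re_un (f : Fin (m + 1) → Fin (n + 1)) (A B : Finset (Fin (n + 1) → U)) :
    re f (un A B) = un (re f A) (re f B) := by
  ext g
  simp only [mem_re, mem_un]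
  constructor
  · rintro ⟨a, h | h, rfl⟩
    · exact Or.inl ⟨a, h, rfl⟩
    · exact Or.inr ⟨a, h, rfl⟩
  · rintro (⟨a, h, rfl⟩ | ⟨a, h, rfl⟩)
    · exact ⟨a, Or.inl h, rfl⟩
    · exact ⟨a, Or.inr h, rfl⟩

theorem mem_re_iff {A T : Finset (Fin (n + 1) → U)} (hA : CI A) (hT : T ⊆ A)
    (f : Fin (m + 1) → Fin (n + 1)) {c : Fin (n + 1) → U} (hc : c ∈ A) :
    c ∘ f ∈ re f T ↔ c ∈ T := by
  constructor
  · intro h
    obtain ⟨b, hb, hbc⟩ := mem_re.1 h
    have : b = c := hA.injOn f (hT hb) hc hbc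
    rwa [← this]
  · intro h; exact mem_re.2 ⟨c, h, rfl⟩

theorem re_df {A T : Finset (Fin (n + 1) → U)} (hA : CI A) (hT : T ⊆ A)
    (f : Fin (m + 1) → Fin (n + 1)) : re f (df A T) = df (re f A) (re f T) := by
  ext g
  simp only [mem_df]
  constructor
  · intro h
    obtain ⟨a, ha, rfl⟩ := mem_re.1 h
    rw [mem_df] at ha
    exact ⟨mem_re.2 ⟨a, ha.1, rfl⟩, fun h' => ha.2 ((mem_re_iff hA hT f ha.1).1 h')⟩
  · rintro ⟨h, h'⟩
    obtain ⟨a, ha, rfl⟩ := mem_re.1 h
    exact mem_re.2 ⟨a, mem_df.2 ⟨ha, fun h'' => h' ((mem_re_iff hA hT f ha).2 h'')⟩, rfl⟩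

theorem card_un {A B : Finset (Fin (n + 1) → U)} (h : ∀ c ∈ A, c ∉ B) :
    (un A B).card = A.card + B.card := by
  classical
  unfold un
  exact Finset.card_union_of_disjoint (Finset.disjoint_left.2 fun c hc => h c hc)

theorem card_df {A B : Finset (Fin (n + 1) → U)} (h : B ⊆ A) :
    (df A B).card = A.card - B.card := by
  classical
  unfold df
  exact Finset.card_sdiff_of_subset h

theorem df_subset (A B : Finset (Fin (n + 1) → U)) : df A B ⊆ A := fun _ h => (mem_df.1 h).1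


end

section prod

variable (U W : Type) (a b : ℕ)

/-- threads of the left block -/
noncomputable def L {n : ℕ} {U W : Type} (T : Finset (Fin (n + 1) → U)) :
    Finset (Fin (n + 1) → U ⊕ W) := im (fun c i => Sum.inl (c i)) T

/-- threads of the right block -/
noncomputable def Rt {n : ℕ} {U W : Type} (T : Finset (Fin (n + 1) → W)) :
    Finset (Fin (n + 1) → U ⊕ W) := im (fun c i => Sum.inr (c i)) T

variable {U W a b}

theorem L_ci {n : ℕ} {T : Finset (Fin (n + 1) → U)} (h : CI T) : CI (L (W := W) T) :=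
  (vi_comp h Sum.inl_injective).ci

theorem Rt_ci {n : ℕ} {T : Finset (Fin (n + 1) → W)} (h : CI T) : CI (Rt (U := U) T) :=
  (vi_comp h Sum.inr_injective).ci

theorem mem_L {n : ℕ} {T : Finset (Fin (n + 1) → U)} {c : Fin (n + 1) → U ⊕ W} :
    c ∈ L T ↔ ∃ t ∈ T, (fun i => Sum.inl (t i)) = c := mem_im

theorem mem_Rt {n : ℕ} {T : Finset (Fin (n + 1) → W)} {c : Fin (n + 1) → U ⊕ W} :
    c ∈ Rt T ↔ ∃ t ∈ T, (fun i => Sum.inr (t i)) = c := mem_im

theorem LR_disj {n : ℕ} {T : Finset (Fin (n + 1) → U)} {S : Finset (Fin (n + 1) → W)}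
    {c : Fin (n + 1) → U ⊕ W} (h : c ∈ L T) : c ∉ Rt S := by
  intro h'
  obtain ⟨t, -, rfl⟩ := mem_L.1 h
  obtain ⟨s, -, hs⟩ := mem_Rt.1 h'
  exact absurd (congrFun hs 0) (by simp)

theorem LR_ci {n : ℕ} {T : Finset (Fin (n + 1) → U)} {S : Finset (Fin (n + 1) → W)}
    (hT : CI T) (hS : CI S) : CI (un (L T) (Rt S)) := by
  intro i c hc c' hc' e
  rcases mem_un.1 hc with h | h <;> rcases mem_un.1 hc' with h' | h'
  · exact L_ci hT i h h' e
  · obtain ⟨t, -, rfl⟩ := mem_L.1 h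
    obtain ⟨s, -, rfl⟩ := mem_Rt.1 h'
    exact absurd e (by simp)
  · obtain ⟨t, -, rfl⟩ := mem_L.1 h'
    obtain ⟨s, -, rfl⟩ := mem_Rt.1 h
    exact absurd e (by simp)
  · exact Rt_ci hS i h h' e

theorem L_card {n : ℕ} {T : Finset (Fin (n + 1) → U)} (h : CI T) :
    (L (W := W) T).card = T.card := (vi_comp h Sum.inl_injective).card

theorem Rt_card {n : ℕ} {T : Finset (Fin (n + 1) → W)} (h : CI T) :
    (Rt (U := U) T).card = T.card := (vi_comp h Sum.inr_injective).card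

theorem re_L {m n : ℕ} (f : Fin (m + 1) → Fin (n + 1)) (T : Finset (Fin (n + 1) → U)) :
    re f (L (W := W) T) = L (re f T) := re_im f (fun _ _ => rfl)

theorem re_Rt {m n : ℕ} (f : Fin (m + 1) → Fin (n + 1)) (T : Finset (Fin (n + 1) → W)) :
    re f (Rt (U := U) T) = Rt (re f T) := re_im f (fun _ _ => rfl)

variable (U W a b)

/-- disjoint union, remembering the left block -/
noncomputable def prodP : SS.Hom ((Fs U a).prod (Fs W b)) (Ps (U ⊕ W) (a + b) a) :=
  ⟨fun n x => ⟨(un (L x.1.1) (Rt x.2.1), L x.1.1), LR_ci x.1.2.1 x.2.2.1,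
    by rw [card_un fun c hc => LR_disj hc, L_card x.1.2.1, Rt_card x.2.2.1, x.1.2.2, x.2.2.2],
    fun c hc => mem_un.2 (Or.inl hc), by rw [L_card x.1.2.1, x.1.2.2]⟩,
   fun {m n} f x => by
    refine Subtype.ext (Prod.ext ?_ ?_)
    · show un (L (re f x.1.1)) (Rt (re f x.2.1)) = re f (un (L x.1.1) (Rt x.2.1))
      rw [re_un, re_L, re_Rt]
    · show L (re f x.1.1) = re f (L x.1.1)
      rw [re_L]⟩

/-- disjoint union -/
noncomputable def prodF : SS.Hom ((Fs U a).prod (Fs W b)) (Fs (U ⊕ W) (a + b)) :=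
  SS.Hom.comp (Ps.big (U ⊕ W) (a + b) a) (prodP U W a b)

theorem prodF_val {n : ℕ} (x : ((Fs U a).prod (Fs W b)).S n) :
    ((prodF U W a b).app n x).1 = un (L x.1.1) (Rt x.2.1) := rfl

/-- the two parts of a pair -/
noncomputable def splitP : SS.Hom (Ps U (a + b) a) ((Fs U a).prod (Fs U b)) :=
  ⟨fun n x => (⟨x.1.2, x.2.1.mono x.2.2.2.1, x.2.2.2.2⟩,
    ⟨df x.1.1 x.1.2, x.2.1.mono (df_subset _ _), by
      rw [card_df x.2.2.2.1, x.2.2.1, x.2.2.2.2]; omega⟩),
   fun {m n} f x => by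
    refine Prod.ext (Subtype.ext rfl) (Subtype.ext ?_)
    show df (re f x.1.1) (re f x.1.2) = re f (df x.1.1 x.1.2)
    rw [re_df x.2.1 x.2.2.2.1]⟩

open Classical in
/-- thread map of `prodP ∘ splitP` -/
noncomputable def gs (n : ℕ) (x : (Ps U (a + b) a).S n) (c : Fin (n + 1) → U) (i : Fin (n + 1)) :
    U ⊕ U := if c ∈ x.1.2 then Sum.inl (c i) else Sum.inr (c i)

theorem gs_vi (n : ℕ) (x : (Ps U (a + b) a).S n) : VI (gs U a b n x) x.1.1 := by
  classical
  intro i c hc c' hc' e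
  simp only [gs] at e
  by_cases h : c ∈ x.1.2 <;> by_cases h' : c' ∈ x.1.2
  · rw [if_pos h, if_pos h'] at e
    exact x.2.1 i hc hc' (Sum.inl_injective e)
  · rw [if_pos h, if_neg h'] at e; exact absurd e (by simp)
  · rw [if_neg h, if_pos h'] at e; exact absurd e (by simp)
  · rw [if_neg h, if_neg h'] at e
    exact x.2.1 i hc hc' (Sum.inr_injective e)

theorem gs_nat (m n : ℕ) (f : Op m n) (x : (Ps U (a + b) a).S n) (c : Fin (n + 1) → U)
    (hc : c ∈ x.1.1) : gs U a b n x c ∘ f = gs U a b m ((Ps U (a + b) a).act f x) (c ∘ f) := by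
  classical
  funext i
  have key : c ∘ f ∈ ((Ps U (a + b) a).act f x).1.2 ↔ c ∈ x.1.2 :=
    mem_re_iff x.2.1 x.2.2.2.1 f hc
  simp only [gs, Function.comp_apply]
  by_cases h : c ∈ x.1.2
  · rw [if_pos h, if_pos (key.2 h)]
  · rw [if_neg h, if_neg (fun h' => h (key.1 h'))]

theorem prod_split : SS.Hom.comp (prodP U U a b) (splitP U a b) =
    Ps.tw (SS.Hom.id _) (gs U a b) (gs_vi U a b) (gs_nat U a b) := by
  classical
  refine SS.Hom.ext (funext fun n => funext fun x => Subtype.ext (Prod.ext ?_ ?_))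
  · show un (L x.1.2) (Rt (df x.1.1 x.1.2)) = im (gs U a b n x) x.1.1
    ext g
    rw [mem_un, mem_L, mem_Rt, mem_im]
    constructor
    · rintro (⟨t, ht, rfl⟩ | ⟨t, ht, rfl⟩)
      · exact ⟨t, x.2.2.2.1 ht, funext fun i => by simp only [gs, if_pos ht]⟩
      · rw [mem_df] at ht
        exact ⟨t, ht.1, funext fun i => by simp only [gs, if_neg ht.2]⟩
    · rintro ⟨t, ht, rfl⟩
      by_cases h : t ∈ x.1.2
      · exact Or.inl ⟨t, h, funext fun i => by simp only [gs, if_pos h]⟩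
      · exact Or.inr ⟨t, mem_df.2 ⟨ht, h⟩, funext fun i => by simp only [gs, if_neg h]⟩
  · show L x.1.2 = im (gs U a b n x) x.1.2
    ext g
    rw [mem_L, mem_im]
    constructor
    · rintro ⟨t, ht, rfl⟩
      exact ⟨t, ht, funext fun i => by simp only [gs, if_pos ht]⟩
    · rintro ⟨t, ht, rfl⟩
      exact ⟨t, ht, funext fun i => by simp only [gs, if_pos ht]⟩

theorem prod_split_htp : Htp (SS.Hom.comp (prodP U U a b) (splitP U a b))
    (Ps.rel (a + b) a (Sum.inl : U → U ⊕ U) Sum.inl_injective) := by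
  rw [prod_split]
  exact Ps.tw_htp _ _ _ _ _ _ _

/-- `H (Fs U a × Fs U b) → H (Ps (U ⊕ U) (a+b) a)` is onto -/
theorem prodP_surj (hI : HInv) (R : Type) [CommRing R] (k : U ⊕ U → U)
    (hk : Function.Injective k) : Function.Surjective (H.map R (prodP U U a b)) := by
  intro y
  obtain ⟨x, rfl⟩ := (Ps.rel_bij hI R (a + b) a (Sum.inl : U → U ⊕ U) Sum.inl_injective k hk).2 y
  refine ⟨H.map R (splitP U a b) x, ?_⟩
  rw [← H.map_comp', hI.eq R (prod_split_htp U a b)]

/-- if `C(a+b,a)` is odd then the product `H (Fs U a × Fs U b; F2) → H (Fs (U ⊕ U) (a+b); F2)` is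
onto -/
theorem prodF_surj (hI : HInv) (k : U ⊕ U → U) (hk : Function.Injective k)
    (ho : Odd ((a + b).choose a)) : Function.Surjective (H.map F2 (prodF U U a b)) := by
  intro y
  obtain ⟨x, rfl⟩ := (Ps.big_cov (U ⊕ U) (a + b) a).map_surjective_odd
    (fun n x => Ps.card_fib (U ⊕ U) (a + b) a x) ho y
  obtain ⟨z, rfl⟩ := prodP_surj U a b hI F2 k hk x
  exact ⟨z, by rw [prodF, H.map_comp']⟩

end prod

end Crest.Agent.R204.Fs348
end

-- ▼ part R204/Span2_348
section

/-!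
# `θ : D(Fs U a) → Fs (Z/2 × U) (2a)` is onto in mod 2 homology (row 204, block G)
-/

set_option autoImplicit false

namespace Crest.Agent.R204.Fs348

open Finsupp Tr348 DK742 ThetaSS265

/-! ### orbits of a covering -/

section orbcov

variable {L K : SS} {p : SS.Hom L K}

theorem orb_cov (hp : Cov p) (τ : Invo L) (hτ : ∀ (n : ℕ) (x : L.S n), p.app n (τ.g.app n x) = p.app n x) :
    Cov (orbLift τ p hτ) where
  bij := by
    intro m n f x
    refine ⟨?_, ?_, ?_⟩
    · intro y hy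
      obtain ⟨u, rfl⟩ := proj_surj τ n y
      have : p.app n u = x := hy
      show (orbLift τ p hτ).app m ((orb L τ).act f ((proj τ).app n u)) = K.act f x
      rw [← (proj τ).nat, orbLift_proj, p.nat, this]
    · intro y hy y' hy' e
      obtain ⟨u, rfl⟩ := proj_surj τ n y
      obtain ⟨u', rfl⟩ := proj_surj τ n y'
      have h1 : p.app n u = x := hy
      have h2 : p.app n u' = x := hy'
      rw [← (proj τ).nat, ← (proj τ).nat, proj_eq_iff] at e
      rw [proj_eq_iff]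
      rcases e with e | e
      · exact Or.inl ((hp.bij f x).injOn h2 h1 e)
      · refine Or.inr ((hp.bij f x).injOn h2 (show p.app n (τ.g.app n u) = x by rw [hτ, h1]) ?_)
        rw [e, τ.g.nat]
    · intro z hz
      obtain ⟨w, rfl⟩ := proj_surj τ m z
      have h1 : p.app m w = K.act f x := hz
      obtain ⟨u, hu, rfl⟩ := (hp.bij f x).surjOn h1
      exact ⟨(proj τ).app n u, hu, ((proj τ).nat f u).symm⟩
  fin := by
    intro n x
    refine Set.Finite.subset ((hp.fin x).image ((proj τ).app n)) ?_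
    intro y hy
    obtain ⟨u, rfl⟩ := proj_surj τ n y
    exact ⟨u, hy, rfl⟩

theorem orb_cov_card (hp : Cov p) (τ : Invo L)
    (hτ : ∀ (n : ℕ) (x : L.S n), p.app n (τ.g.app n x) = p.app n x)
    (hfree : ∀ (n : ℕ) (x : L.S n), τ.g.app n x ≠ x) {n : ℕ} (x : K.S n) :
    (hp.fib x).card = ((orb_cov hp τ hτ).fib x).card * 2 := by
  classical
  rw [Finset.card_eq_sum_card_fiberwise (f := (proj τ).app n) (t := (orb_cov hp τ hτ).fib x)]
  · rw [Finset.sum_const_nat (m := 2)]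
    intro y hy
    obtain ⟨u, rfl⟩ := proj_surj τ n y
    have h1 : p.app n u = x := (orb_cov hp τ hτ).mem_fib.1 hy
    have : (hp.fib x).filter (fun w => (proj τ).app n w = (proj τ).app n u) = {u, τ.g.app n u} := by
      ext w
      rw [Finset.mem_filter, hp.mem_fib, Finset.mem_insert, Finset.mem_singleton]
      constructor
      · rintro ⟨-, h⟩
        rw [eq_comm, proj_eq_iff] at h
        exact h
      · rintro (rfl | rfl)
        · exact ⟨h1, rfl⟩
        · exact ⟨by rw [hτ, h1], proj_g τ n u⟩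
    rw [this, Finset.card_pair (hfree n u).symm]
  · intro w hw
    exact (orb_cov hp τ hτ).mem_fib.2 (hp.mem_fib.1 hw)

/-- maps out of `(K/τ) × J` -/
def orbLift2 {K J M : SS} (τ : Invo K) (h : SS.Hom (K.prod J) M)
    (hh : ∀ (n : ℕ) (x : K.S n) (j : J.S n), h.app n (τ.g.app n x, j) = h.app n (x, j)) :
    SS.Hom ((orb K τ).prod J) M :=
  ⟨fun n y => Quotient.lift (s := τ.rel n) (fun x => h.app n (x, y.2)) (by
      rintro x x' (rfl | rfl)
      · rfl
      · exact (hh n x y.2).symm) y.1,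
   fun {m n} f y => by
    obtain ⟨y1, y2⟩ := y
    obtain ⟨x, rfl⟩ := proj_surj τ n y1
    exact h.nat f (x, y2)⟩


/-- equivariant homotopies descend to orbits -/
theorem orb_htp {K M : SS} (τ : Invo K) (σ : Invo M) (h : SS.Hom (K.prod (SS.std 1)) M)
    (hh : ∀ (n : ℕ) (x : K.S n) (j : (SS.std 1).S n),
      h.app n (τ.g.app n x, j) = σ.g.app n (h.app n (x, j)))
    (f g : SS.Hom K M) (hf : Equi τ σ f) (hg : Equi τ σ g)
    (h0 : SS.Hom.comp h (cyl K 0) = f) (h1 : SS.Hom.comp h (cyl K 1) = g) :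
    Htp (orbMap τ σ f hf) (orbMap τ σ g hg) := by
  refine ⟨orbLift2 τ (SS.Hom.comp (proj σ) h) (fun n x j => ?_), ?_, ?_⟩
  · show (proj σ).app n (h.app n (τ.g.app n x, j)) = (proj σ).app n (h.app n (x, j))
    rw [hh, proj_g]
  · subst h0
    refine SS.Hom.ext (funext fun n => funext fun y => ?_)
    obtain ⟨x, rfl⟩ := proj_surj τ n y
    rfl
  · subst h1
    refine SS.Hom.ext (funext fun n => funext fun y => ?_)
    obtain ⟨x, rfl⟩ := proj_surj τ n y
    rfl

end orbcov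

/-! ### the complement involution -/

section compl

variable (U : Type) (a : ℕ)

theorem df_df {n : ℕ} {A T : Finset (Fin (n + 1) → U)} (h : T ⊆ A) : df A (df A T) = T := by
  ext c
  simp only [mem_df]
  constructor
  · rintro ⟨h1, h2⟩
    by_contra h3
    exact h2 ⟨h1, h3⟩
  · intro h1
    exact ⟨h h1, fun h2 => h2.2 h1⟩

/-- exchange the two halves -/
noncomputable def cInv : Invo (Ps U (a + a) a) where
  g := ⟨fun n x => ⟨(x.1.1, df x.1.1 x.1.2), x.2.1, x.2.2.1, df_subset _ _, by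
      rw [card_df x.2.2.2.1, x.2.2.1, x.2.2.2.2]; omega⟩,
    fun {m n} f x => Subtype.ext (Prod.ext rfl (re_df x.2.1 x.2.2.2.1 f).symm)⟩
  invol n x := Subtype.ext (Prod.ext rfl (df_df U x.2.2.2.1))


theorem cInv_free (ha : 0 < a) (n : ℕ) (x : (Ps U (a + a) a).S n) : (cInv U a).g.app n x ≠ x := by
  intro h
  have h1 : df x.1.1 x.1.2 = x.1.2 := congrArg (fun z => z.1.2) h
  have h2 : 0 < x.1.2.card := by rw [x.2.2.2.2]; exact ha
  obtain ⟨c, hc⟩ := Finset.card_pos.1 h2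
  have h3 := hc
  rw [← h1, mem_df] at h3
  exact h3.2 hc

/-- unordered halves -/
noncomputable abbrev Hs : SS := orb (Ps U (a + a) a) (cInv U a)

/-- forget the halves -/
noncomputable def Hs.big : SS.Hom (Hs U a) (Fs U (a + a)) :=
  orbLift (cInv U a) (Ps.big U (a + a) a) (fun _ _ => rfl)

theorem Hs.big_cov : Cov (Hs.big U a) := orb_cov (Ps.big_cov U (a + a) a) (cInv U a) _

theorem Hs.card_fib (ha : 0 < a) {n : ℕ} (x : (Fs U (a + a)).S n) :
    (a + a).choose a = ((Hs.big_cov U a).fib x).card * 2 := by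
  rw [← Ps.card_fib U (a + a) a x]
  exact orb_cov_card (Ps.big_cov U (a + a) a) (cInv U a) _ (cInv_free U a ha) x

end compl

/-! ### the comparison with `D(Fs U a)` -/

section theta

variable {U : Type}

open Classical in
/-- the set of positions at time `i` -/
noncomputable def vx {n : ℕ} (T : Finset (Fin (n + 1) → U)) (i : Fin (n + 1)) : Finset U :=
  T.image (fun c => c i)

theorem mem_vx {n : ℕ} {T : Finset (Fin (n + 1) → U)} {i : Fin (n + 1)} {u : U} :
    u ∈ vx T i ↔ ∃ c ∈ T, c i = u := by simp [vx]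

theorem vx_re {m n : ℕ} (f : Fin (m + 1) → Fin (n + 1)) (T : Finset (Fin (n + 1) → U))
    (j : Fin (m + 1)) : vx (re f T) j = vx T (f j) := by
  ext u
  simp only [mem_vx, mem_re]
  constructor
  · rintro ⟨_, ⟨c, hc, rfl⟩, rfl⟩; exact ⟨c, hc, rfl⟩
  · rintro ⟨c, hc, rfl⟩; exact ⟨_, ⟨c, hc, rfl⟩, rfl⟩

open Classical in
/-- which of two finite sets comes first -/
noncomputable def sg (S T : Finset U) : ZMod 2 := if WellOrderingRel S T then 0 else 1

theorem sg_swap {S T : Finset U} (h : S ≠ T) : sg T S = sg S T + 1 := by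
  classical
  unfold sg
  rcases trichotomous_of WellOrderingRel S T with h1 | h1 | h1
  · rw [if_pos h1, if_neg (asymm_of WellOrderingRel h1)]; rfl
  · exact absurd h1 h
  · rw [if_pos h1, if_neg (asymm_of WellOrderingRel h1)]; decide

/-- put the threads of `T` on the sheets `e` -/
noncomputable def sh {n : ℕ} (e : Fin (n + 1) → ZMod 2) (T : Finset (Fin (n + 1) → U)) :
    Finset (Fin (n + 1) → ZMod 2 × U) := im (fun c i => (e i, c i)) T

theorem mem_sh {n : ℕ} {e : Fin (n + 1) → ZMod 2} {T : Finset (Fin (n + 1) → U)}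
    {g : Fin (n + 1) → ZMod 2 × U} : g ∈ sh e T ↔ ∃ c ∈ T, (fun i => (e i, c i)) = g := mem_im

theorem re_sh {m n : ℕ} (f : Fin (m + 1) → Fin (n + 1)) (e : Fin (n + 1) → ZMod 2)
    (T : Finset (Fin (n + 1) → U)) : re f (sh e T) = sh (e ∘ f) (re f T) :=
  re_im f (fun _ _ => rfl)

theorem sh_vi {n : ℕ} (e : Fin (n + 1) → ZMod 2) {T : Finset (Fin (n + 1) → U)} (h : CI T) :
    VI (fun c i => (e i, c i)) T := fun i _ ha _ hb E => h i ha hb (Prod.ext_iff.1 E).2

theorem sh_disj {n : ℕ} {e : Fin (n + 1) → ZMod 2} {S T : Finset (Fin (n + 1) → U)}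
    {g : Fin (n + 1) → ZMod 2 × U} (h : g ∈ sh e T) : g ∉ sh (fun i => e i + 1) S := by
  intro h'
  obtain ⟨c, -, rfl⟩ := mem_sh.1 h
  obtain ⟨d, -, hd⟩ := mem_sh.1 h'
  have := (Prod.ext_iff.1 (congrFun hd 0)).1
  simp at this

theorem sh_ci {n : ℕ} {e : Fin (n + 1) → ZMod 2} {S T : Finset (Fin (n + 1) → U)}
    (hT : CI T) (hS : CI S) : CI (un (sh e T) (sh (fun i => e i + 1) S)) := by
  intro i g hg g' hg' E
  rcases mem_un.1 hg with h | h <;> rcases mem_un.1 hg' with h' | h'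
  · exact (sh_vi e hT).ci i h h' E
  · obtain ⟨c, -, rfl⟩ := mem_sh.1 h
    obtain ⟨d, -, rfl⟩ := mem_sh.1 h'
    have := (Prod.ext_iff.1 E).1
    simp at this
  · obtain ⟨c, -, rfl⟩ := mem_sh.1 h
    obtain ⟨d, -, rfl⟩ := mem_sh.1 h'
    have := (Prod.ext_iff.1 E).1
    simp at this
  · exact (sh_vi _ hS).ci i h h' E

variable (U) (a : ℕ)

/-- the source of `θ` before taking orbits -/
abbrev E0 (K : SS) : SS := SS.prod EZ2 (K.prod K)

/-- involution of `E0` -/
def eInv (K : SS) : Invo (E0 K) := invE.prod (Invo.swap K)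

/-- `D(K) = EZ/2 ×_{Z/2} K²` -/
abbrev DD (K : SS) : SS := orb (E0 K) (eInv K)

/-- `(e; T, S) ↦ (T^e ∪ S^{e+1}, T^e)` -/
noncomputable def F0 : SS.Hom (E0 (Fs U a)) (Ps (ZMod 2 × U) (a + a) a) :=
  ⟨fun n x => ⟨(un (sh x.1 x.2.1.1) (sh (fun i => x.1 i + 1) x.2.2.1), sh x.1 x.2.1.1),
    sh_ci x.2.1.2.1 x.2.2.2.1,
    by rw [card_un fun c hc => sh_disj hc, sh, sh, (sh_vi _ x.2.1.2.1).card,
      (sh_vi _ x.2.2.2.1).card, x.2.1.2.2, x.2.2.2.2],
    fun c hc => mem_un.2 (Or.inl hc), by rw [sh, (sh_vi _ x.2.1.2.1).card, x.2.1.2.2]⟩,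
   fun {m n} f x => by
    refine Subtype.ext (Prod.ext ?_ ?_)
    · show un (sh (x.1 ∘ f) (re f x.2.1.1)) (sh (fun i => x.1 (f i) + 1) (re f x.2.2.1)) =
        re f (un (sh x.1 x.2.1.1) (sh (fun i => x.1 i + 1) x.2.2.1))
      rw [re_un, re_sh, re_sh]; rfl
    · show sh (x.1 ∘ f) (re f x.2.1.1) = re f (sh x.1 x.2.1.1)
      rw [re_sh]⟩

theorem F0_equi : Equi (eInv (Fs U a)) (cInv (ZMod 2 × U) a) (F0 U a) := by
  intro n x
  refine Subtype.ext (Prod.ext ?_ ?_)
  · show un (sh (fun i => x.1 i + 1) x.2.2.1) (sh (fun i => x.1 i + 1 + 1) x.2.1.1) =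
      un (sh x.1 x.2.1.1) (sh (fun i => x.1 i + 1) x.2.2.1)
    have : (fun i => x.1 i + 1 + 1) = x.1 := by
      funext i
      have : (1 : ZMod 2) + 1 = 0 := by decide
      rw [add_assoc, this, add_zero]
    rw [this]
    ext g; rw [mem_un, mem_un, or_comm]
  · show sh (fun i => x.1 i + 1) x.2.2.1 =
      df (un (sh x.1 x.2.1.1) (sh (fun i => x.1 i + 1) x.2.2.1)) (sh x.1 x.2.1.1)
    ext g
    rw [mem_df, mem_un]
    constructor
    · intro h
      refine ⟨Or.inr h, fun h' => sh_disj h' h⟩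
    · rintro ⟨h | h, h'⟩
      · exact absurd h h'
      · exact h

/-- `θ : D(Fs U a) → Fs (Z/2 × U) (2a)` -/
noncomputable def theta : SS.Hom (DD (Fs U a)) (Fs (ZMod 2 × U) (a + a)) :=
  SS.Hom.comp (Hs.big (ZMod 2 × U) a) (orbMap (eInv (Fs U a)) (cInv (ZMod 2 × U) a) (F0 U a) (F0_equi U a))


/-- `(A, T) ↦ (s; T, A \ T)` -/
noncomputable def G0 : SS.Hom (Ps U (a + a) a) (E0 (Fs U a)) :=
  ⟨fun n x => (fun i => sg (vx x.1.2 i) (vx (df x.1.1 x.1.2) i), (splitP U a a).app n x),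
   fun {m n} f x => by
    refine Prod.ext ?_ ((splitP U a a).nat f x)
    show (fun j => sg (vx (re f x.1.2) j) (vx (df (re f x.1.1) (re f x.1.2)) j)) =
      fun j => sg (vx x.1.2 (f j)) (vx (df x.1.1 x.1.2) (f j))
    funext j
    rw [← re_df x.2.1 x.2.2.2.1, vx_re, vx_re]⟩

theorem vx_ne (ha : 0 < a) {n : ℕ} (x : (Ps U (a + a) a).S n) (i : Fin (n + 1)) :
    vx x.1.2 i ≠ vx (df x.1.1 x.1.2) i := by
  intro h
  have h2 : 0 < x.1.2.card := by rw [x.2.2.2.2]; exact ha
  obtain ⟨c, hc⟩ := Finset.card_pos.1 h2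
  have h3 : c i ∈ vx (df x.1.1 x.1.2) i := by rw [← h]; exact mem_vx.2 ⟨c, hc, rfl⟩
  obtain ⟨d, hd, hdc⟩ := mem_vx.1 h3
  rw [mem_df] at hd
  have : d = c := x.2.1 i hd.1 (x.2.2.2.1 hc) hdc
  exact hd.2 (this ▸ hc)

theorem G0_equi (ha : 0 < a) : Equi (cInv U a) (eInv (Fs U a)) (G0 U a) := by
  intro n x
  refine Prod.ext ?_ (Prod.ext (Subtype.ext rfl) (Subtype.ext ?_))
  · show (fun i => sg (vx (df x.1.1 x.1.2) i) (vx (df x.1.1 (df x.1.1 x.1.2)) i)) =
      fun i => sg (vx x.1.2 i) (vx (df x.1.1 x.1.2) i) + 1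
    funext i
    rw [df_df U x.2.2.2.1, sg_swap (vx_ne U a ha x i)]
  · show df x.1.1 (df x.1.1 x.1.2) = x.1.2
    rw [df_df U x.2.2.2.1]

open Classical in
/-- thread map of `F0 ∘ G0` -/
noncomputable def gq (n : ℕ) (x : (Ps U (a + a) a).S n) (c : Fin (n + 1) → U) (i : Fin (n + 1)) :
    ZMod 2 × U :=
  (if c ∈ x.1.2 then sg (vx x.1.2 i) (vx (df x.1.1 x.1.2) i)
    else sg (vx x.1.2 i) (vx (df x.1.1 x.1.2) i) + 1, c i)

theorem gq_vi (n : ℕ) (x : (Ps U (a + a) a).S n) : VI (gq U a n x) x.1.1 :=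
  fun i _ hc _ hc' e => x.2.1 i hc hc' (Prod.ext_iff.1 e).2

theorem gq_nat (m n : ℕ) (f : Op m n) (x : (Ps U (a + a) a).S n) (c : Fin (n + 1) → U)
    (hc : c ∈ x.1.1) : gq U a n x c ∘ f = gq U a m ((Ps U (a + a) a).act f x) (c ∘ f) := by
  classical
  funext i
  have key : c ∘ f ∈ ((Ps U (a + a) a).act f x).1.2 ↔ c ∈ x.1.2 :=
    mem_re_iff x.2.1 x.2.2.2.1 f hc
  have e1 : vx ((Ps U (a + a) a).act f x).1.2 i = vx x.1.2 (f i) := vx_re _ _ _
  have e2 : vx (df ((Ps U (a + a) a).act f x).1.1 ((Ps U (a + a) a).act f x).1.2) i =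
      vx (df x.1.1 x.1.2) (f i) := by
    show vx (df (re f x.1.1) (re f x.1.2)) i = _
    rw [← re_df x.2.1 x.2.2.2.1, vx_re]
  simp only [gq, Function.comp_apply, e1, e2]
  by_cases h : c ∈ x.1.2
  · rw [if_pos h, if_pos (key.2 h)]
  · rw [if_neg h, if_neg (fun h' => h (key.1 h'))]

theorem F0_G0 : SS.Hom.comp (F0 U a) (G0 U a) =
    Ps.tw (SS.Hom.id _) (gq U a) (gq_vi U a) (gq_nat U a) := by
  classical
  refine SS.Hom.ext (funext fun n => funext fun x => Subtype.ext (Prod.ext ?_ ?_))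
  · show un (sh (fun i => sg (vx x.1.2 i) (vx (df x.1.1 x.1.2) i)) x.1.2)
      (sh (fun i => sg (vx x.1.2 i) (vx (df x.1.1 x.1.2) i) + 1) (df x.1.1 x.1.2)) =
      im (gq U a n x) x.1.1
    ext g
    rw [mem_un, mem_sh, mem_sh, mem_im]
    constructor
    · rintro (⟨t, ht, rfl⟩ | ⟨t, ht, rfl⟩)
      · exact ⟨t, x.2.2.2.1 ht, funext fun i => by simp only [gq, if_pos ht]⟩
      · rw [mem_df] at ht
        exact ⟨t, ht.1, funext fun i => by simp only [gq, if_neg ht.2]⟩
    · rintro ⟨t, ht, rfl⟩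
      by_cases h : t ∈ x.1.2
      · exact Or.inl ⟨t, h, funext fun i => by simp only [gq, if_pos h]⟩
      · exact Or.inr ⟨t, mem_df.2 ⟨ht, h⟩, funext fun i => by simp only [gq, if_neg h]⟩
  · show sh (fun i => sg (vx x.1.2 i) (vx (df x.1.1 x.1.2) i)) x.1.2 = im (gq U a n x) x.1.2
    ext g
    rw [mem_sh, mem_im]
    constructor
    · rintro ⟨t, ht, rfl⟩
      exact ⟨t, ht, funext fun i => by simp only [gq, if_pos ht]⟩
    · rintro ⟨t, ht, rfl⟩
      exact ⟨t, ht, funext fun i => by simp only [gq, if_pos ht]⟩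

end theta

end Crest.Agent.R204.Fs348
end

-- ▼ part R204/Span3_348
section

/-!
# `θ : D(Fs U a) → Fs (Z/2 × U) (2a)` is onto in mod 2 homology if `C(2a,a)/2` is odd
-/

set_option autoImplicit false

namespace Crest.Agent.R204.Fs348

open Finsupp Tr348 DK742 ThetaSS265

section

variable {U W X : Type}

theorem im_df {n : ℕ} {G : (Fin (n + 1) → U) → Fin (n + 1) → W} {A T : Finset (Fin (n + 1) → U)}
    (hG : VI G A) (hT : T ⊆ A) : im G (df A T) = df (im G A) (im G T) := by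
  ext g
  simp only [mem_im, mem_df]
  constructor
  · rintro ⟨c, ⟨hc, hc'⟩, rfl⟩
    refine ⟨⟨c, hc, rfl⟩, ?_⟩
    rintro ⟨d, hd, hdc⟩
    have : d = c := hG.injOn (hT hd) hc hdc
    exact hc' (this ▸ hd)
  · rintro ⟨⟨c, hc, rfl⟩, h⟩
    exact ⟨c, ⟨hc, fun h' => h ⟨c, h', rfl⟩⟩, rfl⟩

theorem im_congr {n : ℕ} {G G' : (Fin (n + 1) → U) → Fin (n + 1) → W}
    {A : Finset (Fin (n + 1) → U)} (h : ∀ c ∈ A, G c = G' c) : im G A = im G' A := by
  ext g
  simp only [mem_im]
  constructor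
  · rintro ⟨c, hc, rfl⟩; exact ⟨c, hc, (h c hc).symm⟩
  · rintro ⟨c, hc, rfl⟩; exact ⟨c, hc, h c hc⟩

/-- invariant families of thread maps give equivariant maps -/
theorem tw_equi {a : ℕ} (G : ∀ n, (Ps U (a + a) a).S n → (Fin (n + 1) → U) → Fin (n + 1) → W)
    (hi : ∀ n x, VI (G n x) ((SS.Hom.id (Ps U (a + a) a)).app n x).1.1)
    (hn : ∀ (m n : ℕ) (f : Op m n) (x : (Ps U (a + a) a).S n),
      ∀ c ∈ ((SS.Hom.id (Ps U (a + a) a)).app n x).1.1,
      G n x c ∘ f = G m ((Ps U (a + a) a).act f x) (c ∘ f))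
    (hE : ∀ n (x : (Ps U (a + a) a).S n), ∀ c ∈ x.1.1, G n ((cInv U a).g.app n x) c = G n x c) :
    Equi (cInv U a) (cInv W a) (Ps.tw (SS.Hom.id _) G hi hn) := by
  intro n x
  refine Subtype.ext (Prod.ext ?_ ?_)
  · show im (G n ((cInv U a).g.app n x)) x.1.1 = im (G n x) x.1.1
    exact im_congr (hE n x)
  · show im (G n ((cInv U a).g.app n x)) (df x.1.1 x.1.2) = df (im (G n x) x.1.1) (im (G n x) x.1.2)
    have e := im_df (show VI (G n x) x.1.1 from hi n x) x.2.2.2.1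
    rw [← e]
    exact im_congr fun c hc => hE n x c (df_subset _ _ hc)

/-- homotopy on unordered halves -/
theorem Hs.tw_htp {a : ℕ} (G G' : ∀ n, (Ps U (a + a) a).S n → (Fin (n + 1) → U) → Fin (n + 1) → W)
    (hi : ∀ n x, VI (G n x) ((SS.Hom.id (Ps U (a + a) a)).app n x).1.1)
    (hi' : ∀ n x, VI (G' n x) ((SS.Hom.id (Ps U (a + a) a)).app n x).1.1)
    (hn : ∀ (m n : ℕ) (f : Op m n) (x : (Ps U (a + a) a).S n),
      ∀ c ∈ ((SS.Hom.id (Ps U (a + a) a)).app n x).1.1,
      G n x c ∘ f = G m ((Ps U (a + a) a).act f x) (c ∘ f))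
    (hn' : ∀ (m n : ℕ) (f : Op m n) (x : (Ps U (a + a) a).S n),
      ∀ c ∈ ((SS.Hom.id (Ps U (a + a) a)).app n x).1.1,
      G' n x c ∘ f = G' m ((Ps U (a + a) a).act f x) (c ∘ f))
    (hE : ∀ n (x : (Ps U (a + a) a).S n), ∀ c ∈ x.1.1, G n ((cInv U a).g.app n x) c = G n x c)
    (hE' : ∀ n (x : (Ps U (a + a) a).S n), ∀ c ∈ x.1.1, G' n ((cInv U a).g.app n x) c = G' n x c) :
    Htp (orbMap (cInv U a) (cInv W a) _ (tw_equi G hi hn hE))
      (orbMap (cInv U a) (cInv W a) _ (tw_equi G' hi' hn' hE')) := by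
  refine orb_htp (cInv U a) (cInv W a)
    (Ps.tw (SS.fst (Ps U (a + a) a) (SS.std 1))
    (fun n x c i => if tm x.2 i = 0 then G n x.1 c i else G' n x.1 c i) ?_ ?_) ?_ _ _ _ _ ?_ ?_
  · intro n x i
    by_cases h : tm x.2 i = 0
    · simp only [h, if_true]; exact hi n x.1 i
    · simp only [h, if_false]; exact hi' n x.1 i
  · intro m n f x c hc
    funext i
    have h1 := congrFun (hn m n f x.1 c hc) i
    have h2 := congrFun (hn' m n f x.1 c hc) i
    simp only [Function.comp_apply] at h1 h2 ⊢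
    show (if tm x.2 (f i) = 0 then G n x.1 c (f i) else G' n x.1 c (f i)) =
      (if tm x.2 (f i) = 0 then _ else _)
    rw [h1, h2]; rfl
  · intro n x j
    have hVI : VI (fun c i => if tm j i = 0 then G n x c i else G' n x c i) x.1.1 := by
      intro i
      by_cases h : tm j i = 0
      · simp only [h, if_true]; exact hi n x i
      · simp only [h, if_false]; exact hi' n x i
    have hEE : ∀ c ∈ x.1.1, (fun i => if tm j i = 0 then G n ((cInv U a).g.app n x) c i
        else G' n ((cInv U a).g.app n x) c i) =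
        fun i => if tm j i = 0 then G n x c i else G' n x c i := by
      intro c hc
      funext i
      rw [hE n x c hc, hE' n x c hc]
    refine Subtype.ext (Prod.ext ?_ ?_)
    · show im (fun c i => if tm j i = 0 then G n ((cInv U a).g.app n x) c i
        else G' n ((cInv U a).g.app n x) c i) x.1.1 =
        im (fun c i => if tm j i = 0 then G n x c i else G' n x c i) x.1.1
      exact im_congr hEE
    · show im (fun c i => if tm j i = 0 then G n ((cInv U a).g.app n x) c i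
        else G' n ((cInv U a).g.app n x) c i) (df x.1.1 x.1.2) =
        df (im (fun c i => if tm j i = 0 then G n x c i else G' n x c i) x.1.1)
          (im (fun c i => if tm j i = 0 then G n x c i else G' n x c i) x.1.2)
      rw [← im_df hVI x.2.2.2.1]
      exact im_congr fun c hc => hEE c (df_subset _ _ hc)
  · refine SS.Hom.ext (funext fun n => funext fun x => Subtype.ext (Prod.ext ?_ ?_)) <;>
    · show im _ _ = im _ _
      congr 1
  · refine SS.Hom.ext (funext fun n => funext fun x => Subtype.ext (Prod.ext ?_ ?_)) <;>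
    · show im _ _ = im _ _
      congr 1

theorem rel_equi (a : ℕ) (φ : U → W) (hφ : Function.Injective φ) :
    Equi (cInv U a) (cInv W a) (Ps.rel (a + a) a φ hφ) :=
  tw_equi _ _ _ (fun _ _ _ _ => rfl)

/-- relabelling on unordered halves -/
noncomputable def Hs.rel (a : ℕ) (φ : U → W) (hφ : Function.Injective φ) :
    SS.Hom (Hs U a) (Hs W a) := orbMap _ _ (Ps.rel (a + a) a φ hφ) (rel_equi a φ hφ)

theorem Hs.rel_htp (a : ℕ) (φ ψ : U → W) (hφ : Function.Injective φ) (hψ : Function.Injective ψ) :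
    Htp (Hs.rel a φ hφ) (Hs.rel a ψ hψ) :=
  Hs.tw_htp _ _ _ _ _ _ (fun _ _ _ _ => rfl) (fun _ _ _ _ => rfl)

theorem Hs.rel_comp (a : ℕ) (φ : U → W) (hφ : Function.Injective φ) (ψ : W → X)
    (hψ : Function.Injective ψ) : SS.Hom.comp (Hs.rel a ψ hψ) (Hs.rel a φ hφ) =
      Hs.rel a (ψ ∘ φ) (hψ.comp hφ) := by
  refine SS.Hom.ext (funext fun n => funext fun y => ?_)
  obtain ⟨x, rfl⟩ := proj_surj (cInv U a) n y
  have := congrArg (fun h => SS.Hom.app h n x) (Ps.rel_comp (a + a) a φ hφ ψ hψ)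
  exact congrArg ((proj (cInv X a)).app n) this

theorem Hs.rel_id (a : ℕ) : Hs.rel a (id : U → U) Function.injective_id = SS.Hom.id _ := by
  refine SS.Hom.ext (funext fun n => funext fun y => ?_)
  obtain ⟨x, rfl⟩ := proj_surj (cInv U a) n y
  have := congrArg (fun h => SS.Hom.app h n x) (Ps.rel_id (U := U) (a + a) a)
  exact congrArg ((proj (cInv U a)).app n) this

theorem Hs.rel_bij (hI : HInv) (R : Type) [CommRing R] (a : ℕ) (φ : U → W)
    (hφ : Function.Injective φ) (k : W → U) (hk : Function.Injective k) :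
    Function.Bijective (H.map R (Hs.rel a φ hφ)) := by
  have h1 : ∀ x, H.map R (Hs.rel a k hk) (H.map R (Hs.rel a φ hφ) x) = x := by
    intro x
    rw [← H.map_comp', Hs.rel_comp, hI.eq R (Hs.rel_htp a (k ∘ φ) id _ Function.injective_id),
      Hs.rel_id, H.map_id']
  have h2 : ∀ x, H.map R (Hs.rel a φ hφ) (H.map R (Hs.rel a k hk) x) = x := by
    intro x
    rw [← H.map_comp', Hs.rel_comp, hI.eq R (Hs.rel_htp a (φ ∘ k) id _ Function.injective_id),
      Hs.rel_id, H.map_id']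
  exact ⟨Function.LeftInverse.injective h1, Function.RightInverse.surjective h2⟩

variable (U) (a : ℕ)

theorem gq_inv (ha : 0 < a) (n : ℕ) (x : (Ps U (a + a) a).S n) (c : Fin (n + 1) → U)
    (hc : c ∈ x.1.1) : gq U a n ((cInv U a).g.app n x) c = gq U a n x c := by
  classical
  have two : (1 : ZMod 2) + 1 = 0 := by decide
  funext i
  have e1 : ((cInv U a).g.app n x).1.2 = df x.1.1 x.1.2 := rfl
  have e2 : df ((cInv U a).g.app n x).1.1 (df x.1.1 x.1.2) = x.1.2 := df_df U x.2.2.2.1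
  simp only [gq, e1, e2]
  rw [sg_swap (vx_ne U a ha x i)]
  by_cases h : c ∈ x.1.2
  · rw [if_pos h, if_neg (fun h' => (mem_df.1 h').2 h), add_assoc, two, add_zero]
  · rw [if_neg h, if_pos (mem_df.2 ⟨hc, h⟩)]

theorem inj0 : Function.Injective (fun u : U => ((0 : ZMod 2), u)) :=
  fun _ _ h => (Prod.ext_iff.1 h).2

theorem FG_htp (ha : 0 < a) : Htp
    (SS.Hom.comp (orbMap (eInv (Fs U a)) (cInv (ZMod 2 × U) a) (F0 U a) (F0_equi U a))
      (orbMap (cInv U a) (eInv (Fs U a)) (G0 U a) (G0_equi U a ha)))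
    (Hs.rel a (fun u : U => ((0 : ZMod 2), u)) (inj0 U)) := by
  have h := Hs.tw_htp (gq U a) (fun _ _ c i => ((0 : ZMod 2), c i)) (gq_vi U a)
    (fun _ x => vi_comp x.2.1 (inj0 U)) (gq_nat U a) (fun _ _ _ _ _ _ => rfl)
    (gq_inv U a ha) (fun _ _ _ _ => rfl)
  have e : SS.Hom.comp (orbMap (eInv (Fs U a)) (cInv (ZMod 2 × U) a) (F0 U a) (F0_equi U a))
      (orbMap (cInv U a) (eInv (Fs U a)) (G0 U a) (G0_equi U a ha)) =
      orbMap (cInv U a) (cInv (ZMod 2 × U) a) _ (tw_equi (gq U a) (gq_vi U a) (gq_nat U a)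
        (gq_inv U a ha)) := by
    refine SS.Hom.ext (funext fun n => funext fun y => ?_)
    obtain ⟨x, rfl⟩ := proj_surj (cInv U a) n y
    have := congrArg (fun h => SS.Hom.app h n x) (F0_G0 U a)
    exact congrArg ((proj (cInv (ZMod 2 × U) a)).app n) this
  rw [e]
  exact h

/-- `H (D(Fs U a)) → H (Hs (Z/2 × U) a)` is onto -/
theorem F_surj (hI : HInv) (R : Type) [CommRing R] (ha : 0 < a) (k : ZMod 2 × U → U)
    (hk : Function.Injective k) : Function.Surjective
      (H.map R (orbMap (eInv (Fs U a)) (cInv (ZMod 2 × U) a) (F0 U a) (F0_equi U a))) := by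
  intro y
  obtain ⟨x, rfl⟩ := (Hs.rel_bij hI R a (fun u : U => ((0 : ZMod 2), u)) (inj0 U) k hk).2 y
  refine ⟨H.map R (orbMap (cInv U a) (eInv (Fs U a)) (G0 U a) (G0_equi U a ha)) x, ?_⟩
  rw [← H.map_comp', hI.eq R (FG_htp U a ha)]

/-- if `C(2a,a) = 2m`, `m` odd, then `θ_* : H (D(Fs U a); F2) → H (Fs (Z/2 × U) (2a); F2)` is onto -/
theorem theta_surj (hI : HInv) (ha : 0 < a) (k : ZMod 2 × U → U) (hk : Function.Injective k)
    (m : ℕ) (hm : (a + a).choose a = m * 2) (ho : Odd m) :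
    Function.Surjective (H.map F2 (theta U a)) := by
  intro y
  obtain ⟨x, rfl⟩ := (Hs.big_cov (ZMod 2 × U) a).map_surjective_odd (m := m)
    (fun n x => by
      have := Hs.card_fib (ZMod 2 × U) a ha x
      omega) ho y
  obtain ⟨z, rfl⟩ := F_surj U a hI F2 ha k hk x
  exact ⟨z, by rw [theta, H.map_comp']⟩

end

end Crest.Agent.R204.Fs348
end

-- ▼ part R204/Par_348
section

/-!
# Parity of the binomials used in the generation theorem (row 204, block G)
-/

set_option autoImplicit false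

namespace Crest.Agent.R204.Fs348

theorem odd_choose_pow (r : ℕ) : ∀ b : ℕ, b < 2 ^ r → Odd ((2 ^ r + b).choose (2 ^ r)) := by
  induction r with
  | zero => intro b hb; interval_cases b; decide
  | succ r ih =>
    intro b hb
    have h := Choose.choose_modEq_choose_mod_mul_choose_div_nat (n := 2 ^ (r + 1) + b)
      (k := 2 ^ (r + 1)) (p := 2)
    have e1 : 2 ^ (r + 1) % 2 = 0 := by rw [pow_succ]; omega
    have e2 : 2 ^ (r + 1) / 2 = 2 ^ r := by rw [pow_succ]; omega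
    have e3 : (2 ^ (r + 1) + b) / 2 = 2 ^ r + b / 2 := by rw [pow_succ]; omega
    rw [e1, e2, e3, Nat.choose_zero_right, one_mul] at h
    have h2 := ih (b / 2) (by rw [pow_succ] at hb; omega)
    rw [Nat.odd_iff] at h2 ⊢
    exact Eq.trans h h2

theorem choose_two_pow (r : ℕ) : ∃ m, Odd m ∧ (2 ^ r + 2 ^ r).choose (2 ^ r) = m * 2 := by
  have hpos : 0 < 2 ^ r := Nat.two_pow_pos r
  refine ⟨(2 ^ r + (2 ^ r - 1)).choose (2 ^ r), odd_choose_pow r _ (by omega), ?_⟩
  obtain ⟨n, hn⟩ : ∃ n, 2 ^ r = n + 1 := ⟨2 ^ r - 1, by omega⟩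
  rw [hn]
  have e : n + 1 + (n + 1) = (2 * n + 1) + 1 := by ring
  have e' : n + 1 + (n + 1 - 1) = 2 * n + 1 := by omega
  rw [e, e', Nat.choose_succ_succ', Nat.choose_symm_half]
  ring

/-- every `v ≥ 2` is either `a + b` with `C(a+b,a)` odd, `0 < a, b`, or `a + a` with `C(2a,a) = 2·odd` -/
theorem split_cases (v : ℕ) (hv : 2 ≤ v) :
    (∃ a b, 0 < a ∧ 0 < b ∧ v = a + b ∧ Odd ((a + b).choose a)) ∨
    (∃ a m, 0 < a ∧ v = a + a ∧ (a + a).choose a = m * 2 ∧ Odd m) := by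
  have h1 : 2 ^ Nat.log 2 v ≤ v := Nat.pow_log_le_self 2 (by omega)
  have h2 : v < 2 ^ (Nat.log 2 v + 1) := Nat.lt_pow_succ_log_self (by norm_num) v
  rcases Nat.eq_or_lt_of_le h1 with h | h
  · right
    have h3 : 0 < Nat.log 2 v := Nat.log_pos (by norm_num) hv
    obtain ⟨r, hr⟩ : ∃ r, Nat.log 2 v = r + 1 := ⟨Nat.log 2 v - 1, by omega⟩
    obtain ⟨m, hm, hm'⟩ := choose_two_pow r
    refine ⟨2 ^ r, m, Nat.two_pow_pos r, ?_, hm', hm⟩
    rw [← h, hr, pow_succ]; ring
  · left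
    rw [pow_succ] at h2
    refine ⟨2 ^ Nat.log 2 v, v - 2 ^ Nat.log 2 v, Nat.two_pow_pos _, by omega, by omega, ?_⟩
    exact odd_choose_pow _ _ (by omega)

end Crest.Agent.R204.Fs348
end

-- ▼ part R204/Span4_348
section

/-!
# Spanning theorem for the homology of the symmetric groups (row 204, block G)

Bridge to `Thr_328`, and the induction principle: a family of subspaces of `H (Fs U v; F2)` containing
the point classes, closed under products and the operations `e_i ⊗ x ⊗ x`, is everything.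
-/

set_option autoImplicit false

noncomputable section

namespace Crest.Agent.R204.Span348

open Finsupp SS Tr348 Fs348 DK742 EZ271

theorem hInv : HInv := HtpInv334.homotopyInv

section bridge

variable {U W : Type}

theorem im_eq_pu {n : ℕ} (f : U → W) (A : Finset (Fin (n + 1) → U)) :
    im (fun c i => f (c i)) A = Thr328.pu f A := by
  ext g
  rw [mem_im, Thr328.mem_pu]; rfl

theorem rel_eq_map (v : ℕ) (f : U ↪ W) : Fs.rel v f f.injective = Thr328.map v f :=
  SS.Hom.ext (funext fun _ => funext fun _ => Subtype.ext (im_eq_pu f _))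

/-- an injection induces a bijection in homology as soon as the target embeds in the source -/
theorem map_bij (R : Type) [CommRing R] (v : ℕ) (f : U ↪ W) (k : W ↪ U) :
    Function.Bijective (H.map R (Thr328.map v f)) := by
  rw [← rel_eq_map]
  exact Fs.rel_bij hInv R v f f.injective k k.injective

theorem prodF_eq (a b : ℕ) : prodF U W a b = Thr328.djV U W a b := by
  refine SS.Hom.ext (funext fun n => funext fun x => Subtype.ext ?_)
  rw [prodF_val, Thr328.djV_val]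
  ext g
  rw [Fs348.mem_un, Thr328.mem_du]
  simp only [L, Rt, mem_im]
  constructor
  · rintro (⟨c, hc, rfl⟩ | ⟨c, hc, rfl⟩)
    · exact Or.inl ⟨c, hc, rfl⟩
    · exact Or.inr ⟨c, hc, rfl⟩
  · rintro (⟨c, hc, rfl⟩ | ⟨c, hc, rfl⟩)
    · exact Or.inl ⟨c, hc, rfl⟩
    · exact Or.inr ⟨c, hc, rfl⟩

theorem djV_surj (k : U ⊕ U ↪ U) (a b : ℕ) (ho : Odd ((a + b).choose a)) :
    Function.Surjective (H.map F2 (Thr328.djV U U a b)) := by
  rw [← prodF_eq]
  exact prodF_surj U a b hInv k k.injective ho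

/-- relabelling of the two sheets -/
def shf (p : ZMod 2 × U) : U ⊕ U := if p.1 = 0 then Sum.inl p.2 else Sum.inr p.2

theorem shf_inj : Function.Injective (shf (U := U)) := by
  have hz : ∀ z : ZMod 2, z = 0 ∨ z = 1 := by decide
  rintro ⟨a, u⟩ ⟨b, v⟩ h
  unfold shf at h
  rcases hz a with rfl | rfl <;> rcases hz b with rfl | rfl
  · simp at h; rw [h]
  · simp at h
  · simp at h
  · simp at h; rw [h]

theorem theta_rel (a : ℕ) : SS.Hom.comp (Fs.rel (a + a) (shf (U := U)) shf_inj) (theta U a) =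
    Thr328.thtVO U a := by
  refine SS.Hom.ext (funext fun n => funext fun y => ?_)
  obtain ⟨x, rfl⟩ := proj_surj (eInv (Fs U a)) n y
  refine Subtype.ext ?_
  show im (fun c i => shf (c i)) (Fs348.un (sh x.1 x.2.1.1) (sh (fun i => x.1 i + 1) x.2.2.1)) =
    Thr328.th x.1 x.2.1.1 x.2.2.1
  have hz : ∀ z : ZMod 2, z = 0 ∨ z = 1 := by decide
  have h11 : (1 : ZMod 2) + 1 = 0 := by decide
  have e0 : ∀ c : Fin (n + 1) → U, (fun i => shf (x.1 i, c i)) = Thr328.side x.1 0 c := by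
    intro c; funext i; simp [shf, Thr328.side]
  have e1 : ∀ c : Fin (n + 1) → U, (fun i => shf (x.1 i + 1, c i)) = Thr328.side x.1 1 c := by
    intro c; funext i; simp [shf, Thr328.side]
  ext g
  rw [mem_im, Thr328.mem_th]
  constructor
  · rintro ⟨c, hc, rfl⟩
    rcases Fs348.mem_un.1 hc with h | h
    · obtain ⟨d, hd, rfl⟩ := mem_sh.1 h
      exact Or.inl ⟨d, hd, (e0 d).symm⟩
    · obtain ⟨d, hd, rfl⟩ := mem_sh.1 h
      exact Or.inr ⟨d, hd, (e1 d).symm⟩
  · rintro (⟨d, hd, rfl⟩ | ⟨d, hd, rfl⟩)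
    · exact ⟨_, Fs348.mem_un.2 (Or.inl (mem_sh.2 ⟨d, hd, rfl⟩)), e0 d⟩
    · exact ⟨_, Fs348.mem_un.2 (Or.inr (mem_sh.2 ⟨d, hd, rfl⟩)), e1 d⟩

/-- `θ : D(Fs U a) → Fs (U ⊕ U) (2a)` on 742's `D` -/
def thF (U : Type) (a : ℕ) : Hom (DX AltSS.full (Fs U a)) (Fs (U ⊕ U) (a + a)) := Thr328.thtVO U a

/-- `θ` on the skeleta -/
def thM (U : Type) (M a : ℕ) : Hom (DX (AltSS.skel M) (Fs U a)) (Fs (U ⊕ U) (a + a)) :=
  (thF U a).comp (DXX (AltSS.skFull M) (Fs U a))

theorem thF_surj (k : U ⊕ U ↪ U) (a m : ℕ) (ha : 0 < a) (hm : (a + a).choose a = m * 2)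
    (ho : Odd m) : Function.Surjective (H.map F2 (thF U a)) := by
  have hk : Function.Injective (fun p : ZMod 2 × U => k (shf p)) := k.injective.comp shf_inj
  intro y
  let k' : U ⊕ U → ZMod 2 × U := fun s => (0, k s)
  have hk' : Function.Injective k' := fun s t h => k.injective (Prod.ext_iff.1 h).2
  obtain ⟨z, rfl⟩ := (Fs.rel_bij hInv F2 (a + a) (shf (U := U)) shf_inj k' hk').2 y
  obtain ⟨w, rfl⟩ := theta_surj U a hInv ha _ hk m hm ho z
  refine ⟨w, ?_⟩
  rw [← H.map_comp', theta_rel]; rfl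

end bridge

/-! ## cross products in homology and the two spanning inputs -/

section inputs

/-- `H K → H L → H (K × L)` -/
def xH {K L : SS} : H F2 K →ₗ[F2] H F2 L →ₗ[F2] H F2 (K.prod L) := Hd2 (cross F2) bd_cross2

theorem xH_mk {K L : SS} (x : N F2 K) (hx : N.bd F2 K x = 0) (y : N F2 L) (hy : N.bd F2 L y = 0) :
    xH (Hd.mk _ x hx) (Hd.mk _ y hy) = Hd.mk (N.bd F2 _) (cross F2 x y)
      (by rw [bd_cross2, hx, hy]; simp) := rfl

theorem xH_gr {K L : SS} {p q : ℕ} {x : H F2 K} {y : H F2 L} (hx : x ∈ H.gr F2 K p)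
    (hy : y ∈ H.gr F2 L q) : xH x y ∈ H.gr F2 (K.prod L) (p + q) := by
  obtain ⟨a, ha, ha', rfl⟩ := exists_rep_gr hx
  obtain ⟨b, hb, hb', rfl⟩ := exists_rep_gr hy
  rw [xH_mk]
  exact DK742.mk_mem_gr _ (cross_gr ha' hb')

/-- cells exist in all dimensions of the full `E Z/2` -/
theorem le_full (i : ℕ) : (i : ℕ∞) ≤ AltSS.full.M := le_top

/-- Künneth, spanning part -/
def KunSpan : Prop := ∀ K L : SS,
  Submodule.span F2 {z : H F2 (K.prod L) | ∃ x y, z = xH x y} = ⊤

/-- `H (D K)` is spanned by the classes `e_i ⊗ x ⊗ x` and `e_0 ⊗ x ⊗ y` -/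
def DSpan : Prop := ∀ K : SS, Submodule.span F2
  ({z : H F2 (DX AltSS.full K) | ∃ i x, z = pw AltSS.full i (le_full (i + 1)) x} ∪
    {z | ∃ x y, z = pr AltSS.full x y}) = ⊤

/-- homogeneous generation -/
theorem gr_le_of_span {K : SS} {S : Set (H F2 K)} (hS : Submodule.span F2 S = ⊤)
    (hh : ∀ s ∈ S, ∃ n, s ∈ H.gr F2 K n) {t : ℕ} {Q : Submodule F2 (H F2 K)}
    (hQ : ∀ s ∈ S, s ∈ H.gr F2 K t → s ∈ Q) : H.gr F2 K t ≤ Q := by
  intro y hy
  have h1 : y ∈ Submodule.span F2 S := by rw [hS]; trivial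
  have h2 : ∀ z ∈ Submodule.span F2 S, Gr334.prH F2 K t z ∈ Q := by
    intro z hz
    induction hz using Submodule.span_induction with
    | mem s hs =>
      obtain ⟨n, hn⟩ := hh s hs
      by_cases e : n = t
      · subst e
        rw [Gr334.prH_of_mem hn]; exact hQ s hs hn
      · rw [Gr334.prH_of_mem_ne e hn]; exact Q.zero_mem
    | zero => rw [map_zero]; exact Q.zero_mem
    | add a b _ _ ha hb => rw [map_add]; exact Q.add_mem ha hb
    | smul r a _ ha => rw [map_smul]; exact Q.smul_mem r ha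
  rw [← Gr334.prH_of_mem hy]
  exact h2 y h1

/-- homogeneous Künneth spanning -/
theorem KunSpan.gr (hK : KunSpan) {K L : SS} {t : ℕ} {Q : Submodule F2 (H F2 (K.prod L))}
    (hQ : ∀ p q x y, p + q = t → x ∈ H.gr F2 K p → y ∈ H.gr F2 L q → xH x y ∈ Q) :
    H.gr F2 (K.prod L) t ≤ Q := by
  refine gr_le_of_span (S := {z | ∃ p q x y, x ∈ H.gr F2 K p ∧ y ∈ H.gr F2 L q ∧ z = xH x y}) ?_ ?_ ?_
  · rw [eq_top_iff, ← hK K L, Submodule.span_le]
    rintro _ ⟨x, y, rfl⟩
    refine Gr334.H_induction (p := fun x => xH x y ∈ Submodule.span F2 _) x ?_ ?_ ?_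
    · rw [map_zero, LinearMap.zero_apply]; exact Submodule.zero_mem _
    · intro a b ha hb; rw [map_add, LinearMap.add_apply]; exact Submodule.add_mem _ ha hb
    · intro p x hx
      refine Gr334.H_induction (p := fun y => xH x y ∈ Submodule.span F2 _) y ?_ ?_ ?_
      · rw [map_zero]; exact Submodule.zero_mem _
      · intro a b ha hb; rw [map_add]; exact Submodule.add_mem _ ha hb
      · intro q y hy
        exact Submodule.subset_span ⟨p, q, x, y, hx, hy, rfl⟩
  · rintro _ ⟨p, q, x, y, hx, hy, rfl⟩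
    exact ⟨p + q, xH_gr hx hy⟩
  · rintro _ ⟨p, q, x, y, hx, hy, rfl⟩ h
    by_cases e : p + q = t
    · exact hQ p q x y e hx hy
    · have h0 := Gr334.prH_of_mem_ne e (xH_gr hx hy)
      rw [Gr334.prH_of_mem h] at h0
      rw [h0]; exact Q.zero_mem

/-- homogeneous spanning of `H (D K)` -/
theorem DSpan.gr (hD : DSpan) {K : SS} {t : ℕ} {Q : Submodule F2 (H F2 (DX AltSS.full K))}
    (hQ : ∀ i n x, i + 2 * n = t → x ∈ H.gr F2 K n → pw AltSS.full i (le_full (i + 1)) x ∈ Q)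
    (hQ' : ∀ p q x y, p + q = t → x ∈ H.gr F2 K p → y ∈ H.gr F2 K q → pr AltSS.full x y ∈ Q) :
    H.gr F2 (DX AltSS.full K) t ≤ Q := by
  refine gr_le_of_span (S := {z | ∃ i n x, x ∈ H.gr F2 K n ∧ z = pw AltSS.full i (le_full (i + 1)) x} ∪
    {z | ∃ p q x y, x ∈ H.gr F2 K p ∧ y ∈ H.gr F2 K q ∧ z = pr AltSS.full x y}) ?_ ?_ ?_
  · rw [eq_top_iff, ← hD K, Submodule.span_le]
    rintro _ (⟨i, x, rfl⟩ | ⟨x, y, rfl⟩)
    · refine Gr334.H_induction (p := fun x => pw AltSS.full i (le_full (i + 1)) x ∈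
        Submodule.span F2 _) x ?_ ?_ ?_
      · rw [map_zero]; exact Submodule.zero_mem _
      · intro a b ha hb; rw [map_add]; exact Submodule.add_mem _ ha hb
      · intro n x hx
        exact Submodule.subset_span (Or.inl ⟨i, n, x, hx, rfl⟩)
    · refine Gr334.H_induction (p := fun x => pr AltSS.full x y ∈ Submodule.span F2 _) x ?_ ?_ ?_
      · rw [map_zero, LinearMap.zero_apply]; exact Submodule.zero_mem _
      · intro a b ha hb; rw [map_add, LinearMap.add_apply]; exact Submodule.add_mem _ ha hb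
      · intro p x hx
        refine Gr334.H_induction (p := fun y => pr AltSS.full x y ∈ Submodule.span F2 _) y ?_ ?_ ?_
        · rw [map_zero]; exact Submodule.zero_mem _
        · intro a b ha hb; rw [map_add]; exact Submodule.add_mem _ ha hb
        · intro q y hy
          exact Submodule.subset_span (Or.inr ⟨p, q, x, y, hx, hy, rfl⟩)
  · rintro _ (⟨i, n, x, hx, rfl⟩ | ⟨p, q, x, y, hx, hy, rfl⟩)
    · exact ⟨i + 2 * n, pw_gr _ i _ hx⟩
    · exact ⟨p + q, pr_gr _ hx hy⟩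
  · rintro _ (⟨i, n, x, hx, rfl⟩ | ⟨p, q, x, y, hx, hy, rfl⟩) h
    · by_cases e : i + 2 * n = t
      · exact hQ i n x e hx
      · have h0 := Gr334.prH_of_mem_ne e (pw_gr AltSS.full i (le_full (i + 1)) hx)
        rw [Gr334.prH_of_mem h] at h0
        rw [h0]; exact Q.zero_mem
    · by_cases e : p + q = t
      · exact hQ' p q x y e hx hy
      · have h0 := Gr334.prH_of_mem_ne e (pr_gr AltSS.full hx hy)
        rw [Gr334.prH_of_mem h] at h0
        rw [h0]; exact Q.zero_mem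

/-- lifting homogeneous classes -/
theorem exists_gr_lift {K L : SS} {f : Hom K L} (h : Function.Surjective (H.map F2 f)) {t : ℕ}
    {y : H F2 L} (hy : y ∈ H.gr F2 L t) : ∃ x ∈ H.gr F2 K t, H.map F2 f x = y := by
  obtain ⟨x, hx⟩ := h y
  exact ⟨Gr334.prH F2 K t x, Gr334.prH_mem t x, by rw [← Gr334.prH_map, hx, Gr334.prH_of_mem hy]⟩

end inputs

end Crest.Agent.R204.Span348
end
end

-- ▼ part R204/Span5_348

/-!
# The generation theorem for the homology of the symmetric groups (row 204, block G)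
-/

set_option autoImplicit false

noncomputable section

namespace Crest.Agent.R204.Span348

open Finsupp SS Tr348 Fs348 DK742 EZ271

/-! ### `Fs U 0` and `Fs U 1` -/

section small

variable {U : Type}

/-- if the identity is homotopic to a map which factors through a point, the homology is spanned by the
class of a vertex -/
theorem span_of_const {K : SS} (v : K.S 0) {f : Hom K K} (hf : f = SS.constHom K K v)
    (h : H.map F2 f = H.map F2 (Hom.id K)) (x : H F2 K) : ∃ r : F2, x = r • C5T557.vtx F2 v := by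
  have h1 : H.map F2 f x = x := by rw [h, H.map_id']
  obtain ⟨a, ha, rfl⟩ := Hd.mk_surj _ x
  rw [hf, C5T557.mapH_constHom] at h1
  exact ⟨_, h1.symm⟩

theorem Fs_zero_ext {n : ℕ} (x y : (Fs U 0).S n) : x = y := by
  refine Subtype.ext ?_
  have hx := Finset.card_eq_zero.1 x.2.2
  have hy := Finset.card_eq_zero.1 y.2.2
  rw [hx, hy]

theorem span_zero (v : (Fs U 0).S 0) (x : H F2 (Fs U 0)) : ∃ r : F2, x = r • C5T557.vtx F2 v := by
  refine span_of_const v (f := Hom.id _) ?_ rfl x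
  exact SS.Hom.ext (funext fun n => funext fun y => Fs_zero_ext _ _)

theorem CI_card_one {n : ℕ} {A : Finset (Fin (n + 1) → U)} (h : A.card = 1)
    (G : (Fin (n + 1) → U) → Fin (n + 1) → U) : VI G A := by
  intro i c hc d hd _
  obtain ⟨e, rfl⟩ := Finset.card_eq_one.1 h
  rw [Finset.mem_coe, Finset.mem_singleton] at hc hd
  rw [hc, hd]

theorem span_one (v : (Fs U 1).S 0) (x : H F2 (Fs U 1)) : ∃ r : F2, x = r • C5T557.vtx F2 v := by
  obtain ⟨c, hc⟩ := Finset.card_eq_one.1 v.2.2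
  have htp := Fs.tw_htp (Hom.id (Fs U 1)) (fun _ _ d i => c 0) (fun _ _ d i => d i)
    (fun n x => CI_card_one x.2.2 _) (fun n x => CI_card_one x.2.2 _)
    (fun _ _ _ _ _ _ => rfl) (fun _ _ _ _ _ _ => rfl)
  refine span_of_const v (f := Fs.tw (Hom.id (Fs U 1)) (fun _ _ d i => c 0)
    (fun n x => CI_card_one x.2.2 _) (fun _ _ _ _ _ _ => rfl)) ?_ ?_ x
  · refine SS.Hom.ext (funext fun n => funext fun y => Subtype.ext ?_)
    obtain ⟨d, hd⟩ := Finset.card_eq_one.1 y.2.2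
    show im (fun _ _ => c 0) y.1 = re (fun _ => 0) v.1
    rw [hc, hd]
    ext g
    rw [mem_im, mem_re]
    simp only [Finset.mem_singleton, exists_eq_left]
    rfl
  · rw [hInv.eq F2 htp]
    congr 1
    refine SS.Hom.ext (funext fun n => funext fun y => Subtype.ext ?_)
    exact im_id _

end small

/-- the product `Fs U a × Fs U b → Fs U (a+b)` -/
def mulV {U : Type} (k : U ⊕ U ↪ U) (a b : ℕ) : Hom ((Fs U a).prod (Fs U b)) (Fs U (a + b)) :=
  (Thr328.map (a + b) k).comp (Thr328.djV U U a b)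

/-- `Θ : D_M (Fs U a) → Fs U (2a)` -/
def thV {U : Type} (k : U ⊕ U ↪ U) (M a : ℕ) :
    Hom (DX (AltSS.skel M) (Fs U a)) (Fs U (a + a)) :=
  (Thr328.map (a + a) k).comp (thM U M a)

/-- the operation `x ↦ Θ_*(e_i ⊗ x ⊗ x)` -/
def qV {U : Type} (k : U ⊕ U ↪ U) (M a i : ℕ) (h : ((i + 1 : ℕ) : ℕ∞) ≤ (AltSS.skel M).M) :
    H F2 (Fs U a) →ₗ[F2] H F2 (Fs U (a + a)) :=
  H.map F2 (thV k M a) ∘ₗ pw (AltSS.skel M) i h

/-- the product in homology -/
def mV {U : Type} (k : U ⊕ U ↪ U) (a b : ℕ) :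
    H F2 (Fs U a) →ₗ[F2] H F2 (Fs U b) →ₗ[F2] H F2 (Fs U (a + b)) :=
  xH.compr₂ (H.map F2 (mulV k a b))


theorem H_map_comp_apply {K L M : SS} (g : Hom L M) (f : Hom K L) (x : H F2 K) :
    H.map F2 (g.comp f) x = H.map F2 g (H.map F2 f x) := H.map_comp' F2 g f x

/-- the vertex `e_0` of `E Z/2` gives the product -/
theorem thF_pr (U : Type) (a : ℕ) (x y : H F2 (Fs U a)) :
    H.map F2 (thF U a) (pr AltSS.full x y) = H.map F2 (Thr328.djV U U a a) (xH x y) := by
  obtain ⟨p, hp, rfl⟩ := Hd.mk_surj _ x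
  obtain ⟨q, hq, rfl⟩ := Hd.mk_surj _ y
  rw [pr_mk, xH_mk]
  show Hd.mk _ (N.map F2 (thF U a) (prC AltSS.full p q)) _ =
    Hd.mk _ (N.map F2 (Thr328.djV U U a a) (cross F2 p q)) _
  rw [Hd.mk_eq_mk]
  refine ⟨0, ?_⟩
  rw [map_zero, eq_comm, sub_eq_zero, prC_apply, PhiI_apply, C5T557.cross_vertex_left,
    map_map, map_map]
  refine congrArg (fun f => N.map F2 f (cross F2 p q)) ?_
  refine SS.Hom.ext (funext fun n => funext fun z => Subtype.ext ?_)
  show Thr328.th (fun i => (AltSS.full.e 0 (AltSS.full.zero_le) 0) 0) z.1.1 z.2.1 =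
    Thr328.du z.1.1 z.2.1
  have e : (AltSS.full.e 0 (AltSS.full.zero_le) 0) = alt 0 0 := AltSS.full.j_e 0 AltSS.full.zero_le 0
  rw [← Thr328.th_zero]
  congr 1
  funext i
  rw [e]
  simp [alt]

variable {U : Type}

/-- **SPAN**: subspaces `P v` of `H (Fs U v; F2)` which contain the point classes and are closed under
products and the operations `Q_i`, `i < M`, contain everything in degrees `< M`. -/
theorem span_gr (hK : KunSpan) (hD : DSpan) (k : U ⊕ U ↪ U) (M : ℕ)
    (P : ∀ v, Submodule F2 (H F2 (Fs U v)))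
    (h0 : ∃ e : (Fs U 0).S 0, C5T557.vtx F2 e ∈ P 0)
    (h1 : ∃ e : (Fs U 1).S 0, C5T557.vtx F2 e ∈ P 1)
    (hmul : ∀ a b x y, x ∈ P a → y ∈ P b → mV k a b x y ∈ P (a + b))
    (hQ : ∀ a i (h : ((i + 1 : ℕ) : ℕ∞) ≤ (AltSS.skel M).M) x, x ∈ P a → qV k M a i h x ∈ P (a + a)) :
    ∀ v t, t < M → H.gr F2 (Fs U v) t ≤ P v := by
  intro v
  induction v using Nat.strong_induction_on with
  | _ v ih =>
  intro t ht
  rcases Nat.lt_or_ge v 2 with hv | hv
  · interval_cases v
    · obtain ⟨e, he⟩ := h0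
      intro x _
      obtain ⟨r, rfl⟩ := span_zero e x
      exact Submodule.smul_mem _ _ he
    · obtain ⟨e, he⟩ := h1
      intro x _
      obtain ⟨r, rfl⟩ := span_one e x
      exact Submodule.smul_mem _ _ he
  · -- the relabelling is onto
    have hrel : ∀ w, Function.Surjective (H.map F2 (Thr328.map w k)) := fun w =>
      (map_bij F2 w k ⟨Sum.inl, Sum.inl_injective⟩).2
    rcases split_cases v hv with ⟨a, b, ha, hb, rfl, ho⟩ | ⟨a, m, ha, rfl, hm, ho⟩
    · intro y hy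
      have hs : Function.Surjective (H.map F2 (mulV k a b)) := by
        intro y
        obtain ⟨z, rfl⟩ := hrel (a + b) y
        obtain ⟨w, rfl⟩ := djV_surj k a b ho z
        exact ⟨w, H.map_comp' F2 _ _ _⟩
      obtain ⟨x, hx, rfl⟩ := exists_gr_lift hs hy
      refine (hK.gr (Q := (P (a + b)).comap (H.map F2 (mulV k a b))) ?_) hx
      intro p q x y hpq hx hy
      exact hmul a b x y (ih a (by omega) p (by omega) hx) (ih b (by omega) q (by omega) hy)
    · intro y hy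
      have hs : Function.Surjective (H.map F2 ((Thr328.map (a + a) k).comp (thF U a))) := by
        intro y
        obtain ⟨z, rfl⟩ := hrel (a + a) y
        obtain ⟨w, rfl⟩ := thF_surj k a m ha hm ho z
        exact ⟨w, H.map_comp' F2 _ _ _⟩
      obtain ⟨x, hx, rfl⟩ := exists_gr_lift hs hy
      refine (hD.gr (Q := (P (a + a)).comap
        (H.map F2 ((Thr328.map (a + a) k).comp (thF U a)))) ?_ ?_) hx
      · intro i n x hin hx
        have hi : ((i + 1 : ℕ) : ℕ∞) ≤ (AltSS.skel M).M := by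
          show ((i + 1 : ℕ) : ℕ∞) ≤ ((M : ℕ) : ℕ∞)
          exact_mod_cast (by omega : i + 1 ≤ M)
        have := hQ a i hi x (ih a (by omega) n (by omega) hx)
        have e : qV k M a i hi x = H.map F2 ((Thr328.map (a + a) k).comp (thF U a))
            (pw AltSS.full i (le_full (i + 1)) x) := by
          show H.map F2 (((Thr328.map (a + a) k).comp (thF U a)).comp
            (DXX (AltSS.skFull M) (Fs U a))) (pw (AltSS.skel M) i hi x) = _
          rw [H_map_comp_apply, pw_change (AltSS.skFull M) i hi (le_full (i + 1))]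
        rw [e] at this
        exact this
      · intro p q x y hpq hx hy
        have := hmul a a x y (ih a (by omega) p (by omega) hx) (ih a (by omega) q (by omega) hy)
        rw [Submodule.mem_comap, H_map_comp_apply, thF_pr, ← H_map_comp_apply]
        exact this

end Crest.Agent.R204.Span348
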