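import Crest.Agent.R204.Spec_114
import Crest.Agent.R204.Span5_348
import Crest.Agent.R204.Ops_265
import Crest.Agent.R204.Hopf4_450
import Crest.Agent.R204.TowerZero_85
import Crest.Agent.R204.EZInst_847
import Crest.Agent.R204.OpsHopf_557
import Crest.Agent.R204.EZSym_888
import Crest.Agent.R204.Rel_683

-- ▼ part R204/Squ_103
section

/-!
# Row 204, block G: the squeeze (helper103)

Pure algebra.  `Src A D` = the homology of the thread model `Tot ℕ` (bigraded by the number of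
threads and by the degree, operations `Q_i`, generated by one thread, admissible words span all
words).  `Cmp` = comparison map to `H_*(X_0)`.  Result: the comparison map is injective in degrees
`≤ D` on every weight, and onto the base component as soon as `v ≥ 2 t`.
-/

set_option autoImplicit false

namespace Crest.Agent.R204.Squ103

open MvPolynomial Spec114 Finset

/-- iterated operations on `x` -/
def wdA {A : Type} (Q : ℕ → A → A) (x : A) (I : List ℕ) : A := I.foldr (fun i y => Q i y) x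

/-- the source algebra -/
structure Src (A : Type) [CommRing A] [Algebra F2 A] (D : ℕ) where
  /-- weight `v`, degree `t` -/
  W : ℕ → ℕ → Submodule F2 A
  /-- operations -/
  Q : ℕ → A → A
  /-- the class of one thread -/
  x1 : A
  one_mem : (1 : A) ∈ W 0 0
  x1_mem : x1 ∈ W 1 0
  mul_mem : ∀ {a s b t : ℕ} {y z : A}, s + t ≤ D → y ∈ W a s → z ∈ W b t → y * z ∈ W (a + b) (s + t)
  Q_mem : ∀ {i v t : ℕ} {y : A}, 2 * t + i ≤ D → y ∈ W v t → Q i y ∈ W (2 * v) (2 * t + i)
  Q_add : ∀ {i v t : ℕ} {y z : A}, 2 * t + i ≤ D → y ∈ W v t → z ∈ W v t →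
    Q i (y + z) = Q i y + Q i z
  Q_sq : ∀ {v t : ℕ} {y : A}, 2 * t ≤ D → y ∈ W v t → Q 0 y = y * y
  Q_one : ∀ i, 1 ≤ i → i ≤ D → Q i 1 = 0
  cartan : ∀ {i a s b t : ℕ} {y z : A}, 2 * (s + t) + i ≤ D → y ∈ W a s → z ∈ W b t →
    Q i (y * z) = ∑ p ∈ HasAntidiagonal.antidiagonal i, Q p.1 y * Q p.2 z
  adm : ∀ I : List ℕ, Tower.wdeg 0 I ≤ D → wdA Q x1 I ∈ Submodule.span F2 {y | ∃ J : List ℕ,
    J.length = I.length ∧ Tower.wdeg 0 J = Tower.wdeg 0 I ∧ J.Pairwise (· ≤ ·) ∧ y = wdA Q x1 J}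
  W0 : W 0 0 ≤ Submodule.span F2 {1}
  W0' : ∀ t, 1 ≤ t → t ≤ D → W 0 t = ⊥
  W1 : W 1 0 ≤ Submodule.span F2 {x1}
  W1' : ∀ t, 1 ≤ t → t ≤ D → W 1 t = ⊥
  span : ∀ S : ℕ → ℕ → Submodule F2 A, (∀ v t, S v t ≤ W v t) → (∀ t ≤ D, W 0 t ≤ S 0 t) →
    (∀ t ≤ D, W 1 t ≤ S 1 t) →
    (∀ (a s b t : ℕ) (y z : A), s + t ≤ D → y ∈ S a s → z ∈ S b t → y * z ∈ S (a + b) (s + t)) →
    (∀ (i v t : ℕ) (y : A), 2 * t + i ≤ D → y ∈ S v t → Q i y ∈ S (2 * v) (2 * t + i)) →
    ∀ v t, t ≤ D → W v t ≤ S v t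

theorem wdeg_cons (k i : ℕ) (I : List ℕ) : Tower.wdeg k (i :: I) = 2 * Tower.wdeg k I + i := rfl
theorem wdeg_nil (k : ℕ) : Tower.wdeg k [] = k := rfl
theorem wdA_cons {A : Type} (Q : ℕ → A → A) (x : A) (i : ℕ) (I : List ℕ) :
    wdA Q x (i :: I) = Q i (wdA Q x I) := rfl

/-- weights of the polynomial generators -/
def wt : Option Tower.Wd0 → ℕ × ℕ
  | none => (1, 0)
  | some I => (2 ^ I.1.1.length, Tower.wdeg 0 I.1.1)

theorem le_wdeg : ∀ (I : List ℕ), (∀ i ∈ I, 1 ≤ i) → 2 ^ I.length ≤ Tower.wdeg 0 I + 1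
  | [], _ => by simp [wdeg_nil]
  | i :: I, h => by
    have h1 := le_wdeg I fun j hj => h j (List.mem_cons_of_mem _ hj)
    have h2 := h i List.mem_cons_self
    rw [wdeg_cons, List.length_cons, pow_succ]
    omega

theorem wt_le (I : Tower.Wd0) : (wt (some I)).1 ≤ 2 * (wt (some I)).2 := by
  have h1 := le_wdeg I.1.1 I.1.2.2
  have h2 : I.1.1 ≠ [] := I.2
  have h3 : 1 ≤ I.1.1.length := List.length_pos_iff.2 h2
  have h4 : 2 ^ 1 ≤ 2 ^ I.1.1.length := Nat.pow_le_pow_right (by norm_num) h3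
  show 2 ^ I.1.1.length ≤ 2 * Tower.wdeg 0 I.1.1
  omega

section gen

variable {A : Type} [CommRing A] [Algebra F2 A]

/-- span of the monomials of bidegree `(v, t)` -/
noncomputable def Mono (g : Option Tower.Wd0 → A) (v t : ℕ) : Submodule F2 A :=
  (weightedHomogeneousSubmodule F2 wt (v, t)).map (aeval g : MvPolynomial (Option Tower.Wd0) F2 →ₐ[F2] A).toLinearMap

variable (g : Option Tower.Wd0 → A)

theorem mem_Mono {v t : ℕ} {y : A} : y ∈ Mono g v t ↔ ∃ p : MvPolynomial (Option Tower.Wd0) F2,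
    IsWeightedHomogeneous wt p (v, t) ∧ aeval g p = y := Iff.rfl

theorem one_mem_Mono : (1 : A) ∈ Mono g 0 0 :=
  (mem_Mono g).2 ⟨1, isWeightedHomogeneous_one F2 wt, map_one _⟩

theorem gen_mem_Mono (i : Option Tower.Wd0) : g i ∈ Mono g (wt i).1 (wt i).2 :=
  (mem_Mono g).2 ⟨X i, isWeightedHomogeneous_X F2 wt i, aeval_X _ _⟩

theorem mul_mem_Mono {a s b t : ℕ} {y z : A} (hy : y ∈ Mono g a s) (hz : z ∈ Mono g b t) :
    y * z ∈ Mono g (a + b) (s + t) := by
  obtain ⟨p, hp, rfl⟩ := (mem_Mono g).1 hy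
  obtain ⟨q, hq, rfl⟩ := (mem_Mono g).1 hz
  exact (mem_Mono g).2 ⟨p * q, hp.mul hq, map_mul _ _ _⟩

/-- the coefficients of a polynomial over `F2` on its support are `1` -/
theorem eq_sum_monomial {σ : Type} (p : MvPolynomial σ F2) : p = ∑ d ∈ p.support, monomial d 1 := by
  conv_lhs => rw [p.as_sum]
  refine Finset.sum_congr rfl fun d hd => ?_
  have h : coeff d p ≠ 0 := mem_support_iff.1 hd
  have h' : ∀ c : ZMod 2, c ≠ 0 → c = 1 := by decide
  rw [h' _ h]

/-- to check a statement on homogeneous polynomials it is enough to look at monomials -/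
theorem hom_induction {σ M : Type} [AddCommMonoid M] {w : σ → M} {m : M}
    {P : MvPolynomial σ F2 → Prop} (h0 : P 0)
    (h1 : ∀ (d : σ →₀ ℕ) (p : MvPolynomial σ F2), Finsupp.weight w d = m →
      IsWeightedHomogeneous w p m → P p → P (monomial d 1 + p))
    {p : MvPolynomial σ F2} (hp : IsWeightedHomogeneous w p m) : P p := by
  classical
  have key : ∀ s : Finset (σ →₀ ℕ), (∀ d ∈ s, Finsupp.weight w d = m) →
      IsWeightedHomogeneous w (∑ d ∈ s, monomial d (1 : F2)) m ∧ P (∑ d ∈ s, monomial d (1 : F2)) := by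
    intro s
    induction s using Finset.induction_on with
    | empty => intro _; exact ⟨by simpa using isWeightedHomogeneous_zero F2 w m, by simpa using h0⟩
    | insert d s hd ih =>
      intro h
      obtain ⟨h2, h3⟩ := ih fun d' hd' => h d' (Finset.mem_insert_of_mem hd')
      rw [Finset.sum_insert hd]
      refine ⟨?_, h1 d _ (h d (Finset.mem_insert_self _ _)) h2 h3⟩
      exact (isWeightedHomogeneous_monomial w d (1 : F2) (h d (Finset.mem_insert_self _ _))).add h2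
  rw [eq_sum_monomial p]
  exact (key p.support fun d hd => hp (mem_support_iff.1 hd)).2

theorem weight_single_add {σ M : Type} [AddCommMonoid M] (w : σ → M) (i : σ) (d : σ →₀ ℕ) :
    Finsupp.weight w (Finsupp.single i 1 + d) = w i + Finsupp.weight w d := by
  rw [map_add, Finsupp.weight_single, one_smul]

/-- induction on monomials -/
theorem mon_induction {σ : Type} {P : (σ →₀ ℕ) → Prop} (h0 : P 0)
    (h1 : ∀ (i : σ) (d : σ →₀ ℕ), P d → P (Finsupp.single i 1 + d)) (d : σ →₀ ℕ) : P d := by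
  classical
  induction hn : d.degree generalizing d with
  | zero => rw [Finsupp.degree_eq_zero_iff] at hn; rw [hn]; exact h0
  | succ n ih =>
    have hne : d ≠ 0 := by rintro rfl; simp at hn
    obtain ⟨i, hi⟩ := Finsupp.ne_iff.1 hne
    have hi' : 1 ≤ d i := Nat.one_le_iff_ne_zero.2 hi
    have e : d = Finsupp.single i 1 + (d - Finsupp.single i 1) := by
      ext j
      rw [Finsupp.add_apply, Finsupp.tsub_apply]
      by_cases hj : i = j
      · subst hj; rw [Finsupp.single_eq_same]; omega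
      · rw [Finsupp.single_eq_of_ne (Ne.symm hj)]; omega
    rw [e]
    apply h1
    apply ih
    have := congrArg Finsupp.degree e
    rw [map_add, Finsupp.degree_single] at this
    omega

theorem monomial_single_add {σ : Type} (i : σ) (d : σ →₀ ℕ) :
    (monomial (Finsupp.single i 1 + d) (1 : F2)) = X i * monomial d 1 := by
  rw [X, monomial_mul, one_mul]

end gen

/-! ## generation -/

namespace Src

variable {A : Type} [CommRing A] [Algebra F2 A] {D : ℕ} (S : Src A D)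

/-- the generators -/
def gen : Option Tower.Wd0 → A
  | none => S.x1
  | some I => wdA S.Q S.x1 I.1.1

theorem wd_mem_W : ∀ (I : List ℕ), Tower.wdeg 0 I ≤ D →
    wdA S.Q S.x1 I ∈ S.W (2 ^ I.length) (Tower.wdeg 0 I)
  | [], _ => by simpa [wdA, wdeg_nil] using S.x1_mem
  | i :: I, h => by
    rw [wdeg_cons] at h ⊢
    rw [wdA_cons, List.length_cons, pow_succ, mul_comm (2 ^ I.length)]
    exact S.Q_mem h (wd_mem_W I (by omega))

theorem gen_mem_W (i : Option Tower.Wd0) (h : (wt i).2 ≤ D) : S.gen i ∈ S.W (wt i).1 (wt i).2 := by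
  cases i with
  | none => exact S.x1_mem
  | some I => exact S.wd_mem_W I.1.1 h

theorem mon_mem_W (d : Option Tower.Wd0 →₀ ℕ) : (Finsupp.weight wt d).2 ≤ D →
    aeval S.gen (monomial d (1 : F2)) ∈ S.W (Finsupp.weight wt d).1 (Finsupp.weight wt d).2 := by
  induction d using mon_induction with
  | h0 =>
    intro _
    rw [map_zero]
    simpa using S.one_mem
  | h1 i d ih =>
    intro h
    rw [weight_single_add, Prod.snd_add] at h
    rw [weight_single_add, monomial_single_add, map_mul, aeval_X, Prod.snd_add, Prod.fst_add]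
    exact S.mul_mem h (S.gen_mem_W i (by omega)) (ih (by omega))

theorem Mono_le_W {v t : ℕ} (ht : t ≤ D) : Mono S.gen v t ≤ S.W v t := by
  intro y hy
  obtain ⟨p, hp, rfl⟩ := (mem_Mono _).1 hy
  refine hom_induction (P := fun p => aeval S.gen p ∈ S.W v t) (by simp) ?_ hp
  intro d p hd _ ih
  rw [map_add]
  refine Submodule.add_mem _ ?_ ih
  have := S.mon_mem_W d (by rw [hd]; exact ht)
  rwa [hd] at this

theorem adm_mem_Mono : ∀ (J : List ℕ), J.Pairwise (· ≤ ·) → Tower.wdeg 0 J ≤ D →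
    wdA S.Q S.x1 J ∈ Mono S.gen (2 ^ J.length) (Tower.wdeg 0 J)
  | [], _, _ => by simpa [wdA, wdeg_nil, wt, gen] using gen_mem_Mono S.gen none
  | i :: J, h, hD => by
    rcases Nat.eq_zero_or_pos i with rfl | hi
    · rw [wdeg_cons] at hD ⊢
      have ih := adm_mem_Mono J (List.Pairwise.of_cons h) (by omega)
      rw [wdA_cons, S.Q_sq (by omega) (S.wd_mem_W J (by omega))]
      have := mul_mem_Mono S.gen ih ih
      convert this using 1
      rw [List.length_cons, pow_succ, mul_two, add_zero, two_mul]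
    · have hpos : ∀ j ∈ i :: J, 1 ≤ j := by
        intro j hj
        rcases List.mem_cons.1 hj with rfl | hj
        · exact hi
        · exact le_trans hi (List.rel_of_pairwise_cons h hj)
      exact gen_mem_Mono S.gen (some ⟨⟨i :: J, h, hpos⟩, List.cons_ne_nil _ _⟩)

theorem wd_mem_Mono (I : List ℕ) (hI : Tower.wdeg 0 I ≤ D) :
    wdA S.Q S.x1 I ∈ Mono S.gen (2 ^ I.length) (Tower.wdeg 0 I) := by
  refine (Submodule.span_le.2 ?_) (S.adm I hI)
  rintro _ ⟨J, h1, h2, h3, rfl⟩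
  have := S.adm_mem_Mono J h3 (by omega)
  rwa [h1, h2] at this

theorem Q_gen_mem (i : ℕ) (s : Option Tower.Wd0) (h : 2 * (wt s).2 + i ≤ D) :
    S.Q i (S.gen s) ∈ Mono S.gen (2 * (wt s).1) (2 * (wt s).2 + i) := by
  cases s with
  | none =>
    have := S.wd_mem_Mono [i] (by simpa [wdeg_cons, wdeg_nil, wt] using h)
    simpa [wdeg_cons, wdeg_nil, wt, wdA, gen] using this
  | some I =>
    have := S.wd_mem_Mono (i :: I.1.1) h
    rw [wdA_cons, List.length_cons, pow_succ, mul_comm (2 ^ _)] at this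
    exact this

theorem Q_zero_eq {i v t : ℕ} (h : 2 * t + i ≤ D) : S.Q i 0 = 0 := by
  have := S.Q_add h (Submodule.zero_mem (S.W v t)) (Submodule.zero_mem (S.W v t))
  rw [add_zero] at this
  exact left_eq_add.1 this

theorem Q_mon_mem (d : Option Tower.Wd0 →₀ ℕ) : ∀ i, 2 * (Finsupp.weight wt d).2 + i ≤ D →
    S.Q i (aeval S.gen (monomial d (1 : F2))) ∈
      Mono S.gen (2 * (Finsupp.weight wt d).1) (2 * (Finsupp.weight wt d).2 + i) := by
  induction d using mon_induction with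
  | h0 =>
    intro i h
    rw [map_zero] at h ⊢
    rw [show (monomial (0 : Option Tower.Wd0 →₀ ℕ) (1 : F2)) = 1 from rfl, map_one]
    simp only [Prod.snd_zero, Prod.fst_zero, mul_zero, zero_add] at h ⊢
    rcases Nat.eq_zero_or_pos i with rfl | hi
    · rw [S.Q_sq (t := 0) (by omega) S.one_mem, one_mul]
      exact one_mem_Mono _
    · rw [S.Q_one i hi h]
      exact Submodule.zero_mem _
  | h1 s d ih =>
    intro i h
    rw [weight_single_add, Prod.snd_add] at h
    rw [weight_single_add, monomial_single_add, map_mul, aeval_X, Prod.snd_add, Prod.fst_add,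
      S.cartan h (S.gen_mem_W s (by omega)) (S.mon_mem_W d (by omega))]
    refine Submodule.sum_mem _ fun p hp => ?_
    rw [HasAntidiagonal.mem_antidiagonal] at hp
    have h1 := S.Q_gen_mem p.1 s (by omega)
    have h2 := ih p.2 (by omega)
    have := mul_mem_Mono S.gen h1 h2
    have e1 : 2 * ((wt s).1 + (Finsupp.weight wt d).1) = 2 * (wt s).1 + 2 * (Finsupp.weight wt d).1 := by
      ring
    have e2 : 2 * ((wt s).2 + (Finsupp.weight wt d).2) + i =
        2 * (wt s).2 + p.1 + (2 * (Finsupp.weight wt d).2 + p.2) := by omega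
    rw [e1, e2]
    exact this

theorem Q_Mono_mem {i v t : ℕ} (h : 2 * t + i ≤ D) {y : A} (hy : y ∈ Mono S.gen v t) :
    S.Q i y ∈ Mono S.gen (2 * v) (2 * t + i) := by
  obtain ⟨p, hp, rfl⟩ := (mem_Mono _).1 hy
  refine hom_induction (P := fun p => S.Q i (aeval S.gen p) ∈ Mono S.gen (2 * v) (2 * t + i)) ?_ ?_ hp
  · rw [map_zero, S.Q_zero_eq (v := v) h]; exact Submodule.zero_mem _
  · intro d p hd hp' ih
    have h1 := S.mon_mem_W d (by rw [hd]; show t ≤ D; omega)
    rw [hd] at h1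
    have h2 : aeval S.gen p ∈ S.W v t := S.Mono_le_W (by omega) ((mem_Mono _).2 ⟨p, hp', rfl⟩)
    rw [map_add, S.Q_add h h1 h2]
    refine Submodule.add_mem _ ?_ ih
    have := S.Q_mon_mem d i (by rw [hd]; exact h)
    rwa [hd] at this

/-- GENERATION: in degrees `≤ D` everything is a polynomial in the admissible words. -/
theorem W_le_Mono {v t : ℕ} (ht : t ≤ D) : S.W v t ≤ Mono S.gen v t := by
  have key := S.span (fun v t => if t ≤ D then Mono S.gen v t else ⊥) ?_ ?_ ?_ ?_ ?_ v t ht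
  · rwa [if_pos ht] at key
  · intro v t
    split_ifs with h
    · exact S.Mono_le_W h
    · exact bot_le
  · intro t ht
    rw [if_pos ht]
    rcases Nat.eq_zero_or_pos t with rfl | h
    · refine S.W0.trans (Submodule.span_le.2 ?_)
      rintro _ rfl
      exact one_mem_Mono _
    · rw [S.W0' t h ht]; exact bot_le
  · intro t ht
    rw [if_pos ht]
    rcases Nat.eq_zero_or_pos t with rfl | h
    · refine S.W1.trans (Submodule.span_le.2 ?_)
      rintro _ rfl
      exact gen_mem_Mono S.gen none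
    · rw [S.W1' t h ht]; exact bot_le
  · intro a s b t y z h hy hz
    rw [if_pos (by omega)] at hy hz ⊢
    exact mul_mem_Mono _ hy hz
  · intro i v t y h hy
    rw [if_pos (by omega)] at hy ⊢
    exact S.Q_Mono_mem h hy

end Src

/-! ## comparison -/

/-- comparison map -/
structure Cmp {A : Type} [CommRing A] [Algebra F2 A] {D : ℕ} (S : Src A D) (T : Tower)
    (κ : A →ₗ[F2] T.H 0) : Prop where
  one : κ 1 = 1
  x1 : κ S.x1 = T.x 0
  mul : ∀ (a s b t : ℕ) (y z : A), s + t ≤ D → y ∈ S.W a s → z ∈ S.W b t → κ (y * z) = κ y * κ z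
  Q : ∀ (i v t : ℕ) (y : A), 2 * t + i ≤ D → y ∈ S.W v t → κ (S.Q i y) = T.Q 0 i (κ y)

/-- the substitution `[1] ↦ 1` -/
noncomputable def sub1 : MvPolynomial (Option Tower.Wd0) F2 →ₐ[F2] MvPolynomial Tower.Wd0 F2 :=
  aeval (fun o : Option Tower.Wd0 => o.elim 1 X)

theorem sub1_monomial (d : Option Tower.Wd0 →₀ ℕ) :
    sub1 (monomial d 1) = monomial d.some 1 := by
  induction d using mon_induction with
  | h0 => simp [sub1]
  | h1 i d ih =>
    rw [monomial_single_add, map_mul, ih, Finsupp.some_add, sub1, aeval_X]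
    cases i with
    | none => simp
    | some I => simp [monomial_single_add]

/-- weight of a monomial in the generators of positive degree -/
theorem weight_some (d : Option Tower.Wd0 →₀ ℕ) :
    (Finsupp.weight wt d).1 = d none + Finsupp.weight (fun I : Tower.Wd0 => (wt (some I)).1) d.some ∧
    (Finsupp.weight wt d).2 = Finsupp.weight (fun I : Tower.Wd0 => Tower.wdeg 0 I.1.1) d.some := by
  induction d using mon_induction with
  | h0 => simp
  | h1 i d ih =>
    rw [weight_single_add, Finsupp.some_add, Prod.fst_add, Prod.snd_add, ih.1, ih.2]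
    cases i with
    | none => simp [wt, add_assoc]
    | some I =>
      rw [Finsupp.some_single_some, weight_single_add, weight_single_add]
      constructor
      · simp [wt]; ring
      · simp [wt]

theorem sub1_inj {v t : ℕ} {p : MvPolynomial (Option Tower.Wd0) F2}
    (hp : IsWeightedHomogeneous wt p (v, t)) (h : sub1 p = 0) : p = 0 := by
  classical
  by_contra hne
  obtain ⟨d0, hd0⟩ := ne_zero_iff.1 hne
  have h1 : coeff d0.some (sub1 p) = 1 := by
    conv_lhs => rw [eq_sum_monomial p, map_sum, coeff_sum]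
    rw [Finset.sum_eq_single d0]
    · rw [sub1_monomial, coeff_monomial, if_pos rfl]
    · intro d hd hne
      rw [sub1_monomial, coeff_monomial, if_neg]
      intro he
      apply hne
      have w1 := hp (mem_support_iff.1 hd)
      have w2 := hp hd0
      have e1 := (weight_some d).1
      have e2 := (weight_some d0).1
      rw [w1] at e1
      rw [w2] at e2
      rw [he] at e1
      have e3 : d none = d0 none := by omega
      ext o
      cases o with
      | none => exact e3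
      | some I => exact DFunLike.congr_fun he I
    · intro hd
      exact (hd (mem_support_iff.2 hd0)).elim
  rw [h, coeff_zero] at h1
  exact zero_ne_one h1

theorem sub1_homog {v t : ℕ} {p : MvPolynomial (Option Tower.Wd0) F2}
    (hp : IsWeightedHomogeneous wt p (v, t)) :
    IsWeightedHomogeneous (fun I : Tower.Wd0 => Tower.wdeg 0 I.1.1) (sub1 p) t := by
  refine hom_induction (P := fun p => IsWeightedHomogeneous (fun I : Tower.Wd0 => Tower.wdeg 0 I.1.1)
    (sub1 p) t) (by simpa using isWeightedHomogeneous_zero F2 _ t) ?_ hp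
  intro d p hd _ ih
  rw [map_add]
  refine IsWeightedHomogeneous.add ?_ ih
  rw [sub1_monomial]
  exact isWeightedHomogeneous_monomial _ _ _ (by rw [← (weight_some d).2, hd])

theorem weight_le (e : Tower.Wd0 →₀ ℕ) : Finsupp.weight (fun I : Tower.Wd0 => (wt (some I)).1) e ≤
    2 * Finsupp.weight (fun I : Tower.Wd0 => Tower.wdeg 0 I.1.1) e := by
  induction e using mon_induction with
  | h0 => simp
  | h1 i d ih =>
    rw [weight_single_add, weight_single_add]
    have h1 := wt_le i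
    have h2 : (wt (some i)).2 = Tower.wdeg 0 i.1.1 := rfl
    omega

theorem sub1_surj {v t : ℕ} (h : 2 * t ≤ v) {q : MvPolynomial Tower.Wd0 F2}
    (hq : IsWeightedHomogeneous (fun I : Tower.Wd0 => Tower.wdeg 0 I.1.1) q t) :
    ∃ p : MvPolynomial (Option Tower.Wd0) F2, IsWeightedHomogeneous wt p (v, t) ∧ sub1 p = q := by
  refine hom_induction (P := fun q => ∃ p : MvPolynomial (Option Tower.Wd0) F2,
    IsWeightedHomogeneous wt p (v, t) ∧ sub1 p = q)
    ⟨0, isWeightedHomogeneous_zero F2 _ _, map_zero _⟩ ?_ hq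
  rintro e q he _ ⟨p, hp, rfl⟩
  let d : Option Tower.Wd0 →₀ ℕ := Finsupp.optionElim
    (v - Finsupp.weight (fun I : Tower.Wd0 => (wt (some I)).1) e) e
  have hd1 : d.some = e := by ext I; simp [d]
  have hd2 : d none = v - Finsupp.weight (fun I : Tower.Wd0 => (wt (some I)).1) e := by
    simp [d]
  have hle := weight_le e
  rw [he] at hle
  have hw : Finsupp.weight wt d = (v, t) := by
    refine Prod.ext ?_ ?_
    · rw [(weight_some d).1, hd1, hd2]; show _ = v; omega
    · rw [(weight_some d).2, hd1, he]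
  exact ⟨monomial d 1 + p, (isWeightedHomogeneous_monomial wt d 1 hw).add hp, by
    rw [map_add, sub1_monomial, hd1]⟩

namespace Cmp

variable {A : Type} [CommRing A] [Algebra F2 A] {D : ℕ} {S : Src A D} {T : Tower}
  {κ : A →ₗ[F2] T.H 0} (h : Cmp S T κ)

include h

theorem map_wd : ∀ (I : List ℕ), Tower.wdeg 0 I ≤ D → κ (wdA S.Q S.x1 I) = T.word 0 I
  | [], _ => h.x1
  | i :: I, hI => by
    rw [wdeg_cons] at hI
    rw [wdA_cons, h.Q i _ _ _ hI (S.wd_mem_W I (by omega)), map_wd I (by omega)]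
    rfl

/-- a monomial goes to the monomial in the words of `X_0`, shifted to the base component -/
theorem map_mon (hx : T.x 0 * T.xinv = 1) (d : Option Tower.Wd0 →₀ ℕ) :
    (Finsupp.weight wt d).2 ≤ D →
    κ (aeval S.gen (monomial d (1 : F2))) * T.xinv ^ (Finsupp.weight wt d).1 =
      aeval (fun I : Tower.Wd0 => T.word0 I.1.1) (sub1 (monomial d 1)) := by
  induction d using mon_induction with
  | h0 =>
    intro _
    rw [map_zero]
    simp [h.one]
  | h1 i d ih =>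
    intro hD
    rw [weight_single_add, Prod.snd_add] at hD
    rw [weight_single_add, monomial_single_add, map_mul (aeval S.gen), map_mul sub1, aeval_X,
      Prod.fst_add, h.mul _ _ _ _ _ _ hD (S.gen_mem_W i (by omega)) (S.mon_mem_W d (by omega)),
      pow_add, map_mul (aeval _), ← ih (by omega)]
    have : κ (S.gen i) * T.xinv ^ (wt i).1 =
        aeval (fun I : Tower.Wd0 => T.word0 I.1.1) (sub1 (X i)) := by
      cases i with
      | none =>
        rw [sub1, aeval_X]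
        show κ S.x1 * T.xinv ^ 1 = _
        rw [h.x1, pow_one, hx]
        simp
      | some I =>
        rw [sub1, aeval_X]
        show κ (wdA S.Q S.x1 I.1.1) * T.xinv ^ (2 ^ I.1.1.length) = _
        rw [h.map_wd _ (by simpa [wt] using (show (wt (some I)).2 ≤ D by omega))]
        simp [Tower.word0]
    rw [← this]
    ring

theorem map_poly (hx : T.x 0 * T.xinv = 1) {v t : ℕ} (ht : t ≤ D)
    {p : MvPolynomial (Option Tower.Wd0) F2} (hp : IsWeightedHomogeneous wt p (v, t)) :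
    κ (aeval S.gen p) * T.xinv ^ v = aeval (fun I : Tower.Wd0 => T.word0 I.1.1) (sub1 p) := by
  refine hom_induction (P := fun p => κ (aeval S.gen p) * T.xinv ^ v =
    aeval (fun I : Tower.Wd0 => T.word0 I.1.1) (sub1 p)) (by simp) ?_ hp
  intro d p hd _ ih
  have := h.map_mon hx d (by rw [hd]; exact ht)
  rw [hd] at this
  rw [map_add, map_add, map_add, map_add, add_mul, this, ih]

/-- SQUEEZE, injectivity. -/
theorem injective (hx : T.x 0 * T.xinv = 1) (hP : T.FactPoly0 D) {v t : ℕ} (ht : t ≤ D) {y : A}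
    (hy : y ∈ S.W v t) (h0 : κ y = 0) : y = 0 := by
  obtain ⟨p, hp, rfl⟩ := (mem_Mono _).1 (S.W_le_Mono ht hy)
  have h1 := h.map_poly hx ht hp
  rw [h0, zero_mul] at h1
  have h2 := hP.1 t ht (sub1 p) (sub1_homog hp) h1.symm
  rw [sub1_inj hp h2, map_zero]

/-- SQUEEZE, surjectivity onto the base component. -/
theorem surjective (hx : T.x 0 * T.xinv = 1) (hP : T.FactPoly0 D) {v t : ℕ} (ht : t ≤ D)
    (hv : 2 * t ≤ v) {b : T.H 0} (hb : b ∈ T.gr 0 t) (hb' : b ∈ T.base) :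
    ∃ y ∈ S.W v t, κ y * T.xinv ^ v = b := by
  obtain ⟨q, hq, rfl⟩ := hP.2 t ht ⟨hb, hb'⟩
  obtain ⟨p, hp, rfl⟩ := sub1_surj hv hq
  exact ⟨aeval S.gen p, S.Mono_le_W ht ((mem_Mono _).2 ⟨p, hp, rfl⟩), h.map_poly hx ht hp⟩


end Cmp

end Crest.Agent.R204.Squ103
private theorem rz_de65a15249 : type_of% @_root_.Crest.Agent.R204.Squ103.Src.gen.eq_1 := @_root_.Crest.Agent.R204.Squ103.Src.gen.eq_1 -- L171
private theorem rz_2e5d79cd39 : type_of% @_root_.Crest.Agent.R204.Squ103.wt.eq_1 := @_root_.Crest.Agent.R204.Squ103.wt.eq_1 -- L57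
end

-- ▼ part R204/SrcTotA_85
section

/-!
# Row 204, leaf G11 (helper85): the source algebra `Squ103.Src (H F2 (Tot ℕ)) D`, part A

Bigrading `W v t` of `H F2 (Tot ℕ)`, compatibility of the product and of the operations `Q_i` of a
`Θ`-algebra structure on `Tot ℕ` with the fixed weight spaces `Fs ℕ v`.
-/

set_option autoImplicit false

noncomputable section

namespace Crest.Agent.R204.SrcTot85

open SS Fs348 Thr328 ThAlg265 Ops265 Span348 ThetaSS265 Gr334
open DK742 (AltSS)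

variable {M : ℕ}

/-- inclusion in homology -/
def io (v : ℕ) : H F2 (Fs ℕ v) →ₗ[F2] H F2 (Tot ℕ) := H.map F2 (inc ℕ v)

/-- weight `v`, degree `t` -/
def W (v t : ℕ) : Submodule F2 (H F2 (Tot ℕ)) := (H.gr F2 (Fs ℕ v) t).map (io v)

/-- the `Θ`-algebra structure on `Tot ℕ` restricts to the fixed weights -/
structure Compat (k : ℕ ⊕ ℕ ↪ ℕ) (T : ThAlg M (Tot ℕ)) : Prop where
  mu : ∀ a b, T.mu.comp (prodMap (inc ℕ a) (inc ℕ b)) = (inc ℕ (a + b)).comp (mulV k a b)
  Th : ∀ a, T.Th.comp (DMmap M (inc ℕ a)) = (inc ℕ (a + a)).comp (thV k M a)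
  one : ∃ e : (Fs ℕ 0).S 0, T.one = (inc ℕ 0).app 0 e

theorem xH_map {K L K' L' : SS} (f : Hom K K') (g : Hom L L') (x : H F2 K) (y : H F2 L) :
    xH (H.map F2 f x) (H.map F2 g y) = H.map F2 (prodMap f g) (xH x y) := by
  obtain ⟨a, ha, rfl⟩ := Hd.mk_surj _ x
  obtain ⟨b, hb, rfl⟩ := Hd.mk_surj _ y
  show Hd.mk (N.bd F2 _) (EZ271.cross F2 (N.map F2 f a) (N.map F2 g b)) _ =
    Hd.mk (N.bd F2 _) (N.map F2 (prodMap f g) (EZ271.cross F2 a b)) _
  congr 1
  rw [EZ271.map_cross]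

section compat

variable {k : ℕ ⊕ ℕ ↪ ℕ} {T : ThAlg M (Tot ℕ)} (hc : Compat k T)

include hc

theorem mulH_io (a b : ℕ) (x : H F2 (Fs ℕ a)) (y : H F2 (Fs ℕ b)) :
    mulH T.mu (io a x) (io b y) = io (a + b) (mV k a b x y) := by
  show H.map F2 T.mu (xH (H.map F2 (inc ℕ a) x) (H.map F2 (inc ℕ b) y)) =
    H.map F2 (inc ℕ (a + b)) (H.map F2 (mulV k a b) (xH x y))
  rw [xH_map, ← H_map_comp_apply, ← H_map_comp_apply, hc.mu]

theorem Q_io (a i : ℕ) (h : ((i + 1 : ℕ) : ℕ∞) ≤ (AltSS.skel M).M) (x : H F2 (Fs ℕ a)) :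
    Q T i (io a x) = io (a + a) (qV k M a i h x) := by
  have h' : i + 1 ≤ M := by
    have : ((i + 1 : ℕ) : ℕ∞) ≤ (M : ℕ∞) := h
    exact_mod_cast this
  have h1 := C5265.pw_map (M := M) (inc ℕ a) (i := i) (by omega) x
  show H.map F2 T.Th (C5265.pw M (Tot ℕ) i (H.map F2 (inc ℕ a) x)) =
    H.map F2 (inc ℕ (a + a)) (H.map F2 (thV k M a) (DK742.pw (AltSS.skel M) i h x))
  rw [← h1, ← H_map_comp_apply, hc.Th, ← pw_eq742 h x]
  exact H_map_comp_apply (inc ℕ (a + a)) (thV k M a) _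

theorem mul_mem {a s b t : ℕ} {y z : H F2 (Tot ℕ)} (hy : y ∈ W a s) (hz : z ∈ W b t) :
    mulH T.mu y z ∈ W (a + b) (s + t) := by
  obtain ⟨y, hy, rfl⟩ := hy
  obtain ⟨z, hz, rfl⟩ := hz
  rw [mulH_io hc]
  exact ⟨_, H_map_mem_gr _ (xH_gr hy hz), rfl⟩

theorem Q_mem {i v t : ℕ} (h : i + 1 ≤ M) {y : H F2 (Tot ℕ)} (hy : y ∈ W v t) :
    Q T i y ∈ W (2 * v) (2 * t + i) := by
  obtain ⟨y, hy, rfl⟩ := hy
  have h' : ((i + 1 : ℕ) : ℕ∞) ≤ (AltSS.skel M).M := by
    show ((i + 1 : ℕ) : ℕ∞) ≤ (M : ℕ∞)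
    exact_mod_cast h
  rw [Q_io hc v i h', two_mul v, add_comm (2 * t)]
  exact ⟨_, H_map_mem_gr _ (DK742.pw_gr _ i h' hy), rfl⟩

end compat

/-! ## weights `0` and `1` -/

theorem gr_zero_of_vtx {K : SS} {t : ℕ} (ht : 1 ≤ t) {v : K.S 0} {r : F2}
    (h : r • C5T557.vtx F2 v ∈ H.gr F2 K t) : r • C5T557.vtx F2 v = 0 := by
  have h0 : r • C5T557.vtx F2 v ∈ H.gr F2 K 0 := Submodule.smul_mem _ _ (Coalg847.vtx_mem_gr v)
  have h1 := prH_of_mem h
  rw [prH_of_mem_ne (by omega) h0] at h1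
  exact h1.symm

theorem W_zero (e : (Fs ℕ 0).S 0) : W 0 0 ≤ Submodule.span F2 {C5T557.vtx F2 ((inc ℕ 0).app 0 e)} := by
  rintro _ ⟨y, _, rfl⟩
  obtain ⟨r, rfl⟩ := span_zero e y
  rw [map_smul]
  refine Submodule.smul_mem _ _ (Submodule.mem_span_singleton.2 ⟨1, ?_⟩)
  rw [one_smul]
  exact (C5T557.map_vtx F2 (inc ℕ 0) e).symm

theorem W_zero' {t : ℕ} (ht : 1 ≤ t) : W 0 t = ⊥ := by
  rw [eq_bot_iff]
  rintro _ ⟨y, hy, rfl⟩
  obtain ⟨r, rfl⟩ := span_zero ((emp ℕ).app 0 ()) y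
  rw [gr_zero_of_vtx ht hy, map_zero]
  exact Submodule.zero_mem _

theorem W_one (e : (Fs ℕ 1).S 0) : W 1 0 ≤ Submodule.span F2 {C5T557.vtx F2 ((inc ℕ 1).app 0 e)} := by
  rintro _ ⟨y, _, rfl⟩
  obtain ⟨r, rfl⟩ := span_one e y
  rw [map_smul]
  refine Submodule.smul_mem _ _ (Submodule.mem_span_singleton.2 ⟨1, ?_⟩)
  rw [one_smul]
  exact (C5T557.map_vtx F2 (inc ℕ 1) e).symm

theorem W_one' (e : (Fs ℕ 1).S 0) {t : ℕ} (ht : 1 ≤ t) : W 1 t = ⊥ := by
  rw [eq_bot_iff]
  rintro _ ⟨y, hy, rfl⟩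
  obtain ⟨r, rfl⟩ := span_one e y
  rw [gr_zero_of_vtx ht hy, map_zero]
  exact Submodule.zero_mem _

end Crest.Agent.R204.SrcTot85
end
end

-- ▼ part R204/SrcTotB_85
section

/-!
# Row 204, leaf G11 (helper85): part B: generation (`span`) and `Q_i 1 = 0`
-/

set_option autoImplicit false

noncomputable section

namespace Crest.Agent.R204.SrcTot85

open SS Fs348 Thr328 ThAlg265 Ops265 Span348 ThetaSS265 Gr334
open DK742 (AltSS)

variable {M : ℕ}

/-! ## `Q_i 1 = 0` -/

theorem act_const_zero {K : SS} (v : K.S 0) :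
    K.act (⟨fun _ => 0, fun _ _ _ => le_rfl⟩ : Op 0 0) v = v := by
  have h : (⟨fun _ => 0, fun _ _ _ => le_rfl⟩ : Op 0 0) = OrderHom.id :=
    OrderHom.ext _ _ (funext fun a => Fin.ext (by omega))
  rw [h]
  exact K.act_id v

theorem Q_one {K : SS} (A : ThAlg M K) (h1 : A.OneLaw) {i : ℕ} (hi0 : 1 ≤ i) (hi : i ≤ M) :
    Q A i (C5T557.vtx F2 A.one) = 0 := by
  have e0 : Q A i (C5T557.vtx F2 A.one) = Q A i (Hd.mk (N.bd F2 K) (N.sx F2 A.one)
    (EZ271.bd_sx_zero F2 A.one)) := rfl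
  rw [e0, Q_mk A hi]
  obtain ⟨w, hw⟩ : ∃ w : (K.prod K).S 0, w = (A.one, A.one) := ⟨_, rfl⟩
  have key : N.map F2 A.Th (C5265.PhiC M K i (EZ271.cross F2 (N.sx F2 A.one) (N.sx F2 A.one))) = 0 := by
    have hh : EZ271.cross F2 (N.sx F2 A.one) (N.sx F2 A.one) = N.sx F2 w := by
      rw [C5T557.cross_vertex_right, N.map_sx, hw]
      congr 1
      exact Prod.ext rfl (act_const_zero A.one)
    rw [hh, C5265.PhiC_apply, C5T557.cross_vertex_right, C5265.ee_of_le hi, N.map_sx, N.map_sx,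
      N.map_sx]
    have h3 : A.Th.app i ((DK742.proj (C5265.invD M K)).app i
        ((SS.pair (Hom.id (EM M)) (constHom (EM M) (K.prod K) w)).app i
          (C5265.eS M i (C5265.le_cast hi) 0))) = A.oneS i := by
      rw [hw]
      exact h1 i (C5265.eS M i (C5265.le_cast hi) 0)
    rw [h3]
    exact sx_act_of_lt (show 0 < i by omega) _ _
  rw [Hd.mk_eq_zero]
  exact ⟨0, by rw [key, map_zero]⟩

/-! ## generation -/

section gen

variable {D : ℕ} (S : ℕ → ℕ → Submodule F2 (H F2 (Tot ℕ)))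

/-- classes of `Fs ℕ v` whose components of degree `≤ D` lie in `S v` -/
def PP (D : ℕ) (v : ℕ) : Submodule F2 (H F2 (Fs ℕ v)) :=
  ⨅ t : ℕ, ⨅ _ : t ≤ D, (S v t).comap (io v ∘ₗ prH F2 (Fs ℕ v) t)

theorem mem_PP {v : ℕ} {y : H F2 (Fs ℕ v)} :
    y ∈ PP S D v ↔ ∀ t ≤ D, io v (prH F2 (Fs ℕ v) t y) ∈ S v t := by
  simp [PP, Submodule.mem_iInf]

theorem mem_PP_of_gr {v n : ℕ} {y : H F2 (Fs ℕ v)} (hy : y ∈ H.gr F2 (Fs ℕ v) n)
    (h : n ≤ D → io v y ∈ S v n) : y ∈ PP S D v := by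
  rw [mem_PP]
  intro t ht
  by_cases e : n = t
  · subst e
    rw [prH_of_mem hy]
    exact h ht
  · rw [prH_of_mem_ne e hy, map_zero]
    exact Submodule.zero_mem _

theorem io_mem_of_PP {v n : ℕ} {y : H F2 (Fs ℕ v)} (hy : y ∈ H.gr F2 (Fs ℕ v) n)
    (h : y ∈ PP S D v) (hn : n ≤ D) : io v y ∈ S v n := by
  have := (mem_PP S).1 h n hn
  rwa [prH_of_mem hy] at this

theorem prH_mem_PP {v n : ℕ} {y : H F2 (Fs ℕ v)} (h : y ∈ PP S D v) :
    prH F2 (Fs ℕ v) n y ∈ PP S D v :=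
  mem_PP_of_gr S (prH_mem n y) fun hn => (mem_PP S).1 h n hn

/-- it is enough to treat homogeneous elements -/
theorem PP_induction {v w : ℕ} (f : H F2 (Fs ℕ v) →ₗ[F2] H F2 (Fs ℕ w))
    (hf : ∀ n, ∀ y ∈ H.gr F2 (Fs ℕ v) n, y ∈ PP S D v → f y ∈ PP S D w)
    {y : H F2 (Fs ℕ v)} (hy : y ∈ PP S D v) : f y ∈ PP S D w := by
  obtain ⟨m, -, h⟩ := exists_sum_prH y
  rw [h, map_sum]
  exact Submodule.sum_mem _ fun n _ => hf n _ (prH_mem n y) (prH_mem_PP S hy)

variable {k : ℕ ⊕ ℕ ↪ ℕ} {T : ThAlg M (Tot ℕ)}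

/-- **generation**: the field `span` of `Squ103.Src` -/
theorem span_field (hc : Compat k T) (hD : D + 2 ≤ M) (hK : KunSpan) (hDS : DSpan)
    (e0 : (Fs ℕ 0).S 0) (e1 : (Fs ℕ 1).S 0)
    (h0 : ∀ t ≤ D, W 0 t ≤ S 0 t) (h1 : ∀ t ≤ D, W 1 t ≤ S 1 t)
    (hmul : ∀ (a s b t : ℕ) (y z : H F2 (Tot ℕ)), s + t ≤ D → y ∈ S a s → z ∈ S b t →
      mulH T.mu y z ∈ S (a + b) (s + t))
    (hQ : ∀ (i v t : ℕ) (y : H F2 (Tot ℕ)), 2 * t + i ≤ D → y ∈ S v t →
      Q T i y ∈ S (2 * v) (2 * t + i)) :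
    ∀ v t, t ≤ D → W v t ≤ S v t := by
  have key := span_gr hK hDS k M (PP S D) ?_ ?_ ?_ ?_
  · rintro v t ht _ ⟨y, hy, rfl⟩
    exact io_mem_of_PP S hy (key v t (by omega) hy) ht
  · exact ⟨e0, mem_PP_of_gr S (Coalg847.vtx_mem_gr e0) fun _ =>
      h0 0 (Nat.zero_le _) ⟨_, Coalg847.vtx_mem_gr e0, rfl⟩⟩
  · exact ⟨e1, mem_PP_of_gr S (Coalg847.vtx_mem_gr e1) fun _ =>
      h1 0 (Nat.zero_le _) ⟨_, Coalg847.vtx_mem_gr e1, rfl⟩⟩
  · intro a b x y hx hy
    refine PP_induction S (mV k a b x) ?_ hy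
    intro n y hyn hy
    have hx' : (mV k a b).flip y x ∈ PP S D (a + b) := by
      refine PP_induction S ((mV k a b).flip y) ?_ hx
      intro m x hxm hx
      have hg : mV k a b x y ∈ H.gr F2 (Fs ℕ (a + b)) (m + n) := H_map_mem_gr _ (xH_gr hxm hyn)
      refine mem_PP_of_gr S hg fun hmn => ?_
      show io (a + b) (mV k a b x y) ∈ _
      rw [← mulH_io hc]
      exact hmul _ _ _ _ _ _ hmn (io_mem_of_PP S hxm hx (by omega)) (io_mem_of_PP S hyn hy (by omega))
    exact hx'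
  · intro a i h x hx
    refine PP_induction S (qV k M a i h) ?_ hx
    intro n x hxn hx
    have hg : qV k M a i h x ∈ H.gr F2 (Fs ℕ (a + a)) (i + 2 * n) :=
      H_map_mem_gr _ (DK742.pw_gr _ i h hxn)
    refine mem_PP_of_gr S hg fun hin => ?_
    rw [← Q_io hc, ← two_mul, add_comm i]
    exact hQ i a n _ (by omega) (io_mem_of_PP S hxn hx (by omega))

end gen

end Crest.Agent.R204.SrcTot85
end
end

-- ▼ part R204/SrcTotC_85
section

/-!
# Row 204, leaf G11 (helper85): part C: the operation algebra `Thm3.Ops` of an abstract `Θ`-algebra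
and the span of the admissible words

* `ThFacts A D Sq` : the facts `FactSq`, `FactT`, `FactGL2`, `Fact13` for one `Θ`-algebra;
* `thOps : Thm3.Ops (H F2 K)`, `thBase` (fundamental class = class of a vertex, `k = 0`);
* `adm_field` : words in `Q_i` on a vertex lie in the span of the nondecreasing words, as soon as a
  comparison map to a tower with `FactPoly0` exists.
-/

set_option autoImplicit false

noncomputable section

namespace Crest.Agent.R204.SrcTot85

open SS ThAlg265 Ops265 ThetaSS265 Gr334 Thm3 Spec114 Finset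
open DK742 (AltSS)
open OpsHopf557 (Qup)

variable {M D : ℕ} {K : SS}

/-- the facts about the operations of one `Θ`-algebra -/
structure ThFacts (A : ThAlg M K) (D : ℕ) (Sq : ℕ → (H F2 K →ₗ[F2] H F2 K)) : Prop where
  sq0 : ∀ y, Sq 0 y = y
  sqgr : ∀ a t, ∀ y ∈ H.gr F2 K t, Sq a y ∈ H.gr F2 K (t - a)
  unst : ∀ a t, ∀ y ∈ H.gr F2 K t, t < 2 * a → Sq a y = 0
  sqT : ∀ i ≤ D + 1, ∀ (a : ℕ) (y : H F2 K), Sq a (T A i y) =
    ∑ b ∈ range (a + 1), (if 2 * b ≤ i then (Nat.choose (i - b) b : F2) else 0) •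
      T A (i - b) (Sq (a - b) y)
  gl2 : ∀ i j, i + j ≤ D + 1 → ∀ y, T A i (T A j y) = T A j (T A i y) ∧
    T A i (T A j y) = ∑ l ∈ range (i + 1), (Nat.choose (l + j) j : F2) • T A (i - l) (T A (j + l) y)
  f13 : ∀ i, 1 ≤ i → i ≤ D + 1 → ∀ t, ∀ y ∈ H.gr F2 K t,
    T A i y = ∑ l ∈ range (t / 2 + 1), Qup A (i + l) (t - l) (Sq l y)

/-- `Q_i` as a linear map -/
def qlin (A : ThAlg M K) (hD : D + 2 ≤ M) (i : ℕ) : H F2 K →ₗ[F2] H F2 K :=
  if h : i ≤ D + 1 then
    (AddMonoidHom.mk' (Q A i) (fun y z => Q_add A (by omega) y z)).toZModLinearMap 2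
  else 0

theorem qlin_apply (A : ThAlg M K) (hD : D + 2 ≤ M) {i : ℕ} (hi : i ≤ D + 1) (y : H F2 K) :
    qlin A hD i y = Q A i y := by
  rw [qlin, dif_pos hi]
  rfl

/-- the operation algebra of a `Θ`-algebra -/
def thOps (A : ThAlg M K) (hD : D + 2 ≤ M) {Sq : ℕ → (H F2 K →ₗ[F2] H F2 K)}
    (hA : ThFacts A D Sq) : Ops (H F2 K) where
  gr := H.gr F2 K
  T := T A
  Q := qlin A hD
  Sq := Sq
  M := D + 1
  T_gr := fun i _ d y hy => T_gr A hy
  Q_gr := fun i hi d y hy => by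
    rw [qlin_apply A hD hi]
    exact Q_gr A (by omega) hy
  Sq_gr := fun a d y hy _ => hA.sqgr a d y hy
  Sq_zero := hA.sq0
  Sq_unst := fun a d y hy h => hA.unst a d y hy h
  T_eq := fun i h1 hi d y hy => by
    rw [hA.f13 i h1 hi d y hy]
    refine Finset.sum_congr rfl fun l hl => ?_
    rw [Finset.mem_range] at hl
    rw [Qup]
    by_cases h : d ≤ i + 2 * l
    · rw [if_pos (by omega), if_pos h, qlin_apply A hD (by omega)]
      congr 1
      omega
    · rw [if_neg (by omega), if_neg h]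
  Sq_T := fun a i hi y => by
    rw [hA.sqT i hi a y]
    refine Finset.sum_congr rfl fun b _ => ?_
    split_ifs
    · rfl
    · rw [zero_smul]
  T_swap := fun i j h y => (hA.gl2 i j h y).1
  T_trans := fun i j h y => by
    rw [(hA.gl2 i j h y).1, (hA.gl2 j i (by omega) y).2]
    refine Finset.sum_congr rfl fun s hs => ?_
    rw [Finset.mem_range] at hs
    rw [(hA.gl2 (j - s) (i + s) (by omega) y).1]
    congr 2
    rw [add_comm s i, Nat.choose_symm_add]

section base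

variable (A : ThAlg M K) (hD : D + 2 ≤ M) {Sq : ℕ → (H F2 K →ₗ[F2] H F2 K)} (hA : ThFacts A D Sq)

theorem vtx_mem (v : K.S 0) : C5T557.vtx F2 v ∈ H.gr F2 K 0 := Coalg847.vtx_mem_gr v

theorem mulH_vtx (mu : Hom (K.prod K) K) (v w : K.S 0) :
    mulH mu (C5T557.vtx F2 v) (C5T557.vtx F2 w) = C5T557.vtx F2 (mu.app 0 (v, w)) := by
  show Hd.mk (N.bd F2 K) (N.map F2 mu (EZ271.cross F2 (N.sx F2 v) (N.sx F2 w))) _ =
    Hd.mk (N.bd F2 K) (N.sx F2 (mu.app 0 (v, w))) _
  congr 1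
  rw [C5T557.cross_vertex_right, N.map_sx, N.map_sx]
  congr 2
  exact Prod.ext rfl (act_const_zero w)

theorem T_zero_vtx (hV : A.Vertex) (v : K.S 0) :
    T A 0 (C5T557.vtx F2 v) = C5T557.vtx F2 (A.mu.app 0 (v, v)) := by
  rw [T_zero A hV, C5T557.map_vtx, C5T557.map_vtx]
  rfl

theorem Q_zero_vtx (hV : A.Vertex) (v : K.S 0) :
    Q A 0 (C5T557.vtx F2 v) = C5T557.vtx F2 (A.mu.app 0 (v, v)) := by
  rw [Q_zero A hV, mulH_vtx]

include hD in
/-- the fundamental class is the class of a vertex -/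
theorem thBase (hV : A.Vertex) (v : K.S 0) : (thOps A hD hA).Base 0 (C5T557.vtx F2 v) where
  mem := vtx_mem v
  sq := fun a ha => hA.unst a 0 _ (vtx_mem v) (by omega)
  t0 := fun h => absurd h (by omega)
  t00 := fun _ r => by
    have key : ∀ r : ℕ, ∃ w : K.S 0, (thOps A hD hA).tw (fun _ : Fin r => 0) (C5T557.vtx F2 v) =
        C5T557.vtx F2 w := by
      intro r
      induction r with
      | zero => exact ⟨v, by simp⟩
      | succ r ih =>
        obtain ⟨w, hw⟩ := ih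
        refine ⟨A.mu.app 0 (w, w), ?_⟩
        have e : Fin.tail (fun _ : Fin (r + 1) => 0) = fun _ : Fin r => 0 := rfl
        rw [Ops.tw_succ, e, hw]
        exact T_zero_vtx A hV w
    obtain ⟨w, hw⟩ := key r
    rw [hw]
    show T A 0 _ = qlin A hD 0 _
    rw [qlin_apply A hD (Nat.zero_le _), T_zero_vtx A hV, Q_zero_vtx A hV]

theorem qw_eq_wdA (v : K.S 0) : ∀ {r : ℕ} (m : Fin r → ℕ), (∀ j, m j ≤ D + 1) →
    (thOps A hD hA).qw m (C5T557.vtx F2 v) = Squ103.wdA (Q A) (C5T557.vtx F2 v) (List.ofFn m)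
  | 0, m, _ => by simp [Squ103.wdA]
  | r + 1, m, h => by
    rw [Ops.qw_succ, qw_eq_wdA v (Fin.tail m) fun j => h j.succ, List.ofFn_succ, Squ103.wdA_cons]
    exact qlin_apply A hD (h 0) _

theorem all_zero_pairwise {I : List ℕ} (h : Tower.wdeg 0 I = 0) : I.Pairwise (· ≤ ·) := by
  have h0 : ∀ i ∈ I, i = 0 := fun i hi => by
    have := TowerOps85.mem_le_wdeg' (k := 0) hi
    omega
  clear h
  induction I with
  | nil => exact List.Pairwise.nil
  | cons i I ih =>
    refine List.pairwise_cons.2 ⟨fun j hj => ?_, ih fun j hj => h0 j (List.mem_cons_of_mem _ hj)⟩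
    rw [h0 i List.mem_cons_self]
    exact Nat.zero_le _

include hD hA in
/-- **the field `adm` of `Squ103.Src`** -/
theorem adm_field (hV : A.Vertex) (v : K.S 0) {X : Tower} (hQ : X.FactQ D) (hP : X.FactPoly0 D)
    (κ : H F2 K →ₗ[F2] X.H 0) (hκ : ∀ I : List ℕ, Tower.wdeg 0 I ≤ D →
      κ (Squ103.wdA (Q A) (C5T557.vtx F2 v) I) = X.word 0 I) (I : List ℕ) (hI : Tower.wdeg 0 I ≤ D) :
    Squ103.wdA (Q A) (C5T557.vtx F2 v) I ∈ Submodule.span F2 {y | ∃ J : List ℕ,
      J.length = I.length ∧ Tower.wdeg 0 J = Tower.wdeg 0 I ∧ J.Pairwise (· ≤ ·) ∧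
      y = Squ103.wdA (Q A) (C5T557.vtx F2 v) J} := by
  rcases Nat.eq_zero_or_pos (Tower.wdeg 0 I) with h0 | hpos
  · exact Submodule.subset_span ⟨I, rfl, rfl, all_zero_pairwise h0, rfl⟩
  set t := Tower.wdeg 0 I with ht
  set r := I.length with hr
  have hbase := thBase A hD hA hV v
  have htM : t ≤ (thOps A hD hA).M := by
    show t ≤ D + 1
    omega
  have hle : ∀ (m : Adm r 0 t) (j : Fin r), m.1 j ≤ D + 1 := fun m j =>
    (TowerOps85.le_of_adm m j).trans (by omega)
  have hF : LinearIndependent F2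
      (fun m : Adm r 0 t => κ ((thOps A hD hA).qw m.1 (C5T557.vtx F2 v))) := by
    have h1 := (TowerOps85.word_linearIndependent0 hQ hP r hpos hI).comp _
      (TowerOps85.admEquiv r 0 t).injective
    have h2 : (fun m : Adm r 0 t => κ ((thOps A hD hA).qw m.1 (C5T557.vtx F2 v))) =
        (fun I : TowerOps85.AdmL r 0 t => X.word 0 I.1) ∘ ⇑(TowerOps85.admEquiv r 0 t) := by
      funext m
      have h3 : Tower.wdeg 0 (List.ofFn m.1) ≤ D := by
        rw [← TowerOps85.qdeg_eq_wdeg, m.2.2]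
        omega
      rw [qw_eq_wdA A hD hA v m.1 (hle m), hκ _ h3]
      rfl
    rw [h2]
    exact h1
  have hlin := ((thOps A hD hA).comparison hbase htM κ hF).1
  have hqd : qdeg 0 I.get = 0 + t := by
    rw [TowerOps85.qdeg_get, zero_add]
  have hmem := ((thOps A hD hA).wspan_eq_span hbase htM hlin).le
    (Submodule.subset_span ⟨I.get, hqd, rfl⟩)
  have hIle : ∀ j : Fin I.length, I.get j ≤ D + 1 := fun j => by
    have := TowerOps85.mem_le_wdeg' (k := 0) (List.get_mem I j)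
    simp only [List.get_eq_getElem] at this ⊢
    omega
  rw [qw_eq_wdA A hD hA v I.get hIle, List.ofFn_get] at hmem
  refine (Submodule.span_le.2 ?_) hmem
  rintro _ ⟨m, rfl⟩
  refine Submodule.subset_span ⟨List.ofFn m.1, List.length_ofFn, ?_,
    (TowerOps85.pairwise_ofFn_iff _).2 m.2.1, qw_eq_wdA A hD hA v m.1 (hle m)⟩
  rw [← TowerOps85.qdeg_eq_wdeg, m.2.2, zero_add]

end base

end Crest.Agent.R204.SrcTot85
end
end

-- ▼ part R204/CartanQ_103

/-!
# Row 204, block G (helper103): the Cartan formula for the operations `Q_i`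

For an abstract `Θ`-algebra with the Cartan law:
`Q_i (x y) = ∑_{a + b = i} Q_a x * Q_b y` for all classes `x y`, `i < M`.
-/

set_option autoImplicit false

noncomputable section

namespace Crest.Agent.R204.CartanQ103

open SS EZ271 ThetaSS265 C5265 ThAlg265 Ops265 Finset
open DK742 (proj Invo orb AltSS)

/-! ## chains on the full `E Z/2` -/

/-- translation by `a` -/
def tauA (a : ℕ) : Hom EZ2 EZ2 := SS.EGmap (fun g => g + (a : ZMod 2))


theorem tauA_succ (a : ℕ) : tauA (a + 1) = (tauA a).comp tau := by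
  refine Hom.ext (funext fun n => funext fun x => funext fun i => ?_)
  show x i + ((a + 1 : ℕ) : ZMod 2) = x i + 1 + (a : ZMod 2)
  push_cast
  ring

theorem tauA_succ' (a : ℕ) : tauA (a + 1) = tau.comp (tauA a) := by
  refine Hom.ext (funext fun n => funext fun x => funext fun i => ?_)
  show x i + ((a + 1 : ℕ) : ZMod 2) = x i + (a : ZMod 2) + 1
  push_cast
  ring

theorem tauA_two (a : ℕ) : tauA a = SS.Hom.id _ ∨ tauA a = tau := by
  have h : ((a : ℕ) : ZMod 2) = 0 ∨ ((a : ℕ) : ZMod 2) = 1 := by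
    generalize ((a : ℕ) : ZMod 2) = b
    revert b; decide
  rcases h with h | h
  · left
    refine Hom.ext (funext fun n => funext fun x => funext fun i => ?_)
    show x i + (a : ZMod 2) = x i
    rw [h, add_zero]
  · right
    refine Hom.ext (funext fun n => funext fun x => funext fun i => ?_)
    show x i + (a : ZMod 2) = x i + 1
    rw [h]

/-- the alternating chain of the full `E Z/2` -/
def eF (i : ℕ) : N F2 EZ2 := N.sx F2 (K := EZ2) (DK742.alt i 0)

theorem eF_gr (i : ℕ) : eF i ∈ N.gr F2 EZ2 i := sx_mem_gr F2 _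

theorem bd_eF_zero : N.bd F2 _ (eF 0) = 0 := EZ271.bd_sx_zero F2 _

theorem full_e (i : ℕ) (h : (i : ℕ∞) ≤ AltSS.full.M) (b : ZMod 2) :
    AltSS.full.e i h b = DK742.alt i b := AltSS.full.j_e i h b

theorem bd_eF_succ (i : ℕ) : N.bd F2 _ (eF (i + 1)) = N.map F2 tau (eF i) + eF i := by
  have h := AltSS.full.bd_e_succ i le_top 0
  rw [full_e, full_e, full_e] at h
  have h2 : N.map F2 tau (eF i) = N.sx F2 (K := EZ2) (DK742.alt i (0 + 1)) := by
    rw [eF, N.map_sx]
    congr 1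
    exact DK742.alt_g i 0
  rw [h2]
  exact h

theorem map_skIncl_ee {M i : ℕ} (h : i ≤ M) : N.map F2 (skIncl M EZ2) (ee M i) = eF i := by
  rw [ee_of_le h, N.map_sx, eF]
  congr 1
  exact (AltSS.skel M).j_e i (le_cast h) 0

/-! ## the two diagonals -/

theorem add_self {V : Type*} [AddCommGroup V] [Module F2 V] (x : V) : x + x = 0 := add_self_F2 x

section two

variable {A : SS} (t : ℕ → Hom A A) (e : ℕ → N F2 A)

/-- `∑ e_a × T^a e_b` -/
def dg (i : ℕ) : N F2 (A.prod A) :=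
  ∑ p ∈ antidiagonal i, cross F2 (e p.1) (N.map F2 (t p.1) (e p.2))

/-- the diagonal image of `e_i` -/
def dd (i : ℕ) : N F2 (A.prod A) := N.map F2 (SS.diag A) (e i)

theorem bd_dd_zero (h0 : N.bd F2 _ (e 0) = 0) : N.bd F2 _ (dd e 0) = 0 := by
  rw [dd, ← EZ271.map_bd', h0, map_zero]

theorem bd_dd_succ {s : Hom A A} {i : ℕ}
    (hs : N.bd F2 _ (e (i + 1)) = N.map F2 s (e i) + e i) :
    N.bd F2 _ (dd e (i + 1)) = N.map F2 (prodMap s s) (dd e i) + dd e i := by
  rw [dd, ← EZ271.map_bd', hs, map_add, EZ271.map_map, dd, EZ271.map_map]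
  rfl

theorem bd_dg_zero (h0 : N.bd F2 _ (e 0) = 0) : N.bd F2 _ (dg t e 0) = 0 := by
  rw [dg, Finset.Nat.antidiagonal_zero, Finset.sum_singleton, bd_cross_F2, h0, ← EZ271.map_bd', h0]
  simp

theorem bd_dg_succ {s : Hom A A} (i : ℕ)
    (ht : ∀ a, a ≤ i → t (a + 1) = (t a).comp s) (ht' : ∀ a, a ≤ i → t (a + 1) = s.comp (t a))
    (h0 : N.bd F2 _ (e 0) = 0)
    (hs : ∀ j, j ≤ i → N.bd F2 _ (e (j + 1)) = N.map F2 s (e j) + e j) :
    N.bd F2 _ (dg t e (i + 1)) = N.map F2 (prodMap s s) (dg t e i) + dg t e i := by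
  have e1 : N.bd F2 _ (dg t e (i + 1)) =
      ∑ p ∈ antidiagonal (i + 1), cross F2 (N.bd F2 _ (e p.1)) (N.map F2 (t p.1) (e p.2)) +
      ∑ p ∈ antidiagonal (i + 1), cross F2 (e p.1) (N.map F2 (t p.1) (N.bd F2 _ (e p.2))) := by
    rw [dg, map_sum, ← Finset.sum_add_distrib]
    refine Finset.sum_congr rfl fun p _ => ?_
    rw [bd_cross_F2, ← EZ271.map_bd']
  have e2 : ∑ p ∈ antidiagonal (i + 1), cross F2 (N.bd F2 _ (e p.1)) (N.map F2 (t p.1) (e p.2)) =
      ∑ p ∈ antidiagonal i, (cross F2 (N.map F2 s (e p.1)) (N.map F2 s (N.map F2 (t p.1) (e p.2))) +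
        cross F2 (e p.1) (N.map F2 (t (p.1 + 1)) (e p.2))) := by
    rw [Finset.Nat.antidiagonal_succ, Finset.sum_cons, Finset.sum_map, h0, map_zero,
      LinearMap.zero_apply, zero_add]
    refine Finset.sum_congr rfl fun p hp => ?_
    have hp' : p.1 ≤ i := by
      have := HasAntidiagonal.mem_antidiagonal.1 hp
      omega
    show cross F2 (N.bd F2 _ (e (p.1 + 1))) (N.map F2 (t (p.1 + 1)) (e p.2)) = _
    rw [hs _ hp', map_add, LinearMap.add_apply, EZ271.map_map, ht' _ hp']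
  have e3 : ∑ p ∈ antidiagonal (i + 1), cross F2 (e p.1) (N.map F2 (t p.1) (N.bd F2 _ (e p.2))) =
      ∑ p ∈ antidiagonal i, (cross F2 (e p.1) (N.map F2 (t (p.1 + 1)) (e p.2)) +
        cross F2 (e p.1) (N.map F2 (t p.1) (e p.2))) := by
    rw [Finset.Nat.antidiagonal_succ', Finset.sum_cons, Finset.sum_map, h0, map_zero, map_zero,
      zero_add]
    refine Finset.sum_congr rfl fun p hp => ?_
    have hp' : p.2 ≤ i := by
      have := HasAntidiagonal.mem_antidiagonal.1 hp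
      omega
    have hp'' : p.1 ≤ i := by
      have := HasAntidiagonal.mem_antidiagonal.1 hp
      omega
    show cross F2 (e p.1) (N.map F2 (t p.1) (N.bd F2 _ (e (p.2 + 1)))) = _
    rw [hs _ hp', map_add, map_add, EZ271.map_map, ht _ hp'']
  rw [e1, e2, e3, ← Finset.sum_add_distrib, dg, map_sum, ← Finset.sum_add_distrib]
  refine Finset.sum_congr rfl fun p _ => ?_
  rw [map_cross]
  have h1 := add_self (cross F2 (e p.1) (N.map F2 (t (p.1 + 1)) (e p.2)))
  calc _ = cross F2 (N.map F2 s (e p.1)) (N.map F2 s (N.map F2 (t p.1) (e p.2))) +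
        cross F2 (e p.1) (N.map F2 (t p.1) (e p.2)) +
        (cross F2 (e p.1) (N.map F2 (t (p.1 + 1)) (e p.2)) +
          cross F2 (e p.1) (N.map F2 (t (p.1 + 1)) (e p.2))) := by abel
    _ = _ := by rw [h1, add_zero]

end two

/-! ## comparison of the two diagonals on the full `E Z/2` -/

/-- the cone structure of `E Z/2` -/
def coneE : Cone EZ2 where
  bot := fun _ => 0
  k x := Fin.cons 0 x
  h_cons α x := by
    funext i
    induction i using Fin.cases with
    | zero => rfl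
    | succ i => rfl
  h_star α x := by
    funext i
    induction i using Fin.cases with
    | zero => rfl
    | succ i => rfl
  h_face x := by
    funext i
    rfl
  h_vert α x h := by
    funext i
    have : i = 0 := Fin.ext (by omega)
    subst this
    show (Fin.cons 0 x : Fin _ → ZMod 2) (α 0) = 0
    rw [h]
    rfl
  h_bot := by
    funext i
    induction i using Fin.cases with
    | zero => rfl
    | succ i => rfl

/-- the cone structure of `E × E` -/
abbrev coneEE : Cone (EZ2.prod EZ2) := Cone.prod coneE coneE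

/-- the comparison chains -/
def hh : ℕ → N F2 (EZ2.prod EZ2)
  | 0 => coneEE.c F2 (dd eF 0 + dg tauA eF 0)
  | i + 1 => coneEE.c F2 (dd eF (i + 1) + dg tauA eF (i + 1) + N.map F2 (prodMap tau tau) (hh i) + hh i)

theorem dd_gr (i : ℕ) : dd eF i ∈ N.gr F2 (EZ2.prod EZ2) i := map_mem_gr F2 _ (eF_gr i)

theorem dg_gr (i : ℕ) : dg tauA eF i ∈ N.gr F2 (EZ2.prod EZ2) i := by
  refine Submodule.sum_mem _ fun p hp => ?_
  have := C5265.cross_mem_gr F2 (eF_gr p.1) (map_mem_gr F2 (tauA p.1) (eF_gr p.2))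
  rwa [HasAntidiagonal.mem_antidiagonal.1 hp] at this

theorem hh_gr : ∀ i, hh i ∈ N.gr F2 (EZ2.prod EZ2) (i + 1)
  | 0 => c_mem_gr F2 coneEE (Submodule.add_mem _ (dd_gr 0) (dg_gr 0))
  | i + 1 => c_mem_gr F2 coneEE (Submodule.add_mem _ (Submodule.add_mem _
      (Submodule.add_mem _ (dd_gr (i + 1)) (dg_gr (i + 1))) (map_mem_gr F2 _ (hh_gr i))) (hh_gr i))

theorem aug_gr {K : SS} {n : ℕ} {c : N F2 K} (hc : c ∈ N.gr F2 K (n + 1)) : aug F2 c = 0 := by
  rw [gr_eq_span] at hc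
  refine Submodule.span_induction (p := fun c _ => aug F2 c = 0) ?_ ?_ ?_ ?_ hc
  · rintro _ ⟨x, rfl⟩; simp
  · simp
  · intro a b _ _ ha hb; rw [map_add, ha, hb, add_zero]
  · intro r a _ ha; rw [map_smul, ha, smul_zero]

theorem aug_zero : aug F2 (dd eF 0 + dg tauA eF 0) = 0 := by
  rw [map_add, dd, aug_map, dg, Finset.Nat.antidiagonal_zero, Finset.sum_singleton]
  have h1 : aug F2 (eF 0) = 1 := aug_sx_zero F2 _
  have h2 : aug F2 (cross F2 (eF 0) (N.map F2 (tauA 0) (eF 0))) = 1 := by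
    have h3 := C5265.cross_vertex F2 (K := EZ2) (L := EZ2) (DK742.alt 0 0) (N.map F2 (tauA 0) (eF 0))
    have h4 : cross F2 (eF 0) (N.map F2 (tauA 0) (eF 0)) = cross F2 (N.sx F2 (K := EZ2)
      (DK742.alt 0 0)) (N.map F2 (tauA 0) (eF 0)) := rfl
    rw [h4, h3, aug_map, aug_map, h1]
  rw [h1, h2]
  decide

theorem tau2_sq (c : N F2 (EZ2.prod EZ2)) :
    N.map F2 (prodMap tau tau) (N.map F2 (prodMap tau tau) c) = c := by
  rw [EZ271.map_map]
  have : (prodMap tau tau).comp (prodMap tau tau) = SS.Hom.id (EZ2.prod EZ2) := by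
    refine Hom.ext (funext fun n => funext fun x => ?_)
    exact Prod.ext (tau_tau n x.1) (tau_tau n x.2)
  rw [this, map_idHom]

theorem bd_hh_zero : N.bd F2 _ (hh 0) = dd eF 0 + dg tauA eF 0 := by
  have h0 : N.bd F2 _ (dd eF 0 + dg tauA eF 0) = 0 := by
    rw [map_add, bd_dd_zero _ bd_eF_zero, bd_dg_zero _ _ bd_eF_zero, add_zero]
  rw [hh, coneEE.bd_c F2, h0, aug_zero, map_zero, zero_smul, sub_zero, sub_zero]

theorem bd_hh_step (i : ℕ) (hp : N.map F2 (prodMap tau tau) (N.bd F2 _ (hh i)) + N.bd F2 _ (hh i) =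
    N.map F2 (prodMap tau tau) (dd eF i + dg tauA eF i) + (dd eF i + dg tauA eF i)) :
    N.bd F2 _ (hh (i + 1)) =
    dd eF (i + 1) + dg tauA eF (i + 1) + N.map F2 (prodMap tau tau) (hh i) + hh i := by
  set x := dd eF (i + 1) + dg tauA eF (i + 1) + N.map F2 (prodMap tau tau) (hh i) + hh i with hx
  have ha : aug F2 x = 0 := by
    rw [hx, map_add, map_add, map_add, aug_gr (dd_gr (i + 1)), aug_gr (dg_gr (i + 1)), aug_map,
      aug_gr (hh_gr i)]
    simp
  have h1 : N.bd F2 _ (dd eF (i + 1)) = N.map F2 (prodMap tau tau) (dd eF i) + dd eF i :=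
    bd_dd_succ eF (bd_eF_succ i)
  have h2 : N.bd F2 _ (dg tauA eF (i + 1)) = N.map F2 (prodMap tau tau) (dg tauA eF i) +
      dg tauA eF i :=
    bd_dg_succ tauA eF i (fun a _ => tauA_succ a) (fun a _ => tauA_succ' a) bd_eF_zero
      (fun j _ => bd_eF_succ j)
  have hb : N.bd F2 _ x = 0 := by
    rw [hx, map_add, map_add, map_add, h1, h2, ← EZ271.map_bd', add_assoc _ (N.map F2 _ _), hp,
      map_add]
    have a1 := add_self (N.map F2 (prodMap tau tau) (dd eF i))
    have a2 := add_self (dd eF i)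
    have a3 := add_self (N.map F2 (prodMap tau tau) (dg tauA eF i))
    have a4 := add_self (dg tauA eF i)
    calc _ = (N.map F2 (prodMap tau tau) (dd eF i) + N.map F2 (prodMap tau tau) (dd eF i)) +
          (dd eF i + dd eF i) +
          (N.map F2 (prodMap tau tau) (dg tauA eF i) + N.map F2 (prodMap tau tau) (dg tauA eF i)) +
          (dg tauA eF i + dg tauA eF i) := by abel
      _ = 0 := by rw [a1, a2, a3, a4]; simp
  rw [hh, ← hx, coneEE.bd_c F2, hb, ha, map_zero, zero_smul, sub_zero, sub_zero]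

theorem bd_hh_succ (i : ℕ) : N.bd F2 _ (hh (i + 1)) =
    dd eF (i + 1) + dg tauA eF (i + 1) + N.map F2 (prodMap tau tau) (hh i) + hh i := by
  induction i with
  | zero =>
    apply bd_hh_step
    rw [bd_hh_zero]
  | succ i ih =>
    apply bd_hh_step
    rw [ih]
    simp only [map_add, tau2_sq]
    have a5 := add_self (N.map F2 (prodMap tau tau) (hh i))
    have a6 := add_self (hh i)
    calc _ = N.map F2 (prodMap tau tau) (dd eF (i + 1)) + N.map F2 (prodMap tau tau)
          (dg tauA eF (i + 1)) + (dd eF (i + 1) + dg tauA eF (i + 1)) +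
          ((N.map F2 (prodMap tau tau) (hh i) + N.map F2 (prodMap tau tau) (hh i)) +
          (hh i + hh i)) := by abel
      _ = _ := by rw [a5, a6, add_zero, add_zero]

/-! ## descent to the skeleton -/

section sk

variable (M : ℕ)

/-- inclusion of the product of the skeleta -/
def inc2 : Hom ((EM M).prod (EM M)) (EZ2.prod EZ2) := prodMap (skIncl M EZ2) (skIncl M EZ2)

theorem inc2_inj : Function.Injective (N.map F2 (inc2 M)) :=
  HA683.N_map_injective F2 fun n x y h => by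
    have h1 := congrArg Prod.fst h
    have h2 := congrArg Prod.snd h
    exact Prod.ext (Subtype.ext h1) (Subtype.ext h2)

theorem inc2_surj {n : ℕ} (hn : n ≤ M) {c : N F2 (EZ2.prod EZ2)}
    (hc : c ∈ N.gr F2 (EZ2.prod EZ2) n) : ∃ c', N.map F2 (inc2 M) c' = c := by
  rw [gr_eq_span] at hc
  refine Submodule.span_induction (p := fun c _ => ∃ c', N.map F2 (inc2 M) c' = c) ?_ ?_ ?_ ?_ hc
  · rintro _ ⟨x, rfl⟩
    refine ⟨N.sx F2 (K := (EM M).prod (EM M)) (⟨x.1, isSk_of_le hn _⟩, ⟨x.2, isSk_of_le hn _⟩), ?_⟩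
    rw [N.map_sx]
    rfl
  · exact ⟨0, map_zero _⟩
  · rintro a b _ _ ⟨a', ha⟩ ⟨b', hb⟩; exact ⟨a' + b', by rw [map_add, ha, hb]⟩
  · rintro r a _ ⟨a', ha⟩; exact ⟨r • a', by rw [map_smul, ha]⟩

/-- the involution on `E_M × E_M` -/
abbrev tt2 : Hom ((EM M).prod (EM M)) ((EM M).prod (EM M)) := prodMap (invEM M).g (invEM M).g

theorem map_inc2_dd {i : ℕ} (h : i ≤ M) : N.map F2 (inc2 M) (dd (ee M) i) = dd eF i := by
  rw [dd, dd, ← map_skIncl_ee h, EZ271.map_map, EZ271.map_map]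
  rfl

theorem map_inc2_dg {i : ℕ} (h : i ≤ M) :
    N.map F2 (inc2 M) (dg (fun a => skMap M (tauA a)) (ee M) i) = dg tauA eF i := by
  rw [dg, dg, map_sum]
  refine Finset.sum_congr rfl fun p hp => ?_
  have hp' := HasAntidiagonal.mem_antidiagonal.1 hp
  rw [inc2, map_cross, map_skIncl_ee (by omega), EZ271.map_map]
  congr 1
  rw [← map_skIncl_ee (show p.2 ≤ M by omega), EZ271.map_map]
  rfl

theorem map_inc2_tt (c : N F2 ((EM M).prod (EM M))) :
    N.map F2 (inc2 M) (N.map F2 (tt2 M) c) = N.map F2 (prodMap tau tau) (N.map F2 (inc2 M) c) := by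
  rw [EZ271.map_map, EZ271.map_map]
  rfl

/-- the two diagonals are equivariantly homologous in the skeleton -/
theorem exists_h {i : ℕ} (h : i + 1 ≤ M) : ∃ u v : N F2 ((EM M).prod (EM M)),
    dd (ee M) i + dg (fun a => skMap M (tauA a)) (ee M) i =
      N.bd F2 _ u + N.map F2 (tt2 M) v + v := by
  rcases i with _ | i
  · obtain ⟨u, hu⟩ := inc2_surj M h (hh_gr 0)
    refine ⟨u, 0, inc2_inj M ?_⟩
    rw [map_zero, add_zero, add_zero, map_add, map_inc2_dd M (by omega), map_inc2_dg M (by omega),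
      EZ271.map_bd', hu, bd_hh_zero]
  · obtain ⟨u, hu⟩ := inc2_surj M h (hh_gr (i + 1))
    obtain ⟨v, hv⟩ := inc2_surj M (by omega : i + 1 ≤ M) (hh_gr i)
    refine ⟨u, v, inc2_inj M ?_⟩
    rw [map_add, map_inc2_dd M (by omega), map_inc2_dg M (by omega), map_add, map_add,
      EZ271.map_bd', hu, map_inc2_tt, hv, bd_hh_succ]
    have a5 := add_self (N.map F2 (prodMap tau tau) (hh i))
    have a6 := add_self (hh i)
    calc _ = dd eF (i + 1) + dg tauA eF (i + 1) + (0 + 0) := by rw [add_zero, add_zero]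
      _ = dd eF (i + 1) + dg tauA eF (i + 1) +
          ((N.map F2 (prodMap tau tau) (hh i) + N.map F2 (prodMap tau tau) (hh i)) +
            (hh i + hh i)) := by rw [a5, a6]
      _ = _ := by abel

end sk

/-! ## the external Cartan formula -/

section ext

variable {M : ℕ} {K L : SS}

/-- `(g, g', k, l) ↦ ([g, k], [g', l])` -/
def Gm (M : ℕ) (K L : SS) : Hom (((EM M).prod (EM M)).prod ((K.prod K).prod (L.prod L)))
    ((DM M K).prod (DM M L)) :=
  (prodMap (proj (invD M K)) (proj (invD M L))).comp (midHom (EM M) (EM M) (K.prod K) (L.prod L))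

/-- `D_M (K × L) → D_M K × D_M L` -/
def Dpr (M : ℕ) (K L : SS) : Hom (DM M (K.prod L)) ((DM M K).prod (DM M L)) :=
  pair (DMmap M (fst K L)) (DMmap M (snd K L))

theorem Dpr_proj : (Dpr M K L).comp (proj (invD M (K.prod L))) =
    (Gm M K L).comp (prodMap (SS.diag (EM M)) (midHom K L K L)) := rfl

variable {z : N F2 K} {w : N F2 L} (hz : N.bd F2 K z = 0) (hw : N.bd F2 L w = 0)

/-- the chain map `F` -/
def Fm (M : ℕ) (z : N F2 K) (w : N F2 L) (u : N F2 ((EM M).prod (EM M))) :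
    N F2 ((DM M K).prod (DM M L)) :=
  N.map F2 (Gm M K L) (cross F2 u (cross F2 (cross F2 z z) (cross F2 w w)))

theorem Fm_add (u v : N F2 ((EM M).prod (EM M))) : Fm M z w (u + v) = Fm M z w u + Fm M z w v := by
  rw [Fm, map_add, LinearMap.add_apply, map_add]; rfl

include hz hw in
theorem Fm_bd (u : N F2 ((EM M).prod (EM M))) :
    Fm M z w (N.bd F2 _ u) = N.bd F2 _ (Fm M z w u) := by
  rw [Fm, Fm, ← EZ271.map_bd', bd_cross_F2]
  have : N.bd F2 _ (cross F2 (cross F2 z z) (cross F2 w w)) = 0 := by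
    rw [bd_cross_F2, bd_cross_F2, bd_cross_F2, hz, hw]; simp
  rw [this, map_zero, add_zero]

theorem Fm_tt (u : N F2 ((EM M).prod (EM M))) : Fm M z w (N.map F2 (tt2 M) u) = Fm M z w u := by
  have h1 : cross F2 (N.map F2 (tt2 M) u) (cross F2 (cross F2 z z) (cross F2 w w)) =
      N.map F2 (prodMap (tt2 M) (prodMap (SS.swap K K) (SS.swap L L)))
        (cross F2 u (cross F2 (cross F2 z z) (cross F2 w w))) := by
    rw [map_cross, map_cross, map_swap_cross, map_swap_cross]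
  have h2 : (Gm M K L).comp (prodMap (tt2 M) (prodMap (SS.swap K K) (SS.swap L L))) = Gm M K L := by
    refine Hom.ext (funext fun n => funext fun x => ?_)
    exact Prod.ext (DK742.proj_g (invD M K) n (x.1.1, x.2.1)) (DK742.proj_g (invD M L) n (x.1.2, x.2.2))
  rw [Fm, h1, EZ271.map_map, h2, Fm]

theorem Fm_dd (i : ℕ) : Fm M z w (dd (ee M) i) =
    N.map F2 (Dpr M K L) (PhiC M (K.prod L) i (cross F2 (cross F2 z w) (cross F2 z w))) := by
  rw [PhiC_apply, EZ271.map_map, Dpr_proj, ← EZ271.map_map, map_cross, mid_cross, Fm, dd]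

theorem Fm_cross (a b i : ℕ) : Fm M z w (cross F2 (ee M a) (N.map F2 (skMap M (tauA i)) (ee M b))) =
    cross F2 (PhiC M K a (cross F2 z z)) (PhiC M L b (cross F2 w w)) := by
  rw [Fm, Gm, ← EZ271.map_map, mid_cross, map_cross, ← PhiC_apply]
  congr 1
  rcases tauA_two i with h | h
  · rw [h]
    have : skMap M (SS.Hom.id EZ2) = SS.Hom.id (EM M) := rfl
    rw [this, map_idHom, PhiC_apply]
  · rw [h]
    have := proj_cross_inv (M := M) (ee M b) (cross F2 w w)
    rw [map_swap_cross] at this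
    exact this

include hz hw in
/-- external Cartan formula on chains -/
theorem ext_chain {i : ℕ} (h : i + 1 ≤ M) : ∃ v, N.bd F2 _ v =
    N.map F2 (Dpr M K L) (PhiC M (K.prod L) i (cross F2 (cross F2 z w) (cross F2 z w))) -
    ∑ p ∈ antidiagonal i, cross F2 (PhiC M K p.1 (cross F2 z z)) (PhiC M L p.2 (cross F2 w w)) := by
  obtain ⟨u, v, huv⟩ := exists_h M h
  refine ⟨Fm M z w u, ?_⟩
  have h1 := congrArg (Fm M z w) huv
  have h2 : ∀ (s : Finset (ℕ × ℕ)), Fm M z w (∑ p ∈ s, cross F2 (ee M p.1)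
      (N.map F2 (skMap M (tauA p.1)) (ee M p.2))) = ∑ p ∈ s,
      cross F2 (PhiC M K p.1 (cross F2 z z)) (PhiC M L p.2 (cross F2 w w)) := by
    intro s
    have : Fm M z w = ⇑(N.map F2 (Gm M K L) ∘ₗ (cross F2).flip
      (cross F2 (cross F2 z z) (cross F2 w w)) : N F2 ((EM M).prod (EM M)) →ₗ[F2] _) := rfl
    rw [this, map_sum]
    refine Finset.sum_congr rfl fun p _ => ?_
    rw [← this, Fm_cross]
  rw [Fm_add, Fm_add, Fm_add, Fm_dd, Fm_tt, Fm_bd hz hw, dg, h2, add_assoc, add_self, add_zero] at h1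
  rw [← h1]
  rw [sub_eq_add_neg]
  congr 1
  exact (neg_eq_of_add_eq_zero_left (add_self _)).symm

end ext

/-- the external product in homology -/
abbrev crH {K L : SS} : H F2 K →ₗ[F2] H F2 L →ₗ[F2] H F2 (K.prod L) :=
  DK742.Hd2 (cross F2) (fun a b => bd_cross_F2 a b)

theorem mk_congr {V : Type*} [AddCommGroup V] [Module F2 V] {d : V →ₗ[F2] V} {a b : V}
    (hab : a = b) (ha : d a = 0) (hb : d b = 0) : Hd.mk d a ha = Hd.mk d b hb := by
  subst hab; rfl

theorem mk_sum {V : Type*} [AddCommGroup V] [Module F2 V] (d : V →ₗ[F2] V) {ι : Type*}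
    (s : Finset ι) (f : ι → V) (hf : ∀ i, d (f i) = 0) :
    Hd.mk d (∑ i ∈ s, f i) (by rw [map_sum]; exact Finset.sum_eq_zero fun i _ => hf i) =
      ∑ i ∈ s, Hd.mk d (f i) (hf i) := by
  classical
  have key : ∀ s : Finset ι, ∃ h : d (∑ i ∈ s, f i) = 0,
      Hd.mk d (∑ i ∈ s, f i) h = ∑ i ∈ s, Hd.mk d (f i) (hf i) := by
    intro s
    induction s using Finset.induction_on with
    | empty => exact ⟨by simp, rfl⟩
    | insert a s ha ih =>
      obtain ⟨h1, h2⟩ := ih
      refine ⟨by rw [map_sum]; exact Finset.sum_eq_zero fun i _ => hf i, ?_⟩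
      have e : ∑ i ∈ insert a s, Hd.mk d (f i) (hf i) = Hd.mk d (f a) (hf a) +
          Hd.mk d (∑ i ∈ s, f i) h1 := by rw [Finset.sum_insert ha, ← h2]
      have : Hd.mk d (f a) (hf a) + Hd.mk d (∑ i ∈ s, f i) h1 =
          Hd.mk d (f a + ∑ i ∈ s, f i) (by rw [map_add, hf, h1, add_zero]) := rfl
      rw [e, this]
      exact mk_congr (Finset.sum_insert ha) _ _
  exact (key s).2

/-- EXTERNAL CARTAN FORMULA: `D(K × L) → D K × D L` sends `e_i ⊗ (x × y)²` to
`∑ (e_a ⊗ x²) × (e_b ⊗ y²)`. -/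
theorem external {M : ℕ} {K L : SS} {i : ℕ} (h : i + 1 ≤ M) (x : H F2 K) (y : H F2 L) :
    H.map F2 (Dpr M K L) (pw M (K.prod L) i (crH x y)) =
      ∑ p ∈ antidiagonal i, crH (pw M K p.1 x) (pw M L p.2 y) := by
  obtain ⟨z, hz, rfl⟩ := Hd.mk_surj _ x
  obtain ⟨w, hw, rfl⟩ := Hd.mk_surj _ y
  have hzw : N.bd F2 (K.prod L) (cross F2 z w) = 0 := by rw [bd_cross_F2, hz, hw]; simp
  have e0 : crH (Hd.mk (N.bd F2 K) z hz) (Hd.mk (N.bd F2 L) w hw) = Hd.mk _ (cross F2 z w) hzw := rfl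
  rw [e0, pw_mk (by omega), Hmap_mk]
  have hb : ∀ p : ℕ × ℕ, p.1 + p.2 = i → N.bd F2 _ (cross F2 (PhiC M K p.1 (cross F2 z z))
      (PhiC M L p.2 (cross F2 w w))) = 0 := by
    intro p hp
    rw [bd_cross_F2, bd_PhiC_sq (by omega) hz, bd_PhiC_sq (by omega) hw]; simp
  have e1 : ∀ p ∈ antidiagonal i, crH (pw M K p.1 (Hd.mk _ z hz)) (pw M L p.2 (Hd.mk _ w hw)) =
      (if hp : p.1 + p.2 = i then Hd.mk (N.bd F2 ((DM M K).prod (DM M L)))
        (cross F2 (PhiC M K p.1 (cross F2 z z)) (PhiC M L p.2 (cross F2 w w))) (hb p hp) else 0) := by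
    intro p hp
    have hp' := HasAntidiagonal.mem_antidiagonal.1 hp
    rw [dif_pos hp', pw_mk (by omega), pw_mk (by omega)]
    rfl
  rw [Finset.sum_congr rfl e1]
  have e2 : ∑ p ∈ antidiagonal i, (if hp : p.1 + p.2 = i then
      Hd.mk (N.bd F2 ((DM M K).prod (DM M L)))
        (cross F2 (PhiC M K p.1 (cross F2 z z)) (PhiC M L p.2 (cross F2 w w))) (hb p hp) else 0) =
      Hd.mk (N.bd F2 ((DM M K).prod (DM M L))) (∑ p ∈ antidiagonal i,
        cross F2 (PhiC M K p.1 (cross F2 z z)) (PhiC M L p.2 (cross F2 w w)))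
        (by rw [map_sum]; exact Finset.sum_eq_zero fun p hp => hb p (HasAntidiagonal.mem_antidiagonal.1 hp)) := by
    have hf : ∀ p : ℕ × ℕ, N.bd F2 _ (if p.1 + p.2 = i then
        cross F2 (PhiC M K p.1 (cross F2 z z)) (PhiC M L p.2 (cross F2 w w)) else 0) = 0 := by
      intro p
      split_ifs with hp
      · exact hb p hp
      · rw [map_zero]
    have h3 := mk_sum (N.bd F2 ((DM M K).prod (DM M L))) (antidiagonal i) (fun p : ℕ × ℕ =>
      if p.1 + p.2 = i then cross F2 (PhiC M K p.1 (cross F2 z z)) (PhiC M L p.2 (cross F2 w w))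
      else 0) hf
    have h4 : ∀ p ∈ antidiagonal i, Hd.mk (N.bd F2 ((DM M K).prod (DM M L))) (if p.1 + p.2 = i then
        cross F2 (PhiC M K p.1 (cross F2 z z)) (PhiC M L p.2 (cross F2 w w)) else 0) (hf p) =
        (if hp : p.1 + p.2 = i then Hd.mk (N.bd F2 ((DM M K).prod (DM M L)))
        (cross F2 (PhiC M K p.1 (cross F2 z z)) (PhiC M L p.2 (cross F2 w w))) (hb p hp) else 0) := by
      intro p hp
      have hp' := HasAntidiagonal.mem_antidiagonal.1 hp
      rw [dif_pos hp']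
      congr 1
      rw [if_pos hp']
    rw [← Finset.sum_congr rfl h4, ← h3]
    congr 1
    refine Finset.sum_congr rfl fun p hp => ?_
    rw [if_pos (HasAntidiagonal.mem_antidiagonal.1 hp)]
  rw [e2, Hd.mk_eq_mk]
  exact ext_chain hz hw h

/-- CARTAN FORMULA for the operations of a `Θ`-algebra. -/
theorem cartan {M : ℕ} {K : SS} (A : ThAlg M K) (hC : A.Cartan) {i : ℕ} (h : i + 1 ≤ M)
    (x y : H F2 K) : Q A i (mulH A.mu x y) =
      ∑ p ∈ antidiagonal i, mulH A.mu (Q A p.1 x) (Q A p.2 y) := by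
  have hm : ∀ x y : H F2 K, mulH A.mu x y = H.map F2 A.mu (crH x y) := fun x y => rfl
  have h1 := LinearMap.congr_fun (hC.map_eq HtpInv334.homotopyInv F2)
    (pw M (K.prod K) i (crH x y))
  have e1 : A.mu.comp ((prodMap A.Th A.Th).comp (ThAlg.Dprod M K K)) =
      (A.mu.comp (prodMap A.Th A.Th)).comp (Dpr M K K) := rfl
  rw [Hmap_comp, pw_map A.mu (by omega), e1, Hmap_comp, external h] at h1
  rw [hm, Q, h1, map_sum]
  refine Finset.sum_congr rfl fun p hp => ?_
  have hp' := HasAntidiagonal.mem_antidiagonal.1 hp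
  rw [hm, Hmap_comp]
  congr 1
  -- naturality of the external product
  have nat : ∀ {K K' L L' : SS} (f : Hom K K') (g : Hom L L') (a : H F2 K) (b : H F2 L),
      H.map F2 (prodMap f g) (crH a b) = crH (H.map F2 f a) (H.map F2 g b) := by
    intro K K' L L' f g a b
    obtain ⟨a, ha, rfl⟩ := Hd.mk_surj _ a
    obtain ⟨b, hb, rfl⟩ := Hd.mk_surj _ b
    have hab : N.bd F2 (K.prod L) (cross F2 a b) = 0 := by rw [bd_cross_F2, ha, hb]; simp
    have e0 : crH (Hd.mk (N.bd F2 K) a ha) (Hd.mk (N.bd F2 L) b hb) =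
      Hd.mk _ (cross F2 a b) hab := rfl
    rw [e0, Hmap_mk, Hmap_mk, Hmap_mk]
    have e5 : crH (Hd.mk (N.bd F2 K') (N.map F2 f a) (by rw [← EZ271.map_bd', ha, map_zero]))
        (Hd.mk (N.bd F2 L') (N.map F2 g b) (by rw [← EZ271.map_bd', hb, map_zero])) =
        Hd.mk _ (cross F2 (N.map F2 f a) (N.map F2 g b))
          (by rw [bd_cross_F2, ← EZ271.map_bd', ← EZ271.map_bd', ha, hb]; simp) := rfl
    rw [e5]
    congr 1
    exact map_cross F2 _ _ _ _
  exact nat A.Th A.Th _ _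

end Crest.Agent.R204.CartanQ103
end
private theorem rz_75ca69509b : type_of% @_root_.Crest.Agent.R204.CartanQ103.hh.eq_def := @_root_.Crest.Agent.R204.CartanQ103.hh.eq_def -- L194
private theorem rz_08eb0d6f75 : type_of% @_root_.Crest.Agent.R204.CartanQ103.hh.eq_1 := @_root_.Crest.Agent.R204.CartanQ103.hh.eq_1 -- L194
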