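import Crest.Agent.R204.EZCross_271
import Crest.Agent.R204.EZAW_271
import Crest.Agent.R204.DK_742
import Mathlib
import Crest.Agent.R204.Sq2_252
import Crest.Agent.R204.EZInst_847
import Crest.Agent.R204.BZ2_498
import Crest.Agent.R204.Spine_693

-- ▼ part R204/AM_596
section

set_option autoImplicit false

/-!
# Row 204, leaf S3 / P2: acyclic models, uniqueness up to natural homotopy (mod 2, no signs)

`CT` = cosimplicial differential `F2`-module `T n` (think `T n = F(Δ^n)`) with augmentation and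
a contraction natural for the degeneracies.  `Cells C I` = a system of "cells" (free `F2[G]`-complex)
acting on it; `Fam C X` = natural families `θ_i` with `[d, θ_i] = (lower cells)`, as elements
`v i n ∈ T n` (value on the universal simplex).  Two families with the same augmentation are naturally
homotopic (`exists_htpy`), and for every realisation (`Real`) in which the cells act as zero they are
chain homotopic (`Real.uniq`), so equal on cycles after a cocycle (`Real.uniq_lam`).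
-/

namespace Crest.Agent.R204.AM596

open Finsupp EZ271

/-- cosimplicial contractible differential module over `F2` -/
structure CT where
  T : ℕ → Type
  [acg : ∀ n, AddCommGroup (T n)]
  [mod : ∀ n, Module F2 (T n)]
  map : ∀ {m n : ℕ}, Op m n → T m →ₗ[F2] T n
  map_id : ∀ {n : ℕ} (x : T n), map (OrderHom.id : Op n n) x = x
  map_comp : ∀ {l m n : ℕ} (f : Op l m) (g : Op m n) (x : T l), map (g.comp f) x = map g (map f x)
  d : ∀ n, T n →ₗ[F2] T n
  d_d : ∀ n x, d n (d n x) = 0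
  map_d : ∀ {m n : ℕ} (f : Op m n) (x : T m), map f (d m x) = d n (map f x)
  aug : ∀ n, T n →ₗ[F2] F2
  aug_d : ∀ n x, aug n (d n x) = 0
  aug_map : ∀ {m n : ℕ} (f : Op m n) (x : T m), aug n (map f x) = aug m x
  bot : ∀ n, T n
  d_bot : ∀ n, d n (bot n) = 0
  aug_bot : ∀ n, aug n (bot n) = 1
  map_bot : ∀ {n : ℕ} (j : Fin (n + 1)), map (Op.dgn j) (bot (n + 1)) = bot n
  c : ∀ n, T n →ₗ[F2] T n
  d_c : ∀ n x, d n (c n x) = x + c n (d n x) + aug n x • bot n
  aug_c : ∀ n x, aug n (c n x) = 0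
  map_c : ∀ {n : ℕ} (j : Fin (n + 1)) (x : T (n + 1)),
    map (Op.dgn j) (c (n + 1) x) = c n (map (Op.dgn j) x)

attribute [instance] CT.acg CT.mod

theorem add_self {M : Type*} [AddCommGroup M] [Module F2 M] (x : M) : x + x = 0 := by
  have h : ((1 : F2) + 1) • x = 0 := by
    rw [show ((1 : F2) + 1) = 0 by decide, zero_smul]
  rwa [add_smul, one_smul] at h


theorem eq_of_add_eq_zero {M : Type*} [AddCommGroup M] [Module F2 M] {x y : M} (h : x + y = 0) :
    x = y := by
  have := congrArg (· + y) h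
  simpa [add_assoc, add_self] using this

theorem two_nsmul_F2 {M : Type*} [AddCommGroup M] [Module F2 M] (x : M) : (2 : ℕ) • x = 0 := by
  rw [two_nsmul, add_self]

theorem two_zsmul_F2 {M : Type*} [AddCommGroup M] [Module F2 M] (x : M) : (2 : ℤ) • x = 0 := by
  rw [two_zsmul, add_self]

theorem four_nsmul_F2 {M : Type*} [AddCommGroup M] [Module F2 M] (x : M) : (4 : ℕ) • x = 0 := by
  rw [show (4 : ℕ) = 2 * 2 from rfl, mul_smul, two_nsmul_F2]

theorem four_zsmul_F2 {M : Type*} [AddCommGroup M] [Module F2 M] (x : M) : (4 : ℤ) • x = 0 := by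
  rw [show (4 : ℤ) = 2 * 2 from rfl, mul_smul, two_zsmul_F2]

/-- additive identities in `F2`-modules -/
macro "char2" : tactic => `(tactic| (
  apply eq_of_add_eq_zero
  abel_nf
  try simp only [two_nsmul_F2, two_zsmul_F2, four_nsmul_F2, four_zsmul_F2, add_zero, zero_add]))

theorem neg_one_pow_F2 (k : ℕ) : ((-1 : F2) ^ k) = 1 := by
  have : (-1 : F2) = 1 := by decide
  rw [this, one_pow]

namespace CT

variable (C : CT)

/-- evaluation of operators at an element -/
noncomputable def ev {n : ℕ} (v : C.T n) (m : ℕ) : Ch F2 (SS.std m) →ₗ[F2] C.T m :=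
  Finsupp.linearCombination F2 (fun t : (SS.std m).T =>
    if h : t.1 = n then C.map (h ▸ t.2 : Op n m) v else 0)

theorem ev_single {n m : ℕ} (v : C.T n) (f : Op n m) (r : F2) :
    C.ev v m (single (⟨n, f⟩ : (SS.std m).T) r) = r • C.map f v := by
  simp [ev]

theorem ev_single_ne {n m k : ℕ} (v : C.T n) (f : Op k m) (r : F2) (h : k ≠ n) :
    C.ev v m (single (⟨k, f⟩ : (SS.std m).T) r) = 0 := by
  simp [ev, h]

/-- sum of the faces -/
noncomputable def fc {n : ℕ} (v : C.T n) : C.T (n + 1) := ∑ k : Fin (n + 2), C.map (Op.face k) v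

theorem fc_add {n : ℕ} (v w : C.T n) : C.fc (v + w) = C.fc v + C.fc w := by
  simp [fc, Finset.sum_add_distrib]

@[simp] theorem fc_zero {n : ℕ} : C.fc (0 : C.T n) = 0 := by simp [fc]

theorem d_fc {n : ℕ} (v : C.T n) : C.d _ (C.fc v) = C.fc (C.d _ v) := by
  simp [fc, map_sum, C.map_d]

theorem aug_fc {n : ℕ} (v : C.T n) (h : C.aug n v = 0) : C.aug _ (C.fc v) = 0 := by
  simp [fc, map_sum, C.aug_map, h]

theorem ev_bd {n m : ℕ} (v : C.T n) (f : Op (n + 1) m) :
    C.ev v m (Ch.bd F2 _ (single (⟨n + 1, f⟩ : (SS.std m).T) 1)) = C.map f (C.fc v) := by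
  rw [Ch.bd_single_succ, map_sum, fc, map_sum]
  refine Finset.sum_congr rfl fun k _ => ?_
  rw [ev_single, neg_one_pow_F2, one_mul, one_smul]
  exact C.map_comp _ _ _

theorem fc_fc {n : ℕ} (v : C.T n) : C.fc (C.fc v) = 0 := by
  have h := congrArg (C.ev v (n + 2)) (Ch.bd_bd (R := F2)
    (single (⟨n + 2, OrderHom.id⟩ : (SS.std (n + 2)).T) 1))
  rw [map_zero, Ch.bd_single_succ, map_sum, map_sum] at h
  rw [← h]
  conv_lhs => rw [fc]
  refine Finset.sum_congr rfl fun k _ => ?_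
  rw [neg_one_pow_F2, one_mul]
  exact (C.ev_bd v _).symm

theorem ev_Dg {n m : ℕ} (v : C.T n) (hv : ∀ (l : ℕ) (e : n = l + 1) (j : Fin (l + 1)),
    C.map (Op.dgn j) (e ▸ v) = 0) {c : Ch F2 (SS.std m)} (hc : c ∈ Ch.Dg F2 (SS.std m)) :
    C.ev v m c = 0 := by
  refine Submodule.span_induction (p := fun c _ => C.ev v m c = 0) ?_ ?_ ?_ ?_ hc
  · rintro _ ⟨⟨k, x⟩, hx, rfl⟩
    rcases k with _ | k
    · exact hx.elim
    · obtain ⟨j, y, rfl⟩ := hx
      by_cases h : k + 1 = n
      · subst h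
        rw [ev_single, one_smul]
        have : (SS.std m).act (Op.dgn j) y = OrderHom.comp y (Op.dgn j) := rfl
        rw [this, C.map_comp, hv k rfl j, map_zero]
      · exact C.ev_single_ne _ _ _ h
  · simp
  · intro a b _ _ ha hb; rw [map_add, ha, hb, add_zero]
  · intro r a _ ha; rw [map_smul, ha, smul_zero]

/-- the faces of a normalised element are normalised -/
theorem map_dgn_fc {n : ℕ} (v : C.T n) (hv : ∀ (l : ℕ) (e : n = l + 1) (j : Fin (l + 1)),
    C.map (Op.dgn j) (e ▸ v) = 0) (j : Fin (n + 1)) : C.map (Op.dgn j) (C.fc v) = 0 := by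
  rw [← C.ev_bd]
  refine C.ev_Dg v hv (Ch.bd_mem_Dg (Submodule.subset_span ⟨_, ?_, rfl⟩))
  exact ⟨j, OrderHom.id, rfl⟩

end CT

/-- a system of cells acting on `C` -/
structure Cells (C : CT) (I : Type) where
  rk : I → ℕ
  L : ∀ n, (I → C.T n) →ₗ[F2] (I → C.T n)
  loc : ∀ (n : ℕ) (h h' : I → C.T n) (i : I), (∀ j, rk j < rk i → h j = h' j) → L n h i = L n h' i
  L_L : ∀ (n : ℕ) (h : I → C.T n), L n (L n h) = 0
  L_map : ∀ {m n : ℕ} (f : Op m n) (h : I → C.T m) (i : I),
    C.map f (L m h i) = L n (fun j => C.map f (h j)) i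
  L_d : ∀ (n : ℕ) (h : I → C.T n) (i : I), C.d n (L n h i) = L n (fun j => C.d n (h j)) i
  L_aug : ∀ (n : ℕ) (h : I → C.T n), (∀ j, C.aug n (h j) = 0) → ∀ i, C.aug n (L n h i) = 0

/-- natural families -/
structure Fam (C : CT) {I : Type} (X : Cells C I) where
  v : I → ∀ n, C.T n
  dgn : ∀ (i : I) (n : ℕ) (j : Fin (n + 1)), C.map (Op.dgn j) (v i (n + 1)) = 0
  d_zero : ∀ i, C.d 0 (v i 0) = X.L 0 (fun j => v j 0) i
  d_succ : ∀ i n, C.d (n + 1) (v i (n + 1)) = C.fc (v i n) + X.L (n + 1) (fun j => v j (n + 1)) i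

section

variable {C : CT} {I : Type} {X : Cells C I}

/-- sum of two families -/
def Fam.add (θ θ' : Fam C X) : Fam C X where
  v i n := θ.v i n + θ'.v i n
  dgn i n j := by rw [map_add, θ.dgn, θ'.dgn, add_zero]
  d_zero i := by
    rw [map_add, θ.d_zero, θ'.d_zero]
    have : (fun j => θ.v j 0 + θ'.v j 0) = (fun j => θ.v j 0) + (fun j => θ'.v j 0) := rfl
    rw [this, map_add]; rfl
  d_succ i n := by
    rw [map_add, θ.d_succ, θ'.d_succ, CT.fc_add]
    have : (fun j => θ.v j (n + 1) + θ'.v j (n + 1)) =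
      (fun j => θ.v j (n + 1)) + (fun j => θ'.v j (n + 1)) := rfl
    rw [this, map_add]
    simp only [Pi.add_apply]
    abel

variable (δ : Fam C X)

open Classical in
/-- the universal homotopy -/
noncomputable def hv (i : I) : (n : ℕ) → C.T n
  | 0 => C.c 0 (δ.v i 0 + X.L 0 (fun j => if X.rk j < X.rk i then hv j 0 else 0) i)
  | n + 1 => C.c (n + 1) (δ.v i (n + 1) + C.fc (hv i n) +
      X.L (n + 1) (fun j => if X.rk j < X.rk i then hv j (n + 1) else 0) i)
  termination_by n => (X.rk i, n)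
  decreasing_by
    · exact Prod.Lex.left _ _ (by assumption)
    · exact Prod.Lex.right _ (Nat.lt_succ_self _)
    · exact Prod.Lex.left _ _ (by assumption)

theorem L_trunc (n : ℕ) (i : I) (h : I → C.T n) [DecidablePred fun j => X.rk j < X.rk i] :
    X.L n (fun j => if X.rk j < X.rk i then h j else 0) i = X.L n h i :=
  X.loc n _ _ i fun j hj => by simp [hj]

theorem hv_zero (i : I) : hv δ i 0 = C.c 0 (δ.v i 0 + X.L 0 (fun j => hv δ j 0) i) := by
  rw [hv, L_trunc]

theorem hv_succ (i : I) (n : ℕ) : hv δ i (n + 1) = C.c (n + 1) (δ.v i (n + 1) + C.fc (hv δ i n) +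
      X.L (n + 1) (fun j => hv δ j (n + 1)) i) := by
  rw [hv, L_trunc]

theorem aug_hv (i : I) (n : ℕ) : C.aug n (hv δ i n) = 0 := by
  rcases n with _ | n
  · rw [hv_zero, C.aug_c]
  · rw [hv_succ, C.aug_c]

theorem dgn_hv : ∀ (r : ℕ) (i : I), X.rk i = r → ∀ (n : ℕ) (j : Fin (n + 1)),
    C.map (Op.dgn j) (hv δ i (n + 1)) = 0 := by
  intro r
  induction r using Nat.strong_induction_on with
  | _ r ihr =>
    intro i hi n
    induction n with
    | zero =>
      intro j
      rw [hv_succ, C.map_c, map_add (C.map _), map_add (C.map _), δ.dgn, X.L_map, zero_add]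
      rw [C.map_dgn_fc _ (fun l e => by omega), zero_add]
      rw [X.loc _ _ (fun _ => 0) i (fun k hk => ihr _ (hi ▸ hk) k rfl 0 j)]
      have : (fun _ : I => (0 : C.T 0)) = 0 := rfl
      rw [this, map_zero]
      simp
    | succ n ihn =>
      intro j
      rw [hv_succ, C.map_c, map_add (C.map _), map_add (C.map _), δ.dgn, X.L_map, zero_add]
      rw [C.map_dgn_fc _ (fun l e j => by
        obtain rfl : n = l := by omega
        exact ihn j), zero_add]
      rw [X.loc _ _ (fun _ => 0) i (fun k hk => ihr _ (hi ▸ hk) k rfl (n + 1) j)]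
      have : (fun _ : I => (0 : C.T (n + 1))) = 0 := rfl
      rw [this, map_zero]
      simp

variable (haug : ∀ i n, C.aug n (δ.v i n) = 0)
include haug

theorem d_hv : ∀ (r : ℕ) (i : I), X.rk i = r →
    (C.d 0 (hv δ i 0) = δ.v i 0 + X.L 0 (fun j => hv δ j 0) i) ∧
    ∀ n : ℕ, C.d (n + 1) (hv δ i (n + 1)) = δ.v i (n + 1) + C.fc (hv δ i n) +
      X.L (n + 1) (fun j => hv δ j (n + 1)) i := by
  intro r
  induction r using Nat.strong_induction_on with
  | _ r ihr =>
    intro i hi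
    have h0 : C.d 0 (hv δ i 0) = δ.v i 0 + X.L 0 (fun j => hv δ j 0) i := by
      have e1 : C.d 0 (δ.v i 0 + X.L 0 (fun j => hv δ j 0) i) = 0 := by
        rw [map_add, δ.d_zero, X.L_d]
        rw [X.loc 0 (fun j => C.d 0 (hv δ j 0)) (fun j => δ.v j 0 + X.L 0 (fun j => hv δ j 0) j) i
          (fun j hj => (ihr _ (hi ▸ hj) j rfl).1)]
        have : (fun j => δ.v j 0 + X.L 0 (fun j => hv δ j 0) j) =
          (fun j => δ.v j 0) + X.L 0 (fun j => hv δ j 0) := rfl
        rw [this, map_add, X.L_L, add_zero, add_self]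
      have e2 : C.aug 0 (δ.v i 0 + X.L 0 (fun j => hv δ j 0) i) = 0 := by
        rw [map_add, haug, X.L_aug 0 _ (fun j => aug_hv δ j 0), add_zero]
      conv_lhs => rw [hv_zero]
      rw [C.d_c, e1, e2, map_zero, zero_smul, add_zero, add_zero]
    refine ⟨h0, ?_⟩
    -- the general step
    have key : ∀ n : ℕ, C.d (n + 1) (C.fc (hv δ i n)) = C.fc (δ.v i n) +
        X.L (n + 1) (fun j => C.fc (hv δ j n)) i →
        C.d (n + 1) (hv δ i (n + 1)) = δ.v i (n + 1) + C.fc (hv δ i n) +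
      X.L (n + 1) (fun j => hv δ j (n + 1)) i := by
      intro n hn
      have e1 : C.d (n + 1) (δ.v i (n + 1) + C.fc (hv δ i n) +
          X.L (n + 1) (fun j => hv δ j (n + 1)) i) = 0 := by
        rw [map_add, map_add, δ.d_succ, hn, X.L_d]
        rw [X.loc (n + 1) (fun j => C.d (n + 1) (hv δ j (n + 1)))
          (fun j => δ.v j (n + 1) + C.fc (hv δ j n) + X.L (n + 1) (fun j => hv δ j (n + 1)) j) i
          (fun j hj => (ihr _ (hi ▸ hj) j rfl).2 n)]
        have : (fun j => δ.v j (n + 1) + C.fc (hv δ j n) + X.L (n + 1) (fun j => hv δ j (n + 1)) j)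
          = ((fun j => δ.v j (n + 1)) + (fun j => C.fc (hv δ j n))) +
            X.L (n + 1) (fun j => hv δ j (n + 1)) := rfl
        rw [this, map_add, X.L_L, add_zero, map_add]
        simp only [Pi.add_apply]
        generalize C.fc (δ.v i n) = a
        generalize X.L (n + 1) (fun j => δ.v j (n + 1)) i = b
        generalize X.L (n + 1) (fun j => C.fc (hv δ j n)) i = c
        have : a + b + (a + c) + (b + c) = (a + a) + (b + b) + (c + c) := by abel
        rw [this, add_self a, add_self b, add_self c, add_zero, add_zero]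
      have e2 : C.aug (n + 1) (δ.v i (n + 1) + C.fc (hv δ i n) +
          X.L (n + 1) (fun j => hv δ j (n + 1)) i) = 0 := by
        rw [map_add, map_add, haug, C.aug_fc _ (aug_hv δ i n),
          X.L_aug (n + 1) _ (fun j => aug_hv δ j (n + 1)), add_zero, add_zero]
      conv_lhs => rw [hv_succ]
      rw [C.d_c, e1, e2, map_zero, zero_smul, add_zero, add_zero]
    have Lfc : ∀ (n : ℕ) (h : I → C.T n), C.fc (X.L n h i) = X.L (n + 1) (fun j => C.fc (h j)) i := by
      intro n h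
      have : (fun j => C.fc (h j)) = ∑ k : Fin (n + 2), (fun j => C.map (Op.face k) (h j)) := by
        funext j; simp [CT.fc]
      rw [this, map_sum, Finset.sum_apply, CT.fc]
      exact Finset.sum_congr rfl fun k _ => X.L_map _ _ _
    intro n
    induction n with
    | zero =>
      apply key
      rw [C.d_fc, h0, CT.fc_add, Lfc]
    | succ n ihn =>
      apply key
      rw [C.d_fc, ihn, CT.fc_add, CT.fc_add, C.fc_fc, add_zero, Lfc]

/-- UNIQUENESS: the universal homotopy between two natural families -/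
theorem exists_htpy : ∃ h : I → ∀ n, C.T n,
    (∀ (i : I) (n : ℕ) (j : Fin (n + 1)), C.map (Op.dgn j) (h i (n + 1)) = 0) ∧
    (∀ i n, C.aug n (h i n) = 0) ∧
    (∀ i, δ.v i 0 = C.d 0 (h i 0) + X.L 0 (fun j => h j 0) i) ∧
    (∀ i n, δ.v i (n + 1) = C.d (n + 1) (h i (n + 1)) + C.fc (h i n) +
      X.L (n + 1) (fun j => h j (n + 1)) i) := by
  refine ⟨hv δ, fun i n j => dgn_hv δ _ i rfl n j, aug_hv δ, fun i => ?_, fun i n => ?_⟩
  · rw [(d_hv δ haug _ i rfl).1, add_assoc, add_self, add_zero]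
  · rw [(d_hv δ haug _ i rfl).2 n]
    generalize δ.v i (n + 1) = a
    generalize C.fc (hv δ i n) = b
    generalize X.L (n + 1) (fun j => hv δ j (n + 1)) i = c
    have : a + b + c + b + c = a + (b + b) + (c + c) := by abel
    rw [this, add_self, add_self, add_zero, add_zero]

end

/-! ## realisations -/

/-- realisation of `C` over a simplicial set `J` in a differential module `P` -/
structure Real (C : CT) (J : SS) (P : Type*) [AddCommGroup P] [Module F2 P] where
  d : P →ₗ[F2] P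
  r : ∀ {n : ℕ}, J.S n → C.T n →ₗ[F2] P
  r_act : ∀ {m n : ℕ} (α : Op m n) (x : J.S n) (y : C.T m), r (J.act α x) y = r x (C.map α y)
  r_d : ∀ {n : ℕ} (x : J.S n) (y : C.T n), r x (C.d n y) = d (r x y)

namespace Real

variable {C : CT} {J : SS} {P : Type*} [AddCommGroup P] [Module F2 P] (ρ : Real C J P)

/-- the map on normalised chains given by normalised elements -/
noncomputable def out (v : ∀ n, C.T n)
    (hv : ∀ (n : ℕ) (j : Fin (n + 1)), C.map (Op.dgn j) (v (n + 1)) = 0) : N F2 J →ₗ[F2] P :=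
  liftN (fun n x => ρ.r x (v n)) (fun n j y => by rw [ρ.r_act, hv, map_zero])

@[simp] theorem out_sx (v : ∀ n, C.T n)
    (hv : ∀ (n : ℕ) (j : Fin (n + 1)), C.map (Op.dgn j) (v (n + 1)) = 0) {n : ℕ} (x : J.S n) :
    ρ.out v hv (N.sx F2 x) = ρ.r x (v n) := by simp [out]

theorem out_bd_sx (v : ∀ n, C.T n)
    (hv : ∀ (n : ℕ) (j : Fin (n + 1)), C.map (Op.dgn j) (v (n + 1)) = 0) {n : ℕ}
    (x : J.S (n + 1)) : ρ.out v hv (N.bd F2 J (N.sx F2 x)) = ρ.r x (C.fc (v n)) := by
  rw [bd_sx_succ, map_sum, CT.fc, map_sum]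
  refine Finset.sum_congr rfl fun k _ => ?_
  rw [neg_one_pow_F2, one_smul, out_sx, ρ.r_act]

/-- THEOREM: two natural families with the same augmentation are chain homotopic in every
realisation in which the cells act as zero. -/
theorem uniq {I : Type} {X : Cells C I} (θ θ' : Fam C X)
    (haug : ∀ i n, C.aug n (θ.v i n) = C.aug n (θ'.v i n))
    (hL : ∀ (i : I) (n : ℕ) (x : J.S n) (h : I → C.T n), ρ.r x (X.L n h i) = 0) (i : I) :
    ∃ H : N F2 J →ₗ[F2] P, ∀ z, ρ.out (θ.v i) (θ.dgn i) z + ρ.out (θ'.v i) (θ'.dgn i) z =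
      ρ.d (H z) + H (N.bd F2 J z) := by
  obtain ⟨h, h1, -, h3, h4⟩ := exists_htpy (θ.add θ') (fun i n => by
    change C.aug n (θ.v i n + θ'.v i n) = 0
    rw [map_add, haug, ← map_add, add_self, map_zero])
  refine ⟨ρ.out (h i) (h1 i), fun z => ?_⟩
  have : ρ.out (θ.v i) (θ.dgn i) + ρ.out (θ'.v i) (θ'.dgn i) =
      ρ.d ∘ₗ ρ.out (h i) (h1 i) + ρ.out (h i) (h1 i) ∘ₗ N.bd F2 J := by
    refine hom_ext fun n x => ?_
    simp only [LinearMap.add_apply, LinearMap.comp_apply, out_sx]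
    rw [← map_add]
    rcases n with _ | n
    · change ρ.r x ((θ.add θ').v i 0) = _
      rw [h3, bd_sx_zero, map_zero, add_zero, map_add, hL, add_zero, ρ.r_d]
    · change ρ.r x ((θ.add θ').v i (n + 1)) = _
      rw [h4, out_bd_sx, map_add, map_add, hL, add_zero, ρ.r_d]
  exact LinearMap.congr_fun this z

/-- homologous values on cycles -/
theorem uniq_cycle {I : Type} {X : Cells C I} (θ θ' : Fam C X)
    (haug : ∀ i n, C.aug n (θ.v i n) = C.aug n (θ'.v i n))
    (hL : ∀ (i : I) (n : ℕ) (x : J.S n) (h : I → C.T n), ρ.r x (X.L n h i) = 0) (i : I)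
    (z : N F2 J) (hz : N.bd F2 J z = 0) :
    ∃ w, ρ.d w = ρ.out (θ.v i) (θ.dgn i) z - ρ.out (θ'.v i) (θ'.dgn i) z := by
  obtain ⟨H, hH⟩ := ρ.uniq θ θ' haug hL i
  refine ⟨H z, ?_⟩
  have := hH z
  rw [hz, map_zero, add_zero] at this
  rw [← this, sub_eq_add_neg, neg_eq_of_add_eq_zero_left (add_self _)]

/-- equal values of cocycles on cycles (`ρ.d = 0`) -/
theorem uniq_lam {I : Type} {X : Cells C I} (θ θ' : Fam C X)
    (haug : ∀ i n, C.aug n (θ.v i n) = C.aug n (θ'.v i n))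
    (hL : ∀ (i : I) (n : ℕ) (x : J.S n) (h : I → C.T n), ρ.r x (X.L n h i) = 0)
    (hd : ρ.d = 0) (i : I) (z : N F2 J) (hz : N.bd F2 J z = 0) :
    ρ.out (θ.v i) (θ.dgn i) z = ρ.out (θ'.v i) (θ'.dgn i) z := by
  obtain ⟨w, hw⟩ := ρ.uniq_cycle θ θ' haug hL i z hz
  rw [hd, LinearMap.zero_apply] at hw
  exact (sub_eq_zero.1 hw.symm)

end Real

end Crest.Agent.R204.AM596
private theorem rz_8028cf1c1f : type_of% @_root_.Crest.Agent.R204.AM596.hv.eq_1 := @_root_.Crest.Agent.R204.AM596.hv.eq_1 -- L198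
end

-- ▼ part R204/AMc_596
section

set_option autoImplicit false

/-!
# Row 204, leaf S3 / P2: instances of `CT` (normalised chains of cosimplicial spaces with cones,
tensor products), cells for `Z/2` and `Z/2 × Z/2`, natural families from natural maps.
-/

namespace Crest.Agent.R204.AM596

open Finsupp EZ271 TensorProduct

theorem sub_eq_add' {M : Type*} [AddCommGroup M] [Module F2 M] (x y : M) : x - y = x + y := by
  rw [sub_eq_add_neg, neg_eq_of_add_eq_zero_left (add_self y)]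

theorem IsConeMap_bot {K L : SS} {A : Cone K} {B : Cone L} {f : SS.Hom K L}
    (h : IsConeMap A B f) : f.app 0 A.bot = B.bot := by
  have h1 : K.act (⟨fun _ => 0, fun _ _ _ => le_rfl⟩ : Op 0 1) (A.k A.bot) = A.bot :=
    A.h_vert _ _ rfl
  rw [← h1, f.nat, h.k]
  exact B.h_vert _ _ rfl

namespace CT

/-- normalised chains of a cosimplicial simplicial set with cones -/
noncomputable def ofSS (F : ℕ → SS) (Fm : ∀ {m n : ℕ}, Op m n → SS.Hom (F m) (F n))
    (Fm_id : ∀ n, Fm (OrderHom.id : Op n n) = SS.Hom.id (F n))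
    (Fm_comp : ∀ {l m n : ℕ} (f : Op l m) (g : Op m n), Fm (g.comp f) = (Fm g).comp (Fm f))
    (A : ∀ n, Cone (F n))
    (hA : ∀ (n : ℕ) (j : Fin (n + 1)), IsConeMap (A (n + 1)) (A n) (Fm (Op.dgn j))) : CT where
  T n := N F2 (F n)
  map f := N.map F2 (Fm f)
  map_id x := by rw [Fm_id, map_idHom]
  map_comp f g x := by rw [Fm_comp, ← EZ271.map_map]
  d n := N.bd F2 (F n)
  d_d n x := N.bd_bd x
  map_d f x := map_bd' F2 _ x
  aug n := EZ271.aug F2
  aug_d n x := aug_bd F2 x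
  aug_map f x := EZ271.aug_map F2 _ x
  bot n := N.sx F2 (A n).bot
  d_bot n := bd_sx_zero F2 _
  aug_bot n := aug_sx_zero F2 _
  map_bot j := by rw [N.map_sx, IsConeMap_bot (hA _ j)]
  c n := (A n).c F2
  d_c n x := by
    rw [Cone.bd_c, sub_eq_add', sub_eq_add']
  aug_c n x := Cone.aug_c _ _ _
  map_c j x := (hA _ j).c F2 x

/-- normalised chains of the standard simplices -/
noncomputable abbrev std : CT :=
  ofSS SS.std (fun f => stdMap f) (fun _ => rfl) (fun _ _ => rfl) Cone.std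
    (fun _ j => isConeMap_stdMap _ (dgn_apply_zero j))

/-- augmentation of a tensor product -/
noncomputable def augT {A B : Type*} [AddCommGroup A] [Module F2 A] [AddCommGroup B] [Module F2 B]
    (f : A →ₗ[F2] F2) (g : B →ₗ[F2] F2) : A ⊗[F2] B →ₗ[F2] F2 :=
  LinearMap.mul' F2 F2 ∘ₗ TensorProduct.map f g

@[simp] theorem augT_tmul {A B : Type*} [AddCommGroup A] [Module F2 A] [AddCommGroup B]
    [Module F2 B] (f : A →ₗ[F2] F2) (g : B →ₗ[F2] F2) (a : A) (b : B) :
    augT f g (a ⊗ₜ b) = f a * g b := by simp [augT]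

/-- differential of a tensor product -/
noncomputable def dT {A B : Type*} [AddCommGroup A] [Module F2 A] [AddCommGroup B] [Module F2 B]
    (d : A →ₗ[F2] A) (d' : B →ₗ[F2] B) : A ⊗[F2] B →ₗ[F2] A ⊗[F2] B :=
  TensorProduct.map d LinearMap.id + TensorProduct.map LinearMap.id d'

@[simp] theorem dT_tmul {A B : Type*} [AddCommGroup A] [Module F2 A] [AddCommGroup B] [Module F2 B]
    (d : A →ₗ[F2] A) (d' : B →ₗ[F2] B) (a : A) (b : B) :
    dT d d' (a ⊗ₜ b) = d a ⊗ₜ b + a ⊗ₜ d' b := by simp [dT]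

/-- two linear maps out of a tensor product agree -/
theorem tens_ext {A B M : Type*} [AddCommGroup A] [Module F2 A] [AddCommGroup B] [Module F2 B]
    [AddCommGroup M] [Module F2 M] {f g : A ⊗[F2] B →ₗ[F2] M}
    (h : ∀ a b, f (a ⊗ₜ b) = g (a ⊗ₜ b)) (x : A ⊗[F2] B) : f x = g x :=
  LinearMap.congr_fun (TensorProduct.ext' h) x

theorem dT_dT {A B : Type*} [AddCommGroup A] [Module F2 A] [AddCommGroup B] [Module F2 B]
    {d : A →ₗ[F2] A} {d' : B →ₗ[F2] B} (hd : ∀ x, d (d x) = 0) (hd' : ∀ x, d' (d' x) = 0)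
    (x : A ⊗[F2] B) : dT d d' (dT d d' x) = 0 := by
  have := tens_ext (f := dT d d' ∘ₗ dT d d') (g := 0) (fun a b => by
    rw [LinearMap.comp_apply, dT_tmul, map_add, dT_tmul, dT_tmul, hd, hd', zero_tmul, tmul_zero,
      zero_add, add_zero, add_self, LinearMap.zero_apply]) x
  exact this

/-- tensor product of cosimplicial contractible modules -/
noncomputable def tensor (C D : CT) : CT where
  T n := C.T n ⊗[F2] D.T n
  map f := TensorProduct.map (C.map f) (D.map f)
  map_id {n} x := by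
    have := tens_ext (f := TensorProduct.map (C.map (OrderHom.id : Op n n)) (D.map OrderHom.id))
      (g := LinearMap.id) (fun a b => by
        rw [TensorProduct.map_tmul, C.map_id, D.map_id, LinearMap.id_apply]) x
    exact this
  map_comp f g x := by
    have := tens_ext (f := TensorProduct.map (C.map (g.comp f)) (D.map (g.comp f)))
      (g := TensorProduct.map (C.map g) (D.map g) ∘ₗ TensorProduct.map (C.map f) (D.map f))
      (fun a b => by
        rw [TensorProduct.map_tmul, C.map_comp, D.map_comp, LinearMap.comp_apply,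
          TensorProduct.map_tmul, TensorProduct.map_tmul]) x
    exact this
  d n := dT (C.d n) (D.d n)
  d_d n x := dT_dT (C.d_d n) (D.d_d n) x
  map_d {m n} f x := by
    have := tens_ext (f := TensorProduct.map (C.map f) (D.map f) ∘ₗ dT (C.d m) (D.d m))
      (g := dT (C.d n) (D.d n) ∘ₗ TensorProduct.map (C.map f) (D.map f)) (fun a b => by
        simp only [LinearMap.comp_apply, dT_tmul, map_add, TensorProduct.map_tmul, C.map_d,
          D.map_d]) x
    exact this
  aug n := augT (C.aug n) (D.aug n)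
  aug_d n x := by
    have := tens_ext (f := augT (C.aug n) (D.aug n) ∘ₗ dT (C.d n) (D.d n)) (g := 0) (fun a b => by
        simp only [LinearMap.comp_apply, dT_tmul, map_add, augT_tmul, C.aug_d, D.aug_d, zero_mul,
          mul_zero, add_zero, LinearMap.zero_apply]) x
    exact this
  aug_map {m n} f x := by
    have := tens_ext (f := augT (C.aug n) (D.aug n) ∘ₗ TensorProduct.map (C.map f) (D.map f))
      (g := augT (C.aug m) (D.aug m)) (fun a b => by
        simp only [LinearMap.comp_apply, TensorProduct.map_tmul, augT_tmul, C.aug_map,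
          D.aug_map]) x
    exact this
  bot n := C.bot n ⊗ₜ D.bot n
  d_bot n := by rw [dT_tmul, C.d_bot, D.d_bot, zero_tmul, tmul_zero, add_zero]
  aug_bot n := by rw [augT_tmul, C.aug_bot, D.aug_bot, one_mul]
  map_bot j := by rw [TensorProduct.map_tmul, C.map_bot, D.map_bot]
  c n := TensorProduct.map (C.c n) LinearMap.id +
    TensorProduct.map (LinearMap.toSpanSingleton F2 _ (C.bot n) ∘ₗ C.aug n) (D.c n)
  d_c n x := by
    have := tens_ext (f := dT (C.d n) (D.d n) ∘ₗ (TensorProduct.map (C.c n) LinearMap.id +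
        TensorProduct.map (LinearMap.toSpanSingleton F2 _ (C.bot n) ∘ₗ C.aug n) (D.c n)))
      (g := LinearMap.id + (TensorProduct.map (C.c n) LinearMap.id +
        TensorProduct.map (LinearMap.toSpanSingleton F2 _ (C.bot n) ∘ₗ C.aug n) (D.c n)) ∘ₗ
          dT (C.d n) (D.d n) +
        LinearMap.toSpanSingleton F2 _ (C.bot n ⊗ₜ D.bot n) ∘ₗ augT (C.aug n) (D.aug n))
      (fun a b => by
        simp only [LinearMap.comp_apply, LinearMap.add_apply, dT_tmul, TensorProduct.map_tmul,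
          map_add, LinearMap.id_apply, LinearMap.toSpanSingleton_apply, augT_tmul, C.d_c, D.d_c,
          map_smul, C.d_bot, smul_zero, zero_tmul, C.aug_d, zero_smul, add_zero, zero_add,
          add_tmul, tmul_add, smul_tmul, tmul_smul]
        rw [smul_add, smul_add, smul_smul]
        char2) x
    exact this
  aug_c n x := by
    have := tens_ext (f := augT (C.aug n) (D.aug n) ∘ₗ (TensorProduct.map (C.c n) LinearMap.id +
        TensorProduct.map (LinearMap.toSpanSingleton F2 _ (C.bot n) ∘ₗ C.aug n) (D.c n)))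
      (g := 0) (fun a b => by
        simp only [LinearMap.comp_apply, LinearMap.add_apply, TensorProduct.map_tmul,
          map_add, augT_tmul, C.aug_c, D.aug_c, zero_mul, mul_zero, add_zero,
          LinearMap.zero_apply]) x
    exact this
  map_c {n} j x := by
    have := tens_ext
      (f := TensorProduct.map (C.map (Op.dgn j)) (D.map (Op.dgn j)) ∘ₗ
        (TensorProduct.map (C.c (n + 1)) LinearMap.id +
        TensorProduct.map (LinearMap.toSpanSingleton F2 _ (C.bot (n + 1)) ∘ₗ C.aug (n + 1))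
          (D.c (n + 1))))
      (g := (TensorProduct.map (C.c n) LinearMap.id +
        TensorProduct.map (LinearMap.toSpanSingleton F2 _ (C.bot n) ∘ₗ C.aug n) (D.c n)) ∘ₗ
        TensorProduct.map (C.map (Op.dgn j)) (D.map (Op.dgn j))) (fun a b => by
        simp only [LinearMap.comp_apply, LinearMap.add_apply, TensorProduct.map_tmul,
          map_add, LinearMap.id_apply, LinearMap.toSpanSingleton_apply, map_smul, C.map_c, D.map_c,
          C.map_bot, C.aug_map]) x
    exact this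

end CT

/-! ## families from natural maps -/

/-- natural maps from the normalised chains of the standard simplices -/
structure NFam (C : CT) {I : Type} (X : Cells C I) where
  Θ : I → ∀ n, N F2 (SS.std n) →ₗ[F2] C.T n
  nat : ∀ (i : I) {m n : ℕ} (f : Op m n) (z : N F2 (SS.std m)),
    C.map f (Θ i m z) = Θ i n (N.map F2 (stdMap f) z)
  eq : ∀ (i : I) (n : ℕ) (z : N F2 (SS.std n)),
    C.d n (Θ i n z) = Θ i n (N.bd F2 _ z) + X.L n (fun j => Θ j n z) i

/-- the family of the values at the universal simplices -/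
noncomputable def NFam.fam {C : CT} {I : Type} {X : Cells C I} (θ : NFam C X) : Fam C X where
  v i n := θ.Θ i n (N.sx F2 (K := SS.std n) (OrderHom.id : Op n n))
  dgn i n j := by
    rw [θ.nat, N.map_sx]
    have : (stdMap (Op.dgn j)).app (n + 1) (OrderHom.id : Op (n + 1) (n + 1)) =
      (SS.std n).act (Op.dgn j) (OrderHom.id : Op n n) := rfl
    rw [this, N.sx_dgn, map_zero]
  d_zero i := by
    rw [θ.eq, bd_sx_zero, map_zero, zero_add]
  d_succ i n := by
    rw [θ.eq]
    congr 1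
    rw [bd_sx_succ, map_sum, CT.fc]
    refine Finset.sum_congr rfl fun k _ => ?_
    rw [neg_one_pow_F2, one_smul, θ.nat, N.map_sx]
    rfl

/-! ## cells for `Z/2` and `Z/2 × Z/2` -/

/-- an involution of `C` -/
structure Inv (C : CT) where
  t : ∀ n, C.T n →ₗ[F2] C.T n
  t_t : ∀ n x, t n (t n x) = x
  map_t : ∀ {m n : ℕ} (f : Op m n) (x : C.T m), C.map f (t m x) = t n (C.map f x)
  d_t : ∀ n x, C.d n (t n x) = t n (C.d n x)
  aug_t : ∀ n x, C.aug n (t n x) = C.aug n x

/-- the cells `e_i`, `i ≥ 0` of `Z/2` -/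
def cellsZ2 {C : CT} (τ : Inv C) : Cells C ℕ where
  rk i := i
  L n :=
    { toFun := fun h i => match i with
        | 0 => 0
        | i + 1 => h i + τ.t n (h i)
      map_add' := fun h h' => by
        funext i
        rcases i with _ | i
        · simp
        · simp only [Pi.add_apply, map_add]; abel
      map_smul' := fun r h => by
        funext i
        rcases i with _ | i
        · simp
        · simp only [Pi.smul_apply, map_smul, RingHom.id_apply, smul_add] }
  loc n h h' i hh := by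
    rcases i with _ | i
    · rfl
    · simp only [LinearMap.coe_mk, AddHom.coe_mk]
      rw [hh i (Nat.lt_succ_self i)]
  L_L n h := by
    funext i
    rcases i with _ | _ | i
    · rfl
    · simp
    · simp only [LinearMap.coe_mk, AddHom.coe_mk, map_add, τ.t_t, Pi.zero_apply]
      rw [add_comm (τ.t n (h i)) (h i), add_self]
  L_map f h i := by
    rcases i with _ | i
    · simp
    · simp only [LinearMap.coe_mk, AddHom.coe_mk, map_add, τ.map_t]
  L_d n h i := by
    rcases i with _ | i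
    · simp
    · simp only [LinearMap.coe_mk, AddHom.coe_mk, map_add, τ.d_t]
  L_aug n h hh i := by
    rcases i with _ | i
    · simp
    · simp only [LinearMap.coe_mk, AddHom.coe_mk, map_add, τ.aug_t, hh, add_zero]

@[simp] theorem cellsZ2_L_zero {C : CT} (τ : Inv C) (n : ℕ) (h : ℕ → C.T n) :
    (cellsZ2 τ).L n h 0 = 0 := rfl

@[simp] theorem cellsZ2_L_succ {C : CT} (τ : Inv C) (n : ℕ) (h : ℕ → C.T n) (i : ℕ) :
    (cellsZ2 τ).L n h (i + 1) = h i + τ.t n (h i) := rfl

/-- lower part in one direction -/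
def low {M : Type*} [AddCommGroup M] [Module F2 M] (t : M →ₗ[F2] M) (h : ℕ → M) : ℕ → M
  | 0 => 0
  | i + 1 => h i + t (h i)

/-- the cells `e_i ⊗ e_j` of `Z/2 × Z/2` -/
def cellsV {C : CT} (τ τ' : Inv C) (hc : ∀ n x, τ.t n (τ'.t n x) = τ'.t n (τ.t n x)) :
    Cells C (ℕ × ℕ) where
  rk p := p.1 + p.2
  L n :=
    { toFun := fun h p => low (τ.t n) (fun i => h (i, p.2)) p.1 +
        low (τ'.t n) (fun j => h (p.1, j)) p.2
      map_add' := fun h h' => by
        funext ⟨i, j⟩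
        rcases i with _ | i <;> rcases j with _ | j <;>
          simp only [low, Pi.add_apply, map_add, add_zero, zero_add] <;> try abel
      map_smul' := fun r h => by
        funext ⟨i, j⟩
        rcases i with _ | i <;> rcases j with _ | j <;>
          simp only [low, Pi.smul_apply, map_smul, RingHom.id_apply, smul_add, smul_zero] }
  loc n h h' p hh := by
    obtain ⟨i, j⟩ := p
    simp only [LinearMap.coe_mk, AddHom.coe_mk]
    congr 1
    · rcases i with _ | i
      · rfl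
      · simp only [low]; rw [hh (i, j) (by show i + j < i + 1 + j; omega)]
    · rcases j with _ | j
      · rfl
      · simp only [low]; rw [hh (i, j) (by simp)]
  L_L n h := by
    funext ⟨i, j⟩
    simp only [LinearMap.coe_mk, AddHom.coe_mk, Pi.zero_apply]
    rcases i with _ | _ | i <;> rcases j with _ | _ | j <;>
      simp only [low, map_add, τ.t_t, τ'.t_t, hc, map_zero, add_zero, zero_add] <;> char2
  L_map f h p := by
    obtain ⟨i, j⟩ := p
    rcases i with _ | i <;> rcases j with _ | j <;>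
      simp only [LinearMap.coe_mk, AddHom.coe_mk, low, map_add, map_zero, τ.map_t, τ'.map_t]
  L_d n h p := by
    obtain ⟨i, j⟩ := p
    rcases i with _ | i <;> rcases j with _ | j <;>
      simp only [LinearMap.coe_mk, AddHom.coe_mk, low, map_add, map_zero, τ.d_t, τ'.d_t]
  L_aug n h hh p := by
    obtain ⟨i, j⟩ := p
    rcases i with _ | i <;> rcases j with _ | j <;>
      simp only [LinearMap.coe_mk, AddHom.coe_mk, low, map_add, map_zero, τ.aug_t, τ'.aug_t, hh,
        add_zero]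

end Crest.Agent.R204.AM596
private theorem rz_72f88f6ea6 : type_of% @_root_.Crest.Agent.R204.AM596.low.eq_1 := @_root_.Crest.Agent.R204.AM596.low.eq_1 -- L257
end

-- ▼ part R204/Psi_596
section

set_option autoImplicit false

/-!
# Row 204, leaf S3 / P6: the map `θ : N(E Z/2 × K) → N K ⊗ N K` and the natural `Z/2 × Z/2`-family
`ψ_{ij} : N K → (N K)^{⊗ 4}` built from the equivariant diagonal `Φ_i`.
-/

namespace Crest.Agent.R204.Adem596

open Finsupp TensorProduct
open Crest.Agent.R204.AM596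
open Crest.Agent.R204.DK742 (gE alt AltSS)
open Crest.Agent.R204.SS (EG EGmap)

/-- the equivariant diagonal on normalised chains -/
structure PhiData where
  Phi : ∀ (K : SS), ℕ → N F2 K →ₗ[F2] N F2 K ⊗[F2] N F2 K
  nat : ∀ {K L : SS} (f : SS.Hom K L) (i : ℕ) (x : N F2 K),
    TensorProduct.map (N.map F2 f) (N.map F2 f) (Phi K i x) = Phi L i (N.map F2 f x)
  d_zero : ∀ (K : SS) (x : N F2 K), CT.dT (N.bd F2 K) (N.bd F2 K) (Phi K 0 x) =
    Phi K 0 (N.bd F2 K x)
  d_succ : ∀ (K : SS) (i : ℕ) (x : N F2 K), CT.dT (N.bd F2 K) (N.bd F2 K) (Phi K (i + 1) x) =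
    Phi K (i + 1) (N.bd F2 K x) + (Phi K i x + TensorProduct.comm F2 _ _ (Phi K i x))
  aug_zero : ∀ (K : SS) (x : N F2 K),
    CT.augT (EZ271.aug F2) (EZ271.aug F2) (Phi K 0 x) = EZ271.aug F2 x
  aug_succ : ∀ (K : SS) (i : ℕ) (x : N F2 K),
    CT.augT (EZ271.aug F2) (EZ271.aug F2) (Phi K (i + 1) x) = 0

/-! ## chains of `E Z/2` -/

/-- generator `g^b e_n` -/
noncomputable def ee (n : ℕ) (b : ZMod 2) : N F2 (EG (ZMod 2)) := N.sx F2 (alt n b)

theorem sx_eq_zero {n : ℕ} (x : (EG (ZMod 2)).S n) (h : x ≠ alt n (x 0)) : N.sx F2 x = 0 :=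
  AltSS.full.sx_eq_zero' x h

/-- linear maps out of `N(E Z/2)` agree if they agree on `g^b e_n` -/
theorem E_ext {M : Type*} [AddCommGroup M] [Module F2 M] {f g : N F2 (EG (ZMod 2)) →ₗ[F2] M}
    (h : ∀ (n : ℕ) (b : ZMod 2), f (ee n b) = g (ee n b)) : f = g := by
  refine EZ271.hom_ext fun n x => ?_
  by_cases hx : x = alt n (x 0)
  · rw [hx]; exact h n _
  · rw [sx_eq_zero x hx, map_zero, map_zero]

theorem full_e (n : ℕ) (b : ZMod 2) : AltSS.full.e n le_top b = alt n b :=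
  AltSS.full.j_e n le_top b

theorem bd_ee_zero (b : ZMod 2) : N.bd F2 _ (ee 0 b) = 0 := EZ271.bd_sx_zero F2 _

theorem bd_ee_succ (n : ℕ) (b : ZMod 2) : N.bd F2 _ (ee (n + 1) b) = ee n (b + 1) + ee n b := by
  have := AltSS.full.bd_e_succ n le_top b
  rw [full_e, full_e, full_e] at this
  exact this

theorem g_ee (n : ℕ) (b : ZMod 2) : N.map F2 gE.g (ee n b) = ee n (b + 1) := by
  rw [ee, N.map_sx, DK742.alt_g]; rfl

theorem aug_ee_zero (b : ZMod 2) : EZ271.aug F2 (ee 0 b) = 1 := EZ271.aug_sx_zero F2 _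
theorem aug_ee_succ (n : ℕ) (b : ZMod 2) : EZ271.aug F2 (ee (n + 1) b) = 0 := EZ271.aug_sx_succ F2 _

/-! ## `κ : N E → Hom(N K, N K ⊗ N K)` -/

section kap

variable {A : Type*} [AddCommGroup A] [Module F2 A]

/-- swap to the power `b` -/
noncomputable def tw (A : Type*) [AddCommGroup A] [Module F2 A] (b : ZMod 2) :
    A ⊗[F2] A →ₗ[F2] A ⊗[F2] A :=
  if b = 0 then LinearMap.id else (TensorProduct.comm F2 A A).toLinearMap

@[simp] theorem tw_zero : tw A 0 = LinearMap.id := by simp [tw]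
@[simp] theorem tw_one : tw A 1 = (TensorProduct.comm F2 A A).toLinearMap := by simp [tw]

theorem comm_comm (x : A ⊗[F2] A) : TensorProduct.comm F2 A A (TensorProduct.comm F2 A A x) = x := by
  have := CT.tens_ext (f := (TensorProduct.comm F2 A A).toLinearMap ∘ₗ
    (TensorProduct.comm F2 A A).toLinearMap) (g := LinearMap.id) (fun a b => by simp) x
  exact this

theorem comm_tw (b : ZMod 2) (x : A ⊗[F2] A) :
    TensorProduct.comm F2 A A (tw A b x) = tw A (b + 1) x := by
  rcases DK742.zmod2_cases b with rfl | rfl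
  · rw [zero_add]; simp
  · have : (1 + 1 : ZMod 2) = 0 := by decide
    rw [this, tw_one, tw_zero]
    exact comm_comm x

theorem comm_dT (d : A →ₗ[F2] A) (x : A ⊗[F2] A) : TensorProduct.comm F2 A A (CT.dT d d x) =
    CT.dT d d (TensorProduct.comm F2 A A x) := by
  have := CT.tens_ext (f := (TensorProduct.comm F2 A A).toLinearMap ∘ₗ CT.dT d d)
    (g := CT.dT d d ∘ₗ (TensorProduct.comm F2 A A).toLinearMap) (fun a b => by
      simp [add_comm]) x
  exact this

theorem comm_map {B : Type*} [AddCommGroup B] [Module F2 B] (f : A →ₗ[F2] B) (x : A ⊗[F2] A) :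
    TensorProduct.comm F2 B B (TensorProduct.map f f x) =
      TensorProduct.map f f (TensorProduct.comm F2 A A x) := by
  have := CT.tens_ext (f := (TensorProduct.comm F2 B B).toLinearMap ∘ₗ TensorProduct.map f f)
    (g := TensorProduct.map f f ∘ₗ (TensorProduct.comm F2 A A).toLinearMap) (fun a b => by
      simp) x
  exact this

theorem augT_comm (f : A →ₗ[F2] F2) (x : A ⊗[F2] A) :
    CT.augT f f (TensorProduct.comm F2 A A x) = CT.augT f f x := by
  have := CT.tens_ext (f := CT.augT f f ∘ₗ (TensorProduct.comm F2 A A).toLinearMap)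
    (g := CT.augT f f) (fun a b => by simp [mul_comm]) x
  exact this

theorem tw_dT (d : A →ₗ[F2] A) (b : ZMod 2) (x : A ⊗[F2] A) :
    tw A b (CT.dT d d x) = CT.dT d d (tw A b x) := by
  rcases DK742.zmod2_cases b with rfl | rfl
  · simp
  · rw [tw_one]; exact comm_dT d x

theorem tw_map {B : Type*} [AddCommGroup B] [Module F2 B] (f : A →ₗ[F2] B) (b : ZMod 2)
    (x : A ⊗[F2] A) : tw B b (TensorProduct.map f f x) = TensorProduct.map f f (tw A b x) := by
  rcases DK742.zmod2_cases b with rfl | rfl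
  · simp
  · rw [tw_one, tw_one]; exact comm_map f x

theorem augT_tw (f : A →ₗ[F2] F2) (b : ZMod 2) (x : A ⊗[F2] A) :
    CT.augT f f (tw A b x) = CT.augT f f x := by
  rcases DK742.zmod2_cases b with rfl | rfl
  · simp
  · rw [tw_one]; exact augT_comm f x

end kap

variable (D : PhiData)

section

variable (K : SS)

open Classical in
/-- `κ` on simplices -/
noncomputable def kapS (n : ℕ) (x : (EG (ZMod 2)).S n) : N F2 K →ₗ[F2] N F2 K ⊗[F2] N F2 K :=
  if x = alt n (x 0) then tw (N F2 K) (x 0) ∘ₗ D.Phi K n else 0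

/-- `κ : N(E) → Hom(N K, N K ⊗ N K)`, `g^b e_n ↦ t^b Φ_n` -/
noncomputable def kap : N F2 (EG (ZMod 2)) →ₗ[F2] N F2 K →ₗ[F2] N F2 K ⊗[F2] N F2 K :=
  EZ271.liftN (kapS D K) (fun n j y => by
    rw [kapS, if_neg]
    exact DK742.dgn_ne_alt j _ _)

theorem kap_ee (n : ℕ) (b : ZMod 2) (x : N F2 K) :
    kap D K (ee n b) x = tw (N F2 K) b (D.Phi K n x) := by
  have h1 : alt n b = alt n (alt n b 0) := by rw [DK742.alt_zero]
  rw [kap, ee, EZ271.liftN_sx, kapS, if_pos h1, DK742.alt_zero]; rfl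

theorem kap_g (a : N F2 (EG (ZMod 2))) (x : N F2 K) :
    kap D K (N.map F2 gE.g a) x = TensorProduct.comm F2 _ _ (kap D K a x) := by
  have : kap D K ∘ₗ N.map F2 gE.g =
      (kap D K).compr₂ (TensorProduct.comm F2 (N F2 K) (N F2 K)).toLinearMap := by
    refine E_ext (M := N F2 K →ₗ[F2] N F2 K ⊗[F2] N F2 K) ?_
    intro n b
    apply LinearMap.ext
    intro x
    simp only [LinearMap.comp_apply, LinearMap.compr₂_apply, g_ee, kap_ee, LinearEquiv.coe_coe,
      comm_tw]
  exact LinearMap.congr_fun (LinearMap.congr_fun this a) x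

theorem kap_bd (a : N F2 (EG (ZMod 2))) (x : N F2 K) :
    CT.dT (N.bd F2 K) (N.bd F2 K) (kap D K a x) =
      kap D K (N.bd F2 _ a) x + kap D K a (N.bd F2 K x) := by
  have : (kap D K).compr₂ (CT.dT (N.bd F2 K) (N.bd F2 K)) =
      kap D K ∘ₗ N.bd F2 _ + (kap D K).compl₂ (N.bd F2 K) := by
    refine E_ext (M := N F2 K →ₗ[F2] N F2 K ⊗[F2] N F2 K) ?_
    intro n b
    apply LinearMap.ext
    intro x
    simp only [LinearMap.comp_apply, LinearMap.compr₂_apply, LinearMap.add_apply,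
      LinearMap.compl₂_apply, kap_ee, ← tw_dT]
    rcases n with _ | n
    · rw [bd_ee_zero, map_zero, LinearMap.zero_apply, zero_add, D.d_zero]
    · rw [bd_ee_succ, map_add, LinearMap.add_apply, kap_ee, kap_ee, D.d_succ, map_add, map_add]
      have : tw (N F2 K) b (TensorProduct.comm F2 _ _ (D.Phi K n x)) =
          tw (N F2 K) (b + 1) (D.Phi K n x) := by
        rcases DK742.zmod2_cases b with rfl | rfl
        · rw [zero_add]; simp
        · have : (1 + 1 : ZMod 2) = 0 := by decide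
          rw [this, tw_one, tw_zero]
          exact comm_comm _
      rw [this]
      abel
  exact LinearMap.congr_fun (LinearMap.congr_fun this a) x

theorem kap_nat {K L : SS} (f : SS.Hom K L) (a : N F2 (EG (ZMod 2))) (x : N F2 K) :
    TensorProduct.map (N.map F2 f) (N.map F2 f) (kap D K a x) = kap D L a (N.map F2 f x) := by
  have : (kap D K).compr₂ (TensorProduct.map (N.map F2 f) (N.map F2 f)) =
      (kap D L).compl₂ (N.map F2 f) := by
    refine E_ext (M := N F2 K →ₗ[F2] N F2 L ⊗[F2] N F2 L) ?_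
    intro n b
    apply LinearMap.ext
    intro x
    simp only [LinearMap.compr₂_apply, LinearMap.compl₂_apply, kap_ee, ← tw_map, D.nat]
  exact LinearMap.congr_fun (LinearMap.congr_fun this a) x

theorem kap_aug (a : N F2 (EG (ZMod 2))) (x : N F2 K) :
    CT.augT (EZ271.aug F2) (EZ271.aug F2) (kap D K a x) = EZ271.aug F2 a * EZ271.aug F2 x := by
  have : (kap D K).compr₂ (CT.augT (EZ271.aug F2) (EZ271.aug F2)) =
      ((LinearMap.mul F2 F2) ∘ₗ (EZ271.aug F2 (K := EG (ZMod 2)))).compl₂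
        (EZ271.aug F2 (K := K)) := by
    apply E_ext
    intro n b
    apply LinearMap.ext
    intro x
    simp only [LinearMap.comp_apply, LinearMap.compr₂_apply, LinearMap.compl₂_apply, kap_ee,
      augT_tw, LinearMap.mul_apply']
    rcases n with _ | n
    · rw [D.aug_zero, aug_ee_zero, one_mul]
    · rw [D.aug_succ, aug_ee_succ, zero_mul]
  exact LinearMap.congr_fun (LinearMap.congr_fun this a) x

/-! ## `θ` -/

/-- `θ : N(E × K) → N K ⊗ N K` -/
noncomputable def th : N F2 ((EG (ZMod 2)).prod K) →ₗ[F2] N F2 K ⊗[F2] N F2 K :=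
  TensorProduct.lift (kap D K) ∘ₗ EZ271.aw F2

theorem th_cross (a : N F2 (EG (ZMod 2))) (x : N F2 K) :
    th D K (EZ271.cross F2 a x) = kap D K a x := by
  rw [th, LinearMap.comp_apply, EZ271.aw_cross, TensorProduct.lift.tmul]

theorem sg_F2 {L : SS} : (EZ271.sg F2 : N F2 L →ₗ[F2] N F2 L) = LinearMap.id := by
  refine EZ271.hom_ext fun n x => ?_
  rw [EZ271.sg_sx, neg_one_pow_F2, one_smul]; rfl

theorem tbd_F2 (K L : SS) : EZ271.tbd F2 K L = CT.dT (N.bd F2 K) (N.bd F2 L) := by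
  refine TensorProduct.ext' fun a b => ?_
  rw [EZ271.tbd_tmul, CT.dT_tmul, sg_F2]; rfl

theorem th_bd (z : N F2 ((EG (ZMod 2)).prod K)) :
    CT.dT (N.bd F2 K) (N.bd F2 K) (th D K z) = th D K (N.bd F2 _ z) := by
  rw [th, LinearMap.comp_apply, LinearMap.comp_apply, ← EZ271.bd_aw, tbd_F2]
  refine CT.tens_ext (f := CT.dT (N.bd F2 K) (N.bd F2 K) ∘ₗ TensorProduct.lift (kap D K))
    (g := TensorProduct.lift (kap D K) ∘ₗ CT.dT (N.bd F2 _) (N.bd F2 _)) (fun a b => ?_) _
  simp only [LinearMap.comp_apply, TensorProduct.lift.tmul, CT.dT_tmul, map_add, kap_bd]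

theorem th_nat {K L : SS} (f : SS.Hom K L) (z : N F2 ((EG (ZMod 2)).prod K)) :
    TensorProduct.map (N.map F2 f) (N.map F2 f) (th D K z) =
      th D L (N.map F2 (SS.prodMap (SS.Hom.id _) f) z) := by
  rw [th, th, LinearMap.comp_apply, LinearMap.comp_apply, EZ271.aw_map]
  refine CT.tens_ext (f := TensorProduct.map (N.map F2 f) (N.map F2 f) ∘ₗ
    TensorProduct.lift (kap D K))
    (g := TensorProduct.lift (kap D L) ∘ₗ TensorProduct.map (N.map F2 (SS.Hom.id _)) (N.map F2 f))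
    (fun a b => ?_) _
  simp only [LinearMap.comp_apply, TensorProduct.lift.tmul, TensorProduct.map_tmul, kap_nat,
    EZ271.map_idHom]

/-- the involution of `E × K` -/
def gK (K : SS) : SS.Hom ((EG (ZMod 2)).prod K) ((EG (ZMod 2)).prod K) :=
  SS.prodMap gE.g (SS.Hom.id K)

theorem th_g (z : N F2 ((EG (ZMod 2)).prod K)) :
    th D K (N.map F2 (gK K) z) = TensorProduct.comm F2 _ _ (th D K z) := by
  rw [th, LinearMap.comp_apply, LinearMap.comp_apply, gK, EZ271.aw_map]
  refine CT.tens_ext (f := TensorProduct.lift (kap D K) ∘ₗ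
      TensorProduct.map (N.map F2 gE.g) (N.map F2 (SS.Hom.id K)))
    (g := (TensorProduct.comm F2 _ _).toLinearMap ∘ₗ TensorProduct.lift (kap D K))
    (fun a b => ?_) _
  simp only [LinearMap.comp_apply, TensorProduct.lift.tmul, TensorProduct.map_tmul, kap_g,
    EZ271.map_idHom, LinearEquiv.coe_coe]

theorem aug_aw {K L : SS} (z : N F2 (K.prod L)) :
    CT.augT (EZ271.aug F2) (EZ271.aug F2) (EZ271.aw F2 z) = EZ271.aug F2 z := by
  have : CT.augT (EZ271.aug F2) (EZ271.aug F2) ∘ₗ EZ271.aw F2 =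
      (EZ271.aug F2 : N F2 (K.prod L) →ₗ[F2] F2) := by
    refine EZ271.hom_ext ?_
    rintro n ⟨x, y⟩
    rw [LinearMap.comp_apply, EZ271.aw_sx, map_sum]
    rcases n with _ | n
    · rw [EZ271.aug_sx_zero]; simp
    · rw [EZ271.aug_sx_succ]
      refine Finset.sum_eq_zero fun a ha => ?_
      rw [Finset.mem_range] at ha
      rw [CT.augT_tmul]
      rcases a with _ | a
      · obtain ⟨k, hk⟩ : ∃ k, n + 1 - 0 = k + 1 := ⟨n, by omega⟩
        rw [EZ271.aug_sx_zero, one_mul]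
        exact (EZ271.aug_sx_succ F2 (n := n) _)
      · rw [EZ271.aug_sx_succ, zero_mul]
  exact LinearMap.congr_fun this z

theorem th_aug (z : N F2 ((EG (ZMod 2)).prod K)) :
    CT.augT (EZ271.aug F2) (EZ271.aug F2) (th D K z) = EZ271.aug F2 z := by
  rw [← aug_aw, th, LinearMap.comp_apply]
  refine CT.tens_ext (f := CT.augT (EZ271.aug F2) (EZ271.aug F2) ∘ₗ TensorProduct.lift (kap D K))
    (g := CT.augT (EZ271.aug F2) (EZ271.aug F2)) (fun a b => ?_) _
  simp only [LinearMap.comp_apply, TensorProduct.lift.tmul, CT.augT_tmul, kap_aug]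

end

end Crest.Agent.R204.Adem596
end

-- ▼ part R204/Fam4_596
section

set_option autoImplicit false

/-!
# Row 204, leaf S3 / P6: the natural `Z/2 × Z/2`-family `ψ_{ij} : N K → (N K)^{⊗ 4}` and its symmetry.
-/

namespace Crest.Agent.R204.Adem596

open Finsupp TensorProduct
open Crest.Agent.R204.AM596
open Crest.Agent.R204.DK742 (gE alt AltSS)
open Crest.Agent.R204.SS (EG EGmap)

section four

variable {A B : Type*} [AddCommGroup A] [Module F2 A] [AddCommGroup B] [Module F2 B]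

/-- fourth tensor power -/
abbrev T4 (A : Type*) [AddCommGroup A] [Module F2 A] : Type _ := (A ⊗[F2] A) ⊗[F2] (A ⊗[F2] A)

/-- swap of the outer factors -/
noncomputable def t1 (A : Type*) [AddCommGroup A] [Module F2 A] : T4 A →ₗ[F2] T4 A :=
  (TensorProduct.comm F2 (A ⊗[F2] A) (A ⊗[F2] A)).toLinearMap

/-- swap of both inner pairs -/
noncomputable def t2 (A : Type*) [AddCommGroup A] [Module F2 A] : T4 A →ₗ[F2] T4 A :=
  TensorProduct.map (TensorProduct.comm F2 A A).toLinearMap (TensorProduct.comm F2 A A).toLinearMap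

/-- middle four interchange -/
noncomputable def sig (A : Type*) [AddCommGroup A] [Module F2 A] : T4 A →ₗ[F2] T4 A :=
  (TensorProduct.tensorTensorTensorComm F2 A A A A).toLinearMap

/-- fourth power of a map -/
noncomputable def map4 (f : A →ₗ[F2] B) : T4 A →ₗ[F2] T4 B :=
  TensorProduct.map (TensorProduct.map f f) (TensorProduct.map f f)

/-- differential -/
noncomputable def d4 (d : A →ₗ[F2] A) : T4 A →ₗ[F2] T4 A := CT.dT (CT.dT d d) (CT.dT d d)

/-- functional -/
noncomputable def aug4 (u : A →ₗ[F2] F2) : T4 A →ₗ[F2] F2 := CT.augT (CT.augT u u) (CT.augT u u)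

@[simp] theorem t1_tmul (a b c e : A) : t1 A ((a ⊗ₜ b) ⊗ₜ (c ⊗ₜ e)) = (c ⊗ₜ e) ⊗ₜ (a ⊗ₜ b) := rfl
@[simp] theorem t2_tmul (a b c e : A) : t2 A ((a ⊗ₜ b) ⊗ₜ (c ⊗ₜ e)) = (b ⊗ₜ a) ⊗ₜ (e ⊗ₜ c) := rfl
@[simp] theorem sig_tmul (a b c e : A) : sig A ((a ⊗ₜ b) ⊗ₜ (c ⊗ₜ e)) = (a ⊗ₜ c) ⊗ₜ (b ⊗ₜ e) := rfl
@[simp] theorem map4_tmul (f : A →ₗ[F2] B) (a b c e : A) :
    map4 f ((a ⊗ₜ b) ⊗ₜ (c ⊗ₜ e)) = (f a ⊗ₜ f b) ⊗ₜ (f c ⊗ₜ f e) := rfl
@[simp] theorem d4_tmul (d : A →ₗ[F2] A) (a b c e : A) :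
    d4 d ((a ⊗ₜ b) ⊗ₜ (c ⊗ₜ e)) = (d a ⊗ₜ b + a ⊗ₜ d b) ⊗ₜ (c ⊗ₜ e) +
      (a ⊗ₜ b) ⊗ₜ (d c ⊗ₜ e + c ⊗ₜ d e) := by
  rw [d4, CT.dT_tmul, CT.dT_tmul, CT.dT_tmul]
@[simp] theorem aug4_tmul (u : A →ₗ[F2] F2) (a b c e : A) :
    aug4 u ((a ⊗ₜ b) ⊗ₜ (c ⊗ₜ e)) = (u a * u b) * (u c * u e) := by
  rw [aug4, CT.augT_tmul, CT.augT_tmul, CT.augT_tmul]

theorem T4_ext {M : Type*} [AddCommGroup M] [Module F2 M] {f g : T4 A →ₗ[F2] M}
    (h : ∀ a b c e : A, f ((a ⊗ₜ b) ⊗ₜ (c ⊗ₜ e)) = g ((a ⊗ₜ b) ⊗ₜ (c ⊗ₜ e))) (x : T4 A) :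
    f x = g x := by
  refine CT.tens_ext (fun p q => ?_) x
  induction p using TensorProduct.induction_on with
  | zero => simp
  | tmul a b =>
    induction q using TensorProduct.induction_on with
    | zero => simp
    | tmul c e => exact h a b c e
    | add p q hp hq => rw [tmul_add, map_add, map_add, hp, hq]
  | add p q hp hq => rw [add_tmul, map_add, map_add, hp, hq]

theorem t1_t1 (x : T4 A) : t1 A (t1 A x) = x :=
  T4_ext (f := t1 A ∘ₗ t1 A) (g := LinearMap.id) (fun a b c e => by simp) x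
theorem t2_t2 (x : T4 A) : t2 A (t2 A x) = x :=
  T4_ext (f := t2 A ∘ₗ t2 A) (g := LinearMap.id) (fun a b c e => by simp) x
theorem t1_t2 (x : T4 A) : t1 A (t2 A x) = t2 A (t1 A x) :=
  T4_ext (f := t1 A ∘ₗ t2 A) (g := t2 A ∘ₗ t1 A) (fun a b c e => by simp) x
theorem sig_t1 (x : T4 A) : sig A (t1 A x) = t2 A (sig A x) :=
  T4_ext (f := sig A ∘ₗ t1 A) (g := t2 A ∘ₗ sig A) (fun a b c e => by simp) x
theorem sig_t2 (x : T4 A) : sig A (t2 A x) = t1 A (sig A x) :=
  T4_ext (f := sig A ∘ₗ t2 A) (g := t1 A ∘ₗ sig A) (fun a b c e => by simp) x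
theorem map4_t1 (f : A →ₗ[F2] B) (x : T4 A) : map4 f (t1 A x) = t1 B (map4 f x) :=
  T4_ext (f := map4 f ∘ₗ t1 A) (g := t1 B ∘ₗ map4 f) (fun a b c e => by simp) x
theorem map4_t2 (f : A →ₗ[F2] B) (x : T4 A) : map4 f (t2 A x) = t2 B (map4 f x) :=
  T4_ext (f := map4 f ∘ₗ t2 A) (g := t2 B ∘ₗ map4 f) (fun a b c e => by simp) x
theorem map4_sig (f : A →ₗ[F2] B) (x : T4 A) : map4 f (sig A x) = sig B (map4 f x) :=
  T4_ext (f := map4 f ∘ₗ sig A) (g := sig B ∘ₗ map4 f) (fun a b c e => by simp) x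
theorem d4_t1 (d : A →ₗ[F2] A) (x : T4 A) : d4 d (t1 A x) = t1 A (d4 d x) :=
  T4_ext (f := d4 d ∘ₗ t1 A) (g := t1 A ∘ₗ d4 d) (fun a b c e => by
    simp [tmul_add, add_tmul]; abel) x
theorem d4_t2 (d : A →ₗ[F2] A) (x : T4 A) : d4 d (t2 A x) = t2 A (d4 d x) :=
  T4_ext (f := d4 d ∘ₗ t2 A) (g := t2 A ∘ₗ d4 d) (fun a b c e => by
    simp [tmul_add, add_tmul]; abel) x
theorem d4_sig (d : A →ₗ[F2] A) (x : T4 A) : d4 d (sig A x) = sig A (d4 d x) :=
  T4_ext (f := d4 d ∘ₗ sig A) (g := sig A ∘ₗ d4 d) (fun a b c e => by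
    simp [tmul_add, add_tmul]; abel) x
theorem aug4_t1 (u : A →ₗ[F2] F2) (x : T4 A) : aug4 u (t1 A x) = aug4 u x :=
  T4_ext (f := aug4 u ∘ₗ t1 A) (g := aug4 u) (fun a b c e => by simp; ring) x
theorem aug4_t2 (u : A →ₗ[F2] F2) (x : T4 A) : aug4 u (t2 A x) = aug4 u x :=
  T4_ext (f := aug4 u ∘ₗ t2 A) (g := aug4 u) (fun a b c e => by simp; ring) x
theorem aug4_sig (u : A →ₗ[F2] F2) (x : T4 A) : aug4 u (sig A x) = aug4 u x :=
  T4_ext (f := aug4 u ∘ₗ sig A) (g := aug4 u) (fun a b c e => by simp; ring) x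
theorem aug4_map4 (u : B →ₗ[F2] F2) (f : A →ₗ[F2] B) (x : T4 A) :
    aug4 u (map4 f x) = aug4 (u ∘ₗ f) x :=
  T4_ext (f := aug4 u ∘ₗ map4 f) (g := aug4 (u ∘ₗ f)) (fun a b c e => by simp) x
theorem aug4_d4 (u : A →ₗ[F2] F2) (d : A →ₗ[F2] A) (h : ∀ x, u (d x) = 0) (x : T4 A) :
    aug4 u (d4 d x) = 0 :=
  T4_ext (f := aug4 u ∘ₗ d4 d) (g := 0) (fun a b c e => by simp [tmul_add, add_tmul, h]) x


end four

variable (D : PhiData)

theorem PhiData.d (K : SS) (i : ℕ) (x : N F2 K) : CT.dT (N.bd F2 K) (N.bd F2 K) (D.Phi K i x) =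
    D.Phi K i (N.bd F2 K x) +
      low (TensorProduct.comm F2 (N F2 K) (N F2 K)).toLinearMap (fun i => D.Phi K i x) i := by
  rcases i with _ | i
  · rw [D.d_zero, low, add_zero]
  · rw [D.d_succ, low]; rfl

/-- `ψ_{ij}(x) = (θ ⊗ θ)(Φ_i(e_j × x))` -/
noncomputable def psi (K : SS) (i j : ℕ) : N F2 K →ₗ[F2] T4 (N F2 K) :=
  TensorProduct.map (th D K) (th D K) ∘ₗ D.Phi ((EG (ZMod 2)).prod K) i ∘ₗ
    EZ271.cross F2 (ee j 0)

theorem psi_apply (K : SS) (i j : ℕ) (x : N F2 K) : psi D K i j x =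
    TensorProduct.map (th D K) (th D K) (D.Phi ((EG (ZMod 2)).prod K) i
      (EZ271.cross F2 (ee j 0) x)) := rfl

theorem map_map_tens {A B C : Type*} [AddCommGroup A] [Module F2 A] [AddCommGroup B] [Module F2 B]
    [AddCommGroup C] [Module F2 C] (f : A →ₗ[F2] B) (g : B →ₗ[F2] C) (x : A ⊗[F2] A) :
    TensorProduct.map g g (TensorProduct.map f f x) = TensorProduct.map (g ∘ₗ f) (g ∘ₗ f) x :=
  CT.tens_ext (f := TensorProduct.map g g ∘ₗ TensorProduct.map f f)
    (g := TensorProduct.map (g ∘ₗ f) (g ∘ₗ f)) (fun a b => by simp) x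

theorem psi_nat {K L : SS} (f : SS.Hom K L) (i j : ℕ) (x : N F2 K) :
    map4 (N.map F2 f) (psi D K i j x) = psi D L i j (N.map F2 f x) := by
  rw [psi_apply, psi_apply, map4, map_map_tens]
  have e1 : TensorProduct.map (N.map F2 f) (N.map F2 f) ∘ₗ th D K =
      th D L ∘ₗ N.map F2 (SS.prodMap (SS.Hom.id (EG (ZMod 2))) f) :=
    LinearMap.ext fun z => th_nat D f z
  have e2 : EZ271.cross F2 (ee j 0) (N.map F2 f x) =
      N.map F2 (SS.prodMap (SS.Hom.id (EG (ZMod 2))) f) (EZ271.cross F2 (ee j 0) x) := by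
    rw [EZ271.map_cross, EZ271.map_idHom]
  rw [e1, ← map_map_tens, D.nat, e2]

theorem bd_cross_ee (K : SS) (j : ℕ) (x : N F2 K) :
    N.bd F2 _ (EZ271.cross F2 (ee j 0) x) = EZ271.cross F2 (ee j 0) (N.bd F2 K x) +
      low (N.map F2 (gK K)) (fun j => EZ271.cross F2 (ee j 0) x) j := by
  rw [EZ271.bd_cross, sg_F2, LinearMap.id_apply, add_comm]
  congr 1
  rcases j with _ | j
  · rw [bd_ee_zero, map_zero, LinearMap.zero_apply, low]
  · have h1 : ee j (0 + 1) = N.map F2 gE.g (ee j 0) := (g_ee j 0).symm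
    rw [bd_ee_succ, map_add, LinearMap.add_apply, low, h1, gK, EZ271.map_cross, EZ271.map_idHom]
    exact add_comm _ _

theorem map_low {M M' : Type*} [AddCommGroup M] [Module F2 M] [AddCommGroup M'] [Module F2 M']
    (f : M →ₗ[F2] M') (t : M →ₗ[F2] M) (t' : M' →ₗ[F2] M') (h : ∀ x, f (t x) = t' (f x))
    (v : ℕ → M) (i : ℕ) : f (low t v i) = low t' (fun i => f (v i)) i := by
  rcases i with _ | i
  · simp [low]
  · simp [low, h]

theorem psi_d (K : SS) (i j : ℕ) (x : N F2 K) : d4 (N.bd F2 K) (psi D K i j x) =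
    psi D K i j (N.bd F2 K x) + (low (t1 (N F2 K)) (fun i => psi D K i j x) i +
      low (t2 (N F2 K)) (fun j => psi D K i j x) j) := by
  have e1 : d4 (N.bd F2 K) (psi D K i j x) = TensorProduct.map (th D K) (th D K)
      (CT.dT (N.bd F2 _) (N.bd F2 _) (D.Phi ((EG (ZMod 2)).prod K) i
        (EZ271.cross F2 (ee j 0) x))) := by
    rw [psi_apply]
    refine CT.tens_ext (f := d4 (N.bd F2 K) ∘ₗ TensorProduct.map (th D K) (th D K))
      (g := TensorProduct.map (th D K) (th D K) ∘ₗ CT.dT (N.bd F2 _) (N.bd F2 _))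
      (fun a b => ?_) _
    simp only [LinearMap.comp_apply, TensorProduct.map_tmul, d4, CT.dT_tmul, map_add, th_bd]
  have hlow2 : D.Phi ((EG (ZMod 2)).prod K) i
      (low (N.map F2 (gK K)) (fun j => EZ271.cross F2 (ee j 0) x) j) =
      low (TensorProduct.map (N.map F2 (gK K)) (N.map F2 (gK K)))
        (fun j => D.Phi ((EG (ZMod 2)).prod K) i (EZ271.cross F2 (ee j 0) x)) j :=
    map_low _ _ _ (fun z => (D.nat (gK K) i z).symm) _ j
  have h3 : TensorProduct.map (th D K) (th D K)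
      (low (TensorProduct.comm F2 _ _).toLinearMap
        (fun i => D.Phi ((EG (ZMod 2)).prod K) i (EZ271.cross F2 (ee j 0) x)) i) =
      low (t1 (N F2 K)) (fun i => psi D K i j x) i :=
    map_low _ _ _ (fun z => (comm_map _ _).symm) _ i
  have h4 : TensorProduct.map (th D K) (th D K)
      (low (TensorProduct.map (N.map F2 (gK K)) (N.map F2 (gK K)))
        (fun j => D.Phi ((EG (ZMod 2)).prod K) i (EZ271.cross F2 (ee j 0) x)) j) =
      low (t2 (N F2 K)) (fun j => psi D K i j x) j := by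
    refine map_low (M := N F2 ((EG (ZMod 2)).prod K) ⊗[F2] N F2 ((EG (ZMod 2)).prod K))
      (M' := T4 (N F2 K)) _ _ (t2 (N F2 K)) (fun z => ?_) _ j
    rw [map_map_tens, t2, map_map_tens]
    have : th D K ∘ₗ N.map F2 (gK K) =
        (TensorProduct.comm F2 (N F2 K) (N F2 K)).toLinearMap ∘ₗ th D K :=
      LinearMap.ext fun z => th_g D K z
    rw [this]
  rw [e1, D.d, bd_cross_ee, map_add, map_add, map_add, hlow2, h3, h4, add_assoc]
  exact congrArg _ (add_comm _ _)

theorem psi_aug (K : SS) (i j : ℕ) (x : N F2 K) :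
    aug4 (EZ271.aug F2) (psi D K i j x) = if i = 0 ∧ j = 0 then EZ271.aug F2 x else 0 := by
  have e1 : aug4 (EZ271.aug F2) (psi D K i j x) = CT.augT (EZ271.aug F2) (EZ271.aug F2)
      (D.Phi ((EG (ZMod 2)).prod K) i (EZ271.cross F2 (ee j 0) x)) := by
    rw [psi_apply]
    refine CT.tens_ext (f := aug4 (EZ271.aug F2) ∘ₗ TensorProduct.map (th D K) (th D K))
      (g := CT.augT (EZ271.aug F2) (EZ271.aug F2)) (fun a b => ?_) _
    simp only [LinearMap.comp_apply, TensorProduct.map_tmul, aug4, CT.augT_tmul, th_aug]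
  rw [e1]
  rcases i with _ | i
  · rw [D.aug_zero, EZ271.aug_cross]
    rcases j with _ | j
    · rw [aug_ee_zero, one_mul, if_pos ⟨rfl, rfl⟩]
    · rw [aug_ee_succ, zero_mul, if_neg (by simp)]
  · rw [D.aug_succ, if_neg (by simp)]

/-! ## the two families -/

/-- the target -/
noncomputable abbrev C4 : CT := CT.tensor (CT.tensor CT.std CT.std) (CT.tensor CT.std CT.std)

/-- outer swap -/
noncomputable def inv1 : Inv C4 where
  t n := t1 (N F2 (SS.std n))
  t_t n x := t1_t1 x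
  map_t f x := map4_t1 (N.map F2 (EZ271.stdMap f)) x
  d_t n x := d4_t1 (N.bd F2 (SS.std n)) x
  aug_t n x := aug4_t1 (EZ271.aug F2) x

/-- inner swaps -/
noncomputable def inv2 : Inv C4 where
  t n := t2 (N F2 (SS.std n))
  t_t n x := t2_t2 x
  map_t f x := map4_t2 (N.map F2 (EZ271.stdMap f)) x
  d_t n x := d4_t2 (N.bd F2 (SS.std n)) x
  aug_t n x := aug4_t2 (EZ271.aug F2) x

/-- the cells of `Z/2 × Z/2` -/
noncomputable def X4 : Cells C4 (ℕ × ℕ) := cellsV inv1 inv2 (fun _ x => t1_t2 x)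

/-- the family `ψ` -/
noncomputable def fam1 : NFam C4 X4 where
  Θ p n := psi D (SS.std n) p.1 p.2
  nat p _ _ f z := psi_nat D (EZ271.stdMap f) p.1 p.2 z
  eq p n z := psi_d D (SS.std n) p.1 p.2 z

theorem sig_psi_d (K : SS) (i j : ℕ) (x : N F2 K) : d4 (N.bd F2 K) (sig _ (psi D K j i x)) =
    sig _ (psi D K j i (N.bd F2 K x)) + (low (t1 (N F2 K)) (fun i => sig _ (psi D K j i x)) i +
      low (t2 (N F2 K)) (fun j => sig _ (psi D K j i x)) j) := by
  rw [d4_sig, psi_d, map_add, map_add, map_low (sig _) (t1 _) (t2 _) sig_t1,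
      map_low (sig _) (t2 _) (t1 _) sig_t2]
  exact congrArg _ (add_comm _ _)

/-- the family `σ ψ^T` -/
noncomputable def fam2 : NFam C4 X4 where
  Θ p n := sig (N F2 (SS.std n)) ∘ₗ psi D (SS.std n) p.2 p.1
  nat p _ _ f z := by
    change map4 (N.map F2 (EZ271.stdMap f)) (sig _ (psi D _ p.2 p.1 z)) = _
    rw [map4_sig, psi_nat]; rfl
  eq p n z := sig_psi_d D (SS.std n) p.1 p.2 z

theorem r_act_aux {K : SS} (u : N F2 K →ₗ[F2] F2) {m n : ℕ} (α : Op m n) (x : K.S n)
    (y : T4 (N F2 (SS.std m))) : aug4 (u ∘ₗ N.map F2 (K.yo (K.act α x))) y =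
      aug4 (u ∘ₗ N.map F2 (K.yo x)) (map4 (N.map F2 (EZ271.stdMap α)) y) := by
  rw [aug4_map4, EZ271.yo_act]
  congr 2
  refine LinearMap.ext fun z => ?_
  simp only [LinearMap.comp_apply, EZ271.map_map]

theorem r_d_aux {K : SS} (u : N F2 K →ₗ[F2] F2) (hu : ∀ x, u (N.bd F2 K x) = 0) {n : ℕ}
    (x : K.S n) (y : T4 (N F2 (SS.std n))) :
    aug4 (u ∘ₗ N.map F2 (K.yo x)) (d4 (N.bd F2 (SS.std n)) y) = 0 := by
  refine aug4_d4 _ (N.bd F2 _) (fun z => ?_) y
  rw [LinearMap.comp_apply, EZ271.map_bd', hu]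

theorem r_L_aux {K : SS} (u : N F2 K →ₗ[F2] F2) {n : ℕ} (x : K.S n)
    (h : ℕ × ℕ → T4 (N F2 (SS.std n))) (i j : ℕ) :
    aug4 (u ∘ₗ N.map F2 (K.yo x)) (low (t1 _) (fun i => h (i, j)) i +
      low (t2 _) (fun j => h (i, j)) j) = 0 := by
  have h1 : ∀ (k i : ℕ), aug4 (u ∘ₗ N.map F2 (K.yo x)) (low (t1 _) (fun i => h (i, k)) i) = 0 := by
    intro k i
    rcases i with _ | i
    · simp [low]
    · rw [low, map_add, aug4_t1, add_self]
  have h2 : ∀ (k j : ℕ), aug4 (u ∘ₗ N.map F2 (K.yo x)) (low (t2 _) (fun j => h (k, j)) j) = 0 := by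
    intro k j
    rcases j with _ | j
    · simp [low]
    · rw [low, map_add, aug4_t2, add_self]
  rw [map_add, h1, h2, add_zero]

/-- the realisation by a cocycle `u` -/
noncomputable def real4 {K : SS} (u : N F2 K →ₗ[F2] F2) (hu : ∀ x, u (N.bd F2 K x) = 0) :
    Real C4 K F2 where
  d := 0
  r x := aug4 (u ∘ₗ N.map F2 (K.yo x))
  r_act α x y := r_act_aux u α x y
  r_d x y := r_d_aux u hu x y

theorem aug4_psi_sx {K : SS} (u : N F2 K →ₗ[F2] F2) (i j : ℕ) {n : ℕ} (x : K.S n) :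
    aug4 u (psi D K i j (N.sx F2 x)) = aug4 (u ∘ₗ N.map F2 (K.yo x))
      (psi D (SS.std n) i j (N.sx F2 (K := SS.std n) (OrderHom.id : Op n n))) := by
  rw [← aug4_map4, psi_nat, N.map_sx, EZ271.yo_iota]

/-- THE SYMMETRY -/
theorem aug4_psi_symm {K : SS} (u : N F2 K →ₗ[F2] F2) (hu : ∀ x, u (N.bd F2 K x) = 0)
    (i j : ℕ) (x : N F2 K) (hx : N.bd F2 K x = 0) :
    aug4 u (psi D K i j x) = aug4 u (psi D K j i x) := by
  have key := (real4 u hu).uniq_lam (fam1 D).fam (fam2 D).fam (fun p n => by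
      change aug4 (EZ271.aug F2) (psi D _ p.1 p.2 _) =
        aug4 (EZ271.aug F2) (sig _ (psi D _ p.2 p.1 _))
      rw [aug4_sig, psi_aug, psi_aug]
      simp only [and_comm])
    (fun p n x h => r_L_aux u x h p.1 p.2) rfl (i, j) x hx
  have e1 : (real4 u hu).out ((fam1 D).fam.v (i, j)) ((fam1 D).fam.dgn (i, j)) =
      aug4 u ∘ₗ psi D K i j := by
    refine EZ271.hom_ext fun n x => ?_
    rw [Real.out_sx, LinearMap.comp_apply, aug4_psi_sx]
    rfl
  have e2 : (real4 u hu).out ((fam2 D).fam.v (i, j)) ((fam2 D).fam.dgn (i, j)) =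
      aug4 u ∘ₗ psi D K j i := by
    refine EZ271.hom_ext fun n x => ?_
    rw [Real.out_sx, LinearMap.comp_apply, aug4_psi_sx]
    exact aug4_sig _ _
  rw [e1, e2] at key
  exact key

end Crest.Agent.R204.Adem596
end

-- ▼ part R204/BM_596
section

set_option autoImplicit false

/-!
# Row 204, leaf A-ADEM-1: Bullett--Macdonald symmetry implies the Adem relations

`P(s) = ∑ s^i Sq^i`; the symmetry identity is `P(s²+st) P(t²) = P(t²+st) P(s²)`.  Everything is
reduced to scalars (`ZMod 2`) with linear functionals.  The key tool is the residue functional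
`F ↦ coeff_a (F (1+X)^{-(a+1)})`.
-/

namespace Crest.Agent.R204.BM596

open PowerSeries Finset

/-- the power series ring over `F_2`. -/
abbrev PS := PowerSeries (ZMod 2)


/-- `(1+X)^{-(d+1)}`. -/
noncomputable def G (d : ℕ) : PS := PowerSeries.mk fun n => ((d + n).choose d : ZMod 2)








lemma coeff_one_add_X_pow (n k : ℕ) : coeff k ((1 + X : PS) ^ n) = (n.choose k : ZMod 2) := by
  have h : ((1 + X : PS) ^ n) = (((1 + Polynomial.X : Polynomial (ZMod 2)) ^ n : Polynomial (ZMod 2)) : PS) := by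
    simp
  rw [h, Polynomial.coeff_coe, Polynomial.coeff_one_add_X_pow]



/-- The geometric (instability) normalisation: in cohomological degree `n`, total degree `N`,
`∑_{i+j=N} (1+X)^{n-i} X^{n+2i-N} μ(j,i) = ∑ X^{n-i}(1+X)^{n-i} μ(j,i)` implies the
Bullett--Macdonald identity. -/
theorem bm_of_geom (μ : ℕ → ℕ → ZMod 2) (n N : ℕ)
    (hz : ∀ i j, i + j = N → μ j i ≠ 0 → i ≤ n ∧ j ≤ n + i)
    (H : ∑ p ∈ antidiagonal N, C (μ p.1 p.2) * ((1 + X : PS) ^ (n - p.2) * X ^ (n + 2 * p.2 - N)) =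
      ∑ p ∈ antidiagonal N, C (μ p.1 p.2) * (X + X ^ 2 : PS) ^ (n - p.2)) :
    ∑ p ∈ antidiagonal N, C (μ p.1 p.2) * ((1 + X : PS) ^ p.1 * X ^ (2 * p.2)) =
      ∑ p ∈ antidiagonal N, C (μ p.1 p.2) * (X + X ^ 2 : PS) ^ p.1 := by
  have hx : (X + X ^ 2 : PS) = X * (1 + X) := by ring
  have hne : (X * (1 + X) : PS) ^ n ≠ 0 := by
    apply pow_ne_zero
    apply mul_ne_zero X_ne_zero
    intro h
    have := congrArg (coeff 0) h
    simp at this
  apply mul_right_cancel₀ hne
  have key : ∀ F F' : PS, F = F' → F * (X * (1 + X)) ^ N = F' * (X * (1 + X)) ^ N := by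
    intro F F' h; rw [h]
  have K := key _ _ H
  rw [Finset.sum_mul, Finset.sum_mul] at K ⊢
  have L : ∀ p ∈ antidiagonal N, C (μ p.1 p.2) * ((1 + X : PS) ^ p.1 * X ^ (2 * p.2)) * (X * (1 + X)) ^ n
      = C (μ p.1 p.2) * ((1 + X : PS) ^ (n - p.2) * X ^ (n + 2 * p.2 - N)) * (X * (1 + X)) ^ N := by
    rintro ⟨j, i⟩ hp
    rw [HasAntidiagonal.mem_antidiagonal] at hp
    simp only at hp ⊢
    by_cases h0 : μ j i = 0
    · rw [h0]; simp
    obtain ⟨h1, h2⟩ := hz i j (by omega) h0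
    have e1 : (1 + X : PS) ^ j * X ^ (2 * i) * (X * (1 + X)) ^ n = (1 + X) ^ (j + n) * X ^ (2 * i + n) := by
      rw [mul_pow, pow_add, pow_add]; ring
    have e2 : (1 + X : PS) ^ (n - i) * X ^ (n + 2 * i - N) * (X * (1 + X)) ^ N
        = (1 + X) ^ (n - i + N) * X ^ (n + 2 * i - N + N) := by
      rw [mul_pow, pow_add, pow_add]; ring
    rw [mul_assoc, mul_assoc (C (μ j i)), e1, e2]
    have e3 : j + n = n - i + N := by omega
    have e4 : 2 * i + n = n + 2 * i - N + N := by omega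
    rw [e3, e4]
  have R : ∀ p ∈ antidiagonal N, C (μ p.1 p.2) * (X + X ^ 2 : PS) ^ p.1 * (X * (1 + X)) ^ n
      = C (μ p.1 p.2) * (X + X ^ 2 : PS) ^ (n - p.2) * (X * (1 + X)) ^ N := by
    rintro ⟨j, i⟩ hp
    rw [HasAntidiagonal.mem_antidiagonal] at hp
    simp only at hp ⊢
    by_cases h0 : μ j i = 0
    · rw [h0]; simp
    obtain ⟨h1, h2⟩ := hz i j (by omega) h0
    rw [hx, mul_assoc, mul_assoc (C (μ j i)), ← pow_add, ← pow_add]
    have e3 : j + n = n - i + N := by omega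
    rw [e3]
  rw [Finset.sum_congr rfl L, Finset.sum_congr rfl R]
  exact K

/-- Coefficient form of the geometric identity (this is what the symmetry `s ↔ t` of
`S_t S_s u` says: the coefficient of `s^k t^l` with `k + l = 3 n - N`). -/
theorem series_of_symm (μ : ℕ → ℕ → ZMod 2) (n N : ℕ)
    (hz : ∀ i j, i + j = N → μ j i ≠ 0 → i ≤ n ∧ j ≤ n + i)
    (H : ∀ k l : ℕ, k + l + N = 3 * n →
      ∑ i ∈ range (n + 1), (if n ≤ k + i ∧ i ≤ N then
          ((n - i).choose (k + i - n) : ZMod 2) * μ (N - i) i else 0) =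
      ∑ i ∈ range (n + 1), (if n ≤ l + i ∧ i ≤ N then
          ((n - i).choose (l + i - n) : ZMod 2) * μ (N - i) i else 0)) :
    ∑ p ∈ antidiagonal N, C (μ p.1 p.2) * ((1 + X : PS) ^ p.1 * X ^ (2 * p.2)) =
      ∑ p ∈ antidiagonal N, C (μ p.1 p.2) * (X + X ^ 2 : PS) ^ p.1 := by
  apply bm_of_geom μ n N hz
  ext k
  have hx : (X + X ^ 2 : PS) = X * (1 + X) := by ring
  simp only [map_sum, ← PowerSeries.smul_eq_C_mul, map_smul, smul_eq_mul]
  -- rewrite both sides as sums over i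
  have hsum : ∀ f : ℕ → ℕ → ZMod 2, (∀ j i, i + j = N → μ j i = 0 → f j i = 0) →
      ∑ p ∈ antidiagonal N, f p.1 p.2 = ∑ i ∈ range (n + 1), (if i ≤ N then f (N - i) i else 0) := by
    intro f hf
    have e1 : ∑ p ∈ antidiagonal N, f p.1 p.2 = ∑ i ∈ range (N + 1), f (N - i) i := by
      rw [← Finset.Nat.sum_antidiagonal_swap]
      rw [Finset.Nat.sum_antidiagonal_eq_sum_range_succ_mk]
      rfl
    rw [e1]
    have e2 : ∑ i ∈ range (N + 1), f (N - i) i = ∑ i ∈ range (N + 1) ∩ range (n + 1), f (N - i) i := by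
      symm
      apply Finset.sum_subset (Finset.inter_subset_left)
      intro i hi hni
      rw [mem_inter, not_and] at hni
      have hni' := hni hi
      rw [mem_range] at hi hni'
      apply hf _ _ (by omega)
      by_contra h0
      have := (hz i (N - i) (by omega) h0).1
      omega
    rw [e2]
    rw [Finset.sum_ite, Finset.sum_const_zero, add_zero]
    apply Finset.sum_congr _ (fun _ _ => rfl)
    ext i
    simp only [mem_inter, mem_range, mem_filter]
    constructor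
    · rintro ⟨h1, h2⟩; exact ⟨h2, by omega⟩
    · rintro ⟨h1, h2⟩; exact ⟨by omega, h1⟩
  rw [hsum (fun j i => μ j i * coeff k ((1 + X : PS) ^ (n - i) * X ^ (n + 2 * i - N)))
      (fun j i _ h => by simp [h]),
    hsum (fun j i => μ j i * coeff k ((X + X ^ 2 : PS) ^ (n - i))) (fun j i _ h => by simp [h])]
  have cR : ∀ i ∈ range (n + 1), (if i ≤ N then μ (N - i) i * coeff k ((X + X ^ 2 : PS) ^ (n - i)) else 0)
      = (if n ≤ k + i ∧ i ≤ N then ((n - i).choose (k + i - n) : ZMod 2) * μ (N - i) i else 0) := by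
    intro i hi
    rw [mem_range] at hi
    by_cases h1 : i ≤ N
    · rw [if_pos h1, hx, mul_pow, coeff_X_pow_mul']
      by_cases h2 : n ≤ k + i
      · rw [if_pos (by omega), if_pos ⟨h2, h1⟩, coeff_one_add_X_pow, mul_comm]
        congr 3; omega
      · rw [if_neg (by omega), if_neg (by tauto), mul_zero]
    · rw [if_neg h1, if_neg (by tauto)]
  rw [Finset.sum_congr rfl cR]
  have cL : ∀ i ∈ range (n + 1), (if i ≤ N then μ (N - i) i *
        coeff k ((1 + X : PS) ^ (n - i) * X ^ (n + 2 * i - N)) else 0)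
      = (if n + 2 * i ≤ k + N ∧ i ≤ N then ((n - i).choose (k + N - n - 2 * i) : ZMod 2) * μ (N - i) i else 0) := by
    intro i hi
    rw [mem_range] at hi
    by_cases h1 : i ≤ N
    · rw [if_pos h1]
      by_cases h0 : μ (N - i) i = 0
      · simp [h0]
      obtain ⟨h3, h4⟩ := hz i (N - i) (by omega) h0
      rw [mul_comm ((1 + X : PS) ^ (n - i)), coeff_X_pow_mul']
      by_cases h2 : n + 2 * i ≤ k + N
      · rw [if_pos (by omega), if_pos ⟨h2, h1⟩, coeff_one_add_X_pow, mul_comm]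
        congr 3; omega
      · rw [if_neg (by omega), if_neg (by tauto), mul_zero]
    · rw [if_neg h1, if_neg (by tauto)]
  rw [Finset.sum_congr rfl cL]
  by_cases hk : k + N ≤ 3 * n
  · have := H k (3 * n - N - k) (by omega)
    rw [this]
    refine Finset.sum_congr rfl fun i hi => ?_
    rw [mem_range] at hi
    by_cases h1 : i ≤ N
    · by_cases h2 : n + 2 * i ≤ k + N
      · rw [if_pos ⟨h2, h1⟩]
        by_cases h3 : n ≤ 3 * n - N - k + i
        · rw [if_pos ⟨h3, h1⟩]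
          congr 2
          have hs : k + N - n - 2 * i = (n - i) - (3 * n - N - k + i - n) := by omega
          rw [hs, Nat.choose_symm (by omega)]
        · rw [if_neg (by tauto)]
          rw [Nat.choose_eq_zero_of_lt (by omega)]
          simp
      · rw [if_neg (by tauto)]
        by_cases h3 : n ≤ 3 * n - N - k + i
        · rw [if_pos ⟨h3, h1⟩, Nat.choose_eq_zero_of_lt (by omega)]
          simp
        · rw [if_neg (by tauto)]
    · rw [if_neg (by tauto), if_neg (by tauto)]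
  · -- both sides vanish
    rw [Finset.sum_eq_zero, Finset.sum_eq_zero]
    · intro i hi
      rw [mem_range] at hi
      by_cases h : n ≤ k + i ∧ i ≤ N
      · rw [if_pos h]
        by_cases h0 : μ (N - i) i = 0
        · simp [h0]
        obtain ⟨h3, h4⟩ := hz i (N - i) (by omega) h0
        rw [Nat.choose_eq_zero_of_lt (by omega)]
        simp
      · rw [if_neg h]
    · intro i hi
      rw [mem_range] at hi
      by_cases h : n + 2 * i ≤ k + N ∧ i ≤ N
      · rw [if_pos h]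
        rw [Nat.choose_eq_zero_of_lt (by omega)]
        simp
      · rw [if_neg h]



/-- The coefficient `φ_N(i) = ∑_{a ≤ N} C(a, i-a) m(a, N-a)` of helper85's Bullett--Macdonald
form. -/
def phi {M : Type*} [AddCommGroup M] [Module (ZMod 2) M] (m : ℕ → ℕ → M) (N i : ℕ) : M :=
  ∑ a ∈ range (N + 1), if a ≤ i then ((a.choose (i - a) : ℕ) : ZMod 2) • m a (N - a) else 0

/-- Power series form of Bullett--Macdonald implies the coefficient form (scalars). -/
theorem phi_symm_of_series (μ : ℕ → ℕ → ZMod 2) (N : ℕ)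
    (H : ∑ p ∈ antidiagonal N, C (μ p.1 p.2) * ((1 + X : PS) ^ p.1 * X ^ (2 * p.2)) =
      ∑ p ∈ antidiagonal N, C (μ p.1 p.2) * (X + X ^ 2 : PS) ^ p.1) {i : ℕ} (hi : i ≤ 2 * N) :
    phi μ N i = phi μ N (2 * N - i) := by
  have hx : (X + X ^ 2 : PS) = X * (1 + X) := by ring
  have H2 := congrArg (coeff i) H
  simp only [map_sum, ← PowerSeries.smul_eq_C_mul, map_smul, smul_eq_mul] at H2
  rw [Finset.Nat.sum_antidiagonal_eq_sum_range_succ_mk,
    Finset.Nat.sum_antidiagonal_eq_sum_range_succ_mk] at H2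
  unfold phi
  simp only [smul_eq_mul]
  have hR : ∀ a ∈ range N.succ, μ a (N - a) * coeff i ((X + X ^ 2 : PS) ^ a) =
      if a ≤ i then ((a.choose (i - a) : ℕ) : ZMod 2) * μ a (N - a) else 0 := by
    intro a ha
    rw [hx, mul_pow, coeff_X_pow_mul']
    split_ifs with h
    · rw [coeff_one_add_X_pow, mul_comm]
    · rw [mul_zero]
  have hL : ∀ a ∈ range N.succ, μ a (N - a) * coeff i ((1 + X : PS) ^ a * X ^ (2 * (N - a))) =
      if a ≤ 2 * N - i then ((a.choose (2 * N - i - a) : ℕ) : ZMod 2) * μ a (N - a) else 0 := by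
    intro a ha
    rw [mem_range] at ha
    rw [mul_comm ((1 + X : PS) ^ a), coeff_X_pow_mul']
    by_cases h : 2 * (N - a) ≤ i
    · rw [if_pos h, coeff_one_add_X_pow, mul_comm]
      by_cases h2 : a ≤ 2 * N - i
      · rw [if_pos h2]
        have e : i - 2 * (N - a) = a - (2 * N - i - a) := by omega
        rw [e, Nat.choose_symm (by omega)]
      · rw [if_neg h2, Nat.choose_eq_zero_of_lt (by omega)]
        simp
    · rw [if_neg h, mul_zero]
      split_ifs with h2
      · rw [Nat.choose_eq_zero_of_lt (by omega)]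
        simp
      · rfl
  rw [Finset.sum_congr rfl hR, Finset.sum_congr rfl hL] at H2
  exact H2.symm


/-- scalar form, from the geometric symmetry. -/
theorem phi_symm_scalar (μ : ℕ → ℕ → ZMod 2) (n N : ℕ)
    (hz : ∀ i j, i + j = N → μ j i ≠ 0 → i ≤ n ∧ j ≤ n + i)
    (H : ∀ k l : ℕ, k + l + N = 3 * n →
      ∑ i ∈ range (n + 1), (if n ≤ k + i ∧ i ≤ N then
          ((n - i).choose (k + i - n) : ZMod 2) * μ (N - i) i else 0) =
      ∑ i ∈ range (n + 1), (if n ≤ l + i ∧ i ≤ N then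
          ((n - i).choose (l + i - n) : ZMod 2) * μ (N - i) i else 0))
    {i : ℕ} (hi : i ≤ 2 * N) : phi μ N i = phi μ N (2 * N - i) :=
  phi_symm_of_series μ N (series_of_symm μ n N hz H) hi

theorem phi_map {M M' : Type*} [AddCommGroup M] [Module (ZMod 2) M] [AddCommGroup M']
    [Module (ZMod 2) M'] (f : M →ₗ[ZMod 2] M') (m : ℕ → ℕ → M) (N i : ℕ) :
    f (phi m N i) = phi (fun a b => f (m a b)) N i := by
  unfold phi
  rw [map_sum]
  refine Finset.sum_congr rfl fun a _ => ?_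
  split_ifs
  · rw [map_smul]
  · rw [map_zero]

/-- **A5.4b**, vector form: the symmetry of the iterated total square (coefficients of `s^k t^l`)
implies the Bullett--Macdonald identity in helper85's coefficient form. -/
theorem phi_symm_of_geom {M : Type*} [AddCommGroup M] [Module (ZMod 2) M] (m : ℕ → ℕ → M)
    (n N : ℕ) (hz : ∀ i j, i + j = N → m j i ≠ 0 → i ≤ n ∧ j ≤ n + i)
    (H : ∀ k l : ℕ, k + l + N = 3 * n →
      ∑ i ∈ range (n + 1), (if n ≤ k + i ∧ i ≤ N then
          (((n - i).choose (k + i - n) : ℕ) : ZMod 2) • m (N - i) i else 0) =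
      ∑ i ∈ range (n + 1), (if n ≤ l + i ∧ i ≤ N then
          (((n - i).choose (l + i - n) : ℕ) : ZMod 2) • m (N - i) i else 0))
    {i : ℕ} (hi : i ≤ 2 * N) : phi m N i = phi m N (2 * N - i) := by
  rw [← sub_eq_zero]
  refine (Module.forall_dual_apply_eq_zero_iff (ZMod 2) _).1 fun f => ?_
  rw [map_sub, phi_map, phi_map, sub_eq_zero]
  refine phi_symm_scalar (fun a b => f (m a b)) n N ?_ ?_ hi
  · intro i j hij h
    refine hz i j hij fun h0 => h ?_
    simp only [h0, map_zero]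
  · intro k l hkl
    have h := congrArg f (H k l hkl)
    rw [map_sum, map_sum] at h
    simpa only [apply_ite f, map_smul, smul_eq_mul, map_zero] using h



end Crest.Agent.R204.BM596
end

-- ▼ part R204/CoBM_596

set_option autoImplicit false

/-!
# Row 204, leaf S3 / P6: the dual Bullett--Macdonald identity for `Sq252.Sq K` on `H F2 K`

Input: external Cartan formula for `BZ × K` and `Sq_b a_i = C(i-b,b) a_{i-b}`.
-/

noncomputable section

namespace Crest.Agent.R204.Adem596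

open Finsupp TensorProduct
open Crest.Agent.R204.AM596
open Crest.Agent.R204.DK742 (gE alt AltSS Invo proj orb proj_surj orbDesc orbDesc_proj)
open Crest.Agent.R204.SS (EG EGmap)
open Crest.Agent.R204.Sq252 (uH uH_mk Hd_ext uu Rk uH_Rk Sq)

/-! ## the instance of `PhiData` -/

theorem aug_eq (K : SS) : Phi252.aug K = EZ271.aug F2 := by
  refine EZ271.hom_ext fun n x => ?_
  rcases n with _ | n
  · rw [Phi252.aug_zero, EZ271.aug_sx_zero]
  · rw [Phi252.aug_succ, EZ271.aug_sx_succ]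

theorem augT_eq_uu {M : Type*} [AddCommGroup M] [Module F2 M] (u : M →ₗ[F2] F2) (z : M ⊗[F2] M) :
    CT.augT u u z = uu u z :=
  CT.tens_ext (f := CT.augT u u) (g := uu u) (fun a b => by simp) z

theorem aa_eq (K : SS) (z : N F2 K ⊗[F2] N F2 K) :
    CT.augT (EZ271.aug F2) (EZ271.aug F2) z = Phi252.aa K z :=
  CT.tens_ext (f := CT.augT (EZ271.aug F2) (EZ271.aug F2)) (g := Phi252.aa K) (fun a b => by
    rw [CT.augT_tmul, Phi252.aa_tmul, aug_eq]) z

/-- helper252's equivariant diagonal -/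
def DD : PhiData where
  Phi := Phi252.Phi
  nat f i x := Phi252.nm_Phi f i x
  d_zero K x := Phi252.dd_Phi_zero x
  d_succ K i x := Phi252.dd_Phi_succ i x
  aug_zero K x := by rw [aa_eq, Phi252.aa_Phi_zero, aug_eq]
  aug_succ K i x := by rw [aa_eq, Phi252.aa_Phi_succ]

variable {K : SS}

/-! ## the invariant cocycle on `E × K` and its descent to `BZ × K` -/

/-- `w = (u ⊗ u) θ` -/
def ww (u : N F2 K →ₗ[F2] F2) : N F2 ((EG (ZMod 2)).prod K) →ₗ[F2] F2 :=
  CT.augT u u ∘ₗ th DD K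

theorem augT_dT {A : Type*} [AddCommGroup A] [Module F2 A] (u : A →ₗ[F2] F2) (d : A →ₗ[F2] A)
    (h : ∀ x, u (d x) = 0) (z : A ⊗[F2] A) : CT.augT u u (CT.dT d d z) = 0 :=
  CT.tens_ext (f := CT.augT u u ∘ₗ CT.dT d d) (g := 0) (fun a b => by simp [h]) z

theorem ww_bd (u : N F2 K →ₗ[F2] F2) (hu : ∀ x, u (N.bd F2 K x) = 0)
    (z : N F2 ((EG (ZMod 2)).prod K)) : ww u (N.bd F2 _ z) = 0 := by
  rw [ww, LinearMap.comp_apply, ← th_bd, augT_dT u _ hu]

theorem ww_g (u : N F2 K →ₗ[F2] F2) (z : N F2 ((EG (ZMod 2)).prod K)) :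
    ww u (N.map F2 (gK K) z) = ww u z := by
  rw [ww, LinearMap.comp_apply, LinearMap.comp_apply, th_g, augT_comm]

theorem ww_cross (u : N F2 K →ₗ[F2] F2) (b : ℕ) (x : N F2 K) :
    ww u (EZ271.cross F2 (ee b 0) x) = uu u (Phi252.Phi K b x) := by
  rw [ww, LinearMap.comp_apply, th_cross, kap_ee, augT_tw, augT_eq_uu]; rfl

/-- the involution of `E × K` -/
def tauK (K : SS) : Invo ((EG (ZMod 2)).prod K) := gE.prod (Invo.triv K)

/-- `BZ × K → (E × K)/τ` -/
def qK (K : SS) : SS.Hom (BZ498.BZ.prod K) (orb ((EG (ZMod 2)).prod K) (tauK K)) :=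
  ⟨fun n y => Quotient.lift (s := gE.rel n) (fun e => (proj (tauK K)).app n (e, y.2)) (by
      rintro x y' (rfl | rfl)
      · rfl
      · exact (DK742.proj_g (tauK K) n (x, y.2)).symm) y.1,
   fun {m n} f y => by
    obtain ⟨y, k⟩ := y
    obtain ⟨e, rfl⟩ := proj_surj gE n y
    exact (proj (tauK K)).nat f (e, k)⟩

/-- `E × K → BZ × K` -/
def pK (K : SS) : SS.Hom ((EG (ZMod 2)).prod K) (BZ498.BZ.prod K) :=
  SS.prodMap (proj gE) (SS.Hom.id K)

theorem qK_pK (K : SS) : (qK K).comp (pK K) = proj (tauK K) := rfl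

theorem pK_surj (K : SS) : Function.Surjective (N.map F2 (pK K)) := by
  rw [← LinearMap.range_eq_top, eq_top_iff, ← DK742.N_sx_span, Submodule.span_le]
  rintro _ ⟨⟨n, y, k⟩, rfl⟩
  obtain ⟨e, rfl⟩ := proj_surj gE n y
  exact ⟨N.sx F2 (K := (EG (ZMod 2)).prod K) (e, k), N.map_sx _ _⟩

/-- the cocycle on `BZ × K` -/
def wb (u : N F2 K →ₗ[F2] F2) : N F2 (BZ498.BZ.prod K) →ₗ[F2] F2 :=
  orbDesc F2 (tauK K) (ww u) (ww_g u) ∘ₗ N.map F2 (qK K)

theorem wb_pK (u : N F2 K →ₗ[F2] F2) (z : N F2 ((EG (ZMod 2)).prod K)) :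
    wb u (N.map F2 (pK K) z) = ww u z := by
  rw [wb, LinearMap.comp_apply, EZ271.map_map, qK_pK, orbDesc_proj]

theorem wb_bd (u : N F2 K →ₗ[F2] F2) (hu : ∀ x, u (N.bd F2 K x) = 0)
    (y : N F2 (BZ498.BZ.prod K)) : wb u (N.bd F2 _ y) = 0 := by
  obtain ⟨z, rfl⟩ := pK_surj K y
  rw [← EZ271.map_bd', wb_pK, ww_bd u hu]

theorem pK_cross (b : ℕ) (x : N F2 K) : N.map F2 (pK K) (EZ271.cross F2 (ee b 0) x) =
    EZ271.cross F2 (N.sx F2 (BZ498.c b)) x := by
  rw [pK, EZ271.map_cross, EZ271.map_idHom, ee, N.map_sx]; rfl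

theorem wb_cross (u : N F2 K →ₗ[F2] F2) (b : ℕ) (x : N F2 K) :
    wb u (EZ271.cross F2 (N.sx F2 (BZ498.c b)) x) = uu u (Phi252.Phi K b x) := by
  rw [← pK_cross, wb_pK, ww_cross]

/-! ## evaluation -/

theorem aug4_psi_eval (u : N F2 K →ₗ[F2] F2) (i j : ℕ) (x : N F2 K) :
    aug4 u (psi DD K i j x) =
      uu (wb u) (Phi252.Phi (BZ498.BZ.prod K) i (EZ271.cross F2 (N.sx F2 (BZ498.c j)) x)) := by
  have e1 : aug4 u (psi DD K i j x) = CT.augT (ww u) (ww u)
      (DD.Phi ((EG (ZMod 2)).prod K) i (EZ271.cross F2 (ee j 0) x)) := by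
    rw [psi_apply]
    refine CT.tens_ext (f := aug4 u ∘ₗ TensorProduct.map (th DD K) (th DD K))
      (g := CT.augT (ww u) (ww u)) (fun a b => ?_) _
    simp only [LinearMap.comp_apply, TensorProduct.map_tmul, aug4, CT.augT_tmul, ww]
  rw [e1, ← pK_cross]
  have e2 : Phi252.Phi (BZ498.BZ.prod K) i (N.map F2 (pK K) (EZ271.cross F2 (ee j 0) x)) =
      TensorProduct.map (N.map F2 (pK K)) (N.map F2 (pK K))
        (DD.Phi ((EG (ZMod 2)).prod K) i (EZ271.cross F2 (ee j 0) x)) :=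
    (DD.nat (pK K) i _).symm
  rw [e2]
  refine CT.tens_ext (f := CT.augT (ww u) (ww u))
    (g := uu (wb u) ∘ₗ TensorProduct.map (N.map F2 (pK K)) (N.map F2 (pK K))) (fun a b => ?_) _
  rw [CT.augT_tmul, LinearMap.comp_apply, TensorProduct.map_tmul, Sq252.uu_tmul, wb_pK, wb_pK]

/-- Eilenberg-Zilber data of the team -/
abbrev Ez : Coalg847.EZData := EZ847.ezd

/-- `<w, a_b × y> = <u, R_b y>` -/
theorem uH_wb_cr (u : N F2 K →ₗ[F2] F2) (hu : ∀ x, u (N.bd F2 K x) = 0) (b : ℕ) (y : H F2 K) :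
    uH _ (wb u) (wb_bd u hu) (Ez.cr _ _ (BZ498.aZ b ⊗ₜ y)) = uH _ u hu (Rk K b y) := by
  obtain ⟨z, hz, rfl⟩ := Hd.mk_surj _ y
  rw [BZ498.aZ, Coalg847.EZData.cr_mk, uH_mk, uH_Rk]
  exact wb_cross u b z

/-- `F(i,j) = <w, R_i (a_j × x)>` -/
theorem aug4_psi_Rk (u : N F2 K →ₗ[F2] F2) (hu : ∀ x, u (N.bd F2 K x) = 0) (i j : ℕ) (z : N F2 K)
    (hz : N.bd F2 K z = 0) : aug4 u (psi DD K i j z) =
      uH _ (wb u) (wb_bd u hu) (Rk _ i (Ez.cr _ _ (BZ498.aZ j ⊗ₜ Hd.mk _ z hz))) := by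
  rw [BZ498.aZ, Coalg847.EZData.cr_mk, uH_Rk, aug4_psi_eval]
  rfl

/-- the symmetric identity before the Cartan formula -/
theorem Rk_symm (u : N F2 K →ₗ[F2] F2) (hu : ∀ x, u (N.bd F2 K x) = 0) (i j : ℕ) (x : H F2 K) :
    uH _ (wb u) (wb_bd u hu) (Rk _ i (Ez.cr _ _ (BZ498.aZ j ⊗ₜ x))) =
      uH _ (wb u) (wb_bd u hu) (Rk _ j (Ez.cr _ _ (BZ498.aZ i ⊗ₜ x))) := by
  obtain ⟨z, hz, rfl⟩ := Hd.mk_surj _ x
  exact ((aug4_psi_Rk u hu i j z hz).symm.trans (aug4_psi_symm DD u hu i j z hz)).trans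
    (aug4_psi_Rk u hu j i z hz)

/-! ## the Cartan formula and the combinatorics -/

/-- external Cartan formula with left factor `BZ` -/
def Cartan (K : SS) : Prop := ∀ (a : ℕ) (x : H F2 BZ498.BZ) (y : H F2 K),
  Sq (BZ498.BZ.prod K) a (Ez.cr BZ498.BZ K (x ⊗ₜ y)) =
    ∑ p ∈ Finset.HasAntidiagonal.antidiagonal a, Ez.cr BZ498.BZ K (Sq BZ498.BZ p.1 x ⊗ₜ Sq K p.2 y)

/-- squares in `H(B Z/2)` -/
def SqB : Prop := ∀ i b : ℕ, Sq BZ498.BZ b (BZ498.aZ i) =
    if 2 * b ≤ i then (Nat.choose (i - b) b : F2) • BZ498.aZ (i - b) else 0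

theorem uH_sum {M : Type*} [AddCommGroup M] [Module F2 M] {d : M →ₗ[F2] M} (u : M →ₗ[F2] F2)
    (hu : ∀ x, u (d x) = 0) {ι : Type*} (s : Finset ι) (f : ι → Hd d) :
    uH d u hu (∑ i ∈ s, f i) = ∑ i ∈ s, uH d u hu (f i) := map_sum _ _ _

theorem eval_Sq (hC : Cartan K) (hB : SqB) (u : N F2 K →ₗ[F2] F2)
    (hu : ∀ x, u (N.bd F2 K x) = 0) {k l q N : ℕ} (h : k + l + N = 3 * q) {x : H F2 K}
    (hx : x ∈ H.gr F2 K (N + q)) :
    uH _ (wb u) (wb_bd u hu) (Rk _ l (Ez.cr _ _ (BZ498.aZ k ⊗ₜ x))) =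
      ∑ a ∈ Finset.range (q + 1), (if q ≤ k + a ∧ a ≤ N then
        (((q - a).choose (k + a - q) : ℕ) : F2) • uH _ u hu (Sq K a (Sq K (N - a) x)) else 0) := by
  have hg : Ez.cr _ _ (BZ498.aZ k ⊗ₜ x) ∈ H.gr F2 (BZ498.BZ.prod K) (k + (N + q)) :=
    Coalg847.EZData.cr_mem_gr Ez (BZ498.aZ_mem_gr k) hx
  by_cases hD : k + (N + q) < l
  · rw [Sq252.Rk_eq_zero_of_lt hD hg, map_zero]
    symm
    refine Finset.sum_eq_zero fun a _ => ?_
    rw [if_neg (by omega)]
  · obtain ⟨m, hm⟩ : ∃ m, N + k = q + m := ⟨N + k - q, by omega⟩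
    rw [Sq252.Rk_eq_Sq (l := m) hg (by omega), hC, uH_sum,
      Finset.Nat.sum_antidiagonal_eq_sum_range_succ_mk]
    have e1 : ∀ s ∈ Finset.range m.succ, uH _ (wb u) (wb_bd u hu)
        (Ez.cr BZ498.BZ K (Sq BZ498.BZ (s, m - s).1 (BZ498.aZ k) ⊗ₜ Sq K (s, m - s).2 x)) =
        (((k - s).choose s : ℕ) : F2) • uH _ u hu (Rk K (k - s) (Sq K (m - s) x)) := by
      intro s _
      rw [hB]
      by_cases h2 : 2 * s ≤ k
      · rw [if_pos h2, ← TensorProduct.smul_tmul', map_smul, map_smul, uH_wb_cr]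
      · rw [if_neg h2, TensorProduct.zero_tmul, map_zero, map_zero,
          Nat.choose_eq_zero_of_lt (by omega)]
        simp
    rw [Finset.sum_congr rfl e1]
    have e2 : ∑ s ∈ Finset.range m.succ,
        (((k - s).choose s : ℕ) : F2) • uH _ u hu (Rk K (k - s) (Sq K (m - s) x)) =
        ∑ s ∈ (Finset.range m.succ).filter (fun s => k ≤ q + s ∧ s ≤ k),
        (((k - s).choose s : ℕ) : F2) • uH _ u hu (Rk K (k - s) (Sq K (m - s) x)) := by
      symm
      refine Finset.sum_filter_of_ne fun s hs hne => ?_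
      rw [Finset.mem_range] at hs
      by_contra hcon
      apply hne
      by_cases h3 : s ≤ k
      · have h4 : q + s < k := by omega
        have h5 : Rk K (k - s) (Sq K (m - s) x) = 0 := by
          by_cases h6 : N + q < 2 * (m - s)
          · rw [Sq252.Sq_unst hx h6, map_zero]
          · refine Sq252.Rk_eq_zero_of_lt ?_ (Sq252.Sq_mem_gr hx)
            omega
        rw [h5, map_zero, smul_zero]
      · rw [Nat.choose_eq_zero_of_lt (by omega)]
        simp
    rw [e2, ← Finset.sum_filter]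
    refine Finset.sum_nbij' (fun s => s + q - k) (fun a => a + k - q) ?_ ?_ ?_ ?_ ?_
    · intro s hs
      simp only [Finset.mem_filter, Finset.mem_range] at hs ⊢
      omega
    · intro a ha
      simp only [Finset.mem_filter, Finset.mem_range] at ha ⊢
      omega
    · intro s hs
      simp only [Finset.mem_filter, Finset.mem_range] at hs
      omega
    · intro a ha
      simp only [Finset.mem_filter, Finset.mem_range] at ha
      omega
    · intro s hs
      simp only [Finset.mem_filter, Finset.mem_range] at hs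
      have h1 : q - (s + q - k) = k - s := by omega
      have h2 : k + (s + q - k) - q = s := by omega
      have h3 : N - (s + q - k) = m - s := by omega
      rw [h1, h2, h3]
      congr 2
      by_cases h6 : N + q < 2 * (m - s)
      · rw [Sq252.Sq_unst hx h6, map_zero, map_zero]
      · exact Sq252.Rk_eq_Sq (Sq252.Sq_mem_gr hx) (by omega)

/-- the symmetric identity in `H F2 K` -/
theorem geom (hC : Cartan K) (hB : SqB) {k l q N : ℕ} (h : k + l + N = 3 * q) {x : H F2 K}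
    (hx : x ∈ H.gr F2 K (N + q)) :
      ∑ a ∈ Finset.range (q + 1), (if q ≤ k + a ∧ a ≤ N then
        (((q - a).choose (k + a - q) : ℕ) : F2) • Sq K a (Sq K (N - a) x) else 0) =
      ∑ a ∈ Finset.range (q + 1), (if q ≤ l + a ∧ a ≤ N then
        (((q - a).choose (l + a - q) : ℕ) : F2) • Sq K a (Sq K (N - a) x) else 0) := by
  refine Hd_ext (Sq252.bdd K) fun u hu => ?_
  rw [uH_sum, uH_sum]
  have e : ∀ (j : ℕ) (a : ℕ), uH _ u hu (if q ≤ j + a ∧ a ≤ N then
        (((q - a).choose (j + a - q) : ℕ) : F2) • Sq K a (Sq K (N - a) x) else 0) =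
      if q ≤ j + a ∧ a ≤ N then
        (((q - a).choose (j + a - q) : ℕ) : F2) • uH _ u hu (Sq K a (Sq K (N - a) x)) else 0 := by
    intro j a
    split_ifs
    · rw [map_smul]
    · rw [map_zero]
  rw [Finset.sum_congr rfl fun a _ => e k a, Finset.sum_congr rfl fun a _ => e l a,
    ← eval_Sq hC hB u hu h hx, ← eval_Sq hC hB u hu (k := l) (l := k) (by omega) hx]
  exact Rk_symm u hu l k x

theorem Sq_Sq_eq_zero {a b n : ℕ} {x : H F2 K} (hx : x ∈ H.gr F2 K n) (h : ¬ (2 * b ≤ n ∧ 2 * a + b ≤ n)) :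
    Sq K a (Sq K b x) = 0 := by
  by_cases h1 : n < 2 * b
  · rw [Sq252.Sq_unst hx h1, map_zero]
  · exact Sq252.Sq_unst (Sq252.Sq_mem_gr hx) (by omega)

/-- THE DUAL BULLETT--MACDONALD IDENTITY -/
theorem coBM (hC : Cartan K) (hB : SqB) : Spine693.CoBM (fun a => Sq K a) := by
  intro N i hi
  refine LinearMap.ext fun x => ?_
  refine Gr334.H_induction (p := fun x =>
    (∑ a ∈ Finset.range (N + 1), Spine693.bmc a i • (Sq K (N - a) ∘ₗ Sq K a)) x =
    (∑ a ∈ Finset.range (N + 1), Spine693.bmc a (2 * N - i) • (Sq K (N - a) ∘ₗ Sq K a)) x) x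
    (by rw [map_zero, map_zero]) (fun a b ha hb => by rw [map_add, map_add, ha, hb]) fun n x hx => ?_
  have e : ∀ j : ℕ, (∑ a ∈ Finset.range (N + 1), Spine693.bmc a j • (Sq K (N - a) ∘ₗ Sq K a)) x =
      BM596.phi (fun a b => Sq K b (Sq K a x)) N j := by
    intro j
    rw [LinearMap.sum_apply, BM596.phi]
    refine Finset.sum_congr rfl fun a _ => ?_
    rw [LinearMap.smul_apply, LinearMap.comp_apply, Spine693.bmc]
    split_ifs
    · rfl
    · rw [zero_smul]
  rw [e, e]
  by_cases hN : N ≤ n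
  · obtain ⟨q, rfl⟩ : ∃ q, n = N + q := ⟨n - N, by omega⟩
    refine BM596.phi_symm_of_geom _ q N ?_ (fun k l hkl => geom hC hB hkl hx) hi
    intro i j hij hne
    by_contra hcon
    exact hne (Sq_Sq_eq_zero hx (by omega))
  · have z : ∀ j : ℕ, BM596.phi (fun a b => Sq K b (Sq K a x)) N j = 0 := by
      intro j
      rw [BM596.phi]
      refine Finset.sum_eq_zero fun a ha => ?_
      rw [Finset.mem_range] at ha
      rw [Sq_Sq_eq_zero hx (by omega)]
      simp
    rw [z, z]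

end Crest.Agent.R204.Adem596
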