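import Crest.Agent.R204.Thr_328
import Crest.Agent.R204.EZCross_271

/-!
# Row 204, block G: finite correspondences (multivalued simplicial maps) and transfers of products

* `Corr L K` : to each simplex of `L` a finite set of simplices of `K`, operators act bijectively;
  `ch`, `nm`, `h` : the induced maps on chains, normalised chains, homology (any `R`).
* `Corr.prod`, `Corr.nm_cross` : correspondences commute with the cross product.
* `sb U w v`, `sbV` : subsets with `v` elements; `h_sbV` : equals `H.map small ∘ htr big` of `Fs_348`.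
* `(2a)` : transfer of a disjoint union.
-/

set_option autoImplicit false

namespace Crest.Agent.R204.Corr328

open Finsupp Crest.Agent.R204 Fs348 Thr328 SS Tr348

/-- A finite correspondence: to each simplex `y` of `L` a finite set of simplices of `K`, on which
the operators act bijectively. -/
structure Corr (L K : SS) where
  F : ∀ {n : ℕ}, L.S n → Finset (K.S n)
  bij : ∀ {m n : ℕ} (f : Op m n) (y : L.S n),
    Set.BijOn (K.act f) (F y : Set (K.S n)) (F (L.act f y) : Set (K.S m))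

namespace Corr

variable (R : Type) [CommRing R] {L K L' K' : SS} (c : Corr L K)

/-- sums over the values are natural -/
theorem sum_act {M : Type*} [AddCommMonoid M] {m n : ℕ} (f : Op m n) (y : L.S n)
    (g : K.S m → M) : ∑ x ∈ c.F y, g (K.act f x) = ∑ x ∈ c.F (L.act f y), g x := by
  have hb := c.bij f y
  refine Finset.sum_bij (fun x _ => K.act f x) ?_ ?_ ?_ ?_
  · intro x hx; exact hb.1 hx
  · intro a ha b hb' h; exact hb.2.1 ha hb' h
  · intro b hb'
    obtain ⟨a, ha, h⟩ := hb.2.2 hb'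
    exact ⟨a, ha, h⟩
  · intro a _; rfl

/-- the induced map on normalised chains -/
noncomputable def nm : N R L →ₗ[R] N R K :=
  EZ271.liftN (fun _ y => ∑ x ∈ c.F y, N.sx R x) (fun n j y => by
    rw [← c.sum_act (Op.dgn j) y (fun x => N.sx R x)]
    exact Finset.sum_eq_zero fun x _ => N.sx_dgn j x)

@[simp] theorem nm_sx {n : ℕ} (y : L.S n) : c.nm R (N.sx R y) = ∑ x ∈ c.F y, N.sx R x := by
  simp [nm]

theorem nm_bd' (z : N R L) : c.nm R (N.bd R L z) = N.bd R K (c.nm R z) := by
  have : c.nm R ∘ₗ N.bd R L = N.bd R K ∘ₗ c.nm R := by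
    refine EZ271.hom_ext fun n y => ?_
    simp only [LinearMap.comp_apply, nm_sx, map_sum]
    rcases n with _ | n
    · simp [EZ271.bd_sx_zero]
    · simp only [EZ271.bd_sx_succ, map_sum, map_smul, nm_sx]
      rw [Finset.sum_comm]
      refine Finset.sum_congr rfl fun i _ => ?_
      rw [← Finset.smul_sum, c.sum_act (Op.face i) y (fun x => N.sx R x)]
  exact LinearMap.congr_fun this z

theorem nm_bd : c.nm R ∘ₗ N.bd R L = N.bd R K ∘ₗ c.nm R :=
  LinearMap.ext fun z => c.nm_bd' R z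

/-- the induced map in homology -/
noncomputable def h : H R L →ₗ[R] H R K := Hd.map (c.nm R) (c.nm_bd R)

theorem h_mk (x : N R L) (hx : N.bd R L x = 0) :
    c.h R (Hd.mk _ x hx) = Hd.mk _ (c.nm R x) (by rw [← c.nm_bd' R, hx, map_zero]) := rfl

theorem nm_mem_gr {n : ℕ} {z : N R L} (hz : z ∈ N.gr R L n) : c.nm R z ∈ N.gr R K n := by
  obtain ⟨z, hz, rfl⟩ := hz
  refine Submodule.span_induction
    (p := fun z _ => c.nm R (Submodule.mkQ (Ch.Dg R L) z) ∈ N.gr R K n) ?_ ?_ ?_ ?_ hz
  · rintro _ ⟨y, rfl⟩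
    have : c.nm R (N.sx R y) ∈ N.gr R K n := by
      rw [nm_sx]
      exact Submodule.sum_mem _ fun x _ => ⟨_, Submodule.subset_span ⟨x, rfl⟩, rfl⟩
    exact this
  · simp
  · intro a b _ _ ha hb; rw [map_add, map_add]; exact Submodule.add_mem _ ha hb
  · intro r a _ ha; rw [map_smul, map_smul]; exact Submodule.smul_mem _ _ ha

theorem h_mem_gr {n : ℕ} {x : H R L} (hx : x ∈ H.gr R L n) : c.h R x ∈ H.gr R K n := by
  obtain ⟨⟨z, hz⟩, hz', rfl⟩ := hx
  exact ⟨⟨c.nm R z, by
    rw [LinearMap.mem_ker] at hz ⊢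
    rw [← c.nm_bd' R, hz, map_zero]⟩, c.nm_mem_gr R hz', rfl⟩

/-- the correspondence of a simplicial map -/
noncomputable def ofHom (f : Hom L K) : Corr L K where
  F y := {f.app _ y}
  bij g y := by
    rw [Finset.coe_singleton, Finset.coe_singleton, f.nat]
    simp




/-- precomposition with a simplicial map -/
def pre (c : Corr L K) (f : Hom L' L) : Corr L' K where
  F y := c.F (f.app _ y)
  bij g y := by
    have := c.bij g (f.app _ y)
    rw [← f.nat] at this
    exact this

theorem nm_pre (f : Hom L' L) (z : N R L') : (c.pre f).nm R z = c.nm R (N.map R f z) := by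
  have : (c.pre f).nm R = c.nm R ∘ₗ N.map R f := by
    refine EZ271.hom_ext fun n y => ?_
    rw [LinearMap.comp_apply, N.map_sx, nm_sx, nm_sx]
    rfl
  exact LinearMap.congr_fun this z

/-- product of correspondences -/
noncomputable def prod (c : Corr L K) (c' : Corr L' K') : Corr (L.prod L') (K.prod K') where
  F y := c.F y.1 ×ˢ c'.F y.2
  bij f y := by
    have h1 := c.bij f y.1
    have h2 := c'.bij f y.2
    refine ⟨?_, ?_, ?_⟩
    · rintro ⟨a, b⟩ h
      have h := Finset.mem_product.1 h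
      exact Finset.mem_product.2 ⟨h1.1 h.1, h2.1 h.2⟩
    · rintro ⟨a, b⟩ h ⟨a', b'⟩ h' e
      have h := Finset.mem_product.1 h
      have h' := Finset.mem_product.1 h'
      exact Prod.ext (h1.2.1 h.1 h'.1 (congrArg Prod.fst e)) (h2.2.1 h.2 h'.2 (congrArg Prod.snd e))
    · rintro ⟨a, b⟩ h
      have h := Finset.mem_product.1 h
      obtain ⟨a, ha, rfl⟩ := h1.2.2 h.1
      obtain ⟨b, hb, rfl⟩ := h2.2.2 h.2
      exact ⟨(a, b), Finset.mem_product.2 ⟨ha, hb⟩, rfl⟩


/-- correspondences commute with the cross product -/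
theorem nm_cross (c : Corr L K) (c' : Corr L' K') (a : N R L) (b : N R L') :
    (c.prod c').nm R (EZ271.cross R a b) = EZ271.cross R (c.nm R a) (c'.nm R b) := by
  have : (EZ271.cross R (K := L) (L := L')).compr₂ ((c.prod c').nm R) =
      ((EZ271.cross R).comp (c.nm R)).compl₂ (c'.nm R) := by
    refine EZ271.bilin_ext R fun p x q y => ?_
    simp only [LinearMap.compr₂_apply, LinearMap.compl₂_apply, LinearMap.comp_apply]
    rw [nm_sx, nm_sx]
    simp only [map_sum, LinearMap.sum_apply]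
    rw [EZ271.cross_sx]
    simp only [EZ271.cross_sx]
    have key : (c.prod c').nm R ∘ₗ N.map R (prodMap (L.yo x) (L'.yo y)) =
        ∑ y' ∈ c'.F y, ∑ x' ∈ c.F x, N.map R (prodMap (K.yo x') (K'.yo y')) := by
      refine EZ271.hom_ext fun n w => ?_
      rw [LinearMap.comp_apply, N.map_sx, nm_sx, LinearMap.sum_apply]
      simp only [LinearMap.sum_apply, N.map_sx]
      change ∑ x_1 ∈ c.F (L.act w.1 x) ×ˢ c'.F (L'.act w.2 y), N.sx R (K := K.prod K') x_1 = _
      rw [Finset.sum_product_right]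
      rw [← c'.sum_act w.2 y (fun x_1 => ∑ x_2 ∈ c.F (L.act w.1 x), N.sx R (K := K.prod K')
        (x_2, x_1))]
      refine Finset.sum_congr rfl fun y' _ => ?_
      exact (c.sum_act w.1 x (fun x_2 => N.sx R (K := K.prod K') (x_2, K'.act w.2 y'))).symm
    have h := LinearMap.congr_fun key (EZ271.E R p q)
    simp only [LinearMap.comp_apply, LinearMap.sum_apply] at h
    exact h
  exact LinearMap.congr_fun₂ this a b

end Corr

/-! ## subsets with `v` elements -/

section sub

variable {U W : Type}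

/-- `v`-element subsets of a set of threads, as simplices of `Fs U v` -/
noncomputable def subF (v : ℕ) {n : ℕ} (A : Finset (Fin (n + 1) → U)) (hA : CI A) :
    Finset ((Fs U v).S n) :=
  letI := Classical.decEq ((Fs U v).S n)
  (A.powersetCard v).attach.image (fun T =>
    (⟨T.1, hA.mono (Finset.mem_powersetCard.1 T.2).1, (Finset.mem_powersetCard.1 T.2).2⟩ :
      (Fs U v).S n))

@[simp] theorem mem_subF {v n : ℕ} {A : Finset (Fin (n + 1) → U)} {hA : CI A}
    {T : (Fs U v).S n} : T ∈ subF v A hA ↔ T.1 ⊆ A := by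
  classical
  simp only [subF, Finset.mem_image, Finset.mem_attach, true_and, Subtype.exists,
    Finset.mem_powersetCard]
  constructor
  · rintro ⟨T, hT, rfl⟩; exact hT.1
  · intro h; exact ⟨T.1, ⟨h, T.2.2⟩, rfl⟩

theorem subF_bij {v m n : ℕ} (f : Op m n) (A : Finset (Fin (n + 1) → U)) (hA : CI A)
    (hA' : CI (re f A)) :
    Set.BijOn ((Fs U v).act f) (subF v A hA : Set ((Fs U v).S n))
      (subF v (re f A) hA' : Set ((Fs U v).S m)) := by
  refine ⟨?_, ?_, ?_⟩
  · intro T hT
    rw [Finset.mem_coe, mem_subF] at hT ⊢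
    exact re_mono f hT
  · intro T hT T' hT' h
    rw [Finset.mem_coe, mem_subF] at hT hT'
    exact Subtype.ext (hA.re_inj f hT hT' (congrArg Subtype.val h))
  · intro T hT
    rw [Finset.mem_coe, mem_subF] at hT
    obtain ⟨S, hS, hS'⟩ := exists_sub_re f hT
    refine ⟨⟨S, hA.mono hS, ?_⟩, ?_, Subtype.ext hS'⟩
    · rw [← (hA.mono hS).card_re f, hS']; exact T.2.2
    · rw [Finset.mem_coe, mem_subF]; exact hS

/-- subsets with `v` elements, from the total space -/
noncomputable def sb (U : Type) (v : ℕ) : Corr (Tot U) (Fs U v) where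
  F A := subF v A.1 A.2
  bij f A := subF_bij f A.1 A.2 (A.2.re f)

/-- subsets with `v` elements, from the sets with `w` elements -/
noncomputable def sbV (U : Type) (w v : ℕ) : Corr (Fs U w) (Fs U v) := (sb U v).pre (inc U w)

@[simp] theorem mem_sb {v n : ℕ} {A : (Tot U).S n} {T : (Fs U v).S n} :
    T ∈ (sb U v).F A ↔ T.1 ⊆ A.1 := mem_subF (hA := A.2)

@[simp] theorem mem_sbV {w v n : ℕ} {A : (Fs U w).S n} {T : (Fs U v).S n} :
    T ∈ (sbV U w v).F A ↔ T.1 ⊆ A.1 := mem_subF (hA := A.2.1)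

/-- the transfer `τ_v : H(Fs U w) → H(Fs U v)` -/
noncomputable def tau (R : Type) [CommRing R] (U : Type) (w v : ℕ) :
    H R (Fs U w) →ₗ[R] H R (Fs U v) := (sbV U w v).h R



/-- `τ_v = id` on sets with `v` elements -/
theorem nm_sbV_self (R : Type) [CommRing R] (U : Type) (v : ℕ) (z : N R (Fs U v)) :
    (sbV U v v).nm R z = z := by
  have : (sbV U v v).nm R = LinearMap.id := by
    refine EZ271.hom_ext fun n A => ?_
    rw [Corr.nm_sx, LinearMap.id_apply]
    rw [Finset.sum_eq_single A]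
    · intro T hT hTA
      rw [mem_sbV] at hT
      exact absurd (Subtype.ext (Finset.eq_of_subset_of_card_le hT (by rw [A.2.2, T.2.2]))) hTA
    · intro h
      exact absurd (mem_sbV.2 (Finset.Subset.refl _)) h
  exact LinearMap.congr_fun this z

theorem tau_self (R : Type) [CommRing R] (U : Type) (v : ℕ) (x : H R (Fs U v)) :
    tau R U v v x = x := by
  obtain ⟨z, hz, rfl⟩ := Hd.mk_surj _ x
  rw [tau, Corr.h_mk, Hd.mk_eq_mk]
  exact ⟨0, by rw [map_zero, nm_sbV_self, sub_self]⟩



/-- the transfer is natural in injections of the universe -/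
theorem nm_sb_mapU (R : Type) [CommRing R] (f : U ↪ W) (v : ℕ) (z : N R (Tot U)) :
    (sb W v).nm R (N.map R (mapU f) z) = N.map R (map v f) ((sb U v).nm R z) := by
  have : (sb W v).nm R ∘ₗ N.map R (mapU f) = N.map R (map v f) ∘ₗ (sb U v).nm R := by
    refine EZ271.hom_ext fun n A => ?_
    rw [LinearMap.comp_apply, LinearMap.comp_apply, N.map_sx, Corr.nm_sx, Corr.nm_sx, map_sum]
    simp only [N.map_sx]
    symm
    refine Finset.sum_bij (fun T _ => (map v f).app n T) ?_ ?_ ?_ ?_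
    · intro T hT
      rw [mem_sb] at hT ⊢
      exact img_mono hT
    · intro T hT T' hT' h
      refine Subtype.ext ?_
      have h' : pu f T.1 = pu f T'.1 := congrArg Subtype.val h
      have key : ∀ {S S' : Finset (Fin (n + 1) → U)}, pu f S = pu f S' → S ⊆ S' := by
        intro S S' e a ha
        have : f ∘ a ∈ pu f S' := e ▸ mem_pu.2 ⟨a, ha, rfl⟩
        obtain ⟨b, hb, hab⟩ := mem_pu.1 this
        rwa [← f.injective.comp_left hab]
      exact Finset.Subset.antisymm (key h') (key h'.symm)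
    · intro T hT
      rw [mem_sb] at hT
      classical
      have hT' : T.1 ⊆ pu f A.1 := hT
      set S : Finset (Fin (n + 1) → U) := A.1.filter (fun a => f ∘ a ∈ T.1) with hS
      have e : pu f S = T.1 := by
        ext g
        rw [mem_pu]
        constructor
        · rintro ⟨a, ha, rfl⟩; exact (Finset.mem_filter.1 ha).2
        · intro hg
          obtain ⟨a, ha, rfl⟩ := mem_pu.1 (hT' hg)
          exact ⟨a, Finset.mem_filter.2 ⟨ha, hg⟩, rfl⟩
      refine ⟨⟨S, A.2.mono (Finset.filter_subset _ _), ?_⟩, ?_, Subtype.ext e⟩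
      · rw [← T.2.2, ← e]; exact (card_pu_of_inj f.injective S).symm
      · rw [mem_sb]; exact Finset.filter_subset _ _
    · intro T _; rfl
  exact LinearMap.congr_fun this z

theorem nm_sbV_map (R : Type) [CommRing R] (f : U ↪ W) (w v : ℕ) (z : N R (Fs U w)) :
    (sbV W w v).nm R (N.map R (map w f) z) = N.map R (map v f) ((sbV U w v).nm R z) := by
  rw [sbV, sbV, Corr.nm_pre, Corr.nm_pre, EZ271.map_map, inc_map, ← EZ271.map_map, nm_sb_mapU]

end sub

/-! ## (2a): transfer of a disjoint union -/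

section twoA

variable {U W : Type} (R : Type) [CommRing R]

/-- the part of a set of threads in `U ⊕ W` lying in the left universe -/
noncomputable def lft {n : ℕ} (A : Finset (Fin (n + 1) → U)) (T : Finset (Fin (n + 1) → U ⊕ W)) :
    Finset (Fin (n + 1) → U) :=
  letI := Classical.decPred (fun a : Fin (n + 1) → U => Sum.inl ∘ a ∈ T)
  A.filter (fun a => Sum.inl ∘ a ∈ T)

/-- the part lying in the right universe -/
noncomputable def rgt {n : ℕ} (B : Finset (Fin (n + 1) → W)) (T : Finset (Fin (n + 1) → U ⊕ W)) :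
    Finset (Fin (n + 1) → W) :=
  letI := Classical.decPred (fun a : Fin (n + 1) → W => Sum.inr ∘ a ∈ T)
  B.filter (fun a => Sum.inr ∘ a ∈ T)

theorem mem_lft {n : ℕ} {A : Finset (Fin (n + 1) → U)} {T : Finset (Fin (n + 1) → U ⊕ W)}
    {a : Fin (n + 1) → U} : a ∈ lft A T ↔ a ∈ A ∧ Sum.inl ∘ a ∈ T := by
  classical
  simp [lft]

theorem mem_rgt {n : ℕ} {B : Finset (Fin (n + 1) → W)} {T : Finset (Fin (n + 1) → U ⊕ W)}
    {a : Fin (n + 1) → W} : a ∈ rgt B T ↔ a ∈ B ∧ Sum.inr ∘ a ∈ T := by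
  classical
  simp [rgt]

theorem du_lft_rgt {n : ℕ} {A : Finset (Fin (n + 1) → U)} {B : Finset (Fin (n + 1) → W)}
    {T : Finset (Fin (n + 1) → U ⊕ W)} (h : T ⊆ du A B) : du (lft A T) (rgt B T) = T := by
  ext g
  rw [mem_du]
  constructor
  · rintro (⟨a, ha, rfl⟩ | ⟨a, ha, rfl⟩)
    · exact (mem_lft.1 ha).2
    · exact (mem_rgt.1 ha).2
  · intro hg
    rcases mem_du.1 (h hg) with ⟨a, ha, rfl⟩ | ⟨a, ha, rfl⟩
    · exact Or.inl ⟨a, mem_lft.2 ⟨ha, hg⟩, rfl⟩
    · exact Or.inr ⟨a, mem_rgt.2 ⟨ha, hg⟩, rfl⟩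

theorem lft_du {n : ℕ} {A S : Finset (Fin (n + 1) → U)} {S' : Finset (Fin (n + 1) → W)}
    (h : S ⊆ A) : lft A (du S S') = S := by
  ext a
  rw [mem_lft, mem_du]
  constructor
  · rintro ⟨_, ⟨b, hb, hab⟩ | ⟨b, _, hab⟩⟩
    · rwa [← Sum.inl_injective.comp_left hab]
    · exact absurd (congrFun hab 0) (by simp)
  · intro ha; exact ⟨h ha, Or.inl ⟨a, ha, rfl⟩⟩

theorem rgt_du {n : ℕ} {B S' : Finset (Fin (n + 1) → W)} {S : Finset (Fin (n + 1) → U)}
    (h : S' ⊆ B) : rgt B (du S S') = S' := by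
  ext a
  rw [mem_rgt, mem_du]
  constructor
  · rintro ⟨_, ⟨b, _, hab⟩ | ⟨b, hb, hab⟩⟩
    · exact absurd (congrFun hab 0) (by simp)
    · rwa [← Sum.inr_injective.comp_left hab]
  · intro ha; exact ⟨h ha, Or.inr ⟨a, ha, rfl⟩⟩

theorem du_mono {n : ℕ} {A A' : Finset (Fin (n + 1) → U)} {B B' : Finset (Fin (n + 1) → W)}
    (h : A ⊆ A') (h' : B ⊆ B') : du A B ⊆ du A' B' := by
  intro g hg
  rcases mem_du.1 hg with ⟨a, ha, rfl⟩ | ⟨a, ha, rfl⟩
  · exact mem_du.2 (Or.inl ⟨a, h ha, rfl⟩)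
  · exact mem_du.2 (Or.inr ⟨a, h' ha, rfl⟩)

/-- disjoint union followed by `cst` for `(a, b)` in the antidiagonal of `v` -/
noncomputable def djA (U W : Type) (v : ℕ) (p : {p : ℕ × ℕ // p ∈ Finset.HasAntidiagonal.antidiagonal v}) :
    Hom ((Fs U p.1.1).prod (Fs W p.1.2)) (Fs (U ⊕ W) v) :=
  (cst (U ⊕ W) (Finset.HasAntidiagonal.mem_antidiagonal.1 p.2)).comp (djV U W p.1.1 p.1.2)

@[simp] theorem djA_val {v : ℕ} (p : {p : ℕ × ℕ // p ∈ Finset.HasAntidiagonal.antidiagonal v}) {n : ℕ}
    (x : (Fs U p.1.1).S n × (Fs W p.1.2).S n) : ((djA U W v p).app n x).1 = du x.1.1 x.2.1 := rfl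

/-- **(2a)**, chain level: the transfer of a disjoint union is the sum of the disjoint unions of
the transfers. -/
theorem nm_sb_dj (v : ℕ) (z : N R ((Tot U).prod (Tot W))) :
    (sb (U ⊕ W) v).nm R (N.map R (dj U W) z) =
      ∑ p ∈ (Finset.HasAntidiagonal.antidiagonal v).attach,
        N.map R (djA U W v p) (((sb U p.1.1).prod (sb W p.1.2)).nm R z) := by
  have : (sb (U ⊕ W) v).nm R ∘ₗ N.map R (dj U W) =
      ∑ p ∈ (Finset.HasAntidiagonal.antidiagonal v).attach,
        N.map R (djA U W v p) ∘ₗ ((sb U p.1.1).prod (sb W p.1.2)).nm R := by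
    refine EZ271.hom_ext fun n x => ?_
    obtain ⟨A, B⟩ := x
    rw [LinearMap.comp_apply, N.map_sx, Corr.nm_sx, LinearMap.sum_apply]
    simp only [LinearMap.comp_apply, Corr.nm_sx, map_sum, N.map_sx]
    rw [Finset.sum_sigma']
    symm
    refine Finset.sum_bij (fun q _ => (djA U W v q.1).app n q.2) ?_ ?_ ?_ ?_
    · rintro ⟨p, T, T'⟩ h
      simp only [Finset.mem_sigma, Finset.mem_attach, true_and] at h
      have h' := Finset.mem_product.1 h
      rw [mem_sb]
      exact du_mono (mem_sb.1 h'.1) (mem_sb.1 h'.2)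
    · rintro ⟨p, T, T'⟩ h ⟨q, S, S'⟩ h' e
      simp only [Finset.mem_sigma, Finset.mem_attach, true_and] at h h'
      have h1 := Finset.mem_product.1 h
      have h2 := Finset.mem_product.1 h'
      have e' : du T.1 T'.1 = du S.1 S'.1 := congrArg Subtype.val e
      have e1 : T.1 = S.1 := by
        rw [← lft_du (A := A.1) (S' := T'.1) (mem_sb.1 h1.1),
          ← lft_du (A := A.1) (S' := S'.1) (mem_sb.1 h2.1), e']
      have e2 : T'.1 = S'.1 := by
        rw [← rgt_du (B := B.1) (S := T.1) (mem_sb.1 h1.2),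
          ← rgt_du (B := B.1) (S := S.1) (mem_sb.1 h2.2), e']
      obtain ⟨⟨a, b⟩, hp⟩ := p
      obtain ⟨⟨a', b'⟩, hq⟩ := q
      obtain ⟨T, hT⟩ := T
      obtain ⟨T', hT'⟩ := T'
      obtain ⟨S, hS⟩ := S
      obtain ⟨S', hS'⟩ := S'
      simp only at e1 e2 hT hT' hS hS'
      subst e1 e2
      have ea : a = a' := hT.2.symm.trans hS.2
      have eb : b = b' := hT'.2.symm.trans hS'.2
      subst ea eb
      rfl
    · intro T hT
      rw [mem_sb] at hT
      have hT' : T.1 ⊆ du A.1 B.1 := hT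
      have e := du_lft_rgt hT'
      have hl : lft A.1 T.1 ⊆ A.1 := fun a ha => (mem_lft.1 ha).1
      have hr : rgt B.1 T.1 ⊆ B.1 := fun a ha => (mem_rgt.1 ha).1
      have hc : (lft A.1 T.1).card + (rgt B.1 T.1).card = v := by
        rw [← card_du, e, T.2.2]
      refine ⟨⟨⟨((lft A.1 T.1).card, (rgt B.1 T.1).card), Finset.HasAntidiagonal.mem_antidiagonal.2 hc⟩,
        ⟨lft A.1 T.1, A.2.mono hl, rfl⟩, ⟨rgt B.1 T.1, B.2.mono hr, rfl⟩⟩, ?_, Subtype.ext e⟩
      simp only [Finset.mem_sigma, Finset.mem_attach, true_and]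
      exact Finset.mem_product.2 ⟨mem_sb.2 hl, mem_sb.2 hr⟩
    · intro q _; rfl
  have h := LinearMap.congr_fun this z
  rw [LinearMap.comp_apply, LinearMap.sum_apply] at h
  exact h

/-- **(2a)**, fixed cardinalities. -/
theorem nm_sbV_djV (m n v : ℕ) (z : N R ((Fs U m).prod (Fs W n))) :
    (sbV (U ⊕ W) (m + n) v).nm R (N.map R (djV U W m n) z) =
      ∑ p ∈ (Finset.HasAntidiagonal.antidiagonal v).attach,
        N.map R (djA U W v p) (((sbV U m p.1.1).prod (sbV W n p.1.2)).nm R z) := by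
  have h := nm_sb_dj R v (N.map R (prodMap (inc U m) (inc W n)) z)
  rw [EZ271.map_map, ← inc_djV, ← EZ271.map_map] at h
  rw [sbV, Corr.nm_pre, h]
  refine Finset.sum_congr rfl fun p _ => ?_
  rw [← Corr.nm_pre]
  rfl

end twoA

end Crest.Agent.R204.Corr328
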