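import Crest.Agent.R204.Defs

/-!
# Row 204, leaf B5 (the k = 0 step): infinite cyclic coverings of simplicial sets (owner helper892)
-/

set_option autoImplicit false

namespace Crest.Agent.R204.Cov892

open Crest.Agent.R204 Crest.Agent.R204.SS

/-- An infinite cyclic (regular) covering `Kt → K` of simplicial sets: `gE` generates the free
action of `ℤ` and the fibres of `p` are exactly the orbits. -/
structure ZCov (Kt K : SS) where
  p : SS.Hom Kt K
  gE : ∀ n : ℕ, Equiv.Perm (Kt.S n)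
  gE_nat : ∀ {m n : ℕ} (f : Op m n) (x : Kt.S n), gE m (Kt.act f x) = Kt.act f (gE n x)
  p_gE : ∀ {n : ℕ} (x : Kt.S n), p.app n (gE n x) = p.app n x
  surj : ∀ n : ℕ, Function.Surjective (p.app n)
  orb : ∀ {n : ℕ} (x y : Kt.S n), p.app n x = p.app n y → ∃ k : ℤ, y = (gE n ^ k) x
  free : ∀ {n : ℕ} (x : Kt.S n) (k : ℤ), (gE n ^ k) x = x → k = 0

namespace ZCov

variable {Kt K : SS} (C : ZCov Kt K)

/-- the deck generator as a simplicial map -/
def g : SS.Hom Kt Kt := ⟨fun n x => C.gE n x, fun f x => C.gE_nat f x⟩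

@[simp] theorem g_app (n : ℕ) (x : Kt.S n) : C.g.app n x = C.gE n x := rfl

theorem gE_symm_nat {m n : ℕ} (f : Op m n) (x : Kt.S n) :
    (C.gE m).symm (Kt.act f x) = Kt.act f ((C.gE n).symm x) := by
  rw [Equiv.symm_apply_eq, C.gE_nat, Equiv.apply_symm_apply]

/-- inverse of the deck generator -/
def g' : SS.Hom Kt Kt := ⟨fun n x => (C.gE n).symm x, fun f x => C.gE_symm_nat f x⟩

theorem p_gE_symm {n : ℕ} (x : Kt.S n) : C.p.app n ((C.gE n).symm x) = C.p.app n x := by
  have := C.p_gE ((C.gE n).symm x)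
  rw [Equiv.apply_symm_apply] at this
  exact this.symm

theorem zpow_nat {m n : ℕ} (f : Op m n) (k : ℤ) (x : Kt.S n) :
    (C.gE m ^ k) (Kt.act f x) = Kt.act f ((C.gE n ^ k) x) := by
  induction k using Int.induction_on generalizing x with
  | zero => simp
  | succ i ih => rw [zpow_add_one, zpow_add_one, Equiv.Perm.mul_apply, Equiv.Perm.mul_apply,
      C.gE_nat, ih]
  | pred i ih => rw [zpow_sub_one, zpow_sub_one, Equiv.Perm.mul_apply, Equiv.Perm.mul_apply,
      Equiv.Perm.inv_def, Equiv.Perm.inv_def, C.gE_symm_nat, ih]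

theorem p_zpow {n : ℕ} (k : ℤ) (x : Kt.S n) : C.p.app n ((C.gE n ^ k) x) = C.p.app n x := by
  induction k using Int.induction_on generalizing x with
  | zero => simp
  | succ i ih => rw [zpow_add_one, Equiv.Perm.mul_apply, ih, C.p_gE]
  | pred i ih => rw [zpow_sub_one, Equiv.Perm.mul_apply, ih, Equiv.Perm.inv_def, C.p_gE_symm]

/-- the deck transformation `g ^ k` -/
def gz (k : ℤ) : SS.Hom Kt Kt := ⟨fun n x => (C.gE n ^ k) x, fun f x => C.zpow_nat f k x⟩


theorem zpow_inj {n : ℕ} (x : Kt.S n) {k l : ℤ} (h : (C.gE n ^ k) x = (C.gE n ^ l) x) : k = l := by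
  have : (C.gE n ^ (k - l)) x = x := by
    have h2 : (C.gE n ^ (-l)) ((C.gE n ^ k) x) = (C.gE n ^ (-l)) ((C.gE n ^ l) x) := by rw [h]
    rw [← Equiv.Perm.mul_apply, ← Equiv.Perm.mul_apply, ← zpow_add, ← zpow_add] at h2
    simp only [neg_add_cancel, zpow_zero, Equiv.Perm.coe_one, id] at h2
    rw [show k - l = -l + k by ring]
    exact h2
  have := C.free x _ this
  omega

end ZCov

/-- maps of coverings -/
structure ZCov.Map {Kt K Lt L : SS} (C : ZCov Kt K) (D : ZCov Lt L) where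
  ft : SS.Hom Kt Lt
  f : SS.Hom K L
  comm : ∀ (n : ℕ) (x : Kt.S n), D.p.app n (ft.app n x) = f.app n (C.p.app n x)
  equi : ∀ (n : ℕ) (x : Kt.S n), ft.app n (C.gE n x) = D.gE n (ft.app n x)

end Crest.Agent.R204.Cov892
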