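import Mathlib

-- ▼ part R204/DicksonA_91
section

/-!
# Dickson polynomials (row 204, leaf F3), part A

`A` a commutative `F₂`-algebra, `x : Fin r → A`.
`lin x v = ∑ v_i x_i`,  `dq x = ∏_v (T + lin x v)`, `dQ x j = coeff of T^(2^j)`.
-/

set_option autoImplicit false
set_option linter.unusedSectionVars false

namespace Crest.Agent.R204.Dickson91

open Polynomial

section General

variable {A : Type*} [CommRing A] [CharP A 2] [Algebra (ZMod 2) A]

/-- the linear form `∑ v_i x_i` -/
def lin {r : ℕ} (x : Fin r → A) (v : Fin r → ZMod 2) : A := ∑ i, v i • x i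

/-- the polynomial `∏_{v} (T + lin x v)` -/
noncomputable def dq {r : ℕ} (x : Fin r → A) : A[X] :=
  ∏ v : Fin r → ZMod 2, (X + C (lin x v))

/-- the Dickson coefficient: coefficient of `T^(2^j)` in `dq x` -/
noncomputable def dQ {r : ℕ} (x : Fin r → A) (j : ℕ) : A := (dq x).coeff (2 ^ j)

omit [CharP A 2] in
theorem lin_add {r : ℕ} (x : Fin r → A) (v w : Fin r → ZMod 2) :
    lin x (v + w) = lin x v + lin x w := by
  simp [lin, add_smul, Finset.sum_add_distrib]

omit [CharP A 2] in
theorem lin_zero {r : ℕ} (x : Fin r → A) : lin x 0 = 0 := by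
  simp [lin]

omit [CharP A 2] in
theorem lin_single {r : ℕ} (x : Fin r → A) (i : Fin r) : lin x (Pi.single i 1) = x i := by
  classical
  simp [lin, Pi.single_apply, ite_smul]

omit [CharP A 2] in
theorem lin_cons {r : ℕ} (x : Fin (r + 1) → A) (b : ZMod 2) (v : Fin r → ZMod 2) :
    lin x (Fin.cons b v) = b • x 0 + lin (Fin.tail x) v := by
  simp [lin, Fin.sum_univ_succ, Fin.tail]

omit [CharP A 2] in
theorem dq_succ' {r : ℕ} (x : Fin (r + 1) → A) :
    dq x = dq (Fin.tail x) * (dq (Fin.tail x)).comp (X + C (x 0)) := by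
  classical
  unfold dq
  rw [← (Fin.consEquiv (fun _ : Fin (r + 1) => ZMod 2)).prod_comp, Fintype.prod_prod_type]
  have h2 : (Finset.univ : Finset (ZMod 2)) = {0, 1} := by decide
  rw [h2, Finset.prod_insert (by decide), Finset.prod_singleton]
  congr 1
  · refine Finset.prod_congr rfl fun v _ => ?_
    simp [Fin.consEquiv, lin_cons]
  · rw [Polynomial.prod_comp]
    refine Finset.prod_congr rfl fun v _ => ?_
    simp [Fin.consEquiv, lin_cons]
    ring

/-- additive polynomials with top coefficient `1` -/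
def IsAdd (r : ℕ) (p : A[X]) (c : ℕ → A) : Prop :=
  (∀ j, r < j → c j = 0) ∧ c r = 1 ∧ p = ∑ j ∈ Finset.range (r + 1), C (c j) * X ^ (2 ^ j)

omit [CharP A 2] [Algebra (ZMod 2) A] in
theorem IsAdd.coeff {r : ℕ} {p : A[X]} {c : ℕ → A} (h : IsAdd r p c) (j : ℕ) :
    p.coeff (2 ^ j) = c j := by
  classical
  obtain ⟨h1, h2, h3⟩ := h
  rw [h3, finsetSum_coeff]
  simp only [coeff_C_mul, coeff_X_pow]
  by_cases hj : j ≤ r
  · rw [Finset.sum_eq_single j]
    · simp
    · intro b _ hb
      rw [if_neg, mul_zero]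
      intro h
      exact hb (Nat.pow_right_injective le_rfl h).symm
    · intro h
      exact absurd (Finset.mem_range.mpr (Nat.lt_succ_of_le hj)) h
  · rw [h1 j (not_le.mp hj)]
    apply Finset.sum_eq_zero
    intro b hb
    rw [if_neg, mul_zero]
    intro h
    have := Nat.pow_right_injective le_rfl h
    simp only [Finset.mem_range] at hb
    omega

omit [Algebra (ZMod 2) A] in
theorem IsAdd.comp {r : ℕ} {p : A[X]} {c : ℕ → A} (h : IsAdd r p c) (a : A) :
    p.comp (X + C a) = p + C (p.eval a) := by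
  obtain ⟨h1, h2, h3⟩ := h
  rw [h3]
  rw [← coe_compRingHom_apply, map_sum, eval_finsetSum, map_sum, ← Finset.sum_add_distrib]
  refine Finset.sum_congr rfl fun j _ => ?_
  simp only [coe_compRingHom_apply, mul_comp, C_comp, X_pow_comp, eval_mul, eval_C, eval_pow, eval_X, C_mul, C_pow]
  rw [add_pow_char_pow, mul_add]

/-- the recursion of the coefficients -/
def dstep (c : ℕ → A) (a : A) : ℕ → A
  | 0 => a * c 0
  | (j + 1) => c j ^ 2 + a * c (j + 1)

omit [Algebra (ZMod 2) A] in
theorem IsAdd.step {r : ℕ} {p : A[X]} {c : ℕ → A} (h : IsAdd r p c) (a : A) :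
    IsAdd (r + 1) (p * (p + C a)) (dstep c a) := by
  obtain ⟨h1, h2, h3⟩ := h
  refine ⟨?_, ?_, ?_⟩
  · intro j hj
    obtain ⟨j, rfl⟩ : ∃ i, j = i + 1 := ⟨j - 1, by omega⟩
    simp [dstep, h1 j (by omega), h1 (j + 1) (by omega)]
  · simp [dstep, h2, h1 (r + 1) (by omega)]
  · have e1 : p * (p + C a) = p ^ 2 + C a * p := by ring
    rw [e1]
    have e2 : p ^ 2 = ∑ j ∈ Finset.range (r + 1), C (c j ^ 2) * X ^ (2 ^ (j + 1)) := by
      conv_lhs => rw [h3]
      rw [sum_pow_char]
      refine Finset.sum_congr rfl fun j _ => ?_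
      rw [mul_pow, C_pow, ← pow_mul, pow_succ 2 j]
    have e3 : C a * p = ∑ j ∈ Finset.range (r + 1 + 1),
        C (a * c j) * X ^ (2 ^ j) := by
      rw [Finset.sum_range_succ _ (r + 1), h1 (r + 1) (by omega)]
      conv_lhs => rw [h3]
      rw [Finset.mul_sum]
      simp [mul_assoc]
    rw [e2, e3, Finset.sum_range_succ' _ (r + 1), ← add_assoc, ← Finset.sum_add_distrib,
      Finset.sum_range_succ' _ (r + 1)]
    congr 1
    refine Finset.sum_congr rfl fun j _ => ?_
    simp only [dstep, C_add]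
    ring

theorem isAdd_dq : ∀ {r : ℕ} (x : Fin r → A), ∃ c, IsAdd r (dq x) c := by
  intro r
  induction r with
  | zero =>
    intro x
    refine ⟨fun j => if j = 0 then 1 else 0, ?_, ?_, ?_⟩
    · intro j hj
      simp only [if_neg (by omega : j ≠ 0)]
    · simp
    · simp [dq, lin]
  | succ r ih =>
    intro x
    obtain ⟨c, hc⟩ := ih (Fin.tail x)
    refine ⟨dstep c ((dq (Fin.tail x)).eval (x 0)), ?_⟩
    rw [dq_succ', hc.comp]
    exact hc.step _

theorem dq_isAdd {r : ℕ} (x : Fin r → A) : IsAdd r (dq x) (dQ x) := by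
  obtain ⟨c, hc⟩ := isAdd_dq x
  have : dQ x = c := by
    funext j
    exact hc.coeff j
  rw [this]
  exact hc

theorem dq_eq {r : ℕ} (x : Fin r → A) :
    dq x = ∑ j ∈ Finset.range (r + 1), C (dQ x j) * X ^ (2 ^ j) := (dq_isAdd x).2.2

theorem dQ_top {r : ℕ} (x : Fin r → A) : dQ x r = 1 := (dq_isAdd x).2.1

theorem dQ_gt {r : ℕ} (x : Fin r → A) {j : ℕ} (hj : r < j) : dQ x j = 0 := (dq_isAdd x).1 j hj

theorem dq_step {r : ℕ} (x : Fin (r + 1) → A) : dq x =
    dq (Fin.tail x) * (dq (Fin.tail x) + C ((dq (Fin.tail x)).eval (x 0))) := by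
  rw [dq_succ', (dq_isAdd _).comp]

theorem dQ_rec {r : ℕ} (x : Fin (r + 1) → A) (j : ℕ) : dQ x j =
    dstep (dQ (Fin.tail x)) ((dq (Fin.tail x)).eval (x 0)) j := by
  have h := (dq_isAdd (Fin.tail x)).step ((dq (Fin.tail x)).eval (x 0))
  rw [← dq_step] at h
  exact h.coeff j

theorem dQ_succ_zero {r : ℕ} (x : Fin (r + 1) → A) : dQ x 0 =
      (dq (Fin.tail x)).eval (x 0) * dQ (Fin.tail x) 0 := dQ_rec x 0

theorem dQ_succ_succ {r : ℕ} (x : Fin (r + 1) → A) (j : ℕ) : dQ x (j + 1) =
    dQ (Fin.tail x) j ^ 2 + (dq (Fin.tail x)).eval (x 0) * dQ (Fin.tail x) (j + 1) :=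
  dQ_rec x (j + 1)

/-- value of `dq` -/
theorem dq_eval {r : ℕ} (x : Fin r → A) (a : A) :
    (dq x).eval a = ∑ j ∈ Finset.range (r + 1), dQ x j * a ^ (2 ^ j) := by
  conv_lhs => rw [dq_eq]
  simp [eval_finsetSum]

omit [CharP A 2] in
theorem dq_eval_prod {r : ℕ} (x : Fin r → A) (a : A) :
    (dq x).eval a = ∏ v : Fin r → ZMod 2, (a + lin x v) := by
  simp [dq, eval_prod]

theorem dq_eval_zero {r : ℕ} (x : Fin r → A) : (dq x).eval 0 = 0 := by
  rw [dq_eval]
  simp

theorem dq_eval_add {r : ℕ} (x : Fin r → A) (a b : A) :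
    (dq x).eval (a + b) = (dq x).eval a + (dq x).eval b := by
  simp only [dq_eval]
  rw [← Finset.sum_add_distrib]
  refine Finset.sum_congr rfl fun j _ => ?_
  rw [add_pow_char_pow, mul_add]




/-- `Q_0` is the product of the nonzero linear forms -/
theorem dQ_zero {r : ℕ} (x : Fin r → A) :
    dQ x 0 = ∏ v ∈ Finset.univ.erase (0 : Fin r → ZMod 2), lin x v := by
  classical
  have h : dq x = X * ∏ v ∈ Finset.univ.erase (0 : Fin r → ZMod 2), (X + C (lin x v)) := by
    unfold dq
    rw [← Finset.mul_prod_erase Finset.univ _ (Finset.mem_univ (0 : Fin r → ZMod 2))]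
    rw [lin_zero, C_0, add_zero]
  unfold dQ
  rw [h, pow_zero]
  have h1 : (X * ∏ v ∈ Finset.univ.erase (0 : Fin r → ZMod 2), (X + C (lin x v))).coeff (0 + 1) =
      (∏ v ∈ Finset.univ.erase (0 : Fin r → ZMod 2), (X + C (lin x v))).coeff 0 :=
    coeff_X_mul _ _
  rw [zero_add] at h1
  rw [h1, coeff_zero_eq_eval_zero, eval_prod]
  simp

/-! naturality -/

omit [CharP A 2] in
theorem lin_map {B : Type*} [CommRing B] [Algebra (ZMod 2) B] (φ : A →ₐ[ZMod 2] B)
    {r : ℕ} (x : Fin r → A) (v : Fin r → ZMod 2) :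
    lin (fun i => φ (x i)) v = φ (lin x v) := by
  simp [lin, map_sum]

theorem dq_map {B : Type*} [CommRing B] [Algebra (ZMod 2) B] (φ : A →ₐ[ZMod 2] B)
    {r : ℕ} (x : Fin r → A) :
    dq (fun i => φ (x i)) = (dq x).map (φ : A →+* B) := by
  simp only [dq, Polynomial.map_prod, lin_map]
  simp

theorem dQ_map {B : Type*} [CommRing B] [Algebra (ZMod 2) B] (φ : A →ₐ[ZMod 2] B)
    {r : ℕ} (x : Fin r → A) (j : ℕ) :
    dQ (fun i => φ (x i)) j = φ (dQ x j) := by
  simp only [dQ, dq_map, Polynomial.coeff_map]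
  rfl

end General

end Crest.Agent.R204.Dickson91
private theorem rz_6b7a1f3a5b : type_of% @_root_.Crest.Agent.R204.Dickson91.dstep.eq_1 := @_root_.Crest.Agent.R204.Dickson91.dstep.eq_1 -- L106
end

-- ▼ part R204/DicksonB_91
section

/-!
# Dickson's theorem (row 204, leaf F3), part B
-/

set_option autoImplicit false
set_option linter.unusedSectionVars false

namespace Crest.Agent.R204.Dickson91

open MvPolynomial

/-- the polynomial ring `F₂[x_0..x_{r-1}]` -/
abbrev S (r : ℕ) := MvPolynomial (Fin r) (ZMod 2)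

/-- the Dickson invariant `Q_{r,j}` -/
noncomputable def Q (r j : ℕ) : S r := dQ (X : Fin r → S r) j

/-- the transvection `x_i ↦ x_i + x_j` -/
noncomputable def tv {r : ℕ} (i j : Fin r) : S r →ₐ[ZMod 2] S r :=
  aeval (fun k => if k = i then X i + X j else X k)

/-- invariance under all transvections -/
def Inv {r : ℕ} (f : S r) : Prop := ∀ i j : Fin r, i ≠ j → tv i j f = f

/-- restriction to `x_0 = 0` -/
noncomputable def res (m : ℕ) : S (m + 1) →ₐ[ZMod 2] S m :=
  aeval (Fin.cons 0 (X : Fin m → S m) : Fin (m + 1) → S m)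

@[simp] theorem res_X_zero (m : ℕ) : res m (X 0) = 0 := by simp [res]
@[simp] theorem res_X_succ (m : ℕ) (i : Fin m) : res m (X i.succ) = X i := by simp [res]

theorem tv_X {r : ℕ} (i j k : Fin r) : tv i j (X k) = if k = i then X i + X j else X k := by
  simp [tv]

/-! ### squares -/

theorem exists_sq {σ : Type*} (p : MvPolynomial σ (ZMod 2)) (h : ∀ i, pderiv i p = 0) :
    ∃ g : MvPolynomial σ (ZMod 2), p = g ^ 2 := by
  classical
  have hev : ∀ m, coeff m p ≠ 0 → ∀ i, Even (m i) := by
    intro m hm i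
    by_contra hodd
    rw [Nat.not_even_iff_odd] at hodd
    have hle : Finsupp.single i 1 ≤ m := by
      intro k
      by_cases hk : i = k
      · subst hk
        rw [Finsupp.single_eq_same]
        exact hodd.pos
      · simp [hk]
    have h1 : (m - Finsupp.single i 1) + Finsupp.single i 1 = m := tsub_add_cancel_of_le hle
    have h2 := congrArg (coeff (m - Finsupp.single i 1)) (h i)
    rw [coeff_pderiv, h1, coeff_zero] at h2
    have h3 : (((m - Finsupp.single i 1 : σ →₀ ℕ) i : ℕ) : ZMod 2) + 1 = 1 := by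
      have h4 : ((m - Finsupp.single i 1 : σ →₀ ℕ) i : ℕ) = m i - 1 := by simp
      rw [h4]
      have h5 : Even (m i - 1) := by
        obtain ⟨k, hk⟩ := hodd
        exact ⟨k, by omega⟩
      have h6 : ((m i - 1 : ℕ) : ZMod 2) = 0 := by
        rw [ZMod.natCast_eq_zero_iff]
        exact h5.two_dvd
      rw [h6, zero_add]
    rw [h3, mul_one] at h2
    exact hm h2
  refine ⟨∑ m ∈ p.support, monomial (m.mapRange (fun n => n / 2) (by simp)) 1, ?_⟩
  rw [sum_pow_char]
  conv_lhs => rw [p.as_sum]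
  refine Finset.sum_congr rfl fun m hm => ?_
  have hm' : coeff m p ≠ 0 := by simpa using hm
  have h1 : coeff m p = 1 := by
    have : ∀ a : ZMod 2, a ≠ 0 → a = 1 := by decide
    exact this _ hm'
  rw [h1, monomial_pow, one_pow]
  have h2 : m = 2 • m.mapRange (fun n => n / 2) (by simp) := by
    ext i
    simp only [Finsupp.coe_smul, Pi.smul_apply, Finsupp.mapRange_apply, smul_eq_mul]
    exact (Nat.two_mul_div_two_of_even (hev m hm' i)).symm
  conv_lhs => rw [h2]

/-- `F₂`-coefficients: `p(x^2) = p(x)^2` -/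
theorem aeval_sq {σ : Type*} {A : Type*} [CommRing A] [Algebra (ZMod 2) A] [CharP A 2]
    (x : σ → A) (p : MvPolynomial σ (ZMod 2)) :
    aeval (fun i => x i ^ 2) p = (aeval x p) ^ 2 := by
  induction p using MvPolynomial.induction_on with
  | C a =>
    rw [← algebraMap_eq, AlgHom.commutes, AlgHom.commutes, ← map_pow]
    congr 1
    revert a
    decide
  | add p q hp hq => rw [map_add, map_add, hp, hq, add_pow_char]
  | mul_X p i hp => rw [map_mul, map_mul, hp, aeval_X, aeval_X]; ring

/-! ### finSuccEquiv and the restriction -/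

theorem coeff_zero_fse {m : ℕ} (f : S (m + 1)) :
    (finSuccEquiv (ZMod 2) m f).coeff 0 = res m f := by
  induction f using MvPolynomial.induction_on with
  | C a => simp [finSuccEquiv_apply, res]
  | add p q hp hq => rw [map_add, map_add, Polynomial.coeff_add, hp, hq]
  | mul_X p i hp =>
    rw [map_mul, map_mul, Polynomial.mul_coeff_zero, hp]
    congr 1
    refine Fin.cases ?_ (fun j => ?_) i
    · rw [finSuccEquiv_X_zero]; simp
    · rw [finSuccEquiv_X_succ]; simp

theorem coeff_one_tv {m : ℕ} (k : Fin m) (f : S (m + 1)) :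
    (finSuccEquiv (ZMod 2) m (tv k.succ 0 f)).coeff 1 =
      (finSuccEquiv (ZMod 2) m f).coeff 1 + pderiv k (res m f) ∧
    res m (tv k.succ 0 f) = res m f := by
  induction f using MvPolynomial.induction_on with
  | C a =>
    have : tv k.succ 0 (C a : S (m + 1)) = C a := by simp [tv]
    rw [this]
    simp [res, finSuccEquiv_apply]
  | add p q hp hq =>
    simp only [map_add, Polynomial.coeff_add]
    rw [hp.1, hq.1, hp.2, hq.2]
    exact ⟨by ring, rfl⟩
  | mul_X p i hp =>
    have hX : (finSuccEquiv (ZMod 2) m (tv k.succ 0 (X i))).coeff 1 =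
        (finSuccEquiv (ZMod 2) m (X i)).coeff 1 + pderiv k (res m (X i)) ∧
        res m (tv k.succ 0 (X i)) = res m (X i) := by
      rw [tv_X]
      refine Fin.cases ?_ (fun j => ?_) i
      · rw [if_neg (Fin.succ_ne_zero k).symm]
        simp
      · by_cases hj : j = k
        · subst hj
          rw [if_pos rfl, map_add, finSuccEquiv_X_succ, finSuccEquiv_X_zero]
          simp
        · rw [if_neg (fun h => hj (Fin.succ_injective _ h))]
          simp [pderiv_X_of_ne hj]
    constructor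
    · rw [map_mul, map_mul, map_mul, map_mul, Polynomial.mul_coeff_one, Polynomial.mul_coeff_one,
        coeff_zero_fse, coeff_zero_fse, coeff_zero_fse, coeff_zero_fse, hp.1, hp.2, hX.1, hX.2,
        Derivation.leibniz]
      simp only [smul_eq_mul]
      ring
    · rw [map_mul, map_mul, map_mul, hp.2, hX.2]

theorem pderiv_res_of_inv {m : ℕ} {f : S (m + 1)} (hf : Inv f) (k : Fin m) :
    pderiv k (res m f) = 0 := by
  have h := (coeff_one_tv k f).1
  rw [hf _ _ (Fin.succ_ne_zero k)] at h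
  exact (left_eq_add.mp h)

theorem res_tv_succ {m : ℕ} (i j : Fin m) (f : S (m + 1)) :
    res m (tv i.succ j.succ f) = tv i j (res m f) := by
  have : (res m).comp (tv i.succ j.succ) = (tv i j).comp (res m) := by
    apply MvPolynomial.algHom_ext
    intro k
    simp only [AlgHom.comp_apply, tv_X]
    refine Fin.cases ?_ (fun l => ?_) k
    · rw [if_neg (Fin.succ_ne_zero i).symm]
      simp
    · by_cases hl : l = i
      · subst hl
        simp [tv_X]
      · rw [if_neg (fun h => hl (Fin.succ_injective _ h))]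
        simp [tv_X, hl]
  exact DFunLike.congr_fun this f

theorem sq_inj {m : ℕ} {a b : S m} (h : a ^ 2 = b ^ 2) : a = b := by
  have h1 : (a + b) ^ 2 = 0 := by
    rw [add_pow_char, h]
    exact CharTwo.add_self_eq_zero _
  have h2 : a + b = 0 := by simpa using h1
  exact CharTwo.add_eq_zero.mp h2

theorem inv_of_sq {m : ℕ} {g : S m} (h : Inv (g ^ 2)) : Inv g := by
  intro i j hij
  apply sq_inj
  rw [← map_pow]
  exact h i j hij

theorem exists_res_sq {m : ℕ} {f : S (m + 1)} (hf : Inv f) :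
    ∃ g : S m, res m f = g ^ 2 ∧ Inv g := by
  obtain ⟨g, hg⟩ := exists_sq (res m f) (pderiv_res_of_inv hf)
  refine ⟨g, hg, inv_of_sq ?_⟩
  rw [← hg]
  intro i j hij
  rw [← res_tv_succ, hf _ _ (fun h => hij (Fin.succ_injective _ h))]

theorem X_dvd_of_res {m : ℕ} {f : S (m + 1)} (hf : res m f = 0) : (X 0 : S (m + 1)) ∣ f := by
  have h1 : Polynomial.X ∣ finSuccEquiv (ZMod 2) m f := by
    rw [Polynomial.X_dvd_iff, coeff_zero_fse, hf]
  rw [← finSuccEquiv_X_zero] at h1
  exact (map_dvd_iff (finSuccEquiv (ZMod 2) m)).mp h1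

/-! ### the Dickson polynomials are invariant -/

theorem lin_lin {A : Type*} [CommRing A] [Algebra (ZMod 2) A] {r : ℕ} (x : Fin r → A)
    (g : Matrix (Fin r) (Fin r) (ZMod 2)) (v : Fin r → ZMod 2) :
    lin (fun i => lin x (g i)) v = lin x (Matrix.vecMul v g) := by
  simp only [lin, Matrix.vecMul, dotProduct, Finset.smul_sum, Finset.sum_smul, smul_smul]
  rw [Finset.sum_comm]

theorem dq_gl {A : Type*} [CommRing A] [Algebra (ZMod 2) A] {r : ℕ} (x : Fin r → A)
    (g : Matrix (Fin r) (Fin r) (ZMod 2)) (hg : IsUnit g) :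
    dq (fun i => lin x (g i)) = dq x := by
  unfold dq
  simp only [lin_lin]
  have hb : Function.Bijective (fun v : Fin r → ZMod 2 => Matrix.vecMul v g) :=
    ⟨Matrix.vecMul_injective_iff_isUnit.mpr hg, Matrix.vecMul_surjective_iff_isUnit.mpr hg⟩
  exact hb.prod_comp (fun w => Polynomial.X + Polynomial.C (lin x w))

theorem dQ_gl {A : Type*} [CommRing A] [Algebra (ZMod 2) A] {r : ℕ} (x : Fin r → A)
    (g : Matrix (Fin r) (Fin r) (ZMod 2)) (hg : IsUnit g) (j : ℕ) :
    dQ (fun i => lin x (g i)) j = dQ x j := by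
  unfold dQ; rw [dq_gl x g hg]

/-- linear substitution by a matrix -/
noncomputable def gsub {r : ℕ} (g : Matrix (Fin r) (Fin r) (ZMod 2)) : S r →ₐ[ZMod 2] S r :=
  aeval (fun i => lin X (g i))

theorem gsub_Q {r : ℕ} (g : Matrix (Fin r) (Fin r) (ZMod 2)) (hg : IsUnit g) (j : ℕ) :
    gsub g (Q r j) = Q r j := by
  unfold Q
  rw [← dQ_map]
  have : (fun i => gsub g (X i)) = fun i => lin (X : Fin r → S r) (g i) := by
    funext i; simp [gsub]
  rw [this, dQ_gl _ g hg]

theorem tv_eq_gsub {r : ℕ} {i j : Fin r} (hij : i ≠ j) :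
    tv i j = gsub (Matrix.transvection i j 1) := by
  apply MvPolynomial.algHom_ext
  intro k
  rw [tv_X]
  simp only [gsub, aeval_X, lin, Matrix.transvection, Matrix.add_apply, add_smul,
    Finset.sum_add_distrib, Matrix.one_apply, Matrix.single_apply, ite_smul, one_smul, zero_smul]
  simp only [Finset.sum_ite_eq, Finset.mem_univ, if_true]
  by_cases hk : k = i
  · subst hk
    simp
  · rw [if_neg hk]
    have hk' : ¬ (i = k) := fun h => hk h.symm
    simp [hk']

theorem tv_Q {r : ℕ} {i j : Fin r} (hij : i ≠ j) (l : ℕ) : tv i j (Q r l) = Q r l := by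
  rw [tv_eq_gsub hij]
  apply gsub_Q
  rw [Matrix.isUnit_iff_isUnit_det, Matrix.det_transvection_of_ne i j hij]
  exact isUnit_one

theorem inv_Q (r l : ℕ) : Inv (Q r l) := fun _ _ hij => tv_Q hij l

theorem Inv.mul {r : ℕ} {f g : S r} (hf : Inv f) (hg : Inv g) : Inv (f * g) := by
  intro i j hij; rw [map_mul, hf i j hij, hg i j hij]

theorem Inv.add {r : ℕ} {f g : S r} (hf : Inv f) (hg : Inv g) : Inv (f + g) := by
  intro i j hij; rw [map_add, hf i j hij, hg i j hij]

theorem Inv.smul {r : ℕ} {f : S r} (hf : Inv f) (c : ZMod 2) : Inv (c • f) := by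
  intro i j hij; rw [map_smul, hf i j hij]

theorem Inv.pow {r : ℕ} {f : S r} (hf : Inv f) (n : ℕ) : Inv (f ^ n) := by
  intro i j hij; rw [map_pow, hf i j hij]

theorem Inv.zero {r : ℕ} : Inv (0 : S r) := by
  intro i j hij; rw [map_zero]

theorem Inv.one {r : ℕ} : Inv (1 : S r) := by
  intro i j hij; rw [map_one]

theorem Inv.prod {r : ℕ} {ι : Type*} (s : Finset ι) {f : ι → S r} (hf : ∀ i ∈ s, Inv (f i)) :
    Inv (∏ i ∈ s, f i) := by
  intro i j hij
  rw [map_prod]
  exact Finset.prod_congr rfl fun k hk => hf k hk i j hij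

theorem inv_of_mul {r : ℕ} {a f : S r} (ha : Inv a) (ha0 : a ≠ 0) (h : Inv (a * f)) : Inv f := by
  intro i j hij
  have h1 := h i j hij
  rw [map_mul, ha i j hij] at h1
  exact mul_left_cancel₀ ha0 h1

/-! ### restriction of the Dickson polynomials -/

theorem res_Q_zero (m : ℕ) : res m (Q (m + 1) 0) = 0 := by
  unfold Q
  rw [← dQ_map, dQ_succ_zero]
  simp only [res_X_zero, dq_eval_zero, zero_mul]

theorem res_Q_succ (m j : ℕ) : res m (Q (m + 1) (j + 1)) = Q m j ^ 2 := by
  unfold Q
  rw [← dQ_map, dQ_succ_succ]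
  simp only [res_X_zero, dq_eval_zero, zero_mul, add_zero]
  congr 2
  funext i
  simp [Fin.tail]

end Crest.Agent.R204.Dickson91
end

-- ▼ part R204/DicksonC_91

/-!
# Dickson's theorem (row 204, leaf F3), part C: degrees, divisibility, Dickson's theorem,
algebraic independence.
-/

set_option autoImplicit false
set_option linter.unusedSectionVars false

namespace Crest.Agent.R204.Dickson91

open MvPolynomial

/-! ### homogeneity -/

theorem lin_homog {σ : Type*} {r : ℕ} {x : Fin r → MvPolynomial σ (ZMod 2)}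
    (hx : ∀ i, (x i).IsHomogeneous 1) (v : Fin r → ZMod 2) : (lin x v).IsHomogeneous 1 := by
  unfold lin
  apply IsHomogeneous.sum
  intro i _
  rw [smul_eq_C_mul]
  exact (hx i).C_mul _

theorem eval_homog {σ : Type*} {r : ℕ} {x : Fin r → MvPolynomial σ (ZMod 2)}
    (hx : ∀ i, (x i).IsHomogeneous 1) {a : MvPolynomial σ (ZMod 2)} (ha : a.IsHomogeneous 1) :
    ((dq x).eval a).IsHomogeneous (2 ^ r) := by
  rw [dq_eval_prod]
  have h := IsHomogeneous.prod (Finset.univ : Finset (Fin r → ZMod 2)) (fun v => a + lin x v)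
    (fun _ => 1) (fun v _ => ha.add (lin_homog hx v))
  simpa using h

theorem dQ_homog {σ : Type*} : ∀ {r : ℕ} {x : Fin r → MvPolynomial σ (ZMod 2)}
    (_ : ∀ i, (x i).IsHomogeneous 1) (j : ℕ), (dQ x j).IsHomogeneous (2 ^ r - 2 ^ j) := by
  intro r
  induction r with
  | zero =>
    intro x hx j
    rcases Nat.eq_zero_or_pos j with rfl | hj
    · rw [dQ_top]; simpa using isHomogeneous_one σ (ZMod 2)
    · rw [dQ_gt x hj]; exact isHomogeneous_zero _ _ _
  | succ r ih =>
    intro x hx j
    have hx' : ∀ i, (Fin.tail x i).IsHomogeneous 1 := fun i => hx _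
    rcases j with _ | j
    · rw [dQ_succ_zero]
      have := (eval_homog hx' (hx 0)).mul (ih hx' 0)
      have h1 : 2 ^ r + (2 ^ r - 2 ^ 0) = 2 ^ (r + 1) - 2 ^ 0 := by
        have : 1 ≤ 2 ^ r := Nat.one_le_two_pow
        rw [pow_succ]; omega
      rwa [h1] at this
    · rw [dQ_succ_succ]
      have a1 : (dQ (Fin.tail x) j ^ 2).IsHomogeneous (2 ^ (r + 1) - 2 ^ (j + 1)) := by
        have := (ih hx' j).pow 2
        have h1 : (2 ^ r - 2 ^ j) * 2 = 2 ^ (r + 1) - 2 ^ (j + 1) := by
          rw [Nat.sub_mul, pow_succ, pow_succ]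
        rwa [h1] at this
      refine a1.add ?_
      by_cases hj : j + 1 ≤ r
      · have := (eval_homog hx' (hx 0)).mul (ih hx' (j + 1))
        have h1 : 2 ^ r + (2 ^ r - 2 ^ (j + 1)) = 2 ^ (r + 1) - 2 ^ (j + 1) := by
          have : 2 ^ (j + 1) ≤ 2 ^ r := Nat.pow_le_pow_right (by norm_num) hj
          rw [pow_succ 2 r]; omega
        rwa [h1] at this
      · rw [dQ_gt _ (not_le.mp hj), mul_zero]
        exact isHomogeneous_zero _ _ _

theorem Q_homog (r j : ℕ) : (Q r j).IsHomogeneous (2 ^ r - 2 ^ j) :=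
  dQ_homog (fun i => isHomogeneous_X _ i) j

theorem Q_top (r : ℕ) : Q r r = 1 := dQ_top _
theorem Q_gt {r j : ℕ} (h : r < j) : Q r j = 0 := dQ_gt _ h

/-! ### linear forms -/

theorem coeff_lin {r : ℕ} (v : Fin r → ZMod 2) (i : Fin r) :
    coeff (Finsupp.single i 1) (lin (X : Fin r → S r) v) = v i := by
  classical
  simp only [lin, coeff_sum, coeff_smul, coeff_X, smul_eq_mul, mul_ite, mul_one, mul_zero]
  rw [Finset.sum_eq_single i]
  · simp
  · intro b _ hb
    rw [if_neg]
    intro h
    exact hb (Finsupp.single_left_injective one_ne_zero h)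
  · simp

theorem lin_inj {r : ℕ} {v w : Fin r → ZMod 2} (h : lin (X : Fin r → S r) v = lin X w) :
    v = w := by
  funext i
  rw [← coeff_lin v i, h, coeff_lin]

theorem lin_ne_zero {r : ℕ} {v : Fin r → ZMod 2} (h : v ≠ 0) : lin (X : Fin r → S r) v ≠ 0 := by
  intro h0
  apply h
  apply lin_inj
  rw [h0, lin_zero]

theorem Q_zero_ne (r : ℕ) : Q r 0 ≠ 0 := by
  unfold Q
  rw [dQ_zero, Finset.prod_ne_zero_iff]
  intro v hv
  exact lin_ne_zero (Finset.ne_of_mem_erase hv)

theorem lin_irreducible {r : ℕ} {v : Fin r → ZMod 2} (h : v ≠ 0) :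
    Irreducible (lin (X : Fin r → S r) v) := by
  have hd : (lin (X : Fin r → S r) v).totalDegree = 1 :=
    (lin_homog (fun i => isHomogeneous_X _ i) v).totalDegree (lin_ne_zero h)
  constructor
  · intro hu
    rw [isUnit_iff_totalDegree_of_isReduced] at hu
    omega
  · intro a b hab
    have ha : a ≠ 0 := by rintro rfl; rw [zero_mul] at hab; exact lin_ne_zero h hab
    have hb : b ≠ 0 := by rintro rfl; rw [mul_zero] at hab; exact lin_ne_zero h hab
    have hdd : a.totalDegree + b.totalDegree = 1 := by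
      rw [← totalDegree_mul_of_isDomain ha hb, ← hab, hd]
    have key : ∀ c : S r, c ≠ 0 → c.totalDegree = 0 → IsUnit c := by
      intro c hc hc0
      rw [totalDegree_eq_zero_iff_eq_C] at hc0
      rw [hc0]
      apply IsUnit.map
      rw [isUnit_iff_ne_zero]
      intro h0
      rw [h0, C_0] at hc0
      exact hc hc0
    rcases Nat.eq_zero_or_pos a.totalDegree with h0 | h0
    · exact Or.inl (key a ha h0)
    · exact Or.inr (key b hb (by omega))

theorem unit_eq_one {r : ℕ} {u : S r} (hu : IsUnit u) : u = 1 := by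
  rw [isUnit_iff_eq_C_of_isReduced] at hu
  obtain ⟨c, hc, rfl⟩ := hu
  have : ∀ a : ZMod 2, IsUnit a → a = 1 := by
    intro a ha
    have h0 := ha.ne_zero
    revert a
    intro a _ h0
    have : ∀ a : ZMod 2, a ≠ 0 → a = 1 := by decide
    exact this a h0
  rw [this c hc, C_1]

theorem lin_isRelPrime {r : ℕ} {v w : Fin r → ZMod 2} (hv : v ≠ 0) (hw : w ≠ 0) (hvw : v ≠ w) :
    IsRelPrime (lin (X : Fin r → S r) v) (lin X w) := by
  intro d hd1 hd2
  by_contra hd
  have key : ∀ u : Fin r → ZMod 2, u ≠ 0 → d ∣ lin X u → lin X u = d := by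
    intro u hu hdu
    obtain ⟨a, ha⟩ := hdu
    rcases (lin_irreducible hu).isUnit_or_isUnit ha with h | h
    · exact absurd h hd
    · rw [ha, unit_eq_one h, mul_one]
  exact hvw (lin_inj ((key v hv hd1).trans (key w hw hd2).symm))

/-! ### transitivity and divisibility by `Q_0` -/

theorem exists_fix_one {m : ℕ} {f : S (m + 1)} (hf : Inv f) (T : Finset (Fin (m + 1)))
    (hT : (0 : Fin (m + 1)) ∉ T) :
    ∃ σ : S (m + 1) →ₐ[ZMod 2] S (m + 1), σ f = f ∧ σ (X 0) = X 0 + ∑ j ∈ T, X j := by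
  classical
  induction T using Finset.induction_on with
  | empty => exact ⟨AlgHom.id _ _, rfl, by simp⟩
  | insert a T ha ih =>
    obtain ⟨σ, h1, h2⟩ := ih (fun h => hT (Finset.mem_insert_of_mem h))
    have ha0 : (0 : Fin (m + 1)) ≠ a := by
      rintro rfl
      exact hT (Finset.mem_insert_self _ _)
    refine ⟨(tv 0 a).comp σ, ?_, ?_⟩
    · rw [AlgHom.comp_apply, h1, hf _ _ ha0]
    · rw [AlgHom.comp_apply, h2, map_add, tv_X, if_pos rfl, map_sum, Finset.sum_insert ha,
        add_assoc]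
      congr 2
      refine Finset.sum_congr rfl fun j hj => ?_
      rw [tv_X, if_neg]
      rintro rfl
      exact hT (Finset.mem_insert_of_mem hj)

theorem exists_fix_of_one {m : ℕ} {f : S (m + 1)} (hf : Inv f) {v : Fin (m + 1) → ZMod 2}
    (hv : v 0 = 1) : ∃ σ : S (m + 1) →ₐ[ZMod 2] S (m + 1), σ f = f ∧ σ (X 0) = lin X v := by
  classical
  obtain ⟨σ, h1, h2⟩ := exists_fix_one hf (Finset.univ.filter (fun j => j ≠ 0 ∧ v j = 1))
    (by simp)
  refine ⟨σ, h1, ?_⟩
  rw [h2]
  unfold lin
  rw [← Finset.add_sum_erase _ _ (Finset.mem_univ (0 : Fin (m + 1))), hv, one_smul]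
  congr 1
  rw [Finset.sum_filter]
  rw [← Finset.add_sum_erase _ _ (Finset.mem_univ (0 : Fin (m + 1)))]
  rw [if_neg (by simp), zero_add]
  refine Finset.sum_congr rfl fun j hj => ?_
  have hj0 : j ≠ 0 := Finset.ne_of_mem_erase hj
  have hc : ∀ a : ZMod 2, a = 0 ∨ a = 1 := by decide
  rcases hc (v j) with h | h
  · rw [h]; simp
  · rw [h]; simp [hj0]

theorem exists_fix {m : ℕ} {f : S (m + 1)} (hf : Inv f) {v : Fin (m + 1) → ZMod 2}
    (hv : v ≠ 0) : ∃ σ : S (m + 1) →ₐ[ZMod 2] S (m + 1), σ f = f ∧ σ (X 0) = lin X v := by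
  classical
  have hc : ∀ a : ZMod 2, a = 0 ∨ a = 1 := by decide
  rcases hc (v 0) with h0 | h1
  · obtain ⟨i, hi⟩ : ∃ i, v i ≠ 0 := by
      by_contra hcon
      push Not at hcon
      exact hv (funext hcon)
    have hi1 : v i = 1 := (hc (v i)).resolve_left hi
    have hi0 : i ≠ 0 := by rintro rfl; exact hi h0
    obtain ⟨σ, h1, h2⟩ := exists_fix_of_one hf (v := v + Pi.single 0 1) (by simp [h0])
    refine ⟨(tv i 0).comp σ, ?_, ?_⟩
    · rw [AlgHom.comp_apply, h1, hf _ _ hi0]
    · rw [AlgHom.comp_apply, h2, lin_add, lin_single, map_add, tv_X, if_neg hi0.symm]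
      have h3 : tv i 0 (lin (X : Fin (m + 1) → S (m + 1)) v) = lin X v + X 0 := by
        unfold lin
        rw [map_sum]
        have h4 : ∀ j, tv i 0 (v j • X j) = v j • X j + (if j = i then X 0 else 0) := by
          intro j
          rw [map_smul, tv_X]
          by_cases hj : j = i
          · subst hj
            rw [if_pos rfl, if_pos rfl, hi1, one_smul, one_smul]
          · rw [if_neg hj, if_neg hj, add_zero]
        rw [Finset.sum_congr rfl fun j _ => h4 j, Finset.sum_add_distrib]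
        simp
      rw [h3, add_assoc, CharTwo.add_self_eq_zero, add_zero]
  · exact exists_fix_of_one hf h1

theorem lin_dvd_of_inv {m : ℕ} {f : S (m + 1)} (hf : Inv f) (h0 : X 0 ∣ f)
    {v : Fin (m + 1) → ZMod 2} (hv : v ≠ 0) : lin X v ∣ f := by
  obtain ⟨σ, h1, h2⟩ := exists_fix hf hv
  have := map_dvd σ h0
  rwa [h1, h2] at this

theorem Q_dvd_of_inv {m : ℕ} {f : S (m + 1)} (hf : Inv f) (h0 : X 0 ∣ f) :
    Q (m + 1) 0 ∣ f := by
  unfold Q
  rw [dQ_zero]
  apply Finset.prod_dvd_of_isRelPrime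
  · intro v hv w hw hvw
    exact lin_isRelPrime (Finset.ne_of_mem_erase hv) (Finset.ne_of_mem_erase hw) hvw
  · intro v hv
    exact lin_dvd_of_inv hf h0 (Finset.ne_of_mem_erase hv)

/-! ### Dickson's theorem -/

/-- monomials in the Dickson invariants -/
noncomputable def Qmon {r : ℕ} (a : Fin r → ℕ) : S r := ∏ j : Fin r, Q r j ^ a j

/-- degree of the monomial -/
def wt {r : ℕ} (a : Fin r → ℕ) : ℕ := ∑ j : Fin r, a j * (2 ^ r - 2 ^ (j : ℕ))

theorem Qmon_homog {r : ℕ} (a : Fin r → ℕ) : (Qmon a).IsHomogeneous (wt a) := by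
  apply IsHomogeneous.prod
  intro j _
  rw [mul_comm]
  exact (Q_homog r j).pow _

theorem inv_Qmon {r : ℕ} (a : Fin r → ℕ) : Inv (Qmon a) :=
  Inv.prod _ fun _ _ => (inv_Q _ _).pow _

/-- span of the monomials of degree `≤ N` -/
noncomputable def Dle (r N : ℕ) : Submodule (ZMod 2) (S r) :=
  Submodule.span (ZMod 2) {f | ∃ a : Fin r → ℕ, wt a ≤ N ∧ Qmon a = f}

theorem Dle_inv {r N : ℕ} {f : S r} (hf : f ∈ Dle r N) : Inv f := by
  induction hf using Submodule.span_induction with
  | mem x hx => obtain ⟨a, _, rfl⟩ := hx; exact inv_Qmon a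
  | zero => exact Inv.zero
  | add x y _ _ hx hy => exact hx.add hy
  | smul c x _ hx => exact hx.smul c

theorem Dle_totalDegree {r N : ℕ} {f : S r} (hf : f ∈ Dle r N) : f.totalDegree ≤ N := by
  induction hf using Submodule.span_induction with
  | mem x hx => obtain ⟨a, ha, rfl⟩ := hx; exact (Qmon_homog a).totalDegree_le.trans ha
  | zero => simp
  | add x y _ _ hx hy => exact (totalDegree_add _ _).trans (max_le hx hy)
  | smul c x _ hx => exact (totalDegree_smul_le _ _).trans hx

theorem Qmon_mul {r : ℕ} (a b : Fin r → ℕ) : Qmon a * Qmon b = Qmon (a + b) := by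
  simp [Qmon, ← Finset.prod_mul_distrib, pow_add]

theorem wt_add {r : ℕ} (a b : Fin r → ℕ) : wt (a + b) = wt a + wt b := by
  simp [wt, add_mul, Finset.sum_add_distrib]

theorem Qmon_single {r : ℕ} (j : Fin r) : Qmon (Pi.single j 1) = Q r j := by
  classical
  unfold Qmon
  rw [Finset.prod_eq_single j]
  · simp
  · intro b _ hb
    rw [Pi.single_eq_of_ne hb, pow_zero]
  · simp

theorem wt_single {r : ℕ} (j : Fin r) : wt (Pi.single j 1) = 2 ^ r - 2 ^ (j : ℕ) := by
  classical
  unfold wt
  rw [Finset.sum_eq_single j]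
  · simp
  · intro b _ hb
    rw [Pi.single_eq_of_ne hb, zero_mul]
  · simp

theorem Dle_mul_Q {m N : ℕ} {f : S (m + 1)} (hf : f ∈ Dle (m + 1) N) :
    Q (m + 1) 0 * f ∈ Dle (m + 1) (N + (2 ^ (m + 1) - 1)) := by
  induction hf using Submodule.span_induction with
  | mem x hx =>
    obtain ⟨a, ha, rfl⟩ := hx
    apply Submodule.subset_span
    refine ⟨Pi.single 0 1 + a, ?_, ?_⟩
    · rw [wt_add, wt_single]
      simp only [Fin.val_zero, pow_zero]
      omega
    · rw [← Qmon_mul, Qmon_single]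
      rfl
  | zero => rw [mul_zero]; exact Submodule.zero_mem _
  | add x y _ _ hx hy => rw [mul_add]; exact Submodule.add_mem _ hx hy
  | smul c x _ hx => rw [mul_smul_comm]; exact Submodule.smul_mem _ _ hx

theorem lift_sq {m N : ℕ} {g : S m} (hg : g ∈ Dle m N) :
    ∃ F ∈ Dle (m + 1) (2 * N), res m F = g ^ 2 := by
  induction hg using Submodule.span_induction with
  | mem x hx =>
    obtain ⟨a, ha, rfl⟩ := hx
    refine ⟨Qmon (Fin.cons 0 a : Fin (m + 1) → ℕ), Submodule.subset_span ⟨_, ?_, rfl⟩, ?_⟩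
    · unfold wt
      rw [Fin.sum_univ_succ]
      simp only [Fin.cons_zero, zero_mul, zero_add, Fin.cons_succ, Fin.val_succ]
      calc ∑ i : Fin m, a i * (2 ^ (m + 1) - 2 ^ ((i : ℕ) + 1)) = ∑ i : Fin m,
          2 * (a i * (2 ^ m - 2 ^ (i : ℕ))) := by
            refine Finset.sum_congr rfl fun i _ => ?_
            rw [pow_succ, pow_succ, ← Nat.sub_mul]
            ring
        _ = 2 * wt a := by rw [← Finset.mul_sum]; rfl
        _ ≤ 2 * N := by omega
    · unfold Qmon
      rw [Fin.prod_univ_succ]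
      simp only [Fin.cons_zero, pow_zero, one_mul, Fin.cons_succ, Fin.val_succ, map_prod, map_pow,
        res_Q_succ]
      rw [← Finset.prod_pow]
      refine Finset.prod_congr rfl fun i _ => ?_
      rw [← pow_mul, ← pow_mul, mul_comm]
  | zero => exact ⟨0, Submodule.zero_mem _, by simp⟩
  | add x y _ _ hx hy =>
    obtain ⟨F, hF, h1⟩ := hx
    obtain ⟨G, hG, h2⟩ := hy
    refine ⟨F + G, Submodule.add_mem _ hF hG, ?_⟩
    rw [map_add, h1, h2, add_pow_char]
  | smul c x _ hx =>
    obtain ⟨F, hF, h1⟩ := hx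
    refine ⟨c • F, Submodule.smul_mem _ _ hF, ?_⟩
    have hc : ∀ a : ZMod 2, a ^ 2 = a := by decide
    rw [map_smul, h1, smul_pow, hc]

theorem totalDegree_res_le {m : ℕ} (f : S (m + 1)) :
    (res m f).totalDegree ≤ f.totalDegree := by
  by_cases h : res m f = 0
  · rw [h]; simp
  · have := totalDegree_coeff_finSuccEquiv_add_le f 0 (by rwa [coeff_zero_fse])
    rwa [coeff_zero_fse, add_zero] at this

theorem totalDegree_sq {m : ℕ} (g : S m) : (g ^ 2).totalDegree = 2 * g.totalDegree := by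
  by_cases h : g = 0
  · subst h; simp
  · rw [sq, totalDegree_mul_of_isDomain h h]; ring

theorem dickson_aux : ∀ (r N : ℕ) (f : S r), Inv f → f.totalDegree ≤ N → f ∈ Dle r N := by
  intro r
  induction r with
  | zero =>
    intro N f _ _
    have h1 : f = coeff 0 f • (Qmon (fun i => i.elim0) : S 0) := by
      rw [eq_C_of_isEmpty f]
      simp [Qmon, smul_eq_C_mul]
    rw [h1]
    apply Submodule.smul_mem
    apply Submodule.subset_span
    exact ⟨_, by simp [wt], rfl⟩
  | succ m ih =>
    intro N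
    induction N using Nat.strong_induction_on with
    | _ N ihN =>
      intro f hf hN
      obtain ⟨g, hg, hgi⟩ := exists_res_sq hf
      have hgN : g.totalDegree ≤ N / 2 := by
        have := totalDegree_res_le f
        rw [hg, totalDegree_sq] at this
        omega
      obtain ⟨F, hF, hFr⟩ := lift_sq (ih (N / 2) g hgi hgN)
      have hF' : F ∈ Dle (m + 1) N := by
        have hmono : Dle (m + 1) (2 * (N / 2)) ≤ Dle (m + 1) N := by
          apply Submodule.span_mono
          rintro _ ⟨a, ha, rfl⟩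
          exact ⟨a, ha.trans (by omega), rfl⟩
        exact hmono hF
      have hfi : Inv (f + F) := hf.add (Dle_inv hF')
      have hres : res m (f + F) = 0 := by
        rw [map_add, hg, hFr]
        exact CharTwo.add_self_eq_zero _
      obtain ⟨f2, hf2⟩ := Q_dvd_of_inv hfi (X_dvd_of_res hres)
      have hfe : f = (f + F) + F := by rw [add_assoc, CharTwo.add_self_eq_zero, add_zero]
      by_cases h0 : f2 = 0
      · rw [h0, mul_zero] at hf2
        rw [hfe, hf2, zero_add]
        exact hF'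
      · have hdeg : (f + F).totalDegree ≤ N :=
          (totalDegree_add _ _).trans (max_le hN (Dle_totalDegree hF'))
        have hdQ : (Q (m + 1) 0).totalDegree = 2 ^ (m + 1) - 1 := by
          simpa using (Q_homog (m + 1) 0).totalDegree (Q_zero_ne _)
        rw [hf2, totalDegree_mul_of_isDomain (Q_zero_ne _) h0, hdQ] at hdeg
        have h2 : 2 ≤ 2 ^ (m + 1) := by
          rw [pow_succ]
          have := Nat.one_le_two_pow (n := m)
          omega
        have hf2i : Inv f2 := by
          apply inv_of_mul (inv_Q (m + 1) 0) (Q_zero_ne _)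
          rw [← hf2]
          exact hfi
        have hmem := ihN (N - (2 ^ (m + 1) - 1)) (by omega) f2 hf2i (by omega)
        have hmem2 := Dle_mul_Q hmem
        rw [Nat.sub_add_cancel (by omega), ← hf2] at hmem2
        rw [hfe]
        exact Submodule.add_mem _ hmem2 hF'

/-- the Dickson algebra -/
noncomputable def D (r : ℕ) : Subalgebra (ZMod 2) (S r) :=
  Algebra.adjoin (ZMod 2) (Set.range fun j : Fin r => Q r j)

theorem Q_mem_D (r j : ℕ) : Q r j ∈ D r := by
  rcases lt_trichotomy j r with h | h | h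
  · exact Algebra.subset_adjoin ⟨⟨j, h⟩, rfl⟩
  · subst h; rw [Q_top]; exact Subalgebra.one_mem _
  · rw [Q_gt h]; exact Subalgebra.zero_mem _

theorem Qmon_mem_D {r : ℕ} (a : Fin r → ℕ) : Qmon a ∈ D r :=
  Subalgebra.prod_mem _ fun _ _ => Subalgebra.pow_mem _ (Q_mem_D _ _) _

theorem D_inv {r : ℕ} {f : S r} (hf : f ∈ D r) : Inv f := by
  induction hf using Algebra.adjoin_induction with
  | mem x hx => obtain ⟨j, rfl⟩ := hx; exact inv_Q _ _
  | algebraMap c =>
    intro i j _
    rw [AlgHom.commutes]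
  | add x y _ _ hx hy => exact hx.add hy
  | mul x y _ _ hx hy => exact hx.mul hy

theorem mem_D_of_Dle {r N : ℕ} {f : S r} (hf : f ∈ Dle r N) : f ∈ D r := by
  induction hf using Submodule.span_induction with
  | mem x hx => obtain ⟨a, _, rfl⟩ := hx; exact Qmon_mem_D a
  | zero => exact Subalgebra.zero_mem _
  | add x y _ _ hx hy => exact Subalgebra.add_mem _ hx hy
  | smul c x _ hx => exact Subalgebra.smul_mem _ hx c

/-- **Dickson's theorem** -/
theorem inv_iff {r : ℕ} (f : S r) : Inv f ↔ f ∈ D r :=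
  ⟨fun h => mem_D_of_Dle (dickson_aux r _ f h le_rfl), D_inv⟩

theorem gsub_of_mem_D {r : ℕ} {f : S r} (hf : f ∈ D r) (g : Matrix (Fin r) (Fin r) (ZMod 2))
    (hg : IsUnit g) : gsub g f = f := by
  induction hf using Algebra.adjoin_induction with
  | mem x hx => obtain ⟨j, rfl⟩ := hx; exact gsub_Q g hg _
  | algebraMap c => rw [AlgHom.commutes]
  | add x y _ _ hx hy => rw [map_add, hx, hy]
  | mul x y _ _ hx hy => rw [map_mul, hx, hy]

/-- **Dickson's theorem** for `GL_r(F₂)` -/
theorem gl_inv_iff {r : ℕ} (f : S r) :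
    (∀ g : Matrix (Fin r) (Fin r) (ZMod 2), IsUnit g → gsub g f = f) ↔ f ∈ D r := by
  constructor
  · intro h
    rw [← inv_iff]
    intro i j hij
    rw [tv_eq_gsub hij]
    apply h
    rw [Matrix.isUnit_iff_isUnit_det, Matrix.det_transvection_of_ne i j hij]
    exact isUnit_one
  · intro h g hg
    exact gsub_of_mem_D h g hg

/-- divisibility -/
theorem exists_of_pow_dvd {m : ℕ} : ∀ (k : ℕ) {f : S (m + 1)}, Inv f → (X 0) ^ k ∣ f →
    ∃ d ∈ D (m + 1), f = Q (m + 1) 0 ^ k * d := by
  intro k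
  induction k with
  | zero =>
    intro f hf _
    exact ⟨f, (inv_iff f).mp hf, by simp⟩
  | succ k ih =>
    intro f hf hd
    have hX : (X 0 : S (m + 1)) ∣ f := (dvd_pow_self _ (Nat.succ_ne_zero k)).trans hd
    obtain ⟨f2, hf2⟩ := Q_dvd_of_inv hf hX
    have hf2i : Inv f2 := by
      apply inv_of_mul (inv_Q (m + 1) 0) (Q_zero_ne _)
      rw [← hf2]
      exact hf
    -- Q_0 = X_0 * c
    classical
    have hsplit : Q (m + 1) 0 = X 0 *
        ∏ v ∈ (Finset.univ.erase (0 : Fin (m + 1) → ZMod 2)).erase (Pi.single 0 1), lin X v := by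
      unfold Q
      rw [dQ_zero, ← Finset.mul_prod_erase _ _ (Finset.mem_erase.mpr
        ⟨?_, Finset.mem_univ (Pi.single 0 1 : Fin (m + 1) → ZMod 2)⟩), lin_single]
      intro h
      have := congrFun h 0
      simp at this
    have hXp : Prime (X 0 : S (m + 1)) := X_prime
    have hnd : ¬ (X 0 : S (m + 1)) ∣
        ∏ v ∈ (Finset.univ.erase (0 : Fin (m + 1) → ZMod 2)).erase (Pi.single 0 1), lin X v := by
      intro h
      obtain ⟨v, hv, hdv⟩ := (Prime.dvd_finsetProd_iff hXp _).mp h
      have hv1 : v ≠ Pi.single 0 1 := Finset.ne_of_mem_erase hv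
      have hv0 : v ≠ 0 := Finset.ne_of_mem_erase (Finset.mem_of_mem_erase hv)
      have hs0 : (Pi.single 0 1 : Fin (m + 1) → ZMod 2) ≠ 0 := by
        intro h
        have := congrFun h 0
        simp at this
      have hrel := lin_isRelPrime hs0 hv0 hv1.symm
      rw [lin_single] at hrel
      exact hXp.not_isUnit (hrel dvd_rfl hdv)
    have hd2 : (X 0 : S (m + 1)) ^ k ∣ f2 := by
      rw [hf2, hsplit, pow_succ', mul_assoc] at hd
      have h3 := (mul_dvd_mul_iff_left hXp.ne_zero).mp hd
      exact hXp.pow_dvd_of_dvd_mul_left k hnd h3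
    obtain ⟨d, hdD, hfd⟩ := ih hf2i hd2
    exact ⟨d, hdD, by rw [hf2, hfd]; ring⟩

/-! ### algebraic independence -/

theorem aeval_Q_res {m : ℕ} (p : S (m + 1)) :
    res m (aeval (fun j : Fin (m + 1) => Q (m + 1) j) p) =
      (aeval (fun j : Fin m => Q m j) (res m p)) ^ 2 := by
  rw [← aeval_sq]
  induction p using MvPolynomial.induction_on with
  | C a =>
    rw [← algebraMap_eq]
    simp only [AlgHom.commutes]
  | add p q hp hq => simp only [map_add, hp, hq]
  | mul_X p i hp =>
    simp only [map_mul, hp, aeval_X]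
    congr 1
    refine Fin.cases ?_ (fun j => ?_) i
    · simp [res_Q_zero]
    · simp [res_Q_succ]

theorem algebraicIndependent_Q : ∀ r : ℕ,
    AlgebraicIndependent (ZMod 2) (fun j : Fin r => Q r j) := by
  intro r
  induction r with
  | zero => exact algebraicIndependent_empty_type
  | succ m ih =>
    rw [algebraicIndependent_iff] at ih ⊢
    have key : ∀ N (p : S (m + 1)), p.totalDegree ≤ N →
        aeval (fun j : Fin (m + 1) => Q (m + 1) j) p = 0 → p = 0 := by
      intro N
      induction N with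
      | zero =>
        intro p hp h
        have h1 : p = C (coeff 0 p) := by
          rw [← totalDegree_eq_zero_iff_eq_C]; omega
        rw [h1, ← algebraMap_eq, AlgHom.commutes] at h
        have h2 : coeff 0 p = 0 := by
          rw [algebraMap_eq] at h
          simpa using h
        rw [h1, h2, C_0]
      | succ N ihN =>
        intro p hp h
        have h1 : aeval (fun j : Fin m => Q m j) (res m p) = 0 := by
          have := aeval_Q_res p
          rw [h, map_zero] at this
          simpa using this.symm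
        obtain ⟨q, rfl⟩ := X_dvd_of_res (ih _ h1)
        rw [map_mul, aeval_X] at h
        have h2 := (mul_eq_zero.mp h).resolve_left (Q_zero_ne _)
        by_cases hq : q = 0
        · rw [hq, mul_zero]
        · rw [totalDegree_mul_of_isDomain (X_ne_zero _) hq, totalDegree_X] at hp
          exact absurd (ihN q (by omega) h2) hq
    intro p hp
    exact key _ p le_rfl hp

/-- the Dickson algebra is a polynomial ring -/
theorem aeval_Q_inj {r : ℕ} : Function.Injective (aeval (fun j : Fin r => Q r j) : S r → S r) :=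
  algebraicIndependent_Q r


end Crest.Agent.R204.Dickson91
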