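import Crest.Agent.R204.Defs
import Crest.Agent.R204.HA_498

-- ▼ part R204/ExcA_406
section

/-!
# Row 204, leaf A-EXC (helper406): barycentric subdivision on tuples

`EX X` : the simplicial set with `n`-simplices all `(n+1)`-tuples of points of `X`.
For a barycentre function `β` we define the subdivision operator `sd` and the homotopy `tt` on
`Ch R (EX X)`:  `bd ∘ sd = sd ∘ bd`, `bd ∘ tt + tt ∘ bd = id - sd`, `sd` kills degenerate chains, `tt`
preserves them.
-/

set_option autoImplicit false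

namespace Crest.Agent.R204.Exc406

open Finsupp

/-- the simplicial set of all tuples of points of `X` -/
abbrev EX (X : Type) : SS where
  S n := Fin (n + 1) → X
  act f v := v ∘ f
  act_id _ := rfl
  act_comp _ _ _ := rfl

/-- functoriality of `EX` -/
def EX.map {X X' : Type} (g : X → X') : SS.Hom (EX X) (EX X') :=
  ⟨fun _ v => g ∘ v, fun _ _ => rfl⟩

theorem EX_act {X : Type} {m n : ℕ} (f : Op m n) (v : Fin (n + 1) → X) :
    (EX X).act f v = v ∘ f := rfl

theorem EX_map_app {X X' : Type} (g : X → X') (n : ℕ) (v : Fin (n + 1) → X) :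
    (EX.map g).app n v = g ∘ v := rfl

section aug

variable (R : Type) [CommRing R] (K : SS)

/-- augmentation -/
noncomputable def aug : Ch R K →ₗ[R] R :=
  Finsupp.linearCombination R (fun t : K.T => if t.1 = 0 then (1 : R) else 0)

variable {R K}

@[simp] theorem aug_single_zero (x : K.S 0) (r : R) : aug R K (single ⟨0, x⟩ r) = r := by
  simp [aug]

@[simp] theorem aug_single_succ {n : ℕ} (x : K.S (n + 1)) (r : R) :
    aug R K (single ⟨n + 1, x⟩ r) = 0 := by
  simp [aug]

theorem aug_bd (c : Ch R K) : aug R K (Ch.bd R K c) = 0 := by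
  induction c using Finsupp.induction_linear with
  | zero => simp
  | add f g hf hg => simp only [map_add, hf, hg, add_zero]
  | single t r =>
    obtain ⟨n, x⟩ := t
    rcases n with _ | _ | n
    · simp
    · rw [Ch.bd_single_succ, map_sum, Fin.sum_univ_two]
      simp
    · rw [Ch.bd_single_succ, map_sum]
      exact Finset.sum_eq_zero fun i _ => aug_single_succ _ _

theorem aug_map {L : SS} (f : SS.Hom K L) (c : Ch R K) : aug R L (Ch.map R f c) = aug R K c := by
  induction c using Finsupp.induction_linear with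
  | zero => simp
  | add f g hf hg => simp only [map_add, hf, hg]
  | single t r =>
    obtain ⟨n, x⟩ := t
    rw [Ch.map_single]
    rcases n with _ | n
    · rw [aug_single_zero, aug_single_zero]
    · rw [aug_single_succ, aug_single_succ]

/-- projection to the chains of degree `n` -/
noncomputable def proj (R : Type) [CommRing R] (K : SS) (n : ℕ) : Ch R K →ₗ[R] Ch R K :=
  Finsupp.linearCombination R (fun t : K.T => if t.1 = n then single t (1 : R) else 0)

theorem proj_single (n : ℕ) (t : K.T) (r : R) :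
    proj R K n (single t r) = if t.1 = n then single t r else 0 := by
  rw [proj, Finsupp.linearCombination_single]
  split_ifs <;> simp

theorem proj_bd_single (n : ℕ) (x : K.S (n + 1)) (r : R) :
    proj R K n (Ch.bd R K (single ⟨n + 1, x⟩ r)) = Ch.bd R K (single ⟨n + 1, x⟩ r) := by
  rw [Ch.bd_single_succ, map_sum]
  refine Finset.sum_congr rfl fun i _ => ?_
  rw [proj_single, if_pos rfl]

theorem single_mem_Dg {t : K.T} (h : Ch.IsDgn K t) (r : R) : single t r ∈ Ch.Dg R K := by
  have : (single t r : Ch R K) = r • single t 1 := by simp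
  rw [this]
  exact Submodule.smul_mem _ _ (Submodule.subset_span ⟨t, h, rfl⟩)

/-- a linear map killing all degenerate `n`-simplices kills the boundary of every degenerate
`(n+1)`-simplex -/
theorem kill_bd {M : Type*} [AddCommGroup M] [Module R M] (φ : Ch R K →ₗ[R] M) (n : ℕ)
    (hφ : ∀ x : K.S n, Ch.IsDgn K ⟨n, x⟩ → φ (single ⟨n, x⟩ 1) = 0)
    (x : K.S (n + 1)) (hx : Ch.IsDgn K ⟨n + 1, x⟩) (r : R) :
    φ (Ch.bd R K (single ⟨n + 1, x⟩ r)) = 0 := by
  have h1 : Ch.Dg R K ≤ LinearMap.ker (φ ∘ₗ proj R K n) := by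
    refine Submodule.span_le.2 ?_
    rintro _ ⟨⟨m, y⟩, ht, rfl⟩
    simp only [SetLike.mem_coe, LinearMap.mem_ker, LinearMap.comp_apply]
    rw [proj_single]
    by_cases h : m = n
    · subst h
      rw [if_pos rfl]
      exact hφ y ht
    · rw [if_neg h, map_zero]
  have h2 := h1 (Ch.bd_mem_Dg (single_mem_Dg hx r))
  rw [LinearMap.mem_ker, LinearMap.comp_apply, proj_bd_single] at h2
  exact h2

end aug

section cone

variable (R : Type) [CommRing R] {X : Type}

/-- the cone operator -/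
noncomputable def cone (b : X) : Ch R (EX X) →ₗ[R] Ch R (EX X) :=
  Finsupp.lmapDomain R R
    (fun t : (EX X).T => (⟨t.1 + 1, (Fin.cons b t.2 : Fin (t.1 + 2) → X)⟩ : (EX X).T))

variable {R}

theorem cone_single (b : X) (n : ℕ) (v : Fin (n + 1) → X) (r : R) :
    cone R b (single ⟨n, v⟩ r) = single ⟨n + 1, (Fin.cons b v : Fin (n + 2) → X)⟩ r := by
  simp only [cone, Finsupp.lmapDomain_apply, Finsupp.mapDomain_single]

theorem cons_face_zero (b : X) {n : ℕ} (v : Fin (n + 1) → X) :
    (Fin.cons b v : Fin (n + 2) → X) ∘ (Op.face (0 : Fin (n + 2))) = v := by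
  funext a
  have : (Op.face (0 : Fin (n + 2)) a : Fin (n + 2)) = a.succ := by
    ext; rw [Ch.face_val]; simp
  simp [this]

theorem cons_face_succ (b : X) {n : ℕ} (v : Fin (n + 2) → X) (i : Fin (n + 2)) :
    (Fin.cons b v : Fin (n + 3) → X) ∘ (Op.face i.succ) =
      (Fin.cons b (v ∘ Op.face i) : Fin (n + 2) → X) := by
  funext a
  refine Fin.cases ?_ (fun a => ?_) a
  · have : (Op.face i.succ (0 : Fin (n + 2)) : Fin (n + 3)) = 0 := by
      ext; rw [Ch.face_val]; simp
    simp [this]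
  · have : (Op.face i.succ a.succ : Fin (n + 3)) = (Op.face i a).succ := by
      ext; rw [Ch.face_val, Fin.val_succ, Fin.val_succ, Fin.val_succ, Ch.face_val]
      split_ifs <;> omega
    simp [this]

theorem bd_cone (b : X) (c : Ch R (EX X)) :
    Ch.bd R (EX X) (cone R b c) = c - cone R b (Ch.bd R (EX X) c)
      - aug R (EX X) c • single ⟨0, (fun _ => b : Fin 1 → X)⟩ 1 := by
  induction c using Finsupp.induction_linear with
  | zero => simp
  | add f g hf hg => simp only [map_add, hf, hg, add_smul]; abel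
  | single t r =>
    obtain ⟨n, v⟩ := t
    rw [cone_single, Ch.bd_single_succ]
    rcases n with _ | n
    · rw [Ch.bd_single_zero, map_zero, sub_zero, aug_single_zero, Fin.sum_univ_two]
      dsimp only
      rw [cons_face_zero]
      have : (Fin.cons b v : Fin 2 → X) ∘ (Op.face (1 : Fin 2)) = (fun _ => b : Fin 1 → X) := by
        funext a
        have : (Op.face (1 : Fin 2) a : Fin 2) = 0 := by
          ext; rw [Ch.face_val]; simp
        simp [this]
      rw [this]
      simp [sub_eq_add_neg]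
    · rw [aug_single_succ, zero_smul, sub_zero, Fin.sum_univ_succ, Ch.bd_single_succ, map_sum]
      dsimp only
      rw [cons_face_zero, sub_eq_add_neg, ← Finset.sum_neg_distrib]
      simp only [Fin.val_zero, pow_zero, mul_one]
      congr 1
      refine Finset.sum_congr rfl fun i _ => ?_
      rw [cons_face_succ, cone_single, Fin.val_succ, pow_succ, ← Finsupp.single_neg]
      congr 1
      ring

theorem aug_cone (b : X) (c : Ch R (EX X)) : aug R (EX X) (cone R b c) = 0 := by
  induction c using Finsupp.induction_linear with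
  | zero => simp
  | add f g hf hg => simp only [map_add, hf, hg, add_zero]
  | single t r =>
    obtain ⟨n, v⟩ := t
    rw [cone_single, aug_single_succ]

theorem map_cone {X' : Type} (g : X → X') (b : X) (c : Ch R (EX X)) :
    Ch.map R (EX.map g) (cone R b c) = cone R (g b) (Ch.map R (EX.map g) c) := by
  induction c using Finsupp.induction_linear with
  | zero => simp
  | add f g hf hg => simp only [map_add, hf, hg]
  | single t r =>
    obtain ⟨n, v⟩ := t
    rw [cone_single, Ch.map_single, Ch.map_single, cone_single]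
    congr 2
    funext a
    refine Fin.cases ?_ (fun a => ?_) a <;> simp [EX_map_app]

theorem cons_dgn (b : X) {n : ℕ} (v : Fin (n + 1) → X) (j : Fin (n + 1)) :
    (Fin.cons b (v ∘ Op.dgn j) : Fin (n + 3) → X) =
      (Fin.cons b v : Fin (n + 2) → X) ∘ Op.dgn j.succ := by
  funext a
  refine Fin.cases ?_ (fun a => ?_) a
  · have : (Op.dgn j.succ (0 : Fin (n + 3)) : Fin (n + 2)) = 0 := by
      ext; rw [Ch.dgn_val]; simp
    simp [this]
  · have : (Op.dgn j.succ a.succ : Fin (n + 2)) = (Op.dgn j a).succ := by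
      ext; rw [Ch.dgn_val, Fin.val_succ, Fin.val_succ, Fin.val_succ, Ch.dgn_val]
      split_ifs <;> omega
    simp [this]

theorem cone_isDgn (b : X) {n : ℕ} (v : Fin (n + 1) → X) (h : Ch.IsDgn (EX X) ⟨n, v⟩) :
    Ch.IsDgn (EX X) ⟨n + 1, (Fin.cons b v : Fin (n + 2) → X)⟩ := by
  rcases n with _ | n
  · exact h.elim
  · obtain ⟨j, y, hy⟩ := h
    refine ⟨j.succ, (Fin.cons b y : Fin (n + 2) → X), ?_⟩
    rw [EX_act] at hy ⊢
    rw [hy, cons_dgn]

theorem cone_mem_Dg (b : X) {c : Ch R (EX X)} (hc : c ∈ Ch.Dg R (EX X)) :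
    cone R b c ∈ Ch.Dg R (EX X) := by
  have : Ch.Dg R (EX X) ≤ (Ch.Dg R (EX X)).comap (cone R b) := by
    refine Submodule.span_le.2 ?_
    rintro _ ⟨⟨n, v⟩, hv, rfl⟩
    rw [SetLike.mem_coe, Submodule.mem_comap, cone_single]
    exact single_mem_Dg (cone_isDgn b v hv) 1
  exact this hc

end cone

section sd

variable (R : Type) [CommRing R] {X : Type} (β : ∀ n, (Fin (n + 1) → X) → X)

/-- subdivision of one tuple -/
noncomputable def sdv : ∀ n, (Fin (n + 1) → X) → Ch R (EX X)
  | 0, v => single ⟨0, v⟩ 1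
  | n + 1, v => ∑ i : Fin (n + 2), ((-1 : R) ^ (i : ℕ)) • cone R (β (n + 1) v) (sdv n (v ∘ Op.face i))

/-- subdivision -/
noncomputable def sd : Ch R (EX X) →ₗ[R] Ch R (EX X) :=
  Finsupp.linearCombination R (fun t : (EX X).T => sdv R β t.1 t.2)

/-- homotopy on one tuple -/
noncomputable def ttv : ∀ n, (Fin (n + 1) → X) → Ch R (EX X)
  | 0, _ => 0
  | n + 1, v => cone R (β (n + 1) v)
      (single ⟨n + 1, v⟩ 1 - ∑ i : Fin (n + 2), ((-1 : R) ^ (i : ℕ)) • ttv n (v ∘ Op.face i))

/-- the homotopy -/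
noncomputable def tt : Ch R (EX X) →ₗ[R] Ch R (EX X) :=
  Finsupp.linearCombination R (fun t : (EX X).T => ttv R β t.1 t.2)

variable {R}

theorem sd_single (n : ℕ) (v : Fin (n + 1) → X) (r : R) :
    sd R β (single ⟨n, v⟩ r) = r • sdv R β n v := by
  rw [sd, Finsupp.linearCombination_single]

theorem tt_single (n : ℕ) (v : Fin (n + 1) → X) (r : R) :
    tt R β (single ⟨n, v⟩ r) = r • ttv R β n v := by
  rw [tt, Finsupp.linearCombination_single]

theorem sdv_succ (n : ℕ) (v : Fin (n + 2) → X) :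
    sdv R β (n + 1) v = cone R (β (n + 1) v) (sd R β (Ch.bd R (EX X) (single ⟨n + 1, v⟩ 1))) := by
  rw [Ch.bd_single_succ, map_sum, map_sum, sdv]
  refine Finset.sum_congr rfl fun i _ => ?_
  rw [sd_single, map_smul, one_mul, EX_act]

theorem ttv_succ (n : ℕ) (v : Fin (n + 2) → X) :
    ttv R β (n + 1) v = cone R (β (n + 1) v)
      (single ⟨n + 1, v⟩ 1 - tt R β (Ch.bd R (EX X) (single ⟨n + 1, v⟩ 1))) := by
  rw [Ch.bd_single_succ, map_sum, ttv]
  congr 2
  refine Finset.sum_congr rfl fun i _ => ?_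
  rw [tt_single, one_mul, EX_act]

/-- two linear maps agreeing on `n`-simplices agree on the boundary of an `(n+1)`-simplex -/
theorem eq_on_bd {K : SS} {M : Type*} [AddCommGroup M] [Module R M] (φ ψ : Ch R K →ₗ[R] M) (n : ℕ)
    (h : ∀ x : K.S n, φ (single ⟨n, x⟩ 1) = ψ (single ⟨n, x⟩ 1)) (x : K.S (n + 1)) (r : R) :
    φ (Ch.bd R K (single ⟨n + 1, x⟩ r)) = ψ (Ch.bd R K (single ⟨n + 1, x⟩ r)) := by
  rw [Ch.bd_single_succ, map_sum, map_sum]
  refine Finset.sum_congr rfl fun i _ => ?_
  have h1 : ∀ (y : K.S n) (s : R), (single ⟨n, y⟩ s : Ch R K) = s • single ⟨n, y⟩ 1 := by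
    intro y s; simp
  rw [h1, map_smul, map_smul, h]

/-- two linear maps agreeing on all simplices are equal -/
theorem ch_ext {K : SS} {M : Type*} [AddCommGroup M] [Module R M] (φ ψ : Ch R K →ₗ[R] M)
    (h : ∀ n (x : K.S n), φ (single ⟨n, x⟩ 1) = ψ (single ⟨n, x⟩ 1)) (c : Ch R K) : φ c = ψ c := by
  have : φ = ψ := by
    refine Finsupp.lhom_ext' fun t => LinearMap.ext_ring ?_
    obtain ⟨n, x⟩ := t
    exact h n x
  rw [this]

theorem aug_sd (c : Ch R (EX X)) : aug R (EX X) (sd R β c) = aug R (EX X) c := by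
  refine ch_ext ((aug R (EX X)) ∘ₗ sd R β) (aug R (EX X)) (fun n v => ?_) c
  rw [LinearMap.comp_apply, sd_single, one_smul]
  rcases n with _ | n
  · rw [sdv]
  · rw [sdv_succ, aug_cone, aug_single_succ]

theorem bd_sdv (n : ℕ) : ∀ v : Fin (n + 1) → X,
    Ch.bd R (EX X) (sdv R β n v) = sd R β (Ch.bd R (EX X) (single ⟨n, v⟩ 1)) := by
  induction n with
  | zero => intro v; rw [sdv, Ch.bd_single_zero, map_zero]
  | succ n ih =>
    intro v
    rw [sdv_succ, bd_cone, aug_sd, aug_bd, zero_smul, sub_zero]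
    have h := eq_on_bd (K := EX X) ((Ch.bd R (EX X)) ∘ₗ sd R β) (sd R β ∘ₗ (Ch.bd R (EX X))) n
      (fun w => by
        rw [LinearMap.comp_apply, LinearMap.comp_apply, sd_single, one_smul]
        exact ih w) v 1
    rw [LinearMap.comp_apply, LinearMap.comp_apply, Ch.bd_bd, map_zero] at h
    rw [h, map_zero, sub_zero]

theorem bd_sd (c : Ch R (EX X)) : Ch.bd R (EX X) (sd R β c) = sd R β (Ch.bd R (EX X) c) := by
  refine ch_ext ((Ch.bd R (EX X)) ∘ₗ sd R β) (sd R β ∘ₗ (Ch.bd R (EX X))) (fun n v => ?_) c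
  rw [LinearMap.comp_apply, LinearMap.comp_apply, sd_single, one_smul, bd_sdv]

theorem aug_tt (c : Ch R (EX X)) : aug R (EX X) (tt R β c) = 0 := by
  refine ch_ext ((aug R (EX X)) ∘ₗ tt R β) 0 (fun n v => ?_) c
  rw [LinearMap.comp_apply, tt_single, one_smul, LinearMap.zero_apply]
  rcases n with _ | n
  · rw [ttv, map_zero]
  · rw [ttv_succ, aug_cone]

theorem bd_ttv (n : ℕ) : ∀ v : Fin (n + 1) → X,
    Ch.bd R (EX X) (ttv R β n v) =
      single ⟨n, v⟩ 1 - tt R β (Ch.bd R (EX X) (single ⟨n, v⟩ 1)) - sdv R β n v := by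
  induction n with
  | zero => intro v; rw [ttv, sdv, Ch.bd_single_zero, map_zero, map_zero]; simp
  | succ n ih =>
    intro v
    rw [ttv_succ, bd_cone, map_sub (aug R (EX X)), aug_tt, aug_single_succ, sub_zero, zero_smul,
      sub_zero, map_sub (Ch.bd R (EX X))]
    have h := eq_on_bd (K := EX X) ((Ch.bd R (EX X)) ∘ₗ tt R β)
      (LinearMap.id - tt R β ∘ₗ (Ch.bd R (EX X)) - sd R β) n
      (fun w => by
        simp only [LinearMap.comp_apply, LinearMap.sub_apply, LinearMap.id_apply]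
        rw [tt_single, one_smul, sd_single, one_smul]
        exact ih w) v 1
    simp only [LinearMap.comp_apply, LinearMap.sub_apply, LinearMap.id_apply, Ch.bd_bd, map_zero,
      sub_zero] at h
    rw [h, sub_sub_cancel, sdv_succ]

theorem bd_tt (c : Ch R (EX X)) :
    Ch.bd R (EX X) (tt R β c) = c - tt R β (Ch.bd R (EX X) c) - sd R β c := by
  have := ch_ext ((Ch.bd R (EX X)) ∘ₗ tt R β)
    (LinearMap.id - tt R β ∘ₗ (Ch.bd R (EX X)) - sd R β) (fun n v => ?_) c
  · simpa only [LinearMap.comp_apply, LinearMap.sub_apply, LinearMap.id_apply] using this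
  · simp only [LinearMap.comp_apply, LinearMap.sub_apply, LinearMap.id_apply]
    rw [tt_single, one_smul, bd_ttv, sd_single, one_smul]

theorem sdv_dgn (n : ℕ) : ∀ v : Fin (n + 1) → X, Ch.IsDgn (EX X) ⟨n, v⟩ → sdv R β n v = 0 := by
  induction n with
  | zero => intro v h; exact h.elim
  | succ n ih =>
    intro v h
    rw [sdv_succ, kill_bd (sd R β) n (fun w hw => by rw [sd_single, one_smul, ih w hw]) v h,
      map_zero]

theorem sd_Dg {c : Ch R (EX X)} (hc : c ∈ Ch.Dg R (EX X)) : sd R β c = 0 := by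
  have : Ch.Dg R (EX X) ≤ LinearMap.ker (sd R β) := by
    refine Submodule.span_le.2 ?_
    rintro _ ⟨⟨n, v⟩, hv, rfl⟩
    rw [SetLike.mem_coe, LinearMap.mem_ker, sd_single, sdv_dgn β n v hv, smul_zero]
  exact this hc

theorem ttv_dgn (n : ℕ) : ∀ v : Fin (n + 1) → X, Ch.IsDgn (EX X) ⟨n, v⟩ →
    ttv R β n v ∈ Ch.Dg R (EX X) := by
  induction n with
  | zero => intro v h; exact h.elim
  | succ n ih =>
    intro v h
    rw [ttv_succ]
    refine cone_mem_Dg _ (Submodule.sub_mem _ (single_mem_Dg h 1) ?_)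
    have := kill_bd ((Submodule.mkQ (Ch.Dg R (EX X))) ∘ₗ tt R β) n (fun w hw => by
      rw [LinearMap.comp_apply, tt_single, one_smul]
      exact (Submodule.Quotient.mk_eq_zero _).2 (ih w hw)) v h 1
    rw [LinearMap.comp_apply] at this
    exact (Submodule.Quotient.mk_eq_zero _).1 this

theorem tt_Dg {c : Ch R (EX X)} (hc : c ∈ Ch.Dg R (EX X)) : tt R β c ∈ Ch.Dg R (EX X) := by
  have : Ch.Dg R (EX X) ≤ (Ch.Dg R (EX X)).comap (tt R β) := by
    refine Submodule.span_le.2 ?_
    rintro _ ⟨⟨n, v⟩, hv, rfl⟩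
    rw [SetLike.mem_coe, Submodule.mem_comap, tt_single]
    exact Submodule.smul_mem _ _ (ttv_dgn β n v hv)
  exact this hc

variable {X' : Type} (β' : ∀ n, (Fin (n + 1) → X') → X') (g : X → X')
  (hg : ∀ n v, g (β n v) = β' n (g ∘ v))

include hg

theorem map_sdv (n : ℕ) : ∀ v : Fin (n + 1) → X,
    Ch.map R (EX.map g) (sdv R β n v) = sdv R β' n (g ∘ v) := by
  induction n with
  | zero => intro v; rw [sdv, sdv, Ch.map_single, EX_map_app]
  | succ n ih =>
    intro v
    rw [sdv, sdv, map_sum]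
    refine Finset.sum_congr rfl fun i _ => ?_
    rw [map_smul, map_cone, ih, hg]
    rfl

theorem map_sd (c : Ch R (EX X)) :
    Ch.map R (EX.map g) (sd R β c) = sd R β' (Ch.map R (EX.map g) c) := by
  refine ch_ext (Ch.map R (EX.map g) ∘ₗ sd R β) (sd R β' ∘ₗ Ch.map R (EX.map g)) (fun n v => ?_) c
  rw [LinearMap.comp_apply, LinearMap.comp_apply, sd_single, one_smul, map_sdv β β' g hg,
    Ch.map_single, sd_single, one_smul, EX_map_app]

theorem map_ttv (n : ℕ) : ∀ v : Fin (n + 1) → X,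
    Ch.map R (EX.map g) (ttv R β n v) = ttv R β' n (g ∘ v) := by
  induction n with
  | zero => intro v; rw [ttv, ttv, map_zero]
  | succ n ih =>
    intro v
    rw [ttv, ttv, map_cone, map_sub, map_sum, Ch.map_single, hg, EX_map_app]
    congr 2
    refine Finset.sum_congr rfl fun i _ => ?_
    rw [map_smul, ih]
    rfl

theorem map_tt (c : Ch R (EX X)) :
    Ch.map R (EX.map g) (tt R β c) = tt R β' (Ch.map R (EX.map g) c) := by
  refine ch_ext (Ch.map R (EX.map g) ∘ₗ tt R β) (tt R β' ∘ₗ Ch.map R (EX.map g)) (fun n v => ?_) c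
  rw [LinearMap.comp_apply, LinearMap.comp_apply, tt_single, one_smul, map_ttv β β' g hg,
    Ch.map_single, tt_single, one_smul, EX_map_app]

end sd

end Crest.Agent.R204.Exc406
private theorem rz_d56eb1d1e5 : type_of% @_root_.Crest.Agent.R204.Exc406.sdv.eq_def := @_root_.Crest.Agent.R204.Exc406.sdv.eq_def -- L241
private theorem rz_a39900a508 : type_of% @_root_.Crest.Agent.R204.Exc406.sdv.eq_1 := @_root_.Crest.Agent.R204.Exc406.sdv.eq_1 -- L241
private theorem rz_1a1684aad2 : type_of% @_root_.Crest.Agent.R204.Exc406.ttv.eq_def := @_root_.Crest.Agent.R204.Exc406.ttv.eq_def -- L250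
private theorem rz_ec1aeb926d : type_of% @_root_.Crest.Agent.R204.Exc406.ttv.eq_1 := @_root_.Crest.Agent.R204.Exc406.ttv.eq_1 -- L250
end

-- ▼ part R204/ExcB_406
section

/-!
# Row 204, leaf A-EXC (helper406): subdivision on presheaves on topological simplices

`TK` : simplicial sets on which all continuous maps between standard simplices act (`Sing Y`, small
simplices, ...).  Every such `K` carries natural operators `Sd`, `Tt` on `Ch R K` and `N R K`.
-/

set_option autoImplicit false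

namespace Crest.Agent.R204.Exc406

open Finsupp

/-- topological standard simplex -/
abbrev D (n : ℕ) : Type := stdSimplex ℝ (Fin (n + 1))

/-- map of topological simplices induced by a monotone map -/
noncomputable def smap {m n : ℕ} (f : Op m n) : C(D m, D n) :=
  ⟨stdSimplex.map f, stdSimplex.continuous_map f⟩

theorem map_apply {m n : ℕ} (f : Fin (m + 1) → Fin (n + 1)) (t : D m) (k : Fin (n + 1)) :
    (stdSimplex.map f t : D n) k = ∑ j, if f j = k then t j else 0 := by
  classical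
  rw [stdSimplex.map_coe, FunOnFinite.linearMap_apply_apply, Finset.sum_filter]

/-! ## affine simplices -/

theorem aff_mem {n q : ℕ} (v : Fin (q + 1) → D n) (t : D q) :
    (fun k => ∑ i, t i * v i k) ∈ stdSimplex ℝ (Fin (n + 1)) := by
  constructor
  · intro k
    exact Finset.sum_nonneg fun i _ => mul_nonneg (stdSimplex.zero_le t i) (stdSimplex.zero_le (v i) k)
  · rw [Finset.sum_comm]
    have : ∀ i, ∑ k, t i * v i k = t i := by
      intro i
      rw [← Finset.mul_sum, stdSimplex.sum_eq_one, mul_one]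
    simp only [this]
    exact stdSimplex.sum_eq_one t

/-- the affine simplex with vertices `v` -/
noncomputable def aff {n q : ℕ} (v : Fin (q + 1) → D n) : C(D q, D n) where
  toFun t := ⟨fun k => ∑ i, t i * v i k, aff_mem v t⟩
  continuous_toFun := by
    refine Continuous.subtype_mk (continuous_pi fun k => ?_) _
    refine continuous_finsetSum _ fun i _ => ?_
    refine Continuous.mul ?_ continuous_const
    exact (continuous_apply i).comp continuous_subtype_val

theorem aff_apply {n q : ℕ} (v : Fin (q + 1) → D n) (t : D q) (k : Fin (n + 1)) :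
    aff v t k = ∑ i, t i * v i k := rfl

theorem D_ext {n : ℕ} {s t : D n} (h : ∀ k, s k = t k) : s = t :=
  stdSimplex.ext (funext h)

theorem aff_comp_smap {n q m : ℕ} (v : Fin (q + 1) → D n) (f : Op m q) :
    (aff v).comp (smap f) = aff (v ∘ f) := by
  ext t : 1
  refine D_ext fun k => ?_
  show aff v (stdSimplex.map f t) k = aff (v ∘ f) t k
  rw [aff_apply, aff_apply]
  simp only [map_apply, Finset.sum_mul, ite_mul, zero_mul]
  rw [Finset.sum_comm]
  refine Finset.sum_congr rfl fun j _ => ?_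
  rw [Finset.sum_ite_eq]
  simp

theorem aff_comp_aff {n q m : ℕ} (v : Fin (q + 1) → D n) (u : Fin (m + 1) → D q) :
    (aff v).comp (aff u) = aff (aff v ∘ u) := by
  ext t : 1
  refine D_ext fun k => ?_
  show aff v (aff u t) k = aff (aff v ∘ u) t k
  rw [aff_apply, aff_apply]
  simp only [aff_apply, Function.comp_apply, Finset.sum_mul, Finset.mul_sum]
  rw [Finset.sum_comm]
  refine Finset.sum_congr rfl fun i _ => Finset.sum_congr rfl fun j _ => by ring

/-- the tuple of vertices -/
noncomputable def vtx (n : ℕ) : Fin (n + 1) → D n := fun i => stdSimplex.vertex i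

theorem vtx_apply (n : ℕ) (i k : Fin (n + 1)) : vtx n i k = if k = i then 1 else 0 := by
  show (Pi.single i 1 : Fin (n + 1) → ℝ) k = _
  rw [Pi.single_apply]

theorem aff_vtx (n : ℕ) : aff (vtx n) = ContinuousMap.id (D n) := by
  ext t : 1
  refine D_ext fun k => ?_
  rw [aff_apply]
  simp only [vtx_apply, mul_ite, mul_one, mul_zero]
  rw [Finset.sum_ite_eq]
  simp

theorem aff_comp_vtx {n q : ℕ} (v : Fin (q + 1) → D n) : (aff v) ∘ vtx q = v := by
  funext i
  refine D_ext fun k => ?_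
  rw [Function.comp_apply, aff_apply]
  simp only [vtx_apply, ite_mul, one_mul, zero_mul]
  rw [Finset.sum_ite_eq']
  simp

theorem smap_eq_aff {m n : ℕ} (f : Op m n) : smap f = aff (vtx n ∘ f) := by
  rw [← aff_comp_smap, aff_vtx, ContinuousMap.id_comp]

/-! ## barycentres -/

theorem bary_mem {n q : ℕ} (v : Fin (q + 1) → D n) :
    (fun k => (∑ i, v i k) / ((q : ℝ) + 1)) ∈ stdSimplex ℝ (Fin (n + 1)) := by
  have hq : (0 : ℝ) < (q : ℝ) + 1 := by positivity
  constructor
  · intro k
    exact div_nonneg (Finset.sum_nonneg fun i _ => stdSimplex.zero_le (v i) k) hq.le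
  · rw [← Finset.sum_div, Finset.sum_comm, div_eq_one_iff_eq hq.ne']
    simp only [stdSimplex.sum_eq_one]
    simp

/-- barycentre -/
noncomputable def bary (n q : ℕ) (v : Fin (q + 1) → D n) : D n :=
  ⟨fun k => (∑ i, v i k) / ((q : ℝ) + 1), bary_mem v⟩

theorem bary_apply (n q : ℕ) (v : Fin (q + 1) → D n) (k : Fin (n + 1)) :
    bary n q v k = (∑ i, v i k) / ((q : ℝ) + 1) := rfl

theorem aff_bary {n q m : ℕ} (v : Fin (q + 1) → D n) (u : Fin (m + 1) → D q) :
    aff v (bary q m u) = bary n m (aff v ∘ u) := by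
  refine D_ext fun k => ?_
  rw [aff_apply, bary_apply]
  simp only [bary_apply, Function.comp_apply, aff_apply]
  rw [Finset.sum_comm, Finset.sum_div]
  refine Finset.sum_congr rfl fun i _ => ?_
  rw [← Finset.sum_mul]
  ring

/-! ## presheaves on topological simplices -/

/-- simplicial sets with an action of all continuous maps between topological simplices -/
structure TK where
  K : SS
  tact : ∀ {m n : ℕ}, C(D m, D n) → K.S n → K.S m
  tact_comp : ∀ {l m n : ℕ} (f : C(D l, D m)) (g : C(D m, D n)) (x : K.S n),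
    tact (g.comp f) x = tact f (tact g x)
  tact_map : ∀ {m n : ℕ} (f : Op m n) (x : K.S n), tact (smap f) x = K.act f x

namespace TK

theorem tact_id (L : TK) {n : ℕ} (x : L.K.S n) : L.tact (ContinuousMap.id (D n)) x = x := by
  have h : (ContinuousMap.id (D n)) = smap (OrderHom.id : Op n n) := by
    ext t : 1
    refine D_ext fun k => ?_
    show t k = (stdSimplex.map _ t : D n) k
    rw [map_apply]
    simp
  rw [h, L.tact_map, L.K.act_id]

/-- maps -/
structure Hom (L M : TK) where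
  hom : SS.Hom L.K M.K
  tnat : ∀ {m n : ℕ} (f : C(D m, D n)) (x : L.K.S n),
    hom.app m (L.tact f x) = M.tact f (hom.app n x)

/-- the map from the singular set of a simplex -/
noncomputable def yo (L : TK) {n : ℕ} (x : L.K.S n) : SS.Hom (SS.Sing (D n)) L.K :=
  ⟨fun _ τ => L.tact τ x, fun f τ => (L.tact_comp (smap f) τ x).trans (L.tact_map f _)⟩


end TK

/-- the singular set as a `TK` -/
noncomputable def TSing (Y : Type) [TopologicalSpace Y] : TK where
  K := SS.Sing Y
  tact f σ := ContinuousMap.comp σ f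
  tact_comp _ _ _ := rfl
  tact_map _ _ := rfl

/-- maps of singular sets -/
noncomputable def TSingMap {Y Z : Type} [TopologicalSpace Y] [TopologicalSpace Z] (f : C(Y, Z)) :
    TK.Hom (TSing Y) (TSing Z) :=
  ⟨SS.SingMap f, fun _ _ => rfl⟩

/-- affine simplices as a simplicial map -/
noncomputable def affHom (n : ℕ) : SS.Hom (EX (D n)) (SS.Sing (D n)) :=
  ⟨fun _ v => aff v, fun f v => (aff_comp_smap v f).symm⟩

/-- the composite `EX (D n) → Sing (D n) → L` for a simplex `x` -/
noncomputable def chr (L : TK) {n : ℕ} (x : L.K.S n) : SS.Hom (EX (D n)) L.K :=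
  (L.yo x).comp (affHom n)

theorem chr_app (L : TK) {n q : ℕ} (x : L.K.S n) (v : Fin (q + 1) → D n) :
    (chr L x).app q v = L.tact (aff v) x := rfl

theorem chr_vtx (L : TK) {n : ℕ} (x : L.K.S n) : (chr L x).app n (vtx n) = x := by
  rw [chr_app, aff_vtx, L.tact_id]

theorem map_comp' {R : Type} [CommRing R] {K L M : SS} (f : SS.Hom K L) (g : SS.Hom L M)
    (c : Ch R K) : Ch.map R (g.comp f) c = Ch.map R g (Ch.map R f c) := by
  refine ch_ext (Ch.map R (g.comp f)) (Ch.map R g ∘ₗ Ch.map R f) (fun n x => ?_) c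
  rw [LinearMap.comp_apply, Ch.map_single, Ch.map_single, Ch.map_single]
  rfl

/-- a `β`-natural operator on tuples -/
structure NatOp (R : Type) [CommRing R] where
  φ : ∀ n : ℕ, Ch R (EX (D n)) →ₗ[R] Ch R (EX (D n))
  nat : ∀ {m n : ℕ} (v : Fin (m + 1) → D n) (c : Ch R (EX (D m))),
    Ch.map R (EX.map (aff v)) (φ m c) = φ n (Ch.map R (EX.map (aff v)) c)

namespace NatOp

variable {R : Type} [CommRing R] (Φ : NatOp R)

/-- the induced operator on `Ch R L` -/
noncomputable def op (L : TK) : Ch R L.K →ₗ[R] Ch R L.K :=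
  Finsupp.linearCombination R
    (fun t : L.K.T => Ch.map R (chr L t.2) (Φ.φ t.1 (single ⟨t.1, vtx t.1⟩ 1)))

theorem op_single (L : TK) {n : ℕ} (x : L.K.S n) (r : R) :
    Φ.op L (single ⟨n, x⟩ r) = r • Ch.map R (chr L x) (Φ.φ n (single ⟨n, vtx n⟩ 1)) := by
  rw [op, Finsupp.linearCombination_single]

theorem chr_tact (L : TK) {m n : ℕ} (x : L.K.S n) (v : Fin (m + 1) → D n) :
    chr L (L.tact (aff v) x) = (chr L x).comp (EX.map (aff v)) := by
  refine SS.Hom.ext (funext fun q => funext fun u => ?_)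
  show L.tact (aff u) (L.tact (aff v) x) = L.tact (aff (aff v ∘ u)) x
  rw [← L.tact_comp, aff_comp_aff]

/-- the operator commutes with the characteristic maps -/
theorem op_chr (L : TK) {n : ℕ} (x : L.K.S n) (c : Ch R (EX (D n))) :
    Φ.op L (Ch.map R (chr L x) c) = Ch.map R (chr L x) (Φ.φ n c) := by
  refine ch_ext (Φ.op L ∘ₗ Ch.map R (chr L x)) (Ch.map R (chr L x) ∘ₗ Φ.φ n) (fun m v => ?_) c
  rw [LinearMap.comp_apply, LinearMap.comp_apply, Ch.map_single, op_single, one_smul, chr_app,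
    chr_tact, map_comp', Φ.nat, Ch.map_single]
  have : (EX.map (aff v)).app m (vtx m) = v := aff_comp_vtx v
  rw [this]

theorem single_eq (L : TK) {n : ℕ} (x : L.K.S n) :
    (single ⟨n, x⟩ 1 : Ch R L.K) = Ch.map R (chr L x) (single ⟨n, vtx n⟩ 1) := by
  rw [Ch.map_single, chr_vtx]

/-- naturality -/
theorem op_map {L M : TK} (F : TK.Hom L M) (c : Ch R L.K) :
    Φ.op M (Ch.map R F.hom c) = Ch.map R F.hom (Φ.op L c) := by
  refine ch_ext (Φ.op M ∘ₗ Ch.map R F.hom) (Ch.map R F.hom ∘ₗ Φ.op L) (fun n x => ?_) c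
  rw [LinearMap.comp_apply, LinearMap.comp_apply, Ch.map_single, op_single, one_smul, op_single,
    one_smul, ← map_comp']
  have : chr M (F.hom.app n x) = F.hom.comp (chr L x) := by
    refine SS.Hom.ext (funext fun q => funext fun u => ?_)
    exact (F.tnat (aff u) x).symm
  rw [this]

end NatOp


variable (R : Type) [CommRing R]

/-- subdivision as a natural operator -/
noncomputable def SdOp : NatOp R where
  φ n := sd R (bary n)
  nat v c := map_sd (bary _) (bary _) (aff v) (fun _ u => aff_bary v u) c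

/-- the homotopy as a natural operator -/
noncomputable def TtOp : NatOp R where
  φ n := tt R (bary n)
  nat v c := map_tt (bary _) (bary _) (aff v) (fun _ u => aff_bary v u) c

/-- subdivision on `Ch R L` -/
noncomputable def Sd (L : TK) : Ch R L.K →ₗ[R] Ch R L.K := (SdOp R).op L
/-- homotopy on `Ch R L` -/
noncomputable def Tt (L : TK) : Ch R L.K →ₗ[R] Ch R L.K := (TtOp R).op L

variable {R}

theorem bd_Sd (L : TK) (c : Ch R L.K) : Ch.bd R L.K (Sd R L c) = Sd R L (Ch.bd R L.K c) := by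
  refine ch_ext (Ch.bd R L.K ∘ₗ Sd R L) (Sd R L ∘ₗ Ch.bd R L.K) (fun n x => ?_) c
  rw [LinearMap.comp_apply, LinearMap.comp_apply, NatOp.single_eq L x, Sd, NatOp.op_chr,
    ← Ch.map_bd, ← Ch.map_bd, NatOp.op_chr]
  congr 1
  exact bd_sd (bary n) _

theorem bd_Tt (L : TK) (c : Ch R L.K) :
    Ch.bd R L.K (Tt R L c) = c - Tt R L (Ch.bd R L.K c) - Sd R L c := by
  have := ch_ext (Ch.bd R L.K ∘ₗ Tt R L) (LinearMap.id - Tt R L ∘ₗ Ch.bd R L.K - Sd R L)
    (fun n x => ?_) c
  · simpa only [LinearMap.comp_apply, LinearMap.sub_apply, LinearMap.id_apply] using this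
  · simp only [LinearMap.comp_apply, LinearMap.sub_apply, LinearMap.id_apply]
    rw [NatOp.single_eq L x, Tt, Sd, NatOp.op_chr, ← Ch.map_bd, ← Ch.map_bd, NatOp.op_chr,
      NatOp.op_chr, ← map_sub, ← map_sub]
    congr 1
    exact bd_tt (bary n) _

theorem Sd_Dg (L : TK) {c : Ch R L.K} (hc : c ∈ Ch.Dg R L.K) : Sd R L c = 0 := by
  have : Ch.Dg R L.K ≤ LinearMap.ker (Sd R L) := by
    refine Submodule.span_le.2 ?_
    rintro _ ⟨⟨n, x⟩, hx, rfl⟩
    rw [SetLike.mem_coe, LinearMap.mem_ker]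
    rcases n with _ | n
    · exact hx.elim
    · obtain ⟨j, y, rfl⟩ := hx
      have h1 : (single ⟨n + 1, L.K.act (Op.dgn j) y⟩ 1 : Ch R L.K) =
          Ch.map R (chr L y) (single ⟨n + 1, vtx n ∘ Op.dgn j⟩ 1) := by
        rw [Ch.map_single, chr_app, ← smap_eq_aff, L.tact_map]
      rw [h1, Sd, NatOp.op_chr]
      have h2 : (SdOp R).φ n (single ⟨n + 1, vtx n ∘ Op.dgn j⟩ 1) = 0 :=
        sd_Dg (bary n) (single_mem_Dg (Ch.isDgn_act (EX (D n)) j (vtx n)) 1)
      rw [h2, map_zero]
  exact this hc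

theorem Tt_Dg (L : TK) {c : Ch R L.K} (hc : c ∈ Ch.Dg R L.K) : Tt R L c ∈ Ch.Dg R L.K := by
  have : Ch.Dg R L.K ≤ (Ch.Dg R L.K).comap (Tt R L) := by
    refine Submodule.span_le.2 ?_
    rintro _ ⟨⟨n, x⟩, hx, rfl⟩
    rw [SetLike.mem_coe, Submodule.mem_comap]
    rcases n with _ | n
    · exact hx.elim
    · obtain ⟨j, y, rfl⟩ := hx
      have h1 : (single ⟨n + 1, L.K.act (Op.dgn j) y⟩ 1 : Ch R L.K) =
          Ch.map R (chr L y) (single ⟨n + 1, vtx n ∘ Op.dgn j⟩ 1) := by
        rw [Ch.map_single, chr_app, ← smap_eq_aff, L.tact_map]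
      rw [h1, Tt, NatOp.op_chr]
      exact Ch.map_mem_Dg _ (tt_Dg (bary n) (single_mem_Dg (Ch.isDgn_act (EX (D n)) j (vtx n)) 1))
  exact this hc

/-! ## operators on normalised chains -/

/-- subdivision on normalised chains -/
noncomputable def SdN (L : TK) : N R L.K →ₗ[R] N R L.K :=
  Submodule.mapQ _ _ (Sd R L) (fun _ hc => by
    rw [Submodule.mem_comap, Sd_Dg L hc]; exact Submodule.zero_mem _)

/-- homotopy on normalised chains -/
noncomputable def TtN (L : TK) : N R L.K →ₗ[R] N R L.K :=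
  Submodule.mapQ _ _ (Tt R L) (fun _ hc => Tt_Dg L hc)

theorem SdN_mk (L : TK) (c : Ch R L.K) :
    SdN L (Submodule.Quotient.mk c : N R L.K) = Submodule.Quotient.mk (Sd R L c) := rfl

theorem TtN_mk (L : TK) (c : Ch R L.K) :
    TtN L (Submodule.Quotient.mk c : N R L.K) = Submodule.Quotient.mk (Tt R L c) := rfl

theorem bd_SdN (L : TK) (c : N R L.K) : N.bd R L.K (SdN L c) = SdN L (N.bd R L.K c) := by
  obtain ⟨c, rfl⟩ := Submodule.Quotient.mk_surjective _ c
  rw [SdN_mk, N.bd_mk, N.bd_mk, SdN_mk, bd_Sd]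

theorem bd_TtN (L : TK) (c : N R L.K) :
    N.bd R L.K (TtN L c) = c - TtN L (N.bd R L.K c) - SdN L c := by
  obtain ⟨c, rfl⟩ := Submodule.Quotient.mk_surjective _ c
  rw [TtN_mk, N.bd_mk, N.bd_mk, TtN_mk, SdN_mk, bd_Tt]
  rfl

theorem SdN_map {L M : TK} (F : TK.Hom L M) (c : N R L.K) :
    SdN M (N.map R F.hom c) = N.map R F.hom (SdN L c) := by
  obtain ⟨c, rfl⟩ := Submodule.Quotient.mk_surjective _ c
  rw [N.map_mk, SdN_mk, SdN_mk, N.map_mk, Sd, NatOp.op_map]
  rfl

theorem SdN_iterate_map {L M : TK} (F : TK.Hom L M) (k : ℕ) (c : N R L.K) :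
    (SdN M)^[k] (N.map R F.hom c) = N.map R F.hom ((SdN L)^[k] c) := by
  induction k generalizing c with
  | zero => rfl
  | succ k ih => rw [Function.iterate_succ_apply, Function.iterate_succ_apply, SdN_map, ih]

theorem bd_SdN_iterate (L : TK) (k : ℕ) (c : N R L.K) :
    N.bd R L.K ((SdN L)^[k] c) = (SdN L)^[k] (N.bd R L.K c) := by
  induction k generalizing c with
  | zero => rfl
  | succ k ih => rw [Function.iterate_succ_apply, Function.iterate_succ_apply, ih, bd_SdN]

theorem SdN_iterate_zero (L : TK) (k : ℕ) : (SdN L)^[k] (0 : N R L.K) = 0 := by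
  induction k with
  | zero => rfl
  | succ k ih => rw [Function.iterate_succ_apply, map_zero, ih]

/-- iterated subdivision does not change the class of a cycle -/
theorem SdN_iterate_cycle (L : TK) (k : ℕ) (z : N R L.K) (hz : N.bd R L.K z = 0) :
    ∃ w, z - (SdN L)^[k] z = N.bd R L.K w := by
  induction k with
  | zero => exact ⟨0, by simp⟩
  | succ k ih =>
    obtain ⟨w, hw⟩ := ih
    refine ⟨w + TtN L ((SdN L)^[k] z), ?_⟩
    rw [map_add, ← hw, bd_TtN, bd_SdN_iterate, hz, Function.iterate_succ_apply', SdN_iterate_zero,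
      map_zero]
    abel

end Crest.Agent.R204.Exc406
end

-- ▼ part R204/ExcC_406
section

/-!
# Row 204, leaf A-EXC (helper406): the small simplices theorem

`small`: if `P` is a sub-presheaf of the `TK` `L` such that every simplex of `L` has a `δ > 0` with
`(∀ a b, dist (τ a) (τ b) < δ) → τ^* x ∈ P`, then `H R P → H R L` is bijective.
-/

set_option autoImplicit false

namespace Crest.Agent.R204.Exc406

open Finsupp

/-! ## degenerate chains and injectivity on normalised chains -/

theorem mem_Dg_iff {R : Type} [CommRing R] {K : SS} (c : Ch R K) :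
    c ∈ Ch.Dg R K ↔ ∀ t, c t ≠ 0 → Ch.IsDgn K t := by
  have h : Ch.Dg R K = Finsupp.supported R R {t | Ch.IsDgn K t} := by
    rw [Finsupp.supported_eq_span_single, Ch.Dg]
    congr 1
    ext c
    simp only [Set.mem_ofPred_eq, Set.mem_image]
    constructor
    · rintro ⟨t, ht, rfl⟩; exact ⟨t, ht, rfl⟩
    · rintro ⟨t, ht, rfl⟩; exact ⟨t, ht, rfl⟩
  rw [h, Finsupp.mem_supported]
  constructor
  · intro h t ht
    exact h (by simpa using ht)
  · intro h t ht
    exact h t (by simpa using ht)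

theorem isDgn_of_map {K L : SS} (f : SS.Hom K L) (hf : ∀ n, Function.Injective (f.app n)) {n : ℕ}
    {x : K.S n} (h : Ch.IsDgn L ⟨n, f.app n x⟩) : Ch.IsDgn K ⟨n, x⟩ := by
  rcases n with _ | n
  · exact h.elim
  · obtain ⟨j, y, hy⟩ := h
    refine ⟨j, K.act (Op.face j.castSucc) x, hf _ ?_⟩
    rw [f.nat, f.nat, hy, ← L.act_comp (Op.face j.castSucc) (Op.dgn j),
      Ch.face_dgn_eq _ _ (Or.inl rfl), L.act_id]

theorem map_inj {R : Type} [CommRing R] {K L : SS} (f : SS.Hom K L)
    (hf : ∀ n, Function.Injective (f.app n)) : Function.Injective (N.map R f) := by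
  have hinj : Function.Injective (fun t : K.T => (⟨t.1, f.app t.1 t.2⟩ : L.T)) := by
    rintro ⟨n, x⟩ ⟨m, y⟩ h
    simp only [Sigma.mk.injEq] at h
    obtain ⟨rfl, h⟩ := h
    rw [heq_eq_eq] at h
    rw [hf _ h]
  rw [injective_iff_map_eq_zero]
  intro c
  obtain ⟨c, rfl⟩ := Submodule.Quotient.mk_surjective _ c
  rw [N.map_mk]
  intro h
  rw [Submodule.Quotient.mk_eq_zero, mem_Dg_iff] at h
  rw [Submodule.Quotient.mk_eq_zero, mem_Dg_iff]
  rintro ⟨n, x⟩ hx
  refine isDgn_of_map f hf (h ⟨n, f.app n x⟩ ?_)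
  have : Ch.map R f c ⟨n, f.app n x⟩ = c ⟨n, x⟩ := by
    rw [Ch.map, Finsupp.lmapDomain_apply]
    exact Finsupp.mapDomain_apply hinj c ⟨n, x⟩
  rw [this]
  exact hx

/-! ## mesh estimates -/

section mesh

variable {R : Type} [CommRing R] {X : Type} [PseudoMetricSpace X] (β : ∀ n, (Fin (n + 1) → X) → X)

/-- span of the tuples of length `q+1` with a property -/
noncomputable def spn (R : Type) [CommRing R] {X : Type} (q : ℕ) (S : (Fin (q + 1) → X) → Prop) :
    Submodule R (Ch R (EX X)) :=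
  Submodule.span R {c | ∃ w, S w ∧ c = single ⟨q, w⟩ 1}

theorem spn_mono {X : Type} {q : ℕ} {S S' : (Fin (q + 1) → X) → Prop} (h : ∀ w, S w → S' w) :
    spn R q S ≤ spn R q S' := by
  refine Submodule.span_mono ?_
  rintro _ ⟨w, hw, rfl⟩
  exact ⟨w, h w hw, rfl⟩

theorem spn_map {X : Type} {q q' : ℕ} {S : (Fin (q + 1) → X) → Prop}
    {S' : (Fin (q' + 1) → X) → Prop}
    (φ : Ch R (EX X) →ₗ[R] Ch R (EX X)) (h : ∀ w, S w → φ (single ⟨q, w⟩ 1) ∈ spn R q' S')
    {c : Ch R (EX X)} (hc : c ∈ spn R q S) : φ c ∈ spn R q' S' := by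
  have : spn R q S ≤ (spn R q' S').comap φ := by
    refine Submodule.span_le.2 ?_
    rintro _ ⟨w, hw, rfl⟩
    exact h w hw
  exact this hc

/-- `w` lies in the ball hull of `v` -/
def Cv {p q : ℕ} (v : Fin (p + 1) → X) (w : Fin (q + 1) → X) : Prop :=
  ∀ (x : X) (r : ℝ), (∀ i, dist x (v i) ≤ r) → ∀ j, dist x (w j) ≤ r

/-- mesh bound -/
def Mesh {q : ℕ} (d : ℝ) (w : Fin (q + 1) → X) : Prop := ∀ i j, dist (w i) (w j) ≤ d

/-- hypotheses on the barycentre function -/
structure BHyp : Prop where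
  conv : ∀ q (v : Fin (q + 1) → X) (x : X) (r : ℝ), (∀ i, dist x (v i) ≤ r) → dist x (β q v) ≤ r
  mid : ∀ q (v : Fin (q + 1) → X) (d : ℝ), Mesh d v → ∀ i, dist (β q v) (v i) ≤ (q : ℝ) / (q + 1) * d

variable {β}

theorem sdv_mem (hβ : BHyp β) (q : ℕ) : ∀ (v : Fin (q + 1) → X) (d : ℝ), Mesh d v →
    sdv R β q v ∈ spn R q (fun w => Cv v w ∧ Mesh ((q : ℝ) / (q + 1) * d) w) := by
  induction q with
  | zero =>
    intro v d _
    refine Submodule.subset_span ⟨v, ⟨fun x r h j => h j, fun i j => ?_⟩, rfl⟩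
    obtain rfl : i = j := Fin.ext (by omega)
    rw [dist_self]
    simp
  | succ q ih =>
    intro v d hd
    have hd0 : 0 ≤ d := dist_nonneg.trans (hd 0 0)
    rw [sdv]
    refine Submodule.sum_mem _ fun i _ => Submodule.smul_mem _ _ ?_
    refine spn_map (cone R (β (q + 1) v)) ?_ (ih (v ∘ Op.face i) d (fun a b => hd _ _))
    rintro w ⟨h1, h2⟩
    rw [cone_single]
    refine Submodule.subset_span ⟨_, ⟨?_, ?_⟩, rfl⟩
    · intro x r h j
      refine Fin.cases ?_ (fun j => ?_) j
      · exact hβ.conv _ v x r h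
      · exact h1 x r (fun i => h _) j
    · have h3 : (q : ℝ) / (q + 1) * d ≤ ((q + 1 : ℕ) : ℝ) / ((q + 1 : ℕ) + 1) * d := by
        refine mul_le_mul_of_nonneg_right ?_ hd0
        push_cast
        rw [div_le_div_iff₀ (by positivity) (by positivity)]
        nlinarith
      have h4 : ∀ j, dist (β (q + 1) v) (w j) ≤ ((q + 1 : ℕ) : ℝ) / ((q + 1 : ℕ) + 1) * d :=
        fun j => h1 _ _ (fun a => hβ.mid _ v d hd _) j
      have h5 : 0 ≤ ((q + 1 : ℕ) : ℝ) / ((q + 1 : ℕ) + 1) * d := by positivity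
      intro a b
      refine Fin.cases ?_ (fun a => ?_) a
      · refine Fin.cases ?_ (fun b => ?_) b
        · rw [dist_self]; exact h5
        · exact h4 b
      · refine Fin.cases ?_ (fun b => ?_) b
        · rw [dist_comm]; exact h4 a
        · exact (h2 a b).trans h3

theorem Cv.trans {p q r : ℕ} {u : Fin (p + 1) → X} {v : Fin (q + 1) → X} {w : Fin (r + 1) → X}
    (h : Cv u v) (h' : Cv v w) : Cv u w := fun x s hs => h' x s (h x s hs)

theorem sd_iterate_mem (hβ : BHyp β) (q : ℕ) (v : Fin (q + 1) → X) (d : ℝ) (hd : Mesh d v) (k : ℕ) :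
    (sd R β)^[k] (single ⟨q, v⟩ 1) ∈
      spn R q (fun w => Cv v w ∧ Mesh (((q : ℝ) / (q + 1)) ^ k * d) w) := by
  induction k with
  | zero =>
    refine Submodule.subset_span ⟨v, ⟨fun x r h => h, ?_⟩, rfl⟩
    simpa using hd
  | succ k ih =>
    rw [Function.iterate_succ_apply']
    refine spn_map (sd R β) ?_ ih
    rintro w ⟨h1, h2⟩
    rw [sd_single, one_smul]
    refine spn_mono ?_ (sdv_mem hβ q w _ h2)
    rintro u ⟨h3, h4⟩
    refine ⟨h1.trans h3, ?_⟩
    rw [pow_succ', mul_assoc]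
    exact h4

end mesh

/-! ## the standard simplex -/

theorem dist_D_le {n : ℕ} (p q : D n) (r : ℝ) (hr : 0 ≤ r) :
    dist p q ≤ r ↔ ∀ i, |p i - q i| ≤ r := by
  rw [Subtype.dist_eq, dist_pi_le_iff hr]
  rfl

theorem aff_conv {n q : ℕ} (v : Fin (q + 1) → D n) (x : D n) (r : ℝ) (h : ∀ i, dist x (v i) ≤ r)
    (t : D q) : dist x (aff v t) ≤ r := by
  have hr : 0 ≤ r := dist_nonneg.trans (h 0)
  rw [dist_D_le _ _ _ hr]
  intro k
  rw [aff_apply]
  have h1 : x k = ∑ i, t i * x k := by
    rw [← Finset.sum_mul, stdSimplex.sum_eq_one, one_mul]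
  rw [h1, ← Finset.sum_sub_distrib]
  refine (Finset.abs_sum_le_sum_abs _ _).trans ?_
  have h2 : r = ∑ i, t i * r := by
    rw [← Finset.sum_mul, stdSimplex.sum_eq_one, one_mul]
  rw [h2]
  refine Finset.sum_le_sum fun i _ => ?_
  rw [← mul_sub, abs_mul, abs_of_nonneg (stdSimplex.zero_le t i)]
  exact mul_le_mul_of_nonneg_left ((dist_D_le _ _ _ hr).1 (h i) k) (stdSimplex.zero_le t i)

theorem aff_mesh {n q : ℕ} (w : Fin (q + 1) → D n) (d : ℝ) (h : Mesh d w) (a b : D q) :
    dist (aff w a) (aff w b) ≤ d := by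
  refine aff_conv w _ d (fun i => ?_) b
  rw [dist_comm]
  exact aff_conv w _ d (fun j => h i j) a

theorem bary_eq_aff {n q : ℕ} (v : Fin (q + 1) → D n) :
    bary n q v = aff v (bary q q (vtx q)) := by
  rw [aff_bary, aff_comp_vtx]

theorem bhyp (n : ℕ) : BHyp (bary n) where
  conv q v x r h := by
    rw [bary_eq_aff]
    exact aff_conv v x r h _
  mid q v d hd i := by
    have hd0 : 0 ≤ d := dist_nonneg.trans (hd 0 0)
    have hq : (0 : ℝ) < (q : ℝ) + 1 := by positivity
    rw [dist_D_le _ _ _ (by positivity)]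
    intro k
    rw [bary_apply]
    have h1 : (∑ j, v j k) / ((q : ℝ) + 1) - v i k = (∑ j, (v j k - v i k)) / ((q : ℝ) + 1) := by
      rw [Finset.sum_sub_distrib]
      simp only [Finset.sum_const, Finset.card_univ, Fintype.card_fin, nsmul_eq_mul]
      push_cast
      field_simp
    rw [h1, abs_div, abs_of_pos hq, div_le_iff₀ hq]
    have h2 : ∑ j, |v j k - v i k| ≤ (q : ℝ) * d := by
      rw [← Finset.add_sum_erase _ _ (Finset.mem_univ i), sub_self, abs_zero, zero_add]
      have h3 : ∑ j ∈ Finset.univ.erase i, |v j k - v i k| ≤ ∑ j ∈ Finset.univ.erase i, d :=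
        Finset.sum_le_sum fun j _ => (dist_D_le _ _ _ hd0).1 (hd j i) k
      refine h3.trans ?_
      rw [Finset.sum_const, Finset.card_erase_of_mem (Finset.mem_univ i), Finset.card_univ,
        Fintype.card_fin, nsmul_eq_mul]
      simp
    refine (Finset.abs_sum_le_sum_abs _ _).trans (h2.trans (le_of_eq ?_))
    field_simp

theorem mesh_vtx (n : ℕ) : Mesh 1 (vtx n) := by
  intro i j
  rw [dist_D_le _ _ _ zero_le_one]
  intro k
  rw [vtx_apply, vtx_apply]
  split_ifs <;> simp

/-! ## sub-presheaves -/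

/-- a sub-presheaf of a `TK` -/
structure TSub (L : TK) where
  P : ∀ n, L.K.S n → Prop
  closed : ∀ {m n : ℕ} (f : C(D m, D n)) (x : L.K.S n), P n x → P m (L.tact f x)

namespace TSub

variable {L : TK} (P : TSub L)

theorem act_mem {m n : ℕ} (f : Op m n) (x : L.K.S n) (h : P.P n x) : P.P m (L.K.act f x) := by
  rw [← L.tact_map]; exact P.closed _ x h

/-- the sub-presheaf as a `TK` -/
def tk : TK where
  K :=
    { S := fun n => {x : L.K.S n // P.P n x}
      act := fun f x => ⟨L.K.act f x.1, P.act_mem f x.1 x.2⟩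
      act_id := fun x => Subtype.ext (L.K.act_id x.1)
      act_comp := fun f g x => Subtype.ext (L.K.act_comp f g x.1) }
  tact f x := ⟨L.tact f x.1, P.closed f x.1 x.2⟩
  tact_comp f g x := Subtype.ext (L.tact_comp f g x.1)
  tact_map f x := Subtype.ext (L.tact_map f x.1)

/-- the inclusion -/
def incl : TK.Hom P.tk L := ⟨⟨fun _ x => x.1, fun _ _ => rfl⟩, fun _ _ => rfl⟩

theorem incl_inj (n : ℕ) : Function.Injective (P.incl.hom.app n) := Subtype.val_injective

theorem N_incl_inj (R : Type) [CommRing R] : Function.Injective (N.map R P.incl.hom) :=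
  map_inj _ P.incl_inj

end TSub

theorem Sd_iterate_chr {R : Type} [CommRing R] (L : TK) {n : ℕ} (x : L.K.S n) (k : ℕ) :
    (Sd R L)^[k] (single ⟨n, x⟩ 1) =
      Ch.map R (chr L x) ((sd R (bary n))^[k] (single ⟨n, vtx n⟩ 1)) := by
  induction k with
  | zero => rw [Function.iterate_zero, Function.iterate_zero, id, id, NatOp.single_eq L x]
  | succ k ih =>
    rw [Function.iterate_succ_apply', Function.iterate_succ_apply', ih, Sd, NatOp.op_chr]
    rfl

theorem SdN_iterate_mk {R : Type} [CommRing R] (L : TK) (c : Ch R L.K) (k : ℕ) :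
    (SdN L)^[k] (Submodule.Quotient.mk c : N R L.K) = Submodule.Quotient.mk ((Sd R L)^[k] c) := by
  induction k with
  | zero => rfl
  | succ k ih => rw [Function.iterate_succ_apply', Function.iterate_succ_apply', ih, SdN_mk]

/-- density condition: sufficiently small singular simplices of a simplex of `L` lie in `P` -/
def Dense (L : TK) (P : TSub L) : Prop :=
  ∀ n (x : L.K.S n), ∃ δ : ℝ, 0 < δ ∧ ∀ m (τ : C(D m, D n)),
    (∀ a b, dist (τ a) (τ b) < δ) → P.P m (L.tact τ x)

theorem SdN_iterate_add {R : Type} [CommRing R] (L : TK) (k : ℕ) (a b : N R L.K) :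
    (SdN L)^[k] (a + b) = (SdN L)^[k] a + (SdN L)^[k] b := by
  induction k with
  | zero => rfl
  | succ k ih => rw [Function.iterate_succ_apply', Function.iterate_succ_apply',
      Function.iterate_succ_apply', ih, map_add]

theorem SdN_iterate_smul {R : Type} [CommRing R] (L : TK) (k : ℕ) (r : R) (a : N R L.K) :
    (SdN L)^[k] (r • a) = r • (SdN L)^[k] a := by
  induction k with
  | zero => rfl
  | succ k ih => rw [Function.iterate_succ_apply', Function.iterate_succ_apply', ih, map_smul]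

/-- every chain becomes small after finitely many subdivisions -/
theorem exists_small {R : Type} [CommRing R] (L : TK) (P : TSub L) (hP : Dense L P) (c : N R L.K) :
    ∃ k₀, ∀ k, k₀ ≤ k → (SdN L)^[k] c ∈ LinearMap.range (N.map R P.incl.hom) := by
  obtain ⟨c, rfl⟩ := Submodule.Quotient.mk_surjective _ c
  induction c using Finsupp.induction_linear with
  | zero =>
    refine ⟨0, fun k _ => ?_⟩
    rw [Submodule.Quotient.mk_zero, SdN_iterate_zero]
    exact Submodule.zero_mem _
  | add f g hf hg =>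
    obtain ⟨k1, h1⟩ := hf
    obtain ⟨k2, h2⟩ := hg
    refine ⟨max k1 k2, fun k hk => ?_⟩
    rw [Submodule.Quotient.mk_add, SdN_iterate_add]
    exact Submodule.add_mem _ (h1 k (le_of_max_le_left hk)) (h2 k (le_of_max_le_right hk))
  | single t r =>
    obtain ⟨n, x⟩ := t
    obtain ⟨δ, hδ, hx⟩ := hP n x
    have hlim : Filter.Tendsto (fun k : ℕ => ((n : ℝ) / (n + 1)) ^ k * 1) Filter.atTop (nhds 0) := by
      simp only [mul_one]
      refine tendsto_pow_atTop_nhds_zero_of_lt_one (by positivity) ?_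
      rw [div_lt_one (by positivity)]
      linarith
    obtain ⟨k₀, hk₀⟩ := (hlim.eventually (gt_mem_nhds hδ)).exists_forall_of_atTop
    refine ⟨k₀, fun k hk => ?_⟩
    have h1 : (single ⟨n, x⟩ r : Ch R L.K) = r • single ⟨n, x⟩ 1 := by simp
    rw [h1, Submodule.Quotient.mk_smul, SdN_iterate_smul, SdN_iterate_mk, Sd_iterate_chr]
    refine Submodule.smul_mem _ _ ?_
    have h2 := sd_iterate_mem (R := R) (bhyp n) n (vtx n) 1 (mesh_vtx n) k
    have h3 : spn R n (fun w => Cv (vtx n) w ∧ Mesh (((n : ℝ) / (n + 1)) ^ k * 1) w) ≤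
        (LinearMap.range (N.map R P.incl.hom)).comap
          ((Submodule.mkQ (Ch.Dg R L.K)) ∘ₗ Ch.map R (chr L x)) := by
      refine Submodule.span_le.2 ?_
      rintro _ ⟨w, ⟨_, hw⟩, rfl⟩
      rw [SetLike.mem_coe, Submodule.mem_comap, LinearMap.comp_apply, Ch.map_single, chr_app]
      have h4 : P.P n (L.tact (aff w) x) :=
        hx n (aff w) (fun a b => (aff_mesh w _ hw a b).trans_lt (hk₀ k hk))
      exact ⟨N.sx R (K := P.tk.K) (⟨L.tact (aff w) x, h4⟩ : P.tk.K.S n), N.map_sx _ _⟩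
    exact h3 h2

/-- **small simplices theorem** -/
theorem small (R : Type) [CommRing R] (L : TK) (P : TSub L) (hP : Dense L P) :
    Function.Bijective (H.map R P.incl.hom) := by
  constructor
  · rw [injective_iff_map_eq_zero]
    intro a ha
    obtain ⟨z, hz, rfl⟩ := Hd.mk_surj _ a
    rw [H.map, Hd.map_mk, Hd.mk_eq_zero] at ha
    obtain ⟨w, hw⟩ := ha
    obtain ⟨k, hk⟩ := exists_small L P hP w
    obtain ⟨w', hw'⟩ := hk k le_rfl
    have h1 : N.bd R P.tk.K w' = (SdN P.tk)^[k] z := by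
      apply P.N_incl_inj R
      have := LinearMap.congr_fun (N.map_bd (R := R) P.incl.hom) w'
      rw [LinearMap.comp_apply, LinearMap.comp_apply] at this
      rw [this, hw', bd_SdN_iterate, hw, SdN_iterate_map]
    obtain ⟨u, hu⟩ := SdN_iterate_cycle P.tk k z hz
    rw [Hd.mk_eq_zero]
    refine ⟨u + w', ?_⟩
    rw [map_add, h1, ← hu]
    abel
  · intro a
    obtain ⟨z, hz, rfl⟩ := Hd.mk_surj _ a
    obtain ⟨k, hk⟩ := exists_small L P hP z
    obtain ⟨z', hz'⟩ := hk k le_rfl
    have h1 : N.bd R P.tk.K z' = 0 := by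
      apply P.N_incl_inj R
      have := LinearMap.congr_fun (N.map_bd (R := R) P.incl.hom) z'
      rw [LinearMap.comp_apply, LinearMap.comp_apply] at this
      rw [this, hz', bd_SdN_iterate, hz, SdN_iterate_zero, map_zero]
    refine ⟨Hd.mk _ z' h1, ?_⟩
    rw [H.map, Hd.map_mk, Hd.mk_eq_mk]
    obtain ⟨u, hu⟩ := SdN_iterate_cycle L k z hz
    refine ⟨-u, ?_⟩
    rw [map_neg, ← hu, hz']
    abel

end Crest.Agent.R204.Exc406
end

-- ▼ part R204/ExcD_406

/-!
# Row 204, leaf A-EXC (helper406): degrees, open covers, the Mayer-Vietoris short exact sequence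
-/

set_option autoImplicit false

namespace Crest.Agent.R204.Exc406

open Finsupp Function

/-! ## degree projections on normalised chains -/

section pr

variable {R : Type} [CommRing R] {K L : SS}

theorem proj_Dg (n : ℕ) {c : Ch R K} (hc : c ∈ Ch.Dg R K) : proj R K n c ∈ Ch.Dg R K := by
  have : Ch.Dg R K ≤ (Ch.Dg R K).comap (proj R K n) := by
    refine Submodule.span_le.2 ?_
    rintro _ ⟨t, ht, rfl⟩
    rw [SetLike.mem_coe, Submodule.mem_comap, proj_single]
    split_ifs
    · exact single_mem_Dg ht 1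
    · exact Submodule.zero_mem _
  exact this hc

variable (R K) in
/-- projection to degree `n` on normalised chains -/
noncomputable def prN (n : ℕ) : N R K →ₗ[R] N R K :=
  Submodule.mapQ _ _ (proj R K n) (fun _ hc => proj_Dg n hc)

theorem prN_mk (n : ℕ) (c : Ch R K) :
    prN R K n (Submodule.Quotient.mk c) = Submodule.Quotient.mk (proj R K n c) := rfl

theorem proj_mem_gr (n : ℕ) (c : Ch R K) : proj R K n c ∈ Ch.gr R K n := by
  induction c using Finsupp.induction_linear with
  | zero => rw [map_zero]; exact Submodule.zero_mem _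
  | add f g hf hg => rw [map_add]; exact Submodule.add_mem _ hf hg
  | single t r =>
    rw [proj_single]
    split_ifs with h
    · obtain ⟨m, x⟩ := t
      dsimp only at h
      subst h
      have : (single ⟨m, x⟩ r : Ch R K) = r • single ⟨m, x⟩ 1 := by simp
      rw [this]
      exact Submodule.smul_mem _ _ (Submodule.subset_span ⟨x, rfl⟩)
    · exact Submodule.zero_mem _

theorem prN_mem_gr (n : ℕ) (c : N R K) : prN R K n c ∈ N.gr R K n := by
  obtain ⟨c, rfl⟩ := Submodule.Quotient.mk_surjective _ c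
  exact ⟨proj R K n c, proj_mem_gr n c, rfl⟩

theorem proj_of_mem_gr (n : ℕ) {c : Ch R K} (hc : c ∈ Ch.gr R K n) : proj R K n c = c := by
  have : Ch.gr R K n ≤ LinearMap.eqLocus (proj R K n) LinearMap.id := by
    refine Submodule.span_le.2 ?_
    rintro _ ⟨x, rfl⟩
    rw [SetLike.mem_coe, LinearMap.mem_eqLocus, proj_single, if_pos rfl]
    rfl
  exact this hc

theorem prN_of_mem_gr (n : ℕ) {c : N R K} (hc : c ∈ N.gr R K n) : prN R K n c = c := by
  obtain ⟨c, hc, rfl⟩ := hc
  rw [Submodule.mkQ_apply, prN_mk, proj_of_mem_gr n hc]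

theorem mem_gr_iff (n : ℕ) (c : N R K) : c ∈ N.gr R K n ↔ prN R K n c = c :=
  ⟨prN_of_mem_gr n, fun h => h ▸ prN_mem_gr n c⟩

theorem proj_bd (n : ℕ) (c : Ch R K) :
    proj R K n (Ch.bd R K c) = Ch.bd R K (proj R K (n + 1) c) := by
  refine ch_ext (proj R K n ∘ₗ Ch.bd R K) (Ch.bd R K ∘ₗ proj R K (n + 1)) (fun m x => ?_) c
  rw [LinearMap.comp_apply, LinearMap.comp_apply, proj_single]
  rcases m with _ | m
  · rw [Ch.bd_single_zero, map_zero, if_neg (by simp), map_zero]
  · by_cases h : m = n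
    · subst h
      rw [if_pos rfl, proj_bd_single]
    · rw [if_neg (by simpa using h), map_zero, Ch.bd_single_succ, map_sum]
      refine Finset.sum_eq_zero fun i _ => ?_
      rw [proj_single, if_neg h]

theorem proj_zero_bd (c : Ch R K) : Ch.bd R K (proj R K 0 c) = 0 := by
  refine ch_ext (Ch.bd R K ∘ₗ proj R K 0) 0 (fun m x => ?_) c
  rw [LinearMap.comp_apply, proj_single, LinearMap.zero_apply]
  rcases m with _ | m
  · rw [if_pos rfl, Ch.bd_single_zero]
  · rw [if_neg (by simp), map_zero]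

theorem prN_bd (n : ℕ) (c : N R K) : prN R K n (N.bd R K c) = N.bd R K (prN R K (n + 1) c) := by
  obtain ⟨c, rfl⟩ := Submodule.Quotient.mk_surjective _ c
  rw [N.bd_mk, prN_mk, prN_mk, N.bd_mk, proj_bd]

theorem bd_prN_zero (c : N R K) : N.bd R K (prN R K 0 c) = 0 := by
  obtain ⟨c, rfl⟩ := Submodule.Quotient.mk_surjective _ c
  rw [prN_mk, N.bd_mk, proj_zero_bd]
  rfl

theorem bd_prN_cycle (n : ℕ) {c : N R K} (hc : N.bd R K c = 0) : N.bd R K (prN R K n c) = 0 := by
  rcases n with _ | n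
  · exact bd_prN_zero c
  · rw [← prN_bd, hc, map_zero]

theorem bd_mem_gr (n : ℕ) {c : N R K} (hc : c ∈ N.gr R K (n + 1)) : N.bd R K c ∈ N.gr R K n := by
  rw [mem_gr_iff] at hc ⊢
  rw [prN_bd, hc]

theorem bd_gr_zero {c : N R K} (hc : c ∈ N.gr R K 0) : N.bd R K c = 0 := by
  rw [mem_gr_iff] at hc
  rw [← hc, bd_prN_zero]

theorem proj_map (f : SS.Hom K L) (n : ℕ) (c : Ch R K) :
    proj R L n (Ch.map R f c) = Ch.map R f (proj R K n c) := by
  refine ch_ext (proj R L n ∘ₗ Ch.map R f) (Ch.map R f ∘ₗ proj R K n) (fun m x => ?_) c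
  rw [LinearMap.comp_apply, LinearMap.comp_apply, Ch.map_single, proj_single, proj_single]
  by_cases h : m = n
  · rw [if_pos h, if_pos h, Ch.map_single]
  · rw [if_neg h, if_neg h, map_zero]

theorem prN_map (f : SS.Hom K L) (n : ℕ) (c : N R K) :
    prN R L n (N.map R f c) = N.map R f (prN R K n c) := by
  obtain ⟨c, rfl⟩ := Submodule.Quotient.mk_surjective _ c
  rw [N.map_mk, prN_mk, prN_mk, N.map_mk, proj_map]

theorem map_mem_gr (f : SS.Hom K L) {n : ℕ} {c : N R K} (hc : c ∈ N.gr R K n) :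
    N.map R f c ∈ N.gr R L n := by
  rw [mem_gr_iff] at hc ⊢
  rw [prN_map, hc]

theorem mem_gr_of_map (f : SS.Hom K L) (hf : Injective (N.map R f)) {n : ℕ} {c : N R K}
    (hc : N.map R f c ∈ N.gr R L n) : c ∈ N.gr R K n := by
  rw [mem_gr_iff] at hc ⊢
  apply hf
  rw [← prN_map, hc]

/-- a class whose image under an injective homology map is homogeneous is homogeneous -/
theorem H_mem_gr_of_map (f : SS.Hom K L) (hf : Injective (H.map R f)) {n : ℕ} {u : H R K}
    (hu : H.map R f u ∈ H.gr R L n) : u ∈ H.gr R K n := by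
  obtain ⟨z, hz, rfl⟩ := Hd.mk_surj _ u
  rw [HA498.H_gr_eq, HA498.mem_grHd] at hu
  obtain ⟨y, hy, hy', e⟩ := hu
  rw [H.map, Hd.map_mk, Hd.mk_eq_mk] at e
  obtain ⟨w, hw⟩ := e
  have h1 : Hd.mk (N.bd R K) z hz = Hd.mk (N.bd R K) (prN R K n z) (bd_prN_cycle n hz) := by
    apply hf
    rw [H.map, Hd.map_mk, Hd.map_mk, Hd.mk_eq_mk]
    refine ⟨w - prN R L (n + 1) w, ?_⟩
    rw [map_sub, ← prN_bd, hw, map_sub, prN_map, prN_of_mem_gr n hy]
    abel
  rw [h1, HA498.H_gr_eq]
  exact HA498.mk_mem_grHd (prN_mem_gr n z) _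

theorem H_map_mem_gr (f : SS.Hom K L) {n : ℕ} {u : H R K} (hu : u ∈ H.gr R K n) :
    H.map R f u ∈ H.gr R L n :=
  HA498.map_mem_grHd (N.map_bd f) (fun _ hx => map_mem_gr f hx) hu

end pr

/-! ## the Mayer-Vietoris square of simplicial sets -/

section MV

variable {K0 K1 K2 L : SS}

/-- a union of two simplicial subsets with intersection `K0` (levelwise injective maps) -/
structure MVSq (i : SS.Hom K0 K1) (j : SS.Hom K0 K2) (k : SS.Hom K1 L) (l : SS.Hom K2 L) : Prop where
  hi : ∀ n, Injective (i.app n)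
  hk : ∀ n, Injective (k.app n)
  hl : ∀ n, Injective (l.app n)
  comm : ∀ n x, k.app n (i.app n x) = l.app n (j.app n x)
  cap : ∀ n x y, k.app n x = l.app n y → ∃ z, i.app n z = x
  cup : ∀ n x, (∃ y, k.app n y = x) ∨ ∃ y, l.app n y = x

variable {i : SS.Hom K0 K1} {j : SS.Hom K0 K2} {k : SS.Hom K1 L} {l : SS.Hom K2 L}

theorem N_map_comm {R : Type} [CommRing R] (h : MVSq i j k l) (x : N R K0) :
    N.map R k (N.map R i x) = N.map R l (N.map R j x) := by
  obtain ⟨c, rfl⟩ := Submodule.Quotient.mk_surjective _ x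
  rw [N.map_mk, N.map_mk, N.map_mk, N.map_mk]
  congr 1
  refine ch_ext (Ch.map R k ∘ₗ Ch.map R i) (Ch.map R l ∘ₗ Ch.map R j) (fun n x => ?_) c
  rw [LinearMap.comp_apply, LinearMap.comp_apply, Ch.map_single, Ch.map_single, Ch.map_single,
    Ch.map_single, h.comm]

theorem Ch_map_apply {R : Type} [CommRing R] {K L : SS} (f : SS.Hom K L)
    (hf : ∀ n, Injective (f.app n)) (c : Ch R K) (n : ℕ) (x : K.S n) :
    Ch.map R f c ⟨n, f.app n x⟩ = c ⟨n, x⟩ := by
  have hinj : Function.Injective (fun t : K.T => (⟨t.1, f.app t.1 t.2⟩ : L.T)) := by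
    rintro ⟨n, x⟩ ⟨m, y⟩ h
    simp only [Sigma.mk.injEq] at h
    obtain ⟨rfl, h⟩ := h
    rw [heq_eq_eq] at h
    rw [hf _ h]
  rw [Ch.map, Finsupp.lmapDomain_apply]
  exact Finsupp.mapDomain_apply hinj c ⟨n, x⟩

theorem Ch_map_notin {R : Type} [CommRing R] {K L : SS} (f : SS.Hom K L) (c : Ch R K) (n : ℕ)
    (y : L.S n) (hy : ∀ x, f.app n x ≠ y) : Ch.map R f c ⟨n, y⟩ = 0 := by
  rw [Ch.map, Finsupp.lmapDomain_apply]
  apply Finsupp.mapDomain_of_notMem_range
  rintro ⟨⟨m, x⟩, h⟩
  simp only [Sigma.mk.injEq] at h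
  obtain ⟨rfl, h⟩ := h
  rw [heq_eq_eq] at h
  exact hy x h

open Classical in
theorem mv_exact {R : Type} [CommRing R] (h : MVSq i j k l) (a : N R K1) (b : N R K2)
    (hab : N.map R k a + N.map R l b = 0) : ∃ x : N R K0, N.map R i x = a ∧ -N.map R j x = b := by
  obtain ⟨A, rfl⟩ := Submodule.Quotient.mk_surjective _ a
  obtain ⟨B, rfl⟩ := Submodule.Quotient.mk_surjective _ b
  rw [N.map_mk, N.map_mk, ← Submodule.Quotient.mk_add, Submodule.Quotient.mk_eq_zero,
    mem_Dg_iff] at hab
  set S : K1.T → Prop := fun t => ∃ z : K0.S t.1, i.app t.1 z = t.2 with hS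
  -- the part of `A` in the intersection
  have h1 : (A.filter S) ∈ LinearMap.range (Ch.map R i) := by
    have h2 : ∀ c : Ch R K1, (∀ t, c t ≠ 0 → S t) → c ∈ LinearMap.range (Ch.map R i) := by
      intro c
      induction c using Finsupp.induction with
      | zero => intro _; exact Submodule.zero_mem _
      | single_add t r f ht hr ih =>
        intro hc
        have h3 : S t := hc t (by simp [Finsupp.notMem_support_iff.1 ht, hr])
        refine Submodule.add_mem _ ?_ (ih fun s hs => hc s ?_)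
        · obtain ⟨n, x⟩ := t
          obtain ⟨z, hz⟩ := h3
          dsimp only at z hz
          subst hz
          exact ⟨single ⟨n, z⟩ r, Ch.map_single _ _ _ _⟩
        · have : s ≠ t := by
            rintro rfl
            exact hs (Finsupp.notMem_support_iff.1 ht)
          rw [Finsupp.add_apply, Finsupp.single_eq_of_ne this, zero_add]
          exact hs
    refine h2 _ fun t ht => ?_
    by_contra hc
    exact ht (Finsupp.filter_apply_neg _ _ hc)
  obtain ⟨Z, hZ⟩ := h1
  have h4 : N.map R i (Submodule.Quotient.mk Z) = (Submodule.Quotient.mk A : N R K1) := by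
    rw [N.map_mk, hZ, Submodule.Quotient.eq, mem_Dg_iff]
    rintro ⟨n, x⟩ hx
    rw [Finsupp.sub_apply] at hx
    by_cases hs : S ⟨n, x⟩
    · rw [Finsupp.filter_apply_pos _ _ hs, sub_self] at hx
      exact absurd rfl hx
    · rw [Finsupp.filter_apply_neg _ _ hs, zero_sub, neg_ne_zero] at hx
      refine isDgn_of_map k h.hk (hab ⟨n, k.app n x⟩ ?_)
      rw [Finsupp.add_apply, Ch_map_apply k h.hk, Ch_map_notin, add_zero]
      · exact hx
      · intro y hy
        exact hs (h.cap n x y hy.symm)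
  refine ⟨Submodule.Quotient.mk Z, h4, ?_⟩
  apply map_inj l h.hl (R := R)
  rw [map_neg, ← N_map_comm h, h4]
  have : N.map R k (Submodule.Quotient.mk A : N R K1) + N.map R l (Submodule.Quotient.mk B : N R K2)
      = 0 := by
    rw [N.map_mk, N.map_mk, ← Submodule.Quotient.mk_add, Submodule.Quotient.mk_eq_zero, mem_Dg_iff]
    exact hab
  rw [neg_eq_iff_add_eq_zero]
  exact this

theorem N_induction {R : Type} [CommRing R] {K : SS} {p : Submodule R (N R K)}
    (h : ∀ n (x : K.S n), N.sx R x ∈ p) (c : N R K) : c ∈ p := by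
  obtain ⟨c, rfl⟩ := Submodule.Quotient.mk_surjective _ c
  induction c using Finsupp.induction_linear with
  | zero => exact Submodule.zero_mem _
  | add f g hf hg => exact Submodule.add_mem _ hf hg
  | single t r =>
    obtain ⟨n, x⟩ := t
    have : (single ⟨n, x⟩ r : Ch R K) = r • single ⟨n, x⟩ 1 := by simp
    rw [this, Submodule.Quotient.mk_smul]
    exact Submodule.smul_mem _ _ (h n x)

variable (R : Type) [CommRing R]

/-- the Mayer-Vietoris short exact sequence -/
theorem mv_ses (h : MVSq i j k l) :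
    HA498.SES (N.bd R K0) ((N.bd R K1).prodMap (N.bd R K2)) (N.bd R L)
      ((N.map R i).prod (-N.map R j)) ((N.map R k).coprod (N.map R l)) where
  sq' := N.bd_bd
  sq := fun x => by
    rw [LinearMap.prodMap_apply, LinearMap.prodMap_apply, N.bd_bd, N.bd_bd]; rfl
  hf := by
    refine LinearMap.ext fun x => ?_
    have h1 := LinearMap.congr_fun (N.map_bd (R := R) i) x
    have h2 := LinearMap.congr_fun (N.map_bd (R := R) j) x
    simp only [LinearMap.comp_apply] at h1 h2
    refine Prod.ext h1 ?_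
    show -(N.map R j (N.bd R K0 x)) = N.bd R K2 (-(N.map R j x))
    rw [map_neg, h2]
  hg := by
    refine LinearMap.ext fun x => ?_
    have h1 := LinearMap.congr_fun (N.map_bd (R := R) k) x.1
    have h2 := LinearMap.congr_fun (N.map_bd (R := R) l) x.2
    simp only [LinearMap.comp_apply] at h1 h2
    simp only [LinearMap.comp_apply, LinearMap.coprod_apply, LinearMap.prodMap_apply, h1, h2,
      map_add]
  inj := by
    intro x y hxy
    exact map_inj i h.hi (congrArg Prod.fst hxy)
  ex := by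
    rintro ⟨a, b⟩
    constructor
    · intro hab
      obtain ⟨x, hx, hx'⟩ := mv_exact h a b hab
      exact ⟨x, Prod.ext hx hx'⟩
    · rintro ⟨x, hx⟩
      rw [← hx]
      show N.map R k (N.map R i x) + N.map R l (-N.map R j x) = 0
      rw [map_neg, N_map_comm h, add_neg_cancel]
  surj := by
    rw [← LinearMap.range_eq_top, Submodule.eq_top_iff']
    refine N_induction fun n x => ?_
    rcases h.cup n x with ⟨y, rfl⟩ | ⟨y, rfl⟩
    · exact ⟨(N.sx R y, 0), by simp⟩
    · exact ⟨(0, N.sx R y), by simp⟩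

end MV

end Crest.Agent.R204.Exc406
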