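import Crest.Agent.R204.GL2A_735
import Crest.Agent.R204.ThetaSS_265
import Crest.Agent.R204.Htpy_761
import Crest.Agent.R204.ThAlg_265
import Crest.Agent.R204.Hsp2_696

-- ▼ part R204/GL2B_735
section

/-!
# Row 204, block C, leaf C8 (helper735): simplicial homotopies for `Ψ ∘ (1 × Ψ)`

* `Psi2 k : (BM × BM) × Sing X → Sing X`;
* `htpySwap : Psi2 ∘ (swap × 1) ≃ Psi2`;
* `htpyTrans : Psi2 ∘ (φ × 1) ≃ Psi2 ∘ (incl × 1)` on `(BM M × BM M) × Sing X`, `φ (x, y) = (x, x + y)`.
-/

set_option autoImplicit false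
set_option linter.unusedSectionVars false

open scoped Topology Topology.Homotopy

noncomputable section

namespace Crest.Agent.R204.GL2735

open SS SingAct265 Cubes735 DK742 ThetaSS265 Htpy761

/-! ### maps out of `orb × orb × X` -/

section lift2

variable {K L X Y : SS} (τ : Invo K) (τ' : Invo L)

/-- maps out of `(K/τ × L/τ') × X` -/
def lift2 (f : Hom ((K.prod L).prod X) Y)
    (h1 : ∀ (n : ℕ) (g : K.S n) (h : L.S n) (x : X.S n),
      f.app n ((τ.g.app n g, h), x) = f.app n ((g, h), x))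
    (h2 : ∀ (n : ℕ) (g : K.S n) (h : L.S n) (x : X.S n),
      f.app n ((g, τ'.g.app n h), x) = f.app n ((g, h), x)) :
    Hom (((orb K τ).prod (orb L τ')).prod X) Y where
  app n p := Quotient.liftOn₂ (s₁ := τ.rel n) (s₂ := τ'.rel n) p.1.1 p.1.2
    (fun g h => f.app n ((g, h), p.2)) (by
      intro a b a' b' ha hb
      rcases ha with rfl | rfl <;> rcases hb with rfl | rfl
      · rfl
      · exact (h2 n _ _ _).symm
      · exact (h1 n _ _ _).symm
      · show f.app n ((a, b), p.2) = f.app n ((τ.g.app n a, τ'.g.app n b), p.2)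
        rw [h1, h2])
  nat a p := by
    obtain ⟨⟨x, y⟩, z⟩ := p
    obtain ⟨g, rfl⟩ := proj_surj τ _ x
    obtain ⟨h, rfl⟩ := proj_surj τ' _ y
    exact f.nat a ((g, h), z)


end lift2

/-! ### the general homotopy -/

section gen

variable {J Z A S : Type} [Finite J] [Finite A] [Finite S] [TopologicalSpace Z] {z₀ : Z}
variable {K L : SS} (τ : Invo K) (τ' : Invo L)

/-- the homotopy on the covering -/
def htyHom {ι ι' : A ↪ J} (hd : ∀ x y, ι x ≠ ι' y) (c c' : Hom (K.prod L) (Sing (BoxConf S A))) :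
    Hom ((K.prod L).prod ((Sing (Om J Z z₀)).prod (std 1))) (Sing (Om J Z z₀)) where
  app n p := mkS (fun t => mu (hty2 hd (bar p.2.2 t : ℝ) (ev (c.app n p.1) t) (ev (c'.app n p.1) t))
      (fun _ : S => ev p.2.1 t))
    (continuous_mu (continuous_hty2 hd (continuous_subtype_val.comp (continuous_bar _))
      (continuous_ev _) (continuous_ev _)) (continuous_pi fun _ => continuous_ev _))
  nat f p := by
    refine sing_ext fun t => ?_
    have key : ∀ (b b' : unitInterval) (c₁ c₁' c₂ c₂' : BoxConf S A) (y : S → Om J Z z₀),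
        b = b' → c₁ = c₁' → c₂ = c₂' →
        mu (hty2 hd (b : ℝ) c₁ c₂) y = mu (hty2 hd (b' : ℝ) c₁' c₂') y := by
      rintro b _ c₁ _ c₂ _ y rfl rfl rfl
      rfl
    exact key _ _ _ _ _ _ _ (bar_comp f p.2.2 t) (congrArg (fun σ => SingAct265.ev σ t) (c.nat f p.1))
      (congrArg (fun σ => SingAct265.ev σ t) (c'.nat f p.1))

theorem mu_const_relabel (d : BoxConf S J) (e : S ≃ S) (x : Om J Z z₀) :
    mu (d.relabel e) (fun _ => x) = mu d (fun _ => x) := mu_relabel d e (fun _ => x)

theorem place_eq_extend (ι : A ↪ J) (c : BoxConf S A) : place ι c = c.extend ι := rfl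

/-- homotopic actions from two equivariant families of boxes -/
def htpyGen {ι ι' : A ↪ J} (hd : ∀ x y, ι x ≠ ι' y) (c c' : Hom (K.prod L) (Sing (BoxConf S A)))
    (e1 e2 : S ≃ S)
    (hc1 : ∀ (n : ℕ) (g : K.S n) (h : L.S n) t, ev (c.app n (τ.g.app n g, h)) t =
      (ev (c.app n (g, h)) t).relabel e1)
    (hc2 : ∀ (n : ℕ) (g : K.S n) (h : L.S n) t, ev (c.app n (g, τ'.g.app n h)) t =
      (ev (c.app n (g, h)) t).relabel e2)
    (hc1' : ∀ (n : ℕ) (g : K.S n) (h : L.S n) t, ev (c'.app n (τ.g.app n g, h)) t =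
      (ev (c'.app n (g, h)) t).relabel e1)
    (hc2' : ∀ (n : ℕ) (g : K.S n) (h : L.S n) t, ev (c'.app n (g, τ'.g.app n h)) t =
      (ev (c'.app n (g, h)) t).relabel e2)
    (f f' : Hom (((orb K τ).prod (orb L τ')).prod (Sing (Om J Z z₀))) (Sing (Om J Z z₀)))
    (hf : ∀ (n : ℕ) (g : K.S n) (h : L.S n) (x : (Sing (Om J Z z₀)).S n) t,
      ev (f.app n (((proj τ).app n g, (proj τ').app n h), x)) t =
        mu ((ev (c.app n (g, h)) t).extend ι) (fun _ => ev x t))
    (hf' : ∀ (n : ℕ) (g : K.S n) (h : L.S n) (x : (Sing (Om J Z z₀)).S n) t,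
      ev (f'.app n (((proj τ).app n g, (proj τ').app n h), x)) t =
        mu ((ev (c'.app n (g, h)) t).extend ι) (fun _ => ev x t)) :
    Htpy f f' where
  h := (lift2 τ τ' (htyHom (Z := Z) (z₀ := z₀) hd c c') (by
        intro n g h x
        refine sing_ext fun t => ?_
        show mu (hty2 hd (bar x.2 t : ℝ) (ev (c.app n (τ.g.app n g, h)) t)
          (ev (c'.app n (τ.g.app n g, h)) t)) _ = _
        rw [hc1, hc1', hty2_relabel, mu_const_relabel]
        rfl) (by
        intro n g h x
        refine sing_ext fun t => ?_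
        show mu (hty2 hd (bar x.2 t : ℝ) (ev (c.app n (g, τ'.g.app n h)) t)
          (ev (c'.app n (g, τ'.g.app n h)) t)) _ = _
        rw [hc2, hc2', hty2_relabel, mu_const_relabel]
        rfl)).comp
      (⟨fun _ p => (p.1.1, (p.1.2, p.2)), fun _ _ => rfl⟩ :
        Hom ((((orb K τ).prod (orb L τ')).prod (Sing (Om J Z z₀))).prod (std 1))
          (((orb K τ).prod (orb L τ')).prod ((Sing (Om J Z z₀)).prod (std 1))))
  zero n p := by
    obtain ⟨⟨x, y⟩, z⟩ := p
    obtain ⟨g, rfl⟩ := proj_surj τ _ x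
    obtain ⟨h, rfl⟩ := proj_surj τ' _ y
    refine sing_ext fun t => ?_
    rw [hf]
    show mu (hty2 hd (bar (cst n 0) t : ℝ) _ _) _ = _
    rw [bar_cst_zero, show ((0 : unitInterval) : ℝ) = 0 from rfl, hty2_zero, place_eq_extend]
  one n p := by
    obtain ⟨⟨x, y⟩, z⟩ := p
    obtain ⟨g, rfl⟩ := proj_surj τ _ x
    obtain ⟨h, rfl⟩ := proj_surj τ' _ y
    refine sing_ext fun t => ?_
    rw [hf']
    show mu (hty2 hd (bar (cst n 1) t : ℝ) _ _) _ = _
    rw [bar_cst_one, show ((1 : unitInterval) : ℝ) = 1 from rfl, hty2_one, place_eq_extend]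

end gen

/-! ### iterates of `Ψ` -/

section psi2

variable {J Z : Type} [Finite J] [TopologicalSpace Z] {z₀ : Z} {M : ℕ}

/-- `Ψ ∘ (1 × Ψ)` -/
def Psi2 (k : Fin (M + 1) ↪ J) :
    Hom (((BM M).prod (BM M)).prod (Sing (Om J Z z₀))) (Sing (Om J Z z₀)) :=
  (Psi k).comp (⟨fun n p => (p.1.1, (Psi k).app n (p.1.2, p.2)), fun f p =>
      Prod.ext rfl ((Psi k).nat f (p.1.2, p.2))⟩ :
      Hom (((BM M).prod (BM M)).prod (Sing (Om J Z z₀))) ((BM M).prod (Sing (Om J Z z₀))))

/-- index set of the four boxes -/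
abbrev Four : Type := Σ _ : Bool, Bool

/-- the four boxes -/
def four (e₁ e₂ : NZ (Fin (M + 1))) : BoxConf Four (Fin (M + 1)) :=
  (thetaConf e₁).comp (fun _ => thetaConf e₂)

theorem continuous_four {P : Type} [TopologicalSpace P] {e₁ e₂ : P → NZ (Fin (M + 1))}
    (h₁ : Continuous e₁) (h₂ : Continuous e₂) : Continuous fun p => four (e₁ p) (e₂ p) := by
  have h1 : Continuous fun p => thetaConf (e₁ p) := continuous_thetaConf.comp h₁
  have h2 : Continuous fun p => thetaConf (e₂ p) := continuous_thetaConf.comp h₂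
  refine BoxConf.continuous_mk (fun v j => ?_) (fun v j => ?_)
  · show Continuous fun p => (thetaConf (e₁ p)).a v.1 j +
      (thetaConf (e₁ p)).r v.1 j * (thetaConf (e₂ p)).a v.2 j
    exact ((BoxConf.continuous_a _ _).comp h1).add
      (((BoxConf.continuous_r _ _).comp h1).mul ((BoxConf.continuous_a _ _).comp h2))
  · show Continuous fun p => (thetaConf (e₁ p)).r v.1 j * (thetaConf (e₂ p)).r v.2 j
    exact ((BoxConf.continuous_r _ _).comp h1).mul ((BoxConf.continuous_r _ _).comp h2)

/-- product of permutations -/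
def pe (a b : Bool ≃ Bool) : Four ≃ Four where
  toFun v := ⟨a v.1, b v.2⟩
  invFun v := ⟨a.symm v.1, b.symm v.2⟩
  left_inv v := by simp
  right_inv v := by simp

theorem four_neg_left (e₁ e₂ : NZ (Fin (M + 1))) :
    four (-e₁) e₂ = (four e₁ e₂).relabel (pe Equiv.boolNot (Equiv.refl Bool)) := by
  unfold four
  rw [thetaConf_neg]
  rfl

theorem four_neg_right (e₁ e₂ : NZ (Fin (M + 1))) :
    four e₁ (-e₂) = (four e₁ e₂).relabel (pe (Equiv.refl Bool) Equiv.boolNot) := by
  unfold four
  rw [thetaConf_neg]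
  rfl

theorem relabel_relabel {F F' F'' A : Type} (c : BoxConf F A) (e : F' ≃ F) (e' : F'' ≃ F') :
    (c.relabel e).relabel e' = c.relabel (e'.trans e) := rfl

/-- the families of boxes attached to a pair of simplices -/
def fourS {P : SS} (g h : Hom P (EM M)) : Hom P (Sing (BoxConf Four (Fin (M + 1)))) where
  app n p := mkS (fun t => four (ev ((nz M).app n (g.app n p)) t) (ev ((nz M).app n (h.app n p)) t))
    (continuous_four (continuous_ev _) (continuous_ev _))
  nat f p := by
    refine sing_ext fun t => ?_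
    show four (ev ((nz M).app _ (g.app _ (P.act f p))) t) (ev ((nz M).app _ (h.app _ (P.act f p))) t)
      = _
    rw [g.nat, h.nat, (nz M).nat, (nz M).nat]
    rfl

/-- relabelled families -/
def relS {P : SS} {F F' A : Type} (c : Hom P (Sing (BoxConf F A))) (e : F' ≃ F) :
    Hom P (Sing (BoxConf F' A)) where
  app n p := mkS (fun t => (ev (c.app n p) t).relabel e) (by
    refine BoxConf.continuous_mk (fun v j => ?_) (fun v j => ?_)
    · exact (BoxConf.continuous_a (e v) j).comp (continuous_ev _)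
    · exact (BoxConf.continuous_r (e v) j).comp (continuous_ev _))
  nat f p := by
    refine sing_ext fun t => ?_
    show (ev (c.app _ (P.act f p)) t).relabel e = _
    rw [c.nat]; rfl

theorem ev_Psi2 (k : Fin (M + 1) ↪ J) {n : ℕ} (g h : (EM M).S n) (x : (Sing (Om J Z z₀)).S n)
    (t : stdSimplex ℝ (Fin (n + 1))) :
    ev ((Psi2 k).app n (((proj (invEM M)).app n g, (proj (invEM M)).app n h), x)) t =
      mu ((four (ev ((nz M).app n g) t) (ev ((nz M).app n h) t)).extend k) (fun _ => ev x t) := by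
  show ev ((Psi k).app n ((proj (invEM M)).app n g, (Psi k).app n ((proj (invEM M)).app n h, x))) t
    = _
  rw [Psi_proj, Psi_proj, ev_psiSS, ev_psiSS, psi_psi]
  rfl


/-- swapping the two factors of the index set -/
def swapFour : Four ≃ Four where
  toFun v := ⟨v.2, v.1⟩
  invFun v := ⟨v.2, v.1⟩
  left_inv _ := rfl
  right_inv _ := rfl



end psi2

/-! ### the transvection -/

section trans


variable {M M' : ℕ}







/-- `(u, v) ↦ (u, u xor v)` -/
def trFour : Four ≃ Four where
  toFun v := ⟨v.1, xor v.1 v.2⟩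
  invFun v := ⟨v.1, xor v.1 v.2⟩
  left_inv v := by
    obtain ⟨u, v⟩ := v
    cases u <;> cases v <;> rfl
  right_inv v := by
    obtain ⟨u, v⟩ := v
    cases u <;> cases v <;> rfl

theorem trFour_left : (pe Equiv.boolNot (Equiv.refl Bool)).trans trFour =
    trFour.trans (pe Equiv.boolNot Equiv.boolNot) := by
  refine Equiv.ext fun v => ?_
  obtain ⟨u, v⟩ := v
  cases u <;> cases v <;> rfl

theorem trFour_right : (pe (Equiv.refl Bool) Equiv.boolNot).trans trFour =
    trFour.trans (pe (Equiv.refl Bool) Equiv.boolNot) := by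
  refine Equiv.ext fun v => ?_
  obtain ⟨u, v⟩ := v
  cases u <;> cases v <;> rfl

variable {J Z : Type} [Finite J] [TopologicalSpace Z] {z₀ : Z}




theorem four_neg_both (e₁ e₂ : NZ (Fin (M + 1))) :
    four (-e₁) (-e₂) = (four e₁ e₂).relabel (pe Equiv.boolNot Equiv.boolNot) := by
  rw [four_neg_left, four_neg_right]
  rfl


end trans

end Crest.Agent.R204.GL2735
end
end

-- ▼ part R204/GL2C_735

/-!
# Row 204, block C (helper735): the laws `GLswap`, `GLshear`, `Vertex` of the `Θ`-algebra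
`Sing (Ω^J Z)` (interface of helper265, `ThAlg_265`)
-/

set_option autoImplicit false
set_option linter.unusedSectionVars false

open scoped Topology Topology.Homotopy

noncomputable section

namespace Crest.Agent.R204.GL2735

open SS SingAct265 Cubes735 DK742 ThetaSS265 Htpy761 ThAlg265

variable {J Z : Type} [Finite J] [TopologicalSpace Z] {z₀ : Z} {M : ℕ}

/-- reassociation -/
def asc (A B C : SS) : Hom (A.prod (B.prod C)) ((A.prod B).prod C) :=
  ⟨fun _ p => ((p.1, p.2.1), p.2.2), fun _ _ => rfl⟩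

/-- reassociation -/
def ascI (A B C : SS) : Hom ((A.prod B).prod C) (A.prod (B.prod C)) :=
  ⟨fun _ p => (p.1.1, (p.1.2, p.2)), fun _ _ => rfl⟩


/-- `Psi2` of the `Θ`-algebra in terms of boxes -/
theorem ev_omPsi2 (k : Fin (M + 1) ↪ J)
    (mu : Hom ((Sing (Om J Z z₀)).prod (Sing (Om J Z z₀))) (Sing (Om J Z z₀)))
    {m m' : ℕ} (h : m ≤ M) (h' : m' ≤ M) {n : ℕ} (g : (EM m).S n) (g' : (EM m').S n)
    (x : (Sing (Om J Z z₀)).S n) (t : stdSimplex ℝ (Fin (n + 1))) :
    ev (((omAlg k mu).Psi2 h h').app n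
      ((proj (invEM m)).app n g, ((proj (invEM m')).app n g', x))) t =
      Cubes735.mu ((four (ev ((nz M).app n ((skMono h EZ2).app n g)) t)
        (ev ((nz M).app n ((skMono h' EZ2).app n g')) t)).extend k) (fun _ => ev x t) := by
  exact ev_Psi2 k ((skMono h EZ2).app n g) ((skMono h' EZ2).app n g') x t

theorem nz_mono {m : ℕ} (h : m ≤ M) {n : ℕ} (g : (EM m).S n) (t : stdSimplex ℝ (Fin (n + 1))) :
    ev ((nz M).app n ((skMono h EZ2).app n ((invEM m).g.app n g))) t =
      - ev ((nz M).app n ((skMono h EZ2).app n g)) t :=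
  nz_neg M ((skMono h EZ2).app n g) t

/-- **swap invariance** -/
theorem omAlg_GLswap {k k' : Fin (M + 1) ↪ J} (hd : ∀ x y, k x ≠ k' y)
    (mu : Hom ((Sing (Om J Z z₀)).prod (Sing (Om J Z z₀))) (Sing (Om J Z z₀))) (m m' : ℕ) :
    (omAlg k mu).GLswap m m' := by
  intro h h'
  have key : SH (((omAlg k mu).Psi2 h h').comp (ascI (BM m) (BM m') _))
      ((((omAlg k mu).Psi2 h' h).comp (ThAlg.swap12 (BM m) (BM m') (Sing (Om J Z z₀)))).comp
        (ascI (BM m) (BM m') _)) := by
    refine SH.of (htpyGen (invEM m) (invEM m') hd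
      (fourS ((skMono h EZ2).comp (SS.fst (EM m) (EM m')))
        ((skMono h' EZ2).comp (SS.snd (EM m) (EM m'))))
      (relS (fourS ((skMono h' EZ2).comp (SS.snd (EM m) (EM m')))
        ((skMono h EZ2).comp (SS.fst (EM m) (EM m')))) swapFour)
      (pe Equiv.boolNot (Equiv.refl Bool)) (pe (Equiv.refl Bool) Equiv.boolNot)
      ?_ ?_ ?_ ?_ _ _ ?_ ?_)
    · intro n g g' t
      show four (ev ((nz M).app n ((skMono h EZ2).app n ((invEM m).g.app n g))) t) _ = _
      rw [nz_mono, four_neg_left]; rfl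
    · intro n g g' t
      show four _ (ev ((nz M).app n ((skMono h' EZ2).app n ((invEM m').g.app n g'))) t) = _
      rw [nz_mono, four_neg_right]; rfl
    · intro n g g' t
      show (four _ (ev ((nz M).app n ((skMono h EZ2).app n ((invEM m).g.app n g))) t)).relabel
        swapFour = _
      rw [nz_mono, four_neg_right]; rfl
    · intro n g g' t
      show (four (ev ((nz M).app n ((skMono h' EZ2).app n ((invEM m').g.app n g'))) t) _).relabel
        swapFour = _
      rw [nz_mono, four_neg_left]; rfl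
    · intro n g g' x t
      exact ev_omPsi2 k mu h h' g g' x t
    · intro n g g' x t
      refine (ev_omPsi2 k mu h' h g' g x t).trans ?_
      rw [← mu_const_relabel _ swapFour]
      rfl
  exact (key.pre (asc (BM m) (BM m') _)).symm

theorem nz_sum_left {m m' : ℕ} (h'' : m + m' ≤ M) {n : ℕ} (g : (EM m).S n) (g' : (EM m').S n)
    (t : stdSimplex ℝ (Fin (n + 1))) :
    ev ((nz M).app n ((skMono h'' EZ2).app n ((ThAlg265.addE m m').app n
      ((invEM m).g.app n g, g')))) t =
      - ev ((nz M).app n ((skMono h'' EZ2).app n ((ThAlg265.addE m m').app n (g, g')))) t := by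
  rw [addE_inv_left]
  exact nz_mono h'' _ t

theorem nz_sum_right {m m' : ℕ} (h'' : m + m' ≤ M) {n : ℕ} (g : (EM m).S n) (g' : (EM m').S n)
    (t : stdSimplex ℝ (Fin (n + 1))) :
    ev ((nz M).app n ((skMono h'' EZ2).app n ((ThAlg265.addE m m').app n
      (g, (invEM m').g.app n g')))) t =
      - ev ((nz M).app n ((skMono h'' EZ2).app n ((ThAlg265.addE m m').app n (g, g')))) t := by
  rw [addE_inv_right]
  exact nz_mono h'' _ t

/-- **shear invariance** -/
theorem omAlg_GLshear {k k' : Fin (M + 1) ↪ J} (hd : ∀ x y, k x ≠ k' y)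
    (mu : Hom ((Sing (Om J Z z₀)).prod (Sing (Om J Z z₀))) (Sing (Om J Z z₀))) (m m' : ℕ) :
    (omAlg k mu).GLshear m m' := by
  intro h h' h''
  have key : SH (((omAlg k mu).Psi2 h h').comp (ascI (BM m) (BM m') _))
      ((((omAlg k mu).Psi2 h h'').comp (ThAlg.shear m m' (Sing (Om J Z z₀)))).comp
        (ascI (BM m) (BM m') _)) := by
    refine SH.of (htpyGen (invEM m) (invEM m') hd
      (fourS ((skMono h EZ2).comp (SS.fst (EM m) (EM m')))
        ((skMono h' EZ2).comp (SS.snd (EM m) (EM m'))))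
      (relS (fourS ((skMono h EZ2).comp (SS.fst (EM m) (EM m')))
        ((skMono h'' EZ2).comp (ThAlg265.addE m m'))) trFour)
      (pe Equiv.boolNot (Equiv.refl Bool)) (pe (Equiv.refl Bool) Equiv.boolNot)
      ?_ ?_ ?_ ?_ _ _ ?_ ?_)
    · intro n g g' t
      show four (ev ((nz M).app n ((skMono h EZ2).app n ((invEM m).g.app n g))) t) _ = _
      rw [nz_mono, four_neg_left]; rfl
    · intro n g g' t
      show four _ (ev ((nz M).app n ((skMono h' EZ2).app n ((invEM m').g.app n g'))) t) = _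
      rw [nz_mono, four_neg_right]; rfl
    · intro n g g' t
      show (four (ev ((nz M).app n ((skMono h EZ2).app n ((invEM m).g.app n g))) t)
        (ev ((nz M).app n ((skMono h'' EZ2).app n ((ThAlg265.addE m m').app n
          ((invEM m).g.app n g, g')))) t)).relabel trFour = _
      rw [nz_mono, nz_sum_left, four_neg_both, relabel_relabel, ← trFour_left]; rfl
    · intro n g g' t
      show (four _ (ev ((nz M).app n ((skMono h'' EZ2).app n ((ThAlg265.addE m m').app n
          (g, (invEM m').g.app n g')))) t)).relabel trFour = _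
      rw [nz_sum_right, four_neg_right, relabel_relabel, ← trFour_right]; rfl
    · intro n g g' x t
      exact ev_omPsi2 k mu h h' g g' x t
    · intro n g g' x t
      refine (ev_omPsi2 k mu h h'' g ((ThAlg265.addE m m').app n (g, g')) x t).trans ?_
      rw [← mu_const_relabel _ trFour]
      rfl
  exact (key.pre (asc (BM m) (BM m') _)).symm

/-! ### the vertex law -/

/-- the point of the punctured space attached to the vertex `e_0` -/
def nz0 (M : ℕ) : NZ (Fin (M + 1)) := ⟨fun _ => 1, fun h => by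
  have := congrFun h 0
  simp at this⟩

theorem ev_nz_e0 (M n : ℕ) (t : stdSimplex ℝ (Fin (n + 1))) :
    ev ((nz M).app n (e0 M n)) t = nz0 M := by
  apply Subtype.ext
  rw [ev_nz]
  funext j
  show Moment265.MF (fun s => s ^ ((j : ℕ) + 1)) (fun k => sgn ((e0 M n).1 k)) t = 1
  unfold Moment265.MF
  have h0 : ∀ k, sgn ((e0 M n).1 k) = 1 := fun k => by
    show sgn 0 = 1
    simp [sgn]
  simp only [h0, one_mul]
  have h := Moment265.tele (fun s => s ^ ((j : ℕ) + 1)) (t : Fin (n + 1) → ℝ) Finset.univ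
    (fun _ _ _ _ => Finset.mem_univ _)
  rw [h, stdSimplex.sum_eq_one t]
  simp

/-- the two labels -/
def fin2Bool : Fin 2 ≃ Bool where
  toFun v := if v = 0 then true else false
  invFun b := cond b 0 1
  left_inv v := by fin_cases v <;> rfl
  right_inv b := by cases b <;> rfl

/-- `θ` at the vertex is the binary operation of a configuration -/
theorem theta_eq_mu2 (k : Fin (M + 1) ↪ J) (e : NZ (Fin (M + 1))) (x y : Om J Z z₀) :
    theta k e x y = Hsp696.mu2 (((thetaConf e).extend k).relabel fin2Bool) (x, y) := by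
  rw [Hsp696.mu2_apply]
  unfold theta
  rw [← mu_relabel ((thetaConf e).extend k) fin2Bool (fun b => cond b x y)]
  congr 1
  funext v
  fin_cases v <;> rfl

/-- the product given by a configuration of two boxes, on singular simplicial sets -/
def muSS (c : BoxConf (Fin 2) J) :
    Hom ((Sing (Om J Z z₀)).prod (Sing (Om J Z z₀))) (Sing (Om J Z z₀)) :=
  (SingMap (Hsp696.mu2 c)).comp (singPair _ _)

theorem Theta_vtx (k : Fin (M + 1) ↪ J) :
    (Theta (Z := Z) (z₀ := z₀) k).comp (vtx M _) =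
      muSS (((thetaConf (nz0 M)).extend k).relabel fin2Bool) := by
  refine Hom.ext (funext fun n => funext fun p => sing_ext fun t => ?_)
  show theta k (ev ((nz M).app n (e0 M n)) t) (ev p.1 t) (ev p.2 t) = _
  rw [ev_nz_e0, theta_eq_mu2]
  rfl

/-- all the products are homotopic -/
theorem muSS_SH [Nontrivial J] (c d : BoxConf (Fin 2) J) :
    SH (muSS (Z := Z) (z₀ := z₀) c) (muSS d) := by
  have h : (Hsp696.mu2 (Z := Z) (z₀ := z₀) c).Homotopic (Hsp696.mu2 d) :=
    (Hsp696.mu2_homotopicRel (Hsp696.joined c d)).homotopic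
  obtain ⟨h⟩ := h
  exact (SH.of (Htpy.ofHomotopy h)).pre _

/-- **the vertex law** -/
theorem omAlg_Vertex [Nontrivial J] (k : Fin (M + 1) ↪ J) (c : BoxConf (Fin 2) J) :
    (omAlg (Z := Z) (z₀ := z₀) k (muSS c)).Vertex := by
  show SH ((Theta k).comp (vtx M _)) (muSS c)
  rw [Theta_vtx]
  exact muSS_SH _ _

end Crest.Agent.R204.GL2735
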