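import Mathlib

/-!
# Cochains on lists (row 204, block G, leaf G5; helper803)

Simplices of `E(J)` are lists (`q`-simplex = list of length `q+1`; the empty list is the augmentation).
`dl` = differential, `cupl` = cup product, `cupo` = cup-one product (mod 2), all by list recursion.
-/

set_option autoImplicit false

namespace Crest.Agent.R204.SQ803

section diff

variable {J J' M M' : Type*} [AddCommGroup M] [AddCommGroup M']

/-- augmented differential, evaluated at a list -/
def dl : List J → (List J → M) → M
  | [], _ => 0
  | x :: l, f => f l - dl l (fun l' => f (x :: l'))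

@[simp] theorem dl_nil (f : List J → M) : dl [] f = 0 := rfl
theorem dl_cons (x : J) (l : List J) (f : List J → M) :
    dl (x :: l) f = f l - dl l (fun l' => f (x :: l')) := rfl

theorem dl_add (l : List J) (f g : List J → M) :
    dl l (fun l' => f l' + g l') = dl l f + dl l g := by
  induction l generalizing f g with
  | nil => simp
  | cons x l ih => rw [dl_cons, dl_cons, dl_cons, ih]; abel

theorem dl_hom (φ : M →+ M') (l : List J) (f : List J → M) :
    dl l (fun l' => φ (f l')) = φ (dl l f) := by
  induction l generalizing f with
  | nil => simp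
  | cons x l ih => rw [dl_cons, dl_cons, ih (fun l' => f (x :: l')), map_sub]

theorem dl_neg (l : List J) (f : List J → M) : dl l (fun l' => - f l') = - dl l f := by
  induction l generalizing f with
  | nil => simp
  | cons x l ih => rw [dl_cons, dl_cons, ih]; abel

theorem dl_sub (l : List J) (f g : List J → M) :
    dl l (fun l' => f l' - g l') = dl l f - dl l g := by
  simp only [sub_eq_add_neg, dl_add, dl_neg]

@[simp] theorem dl_zero (l : List J) : dl l (fun _ => (0 : M)) = 0 := by
  induction l with
  | nil => simp
  | cons x l ih => rw [dl_cons, ih]; simp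

/-- `dl l f` only depends on the values of `f` at lists of length `|l| - 1` -/
theorem dl_congr {l : List J} {f g : List J → M}
    (h : ∀ l', l'.length + 1 = l.length → f l' = g l') : dl l f = dl l g := by
  induction l generalizing f g with
  | nil => simp
  | cons x l ih =>
    rw [dl_cons, dl_cons, h l (by simp)]
    rw [ih (f := fun l' => f (x :: l')) (g := fun l' => g (x :: l'))]
    intro l' hl'
    exact h _ (by simp [hl'])

theorem dl_eq_zero {l : List J} {f : List J → M}
    (h : ∀ l', l'.length + 1 = l.length → f l' = 0) : dl l f = 0 := by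
  rw [dl_congr h, dl_zero]

theorem dl_dl (l : List J) (f : List J → M) : dl l (fun l' => dl l' f) = 0 := by
  induction l generalizing f with
  | nil => simp
  | cons x l ih =>
    rw [dl_cons]
    have : (fun l' => dl (x :: l') f) = fun l' => f l' - dl l' (fun l'' => f (x :: l'')) := by
      funext l'; rw [dl_cons]
    rw [this, dl_sub, ih]; abel

theorem dl_map (φ : J → J') (l : List J) (f : List J' → M) :
    dl l (fun l' => f (l'.map φ)) = dl (l.map φ) f := by
  induction l generalizing f with
  | nil => simp
  | cons x l ih =>
    rw [List.map_cons, dl_cons, dl_cons, ← ih (fun l' => f (φ x :: l'))]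
    simp

/-- the contraction identity -/
theorem contr (c : J) (l : List J) (f : List J → M) :
    f l = dl (c :: l) f + dl l (fun l' => f (c :: l')) := by
  rw [dl_cons]; abel


/-- sign `(-1)^(|l|-1)` -/
def sg (n : ℕ) : ℤ := (-1) ^ (n + 1)

theorem sg_succ (n : ℕ) : sg (n + 1) = - sg n := by simp [sg, pow_succ]

theorem sg_mul_self (n : ℕ) : sg n * sg n = 1 := by
  unfold sg; rw [← pow_add, ← two_mul]; simp

theorem dl_sg (l : List J) (g : List J → M) :
    dl l (fun l' => sg l'.length • g l') = - sg l.length • dl l g := by
  have h : dl l (fun l' => sg l'.length • g l') = dl l (fun l' => (- sg l.length) • g l') := by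
    refine dl_congr fun l' hl' => ?_
    rw [← hl', sg_succ, neg_neg]
  rw [h]
  exact dl_hom (zsmulAddGroupHom (- sg l.length)) l g

end diff

section cup

variable {J J' B : Type*} [NonUnitalRing B]

/-- cup product, evaluated at a list (values at the empty list are ignored) -/
def cupl : List J → (List J → B) → (List J → B) → B
  | [], _, _ => 0
  | x :: l, f, g => f [x] * g (x :: l) + cupl l (fun l' => f (x :: l')) g

@[simp] theorem cupl_nil (f g : List J → B) : cupl [] f g = 0 := rfl
theorem cupl_cons (x : J) (l : List J) (f g : List J → B) :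
    cupl (x :: l) f g = f [x] * g (x :: l) + cupl l (fun l' => f (x :: l')) g := rfl

theorem cupl_add_left (l : List J) (f f' g : List J → B) :
    cupl l (fun l' => f l' + f' l') g = cupl l f g + cupl l f' g := by
  induction l generalizing f f' with
  | nil => simp
  | cons x l ih => rw [cupl_cons, cupl_cons, cupl_cons, ih, add_mul]; abel

theorem cupl_add_right (l : List J) (f g g' : List J → B) :
    cupl l f (fun l' => g l' + g' l') = cupl l f g + cupl l f g' := by
  induction l generalizing f with
  | nil => simp
  | cons x l ih => rw [cupl_cons, cupl_cons, cupl_cons, ih, mul_add]; abel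

theorem cupl_zero_left (l : List J) (g : List J → B) : cupl l (fun _ => 0) g = 0 := by
  induction l with
  | nil => simp
  | cons x l ih => rw [cupl_cons, ih, zero_mul, add_zero]

theorem cupl_zero_right (l : List J) (f : List J → B) : cupl l f (fun _ => 0) = 0 := by
  induction l generalizing f with
  | nil => simp
  | cons x l ih => rw [cupl_cons, ih, mul_zero, add_zero]

/-- the cup product only sees nonempty lists -/
theorem cupl_congr {l : List J} {f f' g g' : List J → B}
    (hf : ∀ x l, f (x :: l) = f' (x :: l)) (hg : ∀ x l, g (x :: l) = g' (x :: l)) :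
    cupl l f g = cupl l f' g' := by
  induction l generalizing f f' with
  | nil => simp
  | cons x l ih =>
    rw [cupl_cons, cupl_cons, hf, hg, ih]
    intro y l'; exact hf x _

theorem cupl_mul_left (a : B) (l : List J) (f g : List J → B) :
    cupl l (fun l' => a * f l') g = a * cupl l f g := by
  induction l generalizing f with
  | nil => simp
  | cons x l ih => rw [cupl_cons, cupl_cons, ih, mul_add, mul_assoc]

theorem cupl_assoc (l : List J) (f g h : List J → B) :
    cupl l (fun l' => cupl l' f g) h = cupl l f (fun l' => cupl l' g h) := by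
  induction l generalizing f with
  | nil => simp
  | cons x l ih =>
    rw [cupl_cons, cupl_cons]
    have e : (fun l' => cupl (x :: l') f g) =
        fun l' => f [x] * g (x :: l') + cupl l' (fun l'' => f (x :: l'')) g := by
      funext l'; rw [cupl_cons]
    rw [e, cupl_add_left, cupl_mul_left, ih, cupl_cons, cupl_nil, add_zero, cupl_cons, mul_add,
      mul_assoc]
    abel

theorem cupl_map (φ : J → J') (l : List J) (f g : List J' → B) :
    cupl l (fun l' => f (l'.map φ)) (fun l' => g (l'.map φ)) = cupl (l.map φ) f g := by
  induction l generalizing f with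
  | nil => simp
  | cons x l ih =>
    rw [List.map_cons, cupl_cons, cupl_cons, ← ih (fun l' => f (φ x :: l'))]
    simp

/-- additive derivations commute with cup products -/
theorem cupl_der (D : B → B) (h0 : D 0 = 0) (hadd : ∀ a b, D (a + b) = D a + D b)
    (hmul : ∀ a b, D (a * b) = D a * b + a * D b) (l : List J) (f g : List J → B) :
    D (cupl l f g) = cupl l (fun l' => D (f l')) g + cupl l f (fun l' => D (g l')) := by
  induction l generalizing f with
  | nil => simp [h0]
  | cons x l ih => rw [cupl_cons, cupl_cons, cupl_cons, hadd, hmul, ih]; abel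

theorem zs2 {B : Type*} [AddCommGroup B] (two : ∀ b : B, b + b = 0) (b : B) : (2 : ℤ) • b = 0 := by
  rw [two_zsmul, two]

theorem zs2' {B : Type*} [AddCommGroup B] (two : ∀ b : B, b + b = 0) (b : B) : (-2 : ℤ) • b = 0 := by
  rw [neg_zsmul, two_zsmul, two, neg_zero]

/-- solve additive identities in a group of exponent two -/
macro "char2 " h:term : tactic =>
  `(tactic| (rw [← sub_eq_zero]; abel_nf; try simp only [zs2 $h, zs2' $h, add_zero, zero_add]))

/-- Leibniz rule mod 2, with the correction terms at the empty list -/
theorem dl_cup (two : ∀ b : B, b + b = 0) (l : List J) (f g : List J → B) :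
    dl l (fun l' => cupl l' f g) = cupl l (fun l' => dl l' f) g + cupl l f (fun l' => dl l' g) +
      f [] * g l + f l * g [] := by
  have hs : ∀ a b : B, a - b = a + b := fun a b => by
    rw [sub_eq_iff_eq_add, add_assoc, two, add_zero]
  have two' : ∀ b : B, b = -b := fun b => eq_neg_of_add_eq_zero_left (two b)
  induction l generalizing f with
  | nil => simp [two]
  | cons x l ih =>
    have e : (fun l' => cupl (x :: l') f g) =
        fun l' => f [x] * g (x :: l') + cupl l' (fun l'' => f (x :: l'')) g := by
      funext l'; rw [cupl_cons]
    have e1 : (fun l' => dl (x :: l') f) = fun l' => f l' + dl l' (fun l'' => f (x :: l'')) := by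
      funext l'; rw [dl_cons, hs]
    have e2 : dl l (fun l' => f [x] * g (x :: l')) = f [x] * dl l (fun l' => g (x :: l')) :=
      dl_hom (AddMonoidHom.mulLeft (f [x])) l _
    rw [dl_cons, hs, e, dl_add, ih, e2, cupl_cons, cupl_cons, e1, cupl_add_left, dl_cons, dl_nil,
      sub_zero, dl_cons, hs, mul_add]
    char2 two

/-- cup-one product (mod 2) -/
def cupo : List J → (List J → B) → (List J → B) → B
  | [], _, _ => 0
  | x :: l, f, g => cupl (x :: l) g (fun l' => f (x :: l')) + cupo l (fun l' => f (x :: l')) g

theorem cupo_cons (x : J) (l : List J) (f g : List J → B) :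
    cupo (x :: l) f g =
      cupl (x :: l) g (fun l' => f (x :: l')) + cupo l (fun l' => f (x :: l')) g := rfl

theorem cupo_add_left (l : List J) (f f' g : List J → B) :
    cupo l (fun l' => f l' + f' l') g = cupo l f g + cupo l f' g := by
  induction l generalizing f f' with
  | nil => simp [cupo]
  | cons x l ih =>
    rw [cupo, cupo, cupo, ih, cupl_add_right]; abel

theorem cupo_map (φ : J → J') (l : List J) (f g : List J' → B) :
    cupo l (fun l' => f (l'.map φ)) (fun l' => g (l'.map φ)) = cupo (l.map φ) f g := by
  induction l generalizing f with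
  | nil => simp [cupo]
  | cons x l ih =>
    rw [List.map_cons, cupo, cupo, ← ih (fun l' => f (φ x :: l'))]
    have := cupl_map φ (x :: l) g (fun l' => f (φ x :: l'))
    rw [List.map_cons] at this
    rw [← this]
    simp

end cup

section cupone

variable {J B : Type*} [NonUnitalCommRing B]

/-- `δ(f ∪₁ g) = δf ∪₁ g + f ∪₁ δg + f ∪ g + g ∪ f` mod 2 (if `g [] = 0`) -/
theorem dl_cupo (two : ∀ b : B, b + b = 0) (l : List J) (f g : List J → B) (hg : g [] = 0) :
    dl l (fun l' => cupo l' f g) = cupo l (fun l' => dl l' f) g + cupo l f (fun l' => dl l' g) +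
      cupl l f g + cupl l g f := by
  have hs : ∀ a b : B, a - b = a + b := fun a b => by
    rw [sub_eq_iff_eq_add, add_assoc, two, add_zero]
  induction l generalizing f with
  | nil => simp [cupo]
  | cons x l ih =>
    have e : (fun l' => cupo (x :: l') f g) =
        fun l' => (g [x] * f (x :: x :: l') + cupl l' (fun l'' => g (x :: l''))
          (fun l' => f (x :: l'))) + cupo l' (fun l' => f (x :: l')) g := by
      funext l'; rw [cupo, cupl_cons]
    have e1 : (fun l' => dl (x :: l') f) = fun l' => f l' + dl l' (fun l'' => f (x :: l'')) := by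
      funext l'; rw [dl_cons, hs]
    have e2 : dl l (fun l' => g [x] * f (x :: x :: l')) = g [x] * dl l (fun l' => f (x :: x :: l')) :=
      dl_hom (AddMonoidHom.mulLeft (g [x])) l _
    have e3 : (fun l' => dl (x :: l') g) = fun l' => g l' + dl l' (fun l'' => g (x :: l'')) := by
      funext l'; rw [dl_cons, hs]
    have L := dl_cup two l (fun l'' => g (x :: l'')) (fun l' => f (x :: l'))
    rw [dl_cons, hs, e, dl_add, dl_add, ih, e2, L, cupo_cons, cupo_cons]
    simp only [cupl_cons, e1, e3, cupl_add_left, cupl_add_right, cupo_add_left, dl_cons, dl_nil, hs,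
      mul_add, hg]
    simp only [mul_comm _ (f [x]), mul_comm _ (f (x :: l)), add_zero, zero_mul]
    char2 two

end cupone

end Crest.Agent.R204.SQ803
private theorem rz_6453df3b58 : type_of% @_root_.Crest.Agent.R204.SQ803.cupo.eq_def := @_root_.Crest.Agent.R204.SQ803.cupo.eq_def -- L229
private theorem rz_77cc8aea1b : type_of% @_root_.Crest.Agent.R204.SQ803.cupo.eq_1 := @_root_.Crest.Agent.R204.SQ803.cupo.eq_1 -- L229
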