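import Crest.Agent.R224.T.Fill_Mg
import Crest.Agent.R224.T.Prism_Mg
import Crest.Agent.R224.T.Sub

-- ▼ part R204/Sph_94
section

/-!
# Row 204, leaf A8b (helper94): the sphere, in the language of `R224/T` (mod 2 singular chains)
-/

set_option autoImplicit false

noncomputable section

open Topology Set

namespace Crest.Agent.R204.Sph94

open Crest.Agent.R224.T

theorem hPr : NPrism := nPrism
theorem hFi : NFill := nFill nPrism
theorem hSu : NSub := nSub hFi
theorem hEx : NExc := exc_holds hSu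
theorem hLo : NLocAll := nLocAll hPr hSu hFi

abbrev Eu (n : ℕ) : Type := EuclideanSpace ℝ (Fin n)
abbrev Sp (d : ℕ) : Type := Metric.sphere (0 : Eu (d + 1)) 1

/-! ## minimum of the coordinates -/

/-- minimum of coordinates -/
def mn {n : ℕ} (x : Fin (n + 1) → ℝ) : ℝ := Finset.univ.inf' Finset.univ_nonempty x

theorem mn_le {n : ℕ} (x : Fin (n + 1) → ℝ) (i : Fin (n + 1)) : mn x ≤ x i :=
  Finset.inf'_le _ (Finset.mem_univ i)

theorem exists_mn {n : ℕ} (x : Fin (n + 1) → ℝ) : ∃ i, mn x = x i := by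
  obtain ⟨i, -, hi⟩ := Finset.exists_mem_eq_inf' Finset.univ_nonempty x
  exact ⟨i, hi⟩

theorem le_mn {n : ℕ} {x : Fin (n + 1) → ℝ} {a : ℝ} (h : ∀ i, a ≤ x i) : a ≤ mn x := by
  obtain ⟨i, hi⟩ := exists_mn x
  rw [hi]; exact h i

theorem continuous_mn {n : ℕ} : Continuous (mn : (Fin (n + 1) → ℝ) → ℝ) := by
  unfold mn
  exact Continuous.finset_inf'_apply _ (fun i _ => continuous_apply i)

/-! ## the linear map -/

theorem exists_L {d : ℕ} (v : Eu (d + 1)) (hv : ‖v‖ = 1) :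
    ∃ L : (Fin (d + 1) → ℝ) →ₗ[ℝ] (ℝ ∙ v)ᗮ, Function.Surjective L ∧
      ∀ x, L x = 0 ↔ ∃ c : ℝ, x = fun _ => c := by
  have hv0 : v ≠ 0 := by
    intro h; rw [h] at hv; simp at hv
  have : Fact (Module.finrank ℝ (Eu (d + 1)) = d + 1) := ⟨by simp⟩
  have h1 : Module.finrank ℝ (ℝ ∙ v)ᗮ = d := Submodule.finrank_orthogonal_span_singleton hv0
  set W : Submodule ℝ (Fin (d + 1) → ℝ) := Submodule.span ℝ {(fun _ => 1 : Fin (d + 1) → ℝ)} with hW
  have h10 : (fun _ => 1 : Fin (d + 1) → ℝ) ≠ 0 := by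
    intro h; have := congrFun h 0; simp at this
  have h2 : Module.finrank ℝ W = 1 := finrank_span_singleton h10
  have h3 : Module.finrank ℝ ((Fin (d + 1) → ℝ) ⧸ W) = d := by
    have := Submodule.finrank_quotient_add_finrank W
    rw [h2] at this
    simp at this
    exact this
  let e : ((Fin (d + 1) → ℝ) ⧸ W) ≃ₗ[ℝ] (ℝ ∙ v)ᗮ := LinearEquiv.ofFinrankEq _ _ (h3.trans h1.symm)
  refine ⟨e.toLinearMap.comp W.mkQ, e.surjective.comp W.mkQ_surjective, fun x => ?_⟩
  simp only [LinearMap.comp_apply, LinearEquiv.coe_coe, LinearEquiv.map_eq_zero_iff,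
    Submodule.mkQ_apply, Submodule.Quotient.mk_eq_zero]
  rw [hW, Submodule.mem_span_singleton]
  constructor
  · rintro ⟨c, rfl⟩
    exact ⟨c, by ext i; simp⟩
  · rintro ⟨c, rfl⟩
    exact ⟨c, by ext i; simp⟩

variable {d : ℕ}

theorem nrm (v : Sp d) : ‖(v : Eu (d + 1))‖ = 1 := by simp

/-- the hyperplane orthogonal to the base point -/
abbrev Hp (v : Sp d) : Submodule ℝ (Eu (d + 1)) := (ℝ ∙ (v : Eu (d + 1)))ᗮ

def L (v : Sp d) : (Fin (d + 1) → ℝ) →ₗ[ℝ] Hp v := (exists_L (v : Eu (d + 1)) (nrm v)).choose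

theorem L_surj (v : Sp d) : Function.Surjective (L v) := (exists_L (v : Eu (d + 1)) (nrm v)).choose_spec.1

theorem L_eq_zero (v : Sp d) (x : Fin (d + 1) → ℝ) : L v x = 0 ↔ ∃ c : ℝ, x = fun _ => c :=
  (exists_L (v : Eu (d + 1)) (nrm v)).choose_spec.2 x

theorem L_const (v : Sp d) (c : ℝ) : L v (fun _ => c) = 0 := (L_eq_zero v _).2 ⟨c, rfl⟩

theorem continuous_L (v : Sp d) : Continuous (L v) := (L v).continuous_of_finiteDimensional

def sec (v : Sp d) : Hp v →ₗ[ℝ] (Fin (d + 1) → ℝ) :=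
  ((L v).exists_rightInverse_of_surjective (LinearMap.range_eq_top.2 (L_surj v))).choose

theorem L_sec (v : Sp d) (w : Hp v) : L v (sec v w) = w :=
  LinearMap.congr_fun ((L v).exists_rightInverse_of_surjective
    (LinearMap.range_eq_top.2 (L_surj v))).choose_spec w

theorem continuous_sec (v : Sp d) : Continuous (sec v) := (sec v).continuous_of_finiteDimensional

theorem sec_L (v : Sp d) (y : Fin (d + 1) → ℝ) : ∃ c : ℝ, sec v (L v y) = fun i => y i + c := by
  have h : L v (sec v (L v y) - y) = 0 := by rw [map_sub, L_sec, sub_self]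
  obtain ⟨c, hc⟩ := (L_eq_zero v _).1 h
  refine ⟨c, ?_⟩
  funext i
  have := congrFun hc i
  simp only [Pi.sub_apply] at this
  linarith

/-! ## the map to the sphere -/

/-- stereographic type formula -/
def st (v : Sp d) (w : Hp v) (m A : ℝ) : Eu (d + 1) :=
  (A + 4 * m ^ 2)⁻¹ • ((4 * m) • (w : Eu (d + 1)) + (A - 4 * m ^ 2) • (v : Eu (d + 1)))

theorem st_norm (v : Sp d) (w : Hp v) (m A : ℝ) (h : A + 4 * m ^ 2 ≠ 0)
    (h2 : m = 0 ∨ A = ‖(w : Eu (d + 1))‖ ^ 2) : st v w m A ∈ Metric.sphere (0 : Eu (d + 1)) 1 := by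
  rw [mem_sphere_zero_iff_norm]
  rcases h2 with rfl | rfl
  · have hA : A ≠ 0 := by simpa using h
    unfold st
    simp [nrm v, hA]
  · have hw : inner ℝ (w : Eu (d + 1)) (v : Eu (d + 1)) = (0 : ℝ) :=
      Submodule.mem_orthogonal_singleton_iff_inner_left.1 w.2
    have h0 : 0 ≤ ‖(w : Eu (d + 1))‖ ^ 2 + 4 * m ^ 2 := by positivity
    have key : ‖(4 * m) • (w : Eu (d + 1)) + (‖(w : Eu (d + 1))‖ ^ 2 - 4 * m ^ 2) • (v : Eu (d + 1))‖ ^ 2 =
        (‖(w : Eu (d + 1))‖ ^ 2 + 4 * m ^ 2) ^ 2 := by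
      rw [norm_add_sq_real, norm_smul, norm_smul, inner_smul_left, inner_smul_right, hw, nrm v]
      simp only [Real.norm_eq_abs, mul_pow, sq_abs]
      simp
      ring
    have key2 : ‖(4 * m) • (w : Eu (d + 1)) + (‖(w : Eu (d + 1))‖ ^ 2 - 4 * m ^ 2) • (v : Eu (d + 1))‖ =
        ‖(w : Eu (d + 1))‖ ^ 2 + 4 * m ^ 2 := by
      have := (sq_eq_sq₀ (norm_nonneg _) h0).1 key
      exact this
    unfold st
    rw [norm_smul, key2, norm_inv, Real.norm_eq_abs, abs_of_nonneg h0]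
    exact inv_mul_cancel₀ h

theorem st_zero (v : Sp d) (w : Hp v) (A : ℝ) (h : A ≠ 0) : st v w 0 A = v := by
  unfold st
  simp [h]

theorem st_eq_neg (v : Sp d) (w : Hp v) (m A : ℝ) (h : A + 4 * m ^ 2 ≠ 0)
    (h1 : st v w m A = -(v : Eu (d + 1))) : A = 0 := by
  unfold st at h1
  have hw : inner ℝ (w : Eu (d + 1)) (v : Eu (d + 1)) = (0 : ℝ) :=
    Submodule.mem_orthogonal_singleton_iff_inner_left.1 w.2
  have h2 : inner ℝ ((A + 4 * m ^ 2)⁻¹ • ((4 * m) • (w : Eu (d + 1)) + (A - 4 * m ^ 2) • (v : Eu (d + 1))))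
      (v : Eu (d + 1)) = (-1 : ℝ) := by
    rw [h1, inner_neg_left, real_inner_self_eq_norm_sq, nrm v]; norm_num
  rw [inner_smul_left, inner_add_left, inner_smul_left, inner_smul_left, hw,
    real_inner_self_eq_norm_sq, nrm v] at h2
  simp only [conj_trivial] at h2
  field_simp at h2
  linarith


theorem continuous_st {P : Type*} [TopologicalSpace P] (v : Sp d) {w : P → Hp v} {m A : P → ℝ}
    (hw : Continuous w) (hm : Continuous m) (hA : Continuous A)
    (h : ∀ p, A p + 4 * (m p) ^ 2 ≠ 0) : Continuous fun p => st v (w p) (m p) (A p) := by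
  unfold st
  exact ((hA.add (continuous_const.mul (hm.pow 2))).inv₀ h).smul
    (((continuous_const.mul hm).smul (continuous_subtype_val.comp hw)).add
      ((hA.sub (continuous_const.mul (hm.pow 2))).smul continuous_const))

theorem dl_nonneg {n : ℕ} (x : Dl n) (i : Fin (n + 1)) : 0 ≤ x.1 i := x.2.1 i
theorem dl_sum {n : ℕ} (x : Dl n) : ∑ i, x.1 i = 1 := x.2.2

theorem mn_nonneg {n : ℕ} (x : Dl n) : 0 ≤ mn x.1 := le_mn (dl_nonneg x)

theorem mn_pos_of_L {v : Sp d} {x : Dl d} (h : L v x.1 = 0) : 0 < mn x.1 := by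
  obtain ⟨c, hc⟩ := (L_eq_zero v _).1 h
  have h1 := dl_sum x
  rw [hc] at h1
  simp at h1
  have h2 : 0 < c := by
    by_contra h3
    have h4 : c ≤ 0 := not_lt.1 h3
    have h5 : (0 : ℝ) ≤ (d : ℝ) + 1 := by positivity
    nlinarith
  obtain ⟨i, hi⟩ := exists_mn x.1
  rw [hi, hc]; exact h2

theorem den_ne (v : Sp d) (x : Dl d) (t : ℝ) (h0 : 0 ≤ t) (h1 : t ≤ 1) :
    ‖(L v x.1 : Eu (d + 1))‖ ^ 2 + 4 * ((1 - t) * mn x.1 + t) ^ 2 ≠ 0 := by
  intro h
  have h2 : ‖(L v x.1 : Eu (d + 1))‖ ^ 2 = 0 := by nlinarith [sq_nonneg ‖(L v x.1 : Eu (d + 1))‖, sq_nonneg ((1 - t) * mn x.1 + t)]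
  have h3 : ((1 - t) * mn x.1 + t) ^ 2 = 0 := by nlinarith [sq_nonneg ‖(L v x.1 : Eu (d + 1))‖, sq_nonneg ((1 - t) * mn x.1 + t)]
  have h4 : L v x.1 = 0 := by
    have : (L v x.1 : Eu (d + 1)) = 0 := by simpa using h2
    exact Subtype.ext this
  have h5 := mn_pos_of_L h4
  have h6 : (1 - t) * mn x.1 + t = 0 := by simpa using h3
  have h7 : 0 ≤ (1 - t) * mn x.1 := mul_nonneg (by linarith) h5.le
  have h8 : t = 0 := by linarith
  rw [h8] at h6
  linarith

/-- homotopy from `sg v` to the stereographic simplex -/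
def Hh (v : Sp d) : C(Dl d × unitInterval, Sp d) :=
  ⟨fun p => ⟨st v (L v p.1.1) ((1 - (p.2 : ℝ)) * mn p.1.1 + p.2) (‖(L v p.1.1 : Eu (d + 1))‖ ^ 2),
    st_norm v _ _ _ (den_ne v p.1 p.2 p.2.2.1 p.2.2.2) (Or.inr rfl)⟩, by
    refine Continuous.subtype_mk ?_ _
    have h1 : Continuous fun p : Dl d × unitInterval => p.1.1 :=
      continuous_subtype_val.comp continuous_fst
    have h2 : Continuous fun p : Dl d × unitInterval => (p.2 : ℝ) :=
      continuous_subtype_val.comp continuous_snd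
    have h3 : Continuous fun p : Dl d × unitInterval => L v p.1.1 := (continuous_L v).comp h1
    refine continuous_st v h3 (((continuous_const.sub h2).mul (continuous_mn.comp h1)).add h2)
      ((continuous_norm.comp (continuous_subtype_val.comp h3)).pow 2) ?_
    intro p
    exact den_ne v p.1 p.2 p.2.2.1 p.2.2.2⟩

/-- the fundamental simplex -/
def sg (v : Sp d) : C(Dl d, Sp d) := (Hh v).comp ⟨fun x => (x, 0), by fun_prop⟩

theorem sg_coe (v : Sp d) (x : Dl d) : (sg v x : Eu (d + 1)) =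
    st v (L v x.1) (mn x.1) (‖(L v x.1 : Eu (d + 1))‖ ^ 2) := by
  show st v (L v x.1) ((1 - ((0 : unitInterval) : ℝ)) * mn x.1 + ((0 : unitInterval) : ℝ)) _ = _
  simp

theorem Hh_eq_neg (v : Sp d) (p : Dl d × unitInterval) (h : Hh v p = -v) : L v p.1.1 = 0 := by
  have h1 := congrArg (Subtype.val) h
  have h2 : ‖(L v p.1.1 : Eu (d + 1))‖ ^ 2 = 0 :=
    st_eq_neg v _ _ _ (den_ne v p.1 p.2 p.2.2.1 p.2.2.2) h1
  have : (L v p.1.1 : Eu (d + 1)) = 0 := by simpa using h2
  exact Subtype.ext this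

/-- the linear simplex -/
def tau (v : Sp d) : C(Dl d, Hp v) := ⟨fun x => L v x.1, (continuous_L v).comp continuous_subtype_val⟩

/-- inverse stereographic projection -/
def sf (v : Sp d) : C(Hp v, Sp d) :=
  ⟨(stereographic (nrm v)).symm, (isOpenEmbedding_stereographic_symm (nrm v)).continuous⟩

theorem sf_open (v : Sp d) : IsOpenEmbedding (sf v) := isOpenEmbedding_stereographic_symm (nrm v)

theorem sf_coe (v : Sp d) (w : Hp v) : (sf v w : Eu (d + 1)) =
    (‖(w : Eu (d + 1))‖ ^ 2 + 4)⁻¹ • ((4 : ℝ) • (w : Eu (d + 1)) + (‖(w : Eu (d + 1))‖ ^ 2 - 4) • (v : Eu (d + 1))) :=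
  rfl

theorem Hh_one (v : Sp d) : (Hh v).comp ⟨fun x => (x, 1), by fun_prop⟩ = (sf v).comp (tau v) := by
  ext1 x
  apply Subtype.ext
  show st v (L v x.1) ((1 - ((1 : unitInterval) : ℝ)) * mn x.1 + ((1 : unitInterval) : ℝ))
    (‖(L v x.1 : Eu (d + 1))‖ ^ 2) = (sf v (L v x.1) : Eu (d + 1))
  rw [sf_coe]
  unfold st
  simp

theorem sf_zero (v : Sp d) : sf v 0 = -v := by
  apply Subtype.ext
  rw [sf_coe]
  simp

/-! ## faces -/

theorem face_self {n : ℕ} (i : Fin (n + 2)) (x : Dl n) : (face n i x).1 i = 0 := by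
  show (FunOnFinite.linearMap ℝ ℝ i.succAbove x.1) i = 0
  rw [FunOnFinite.linearMap_apply_apply]
  refine Finset.sum_eq_zero fun j hj => ?_
  simp at hj

theorem face_succAbove {n : ℕ} (i : Fin (n + 2)) (x : Dl n) (j : Fin (n + 1)) :
    (face n i x).1 (i.succAbove j) = x.1 j := by
  show (FunOnFinite.linearMap ℝ ℝ i.succAbove x.1) (i.succAbove j) = x.1 j
  rw [FunOnFinite.linearMap_apply_apply]
  rw [Finset.sum_eq_single j]
  · intro k hk hkj
    simp at hk
    exact absurd hk hkj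
  · intro hj
    simp at hj

theorem mn_face {n : ℕ} (i : Fin (n + 2)) (x : Dl n) : mn (face n i x).1 = 0 := by
  apply le_antisymm
  · rw [← face_self i x]; exact mn_le _ i
  · exact mn_nonneg _

theorem L_face_ne {n : ℕ} (v : Sp (n + 1)) (i : Fin (n + 2)) (x : Dl n) : L v (face n i x).1 ≠ 0 := by
  intro h
  have := mn_pos_of_L h
  rw [mn_face] at this
  exact lt_irrefl _ this

/-- all faces of the fundamental simplex are constant -/
theorem sg_face {n : ℕ} (v : Sp (n + 1)) (i : Fin (n + 2)) :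
    (sg v).comp (face n i) = ContinuousMap.const _ v := by
  ext1 x
  apply Subtype.ext
  show (sg v (face n i x) : Eu (n + 2)) = v
  rw [sg_coe, mn_face]
  refine st_zero v _ _ ?_
  have h := L_face_ne v i x
  have h2 : (L v (face n i x).1 : Eu (n + 2)) ≠ 0 := fun h3 => h (Subtype.ext h3)
  positivity

end Crest.Agent.R204.Sph94
end
end

-- ▼ part R204/Sph_94b
section

/-!
# Row 204, leaf A8b (helper94), part 2: the fundamental simplex does not bound
-/

set_option autoImplicit false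

noncomputable section

open Topology Set

namespace Crest.Agent.R204.Sph94

open Crest.Agent.R224.T

/-- constant simplex -/
def cs {X : Type} [TopologicalSpace X] (n : ℕ) (x : X) : C(Dl n, X) := ContinuousMap.const _ x

theorem cs_comp_face {X : Type} [TopologicalSpace X] (n : ℕ) (x : X) (i : Fin (n + 2)) :
    (cs (n + 1) x).comp (face n i) = cs n x := rfl

/-! ## the collapse -/

/-- subtract the minimum -/
def tl {n : ℕ} (z : Fin (n + 1) → ℝ) : Fin (n + 1) → ℝ := fun i => z i - mn z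

theorem tl_nonneg {n : ℕ} (z : Fin (n + 1) → ℝ) (i : Fin (n + 1)) : 0 ≤ tl z i := by
  have := mn_le z i
  simp only [tl]; linarith

theorem exists_tl {n : ℕ} (z : Fin (n + 1) → ℝ) : ∃ i, tl z i = 0 := by
  obtain ⟨i, hi⟩ := exists_mn z
  exact ⟨i, by simp only [tl, hi, sub_self]⟩

theorem continuous_tl {n : ℕ} : Continuous (tl : (Fin (n + 1) → ℝ) → Fin (n + 1) → ℝ) :=
  continuous_pi fun i => (continuous_apply i).sub continuous_mn

theorem tl_add {n : ℕ} (z : Fin (n + 1) → ℝ) (c : ℝ) (h : mn z = 0) :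
    tl (fun i => z i + c) = z := by
  have h1 : mn (fun i => z i + c) = c := by
    apply le_antisymm
    · obtain ⟨i, hi⟩ := exists_mn z
      have h2 : mn (fun i => z i + c) ≤ z i + c := mn_le (fun i => z i + c) i
      rw [← hi, h] at h2
      linarith
    · refine le_mn fun i => ?_
      have := mn_le z i
      rw [h] at this
      linarith
  funext i
  simp only [tl, h1]
  ring

variable {n : ℕ}

/-- tail -/
def tt (z : Fin (n + 2) → ℝ) : Fin (n + 1) → ℝ := fun j => tl z j.succ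

theorem continuous_tt : Continuous (tt : (Fin (n + 2) → ℝ) → Fin (n + 1) → ℝ) :=
  continuous_pi fun j => (continuous_apply j.succ).comp continuous_tl

theorem mn_tt_nonneg (z : Fin (n + 2) → ℝ) : 0 ≤ mn (tt z) := le_mn fun j => tl_nonneg z j.succ

theorem mn_tt_or (z : Fin (n + 2) → ℝ) : mn (tt z) = 0 ∨ tl z 0 = 0 := by
  obtain ⟨i, hi⟩ := exists_tl z
  rcases Fin.eq_zero_or_eq_succ i with rfl | ⟨j, rfl⟩
  · exact Or.inr hi
  · left
    apply le_antisymm
    · rw [← hi]; exact mn_le (tt z) j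
    · exact mn_tt_nonneg z

theorem den2_ne (v' : Sp n) (z : Fin (n + 2) → ℝ) (hz : ∀ c : ℝ, z ≠ fun _ => c) :
    (‖(L v' (tt z) : Eu (n + 1))‖ ^ 2 + tl z 0 ^ 2) + 4 * (mn (tt z)) ^ 2 ≠ 0 := by
  intro h
  have h1 : ‖(L v' (tt z) : Eu (n + 1))‖ ^ 2 = 0 := by
    nlinarith [sq_nonneg ‖(L v' (tt z) : Eu (n + 1))‖, sq_nonneg (tl z 0), sq_nonneg (mn (tt z))]
  have h2 : tl z 0 ^ 2 = 0 := by
    nlinarith [sq_nonneg ‖(L v' (tt z) : Eu (n + 1))‖, sq_nonneg (tl z 0), sq_nonneg (mn (tt z))]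
  have h3 : mn (tt z) ^ 2 = 0 := by
    nlinarith [sq_nonneg ‖(L v' (tt z) : Eu (n + 1))‖, sq_nonneg (tl z 0), sq_nonneg (mn (tt z))]
  have h4 : L v' (tt z) = 0 := by
    have : (L v' (tt z) : Eu (n + 1)) = 0 := by simpa using h1
    exact Subtype.ext this
  obtain ⟨c, hc⟩ := (L_eq_zero v' _).1 h4
  have h5 : tl z 0 = 0 := by simpa using h2
  have h6 : mn (tt z) = 0 := by simpa using h3
  obtain ⟨i, hi⟩ := exists_mn (tt z)
  rw [h6, hc] at hi
  refine hz (mn z) (funext fun i => ?_)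
  rcases Fin.eq_zero_or_eq_succ i with rfl | ⟨j, rfl⟩
  · have : z 0 - mn z = 0 := h5
    linarith
  · have := congrFun hc j
    have h7 : z j.succ - mn z = c := this
    have h8 : (0 : ℝ) = c := hi
    linarith

theorem sec_not_const (v : Sp (n + 1)) (w : Hp v) (hw : w ≠ 0) (c : ℝ) :
    sec v w ≠ fun _ => c := by
  intro h
  apply hw
  rw [← L_sec v w, h, L_const]

/-- the collapse `Hp v ∖ 0 → S^n` -/
def G (v : Sp (n + 1)) (v' : Sp n) : C(({0}ᶜ : Set (Hp v)), Sp n) :=
  ⟨fun w => ⟨st v' (L v' (tt (sec v w.1))) (mn (tt (sec v w.1)))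
      (‖(L v' (tt (sec v w.1)) : Eu (n + 1))‖ ^ 2 + tl (sec v w.1) 0 ^ 2),
    st_norm v' _ _ _ (den2_ne v' _ (sec_not_const v w.1 w.2)) (by
      rcases mn_tt_or (sec v w.1) with h | h
      · exact Or.inl h
      · right; rw [h]; ring)⟩, by
    refine Continuous.subtype_mk ?_ _
    have h1 : Continuous fun w : ({0}ᶜ : Set (Hp v)) => sec v w.1 :=
      (continuous_sec v).comp continuous_subtype_val
    have h2 : Continuous fun w : ({0}ᶜ : Set (Hp v)) => L v' (tt (sec v w.1)) :=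
      (continuous_L v').comp (continuous_tt.comp h1)
    refine continuous_st v' h2 (continuous_mn.comp (continuous_tt.comp h1))
      (((continuous_norm.comp (continuous_subtype_val.comp h2)).pow 2).add
        (((continuous_apply 0).comp (continuous_tl.comp h1)).pow 2)) ?_
    intro w
    exact den2_ne v' _ (sec_not_const v w.1 w.2)⟩

/-- the faces of `tau`, avoiding zero -/
def tf (v : Sp (n + 1)) (i : Fin (n + 2)) : C(Dl n, ({0}ᶜ : Set (Hp v))) :=
  ⟨fun x => ⟨L v (face n i x).1, L_face_ne v i x⟩,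
    Continuous.subtype_mk ((tau v).comp (face n i)).continuous _⟩

theorem incl_tf (v : Sp (n + 1)) (i : Fin (n + 2)) :
    (incl ({0}ᶜ : Set (Hp v))).comp (tf v i) = (tau v).comp (face n i) := rfl

theorem tl_sec (v : Sp (n + 1)) (i : Fin (n + 2)) (x : Dl n) :
    tl (sec v (L v (face n i x).1)) = (face n i x).1 := by
  obtain ⟨c, hc⟩ := sec_L v (face n i x).1
  rw [hc, tl_add _ _ (mn_face i x)]

theorem G_tf_zero (v : Sp (n + 1)) (v' : Sp n) : (G v v').comp (tf v 0) = sg v' := by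
  ext1 x
  apply Subtype.ext
  have h1 : tt (sec v (L v (face n 0 x).1)) = x.1 := by
    funext j
    show tl (sec v (L v (face n 0 x).1)) j.succ = _
    rw [tl_sec]
    have := face_succAbove 0 x j
    simpa using this
  have h2 : tl (sec v (L v (face n 0 x).1)) 0 = 0 := by
    rw [tl_sec]; exact face_self 0 x
  show st v' (L v' (tt (sec v (L v (face n 0 x).1)))) (mn (tt (sec v (L v (face n 0 x).1))))
      (‖(L v' (tt (sec v (L v (face n 0 x).1))) : Eu (n + 1))‖ ^ 2 + tl (sec v (L v (face n 0 x).1)) 0 ^ 2) = _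
  rw [h1, h2, sg_coe]
  congr 1
  ring

theorem G_tf_succ (v : Sp (n + 1)) (v' : Sp n) (i : Fin (n + 1)) :
    (G v v').comp (tf v i.succ) = cs n v' := by
  ext1 x
  apply Subtype.ext
  have h2 : mn (tt (sec v (L v (face n i.succ x).1))) = 0 := by
    apply le_antisymm
    · have h3 := mn_le (tt (sec v (L v (face n i.succ x).1))) i
      have h4 : tt (sec v (L v (face n i.succ x).1)) i = 0 := by
        show tl (sec v (L v (face n i.succ x).1)) i.succ = 0
        rw [tl_sec]; exact face_self i.succ x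
      rw [h4] at h3; exact h3
    · exact mn_tt_nonneg _
  have h5 := den2_ne v' _ (sec_not_const v _ (L_face_ne v i.succ x))
  rw [h2] at h5
  show st v' (L v' (tt (sec v (L v (face n i.succ x).1)))) (mn (tt (sec v (L v (face n i.succ x).1))))
      (‖(L v' (tt (sec v (L v (face n i.succ x).1))) : Eu (n + 1))‖ ^ 2 +
        tl (sec v (L v (face n i.succ x).1)) 0 ^ 2) = v'
  rw [h2]
  refine st_zero v' _ _ ?_
  simpa using h5

/-! ## the statement -/

/-- the fundamental cycle -/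
def fc {d : ℕ} (v : Sp d) : Ch d (Sp d) := Finsupp.single (sg v) 1 + Finsupp.single (cs d v) 1

/-- the fundamental cycle does not bound -/
def NB (d : ℕ) : Prop := ∀ v : Sp d, ¬ ∃ b : Ch (d + 1) (Sp d), bd d b = fc v

/-- in degree zero -/
theorem nb_zero : NB 0 := by
  rintro v ⟨b, hb⟩
  let φ : Ch 0 (Sp 0) →ₗ[ZMod 2] ZMod 2 := Finsupp.linearCombination (ZMod 2)
    (fun σ : C(Dl 0, Sp 0) => if 0 < (inner ℝ (σ (stdSimplex.vertex 0) : Eu 1) (v : Eu 1) : ℝ) then (1 : ZMod 2) else 0)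
  have hne : ∀ p : Sp 0, (inner ℝ (p : Eu 1) (v : Eu 1) : ℝ) ≠ 0 := by
    intro p h
    have h1 : (inner ℝ (p : Eu 1) (v : Eu 1) : ℝ) = (v : Eu 1) 0 * (p : Eu 1) 0 := by
      simp [PiLp.inner_apply]
    rw [h1] at h
    have hz : ∀ q : Sp 0, (q : Eu 1) 0 ≠ 0 := by
      intro q hq
      have h2 := nrm q
      rw [EuclideanSpace.norm_eq] at h2
      simp [hq] at h2
    rcases mul_eq_zero.1 h with h | h
    · exact hz v h
    · exact hz p h
  have hφ : φ ∘ₗ bd 0 = 0 := by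
    apply Finsupp.lhom_ext'
    intro γ
    apply LinearMap.ext_ring
    have hb1 : bd 0 (Finsupp.single γ (1 : ZMod 2)) =
        Finsupp.single (γ.comp (face 0 0)) 1 + Finsupp.single (γ.comp (face 0 1)) 1 := by
      rw [bd_single, Fin.sum_univ_two]
    show φ (bd 0 (Finsupp.single γ (1 : ZMod 2))) = 0
    rw [hb1, map_add]
    have hφs : ∀ σ : C(Dl 0, Sp 0), φ (Finsupp.single σ 1) =
        if 0 < (inner ℝ (σ (stdSimplex.vertex 0) : Eu 1) (v : Eu 1) : ℝ) then (1 : ZMod 2) else 0 := by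
      intro σ
      simp only [φ, Finsupp.linearCombination_single, one_smul]
    rw [hφs, hφs]
    have hconn : IsPreconnected (range fun x : Dl 1 => (inner ℝ (γ x : Eu 1) (v : Eu 1) : ℝ)) :=
      isPreconnected_range (by fun_prop)
    have hs : ∀ a b : Dl 1, 0 < (inner ℝ (γ a : Eu 1) (v : Eu 1) : ℝ) →
        0 < (inner ℝ (γ b : Eu 1) (v : Eu 1) : ℝ) := by
      intro a b ha
      by_contra hb
      have hb' := lt_of_le_of_ne (not_lt.1 hb) (hne (γ b))
      have h0 : (0 : ℝ) ∈ range fun x : Dl 1 => (inner ℝ (γ x : Eu 1) (v : Eu 1) : ℝ) :=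
        hconn.ordConnected.out ⟨b, rfl⟩ ⟨a, rfl⟩ ⟨hb'.le, ha.le⟩
      obtain ⟨c, hc⟩ := h0
      exact hne (γ c) hc
    by_cases h : 0 < (inner ℝ ((γ.comp (face 0 0)) (stdSimplex.vertex 0) : Eu 1) (v : Eu 1) : ℝ)
    · have h' : 0 < (inner ℝ ((γ.comp (face 0 1)) (stdSimplex.vertex 0) : Eu 1) (v : Eu 1) : ℝ) :=
        hs _ _ h
      rw [if_pos h, if_pos h']; rfl
    · have h' : ¬ 0 < (inner ℝ ((γ.comp (face 0 1)) (stdSimplex.vertex 0) : Eu 1) (v : Eu 1) : ℝ) :=
        fun h'' => h (hs _ _ h'')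
      rw [if_neg h, if_neg h']; rfl
  have h1 : φ (fc v) = 0 := by
    rw [← hb]
    exact LinearMap.congr_fun hφ b
  have h2 : φ (fc v) = 1 := by
    simp only [fc, map_add, φ, Finsupp.linearCombination_single, one_smul]
    have e1 : (sg v (stdSimplex.vertex 0) : Eu 1) = -(v : Eu 1) := by
      rw [sg_coe]
      have : L v (stdSimplex.vertex (S := ℝ) (0 : Fin 1)).1 = 0 := by
        rw [L_eq_zero]
        refine ⟨(stdSimplex.vertex (S := ℝ) (0 : Fin 1)).1 0, funext fun i => ?_⟩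
        rw [Subsingleton.elim i 0]
      rw [this]
      have hm : mn (stdSimplex.vertex (S := ℝ) (0 : Fin 1)).1 ≠ 0 := by
        have := mn_pos_of_L this
        exact this.ne'
      unfold st
      simp only [ZeroMemClass.coe_zero, smul_zero, norm_zero, zero_add]
      rw [smul_smul]
      have : ((0 : ℝ) ^ 2 + 4 * mn (stdSimplex.vertex (S := ℝ) (0 : Fin 1)).1 ^ 2)⁻¹ *
        (0 ^ 2 - 4 * mn (stdSimplex.vertex (S := ℝ) (0 : Fin 1)).1 ^ 2) = -1 := by
        field_simp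
        ring
      rw [this]; simp
    have e2 : (inner ℝ (sg v (stdSimplex.vertex 0) : Eu 1) (v : Eu 1) : ℝ) = -1 := by
      rw [e1, inner_neg_left, real_inner_self_eq_norm_sq, nrm v]; norm_num
    have e3 : (inner ℝ (cs 0 v (stdSimplex.vertex 0) : Eu 1) (v : Eu 1) : ℝ) = 1 := by
      show (inner ℝ (v : Eu 1) (v : Eu 1) : ℝ) = 1
      rw [real_inner_self_eq_norm_sq, nrm v]; norm_num
    rw [e2, e3]
    norm_num
  rw [h1] at h2
  exact absurd h2 (by decide)


/-! ## induction step -/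

theorem neg_ne (v : Sp n) : v ≠ -v := by
  intro h
  have h1 : (v : Eu (n + 1)) = -(v : Eu (n + 1)) := congrArg Subtype.val h
  have h2 : (v : Eu (n + 1)) = 0 := by
    have : (2 : ℝ) • (v : Eu (n + 1)) = 0 := by
      rw [two_smul]; nth_rewrite 2 [h1]; simp
    simpa using this
  have := nrm v
  rw [h2] at this
  simp at this

/-- boundary of a constant simplex -/
theorem bd_cs {X : Type} [TopologicalSpace X] (m : ℕ) (x : X) :
    bd m (Finsupp.single (cs (m + 1) x) 1) = ((m : ZMod 2) + 2) • Finsupp.single (cs m x) (1 : ZMod 2) := by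
  rw [bd_single]
  simp only [cs_comp_face]
  rw [Finset.sum_const, Finset.card_univ, Fintype.card_fin]
  rw [← Nat.cast_smul_eq_nsmul (ZMod 2)]
  push_cast
  rfl

/-- if `fc v` bounds then `tau v` is trivial modulo `0` -/
theorem nul_tau (v : Sp (n + 1)) (h : ∃ b : Ch (n + 2) (Sp (n + 1)), bd (n + 1) b = fc v) :
    Nul {0}ᶜ (Finsupp.single (tau v) 1 : Ch (n + 1) (Hp v)) := by
  obtain ⟨b, hb⟩ := h
  -- `sg v` modulo `-v`
  have h1 : Nul {-v}ᶜ (Finsupp.single (sg v) 1 : Ch (n + 1) (Sp (n + 1))) := by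
    refine ⟨b, Finsupp.single (cs (n + 1) v) 1, ?_, ?_⟩
    · rw [In_single]
      rintro _ ⟨x, rfl⟩
      exact neg_ne v
    · rw [hb, fc, add_add_cancel']
  -- the homotopy
  obtain ⟨P, -, hP1, hP2⟩ := hPr (Dl (n + 1)) (Sp (n + 1)) (Hh v)
  have h2 := hP1 n (Finsupp.single (ContinuousMap.id (Dl (n + 1))) 1)
  rw [push_single, push_single] at h2
  have h3 : Nul {-v}ᶜ (Finsupp.single ((sf v).comp (tau v)) 1 : Ch (n + 1) (Sp (n + 1))) := by
    obtain ⟨b1, e1, he1, hbe⟩ := h1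
    refine ⟨b1 + P (n + 1) (Finsupp.single (ContinuousMap.id (Dl (n + 1))) 1),
      e1 + P n (bd n (Finsupp.single (ContinuousMap.id (Dl (n + 1))) 1)), ?_, ?_⟩
    · refine he1.add ?_
      rw [bd_single, map_sum]
      refine In.sum fun i _ => ?_
      intro ρ hρ
      refine (hP2 n _ ρ hρ).trans ?_
      rintro _ ⟨⟨x, t⟩, ⟨⟨y, hy⟩, -⟩, rfl⟩ hneg
      have h7 : L v x.1 = 0 := Hh_eq_neg v _ hneg
      have h8 : face n i y = x := hy
      rw [← h8] at h7
      exact L_face_ne v i y h7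
    · rw [map_add, h2]
      have e2 : (Hh v).comp ⟨fun x => (x, 1), by fun_prop⟩ = (sf v).comp (tau v) := Hh_one v
      have e3 : ((Hh v).comp ⟨fun x => (x, 0), by fun_prop⟩) = sg v := rfl
      rw [ContinuousMap.comp_id, ContinuousMap.comp_id, e2, e3, hbe]
      generalize bd (n + 1) b1 = A
      generalize P n (bd n (Finsupp.single (ContinuousMap.id (Dl (n + 1))) 1)) = B
      generalize (Finsupp.single ((sf v).comp (tau v)) (1 : ZMod 2)) = C
      have : A + (C + (A + e1) + B) + (e1 + B) = C + (A + A) + (e1 + e1) + (B + B) := by abel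
      rw [this, add_self, add_self, add_self]
      simp
  -- excision
  have h4 : (sf v) '' {0} = {-v} := by rw [image_singleton, sf_zero]
  have h5 : IsClosed ((sf v) '' {0}) := by rw [h4]; exact isClosed_singleton
  have h6 := (hEx (Hp v) (Sp (n + 1)) (sf v) (sf_open v) {0} h5 n).2
    (Finsupp.single (tau v) 1) (by
      show In {0}ᶜ (bd n (Finsupp.single (tau v) 1))
      rw [bd_single]
      refine In.sum fun i _ => ?_
      rw [In_single]
      rintro _ ⟨x, rfl⟩
      exact L_face_ne v i x)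
  rw [h4, push_single] at h6
  exact h6.1 h3

/-- induction step -/
theorem nb_succ (h : NB n) : NB (n + 1) := by
  intro v hb
  have h1 := nul_tau v hb
  obtain ⟨b, e, he, hbe⟩ := h1
  obtain ⟨e', he'⟩ := exists_incl_eq he
  have h2 : push (incl ({0}ᶜ : Set (Hp v))) n (bd n e') =
      push (incl ({0}ᶜ : Set (Hp v))) n (∑ i, Finsupp.single (tf v i) 1) := by
    rw [← bd_push, he', map_sum]
    simp only [push_single, incl_tf]
    have h3 := congrArg (bd n) hbe
    rw [map_add, bd_bd, zero_add, bd_single] at h3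
    exact h3.symm
  have h3 : bd n e' = ∑ i, Finsupp.single (tf v i) 1 :=
    push_injective (f := incl ({0}ᶜ : Set (Hp v))) Subtype.val_injective n h2
  -- any base point
  have v' : Sp n := ⟨EuclideanSpace.single 0 1, by simp⟩
  apply h v'
  have h4 := congrArg (push (G v v') n) h3
  rw [← bd_push, map_sum] at h4
  simp only [push_single] at h4
  rw [Fin.sum_univ_succ] at h4
  simp only [G_tf_zero, G_tf_succ] at h4
  rw [Finset.sum_const, Finset.card_univ, Fintype.card_fin, ← Nat.cast_smul_eq_nsmul (ZMod 2)] at h4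
  push_cast at h4
  have h5 := bd_cs n v'
  rcases (by decide : ∀ a : ZMod 2, a = 0 ∨ a = 1) (n : ZMod 2) with h6 | h6
  · rw [h6] at h4
    refine ⟨_, h4.trans ?_⟩
    simp [fc]
  · rw [h6] at h4 h5
    refine ⟨push (G v v') (n + 1) e' + Finsupp.single (cs (n + 1) v') 1, ?_⟩
    rw [map_add, h4, h5, fc]
    have e1 : ((1 : ZMod 2) + 1) = 0 := rfl
    have e2 : ((1 : ZMod 2) + 2) = 1 := rfl
    rw [e1, e2]
    simp

theorem nb (n : ℕ) : NB n := by
  induction n with
  | zero => exact nb_zero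
  | succ n ih => exact nb_succ ih

end Crest.Agent.R204.Sph94
end
end

-- ▼ part R204/Sph_94c

/-!
# Row 204, leaf A8b (helper94), part 3: homology of the sphere, upper bounds (in the language of R224/T)
-/

set_option autoImplicit false

noncomputable section

open Topology Set

namespace Crest.Agent.R204.Sph94

open Crest.Agent.R224.T

variable {d : ℕ}

/-- inclusion of the sphere -/
def inS : C(Sp d, EE (d + 1)) := ⟨Subtype.val, continuous_subtype_val⟩

theorem sp_ne (x : Sp d) : x.1 ∈ ({0}ᶜ : Set (EE (d + 1))) := by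
  intro h
  have h1 := nrm x
  have h2 : (x : Eu (d + 1)) = 0 := h
  rw [h2] at h1
  simp at h1

/-- inclusion of the sphere into the complement of the origin -/
def inS0 : C(Sp d, ({0}ᶜ : Set (EE (d + 1)))) :=
  ⟨fun x => ⟨x.1, sp_ne x⟩, Continuous.subtype_mk continuous_subtype_val _⟩

/-- radial retraction -/
def rad : C(({0}ᶜ : Set (EE (d + 1))), Sp d) :=
  ⟨fun x => ⟨‖x.1‖⁻¹ • x.1, by
    have h : x.1 ≠ 0 := x.2
    have h1 : ‖x.1‖ ≠ 0 := norm_ne_zero_iff.2 h
    rw [mem_sphere_zero_iff_norm, norm_smul, norm_inv, norm_norm, inv_mul_cancel₀ h1]⟩, by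
    refine Continuous.subtype_mk ?_ _
    refine Continuous.smul (Continuous.inv₀ (continuous_norm.comp continuous_subtype_val) ?_) continuous_subtype_val
    intro x
    exact norm_ne_zero_iff.2 x.2⟩

theorem incl_inS0 : (incl ({0}ᶜ : Set (EE (d + 1)))).comp inS0 = inS := rfl

theorem rad_inS0 : (rad (d := d)).comp inS0 = ContinuousMap.id _ := by
  ext1 x
  apply Subtype.ext
  show ‖(x : Eu (d + 1))‖⁻¹ • (x : Eu (d + 1)) = x
  rw [nrm x]; simp

/-- if a filling of a cycle of the sphere is trivial modulo the origin, the cycle bounds -/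
theorem bounds_of_nul {q : ℕ} (c : Ch (q + 1) (Sp d)) (b : Ch (q + 2) (EE (d + 1)))
    (hb : bd (q + 1) b = push inS (q + 1) c) (h : Nul {0}ᶜ b) : ∃ b' : Ch (q + 2) (Sp d), bd (q + 1) b' = c := by
  obtain ⟨b1, e, he, hbe⟩ := h
  obtain ⟨e', he'⟩ := exists_incl_eq he
  have h1 : push (incl ({0}ᶜ : Set (EE (d + 1)))) (q + 1) (bd (q + 1) e') =
      push (incl ({0}ᶜ : Set (EE (d + 1)))) (q + 1) (push inS0 (q + 1) c) := by
    rw [← bd_push, he', push_push, incl_inS0, ← hb, hbe, map_add, bd_bd, zero_add]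
  have h2 : bd (q + 1) e' = push inS0 (q + 1) c :=
    push_injective (f := incl ({0}ᶜ : Set (EE (d + 1)))) Subtype.val_injective _ h1
  refine ⟨push rad (q + 2) e', ?_⟩
  rw [bd_push, h2, push_push, rad_inS0, push_id]

theorem rc_fill {q : ℕ} (c : Ch (q + 1) (Sp d)) (b : Ch (q + 2) (EE (d + 1)))
    (hb : bd (q + 1) b = push inS (q + 1) c) : RC {0}ᶜ b := by
  show In {0}ᶜ (bd (q + 1) b)
  rw [hb]
  refine (In_univ c).push_of_mapsTo ?_
  intro x _
  exact (inS0 x).2

/-- the homology of the sphere vanishes in degrees `≠ 0, d` -/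
theorem sphere_low (q : ℕ) (hq : q + 1 ≠ d) (c : Ch (q + 1) (Sp d)) (hc : bd q c = 0) :
    ∃ b : Ch (q + 2) (Sp d), bd (q + 1) b = c := by
  obtain ⟨b, hb⟩ := hFi (EE (d + 1)) q (push inS (q + 1) c) (by rw [bd_push, hc, map_zero])
  exact bounds_of_nul c b hb ((hLo d).1 (q + 1) b hq (rc_fill c b hb))

/-- two nontrivial cycles of top degree are homologous -/
theorem sphere_top (n : ℕ) (c c' : Ch (n + 1) (Sp (n + 1))) (hc : bd n c = 0) (hc' : bd n c' = 0)
    (h : ¬ ∃ b : Ch (n + 2) (Sp (n + 1)), bd (n + 1) b = c)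
    (h' : ¬ ∃ b : Ch (n + 2) (Sp (n + 1)), bd (n + 1) b = c') :
    ∃ b : Ch (n + 2) (Sp (n + 1)), bd (n + 1) b = c + c' := by
  obtain ⟨b, hb⟩ := hFi (EE (n + 2)) n (push inS (n + 1) c) (by rw [bd_push, hc, map_zero])
  obtain ⟨b', hb'⟩ := hFi (EE (n + 2)) n (push inS (n + 1) c') (by rw [bd_push, hc', map_zero])
  have h1 : ¬ Nul {0}ᶜ b := fun h2 => h (bounds_of_nul c b hb h2)
  have h1' : ¬ Nul {0}ᶜ b' := fun h2 => h' (bounds_of_nul c' b' hb' h2)
  have h2 := (hLo (n + 1)).2.2 b b' (rc_fill c b hb) (rc_fill c' b' hb') h1 h1'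
  exact bounds_of_nul (c + c') (b + b') (by rw [map_add, map_add, hb, hb']) h2

/-- the fundamental cycle is a cycle -/
theorem bd_fc (n : ℕ) (v : Sp (n + 1)) : bd n (fc v) = 0 := by
  unfold fc
  rw [map_add, bd_single, bd_single]
  simp only [sg_face, cs_comp_face]
  rw [← Finset.sum_add_distrib]
  refine Finset.sum_eq_zero fun i _ => ?_
  exact add_self _

/-- every cycle of top degree bounds or is homologous to the fundamental cycle -/
theorem sphere_gen (n : ℕ) (v : Sp (n + 1)) (c : Ch (n + 1) (Sp (n + 1))) (hc : bd n c = 0) :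
    (∃ b : Ch (n + 2) (Sp (n + 1)), bd (n + 1) b = c) ∨
      ∃ b : Ch (n + 2) (Sp (n + 1)), bd (n + 1) b = c + fc v := by
  by_cases h : ∃ b : Ch (n + 2) (Sp (n + 1)), bd (n + 1) b = c
  · exact Or.inl h
  · exact Or.inr (sphere_top n c (fc v) hc (bd_fc n v) h (nb (n + 1) v))

end Crest.Agent.R204.Sph94
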