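import Crest.Agent.R204.Spec_114
import Crest.Agent.R204.OpsHopf_557
import Crest.Agent.R204.Hopf4b_450
import Crest.Agent.R204.EZInst_847
import Crest.Agent.R204.C6_898
import Crest.Agent.R204.GL2D_735
import Crest.Agent.R204.Hopf4i_450

-- ▼ part R204/StageA_114
section

/-!
# Row 204: one stage of the tower (helper114)

`Stage` = the data of one `X_k`; `Stage.Gr`, `Eps`, `Delta`, `SqF`, `BM`, `TF`, `T0`, `GL2`, `QF`, `F13` =
the `k`-th components of the facts of `Spec114.Tower` which only involve one stage.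
`ofStages` glues stages to a tower; the corresponding facts are componentwise (`fact*_ofStages`).
-/

set_option autoImplicit false

noncomputable section

namespace Crest.Agent.R204.Stage114

open Spec114 TensorProduct
open scoped TensorProduct

/-- the data of one stage -/
structure Stage where
  H : Type
  [ring : CommRing H]
  [alg : Algebra F2 H]
  gr : ℕ → Submodule F2 H
  Δ : H →ₐ[F2] (H ⊗[F2] H)
  ε : H →ₐ[F2] F2
  Sq : ℕ → (H →ₗ[F2] H)
  T : ℕ → (H →ₗ[F2] H)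
  Q : ℕ → H → H

attribute [instance] Stage.ring Stage.alg

namespace Stage

variable (X : Stage)

def Qup (s u : ℕ) (y : X.H) : X.H := if u ≤ s then X.Q (s - u) y else 0

def Gr : Prop :=
  DirectSum.IsInternal X.gr ∧ (1 : X.H) ∈ X.gr 0 ∧
  ∀ (s t : ℕ) (a b : X.H), a ∈ X.gr s → b ∈ X.gr t → a * b ∈ X.gr (s + t)

def Eps : Prop := ∀ t, 1 ≤ t → ∀ y ∈ X.gr t, X.ε y = 0

def Delta : Prop :=
  (∀ y : X.H, TensorProduct.lid F2 X.H (TensorProduct.map X.ε.toLinearMap LinearMap.id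
      (X.Δ y)) = y) ∧
  (∀ y : X.H, TensorProduct.rid F2 X.H (TensorProduct.map LinearMap.id X.ε.toLinearMap
      (X.Δ y)) = y) ∧
  ∀ t, ∀ y ∈ X.gr t, X.Δ y ∈ ⨆ p ∈ Finset.HasAntidiagonal.antidiagonal t,
    LinearMap.range (TensorProduct.map (X.gr p.1).subtype (X.gr p.2).subtype)

def SqF : Prop :=
  (∀ y : X.H, X.Sq 0 y = y) ∧
  (∀ (a t : ℕ), ∀ y ∈ X.gr t, X.Sq a y ∈ X.gr (t - a)) ∧
  (∀ (a t : ℕ), ∀ y ∈ X.gr t, t < 2 * a → X.Sq a y = 0) ∧
  (∀ (a : ℕ) (y z : X.H), X.Sq a (y * z) =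
    ∑ p ∈ Finset.HasAntidiagonal.antidiagonal a, X.Sq p.1 y * X.Sq p.2 z) ∧
  (∀ (a : ℕ) (y : X.H), X.Δ (X.Sq a y) =
    ∑ p ∈ Finset.HasAntidiagonal.antidiagonal a, TensorProduct.map (X.Sq p.1) (X.Sq p.2) (X.Δ y))

def BM : Prop := Tower.DualBM X.Sq

def TF (D : ℕ) : Prop := ∀ i ≤ D + 1,
  (∀ t, ∀ y ∈ X.gr t, X.T i y ∈ X.gr (t + i)) ∧
  (X.T i 1 = if i = 0 then 1 else 0) ∧
  (∀ y : X.H, X.Δ (X.T i y) =
    ∑ p ∈ Finset.HasAntidiagonal.antidiagonal i, TensorProduct.map (X.T p.1) (X.T p.2) (X.Δ y)) ∧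
  (∀ (a : ℕ) (y : X.H), X.Sq a (X.T i y) =
    ∑ b ∈ Finset.range (a + 1), (if 2 * b ≤ i then (Nat.choose (i - b) b : F2) else 0) •
      X.T (i - b) (X.Sq (a - b) y))

def T0 : Prop := ∀ y : X.H, X.T 0 y = LinearMap.mul' F2 X.H (X.Δ y)

def GL2 (D : ℕ) : Prop := ∀ i j, i + j ≤ D + 1 → ∀ y : X.H,
  X.T i (X.T j y) = X.T j (X.T i y) ∧
  X.T i (X.T j y) = ∑ l ∈ Finset.range (i + 1),
    (Nat.choose (l + j) j : F2) • X.T (i - l) (X.T (j + l) y)

def QF (D : ℕ) : Prop :=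
  (∀ y : X.H, X.Q 0 y = y * y) ∧
  (∀ i, 1 ≤ i → i ≤ D + 1 → ∀ y z : X.H, X.Q i (y + z) = X.Q i y + X.Q i z) ∧
  (∀ i ≤ D + 1, ∀ t, ∀ y ∈ X.gr t, X.Q i y ∈ X.gr (2 * t + i))

def F13 (D : ℕ) : Prop := ∀ i, 1 ≤ i → i ≤ D + 1 → ∀ t, ∀ y ∈ X.gr t,
  X.T i y = ∑ l ∈ Finset.range (t / 2 + 1), X.Qup (i + l) (t - l) (X.Sq l y)

/-- all one-stage facts -/
structure Facts (D : ℕ) : Prop where
  gr : X.Gr
  eps : X.Eps
  delta : X.Delta
  sq : X.SqF
  bm : X.BM
  t : X.TF D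
  t0 : X.T0
  gl2 : X.GL2 D
  q : X.QF D
  f13 : X.F13 D

end Stage

/-- a tower from its stages -/
def ofStages (St : ℕ → Stage) (σ : ∀ k, (St k).H →ₗ[F2] (St (k + 1)).H) (x : ∀ k, (St k).H)
    (xinv : (St 0).H) (base : Subalgebra F2 (St 0).H) : Tower where
  H k := (St k).H
  ring k := (St k).ring
  alg k := (St k).alg
  gr k := (St k).gr
  Δ k := (St k).Δ
  ε k := (St k).ε
  Sq k := (St k).Sq
  T k := (St k).T
  Q k := (St k).Q
  σ := σ
  x := x
  xinv := xinv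
  base := base

section

variable {St : ℕ → Stage} {σ : ∀ k, (St k).H →ₗ[F2] (St (k + 1)).H} {x : ∀ k, (St k).H}
  {xinv : (St 0).H} {base : Subalgebra F2 (St 0).H} {D : ℕ}

theorem factGr (h : ∀ k ≤ D + 2, (St k).Facts D) : (ofStages St σ x xinv base).FactGr D :=
  fun k hk => (h k hk).gr
theorem factEps (h : ∀ k ≤ D + 2, (St k).Facts D) : (ofStages St σ x xinv base).FactEps D :=
  fun k hk => (h k hk).eps
theorem factDelta (h : ∀ k ≤ D + 2, (St k).Facts D) : (ofStages St σ x xinv base).FactDelta D :=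
  fun k hk => (h k hk).delta
theorem factSq (h : ∀ k ≤ D + 2, (St k).Facts D) : (ofStages St σ x xinv base).FactSq D :=
  fun k hk => (h k hk).sq
theorem factBM (h : ∀ k ≤ D + 2, (St k).Facts D) : (ofStages St σ x xinv base).FactBM D :=
  fun k hk => (h k hk).bm
theorem factT (h : ∀ k ≤ D + 2, (St k).Facts D) : (ofStages St σ x xinv base).FactT D :=
  fun k hk => (h k hk).t
theorem factT0 (h : ∀ k ≤ D + 2, (St k).Facts D) : (ofStages St σ x xinv base).FactT0 D :=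
  fun k hk => (h k hk).t0
theorem factGL2 (h : ∀ k ≤ D + 2, (St k).Facts D) : (ofStages St σ x xinv base).FactGL2 D :=
  fun k hk => (h k hk).gl2
theorem factQ (h : ∀ k ≤ D + 2, (St k).Facts D) : (ofStages St σ x xinv base).FactQ D :=
  fun k hk => (h k hk).q
theorem fact13 (h : ∀ k ≤ D + 2, (St k).Facts D) : (ofStages St σ x xinv base).Fact13 D :=
  fun k hk => (h k hk).f13

end

end Crest.Agent.R204.Stage114
end
end

-- ▼ part R204/StageB_114
section

/-!
# Row 204: the stage of a `Θ`-algebra (helper114)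

`stage A P Sq` : `H F2 K` with the Pontryagin ring of `P : HMon K`, coproduct of `ezd`, operations of
`A : ThAlg M K`, Steenrod operations `Sq`.
-/

set_option autoImplicit false
set_option linter.style.haveILetI false

noncomputable section

namespace Crest.Agent.R204.Stage114

open Spec114 TensorProduct Hopf450 Coalg847 EZ847 ThAlg265
open scoped TensorProduct

variable {M : ℕ} {K : SS}

/-- the stage of a `Θ`-algebra -/
def stage (A : ThAlg M K) (P : HMon K) (Sq : ℕ → (Crest.Agent.R204.H F2 K →ₗ[F2] Crest.Agent.R204.H F2 K)) : Stage :=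
  letI := P.ring ezd
  letI := P.alg ezd
  { H := Crest.Agent.R204.H F2 K
    ring := P.ring ezd
    alg := P.alg ezd
    gr := Crest.Agent.R204.H.gr F2 K
    Δ := P.copA ezd
    ε := P.epsA ezd
    Sq := Sq
    T := Ops265.T A
    Q := Ops265.Q A }

variable (A : ThAlg M K) (P : HMon K) (Sq : ℕ → (Crest.Agent.R204.H F2 K →ₗ[F2] Crest.Agent.R204.H F2 K))

theorem stage_gr : (stage A P Sq).Gr :=
  ⟨isInternal K, vtx_mem_gr P.e, fun _ _ _ _ ha hb => P.mulL_mem_gr ezd ha hb⟩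

theorem stage_eps : (stage A P Sq).Eps := fun _ ht _ hy => eps_gr (by omega) hy

theorem stage_delta : (stage A P Sq).Delta :=
  ⟨fun y => ezd.eps_cop y, fun y => ezd.cop_eps y, fun _ _ hy => ezd.cop_mem_gr isInternal hy⟩

theorem ezd_cross : ezd.ez K K = EZ271.cross F2 := rfl

theorem stage_t0 (hV : A.Vertex) (hP : P.mu = A.mu) : (stage A P Sq).T0 :=
  OpsHopf557.factT0 A P ezd hV hP

theorem stage_q (hV : A.Vertex) (hP : P.mu = A.mu) {D : ℕ} (hD : D + 2 ≤ M) :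
    (stage A P Sq).QF D :=
  OpsHopf557.factQ A P ezd hV hP ezd_cross hD

theorem stage_f13 {D : ℕ} (hD : D + 1 ≤ M)
    (h : ∀ i (hi : i ≤ M), 1 ≤ i → i ≤ D + 1 → ∀ t, ∀ y ∈ Crest.Agent.R204.H.gr F2 K t,
      OpsHopf557.P4At M K Sq i t hi y) :
    (stage A P Sq).F13 D :=
  OpsHopf557.fact13 A hD h

theorem stage_t (h1 : A.OneLaw) (hP : P.e = A.one) {D : ℕ} (hD : D + 1 ≤ M)
    (h3 : ∀ i ≤ D + 1, ∀ y : Crest.Agent.R204.H F2 K, ezd.cop K (Ops265.T A i y) =
      ∑ p ∈ Finset.HasAntidiagonal.antidiagonal i,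
        TensorProduct.map (Ops265.T A p.1) (Ops265.T A p.2) (ezd.cop K y))
    (h4 : ∀ i ≤ D + 1, ∀ (a : ℕ) (y : Crest.Agent.R204.H F2 K), Sq a (Ops265.T A i y) =
      ∑ b ∈ Finset.range (a + 1), (if 2 * b ≤ i then (Nat.choose (i - b) b : F2) else 0) •
        Ops265.T A (i - b) (Sq (a - b) y)) :
    (stage A P Sq).TF D := fun i hi =>
  ⟨(OpsHopf557.factT12 A P ezd h1 hP hD i hi).1, (OpsHopf557.factT12 A P ezd h1 hP hD i hi).2,
    h3 i hi, h4 i hi⟩

end Crest.Agent.R204.Stage114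
end
end

-- ▼ part R204/StageC_114

/-!
# Row 204: the stage of a `Θ`-algebra, part 2: Steenrod operations (helper114)
-/

set_option autoImplicit false
set_option linter.style.haveILetI false

noncomputable section

namespace Crest.Agent.R204.Stage114

open Spec114 TensorProduct Hopf450 Coalg847 EZ847 ThAlg265
open scoped TensorProduct

/-- the Steenrod package without the Adem relations -/
structure SqMost extends C6898.SqSys where
  zero : ∀ (K : SS) (x : Crest.Agent.R204.H F2 K), Sq K 0 x = x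
  mem_gr : ∀ (K : SS) (a t : ℕ), ∀ x ∈ Crest.Agent.R204.H.gr F2 K t,
    Sq K a x ∈ Crest.Agent.R204.H.gr F2 K (t - a)
  unst : ∀ (K : SS) (a t : ℕ), ∀ x ∈ Crest.Agent.R204.H.gr F2 K t, t < 2 * a → Sq K a x = 0

/-- the complete Steenrod package -/
structure SqAll extends SqMost where
  bm : ∀ K : SS, Tower.DualBM (Sq K)

variable {M : ℕ} {K : SS}

theorem cartan' (S : C6898.SqSys) (K L : SS) (a : ℕ)
    (t : Crest.Agent.R204.H F2 K ⊗[F2] Crest.Agent.R204.H F2 L) :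
    S.Sq (K.prod L) a (ezd.cr K L t) =
      ezd.cr K L (∑ p ∈ Finset.HasAntidiagonal.antidiagonal a,
        TensorProduct.map (S.Sq K p.1) (S.Sq L p.2) t) := by
  induction t with
  | zero => simp
  | add x y hx hy => simp only [map_add, hx, hy, Finset.sum_add_distrib]
  | tmul x y =>
    refine (S.cartan K L a x y).trans ?_
    rw [map_sum]
    rfl

theorem stage_sq (A : ThAlg M K) (P : HMon K) (S : SqMost) : (stage A P (S.Sq K)).SqF := by
  refine ⟨S.zero K, S.mem_gr K, S.unst K, ?_, ?_⟩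
  · intro a y z
    show S.Sq K a (Crest.Agent.R204.H.map F2 P.mu (ezd.cr K K (y ⊗ₜ z))) =
      ∑ p ∈ Finset.HasAntidiagonal.antidiagonal a,
        Crest.Agent.R204.H.map F2 P.mu (ezd.cr K K (S.Sq K p.1 y ⊗ₜ S.Sq K p.2 z))
    rw [← S.nat, cartan', map_sum, map_sum]
    rfl
  · intro a y
    show ezd.cop K (S.Sq K a y) = ∑ p ∈ Finset.HasAntidiagonal.antidiagonal a,
      TensorProduct.map (S.Sq K p.1) (S.Sq K p.2) (ezd.cop K y)
    apply (ezd.cr K K).injective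
    rw [ezd.cr_cop, S.nat, ← ezd.cr_cop, cartan']


/-- `FactT`, complete -/
theorem stage_tf (A : ThAlg M K) (P : HMon K) (S : SqMost) (h1 : A.OneLaw) (hP : P.e = A.one)
    {D : ℕ} (hD : D + 1 ≤ M) : (stage A P (S.Sq K)).TF D :=
  stage_t A P _ h1 hP hD (fun i hi y => C6898.cop_T A (by omega) y)
    (fun i hi a y => S.toSqSys.Sq_T A (by omega) a y)


end Crest.Agent.R204.Stage114
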