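import Mathlib
import Crest.Agent.R204.DicksonC_91
import Crest.Agent.R204.DicksonE_91

-- ▼ part R204/Thm3_737
section

/-!
# Row 204, Theorem 3 (Dickson description): abstract algebraic core  (owner helper737)

Everything here is pure algebra.  `Ops H` lists exactly the facts about the little cube operations
`T_i`, `Q_i` (lower indices), the dual Steenrod operations `Sq a = Sq^a_*` on the total homology `H`
of one space (internally graded by `gr`), valid for operation indices `≤ M`.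
-/

set_option autoImplicit false

namespace Crest.Agent.R204.Thm3

open Finset

/-- The structure on the homology of `X = Ω^J Y` coming from little cubes (facts (1.1)-(1.5)). -/
structure Ops (H : Type*) [AddCommGroup H] [Module (ZMod 2) H] where
  /-- degree `d` part -/
  gr : ℕ → Submodule (ZMod 2) H
  /-- `T_i y = ψ_*(a_i ⊗ y)` -/
  T : ℕ → H →ₗ[ZMod 2] H
  /-- `Q_i y = θ_*(e_i ⊗ y ⊗ y)` (lower index) -/
  Q : ℕ → H →ₗ[ZMod 2] H
  /-- dual Steenrod squares `Sq^a_*` -/
  Sq : ℕ → H →ₗ[ZMod 2] H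
  /-- the range of the operations -/
  M : ℕ
  T_gr : ∀ i ≤ M, ∀ d, ∀ y ∈ gr d, T i y ∈ gr (d + i)
  Q_gr : ∀ i ≤ M, ∀ d, ∀ y ∈ gr d, Q i y ∈ gr (2 * d + i)
  Sq_gr : ∀ a d, ∀ y ∈ gr d, a ≤ d → Sq a y ∈ gr (d - a)
  Sq_zero : ∀ y, Sq 0 y = y
  Sq_unst : ∀ a d, ∀ y ∈ gr d, d < 2 * a → Sq a y = 0
  /-- (1.3) `T_i y = ∑_l Q^{i+l} (Sq^l_* y)`; `Q^{i+l}` on degree `d - l` is `Q_{i+2l-d}` -/
  T_eq : ∀ i, 1 ≤ i → i ≤ M → ∀ d, ∀ y ∈ gr d,
    T i y = ∑ l ∈ range (d / 2 + 1), if d ≤ i + 2 * l then Q (i + 2 * l - d) (Sq l y) else 0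
  /-- (1.4) `Sq^a_* ψ_*(a_i ⊗ y) = ∑_b ψ_*(Sq^b_* a_i ⊗ Sq^{a-b}_* y)` -/
  Sq_T : ∀ a, ∀ i ≤ M, ∀ y, Sq a (T i y) =
    ∑ b ∈ range (a + 1), if 2 * b ≤ i then (((i - b).choose b : ℕ) : ZMod 2) • T (i - b) (Sq (a - b) y) else 0
  /-- (1.5) swap invariance of `Ψ₂` -/
  T_swap : ∀ i j, i + j ≤ M → ∀ y, T i (T j y) = T j (T i y)
  /-- (1.5) invariance of `Ψ₂` under the transvection -/
  T_trans : ∀ i j, i + j ≤ M → ∀ y, T i (T j y) =
    ∑ s ∈ range (j + 1), (((i + s).choose s : ℕ) : ZMod 2) • T (i + s) (T (j - s) y)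

variable {H : Type*} [AddCommGroup H] [Module (ZMod 2) H] (O : Ops H)

namespace Ops

/-- iterated `T`: `tw m y = T_{m 0} (T_{m 1} (... (T_{m (r-1)} y)))` -/
def tw : {r : ℕ} → (Fin r → ℕ) → H →ₗ[ZMod 2] H
  | 0, _ => LinearMap.id
  | _ + 1, m => O.T (m 0) ∘ₗ tw (Fin.tail m)

/-- iterated `Q`: `qw m y = Q_{m 0} (Q_{m 1} (... (Q_{m (r-1)} y)))` -/
def qw : {r : ℕ} → (Fin r → ℕ) → H →ₗ[ZMod 2] H
  | 0, _ => LinearMap.id
  | _ + 1, m => O.Q (m 0) ∘ₗ qw (Fin.tail m)

@[simp] theorem tw_zero (m : Fin 0 → ℕ) (y : H) : O.tw m y = y := rfl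
theorem tw_succ {r : ℕ} (m : Fin (r + 1) → ℕ) (y : H) :
    O.tw m y = O.T (m 0) (O.tw (Fin.tail m) y) := rfl
@[simp] theorem qw_zero (m : Fin 0 → ℕ) (y : H) : O.qw m y = y := rfl
theorem qw_succ {r : ℕ} (m : Fin (r + 1) → ℕ) (y : H) :
    O.qw m y = O.Q (m 0) (O.qw (Fin.tail m) y) := rfl

end Ops

/-- degree of the word `Q_{i 0} ... Q_{i (r-1)} x`, `|x| = k` -/
def qdeg (k : ℕ) : {r : ℕ} → (Fin r → ℕ) → ℕ
  | 0, _ => k
  | _ + 1, m => 2 * qdeg k (Fin.tail m) + m 0

@[simp] theorem qdeg_zero (k : ℕ) (m : Fin 0 → ℕ) : qdeg k m = k := rfl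
theorem qdeg_succ (k : ℕ) {r : ℕ} (m : Fin (r + 1) → ℕ) :
    qdeg k m = 2 * qdeg k (Fin.tail m) + m 0 := rfl

theorem qdeg_eq (k : ℕ) : ∀ {r : ℕ} (m : Fin r → ℕ), qdeg k m = 2 ^ r * k + ∑ j : Fin r, 2 ^ (j : ℕ) * m j
  | 0, m => by simp
  | r + 1, m => by
    rw [qdeg_succ, qdeg_eq k (Fin.tail m), Fin.sum_univ_succ]
    simp only [Fin.val_zero, pow_zero, one_mul, Fin.val_succ, Fin.tail, mul_add, Finset.mul_sum]
    rw [pow_succ, add_assoc, add_comm (m 0)]
    congr 1
    · ring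
    · congr 1
      exact Finset.sum_congr rfl fun j _ => by ring

theorem sum_tail {r : ℕ} (m : Fin (r + 1) → ℕ) : ∑ j, m j = m 0 + ∑ j, Fin.tail m j :=
  Fin.sum_univ_succ _

namespace Ops

theorem tw_gr {k : ℕ} {x : H} (hx : x ∈ O.gr k) : ∀ {r : ℕ} (m : Fin r → ℕ), ∑ j, m j ≤ O.M →
    O.tw m x ∈ O.gr (k + ∑ j, m j)
  | 0, m, _ => by simpa using hx
  | r + 1, m, h => by
    rw [sum_tail] at h ⊢
    have := O.T_gr (m 0) (by omega) _ _ (tw_gr hx (Fin.tail m) (by omega))
    rw [tw_succ]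
    convert this using 2
    omega

theorem T_sub_of_lt {i : ℕ} (hi0 : 1 ≤ i) (hi : i ≤ O.M) {d : ℕ} {y : H} (hy : y ∈ O.gr d)
    (h : ∀ l, d ≤ i + 2 * l → O.Sq l y = 0) : O.T i y = 0 := by
  rw [O.T_eq i hi0 hi d y hy]
  refine Finset.sum_eq_zero fun l _ => ?_
  split_ifs with hl
  · rw [h l hl, map_zero]
  · rfl

/-- the dual Steenrod operations act on iterated `T`'s by the Cartan formula -/
theorem Sq_tw {x : H} (hx : ∀ a, 0 < a → O.Sq a x = 0) : ∀ {r : ℕ} (m : Fin r → ℕ) (a : ℕ),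
    ∑ j, m j ≤ O.M → ∑ j, m j < 2 * a → O.Sq a (O.tw m x) = 0
  | 0, m, a, _, h => by
    simp only [tw_zero]
    exact hx a (by simp at h; omega)
  | r + 1, m, a, hM, h => by
    rw [sum_tail] at hM h
    rw [tw_succ, O.Sq_T a (m 0) (by omega)]
    refine Finset.sum_eq_zero fun b hb => ?_
    rw [Finset.mem_range] at hb
    split_ifs with hb'
    · rw [Sq_tw hx (Fin.tail m) (a - b) (by omega) (by omega), map_zero, smul_zero]
    · rfl

/-- the properties of the fundamental class `x` (`x = x_k`, `k ≥ 1`, or `x = [1]`, `k = 0`) -/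
structure Base (k : ℕ) (x : H) : Prop where
  mem : x ∈ O.gr k
  sq : ∀ a, 0 < a → O.Sq a x = 0
  /-- `T_0` vanishes on primitive elements -/
  t0 : 0 < k → ∀ {r : ℕ} (m : Fin r → ℕ), ∑ j, m j ≤ O.M → O.T 0 (O.tw m x) = 0
  /-- `T_0 [c] = [2c] = Q_0 [c]` -/
  t00 : k = 0 → ∀ r : ℕ, O.T 0 (O.tw (fun _ : Fin r => 0) x) = O.Q 0 (O.tw (fun _ : Fin r => 0) x)

/-- `T_i` vanishes for `i < k` on iterated `T`'s of a class of degree `k` -/
theorem T_tw_eq_zero {k : ℕ} {x : H} (hx : O.Base k x)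
    {r : ℕ} (m : Fin (r + 1) → ℕ) (hM : ∑ j, m j ≤ O.M) (h : m 0 < k) : O.tw m x = 0 := by
  rw [sum_tail] at hM
  rw [tw_succ]
  rcases Nat.eq_zero_or_pos (m 0) with h0 | h0
  · rw [h0]; exact hx.t0 (by omega) _ (by omega)
  refine O.T_sub_of_lt h0 (by omega) (O.tw_gr hx.mem (Fin.tail m) (by omega)) fun l hl => ?_
  exact O.Sq_tw hx.sq (Fin.tail m) l (by omega) (by omega)

theorem tw_swap {x : H} : ∀ {r : ℕ} (m : Fin r → ℕ) (p : ℕ) (hp : p + 1 < r), ∑ j, m j ≤ O.M →
    O.tw (m ∘ Equiv.swap (⟨p, by omega⟩ : Fin r) ⟨p + 1, hp⟩) x = O.tw m x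
  | 0, _, p, hp, _ => by omega
  | 1, _, p, hp, _ => by omega
  | r + 2, m, 0, hp, hM => by
    rw [sum_tail, sum_tail] at hM
    rw [tw_succ, tw_succ, tw_succ, tw_succ]
    have e0 : (m ∘ Equiv.swap (⟨0, by omega⟩ : Fin (r + 2)) ⟨0 + 1, hp⟩) 0 = Fin.tail m 0 := by
      simp only [Function.comp_apply, Fin.tail]
      exact congrArg m (Equiv.swap_apply_left _ _)
    have e1 : Fin.tail (m ∘ Equiv.swap (⟨0, by omega⟩ : Fin (r + 2)) ⟨0 + 1, hp⟩) 0 = m 0 := by
      simp only [Function.comp_apply, Fin.tail]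
      exact congrArg m (Equiv.swap_apply_right _ _)
    have e2 : Fin.tail (Fin.tail (m ∘ Equiv.swap (⟨0, by omega⟩ : Fin (r + 2)) ⟨0 + 1, hp⟩)) =
        Fin.tail (Fin.tail m) := by
      funext j
      simp only [Function.comp_apply, Fin.tail]
      refine congrArg m (Equiv.swap_apply_of_ne_of_ne ?_ ?_) <;> simp [Fin.ext_iff]
    rw [e0, e1, e2]
    exact O.T_swap _ _ (by omega) _
  | r + 2, m, p + 1, hp, hM => by
    rw [sum_tail] at hM
    have ih := tw_swap (x := x) (Fin.tail m) p (by omega) (by omega)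
    rw [tw_succ, tw_succ (m := m), ← ih]
    have e0 : (m ∘ Equiv.swap (⟨p + 1, by omega⟩ : Fin (r + 2)) ⟨p + 1 + 1, hp⟩) 0 = m 0 := by
      simp only [Function.comp_apply]
      refine congrArg m (Equiv.swap_apply_of_ne_of_ne ?_ ?_) <;> simp [Fin.ext_iff]
    have e1 : Fin.tail (m ∘ Equiv.swap (⟨p + 1, by omega⟩ : Fin (r + 2)) ⟨p + 1 + 1, hp⟩) =
        Fin.tail m ∘ Equiv.swap (⟨p, by omega⟩ : Fin (r + 1)) ⟨p + 1, by omega⟩ := by
      funext j
      simp only [Function.comp_apply, Fin.tail]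
      refine congrArg m ?_
      rw [Equiv.swap_apply_def, Equiv.swap_apply_def]
      simp only [Fin.ext_iff, Fin.val_succ]
      split_ifs <;> simp_all
    rw [e0, e1]

/-- move `s` units from place `p + 1` to place `p` -/
def mv {r : ℕ} (m : Fin r → ℕ) (p : ℕ) (s : ℕ) : Fin r → ℕ := fun j =>
  if (j : ℕ) = p then m j + s else if (j : ℕ) = p + 1 then m j - s else m j

theorem tw_trans {x : H} : ∀ {r : ℕ} (m : Fin r → ℕ) (p : ℕ) (hp : p + 1 < r), ∑ j, m j ≤ O.M →
    O.tw m x = ∑ s ∈ range (m ⟨p + 1, hp⟩ + 1),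
      (((m ⟨p, by omega⟩ + s).choose s : ℕ) : ZMod 2) • O.tw (mv m p s) x
  | 0, _, p, hp, _ => by omega
  | 1, _, p, hp, _ => by omega
  | r + 2, m, 0, hp, hM => by
    rw [sum_tail, sum_tail] at hM
    rw [tw_succ, tw_succ, O.T_trans _ _ (by omega)]
    have e : m ⟨0 + 1, hp⟩ = Fin.tail m 0 := rfl
    have e' : m ⟨0, by omega⟩ = m 0 := rfl
    rw [e, e']
    refine Finset.sum_congr rfl fun s _ => ?_
    rw [tw_succ, tw_succ]
    have e0 : mv m 0 s 0 = m 0 + s := by simp [mv]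
    have e1 : Fin.tail (mv m 0 s) 0 = Fin.tail m 0 - s := by simp [mv, Fin.tail]
    have e2 : Fin.tail (Fin.tail (mv m 0 s)) = Fin.tail (Fin.tail m) := by
      funext j; simp [mv, Fin.tail]
    rw [e0, e1, e2]
  | r + 2, m, p + 1, hp, hM => by
    rw [sum_tail] at hM
    have ih := tw_trans (x := x) (Fin.tail m) p (by omega) (by omega)
    rw [tw_succ, ih, map_sum]
    have e : m ⟨p + 1 + 1, hp⟩ = Fin.tail m ⟨p + 1, by omega⟩ := rfl
    have e' : m ⟨p + 1, by omega⟩ = Fin.tail m ⟨p, by omega⟩ := rfl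
    rw [e, e']
    refine Finset.sum_congr rfl fun s _ => ?_
    rw [map_smul, tw_succ (m := mv m (p + 1) s)]
    have e0 : mv m (p + 1) s 0 = m 0 := by simp [mv]
    have e1 : Fin.tail (mv m (p + 1) s) = mv (Fin.tail m) p s := by
      funext j; simp [mv, Fin.tail]
    rw [e0, e1]

end Ops

/-! ## the homology of `BV_r` as finitely supported functions on exponents -/

/-- `H_*(BV_r; F2)`, basis `a_{m 0} ⊗ ... ⊗ a_{m (r-1)}` -/
abbrev Gam (r : ℕ) : Type := (Fin r →₀ ℕ) →₀ ZMod 2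

/-- degree `t` part -/
noncomputable def homG (r t : ℕ) : Submodule (ZMod 2) (Gam r) :=
  Finsupp.supported (ZMod 2) (ZMod 2) {m : Fin r →₀ ℕ | ∑ j, m j = t}

theorem single_mem_homG {r : ℕ} (m : Fin r →₀ ℕ) (c : ZMod 2) {t : ℕ} (h : ∑ j, m j = t) :
    Finsupp.single m c ∈ homG r t := Finsupp.single_mem_supported _ _ h

theorem homG_induction {r t : ℕ} {P : Gam r → Prop} (h0 : P 0)
    (hadd : ∀ a b, P a → P b → P (a + b)) (hs : ∀ m : Fin r →₀ ℕ, ∑ j, m j = t → P (Finsupp.single m 1))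
    {γ : Gam r} (hγ : γ ∈ homG r t) : P γ := by
  have hγ' : γ ∈ Submodule.span (ZMod 2) ((fun m : Fin r →₀ ℕ => (Finsupp.single m 1 : Gam r)) ''
      {m : Fin r →₀ ℕ | ∑ j, m j = t}) := by
    rw [homG, Finsupp.supported_eq_span_single] at hγ
    exact hγ
  refine Submodule.span_induction (p := fun x _ => P x) ?_ h0 (fun a b _ _ => hadd a b) ?_ hγ'
  · rintro _ ⟨m, hm, rfl⟩; exact hs m hm
  · intro c x _ hx
    have : c = 0 ∨ c = 1 := by revert c; decide
    rcases this with rfl | rfl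
    · simpa using h0
    · simpa using hx

/-- prepend a factor `a_j` -/
noncomputable def consG {r : ℕ} (j : ℕ) : Gam r →ₗ[ZMod 2] Gam (r + 1) :=
  Finsupp.lmapDomain _ _ (Finsupp.cons j)

@[simp] theorem consG_single {r : ℕ} (j : ℕ) (m : Fin r →₀ ℕ) (c : ZMod 2) :
    consG j (Finsupp.single m c) = Finsupp.single (Finsupp.cons j m) c := by
  simp [consG, Finsupp.lmapDomain_apply, Finsupp.mapDomain_single]

theorem consG_mem {r : ℕ} (j : ℕ) {t : ℕ} {γ : Gam r} (hγ : γ ∈ homG r t) :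
    consG j γ ∈ homG (r + 1) (j + t) := by
  refine homG_induction (P := fun γ => consG j γ ∈ homG (r + 1) (j + t)) ?_ ?_ ?_ hγ
  · simp
  · intro a b ha hb; rw [map_add]; exact Submodule.add_mem _ ha hb
  · intro m hm
    rw [consG_single]
    refine single_mem_homG _ _ ?_
    rw [Fin.sum_univ_succ]
    simp [hm]

/-- the dual Steenrod square on `Gam r` -/
noncomputable def sqG : (r : ℕ) → ℕ → (Gam r →ₗ[ZMod 2] Gam r)
  | 0, a => if a = 0 then LinearMap.id else 0
  | r + 1, a => Finsupp.linearCombination (ZMod 2) (fun m : Fin (r + 1) →₀ ℕ =>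
      ∑ b ∈ range (a + 1), if 2 * b ≤ m 0 then (((m 0 - b).choose b : ℕ) : ZMod 2) •
        consG (m 0 - b) (sqG r (a - b) (Finsupp.single (Finsupp.tail m) 1)) else 0)

theorem sqG_zero_apply (a : ℕ) (γ : Gam 0) : sqG 0 a γ = if a = 0 then γ else 0 := by
  rw [sqG]; split_ifs <;> rfl

theorem sqG_single_succ {r : ℕ} (a : ℕ) (m : Fin (r + 1) →₀ ℕ) : sqG (r + 1) a (Finsupp.single m 1) =
    ∑ b ∈ range (a + 1), if 2 * b ≤ m 0 then (((m 0 - b).choose b : ℕ) : ZMod 2) •
        consG (m 0 - b) (sqG r (a - b) (Finsupp.single (Finsupp.tail m) 1)) else 0 := by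
  rw [sqG, Finsupp.linearCombination_single, one_smul]

theorem sum_tail' {r : ℕ} (m : Fin (r + 1) →₀ ℕ) : ∑ j, m j = m 0 + ∑ j, Finsupp.tail m j :=
  Fin.sum_univ_succ _

theorem sqG_eq_zero : ∀ {r : ℕ} {a t : ℕ} {γ : Gam r}, γ ∈ homG r t → t < 2 * a → sqG r a γ = 0
  | 0, a, t, γ, _, h => by
    rw [sqG_zero_apply, if_neg (by omega)]
  | r + 1, a, t, γ, hγ, h => by
    refine homG_induction (P := fun γ => sqG (r + 1) a γ = 0) (map_zero _) ?_ ?_ hγ
    · intro x y hx hy; rw [map_add, hx, hy, add_zero]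
    · intro m hm
      rw [sum_tail'] at hm
      rw [sqG_single_succ]
      refine Finset.sum_eq_zero fun b hb => ?_
      rw [Finset.mem_range] at hb
      split_ifs with hb'
      · rw [sqG_eq_zero (t := ∑ j, Finsupp.tail m j) (single_mem_homG _ _ rfl) (by omega),
          LinearMap.map_zero, smul_zero]
      · rfl

theorem sqG_mem : ∀ {r : ℕ} {a t : ℕ} {γ : Gam r}, γ ∈ homG r t → sqG r a γ ∈ homG r (t - a)
  | 0, a, t, γ, hγ => by
    rw [sqG_zero_apply]
    split_ifs with ha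
    · subst ha; exact hγ
    · exact Submodule.zero_mem _
  | r + 1, a, t, γ, hγ => by
    refine homG_induction (P := fun γ => sqG (r + 1) a γ ∈ homG (r + 1) (t - a)) (by simp) ?_ ?_ hγ
    · intro x y hx hy; rw [map_add]; exact Submodule.add_mem _ hx hy
    · intro m hm
      rw [sum_tail'] at hm
      rw [sqG_single_succ]
      refine Submodule.sum_mem _ fun b hb => ?_
      rw [Finset.mem_range] at hb
      split_ifs with hb'
      · refine Submodule.smul_mem _ _ ?_
        by_cases h2 : ∑ j, Finsupp.tail m j < 2 * (a - b)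
        · rw [sqG_eq_zero (t := ∑ j, Finsupp.tail m j) (single_mem_homG _ _ rfl) h2,
            LinearMap.map_zero]
          exact Submodule.zero_mem _
        · have := consG_mem (m 0 - b) (sqG_mem (a := a - b) (single_mem_homG (Finsupp.tail m) 1 rfl))
          convert this using 2
          omega
      · exact Submodule.zero_mem _

namespace Ops

/-- `φ_r : H_*(BV_r) → H_*(X)`, `a_m ↦ T_{m 0} ... T_{m (r-1)} x` -/
noncomputable def phi (x : H) (r : ℕ) : Gam r →ₗ[ZMod 2] H :=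
  Finsupp.linearCombination (ZMod 2) (fun m : Fin r →₀ ℕ => O.tw (⇑m) x)

@[simp] theorem phi_single (x : H) {r : ℕ} (m : Fin r →₀ ℕ) :
    O.phi x r (Finsupp.single m 1) = O.tw (⇑m) x := by
  simp [phi]

theorem phi_consG (x : H) {r : ℕ} (j : ℕ) (γ : Gam r) :
    O.phi x (r + 1) (consG j γ) = O.T j (O.phi x r γ) := by
  induction γ using Finsupp.induction_linear with
  | zero => simp
  | add f g hf hg => rw [map_add, map_add, map_add, map_add, hf, hg]
  | single m c =>
    rw [consG_single, phi, phi, Finsupp.linearCombination_single, Finsupp.linearCombination_single,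
      map_smul, tw_succ]
    rfl

theorem phi_gr {k : ℕ} {x : H} (hx : x ∈ O.gr k) {r t : ℕ} (ht : t ≤ O.M) {γ : Gam r}
    (hγ : γ ∈ homG r t) : O.phi x r γ ∈ O.gr (k + t) := by
  refine homG_induction (P := fun γ => O.phi x r γ ∈ O.gr (k + t)) (by simp) ?_ ?_ hγ
  · intro a b ha hb; rw [map_add]; exact Submodule.add_mem _ ha hb
  · intro m hm
    rw [phi_single]
    have := O.tw_gr hx (⇑m) (by omega)
    rwa [hm] at this

/-- `φ_r` is linear over the dual Steenrod algebra -/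
theorem phi_sqG {x : H} (hx : ∀ a, 0 < a → O.Sq a x = 0) : ∀ {r : ℕ} {t : ℕ} (_ : t ≤ O.M) {γ : Gam r}
    (_ : γ ∈ homG r t) (a : ℕ), O.phi x r (sqG r a γ) = O.Sq a (O.phi x r γ)
  | 0, t, ht, γ, hγ, a => by
    refine homG_induction (P := fun γ => O.phi x 0 (sqG 0 a γ) = O.Sq a (O.phi x 0 γ)) (by simp) ?_ ?_ hγ
    · intro y z hy hz; simp only [map_add, hy, hz]
    · intro m hm
      rw [sqG_zero_apply, phi_single, tw_zero]
      split_ifs with ha
      · subst ha; rw [O.Sq_zero, phi_single, tw_zero]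
      · rw [hx a (by omega), map_zero]
  | r + 1, t, ht, γ, hγ, a => by
    refine homG_induction (P := fun γ => O.phi x (r + 1) (sqG (r + 1) a γ) =
      O.Sq a (O.phi x (r + 1) γ)) (by simp) ?_ ?_ hγ
    · intro y z hy hz; simp only [map_add, hy, hz]
    · intro m hm
      rw [sum_tail'] at hm
      rw [sqG_single_succ, phi_single, tw_succ, O.Sq_T a _ (by omega), map_sum]
      refine Finset.sum_congr rfl fun b _ => ?_
      split_ifs with hb
      · rw [map_smul, phi_consG, phi_sqG hx (t := ∑ j, Finsupp.tail m j) (by omega)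
          (single_mem_homG _ _ rfl), phi_single]
        rfl
      · rw [map_zero]

/-- the conjugate dual squares, `χ(Sq^n)_*` up to order -/
noncomputable def chi (n : ℕ) : H →ₗ[ZMod 2] H :=
  if n = 0 then LinearMap.id
  else ∑ j : Fin n, O.Sq (j + 1) ∘ₗ chi (n - 1 - j)
termination_by n
decreasing_by omega

theorem chi_zero (y : H) : O.chi 0 y = y := by rw [chi]; simp

theorem chi_succ (n : ℕ) (y : H) : O.chi (n + 1) y =
    ∑ j ∈ range (n + 1), O.Sq (j + 1) (O.chi (n - j) y) := by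
  rw [chi, if_neg (by omega), LinearMap.sum_apply, Finset.sum_range]
  refine Finset.sum_congr rfl fun j _ => ?_
  rw [LinearMap.comp_apply]
  congr 3

/-- `∑_{a+b=n} Sq^a χ(Sq^b) = 0` for `n > 0` -/
theorem sum_Sq_chi (n : ℕ) (y : H) : ∑ j ∈ range (n + 1 + 1), O.Sq j (O.chi (n + 1 - j) y) = 0 := by
  rw [Finset.sum_range_succ', O.Sq_zero, Nat.sub_zero, chi_succ]
  have : ∀ j ∈ range (n + 1), O.Sq (j + 1) (O.chi (n + 1 - (j + 1)) y) =
      O.Sq (j + 1) (O.chi (n - j) y) := fun j _ => by rw [Nat.add_sub_add_right]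
  rw [Finset.sum_congr rfl this, ← two_smul (ZMod 2)]
  have h2 : (2 : ZMod 2) = 0 := rfl
  rw [h2, zero_smul]

/-- `χ(Sq^n)_*` preserves the image of `φ_r` -/
theorem chi_phi {x : H} (hx : ∀ a, 0 < a → O.Sq a x = 0) {r : ℕ} : ∀ (n : ℕ) {t : ℕ} (_ : t ≤ O.M)
    {γ : Gam r} (_ : γ ∈ homG r t), ∃ γ' ∈ homG r (t - n), (t < n → γ' = 0) ∧
      O.chi n (O.phi x r γ) = O.phi x r γ' := by
  intro n
  induction n using Nat.strong_induction_on with
  | _ n ih =>
    intro t ht γ hγ
    rcases n with _ | n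
    · exact ⟨γ, hγ, fun h => absurd h (by omega), O.chi_zero _⟩
    · choose g hg hg0 hg' using fun (j : ℕ) (hj : j < n + 1) => ih j hj ht hγ
      refine ⟨∑ j ∈ (range (n + 1)).attach, if n + 1 ≤ t then sqG r (j + 1) (g (n - j) (by omega)) else 0,
        ?_, ?_, ?_⟩
      · refine Submodule.sum_mem _ fun j _ => ?_
        have hj := Finset.mem_range.1 j.2
        split_ifs with h
        · have := sqG_mem (a := (j : ℕ) + 1) (hg (n - j) (by omega))
          convert this using 2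
          omega
        · exact Submodule.zero_mem _
      · intro h
        refine Finset.sum_eq_zero fun j _ => ?_
        rw [if_neg (by omega)]
      · rw [chi_succ, map_sum, ← Finset.sum_attach]
        refine Finset.sum_congr rfl fun j _ => ?_
        have hj := Finset.mem_range.1 j.2
        rw [hg' (n - j) (by omega)]
        split_ifs with h
        · rw [O.phi_sqG hx (t := t - (n - j)) (by omega) (hg _ _)]
        · by_cases h' : t < n - j
          · rw [hg0 _ _ h', map_zero, map_zero]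
          · rw [← O.phi_sqG hx (t := t - (n - j)) (by omega) (hg _ _),
              sqG_eq_zero (hg _ _) (by omega)]

/-- inversion of (1.3): `Q_i y = ∑_l T_{i+d+l} (χ(Sq^l)_* y)` for `|y| = d` -/
theorem Q_eq {i d L : ℕ} {y : H} (hL : i + d + L ≤ O.M) (hgr : ∀ l, O.chi l y ∈ O.gr (d - l))
    (h0 : ∀ l, L < l → O.chi l y = 0) (hLd : L ≤ d) (h00 : i = 0 → d = 0 → O.T 0 y = O.Q 0 y) :
    O.Q i y = ∑ l ∈ range (L + 1), O.T (i + d + l) (O.chi l y) := by
  have h1 : ∀ l ∈ range (L + 1), O.T (i + d + l) (O.chi l y) =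
      ∑ j ∈ range (d + 1), O.Q (i + 2 * (l + j)) (O.Sq j (O.chi l y)) := by
    intro l hl
    rw [Finset.mem_range] at hl
    rcases Nat.eq_zero_or_pos (i + d + l) with hz | hz
    · obtain ⟨⟨rfl, rfl⟩, rfl⟩ : (i = 0 ∧ d = 0) ∧ l = 0 := by omega
      simp only [chi_zero, zero_add, Finset.sum_range_one, Nat.mul_zero, O.Sq_zero]
      exact h00 rfl rfl
    rw [O.T_eq _ hz (by omega) _ _ (hgr l)]
    have hsub : range ((d - l) / 2 + 1) ⊆ range (d + 1) := by
      intro j hj; rw [Finset.mem_range] at *; omega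
    rw [← Finset.sum_subset hsub]
    · refine Finset.sum_congr rfl fun j hj => ?_
      rw [if_pos (by omega)]
      congr 2
      omega
    · intro j hj hj'
      rw [Finset.mem_range] at hj
      rw [Finset.mem_range] at hj'
      rw [O.Sq_unst j _ _ (hgr l) (by omega), map_zero]
  rw [Finset.sum_congr rfl h1]
  have h2 : ∀ l, L < l → l ≤ d → ∑ j ∈ range (d + 1), O.Q (i + 2 * (l + j)) (O.Sq j (O.chi l y)) = 0 := by
    intro l hl _
    refine Finset.sum_eq_zero fun j _ => ?_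
    rw [h0 l hl, map_zero, map_zero]
  have h3 : ∑ l ∈ range (L + 1), ∑ j ∈ range (d + 1), O.Q (i + 2 * (l + j)) (O.Sq j (O.chi l y)) =
      ∑ l ∈ range (d + 1), ∑ j ∈ range (d + 1), O.Q (i + 2 * (l + j)) (O.Sq j (O.chi l y)) := by
    refine Finset.sum_subset (fun j hj => ?_) (fun l hl hl' => ?_)
    · rw [Finset.mem_range] at *; omega
    · rw [Finset.mem_range] at hl
      rw [Finset.mem_range] at hl'
      exact h2 l (by omega) (by omega)
  rw [h3, Finset.sum_comm]
  -- regroup by n = l + j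
  have h4 : ∀ j ∈ range (d + 1), ∀ l ∈ range (d + 1), d < l + j →
      O.Q (i + 2 * (l + j)) (O.Sq j (O.chi l y)) = 0 := by
    intro j hj l hl h
    rw [Finset.mem_range] at hj hl
    rw [O.Sq_unst j _ _ (hgr l) (by omega), map_zero]
  have h5 : ∑ j ∈ range (d + 1), ∑ l ∈ range (d + 1), O.Q (i + 2 * (l + j)) (O.Sq j (O.chi l y)) =
      ∑ n ∈ range (d + 1), ∑ j ∈ range (n + 1), O.Q (i + 2 * n) (O.Sq j (O.chi (n - j) y)) := by
    rw [Finset.sum_sigma', Finset.sum_sigma']
    rw [← Finset.sum_filter_add_sum_filter_not _ (fun p : (_ : ℕ) × ℕ => p.2 + p.1 ≤ d)]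
    have hz : ∑ p ∈ ((range (d + 1)).sigma fun _ => range (d + 1)) with ¬ p.2 + p.1 ≤ d,
        O.Q (i + 2 * (p.2 + p.1)) (O.Sq p.1 (O.chi p.2 y)) = 0 := by
      refine Finset.sum_eq_zero ?_
      rintro ⟨j, l⟩ hp
      simp only [Finset.mem_filter, Finset.mem_sigma] at hp
      exact h4 j hp.1.1 l hp.1.2 (by omega)
    rw [hz, add_zero]
    · refine Finset.sum_bij' (fun p _ => (⟨p.2 + p.1, p.1⟩ : (_ : ℕ) × ℕ))
        (fun p _ => (⟨p.2, p.1 - p.2⟩ : (_ : ℕ) × ℕ)) ?_ ?_ ?_ ?_ ?_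
      · rintro ⟨j, l⟩ hp
        simp only [Finset.mem_filter, Finset.mem_sigma, Finset.mem_range] at *
        omega
      · rintro ⟨n, j⟩ hp
        simp only [Finset.mem_filter, Finset.mem_sigma, Finset.mem_range] at *
        omega
      · rintro ⟨j, l⟩ hp
        simp
      · rintro ⟨n, j⟩ hp
        simp only [Finset.mem_sigma, Finset.mem_range] at hp
        have : n - j + j = n := by omega
        simp [this]
      · rintro ⟨j, l⟩ hp
        simp
  rw [h5, Finset.sum_range_succ']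
  rw [Finset.sum_eq_zero, zero_add]
  · simp [chi_zero, O.Sq_zero]
  · intro n _
    rw [← map_sum, sum_Sq_chi, map_zero]

/-- all words of length `r` on `x` lie in the image of `φ_r` -/
theorem qw_mem {k : ℕ} {x : H} (hx : O.Base k x) :
    ∀ {r : ℕ} (m : Fin r → ℕ) {t : ℕ}, qdeg k m = k + t → t ≤ O.M →
      ∃ γ ∈ homG r t, O.phi x r γ = O.qw m x
  | 0, m, t, h, _ => by
    have ht : t = 0 := by rw [qdeg_zero] at h; omega
    subst ht
    refine ⟨Finsupp.single 0 1, single_mem_homG _ _ (by simp), ?_⟩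
    simp
  | r + 1, m, t, h, ht => by
    have hk : k ≤ qdeg k (Fin.tail m) := by
      rw [qdeg_eq]
      have : k ≤ 2 ^ r * k := Nat.le_mul_of_pos_left _ (by positivity)
      omega
    obtain ⟨t', ht'⟩ := Nat.exists_eq_add_of_le hk
    rw [qdeg_succ, ht'] at h
    obtain ⟨γ, hγ, hγ'⟩ := qw_mem hx (Fin.tail m) ht' (by omega)
    choose g hg hg0 hg' using fun (l : ℕ) => O.chi_phi hx.sq (r := r) l (t := t') (by omega) hγ
    have hgr : ∀ l, O.chi l (O.phi x r γ) ∈ O.gr (k + t' - l) := by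
      intro l
      rw [hg' l]
      by_cases hl : t' < l
      · rw [hg0 l hl, map_zero]; exact Submodule.zero_mem _
      · have := O.phi_gr hx.mem (t := t' - l) (by omega) (hg l)
        convert this using 2
        omega
    have key := O.Q_eq (i := m 0) (d := k + t') (L := t') (y := O.phi x r γ) (by omega) hgr
      (fun l hl => by rw [hg' l, hg0 l hl, map_zero]) (by omega) (fun _ hd => by
        obtain ⟨rfl, rfl⟩ : k = 0 ∧ t' = 0 := by omega
        refine homG_induction (P := fun γ => O.T 0 (O.phi x r γ) = O.Q 0 (O.phi x r γ)) (by simp)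
          ?_ ?_ hγ
        · intro a b ha hb; simp only [map_add, ha, hb]
        · intro m' hm'
          rw [phi_single]
          have : (⇑m' : Fin r → ℕ) = fun _ => 0 := by
            funext j
            have := Finset.single_le_sum (f := fun j => m' j) (fun _ _ => Nat.zero_le _)
              (Finset.mem_univ j)
            omega
          rw [this]
          exact hx.t00 rfl r)
    refine ⟨∑ l ∈ range (t' + 1), consG (m 0 + (k + t') + l) (g l), ?_, ?_⟩
    · refine Submodule.sum_mem _ fun l hl => ?_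
      rw [Finset.mem_range] at hl
      have := consG_mem (m 0 + (k + t') + l) (hg l)
      convert this using 2
      omega
    · rw [qw_succ, ← hγ', key, map_sum]
      refine Finset.sum_congr rfl fun l _ => ?_
      rw [phi_consG, hg' l]

end Ops

/-! ## the pairing with polynomials and the squeeze -/

open MvPolynomial in
/-- the pairing of `F2[x_1..x_r]` with `Gam r` -/
noncomputable def pr (r : ℕ) : MvPolynomial (Fin r) (ZMod 2) →ₗ[ZMod 2] Gam r →ₗ[ZMod 2] ZMod 2 :=
  LinearMap.flip (Finsupp.linearCombination (ZMod 2)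
    (fun m : Fin r →₀ ℕ => (MvPolynomial.lcoeff (ZMod 2) m : MvPolynomial (Fin r) (ZMod 2) →ₗ[ZMod 2] ZMod 2)))

@[simp] theorem pr_single {r : ℕ} (p : MvPolynomial (Fin r) (ZMod 2)) (m : Fin r →₀ ℕ) (c : ZMod 2) :
    pr r p (Finsupp.single m c) = c * p.coeff m := by
  simp [pr]

/-- the degree-`t` exponents -/
noncomputable def expo (r t : ℕ) : Finset (Fin r →₀ ℕ) := Finset.finsuppAntidiag Finset.univ t

theorem mem_expo {r t : ℕ} {m : Fin r →₀ ℕ} : m ∈ expo r t ↔ ∑ j, m j = t := by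
  simp [expo, Finset.mem_finsuppAntidiag]

namespace Ops

/-- the polynomial `φ_r^*(u)` for a functional `u` on degree `k + t` -/
noncomputable def fpoly (x : H) (r t : ℕ) (u : H →ₗ[ZMod 2] ZMod 2) : MvPolynomial (Fin r) (ZMod 2) :=
  ∑ m ∈ expo r t, MvPolynomial.monomial m (u (O.tw (⇑m) x))

theorem coeff_fpoly (x : H) (r t : ℕ) (u : H →ₗ[ZMod 2] ZMod 2) (m : Fin r →₀ ℕ) :
    (O.fpoly x r t u).coeff m = if ∑ j, m j = t then u (O.tw (⇑m) x) else 0 := by
  classical
  rw [fpoly, MvPolynomial.coeff_sum]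
  simp only [MvPolynomial.coeff_monomial]
  split_ifs with h
  · rw [Finset.sum_eq_single m]
    · simp
    · intro b _ hb; rw [if_neg hb]
    · intro h'; exact absurd (mem_expo.2 h) h'
  · refine Finset.sum_eq_zero fun b hb => ?_
    rw [if_neg]
    rintro rfl
    exact h (mem_expo.1 hb)

theorem pr_fpoly (x : H) {r t : ℕ} (u : H →ₗ[ZMod 2] ZMod 2) {γ : Gam r} (hγ : γ ∈ homG r t) :
    pr r (O.fpoly x r t u) γ = u (O.phi x r γ) := by
  refine homG_induction (P := fun γ => pr r (O.fpoly x r t u) γ = u (O.phi x r γ)) (by simp) ?_ ?_ hγ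
  · intro a b ha hb; simp only [map_add, ha, hb]
  · intro m hm
    rw [pr_single, coeff_fpoly, if_pos hm, phi_single, one_mul]

end Ops

instance homG_finite (r t : ℕ) : Module.Finite (ZMod 2) (homG r t) := by
  have hfin : ({m : Fin r →₀ ℕ | ∑ j, m j = t} : Set (Fin r →₀ ℕ)).Finite :=
    (expo r t).finite_toSet.subset fun m hm => mem_expo.2 hm
  have : Finite ({m : Fin r →₀ ℕ | ∑ j, m j = t} : Set (Fin r →₀ ℕ)) := hfin
  exact Module.Finite.equiv (Finsupp.supportedEquivFinsupp (M := ZMod 2) (R := ZMod 2)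
    {m : Fin r →₀ ℕ | ∑ j, m j = t}).symm

/-- admissible words (entries `0 ≤ i_1 ≤ ... ≤ i_r`) of degree `k + t` on a class of degree `k` -/
def Adm (r k t : ℕ) : Type := {m : Fin r → ℕ // Monotone m ∧ qdeg k m = k + t}

/-- THE SQUEEZE -/
theorem Ops.squeeze (x : H) (r t k : ℕ) (V : Submodule (ZMod 2) (MvPolynomial (Fin r) (ZMod 2)))
    [Module.Finite (ZMod 2) V] (hV : ∀ u : H →ₗ[ZMod 2] ZMod 2, O.fpoly x r t u ∈ V)
    (hcard : Module.finrank (ZMod 2) V ≤ Nat.card (Adm r k t))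
    (hlin : LinearIndependent (ZMod 2) (fun m : Adm r k t => O.qw m.1 x))
    (hmem : ∀ m : Adm r k t, ∃ γ ∈ homG r t, O.phi x r γ = O.qw m.1 x) :
    (∀ γ ∈ homG r t, O.phi x r γ = 0 ↔ ∀ p ∈ V, pr r p γ = 0) ∧
    (homG r t).map (O.phi x r) = Submodule.span (ZMod 2) (Set.range fun m : Adm r k t => O.qw m.1 x) := by
  set f : homG r t →ₗ[ZMod 2] H := (O.phi x r).domRestrict (homG r t) with hf
  set g : homG r t →ₗ[ZMod 2] Module.Dual (ZMod 2) V :=
    ((LinearMap.flip (pr r)).domRestrict (homG r t)).compr₂ LinearMap.id |>.compl₁₂ LinearMap.id V.subtype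
    with hg
  have hgapp : ∀ (γ : homG r t) (p : V), g γ p = pr r (p : MvPolynomial (Fin r) (ZMod 2)) (γ : Gam r) :=
    fun γ p => rfl
  have hker : LinearMap.ker g ≤ LinearMap.ker f := by
    intro γ hγ
    rw [LinearMap.mem_ker] at hγ ⊢
    refine (Module.forall_dual_apply_eq_zero_iff (ZMod 2) _).1 fun u => ?_
    have := O.pr_fpoly x u γ.2
    rw [← hgapp γ ⟨_, hV u⟩, hγ] at this
    exact this.symm
  have hrange : ∀ m : Adm r k t, O.qw m.1 x ∈ LinearMap.range f := by
    intro m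
    obtain ⟨γ, hγ, h⟩ := hmem m
    exact ⟨⟨γ, hγ⟩, h⟩
  have hspan : Submodule.span (ZMod 2) (Set.range fun m : Adm r k t => O.qw m.1 x) ≤ LinearMap.range f :=
    Submodule.span_le.2 (by rintro _ ⟨m, rfl⟩; exact hrange m)
  have hfinA : Finite (Adm r k t) := by
    have hl : LinearIndependent (ZMod 2) (fun m : Adm r k t => (⟨O.qw m.1 x, hrange m⟩ : LinearMap.range f)) :=
      LinearIndependent.of_comp (LinearMap.range f).subtype hlin
    exact hl.finite
  have := Fintype.ofFinite (Adm r k t)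
  have h1 : Module.finrank (ZMod 2) (Submodule.span (ZMod 2) (Set.range fun m : Adm r k t => O.qw m.1 x))
      = Nat.card (Adm r k t) := by
    rw [finrank_span_eq_card hlin, Nat.card_eq_fintype_card]
  have h2 : Nat.card (Adm r k t) ≤ Module.finrank (ZMod 2) (LinearMap.range f) := by
    rw [← h1]; exact Submodule.finrank_mono hspan
  have h3 : Module.finrank (ZMod 2) (LinearMap.range g) ≤ Module.finrank (ZMod 2) V := by
    refine (Submodule.finrank_le _).trans ?_
    rw [Subspace.dual_finrank_eq]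
  have h4 := LinearMap.finrank_range_add_finrank_ker f
  have h5 := LinearMap.finrank_range_add_finrank_ker g
  have h6 : LinearMap.ker g = LinearMap.ker f :=
    Submodule.eq_of_le_of_finrank_le hker (by omega)
  have h7 : Submodule.span (ZMod 2) (Set.range fun m : Adm r k t => O.qw m.1 x) = LinearMap.range f := by
    refine Submodule.eq_of_le_of_finrank_le hspan ?_
    rw [h1]
    have : Module.finrank (ZMod 2) (LinearMap.ker g) ≤ Module.finrank (ZMod 2) (LinearMap.ker f) := by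
      rw [h6]
    omega
  refine ⟨fun γ hγ => ?_, ?_⟩
  · have h8 : (⟨γ, hγ⟩ : homG r t) ∈ LinearMap.ker g ↔ (⟨γ, hγ⟩ : homG r t) ∈ LinearMap.ker f := by rw [h6]
    rw [LinearMap.mem_ker, LinearMap.mem_ker] at h8
    constructor
    · intro h p hp
      have : g ⟨γ, hγ⟩ = 0 := h8.2 h
      rw [← hgapp ⟨γ, hγ⟩ ⟨p, hp⟩, this]; rfl
    · intro h
      exact h8.1 (LinearMap.ext fun p => h p.1 p.2)
  · rw [h7, hf]
    ext y
    simp only [Submodule.mem_map, LinearMap.mem_range, LinearMap.domRestrict_apply, Subtype.exists,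
      exists_prop]

end Crest.Agent.R204.Thm3
private theorem rz_b2d04a1f87 : type_of% @_root_.Crest.Agent.R204.Thm3.sqG.eq_def := @_root_.Crest.Agent.R204.Thm3.sqG.eq_def -- L268
private theorem rz_6d147ead57 : type_of% @_root_.Crest.Agent.R204.Thm3.sqG.eq_1 := @_root_.Crest.Agent.R204.Thm3.sqG.eq_1 -- L268
end

-- ▼ part R204/Thm3b_737
section

/-!
# Row 204, Theorem 3, part b: counting, and the image of `φ_r^*` (owner helper737)
-/

set_option autoImplicit false

namespace Crest.Agent.R204.Thm3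

open Finset Crest.Agent.R204.Dickson91

theorem le_of_qdeg {k t : ℕ} : ∀ {r : ℕ} {m : Fin r → ℕ}, qdeg k m = k + t → ∀ j, m j ≤ t := by
  intro r m h j
  rw [qdeg_eq] at h
  have h1 : m j ≤ 2 ^ (j : ℕ) * m j := Nat.le_mul_of_pos_left _ (by positivity)
  have h2 := Finset.single_le_sum (f := fun j : Fin r => 2 ^ (j : ℕ) * m j)
    (fun _ _ => Nat.zero_le _) (Finset.mem_univ j)
  have h3 : k ≤ 2 ^ r * k := Nat.le_mul_of_pos_left _ (by positivity)
  omega

instance adm_finite (r k t : ℕ) : Finite (Adm r k t) := by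
  have h : ({m : Fin r → ℕ | Monotone m ∧ qdeg k m = k + t} : Set (Fin r → ℕ)).Finite :=
    (Set.finite_Iic (fun _ : Fin r => t)).subset fun m hm j => le_of_qdeg hm.2 j
  exact h

theorem geo (a : ℕ → ℕ) (r : ℕ) : ∑ j ∈ range r, 2 ^ j * ∑ l ∈ range (j + 1), a l =
    ∑ l ∈ range r, a l * (2 ^ r - 2 ^ l) := by
  induction r with
  | zero => simp
  | succ r ih =>
    rw [Finset.sum_range_succ, ih, Finset.sum_range_succ _ r, Finset.sum_range_succ _ r]
    have h : ∀ l ∈ range r, a l * (2 ^ (r + 1) - 2 ^ l) = a l * (2 ^ r - 2 ^ l) + 2 ^ r * a l := by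
      intro l hl
      rw [Finset.mem_range] at hl
      have : 2 ^ l ≤ 2 ^ r := Nat.pow_le_pow_right (by norm_num) hl.le
      have h2 : 2 ^ (r + 1) - 2 ^ l = (2 ^ r - 2 ^ l) + 2 ^ r := by
        rw [pow_succ]; omega
      rw [h2]; ring
    rw [Finset.sum_congr rfl h, Finset.sum_add_distrib, ← Finset.mul_sum]
    have h2 : 2 ^ (r + 1) - 2 ^ r = 2 ^ r := by rw [pow_succ]; omega
    rw [h2]; ring

/-- extension by zero -/
def ext0 {r : ℕ} (a : Fin r → ℕ) (l : ℕ) : ℕ := if h : l < r then a ⟨l, h⟩ else 0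

theorem ext0_coe {r : ℕ} (a : Fin r → ℕ) (j : Fin r) : ext0 a j = a j := by
  simp [ext0]

/-- partial sums minus `k` -/
def wordOf (k : ℕ) {r : ℕ} (a : Fin r → ℕ) (j : Fin r) : ℕ := (∑ l ∈ range ((j : ℕ) + 1), ext0 a l) - k

theorem wordOf_add {k r : ℕ} {a : Fin (r + 1) → ℕ} (h : k ≤ a 0) (j : Fin (r + 1)) :
    wordOf k a j + k = ∑ l ∈ range ((j : ℕ) + 1), ext0 a l := by
  have : a 0 ≤ ∑ l ∈ range ((j : ℕ) + 1), ext0 a l := by
    have : ext0 a 0 ≤ ∑ l ∈ range ((j : ℕ) + 1), ext0 a l :=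
      Finset.single_le_sum (f := fun l => ext0 a l) (fun _ _ => Nat.zero_le _)
      (Finset.mem_range.2 (Nat.succ_pos (j : ℕ)))
    have h0 : ext0 a 0 = a 0 := ext0_coe a 0
    omega
  rw [wordOf]
  omega

theorem wordOf_monotone (k : ℕ) {r : ℕ} (a : Fin r → ℕ) : Monotone (wordOf k a) := by
  intro i j hij
  rw [wordOf, wordOf]
  refine Nat.sub_le_sub_right (Finset.sum_le_sum_of_subset ?_) _
  intro l hl
  rw [Finset.mem_range] at *
  have : (i : ℕ) ≤ j := hij
  omega

theorem qdeg_wordOf {k r : ℕ} {a : Fin (r + 1) → ℕ} (h : k ≤ a 0) :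
    qdeg k (wordOf k a) = k + wt a := by
  have h1 : ∑ j : Fin (r + 1), 2 ^ (j : ℕ) * (wordOf k a j + k) = wt a := by
    simp only [wordOf_add h]
    rw [Fin.sum_univ_eq_sum_range (fun j => 2 ^ j * ∑ l ∈ range (j + 1), ext0 a l) (r + 1), geo,
      ← Fin.sum_univ_eq_sum_range (fun l => ext0 a l * (2 ^ (r + 1) - 2 ^ l)) (r + 1), wt]
    exact Finset.sum_congr rfl fun j _ => by rw [ext0_coe]
  have h2 : ∑ j : Fin (r + 1), 2 ^ (j : ℕ) * (wordOf k a j + k) =
      ∑ j : Fin (r + 1), 2 ^ (j : ℕ) * wordOf k a j + (2 ^ (r + 1) - 1) * k := by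
    simp only [mul_add]
    rw [Finset.sum_add_distrib, ← Finset.sum_mul]
    congr 2
    rw [Fin.sum_univ_eq_sum_range (fun j => 2 ^ j) (r + 1), Nat.geomSum_eq (le_refl 2)]
    simp
  rw [qdeg_eq]
  have h3 : 1 ≤ 2 ^ (r + 1) := Nat.one_le_two_pow
  have h4 : 2 ^ (r + 1) * k = (2 ^ (r + 1) - 1) * k + k := by
    obtain ⟨c, hc⟩ := Nat.exists_eq_add_of_le h3
    rw [hc, Nat.add_sub_cancel_left]; ring
  omega

theorem wordOf_injective {k r : ℕ} {a b : Fin (r + 1) → ℕ} (ha : k ≤ a 0) (hb : k ≤ b 0)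
    (h : wordOf k a = wordOf k b) : a = b := by
  have h1 : ∀ n : ℕ, n ≤ r + 1 → ∑ l ∈ range n, ext0 a l = ∑ l ∈ range n, ext0 b l := by
    intro n hn
    rcases n with _ | n
    · simp
    · have h2 := wordOf_add ha ⟨n, by omega⟩
      have h3 := wordOf_add hb ⟨n, by omega⟩
      rw [h] at h2
      simp only at h2 h3
      omega
  funext j
  have h2 := h1 ((j : ℕ) + 1) (by omega)
  have h3 := h1 (j : ℕ) (by omega)
  rw [Finset.sum_range_succ, Finset.sum_range_succ, h3, ext0_coe, ext0_coe] at h2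
  omega

/-- exponents of the degree `t` monomials of `Q_0^k D_{r+1}` -/
def MExp (r k t : ℕ) : Type := {a : Fin (r + 1) → ℕ // k ≤ a 0 ∧ wt a = t}

def MExp.toAdm {r k t : ℕ} (a : MExp r k t) : Adm (r + 1) k t :=
  ⟨wordOf k a.1, wordOf_monotone _ _, by rw [qdeg_wordOf a.2.1, a.2.2]⟩

theorem MExp.toAdm_injective (r k t : ℕ) : Function.Injective (MExp.toAdm : MExp r k t → Adm (r + 1) k t) := by
  intro a b h
  exact Subtype.ext (wordOf_injective a.2.1 b.2.1 (congrArg Subtype.val h))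

instance mexp_finite (r k t : ℕ) : Finite (MExp r k t) :=
  Finite.of_injective _ (MExp.toAdm_injective r k t)

theorem card_mexp_le (r k t : ℕ) : Nat.card (MExp r k t) ≤ Nat.card (Adm (r + 1) k t) :=
  Nat.card_le_card_of_injective _ (MExp.toAdm_injective r k t)

/-- degree `t` part of `Q_0^k D_{r+1}` inside `F2[x_0..x_r]` -/
noncomputable def MG (r k t : ℕ) : Submodule (ZMod 2) (S (r + 1)) :=
  Submodule.span (ZMod 2) (Set.range fun a : MExp r k t => Qmon a.1)

instance MG_finite (r k t : ℕ) : Module.Finite (ZMod 2) (MG r k t) :=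
  Module.Finite.span_of_finite _ (Set.finite_range _)

theorem finrank_MG_le (r k t : ℕ) : Module.finrank (ZMod 2) (MG r k t) ≤ Nat.card (Adm (r + 1) k t) := by
  have := Fintype.ofFinite (MExp r k t)
  refine (finrank_range_le_card (fun a : MExp r k t => Qmon a.1)).trans ?_
  rw [← Nat.card_eq_fintype_card]
  exact card_mexp_le r k t

end Crest.Agent.R204.Thm3
end

-- ▼ part R204/Thm3c_737

/-!
# Row 204, Theorem 3, part c: the image of `φ_r^*` lies in `Q_0^k D_r` (owner helper737)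
-/

set_option autoImplicit false

namespace Crest.Agent.R204.Thm3

open Finset MvPolynomial Crest.Agent.R204.Dickson91

theorem coeff_rename_swap {r : ℕ} (i j : Fin r) (f : S r) (m : Fin r →₀ ℕ) :
    coeff m (rename (Equiv.swap i j) f) = coeff (m.mapDomain (Equiv.swap i j)) f := by
  have h : m = (m.mapDomain (Equiv.swap i j)).mapDomain (Equiv.swap i j) := by
    rw [← Finsupp.mapDomain_comp]
    have : (⇑(Equiv.swap i j) ∘ ⇑(Equiv.swap i j) : Fin r → Fin r) = id := by
      funext a; simp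
    rw [this, Finsupp.mapDomain_id]
  conv_lhs => rw [h]
  rw [coeff_rename_mapDomain _ (Equiv.swap i j).injective]

theorem coe_mapDomain_swap {r : ℕ} (i j : Fin r) (m : Fin r →₀ ℕ) :
    (⇑(m.mapDomain (Equiv.swap i j)) : Fin r → ℕ) = ⇑m ∘ Equiv.swap i j := by
  funext a
  have : a = Equiv.swap i j (Equiv.swap i j a) := by simp
  conv_lhs => rw [this]
  rw [Finsupp.mapDomain_apply (Equiv.swap i j).injective]
  rfl

/-- exponent `m` with `s` units moved from `q` to `p` -/
noncomputable def mvF {r : ℕ} (m : Fin r →₀ ℕ) (p : ℕ) (s : ℕ) : Fin r →₀ ℕ :=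
  Finsupp.equivFunOnFinite.symm (Ops.mv (⇑m) p s)

@[simp] theorem coe_mvF {r : ℕ} (m : Fin r →₀ ℕ) (p s : ℕ) : (⇑(mvF m p s) : Fin r → ℕ) = Ops.mv (⇑m) p s := rfl

theorem mv_apply {r : ℕ} (m : Fin r → ℕ) {P Q : Fin r} (h : (Q : ℕ) = P + 1) (s : ℕ) (j : Fin r) :
    Ops.mv m P s j = if j = P then m P + s else if j = Q then m Q - s else m j := by
  unfold Ops.mv
  by_cases h1 : j = P
  · subst h1; simp
  · have h1' : (j : ℕ) ≠ P := fun h => h1 (Fin.ext h)
    by_cases h2 : j = Q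
    · subst h2; rw [if_neg h1', if_neg h1, if_pos h, if_pos rfl]
    · have h2' : (j : ℕ) ≠ P + 1 := fun h' => h2 (Fin.ext (h'.trans h.symm))
      rw [if_neg h1', if_neg h1, if_neg h2', if_neg h2]

theorem sum_mv {r : ℕ} (m : Fin r → ℕ) {P Q : Fin r} (h : (Q : ℕ) = P + 1) (s : ℕ) (hs : s ≤ m Q) :
    ∑ j, Ops.mv m P s j = ∑ j, m j := by
  have hne : P ≠ Q := by rintro rfl; omega
  have hQ : Q ∈ univ.erase P := Finset.mem_erase.2 ⟨hne.symm, Finset.mem_univ Q⟩
  rw [← Finset.add_sum_erase _ _ (Finset.mem_univ P),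
    ← Finset.add_sum_erase _ (fun j => m j) (Finset.mem_univ P),
    ← Finset.add_sum_erase (univ.erase P) _ hQ,
    ← Finset.add_sum_erase (univ.erase P) (fun j => m j) hQ]
  have h1 : ∀ j ∈ (univ.erase P).erase Q, Ops.mv m P s j = m j := by
    intro j hj
    simp only [Finset.mem_erase, Finset.mem_univ, and_true] at hj
    rw [mv_apply m h, if_neg hj.2, if_neg hj.1]
  rw [Finset.sum_congr rfl h1, mv_apply m h, mv_apply m h, if_pos rfl, if_neg hne.symm, if_pos rfl]
  change m P + s + (m Q - s + ∑ x ∈ (univ.erase P).erase Q, m x) =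
    m P + (m Q + ∑ x ∈ (univ.erase P).erase Q, m x)
  omega

theorem tv_monomial {r : ℕ} (p q : Fin r) (a : Fin r →₀ ℕ) :
    tv p q (monomial a (1 : ZMod 2)) = ∑ s ∈ range (a p + 1),
      monomial (Finsupp.single p (a p - s) + Finsupp.single q s + a.erase p)
        (((a p).choose s : ℕ) : ZMod 2) := by
  have h1 : tv p q (monomial a (1 : ZMod 2)) =
      (X p + X q : S r) ^ (a p) * monomial (a.erase p) 1 := by
    rw [tv, aeval_monomial, map_one, one_mul,
      ← Finsupp.mul_prod_erase' a p _ (fun i => pow_zero _), if_pos rfl, monomial_eq, C_1, one_mul]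
    congr 1
    refine Finsupp.prod_congr fun j hj => ?_
    rw [Finsupp.support_erase, Finset.mem_erase] at hj
    rw [if_neg hj.1]
  rw [h1, add_comm (X p), add_pow, Finset.sum_mul]
  refine Finset.sum_congr rfl fun s _ => ?_
  rw [X_pow_eq_monomial, X_pow_eq_monomial, monomial_mul, mul_comm (monomial _ _) (_ : S r),
    ← map_natCast (C : ZMod 2 →+* S r), C_mul_monomial, monomial_mul, mul_one, mul_one, mul_one,
    add_comm (Finsupp.single q s)]

theorem exp_apply {r : ℕ} (a : Fin r →₀ ℕ) {P Q : Fin r} (hne : P ≠ Q) (s : ℕ) (j : Fin r) :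
    (Finsupp.single P (a P - s) + Finsupp.single Q s + a.erase P : Fin r →₀ ℕ) j =
      if j = P then a P - s else if j = Q then s + a Q else a j := by
  rw [Finsupp.add_apply, Finsupp.add_apply]
  by_cases h1 : j = P
  · subst h1
    rw [Finsupp.single_eq_same, Finsupp.single_apply, if_neg hne.symm, Finsupp.erase_same, if_pos rfl]
    omega
  · rw [Finsupp.single_apply, if_neg (Ne.symm h1), if_neg h1, Finsupp.erase_ne h1]
    by_cases h2 : j = Q
    · subst h2; rw [Finsupp.single_eq_same, if_pos rfl]; omega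
    · rw [Finsupp.single_apply, if_neg (Ne.symm h2), if_neg h2]; omega

theorem exp_iff {r : ℕ} (a m : Fin r →₀ ℕ) {P Q : Fin r} (h : (Q : ℕ) = P + 1) (s : ℕ) :
    (Finsupp.single P (a P - s) + Finsupp.single Q s + a.erase P = m ∧ s ≤ a P) ↔
      (a = mvF m P s ∧ s ≤ m Q) := by
  have hne : P ≠ Q := by rintro rfl; omega
  constructor
  · rintro ⟨h1, hs⟩
    have h2 : ∀ j, m j = if j = P then a P - s else if j = Q then s + a Q else a j := fun j => by
      rw [← h1, exp_apply a hne]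
    have hP := h2 P
    have hQ := h2 Q
    rw [if_pos rfl] at hP
    rw [if_neg hne.symm, if_pos rfl] at hQ
    refine ⟨?_, by omega⟩
    ext j
    rw [coe_mvF, mv_apply _ h]
    split_ifs with h3 h4
    · rw [h3]; omega
    · rw [h4]; omega
    · rw [h2 j, if_neg h3, if_neg h4]
  · rintro ⟨h1, hs⟩
    have h2 : ∀ j, a j = if j = P then m P + s else if j = Q then m Q - s else m j := fun j => by
      rw [h1, coe_mvF, mv_apply _ h]
    have hP := h2 P
    have hQ := h2 Q
    rw [if_pos rfl] at hP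
    rw [if_neg hne.symm, if_pos rfl] at hQ
    refine ⟨?_, by omega⟩
    ext j
    rw [exp_apply a hne]
    split_ifs with h3 h4
    · rw [h3]; omega
    · rw [h4]; omega
    · rw [h2 j, if_neg h3, if_neg h4]

theorem coeff_tv {r : ℕ} {P Q : Fin r} (h : (Q : ℕ) = P + 1) (f : S r) (m : Fin r →₀ ℕ) :
    coeff m (tv P Q f) = ∑ s ∈ range (m Q + 1),
      (((m P + s).choose s : ℕ) : ZMod 2) * coeff (mvF m P s) f := by
  induction f using MvPolynomial.induction_on' with
  | add f g hf hg => rw [map_add, coeff_add, hf, hg, ← Finset.sum_add_distrib]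
                     exact Finset.sum_congr rfl fun s _ => by rw [coeff_add, mul_add]
  | monomial a c =>
    have hc : (monomial a c : S r) = c • monomial a 1 := by
      rw [smul_monomial, smul_eq_mul, mul_one]
    rw [hc, map_smul, coeff_smul, tv_monomial, coeff_sum, smul_eq_mul, Finset.mul_sum]
    simp only [coeff_monomial, coeff_smul, smul_eq_mul]
    set N := max (a P + 1) (m Q + 1) with hN
    have e1 : ∀ s, (if Finsupp.single P (a P - s) + Finsupp.single Q s + a.erase P = m ∧ s ≤ a P then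
          (((a P).choose s : ℕ) : ZMod 2) else 0) =
        if a = mvF m P s ∧ s ≤ m Q then (((m P + s).choose s : ℕ) : ZMod 2) else 0 := by
      intro s
      by_cases h1 : a = mvF m P s ∧ s ≤ m Q
      · rw [if_pos h1, if_pos ((exp_iff a m h s).2 h1)]
        have : a P = m P + s := by
          rw [h1.1, coe_mvF, mv_apply _ h, if_pos rfl]
        rw [this]
      · rw [if_neg h1, if_neg (fun h' => h1 ((exp_iff a m h s).1 h'))]
    have e2 : ∑ s ∈ range (a P + 1), c * (if Finsupp.single P (a P - s) + Finsupp.single Q s +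
        a.erase P = m then (((a P).choose s : ℕ) : ZMod 2) else 0) =
        ∑ s ∈ range N, c * (if Finsupp.single P (a P - s) + Finsupp.single Q s + a.erase P = m ∧
          s ≤ a P then (((a P).choose s : ℕ) : ZMod 2) else 0) := by
      refine Finset.sum_subset_zero_on_sdiff (fun s hs => ?_) (fun s hs => ?_) (fun s hs => ?_)
      · rw [Finset.mem_range] at *; omega
      · rw [Finset.mem_sdiff, Finset.mem_range, Finset.mem_range] at hs
        rw [if_neg (by omega), mul_zero]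
      · rw [Finset.mem_range] at hs
        have : s ≤ a P := by omega
        simp only [this, and_true]
    have e3 : ∑ s ∈ range (m Q + 1), (((m P + s).choose s : ℕ) : ZMod 2) *
        (c * if a = mvF m P s then 1 else 0) = ∑ s ∈ range N, c *
        (if a = mvF m P s ∧ s ≤ m Q then (((m P + s).choose s : ℕ) : ZMod 2) else 0) := by
      refine Finset.sum_subset_zero_on_sdiff (fun s hs => ?_) (fun s hs => ?_) (fun s hs => ?_)
      · rw [Finset.mem_range] at *; omega
      · rw [Finset.mem_sdiff, Finset.mem_range, Finset.mem_range] at hs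
        rw [if_neg (by omega), mul_zero]
      · rw [Finset.mem_range] at hs
        have : s ≤ m Q := by omega
        simp only [this, and_true]
        split_ifs <;> ring
    rw [e2, e3]
    exact Finset.sum_congr rfl fun s _ => by rw [e1 s]

variable {H : Type*} [AddCommGroup H] [Module (ZMod 2) H] (O : Ops H)

/-- the polynomial `φ_r^*(u)` is invariant -/
theorem Ops.fpoly_inv (x : H) {r t : ℕ} (ht : t ≤ O.M) (u : H →ₗ[ZMod 2] ZMod 2) :
    Inv (O.fpoly x r t u) := by
  refine inv_of_adjacent (fun i h => ?_) (fun i h => ?_)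
  · ext m
    rw [coeff_rename_swap, O.coeff_fpoly, O.coeff_fpoly, coe_mapDomain_swap]
    have h1 : ∑ j, (⇑m ∘ Equiv.swap i ⟨i + 1, h⟩) j = ∑ j, m j :=
      Equiv.sum_comp (Equiv.swap i ⟨i + 1, h⟩) (⇑m)
    rw [h1]
    split_ifs with h2
    · rw [O.tw_swap (⇑m) (i : ℕ) h (by omega)]
    · rfl
  · ext m
    rw [coeff_tv (P := i) (Q := ⟨i + 1, h⟩) rfl, O.coeff_fpoly]
    have h1 : ∀ s ∈ range (m ⟨i + 1, h⟩ + 1), (((m i + s).choose s : ℕ) : ZMod 2) *
        coeff (mvF m i s) (O.fpoly x r t u) = if ∑ j, m j = t then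
          (((m i + s).choose s : ℕ) : ZMod 2) * u (O.tw (Ops.mv (⇑m) i s) x) else 0 := by
      intro s hs
      rw [Finset.mem_range] at hs
      rw [O.coeff_fpoly, coe_mvF, sum_mv (⇑m) (P := i) (Q := ⟨i + 1, h⟩) rfl s (by omega)]
      split_ifs <;> simp
    rw [Finset.sum_congr rfl h1]
    split_ifs with h2
    · rw [O.tw_trans (⇑m) (i : ℕ) h (by omega), map_sum]
      refine Finset.sum_congr rfl fun s _ => ?_
      rw [map_smul, smul_eq_mul]
    · simp

theorem Ops.fpoly_homog (x : H) (r t : ℕ) (u : H →ₗ[ZMod 2] ZMod 2) :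
    (O.fpoly x r t u).IsHomogeneous t := by
  intro m hm
  rw [O.coeff_fpoly] at hm
  by_contra h
  apply hm
  rw [if_neg]
  intro h'
  apply h
  rw [Finsupp.weight_apply, Finsupp.sum_fintype _ _ (by simp)]
  simpa using h'

theorem X_pow_dvd_of_coeff {r k : ℕ} {f : S (r + 1)} (h : ∀ m, coeff m f ≠ 0 → k ≤ m 0) :
    (X 0 : S (r + 1)) ^ k ∣ f := by
  rw [X_pow_eq_monomial, monomial_one_dvd_iff_modMonomial_eq_zero]
  ext m
  rw [coeff_zero]
  by_cases hm : Finsupp.single 0 k ≤ m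
  · rw [coeff_modMonomial_of_le _ hm]
  · rw [coeff_modMonomial_of_not_le _ hm]
    by_contra h'
    refine hm ?_
    rw [Finsupp.single_le_iff]
    exact h m h'

/-- the polynomial `φ_r^*(u)` lies in the degree `t` part of `Q_0^k D_r` -/
theorem Ops.fpoly_mem {k : ℕ} {x : H} (hx : O.Base k x) {r t : ℕ} (ht : t ≤ O.M)
    (u : H →ₗ[ZMod 2] ZMod 2) : O.fpoly x (r + 1) t u ∈ MG r k t := by
  have h1 : O.fpoly x (r + 1) t u ∈ Mk r k := by
    rw [mem_Mk_iff_inv]
    refine ⟨O.fpoly_inv x ht u, X_pow_dvd_of_coeff fun m hm => ?_⟩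
    rw [O.coeff_fpoly] at hm
    by_contra h
    apply hm
    split_ifs with h2
    · rw [O.T_tw_eq_zero hx (⇑m) (by omega) (by omega), map_zero]
    · rfl
  have h2 := Mk_homog h1 (O.fpoly_homog x (r + 1) t u)
  refine Submodule.span_mono ?_ h2
  rintro _ ⟨a, ha, hw, rfl⟩
  exact ⟨⟨a, ha, hw⟩, rfl⟩

/-- **Theorem 3, one length at a time.** -/
theorem Ops.main {k : ℕ} {x : H} (hx : O.Base k x) {r t : ℕ} (ht : t ≤ O.M)
    (hlin : LinearIndependent (ZMod 2) (fun m : Adm (r + 1) k t => O.qw m.1 x)) :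
    (∀ γ ∈ homG (r + 1) t, O.phi x (r + 1) γ = 0 ↔ ∀ p ∈ MG r k t, pr (r + 1) p γ = 0) ∧
    (homG (r + 1) t).map (O.phi x (r + 1)) =
      Submodule.span (ZMod 2) (Set.range fun m : Adm (r + 1) k t => O.qw m.1 x) :=
  O.squeeze x (r + 1) t k (MG r k t) (fun u => O.fpoly_mem hx ht u) (finrank_MG_le r k t) hlin
    (fun m => O.qw_mem hx m.1 m.2.2 ht)

end Crest.Agent.R204.Thm3
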