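import Crest.Agent.R204.Defs

/-!
# Transfers for finite coverings of simplicial sets (row 204, block G)

`Cov p` : every simplicial operator induces bijections between fibres and fibres are finite.
`Cov.tr` : transfer on unnormalised chains, `Cov.ntr` on normalised chains, `Cov.htr` on homology.
`map p ∘ tr = m •` if all fibres have `m` elements, naturality for pullback squares,
surjectivity of `H p` if `m` is a unit in `R` (e.g. `m` odd, `R = F2`).
-/

set_option autoImplicit false

namespace Crest.Agent.R204.Tr348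

open Finsupp

/-- finite coverings -/
structure Cov {L K : SS} (p : SS.Hom L K) : Prop where
  bij : ∀ {m n : ℕ} (f : Op m n) (x : K.S n),
    Set.BijOn (L.act f) {y | p.app n y = x} {z | p.app m z = K.act f x}
  fin : ∀ {n : ℕ} (x : K.S n), {y | p.app n y = x}.Finite

namespace Cov

variable {L K : SS} {p : SS.Hom L K}

/-- fibre as a finset -/
noncomputable def fib (hp : Cov p) {n : ℕ} (x : K.S n) : Finset (L.S n) := (hp.fin x).toFinset

@[simp] theorem mem_fib (hp : Cov p) {n : ℕ} {x : K.S n} {y : L.S n} :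
    y ∈ hp.fib x ↔ p.app n y = x := by simp [fib]

/-- sums over fibres are natural -/
theorem sum_fib_act (hp : Cov p) {M : Type*} [AddCommMonoid M] {m n : ℕ} (f : Op m n) (x : K.S n)
    (g : L.S m → M) : ∑ z ∈ hp.fib (K.act f x), g z = ∑ y ∈ hp.fib x, g (L.act f y) := by
  symm
  refine Finset.sum_bij (fun y _ => L.act f y) ?_ ?_ ?_ ?_
  · intro y hy
    rw [mem_fib] at hy ⊢
    exact (hp.bij f x).mapsTo hy
  · intro y hy y' hy' h
    rw [mem_fib] at hy hy'
    exact (hp.bij f x).injOn hy hy' h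
  · intro z hz
    rw [mem_fib] at hz
    obtain ⟨y, hy, rfl⟩ := (hp.bij f x).surjOn hz
    exact ⟨y, hp.mem_fib.2 hy, rfl⟩
  · intro y _; rfl


variable (R : Type) [CommRing R]

/-- transfer of one simplex -/
noncomputable def trT (hp : Cov p) : K.T → Ch R L := fun t => ∑ y ∈ hp.fib t.2, single ⟨t.1, y⟩ 1

/-- transfer on unnormalised chains -/
noncomputable def tr (hp : Cov p) : Ch R K →ₗ[R] Ch R L := Finsupp.linearCombination R (hp.trT R)

variable {R}

theorem tr_single (hp : Cov p) {n : ℕ} (x : K.S n) (r : R) :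
    hp.tr R (single ⟨n, x⟩ r) = ∑ y ∈ hp.fib x, single (⟨n, y⟩ : L.T) r := by
  simp [tr, trT, Finset.smul_sum]

theorem tr_bd (hp : Cov p) (c : Ch R K) : hp.tr R (Ch.bd R K c) = Ch.bd R L (hp.tr R c) := by
  induction c using Finsupp.induction_linear with
  | zero => simp
  | add f g hf hg => simp only [map_add, hf, hg]
  | single t r =>
    obtain ⟨n, x⟩ := t
    rcases n with _ | n
    · rw [Ch.bd_single_zero, map_zero, tr_single, map_sum]
      exact (Finset.sum_eq_zero fun y _ => Ch.bd_single_zero y r).symm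
    · rw [Ch.bd_single_succ, map_sum, tr_single, map_sum]
      simp only [tr_single, Ch.bd_single_succ]
      rw [Finset.sum_comm]
      refine Finset.sum_congr rfl fun i _ => ?_
      rw [hp.sum_fib_act (Op.face i) x (fun y => single (⟨n, y⟩ : L.T) (r * (-1) ^ (i : ℕ)))]

theorem tr_mem_Dg (hp : Cov p) {c : Ch R K} (hc : c ∈ Ch.Dg R K) : hp.tr R c ∈ Ch.Dg R L := by
  refine Submodule.span_induction (p := fun c _ => hp.tr R c ∈ Ch.Dg R L) ?_ ?_ ?_ ?_ hc
  · rintro _ ⟨⟨n, x⟩, hx, rfl⟩
    rcases n with _ | n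
    · exact hx.elim
    · obtain ⟨j, y, rfl⟩ := hx
      rw [tr_single, hp.sum_fib_act (Op.dgn j) y (fun y => single (⟨n + 1, y⟩ : L.T) (1 : R))]
      exact Submodule.sum_mem _ fun z _ => Submodule.subset_span ⟨_, Ch.isDgn_act _ _ _, rfl⟩
  · simp
  · intro a b _ _ ha hb; rw [map_add]; exact Submodule.add_mem _ ha hb
  · intro r a _ ha; rw [map_smul]; exact Submodule.smul_mem _ _ ha

theorem map_tr (hp : Cov p) {m : ℕ} (hm : ∀ (n : ℕ) (x : K.S n), (hp.fib x).card = m) (c : Ch R K) :
    Ch.map R p (hp.tr R c) = (m : R) • c := by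
  induction c using Finsupp.induction_linear with
  | zero => simp
  | add f g hf hg => simp only [map_add, hf, hg, smul_add]
  | single t r =>
    obtain ⟨n, x⟩ := t
    rw [tr_single, map_sum]
    rw [Finset.sum_congr rfl (g := fun _ => single (⟨n, x⟩ : K.T) r)]
    · rw [Finset.sum_const, hm n x, Nat.cast_smul_eq_nsmul]
    · intro y hy
      rw [mem_fib] at hy
      rw [Ch.map_single, hy]



variable (R)

/-- transfer on normalised chains -/
noncomputable def ntr (hp : Cov p) : N R K →ₗ[R] N R L :=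
  Submodule.mapQ _ _ (hp.tr R) (fun _ hc => hp.tr_mem_Dg hc)

variable {R}

theorem ntr_mk (hp : Cov p) (c : Ch R K) :
    hp.ntr R (Submodule.Quotient.mk c) = Submodule.Quotient.mk (hp.tr R c) := rfl


theorem ntr_bd (hp : Cov p) : hp.ntr R ∘ₗ N.bd R K = N.bd R L ∘ₗ hp.ntr R := by
  ext c
  simp only [LinearMap.comp_apply, Submodule.mkQ_apply]
  rw [N.bd_mk, ntr_mk, ntr_mk, N.bd_mk, tr_bd]


theorem map_ntr (hp : Cov p) {m : ℕ} (hm : ∀ (n : ℕ) (x : K.S n), (hp.fib x).card = m)
    (c : N R K) : N.map R p (hp.ntr R c) = (m : R) • c := by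
  obtain ⟨c, rfl⟩ := Submodule.Quotient.mk_surjective _ c
  rw [ntr_mk, N.map_mk, map_tr hp hm]; rfl


variable (R)

/-- transfer on homology -/
noncomputable def htr (hp : Cov p) : H R K →ₗ[R] H R L := Hd.map (hp.ntr R) hp.ntr_bd

variable {R}

theorem map_htr (hp : Cov p) {m : ℕ} (hm : ∀ (n : ℕ) (x : K.S n), (hp.fib x).card = m)
    (x : H R K) : H.map R p (hp.htr R x) = (m : R) • x := by
  obtain ⟨z, hz, rfl⟩ := Hd.mk_surj _ x
  rw [htr, Hd.map_mk, H.map, Hd.map_mk, Hd.mk]
  have e := map_ntr (R := R) hp hm z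
  have : (⟨N.map R p (hp.ntr R z), by
      have := LinearMap.congr_fun (N.map_bd (R := R) p) (hp.ntr R z)
      have h2 := LinearMap.congr_fun (hp.ntr_bd (R := R)) z
      simp only [LinearMap.comp_apply] at this h2
      rw [LinearMap.mem_ker, ← this, ← h2, hz, map_zero, map_zero]⟩ : LinearMap.ker (N.bd R K)) =
      (m : R) • ⟨z, hz⟩ := Subtype.ext e
  rw [this]; rfl


/-- `H p` is onto when the number of sheets is a unit in `R` -/
theorem map_surjective (hp : Cov p) {m : ℕ} (hm : ∀ (n : ℕ) (x : K.S n), (hp.fib x).card = m)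
    (hu : IsUnit (m : R)) : Function.Surjective (H.map R p) := by
  intro x
  obtain ⟨u, hu⟩ := hu
  refine ⟨hp.htr R ((↑u⁻¹ : R) • x), ?_⟩
  rw [map_htr hp hm, ← hu, smul_smul, Units.mul_inv, one_smul]

/-- mod 2: an odd number of sheets gives a surjection in homology -/
theorem map_surjective_odd (hp : Cov p) {m : ℕ} (hm : ∀ (n : ℕ) (x : K.S n), (hp.fib x).card = m)
    (ho : Odd m) : Function.Surjective (H.map F2 p) := by
  refine map_surjective hp hm ?_
  have : ((m : ℕ) : ZMod 2) = 1 := by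
    rw [← Nat.cast_one, ZMod.natCast_eq_natCast_iff']
    rw [Nat.odd_iff.1 ho]
  rw [show ((m : F2)) = 1 from this]
  exact isUnit_one


end Cov


end Crest.Agent.R204.Tr348
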