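import Crest.Agent.R204.InstSp_194

/-!
# Row 204 (helper194): the loop `iotaL n` collapses exactly the boundary of the cube
-/

set_option autoImplicit false

noncomputable section

namespace Crest.Agent.R204.Inst194

open scoped Topology unitInterval Topology.Homotopy
open Crest.Agent.R204 Crest.Agent.R204.Freu297 Metric

/-! ## chords -/

section chord
variable {F : Type*} [NormedAddCommGroup F] [InnerProductSpace ℝ F]

open scoped InnerProductSpace

theorem norm_add_smul_sq (x0 w : F) (l : ℝ) :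
    ‖x0 + l • w‖ ^ 2 = ‖x0‖ ^ 2 + 2 * l * ⟪x0, w⟫_ℝ + l ^ 2 * ‖w‖ ^ 2 := by
  rw [norm_add_sq_real, inner_smul_right, norm_smul, mul_pow, Real.norm_eq_abs, sq_abs]
  ring

theorem chord_exists {x0 z : F} (h0 : ‖x0‖ = 1) (hz : ‖z‖ ≤ 1) (hne : z ≠ x0) :
    ∃ (y : F) (s : ℝ), ‖y‖ = 1 ∧ y ≠ x0 ∧ 0 < s ∧ s ≤ 1 ∧ z = x0 + s • (y - x0) := by
  set w := z - x0 with hw
  have hw0 : w ≠ 0 := sub_ne_zero.2 hne
  have hwp : 0 < ‖w‖ ^ 2 := by positivity
  have hzw : z = x0 + (1 : ℝ) • w := by rw [hw, one_smul]; abel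
  have h1 : ‖z‖ ^ 2 = 1 + 2 * ⟪x0, w⟫_ℝ + ‖w‖ ^ 2 := by
    rw [hzw, norm_add_smul_sq, h0]; ring
  have h2 : ‖z‖ ^ 2 ≤ 1 := by nlinarith [norm_nonneg z]
  set l : ℝ := -2 * ⟪x0, w⟫_ℝ / ‖w‖ ^ 2 with hl
  have hl1 : 1 ≤ l := by
    rw [hl, le_div_iff₀ hwp]; linarith
  have hlp : 0 < l := by linarith
  have hlw : l * ‖w‖ ^ 2 = -2 * ⟪x0, w⟫_ℝ := by
    rw [hl]; field_simp
  refine ⟨x0 + l • w, 1 / l, ?_, ?_, by positivity, ?_, ?_⟩
  · have : ‖x0 + l • w‖ ^ 2 = 1 := by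
      rw [norm_add_smul_sq, h0]
      have : l ^ 2 * ‖w‖ ^ 2 = l * (l * ‖w‖ ^ 2) := by ring
      rw [this, hlw]; ring
    nlinarith [norm_nonneg (x0 + l • w)]
  · intro h
    have : l • w = 0 := by
      have := congrArg (fun v => v - x0) h
      simpa using this
    rcases smul_eq_zero.1 this with h | h
    · exact absurd h hlp.ne'
    · exact hw0 h
  · rw [div_le_one hlp]; exact hl1
  · rw [add_sub_cancel_left, smul_smul, one_div, inv_mul_cancel₀ hlp.ne', one_smul, hw]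
    abel

theorem chord_unique {x0 y y' : F} {s s' : ℝ} (h0 : ‖x0‖ = 1) (hy : ‖y‖ = 1) (hy' : ‖y'‖ = 1)
    (hne : y ≠ x0) (hs : 0 < s) (hs' : 0 < s')
    (h : x0 + s • (y - x0) = x0 + s' • (y' - x0)) : s = s' ∧ y = y' := by
  have hw : s • (y - x0) = s' • (y' - x0) := add_left_cancel h
  set w := s • (y - x0) with hwd
  have hw0 : w ≠ 0 := smul_ne_zero hs.ne' (sub_ne_zero.2 hne)
  have hwp : 0 < ‖w‖ ^ 2 := by positivity
  have key : ∀ (v : F) (r : ℝ), ‖v‖ = 1 → 0 < r → w = r • (v - x0) →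
      ‖w‖ ^ 2 = -2 * r * ⟪x0, w⟫_ℝ := by
    intro v r hv hr hrw
    have hv' : v = x0 + r⁻¹ • w := by
      rw [hrw, smul_smul, inv_mul_cancel₀ hr.ne', one_smul]; abel
    have h1 : ‖v‖ ^ 2 = 1 + 2 * r⁻¹ * ⟪x0, w⟫_ℝ + r⁻¹ ^ 2 * ‖w‖ ^ 2 := by
      conv_lhs => rw [hv']
      rw [norm_add_smul_sq, h0]; ring
    rw [hv] at h1
    have h2 : r⁻¹ ^ 2 * ‖w‖ ^ 2 = -2 * r⁻¹ * ⟪x0, w⟫_ℝ := by linarith
    have h3 := congrArg (fun q => r ^ 2 * q) h2
    have e1 : r ^ 2 * (r⁻¹ ^ 2 * ‖w‖ ^ 2) = ‖w‖ ^ 2 := by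
      field_simp
    have e2 : r ^ 2 * (-2 * r⁻¹ * ⟪x0, w⟫_ℝ) = -2 * r * ⟪x0, w⟫_ℝ := by
      field_simp
    exact e1.symm.trans (h3.trans e2)
  have k1 := key y s hy hs rfl
  have k2 := key y' s' hy' hs' hw
  have hin : ⟪x0, w⟫_ℝ ≠ 0 := by
    intro h0'
    rw [h0', mul_zero] at k1
    exact hwp.ne' k1
  have hss : s = s' := by
    have : s * ⟪x0, w⟫_ℝ = s' * ⟪x0, w⟫_ℝ := by linarith
    exact mul_right_cancel₀ hin this
  refine ⟨hss, ?_⟩
  subst hss
  have := smul_right_injective F hs.ne' (hwd.symm.trans hw)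
  exact sub_left_injective this

end chord

/-! ## the suspension map of the spheres -/

/-- the point of the disc under `E (x, t)` -/
theorem norm_chord_le {F : Type*} [NormedAddCommGroup F] [NormedSpace ℝ F] {x0 y : F} {s : ℝ}
    (h0 : ‖x0‖ = 1) (hy : ‖y‖ = 1) (hs : 0 ≤ s) (hs1 : s ≤ 1) : ‖x0 + s • (y - x0)‖ ≤ 1 := by
  have : x0 + s • (y - x0) = (1 - s) • x0 + s • y := by
    rw [smul_sub, sub_smul, one_smul]; abel
  rw [this]
  refine (norm_add_le _ _).trans ?_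
  rw [norm_smul, norm_smul, h0, hy, Real.norm_of_nonneg hs, Real.norm_of_nonneg (by linarith)]
  linarith

theorem norm_pt' (n : ℕ) : ‖((pt n : Sph n) : EuclideanSpace ℝ (Fin (n + 1)))‖ = 1 := by simp

theorem norm_sph {n : ℕ} (x : Sph n) : ‖(x : EuclideanSpace ℝ (Fin (n + 1)))‖ = 1 := by
  have := x.2
  rwa [mem_sphere_zero_iff_norm] at this

/-- the suspension map `S^m × I → S^(m+1)` -/
abbrev ES1 (m : ℕ) : C(Sph m × I, Sph (m + 1)) := (sphDbl m).E (pt m : Sph m)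

theorem ES1_apply (m : ℕ) (x : Sph m) (t : I) : ES1 m (x, t) =
    if (t : ℝ) ≤ 1 / 2 then (sphDbl m).lo ((pt m : EuclideanSpace ℝ (Fin (m + 1))) +
        (2 * (t : ℝ)) • ((x : EuclideanSpace ℝ (Fin (m + 1))) - pt m))
    else (sphDbl m).up ((pt m : EuclideanSpace ℝ (Fin (m + 1))) +
        (2 - 2 * (t : ℝ)) • ((x : EuclideanSpace ℝ (Fin (m + 1))) - pt m)) := rfl

/-- the radius parameter -/
def par (t : I) : ℝ := if (t : ℝ) ≤ 1 / 2 then 2 * t else 2 - 2 * t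

theorem par_nonneg (t : I) : 0 ≤ par t := by
  unfold par; have := t.2.1; have := t.2.2; split_ifs <;> linarith

theorem par_le_one (t : I) : par t ≤ 1 := by
  unfold par; have := t.2.1; have := t.2.2; split_ifs <;> linarith

theorem par_pos {t : I} (h0 : (0 : ℝ) < t) (h1 : (t : ℝ) < 1) : 0 < par t := by
  unfold par; split_ifs <;> linarith

theorem yc_ES1 (m : ℕ) (x : Sph m) (t : I) : (sphDbl m).yc (ES1 m (x, t)) =
    (pt m : EuclideanSpace ℝ (Fin (m + 1))) +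
      par t • ((x : EuclideanSpace ℝ (Fin (m + 1))) - pt m) := by
  have hn := norm_chord_le (norm_pt' m) (norm_sph x) (par_nonneg t) (par_le_one t)
  rw [ES1_apply]
  unfold par at hn ⊢
  split_ifs with h
  · rw [if_pos h] at hn
    exact (sphDbl m).yc_lo _ hn
  · rw [if_neg h] at hn
    exact (sphDbl m).yc_up _ hn


theorem ES1_ne {m : ℕ} {x : Sph m} {t : I} (hx : x ≠ pt m) (h0 : (0 : ℝ) < t) (h1 : (t : ℝ) < 1) :
    ES1 m (x, t) ≠ pt (m + 1) := by
  intro h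
  have h2 := congrArg (sphDbl m).yc h
  rw [yc_ES1, ← pt_succ, (sphDbl m).yc_up _ (norm_pt' m).le] at h2
  have h3 : par t • ((x : EuclideanSpace ℝ (Fin (m + 1))) - pt m) = 0 := by
    have := congrArg (fun v => v - (pt m : EuclideanSpace ℝ (Fin (m + 1)))) h2
    simpa using this
  rcases smul_eq_zero.1 h3 with h4 | h4
  · exact (par_pos h0 h1).ne' h4
  · exact hx (Subtype.ext (sub_eq_zero.1 h4))

theorem ES1_inj {m : ℕ} {x x' : Sph m} {t t' : I} (hx : x ≠ pt m)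
    (h0 : (0 : ℝ) < t) (h1 : (t : ℝ) < 1) (h0' : (0 : ℝ) < t') (h1' : (t' : ℝ) < 1)
    (h : ES1 m (x, t) = ES1 m (x', t')) : x = x' ∧ t = t' := by
  have hy := congrArg (sphDbl m).yc h
  rw [yc_ES1, yc_ES1] at hy
  obtain ⟨hp, hxx⟩ := chord_unique (norm_pt' m) (norm_sph x) (norm_sph x')
    (fun h => hx (Subtype.ext h)) (par_pos h0 h1) (par_pos h0' h1') hy
  refine ⟨Subtype.ext hxx, ?_⟩
  -- the side
  have side : ∀ (z : Sph m) (r r' : I), z ≠ pt m → (r : ℝ) ≤ 1 / 2 → ¬ (r' : ℝ) ≤ 1 / 2 →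
      (0 : ℝ) < r → par r = par r' → ES1 m (z, r) = ES1 m (z, r') → False := by
    intro z r r' hz hr hr' hr0 hpp he
    have e1 : (sphDbl m).hc (ES1 m (z, r)) ≤ 0 := by
      rw [ES1_apply, if_pos hr]; exact (sphDbl m).hc_lo _
    have e2 : 0 ≤ (sphDbl m).hc (ES1 m (z, r')) := by
      rw [ES1_apply, if_neg hr']; exact (sphDbl m).hc_up _
    rw [← he] at e2
    have e3 : (sphDbl m).hc (ES1 m (z, r)) = 0 := le_antisymm e1 e2
    rw [(sphDbl m).hc_eq, yc_ES1] at e3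
    have hr1 : (r : ℝ) < 1 := by linarith
    obtain ⟨e4, -⟩ := chord_unique (s := par r) (s' := 1)
      (y' := (pt m : EuclideanSpace ℝ (Fin (m + 1))) +
        par r • ((z : EuclideanSpace ℝ (Fin (m + 1))) - pt m)) (norm_pt' m) (norm_sph z) e3
      (fun h => hz (Subtype.ext h)) (par_pos hr0 hr1) one_pos (by rw [one_smul]; abel)
    have e5 : par r' = 1 := hpp ▸ e4
    unfold par at e5
    rw [if_neg hr'] at e5
    linarith
  have hxx' : x = x' := Subtype.ext hxx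
  subst hxx'
  by_cases ht : (t : ℝ) ≤ 1 / 2 <;> by_cases ht' : (t' : ℝ) ≤ 1 / 2
  · unfold par at hp
    rw [if_pos ht, if_pos ht'] at hp
    exact Subtype.ext (by linarith)
  · exact (side x t t' hx ht ht' h0 hp h).elim
  · exact (side x t' t hx ht' ht h0' hp.symm h.symm).elim
  · unfold par at hp
    rw [if_neg ht, if_neg ht'] at hp
    exact Subtype.ext (by linarith)

theorem ES1_surj {m : ℕ} {y : Sph (m + 1)} (hy : y ≠ pt (m + 1)) :
    ∃ (x : Sph m) (t : I), x ≠ pt m ∧ (0 : ℝ) < t ∧ (t : ℝ) < 1 ∧ ES1 m (x, t) = y := by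
  have hv : (sphDbl m).yc y ≠ (pt m : EuclideanSpace ℝ (Fin (m + 1))) := by
    intro h
    have h1 : (sphDbl m).hc y = 0 := by rw [(sphDbl m).hc_eq, h]; exact norm_pt' m
    have h2 := (sphDbl m).up_yc y h1.ge
    rw [h, pt_succ] at h2
    exact hy h2.symm
  obtain ⟨x, s, hx, hxne, hs0, hs1, hxs⟩ := chord_exists (norm_pt' m) ((sphDbl m).yc_le y) hv
  have hxm : x ∈ sphere (0 : EuclideanSpace ℝ (Fin (m + 1))) 1 := by
    rw [mem_sphere_zero_iff_norm]; exact hx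
  by_cases hh : (sphDbl m).hc y ≤ 0
  · refine ⟨⟨x, hxm⟩, ⟨s / 2, by constructor <;> linarith⟩, fun h => hxne (congrArg Subtype.val h),
      by show (0 : ℝ) < s / 2; linarith, by show s / 2 < (1 : ℝ); linarith, ?_⟩
    rw [ES1_apply, if_pos (by show s / 2 ≤ (1 : ℝ) / 2; linarith)]
    have : (2 * ((⟨s / 2, by constructor <;> linarith⟩ : I) : ℝ)) = s := by
      show 2 * (s / 2) = s; ring
    rw [this, ← hxs]
    exact (sphDbl m).lo_yc y hh
  · have hh' : 0 ≤ (sphDbl m).hc y := (not_le.1 hh).le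
    have hs1' : s < 1 := by
      refine lt_of_le_of_ne hs1 fun h => ?_
      rw [h, one_smul, add_sub_cancel] at hxs
      have : (sphDbl m).hc y = 0 := by rw [(sphDbl m).hc_eq, hxs]; exact hx
      exact hh this.le
    refine ⟨⟨x, hxm⟩, ⟨1 - s / 2, by constructor <;> linarith⟩,
      fun h => hxne (congrArg Subtype.val h),
      by show (0 : ℝ) < 1 - s / 2; linarith, by show 1 - s / 2 < (1 : ℝ); linarith, ?_⟩
    rw [ES1_apply, if_neg (by show ¬ (1 - s / 2 ≤ (1 : ℝ) / 2); linarith)]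
    have : (2 - 2 * ((⟨1 - s / 2, by constructor <;> linarith⟩ : I) : ℝ)) = s := by
      show 2 - 2 * (1 - s / 2) = s; ring
    rw [this, ← hxs]
    exact (sphDbl m).up_yc y hh'

/-! ## the fundamental loop -/

theorem npt_ne : npt ≠ pt 0 := by
  intro h
  have h1 := congrArg (fun x : Sph 0 => (x : EuclideanSpace ℝ (Fin 1)) 0) h
  simp only [npt, pt] at h1
  simp at h1
  norm_num at h1

theorem eq_npt {y : Sph 0} (hy : y ≠ pt 0) : y = npt := by
  have h1 := norm_sph y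
  rw [EuclideanSpace.norm_eq, Fin.sum_univ_one, Real.sqrt_eq_one] at h1
  have h2 : ((y : EuclideanSpace ℝ (Fin 1)) 0) ^ 2 = 1 := by
    rw [Real.norm_eq_abs, sq_abs] at h1; exact h1
  have h3 : ((y : EuclideanSpace ℝ (Fin 1)) 0 - 1) * ((y : EuclideanSpace ℝ (Fin 1)) 0 + 1) = 0 := by
    linear_combination h2
  rcases mul_eq_zero.1 h3 with h | h
  · refine absurd (Subtype.ext ?_) hy
    ext i
    have hi : i = 0 := Fin.ext (by omega)
    subst hi
    rw [sub_eq_zero.1 h]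
    simp [pt]
  · refine Subtype.ext ?_
    ext i
    have hi : i = 0 := Fin.ext (by omega)
    subst hi
    rw [eq_neg_of_add_eq_zero_left h]
    simp [npt]


theorem iotaL_succ (n : ℕ) (w : Fin (n + 1) → I) :
    iotaL (n + 1) w = ES1 n (iotaL n (Fin.init w), w (Fin.last n)) := rfl

theorem mem_boundary_iff {n : ℕ} (w : Fin (n + 1) → I) :
    w ∈ Cube.boundary (Fin (n + 1)) ↔
      Fin.init w ∈ Cube.boundary (Fin n) ∨ w (Fin.last n) = 0 ∨ w (Fin.last n) = 1 := by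
  constructor
  · rintro ⟨i, hi⟩
    induction i using Fin.lastCases with
    | last => exact Or.inr hi
    | cast i => exact Or.inl ⟨i, hi⟩
  · rintro (⟨i, hi⟩ | h)
    · exact ⟨i.castSucc, hi⟩
    · exact ⟨Fin.last n, h⟩

theorem iotaL_ne : ∀ (n : ℕ) (w : Fin n → I), w ∉ Cube.boundary (Fin n) → iotaL n w ≠ pt n
  | 0, w, _ => npt_ne
  | n + 1, w, hw => by
    rw [mem_boundary_iff] at hw
    push Not at hw
    rw [iotaL_succ]
    refine ES1_ne (iotaL_ne n _ hw.1) ?_ ?_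
    · exact lt_of_le_of_ne (w (Fin.last n)).2.1 fun h => hw.2.1 (Subtype.ext h.symm)
    · exact lt_of_le_of_ne (w (Fin.last n)).2.2 fun h => hw.2.2 (Subtype.ext h)

theorem iotaL_inj : ∀ (n : ℕ) (w w' : Fin n → I), w ∉ Cube.boundary (Fin n) →
    w' ∉ Cube.boundary (Fin n) → iotaL n w = iotaL n w' → w = w'
  | 0, w, w', _, _, _ => Subsingleton.elim _ _
  | n + 1, w, w', hw, hw', h => by
    rw [mem_boundary_iff] at hw hw'
    push Not at hw hw'
    rw [iotaL_succ, iotaL_succ] at h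
    obtain ⟨h1, h2⟩ := ES1_inj (iotaL_ne n _ hw.1)
      (lt_of_le_of_ne (w (Fin.last n)).2.1 fun h => hw.2.1 (Subtype.ext h.symm))
      (lt_of_le_of_ne (w (Fin.last n)).2.2 fun h => hw.2.2 (Subtype.ext h))
      (lt_of_le_of_ne (w' (Fin.last n)).2.1 fun h => hw'.2.1 (Subtype.ext h.symm))
      (lt_of_le_of_ne (w' (Fin.last n)).2.2 fun h => hw'.2.2 (Subtype.ext h)) h
    have h3 := iotaL_inj n _ _ hw.1 hw'.1 h1
    rw [← Fin.snoc_init_self (α := fun _ => I) w, ← Fin.snoc_init_self (α := fun _ => I) w', h2]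
    exact congrArg (fun v => (Fin.snoc v (w' (Fin.last n)) : Fin (n + 1) → I)) h3

theorem iotaL_surj : ∀ (n : ℕ) (y : Sph n), y ≠ pt n → ∃ w, w ∉ Cube.boundary (Fin n) ∧ iotaL n w = y
  | 0, y, hy => ⟨fun i => i.elim0, fun ⟨i, _⟩ => i.elim0, (eq_npt hy).symm⟩
  | n + 1, y, hy => by
    obtain ⟨x, t, hx, h0, h1, hxy⟩ := ES1_surj hy
    obtain ⟨w, hw, hwx⟩ := iotaL_surj n x hx
    refine ⟨Fin.snoc (α := fun _ => I) w t, ?_, ?_⟩
    · rw [mem_boundary_iff, Fin.snoc_last, Fin.init_snoc]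
      push Not
      refine ⟨hw, fun h => ?_, fun h => ?_⟩
      · rw [h] at h0; exact absurd h0 (lt_irrefl _)
      · rw [h] at h1; exact absurd h1 (lt_irrefl _)
    · rw [iotaL_succ, Fin.snoc_last, Fin.init_snoc, hwx, hxy]

end Crest.Agent.R204.Inst194
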